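import Claimed.Agent.R286.Bud.GeoDefs

/-!
# Row 286, N4d: the potential, increments of `α`, caps as intervals   (head helper109)
All elementary: `G` is bounded measurable on `[0,1]` (`pz` kills `p B / r` near `0`), `H` is Lipschitz, `{H<0}` is relatively open.
-/

set_option autoImplicit false

open MeasureTheory Set Filter Topology

namespace Claimed.Agent.R286

namespace BudGeo

variable {g : BudGeo}

theorem G_meas (h : g.Ok) : Measurable g.G := by
  unfold G budBr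
  have hp := h.pm
  have hS := h.Sm
  have hB := h.Bm
  have hC := h.Cm
  fun_prop

theorem pot_S_le_one (h : g.Ok) {r : ℝ} (hr : r ∈ Icc (0:ℝ) 1) : g.S r ≤ 1 := by
  have h1 := h.SB r hr
  have h2 := h.B1 r hr
  have h3 := h.S0 r hr
  nlinarith

theorem pot_B_nonneg (h : g.Ok) {r : ℝ} (hr : r ∈ Icc (0:ℝ) 1) : 0 ≤ g.B r :=
  (sq_nonneg _).trans (h.SB r hr)

theorem G_bdd (h : g.Ok) : ∃ K, ∀ r ∈ Icc (0:ℝ) 1, |g.G r| ≤ K := by
  obtain ⟨K, hK⟩ := h.Cbd
  obtain ⟨e, he, hpe⟩ := h.pz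
  refine ⟨K * (4 + 1 / e), fun r hr => ?_⟩
  have hC0 := h.Cpos r hr
  have hCK := hK r hr
  have hp0 := h.p0 r hr
  have hp1 := h.p1 r hr
  have hS0 := h.S0 r hr
  have hS1 := pot_S_le_one h hr
  have hB0 := pot_B_nonneg h hr
  have hB1 := h.B1 r hr
  have hq : 0 ≤ g.p r * g.B r / r ∧ g.p r * g.B r / r ≤ 1 / e := by
    by_cases hre : r ≤ e
    · rw [hpe r ⟨hr.1, hre⟩]
      simp only [zero_mul, zero_div, le_refl, true_and]
      positivity
    · push Not at hre
      have hr0 : 0 < r := he.trans hre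
      constructor
      · positivity
      · rw [div_le_div_iff₀ hr0 he]
        have h5 : g.p r * g.B r ≤ 1 := by nlinarith
        have h6 : g.p r * g.B r * e ≤ 1 * e := mul_le_mul_of_nonneg_right h5 he.le
        linarith
  have hbr : |budBr (g.p r) r (g.S r) (g.B r)| ≤ 4 + 1 / e := by
    unfold budBr
    rw [abs_le]
    have h1 : 0 ≤ (2 - g.p r) * r := mul_nonneg (by linarith) hr.1
    have h2 : (2 - g.p r) * r ≤ 2 := by nlinarith [hr.2, hr.1]
    have h3 : 0 ≤ 2 * (1 - g.p r) * g.S r := mul_nonneg (by linarith) hS0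
    have h4 : 2 * (1 - g.p r) * g.S r ≤ 2 := by nlinarith
    constructor <;> linarith [hq.1, hq.2]
  unfold G
  rw [abs_mul, abs_of_pos hC0]
  have : 0 ≤ 4 + 1 / e := by positivity
  exact mul_le_mul hCK hbr (abs_nonneg _) (hC0.le.trans hCK)

theorem pot_uIcc_sub {s t : ℝ} (hs : s ∈ Icc (0:ℝ) 1) (ht : t ∈ Icc (0:ℝ) 1) :
    uIcc s t ⊆ Icc (0:ℝ) 1 := by
  intro x hx
  rw [mem_uIcc] at hx
  rcases hx with hx | hx
  · exact ⟨hs.1.trans hx.1, hx.2.trans ht.2⟩
  · exact ⟨ht.1.trans hx.1, hx.2.trans hs.2⟩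

theorem G_intervalIntegrable (h : g.Ok) {s t : ℝ} (hs : s ∈ Icc (0:ℝ) 1) (ht : t ∈ Icc (0:ℝ) 1) :
    IntervalIntegrable g.G volume s t := by
  obtain ⟨K, hK⟩ := G_bdd h
  rw [intervalIntegrable_iff]
  refine Measure.integrableOn_of_bounded (M := K) (by simp) (G_meas h).aestronglyMeasurable ?_
  rw [ae_restrict_iff' measurableSet_uIoc]
  refine Eventually.of_forall fun x hx => ?_
  rw [Real.norm_eq_abs]
  exact hK x (pot_uIcc_sub hs ht (uIoc_subset_uIcc hx))

theorem H_sub (h : g.Ok) {s t : ℝ} (hs : s ∈ Icc (0:ℝ) 1) (ht : t ∈ Icc (0:ℝ) 1) :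
    g.H t - g.H s = ∫ r in s..t, g.G r := by
  have h0 : (0:ℝ) ∈ Icc (0:ℝ) 1 := ⟨le_refl _, zero_le_one⟩
  unfold H
  rw [← intervalIntegral.integral_interval_sub_left (G_intervalIntegrable h h0 ht)
    (G_intervalIntegrable h h0 hs)]
  ring

theorem H_cont (h : g.Ok) : ContinuousOn g.H (Icc 0 1) := by
  have h0 : (0:ℝ) ∈ Icc (0:ℝ) 1 := ⟨le_refl _, zero_le_one⟩
  have h1 : (1:ℝ) ∈ Icc (0:ℝ) 1 := ⟨zero_le_one, le_refl _⟩
  have := intervalIntegral.continuousOn_primitive_interval (f := g.G) (μ := volume) (a := 0) (b := 1)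
    (by
      have := (G_intervalIntegrable h h0 h1).1
      rw [uIcc_of_le zero_le_one]
      exact (integrableOn_Icc_iff_integrableOn_Ioc).2 this)
  rw [uIcc_of_le zero_le_one] at this
  unfold H
  exact this.sub continuousOn_const

/-- sign of `G` = sign of the bracket -/
theorem G_neg_iff (h : g.Ok) {r : ℝ} (hr : r ∈ Icc (0:ℝ) 1) :
    g.G r < 0 ↔ budBr (g.p r) r (g.S r) (g.B r) < 0 := by
  unfold G
  have := h.Cpos r hr
  constructor
  · intro h1
    by_contra h2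
    push Not at h2
    have := mul_nonneg this.le h2
    linarith
  · intro h1
    exact mul_neg_of_pos_of_neg this h1

theorem G_pos_iff (h : g.Ok) {r : ℝ} (hr : r ∈ Icc (0:ℝ) 1) :
    0 < g.G r ↔ 0 < budBr (g.p r) r (g.S r) (g.B r) := by
  unfold G
  exact mul_pos_iff_of_pos_left (h.Cpos r hr)

/-- quantitative versions -/
theorem H_sub_le (h : g.Ok) {s t c : ℝ} (hs : 0 ≤ s) (hst : s ≤ t) (ht : t ≤ 1)
    (hG : ∀ r ∈ Ioo s t, g.G r ≤ c) : g.H t - g.H s ≤ c * (t - s) := by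
  have hs' : s ∈ Icc (0:ℝ) 1 := ⟨hs, hst.trans ht⟩
  have ht' : t ∈ Icc (0:ℝ) 1 := ⟨hs.trans hst, ht⟩
  rw [H_sub h hs' ht']
  have h1 : ∫ r in s..t, g.G r ≤ ∫ _r in s..t, c := by
    refine intervalIntegral.integral_mono_ae_restrict hst (G_intervalIntegrable h hs' ht')
      intervalIntegrable_const ?_
    have : ∀ᵐ r ∂(volume.restrict (Icc s t)), r ∈ Ioo s t := by
      rw [← restrict_Ioo_eq_restrict_Icc]
      exact ae_restrict_mem measurableSet_Ioo
    filter_upwards [this] with r hr using hG r hr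
  rw [intervalIntegral.integral_const, smul_eq_mul] at h1
  linarith

theorem le_H_sub (h : g.Ok) {s t c : ℝ} (hs : 0 ≤ s) (hst : s ≤ t) (ht : t ≤ 1)
    (hG : ∀ r ∈ Ioo s t, c ≤ g.G r) : c * (t - s) ≤ g.H t - g.H s := by
  have hs' : s ∈ Icc (0:ℝ) 1 := ⟨hs, hst.trans ht⟩
  have ht' : t ∈ Icc (0:ℝ) 1 := ⟨hs.trans hst, ht⟩
  rw [H_sub h hs' ht']
  have h1 : ∫ _r in s..t, c ≤ ∫ r in s..t, g.G r := by
    refine intervalIntegral.integral_mono_ae_restrict hst intervalIntegrable_const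
      (G_intervalIntegrable h hs' ht') ?_
    have : ∀ᵐ r ∂(volume.restrict (Icc s t)), r ∈ Ioo s t := by
      rw [← restrict_Ioo_eq_restrict_Icc]
      exact ae_restrict_mem measurableSet_Ioo
    filter_upwards [this] with r hr using hG r hr
  rw [intervalIntegral.integral_const, smul_eq_mul] at h1
  linarith

/-- if `H` decreases strictly from `s` to `t` there is a point of `(s,t)` with `G < 0` -/
theorem exists_G_neg (h : g.Ok) {s t : ℝ} (hs : 0 ≤ s) (hst : s < t) (ht : t ≤ 1) (hH : g.H t < g.H s) :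
    ∃ r ∈ Ioo s t, g.G r < 0 := by
  by_contra hcon
  push Not at hcon
  have := le_H_sub h hs hst.le ht (c := 0) hcon
  linarith

theorem exists_G_pos (h : g.Ok) {s t : ℝ} (hs : 0 ≤ s) (hst : s < t) (ht : t ≤ 1) (hH : g.H s < g.H t) :
    ∃ r ∈ Ioo s t, 0 < g.G r := by
  by_contra hcon
  push Not at hcon
  have := H_sub_le h hs hst.le ht (c := 0) hcon
  linarith

/-- `G ≤ 0` on `(s,t)` : `H` nonincreasing; strict version -/
theorem H_le_of_G_nonpos (h : g.Ok) {s t : ℝ} (hs : 0 ≤ s) (hst : s ≤ t) (ht : t ≤ 1)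
    (hG : ∀ r ∈ Ioo s t, g.G r ≤ 0) : g.H t ≤ g.H s := by
  have := H_sub_le h hs hst ht (c := 0) hG
  linarith

theorem H_lt_of_G_neg (h : g.Ok) {s t : ℝ} (hs : 0 ≤ s) (hst : s < t) (ht : t ≤ 1)
    (hG : ∀ r ∈ Ioo s t, g.G r < 0) : g.H t < g.H s := by
  have hs' : s ∈ Icc (0:ℝ) 1 := ⟨hs, hst.le.trans ht⟩
  have ht' : t ∈ Icc (0:ℝ) 1 := ⟨hs.trans hst.le, ht⟩
  have h1 := H_sub h hs' ht'
  have h2 : 0 < ∫ r in s..t, -g.G r := by
    rw [intervalIntegral.integral_pos_iff_support_of_nonneg_ae']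
    · refine ⟨hst, ?_⟩
      have : Ioo s t ⊆ Function.support (fun r => -g.G r) ∩ Ioc s t := by
        intro r hr
        refine ⟨?_, Ioo_subset_Ioc_self hr⟩
        simp only [Function.mem_support, ne_eq, neg_eq_zero]
        exact (hG r hr).ne
      refine lt_of_lt_of_le ?_ (measure_mono this)
      simp [hst]
    · have : ∀ᵐ r ∂(volume.restrict (uIoc s t)), r ∈ Ioo s t := by
        rw [uIoc_of_le hst.le, ← restrict_Ioo_eq_restrict_Ioc]
        exact ae_restrict_mem measurableSet_Ioo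
      filter_upwards [this] with r hr
      simp only [Pi.zero_apply, Left.nonneg_neg_iff]
      exact (hG r hr).le
    · exact (G_intervalIntegrable h hs' ht').neg
  rw [intervalIntegral.integral_neg] at h2
  linarith

/-- a.e. on `(0,1)`: `0 ≤ kb ≤ ρ ≤ M` -/
theorem pot_rho_ae (h : g.Ok) : ∀ᵐ r ∂volume, r ∈ Ioo (0:ℝ) 1 → g.kb r ≤ g.ρ r ∧ g.ρ r ≤ g.M := by
  filter_upwards [h.dens.lo, h.dens.hi] with r h1 h2 hr using ⟨h1 hr, h2 hr⟩

theorem pot_ae_Ioo {s t : ℝ} (hs : 0 ≤ s) (hst : s ≤ t) (ht : t ≤ 1) :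
    ∀ᵐ r ∂(volume.restrict (uIoc s t)), r ∈ Ioo s t ∧ r ∈ Ioo (0:ℝ) 1 := by
  rw [uIoc_of_le hst, ← restrict_Ioo_eq_restrict_Ioc]
  filter_upwards [ae_restrict_mem measurableSet_Ioo] with r hr
  exact ⟨hr, lt_of_le_of_lt hs hr.1, lt_of_lt_of_le hr.2 ht⟩

theorem pot_rho_int (h : g.Ok) {s t : ℝ} (hs : 0 ≤ s) (hst : s ≤ t) (ht : t ≤ 1) :
    IntervalIntegrable g.ρ volume s t := by
  rw [intervalIntegrable_iff]
  refine Measure.integrableOn_of_bounded (M := g.M) (by simp) h.dens.meas.aestronglyMeasurable ?_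
  filter_upwards [pot_ae_Ioo hs hst ht, ae_restrict_of_ae (pot_rho_ae h)] with r hr h1
  have := h1 hr.2
  rw [Real.norm_eq_abs, abs_of_nonneg ((h.kb0 r).trans this.1)]
  exact this.2

theorem pot_kb_int (h : g.Ok) {s t : ℝ} (hs : 0 ≤ s) (hst : s ≤ t) (ht : t ≤ 1) :
    IntervalIntegrable g.kb volume s t := by
  rw [intervalIntegrable_iff]
  refine Measure.integrableOn_of_bounded (M := g.M) (by simp) h.kbm.aestronglyMeasurable ?_
  filter_upwards [pot_ae_Ioo hs hst ht, ae_restrict_of_ae (pot_rho_ae h)] with r hr h1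
  have := h1 hr.2
  rw [Real.norm_eq_abs, abs_of_nonneg (h.kb0 r)]
  exact this.1.trans this.2

theorem pot_al_sub (h : g.Ok) {s t : ℝ} (hs : 0 ≤ s) (hst : s ≤ t) (ht : t ≤ 1) :
    g.al t - g.al s = ∫ r in s..t, g.ρ r := by
  unfold al budAl
  rw [intervalIntegral.integral_interval_sub_left (pot_rho_int h le_rfl (hs.trans hst) ht)
    (pot_rho_int h le_rfl hs (hst.trans ht))]

/-- (d0) increments of `α` -/
theorem al_bounds (h : g.Ok) {s t : ℝ} (hs : 0 ≤ s) (hst : s ≤ t) (ht : t ≤ 1) :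
    (∫ r in s..t, g.kb r) ≤ g.al t - g.al s ∧ g.al t - g.al s ≤ g.M * (t - s) := by
  rw [pot_al_sub h hs hst ht]
  have hae : ∀ᵐ r ∂(volume.restrict (Icc s t)), g.kb r ≤ g.ρ r ∧ g.ρ r ≤ g.M := by
    have := pot_ae_Ioo hs hst ht
    rw [uIoc_of_le hst, restrict_Ioc_eq_restrict_Icc] at this
    filter_upwards [this, ae_restrict_of_ae (pot_rho_ae h)] with r hr h1 using h1 hr.2
  constructor
  · refine intervalIntegral.integral_mono_ae_restrict hst (pot_kb_int h hs hst ht)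
      (pot_rho_int h hs hst ht) ?_
    filter_upwards [hae] with r hr using hr.1
  · have h1 : ∫ r in s..t, g.ρ r ≤ ∫ _r in s..t, g.M := by
      refine intervalIntegral.integral_mono_ae_restrict hst (pot_rho_int h hs hst ht)
        intervalIntegrable_const ?_
      filter_upwards [hae] with r hr using hr.2
    rw [intervalIntegral.integral_const, smul_eq_mul] at h1
    linarith

theorem al_zero (h : g.Ok) : g.al 0 = 0 := by
  unfold al budAl
  simp

theorem al_one (h : g.Ok) : g.al 1 = 1 := h.dens.mass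

theorem pot_kb_int_nonneg (h : g.Ok) {s t : ℝ} (hst : s ≤ t) : 0 ≤ ∫ r in s..t, g.kb r :=
  intervalIntegral.integral_nonneg hst fun r _ => h.kb0 r

theorem al_mono (h : g.Ok) : MonotoneOn g.al (Icc 0 1) := by
  intro s hs t ht hst
  have := (al_bounds h hs.1 hst ht.2).1
  have := pot_kb_int_nonneg h hst
  linarith

theorem al_cap (h : g.Ok) {s t : ℝ} (hs : 0 ≤ s) (hst : s ≤ t) (ht : t ≤ 1)
    (hH : ∀ r ∈ Ioo s t, g.H r < 0) : g.al t - g.al s = g.M * (t - s) := by
  rw [pot_al_sub h hs hst ht]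
  have h1 : ∫ r in s..t, g.ρ r = ∫ _r in s..t, g.M := by
    rw [intervalIntegral.integral_of_le hst, intervalIntegral.integral_of_le hst]
    refine integral_congr_ae ?_
    have := pot_ae_Ioo hs hst ht
    rw [uIoc_of_le hst] at this
    filter_upwards [this, ae_restrict_of_ae h.cap] with r hr h1 using h1 hr.2 (hH r hr.1)
  rw [h1, intervalIntegral.integral_const, smul_eq_mul]
  ring

theorem al_floor (h : g.Ok) {s t : ℝ} (hs : 0 ≤ s) (hst : s ≤ t) (ht : t ≤ 1)
    (hH : ∀ r ∈ Ioo s t, 0 < g.H r) : g.al t - g.al s = ∫ r in s..t, g.kb r := by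
  rw [pot_al_sub h hs hst ht]
  rw [intervalIntegral.integral_of_le hst, intervalIntegral.integral_of_le hst]
  refine integral_congr_ae ?_
  have := pot_ae_Ioo hs hst ht
  rw [uIoc_of_le hst] at this
  filter_upwards [this, ae_restrict_of_ae h.floor] with r hr h1 using h1 hr.2 (hH r hr.1)

/-- (d1) a cap has radius width at most `1/M` -/
theorem cap_width (h : g.Ok) {a b : ℝ} (ha : 0 ≤ a) (hab : a ≤ b) (hb : b ≤ 1)
    (hH : ∀ r ∈ Ioo a b, g.H r < 0) : b - a ≤ 1 / g.M := by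
  have h1 := al_cap h ha hab hb hH
  have hM : 0 < g.M := zero_lt_one.trans h.M1
  have h2 : g.al b ≤ 1 := by
    rw [← al_one h]
    exact al_mono h ⟨ha.trans hab, hb⟩ ⟨zero_le_one, le_rfl⟩ hb
  have h3 : 0 ≤ g.al a := by
    rw [← al_zero h]
    exact al_mono h ⟨le_rfl, zero_le_one⟩ ⟨ha, hab.trans hb⟩ ha
  rw [le_div_iff₀ hM]
  linarith

/-- every point with `H < 0` lies in a maximal cap interval -/
theorem exists_cap (h : g.Ok) {r : ℝ} (hr : r ∈ Icc (0:ℝ) 1) (hH : g.H r < 0) :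
    ∃ a b, a ≤ r ∧ r ≤ b ∧ g.CapL a b ∧ g.CapR a b := by
  have hc := H_cont h
  -- left end
  have hL : ∃ a, 0 ≤ a ∧ a ≤ r ∧ (∀ x ∈ Ioc a r, g.H x < 0) ∧ (g.H a = 0 ∨ a = 0) ∧ (a < r ∨ r = 0) := by
    by_cases hall : ∀ x ∈ Icc 0 r, g.H x < 0
    · refine ⟨0, le_rfl, hr.1, fun x hx => hall x ⟨hx.1.le, hx.2⟩, Or.inr rfl, ?_⟩
      rcases hr.1.eq_or_lt with h0 | h0
      · exact Or.inr h0.symm
      · exact Or.inl h0
    · push Not at hall
      set A : Set ℝ := Icc 0 r ∩ {x | 0 ≤ g.H x} with hA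
      have hAne : A.Nonempty := by
        obtain ⟨x, hx, hx2⟩ := hall
        exact ⟨x, hx, hx2⟩
      have hAcl : IsClosed A := by
        have : ContinuousOn g.H (Icc 0 r) := hc.mono (Icc_subset_Icc le_rfl hr.2)
        have := this.preimage_isClosed_of_isClosed isClosed_Icc (isClosed_Ici (a := (0:ℝ)))
        exact this
      have hAbd : BddAbove A := ⟨r, fun x hx => hx.1.2⟩
      have ha := hAcl.csSup_mem hAne hAbd
      set a := sSup A with ha'
      have har : a < r := by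
        rcases ha.1.2.eq_or_lt with h1 | h1
        · exfalso
          have : 0 ≤ g.H a := ha.2
          rw [h1] at this
          linarith
        · exact h1
      have hneg : ∀ x ∈ Ioc a r, g.H x < 0 := by
        intro x hx
        by_contra hx2
        push Not at hx2
        have : x ≤ a := le_csSup hAbd ⟨⟨ha.1.1.trans hx.1.le, hx.2⟩, hx2⟩
        linarith [hx.1]
      refine ⟨a, ha.1.1, har.le, hneg, Or.inl ?_, Or.inl har⟩
      refine le_antisymm ?_ ha.2
      -- limit from the right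
      have hcw : ContinuousWithinAt g.H (Icc 0 1) a := hc a ⟨ha.1.1, ha.1.2.trans hr.2⟩
      have hcw2 : ContinuousWithinAt g.H (Ioc a r) a :=
        hcw.mono fun x hx => ⟨ha.1.1.trans hx.1.le, hx.2.trans hr.2⟩
      have hnb : (𝓝[Ioc a r] a).NeBot := by
        rw [← mem_closure_iff_nhdsWithin_neBot, closure_Ioc har.ne]
        exact ⟨le_rfl, har.le⟩
      refine le_of_tendsto hcw2 ?_
      filter_upwards [self_mem_nhdsWithin] with x hx using (hneg x hx).le
  have hR : ∃ b, r ≤ b ∧ b ≤ 1 ∧ (∀ x ∈ Ico r b, g.H x < 0) ∧ (g.H b = 0 ∨ b = 1) ∧ (r < b ∨ r = 1) := by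
    by_cases hall : ∀ x ∈ Icc r 1, g.H x < 0
    · refine ⟨1, hr.2, le_rfl, fun x hx => hall x ⟨hx.1, hx.2.le⟩, Or.inr rfl, ?_⟩
      rcases hr.2.eq_or_lt with h0 | h0
      · exact Or.inr h0
      · exact Or.inl h0
    · push Not at hall
      set A : Set ℝ := Icc r 1 ∩ {x | 0 ≤ g.H x} with hA
      have hAne : A.Nonempty := by
        obtain ⟨x, hx, hx2⟩ := hall
        exact ⟨x, hx, hx2⟩
      have hAcl : IsClosed A := by
        have : ContinuousOn g.H (Icc r 1) := hc.mono (Icc_subset_Icc hr.1 le_rfl)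
        have := this.preimage_isClosed_of_isClosed isClosed_Icc (isClosed_Ici (a := (0:ℝ)))
        exact this
      have hAbd : BddBelow A := ⟨r, fun x hx => hx.1.1⟩
      have hb := hAcl.csInf_mem hAne hAbd
      set b := sInf A with hb'
      have hrb : r < b := by
        rcases hb.1.1.eq_or_lt with h1 | h1
        · exfalso
          have : 0 ≤ g.H b := hb.2
          rw [← h1] at this
          linarith
        · exact h1
      have hneg : ∀ x ∈ Ico r b, g.H x < 0 := by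
        intro x hx
        by_contra hx2
        push Not at hx2
        have : b ≤ x := csInf_le hAbd ⟨⟨hx.1, hx.2.le.trans hb.1.2⟩, hx2⟩
        linarith [hx.2]
      refine ⟨b, hrb.le, hb.1.2, hneg, Or.inl ?_, Or.inl hrb⟩
      refine le_antisymm ?_ hb.2
      have hcw : ContinuousWithinAt g.H (Icc 0 1) b := hc b ⟨hr.1.trans hb.1.1, hb.1.2⟩
      have hcw2 : ContinuousWithinAt g.H (Ico r b) b :=
        hcw.mono fun x hx => ⟨hr.1.trans hx.1, hx.2.le.trans hb.1.2⟩
      have hnb : (𝓝[Ico r b] b).NeBot := by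
        rw [← mem_closure_iff_nhdsWithin_neBot, closure_Ico hrb.ne]
        exact ⟨hrb.le, le_rfl⟩
      refine le_of_tendsto hcw2 ?_
      filter_upwards [self_mem_nhdsWithin] with x hx using (hneg x hx).le
  obtain ⟨a, ha0, har, haneg, haz, hastr⟩ := hL
  obtain ⟨b, hrb, hb1, hbneg, hbz, hbstr⟩ := hR
  have hab : a < b := by
    rcases hastr with h1 | h1
    · exact h1.trans_le hrb
    · rcases hbstr with h2 | h2
      · exact har.trans_lt h2
      · rw [h1] at h2; norm_num at h2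
  have hin : ∀ x ∈ Ioo a b, g.H x < 0 := by
    intro x hx
    rcases le_total x r with h1 | h1
    · exact haneg x ⟨hx.1, h1⟩
    · exact hbneg x ⟨h1, hx.2⟩
  exact ⟨a, b, har, hrb, ⟨ha0, hab, hb1, hin, haz⟩, ⟨ha0, hab, hb1, hin, hbz⟩⟩

/-- an interval on which `H < 0` is contained in the maximal cap of any of its points -/
theorem exists_cap_of_Ioo (h : g.Ok) {s t : ℝ} (hs : 0 ≤ s) (hst : s < t) (ht : t ≤ 1)
    (hH : ∀ r ∈ Ioo s t, g.H r < 0) : ∃ a b, a ≤ s ∧ t ≤ b ∧ g.CapL a b ∧ g.CapR a b := by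
  have hm : (s + t) / 2 ∈ Ioo s t := ⟨by linarith, by linarith⟩
  obtain ⟨a, b, ham, hmb, hL, hR⟩ := exists_cap h (r := (s + t) / 2)
    ⟨by linarith [hm.1], by linarith [hm.2]⟩ (hH _ hm)
  refine ⟨a, b, ?_, ?_, hL, hR⟩
  · rcases hL.2.2.2.2 with h0 | h0
    · by_contra hcon
      push Not at hcon
      have := hH a ⟨hcon, ham.trans_lt hm.2⟩
      linarith
    · rw [h0]; exact hs
  · rcases hR.2.2.2.2 with h0 | h0
    · by_contra hcon
      push Not at hcon
      have := hH b ⟨hm.1.trans_le hmb, hcon⟩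
      linarith
    · rw [h0]; exact ht

/-- (d9) a band which carries more mass than its floor contains a nonfloor point -/
theorem exists_nonfloor (h : g.Ok) {s t : ℝ} (hs : 0 ≤ s) (hst : s < t) (ht : t ≤ 1)
    (hm : (∫ r in s..t, g.kb r) < g.al t - g.al s) : ∃ r ∈ Ioo s t, g.H r ≤ 0 := by
  by_contra hcon
  push Not at hcon
  have := al_floor h hs hst.le ht hcon
  linarith

/-- (d9') floor mass inside a band -/
theorem floor_mass (h : g.Ok) {s t : ℝ} (hs : 0 ≤ s) (hst : s ≤ t) (ht : t ≤ 1) :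
    ∫ r in Ioc s t ∩ {r | 0 < g.H r}, g.ρ r ≤ ∫ r in s..t, g.kb r := by
  have hc := H_cont h
  obtain ⟨U, hU, hUeq⟩ := (continuousOn_iff'.1 hc) (Ioi 0) isOpen_Ioi
  have hsub : Ioc s t ⊆ Icc (0:ℝ) 1 := fun x hx => ⟨hs.trans hx.1.le, hx.2.trans ht⟩
  have hset : Ioc s t ∩ {r | 0 < g.H r} = Ioc s t ∩ U := by
    ext x
    constructor
    · rintro ⟨hx1, hx2⟩
      have : x ∈ g.H ⁻¹' Ioi 0 ∩ Icc 0 1 := ⟨hx2, hsub hx1⟩
      rw [hUeq] at this
      exact ⟨hx1, this.1⟩
    · rintro ⟨hx1, hx2⟩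
      have : x ∈ U ∩ Icc 0 1 := ⟨hx2, hsub hx1⟩
      rw [← hUeq] at this
      exact ⟨hx1, this.1⟩
  have hmeas : MeasurableSet (Ioc s t ∩ {r | 0 < g.H r}) := by
    rw [hset]; exact measurableSet_Ioc.inter hU.measurableSet
  have h1 : ∫ r in Ioc s t ∩ {r | 0 < g.H r}, g.ρ r = ∫ r in Ioc s t ∩ {r | 0 < g.H r}, g.kb r := by
    refine integral_congr_ae ?_
    have hne : ∀ᵐ r ∂(volume.restrict (Ioc s t ∩ {r | 0 < g.H r})), r ≠ 1 :=
      ae_restrict_of_ae (by simp [ae_iff])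
    filter_upwards [ae_restrict_mem hmeas, ae_restrict_of_ae h.floor, hne] with r hr h1 h2
    exact h1 ⟨lt_of_le_of_lt hs hr.1.1, lt_of_le_of_ne (hr.1.2.trans ht) h2⟩ hr.2
  rw [h1, intervalIntegral.integral_of_le hst]
  refine setIntegral_mono_set ?_ ?_ ?_
  · have := pot_kb_int h hs hst ht
    rw [intervalIntegrable_iff, uIoc_of_le hst] at this
    exact this
  · exact Eventually.of_forall fun r => h.kb0 r
  · exact Eventually.of_forall fun r hr => hr.1

end BudGeo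

end Claimed.Agent.R286
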