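import Claimed.Agent.R286.Bud.GeoAlg
import Claimed.Agent.R286.Bud.GeoPot

/-!
# Row 286, N4d: caps and nonfloor points (general slope)   (head helper109; proofs helper2)     LL Lemma 7.2, PE (10)
-/

set_option autoImplicit false

open MeasureTheory Set Filter Topology

namespace Claimed.Agent.R286

namespace BudGeo

variable {g : BudGeo}

/-- `S ≤ 1` -/
theorem S_le_one (h : g.Ok) {r : ℝ} (hr : r ∈ Icc (0:ℝ) 1) : g.S r ≤ 1 := by
  have h1 := (h.SB r hr).trans (h.B1 r hr)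
  nlinarith [h.S0 r hr]

/-- above the diagonal the variation density is negative -/
theorem G_neg_of_lt_S (h : g.Ok) {t : ℝ} (ht0 : 0 < t) (ht1 : t ≤ 1) (hS : t < g.S t) : g.G t < 0 := by
  have ht : t ∈ Icc (0:ℝ) 1 := ⟨ht0.le, ht1⟩
  exact (G_neg_iff h ht).2 (budBr_neg_of_lt ht0 (h.p0 t ht) (h.p1 t ht) (h.SB t ht) hS)

/-- (d2) on a cap `S` does not exceed the right endpoint.
Proof: `b = 1`: `S ≤ 1`.  `H b = 0`: if `S r > b` then for `t ∈ [r,b]`, `S t ≥ S r > b ≥ t`, bracket `< 0` (`budBr_neg_of_lt`), `G ≤ 0`, so `H b ≤ H r < 0`. -/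
theorem cap_S_le (h : g.Ok) {a b : ℝ} (hc : g.CapR a b) {r : ℝ} (hr : r ∈ Ioo a b) : g.S r ≤ b := by
  obtain ⟨ha, hab, hb, hH, hend⟩ := hc
  have hr01 : r ∈ Icc (0:ℝ) 1 := ⟨by linarith [hr.1], by linarith [hr.2]⟩
  rcases hend with hb0 | hb1
  · by_contra hcon
    push Not at hcon
    have hG : ∀ t ∈ Ioo r b, g.G t ≤ 0 := by
      intro t ht
      have ht01 : t ∈ Icc (0:ℝ) 1 := ⟨by linarith [ht.1, hr01.1], by linarith [ht.2]⟩
      have hS : g.S r ≤ g.S t := h.Smono hr01 ht01 ht.1.le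
      exact (G_neg_of_lt_S h (by linarith [ht.1, hr01.1]) ht01.2 (by linarith [ht.2])).le
    have h1 := H_le_of_G_nonpos h hr01.1 hr.2.le hb hG
    have h2 := hH r hr
    linarith
  · rw [hb1]; exact S_le_one h hr01

/-- (d3) lower mismatch on a cap.
Proof: `a = 0`: `r - S ≤ r ≤ b - a`.  `H a = 0`: `exists_G_neg` on `(a, r)` gives `r₀ ∈ (a,r)` with bracket `< 0` at slope `p r₀ ≤ p r`;
`budBr_anti_p`, `budBr_lower` give `r₀ - S r ≤ D r`. -/
theorem cap_sub_S_le (h : g.Ok) {a b : ℝ} (hc : g.CapL a b) {r : ℝ} (hr : r ∈ Ioo a b) :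
    r - g.S r ≤ (b - a) + g.D r := by
  obtain ⟨ha, hab, hb, hH, hend⟩ := hc
  have hr01 : r ∈ Icc (0:ℝ) 1 := ⟨by linarith [hr.1], by linarith [hr.2]⟩
  have hD : 0 ≤ g.D r := Real.sqrt_nonneg _
  rcases hend with ha0 | ha0
  · have hlt : g.H r < g.H a := by rw [ha0]; exact hH r hr
    obtain ⟨r0, hr0, hG⟩ := exists_G_neg h ha hr.1 hr01.2 hlt
    have hr001 : r0 ∈ Icc (0:ℝ) 1 := ⟨by linarith [hr0.1], by linarith [hr0.2, hr01.2]⟩
    have hbr := (G_neg_iff h hr001).1 hG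
    have := budBr_lower (by linarith [hr0.1]) (h.p0 r0 hr001) (h.p1 r0 hr001)
      (h.Smono hr001 hr01 hr0.2.le) (h.Bmono hr001 hr01 hr0.2.le) (h.S0 r hr01) (h.SB r hr01) hbr.le
    have hD' : g.D r = Real.sqrt (g.B r - g.S r ^ 2) := rfl
    rw [hD']
    linarith [hr0.1, hr.2]
  · have := h.S0 r hr01
    linarith [hr.2]

/-- on a cap closed on the left, `S > a` when the slope vanishes at the left; general: `S r ≥ 0` only.  Version used in the flat region. -/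
theorem cap_S_ge (h : g.Ok) {a b : ℝ} (hc : g.CapL a b) (hp : ∀ r ∈ Icc a b, g.p r = 0) {r : ℝ}
    (hr : r ∈ Ioo a b) : a ≤ g.S r := by
  obtain ⟨ha, hab, hb, hH, hend⟩ := hc
  have hr01 : r ∈ Icc (0:ℝ) 1 := ⟨by linarith [hr.1], by linarith [hr.2]⟩
  rcases hend with ha0 | ha0
  · have hlt : g.H r < g.H a := by rw [ha0]; exact hH r hr
    obtain ⟨r0, hr0, hG⟩ := exists_G_neg h ha hr.1 hr01.2 hlt
    have hr001 : r0 ∈ Icc (0:ℝ) 1 := ⟨by linarith [hr0.1], by linarith [hr0.2, hr01.2]⟩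
    have hbr := (G_neg_iff h hr001).1 hG
    rw [hp r0 ⟨hr0.1.le, by linarith [hr0.2, hr.2]⟩, budBr_p_zero] at hbr
    have := h.Smono hr001 hr01 hr0.2.le
    linarith [hr0.1]
  · rw [ha0]; exact h.S0 r hr01

/-- (d4) increase of `S` through a complete cap.
Proof: if `a < b/2` (in particular `a = 0`): `S r₂ ≤ b < 2 (b-a)`.  Else take `r₀ ∈ (a,r₁)` with bracket `< 0` and `r' ∈ (r₂,b)` with bracket `> 0`
(or `r' = 1 = b`, `budBr_one_nonneg`), use the slope `p r'` at both (`budBr_anti_p`), `budBr_pair`, `r'/r₀ ≤ 2`, `p r' ≤ p b`. -/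
theorem cap_dS (h : g.Ok) {a b : ℝ} (hl : g.CapL a b) (hr : g.CapR a b) {r₁ r₂ : ℝ}
    (h1 : r₁ ∈ Ioo a b) (h2 : r₂ ∈ Ioo a b) (h12 : r₁ ≤ r₂) :
    g.S r₂ - g.S r₁ ≤ 3 * (b - a) / (1 - g.p b) := by
  have hS2 := cap_S_le h hr h2
  obtain ⟨ha, hab, hb, hH, hendL⟩ := hl
  obtain ⟨-, -, -, -, hendR⟩ := hr
  have hb01 : b ∈ Icc (0:ℝ) 1 := ⟨by linarith, hb⟩
  have h101 : r₁ ∈ Icc (0:ℝ) 1 := ⟨by linarith [h1.1], by linarith [h1.2]⟩
  have h201 : r₂ ∈ Icc (0:ℝ) 1 := ⟨by linarith [h2.1], by linarith [h2.2]⟩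
  have hpb0 := h.p0 b hb01
  have hpb1 := h.p1 b hb01
  have hq : 0 < 1 - g.p b := by linarith
  rw [le_div_iff₀ hq]
  rcases lt_or_ge a (b / 2) with hsmall | hbig
  · have hS1 := h.S0 r₁ h101
    have hmono := h.Smono h101 h201 h12
    have e1 : (g.S r₂ - g.S r₁) * (1 - g.p b) ≤ (g.S r₂ - g.S r₁) * 1 :=
      mul_le_mul_of_nonneg_left (by linarith) (by linarith)
    linarith
  · have ha_pos : 0 < a := by linarith
    have hHa : g.H a = 0 := by
      rcases hendL with h0 | h0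
      · exact h0
      · exact absurd h0 ha_pos.ne'
    have hlt : g.H r₁ < g.H a := by rw [hHa]; exact hH r₁ h1
    obtain ⟨r0, hr0, hG0⟩ := exists_G_neg h ha h1.1 h101.2 hlt
    have hr001 : r0 ∈ Icc (0:ℝ) 1 := ⟨by linarith [hr0.1], by linarith [hr0.2, h101.2]⟩
    have hr0pos : 0 < r0 := by linarith [hr0.1]
    have hbr0 := (G_neg_iff h hr001).1 hG0
    -- the right point
    obtain ⟨r', hr'2, hr'b, hbr'⟩ : ∃ r', r₂ < r' ∧ r' ≤ b ∧
        0 ≤ budBr (g.p r') r' (g.S r') (g.B r') := by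
      rcases hendR with hb0 | hb1
      · have hlt2 : g.H r₂ < g.H b := by rw [hb0]; exact hH r₂ h2
        obtain ⟨r', hr', hG'⟩ := exists_G_pos h h201.1 h2.2 hb hlt2
        have hr'01 : r' ∈ Icc (0:ℝ) 1 := ⟨by linarith [hr'.1, h201.1], by linarith [hr'.2]⟩
        exact ⟨r', hr'.1, hr'.2.le, ((G_pos_iff h hr'01).1 hG').le⟩
      · refine ⟨b, h2.2, le_rfl, ?_⟩
        have := budBr_one_nonneg (h.p0 b hb01) (h.p1 b hb01) (S_le_one h hb01) (h.B1 b hb01)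
        rw [hb1] at this ⊢
        exact this
    have hr'01 : r' ∈ Icc (0:ℝ) 1 := ⟨by linarith [h201.1], by linarith⟩
    have hr0r' : r0 ≤ r' := by linarith [hr0.2]
    have hp' : g.p r0 ≤ g.p r' := h.pmono hr001 hr'01 hr0r'
    have hbr0' : budBr (g.p r') r0 (g.S r0) (g.B r0) ≤ 0 :=
      (budBr_anti_p hr0pos (h.SB r0 hr001) hp').trans hbr0.le
    have hpair := budBr_pair hr0pos hr0r' (h.p0 r' hr'01) (h.p1 r' hr'01) (h.S0 r' hr'01)
      (h.Bmono hr001 hr'01 hr0r') hbr0' hbr'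
    have hratio : r' / r0 ≤ 2 := by
      rw [div_le_iff₀ hr0pos]
      linarith [hr0.1]
    have e0 : 2 * r' / r0 = 2 * (r' / r0) := by ring
    rw [e0] at hpair
    have hw : 0 ≤ r' - r0 := by linarith
    have e1 : (r' - r0) * (2 + 2 * (r' / r0)) ≤ (r' - r0) * 6 :=
      mul_le_mul_of_nonneg_left (by linarith) hw
    have hSS : g.S r₂ - g.S r₁ ≤ g.S r' - g.S r0 := by
      have := h.Smono h201 hr'01 hr'2.le
      have := h.Smono hr001 h101 hr0.2.le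
      linarith
    have hSnn : 0 ≤ g.S r₂ - g.S r₁ := by
      have := h.Smono h101 h201 h12
      linarith
    have hpb : g.p r' ≤ g.p b := h.pmono hr'01 hb01 hr'b
    have hp'1 := h.p1 r' hr'01
    have e2 : (g.S r₂ - g.S r₁) * (1 - g.p b) ≤ (g.S r₂ - g.S r₁) * (1 - g.p r') :=
      mul_le_mul_of_nonneg_left (by linarith) hSnn
    have e3 : (g.S r₂ - g.S r₁) * (1 - g.p r') ≤ (g.S r' - g.S r0) * (1 - g.p r') :=
      mul_le_mul_of_nonneg_right hSS (by linarith)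
    nlinarith [hr0.1]

/-- (d6) every nonfloor point: `S ≤ r + 1/M` (no exceptional set).
Proof: if `S r > r` (so `r < 1`), then `G < 0` on `(r, min (S r) 1)`, `H < 0` there, `exists_cap_of_Ioo` gives a cap `(a,b)`, `a ≤ r`, and `S r ≤ S t ≤ b ≤ a + 1/M`. -/
theorem nonfloor_S_le (h : g.Ok) {r : ℝ} (hr : r ∈ Icc (0:ℝ) 1) (hH : g.H r ≤ 0) :
    g.S r ≤ r + 1 / g.M := by
  have hM : 0 < 1 / g.M := by
    have := h.M1
    positivity
  rcases le_or_gt (g.S r) r with hle | hlt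
  · linarith
  have hS1 := S_le_one h hr
  have hG : ∀ t ∈ Ioo r (g.S r), g.G t < 0 := by
    intro t ht
    have ht01 : t ∈ Icc (0:ℝ) 1 := ⟨by linarith [ht.1, hr.1], by linarith [ht.2]⟩
    have := h.Smono hr ht01 ht.1.le
    exact G_neg_of_lt_S h (by linarith [ht.1, hr.1]) ht01.2 (by linarith [ht.2])
  have hHneg : ∀ t ∈ Ioo r (g.S r), g.H t < 0 := by
    intro t ht
    have := H_lt_of_G_neg h hr.1 ht.1 (by linarith [ht.2]) (fun s hs => hG s ⟨hs.1, by linarith [hs.2, ht.2]⟩)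
    linarith
  obtain ⟨a, b, har, hSb, hL, hR⟩ := exists_cap_of_Ioo h hr.1 hlt hS1 hHneg
  have hw := cap_width h hL.1 hL.2.1.le hL.2.2.1 hL.2.2.2.1
  linarith

/-- look-ahead: if the band `(s,t)` carries more mass than its floor then `S s ≤ t + 1/M` -/
theorem S_le_of_band (h : g.Ok) {s t : ℝ} (hs : 0 ≤ s) (hst : s < t) (ht : t ≤ 1)
    (hm : (∫ r in s..t, g.kb r) < g.al t - g.al s) : g.S s ≤ t + 1 / g.M := by
  obtain ⟨r, hr, hH⟩ := exists_nonfloor h hs hst ht hm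
  have hr01 : r ∈ Icc (0:ℝ) 1 := ⟨by linarith [hr.1], by linarith [hr.2]⟩
  have h1 := nonfloor_S_le h hr01 hH
  have h2 := h.Smono ⟨hs, by linarith⟩ hr01 hr.1.le
  linarith [hr.2]

end BudGeo

end Claimed.Agent.R286
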