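import Claimed.Agent.R286.Bud.GeoAlg
import Claimed.Agent.R286.Bud.GeoPot
import Claimed.Agent.R286.Bud.GeoCap

/-!
# Row 286, N4d: the contact set   (head helper109; proofs helper238)     LL Lemma 7.2, PE (9)
Tools: a.e. `HasDerivAt H (G r) r` (Lebesgue differentiation of the integral of a bounded measurable function);
all but countably many points of a set `Z ⊆ ℝ` are right-accumulation points of `Z` (`countable_setOfPred_isolated_right_within`).
-/

set_option autoImplicit false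

open MeasureTheory Set Filter Topology

namespace Claimed.Agent.R286

/-- all but a null set of points of `Z ⊆ ℝ` are right accumulation points of `Z` -/
theorem bud_ae_right_acc (Z : Set ℝ) : ∀ᵐ r ∂volume, r ∈ Z → ∃ᶠ y in 𝓝[>] r, y ∈ Z := by
  have hc : {x ∈ Z | 𝓝[Z ∩ Ioi x] x = ⊥}.Countable := countable_setOfPred_isolated_right_within
  have h0 : volume {x ∈ Z | 𝓝[Z ∩ Ioi x] x = ⊥} = 0 := hc.measure_zero _
  filter_upwards [measure_eq_zero_iff_ae_notMem.1 h0] with r hr hrZ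
  rw [frequently_mem_iff_neBot, ← nhdsWithin_inter', inter_comm]
  exact ⟨fun hb => hr ⟨hrZ, hb⟩⟩

namespace BudGeo

variable {g : BudGeo}

theorem H_hasDerivAt_ae (h : g.Ok) : ∀ᵐ r ∂volume, r ∈ Ioo (0:ℝ) 1 → HasDerivAt g.H (g.G r) r := by
  have hi : IntervalIntegrable g.G volume 0 1 :=
    G_intervalIntegrable h (left_mem_Icc.2 zero_le_one) (right_mem_Icc.2 zero_le_one)
  filter_upwards [hi.ae_hasDerivAt_integral] with r hr hr01
  have h1 := hr (by rw [uIcc_of_le zero_le_one]; exact Ioo_subset_Icc_self hr01) 0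
    (by rw [uIcc_of_le zero_le_one]; exact left_mem_Icc.2 zero_le_one)
  exact h1.sub_const g.c0

/-- (d5) contact relations, almost everywhere on `{H = 0}` -/
theorem contact_ae (h : g.Ok) :
    ∀ᵐ r ∂volume, r ∈ Ioo (0:ℝ) 1 → g.H r = 0 → budBr (g.p r) r (g.S r) (g.B r) = 0 := by
  filter_upwards [H_hasDerivAt_ae h, bud_ae_right_acc {r | g.H r = 0}] with r hd hacc hr hH
  have hG : g.G r = 0 := by
    by_contra hne
    have h1 : ∀ᶠ z in 𝓝[≠] r, g.H z ≠ 0 := (hd hr).eventually_ne hne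
    have h2 : ∀ᶠ z in 𝓝[>] r, g.H z ≠ 0 :=
      h1.filter_mono (nhdsWithin_mono _ fun y hy => ne_of_gt hy)
    exact (hacc hH) h2
  have hC := h.Cpos r (Ioo_subset_Icc_self hr)
  unfold BudGeo.G at hG
  rcases mul_eq_zero.1 hG with h0 | h0
  · exact absurd h0 hC.ne'
  · exact h0

theorem contact_ae' (h : g.Ok) :
    ∀ᵐ r ∂volume, r ∈ Ioo (0:ℝ) 1 → g.H r = 0 →
      g.S r ≤ r ∧ (r - g.S r) ^ 2 ≤ g.B r - g.S r ^ 2 ∧ r - g.S r ≤ g.D r := by
  filter_upwards [contact_ae h] with r hc hr hH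
  have hr' := Ioo_subset_Icc_self hr
  obtain ⟨h1, h2, -⟩ := budBr_zero hr.1 (h.p0 r hr') (h.p1 r hr') (h.S0 r hr') (h.SB r hr') (hc hr hH)
  exact ⟨h1, h2, Real.le_sqrt_of_sq_le h2⟩

/-- two contact points with vanishing bracket -/
theorem contact_pair (h : g.Ok) {r r' : ℝ} (hr : 0 < r) (hrr : r ≤ r') (hr' : r' ≤ 1)
    (h0 : budBr (g.p r) r (g.S r) (g.B r) = 0) (h1 : budBr (g.p r') r' (g.S r') (g.B r') = 0) :
    2 * (1 - g.p r') * (g.S r' - g.S r) ≤ (r' - r) * (2 + 2 * r' / r) := by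
  have m : r ∈ Icc (0:ℝ) 1 := ⟨hr.le, hrr.trans hr'⟩
  have m' : r' ∈ Icc (0:ℝ) 1 := ⟨hr.le.trans hrr, hr'⟩
  refine budBr_pair hr hrr (h.p0 r' m') (h.p1 r' m') (h.S0 r' m') (h.Bmono m m' hrr) ?_ h1.ge
  exact (budBr_anti_p hr (h.SB r m) (h.pmono m m' hrr)).trans h0.le

/-- (d5') slope of `S` on the contact set -/
theorem contact_deriv (h : g.Ok) (hpc : ContinuousOn g.p (Icc 0 1)) :
    ∀ᵐ r ∂volume, r ∈ Ioo (0:ℝ) 1 → g.H r = 0 → ∀ s', HasDerivAt g.S s' r → s' ≤ 2 / (1 - g.p r) := by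
  filter_upwards [contact_ae h, bud_ae_right_acc
    {r | r ∈ Ioo (0:ℝ) 1 ∧ budBr (g.p r) r (g.S r) (g.B r) = 0}] with r hc hacc hr hH s' hs'
  have hr' := Ioo_subset_Icc_self hr
  have hfreq := hacc ⟨hr, hc hr hH⟩
  have hp1 : 0 < 1 - g.p r := by linarith [h.p1 r hr']
  -- the limit
  have hpr : ContinuousAt g.p r := hpc.continuousAt (Icc_mem_nhds hr.1 hr.2)
  have t1 : Tendsto (slope g.S r) (𝓝[>] r) (𝓝 s') :=
    (hasDerivAt_iff_tendsto_slope.1 hs').mono_left (nhdsWithin_mono _ fun y hy => ne_of_gt hy)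
  have t2 : Tendsto g.p (𝓝[>] r) (𝓝 (g.p r)) := hpr.tendsto.mono_left nhdsWithin_le_nhds
  have t3 : Tendsto (fun y : ℝ => 2 + 2 * y / r) (𝓝[>] r) (𝓝 (2 + 2 * r / r)) :=
    ((by fun_prop : Continuous fun y : ℝ => 2 + 2 * y / r).tendsto r).mono_left nhdsWithin_le_nhds
  have t4 : Tendsto (fun y => 2 * (1 - g.p y) * slope g.S r y - (2 + 2 * y / r)) (𝓝[>] r)
      (𝓝 (2 * (1 - g.p r) * s' - (2 + 2 * r / r))) :=
    (((t2.const_sub 1).const_mul 2).mul t1).sub t3
  have hle : 2 * (1 - g.p r) * s' - (2 + 2 * r / r) ≤ 0 := by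
    refine le_of_tendsto_of_frequently t4 ?_
    have hf2 : ∃ᶠ y in 𝓝[>] r, y ∈ Ioi r ∧
        y ∈ {r | r ∈ Ioo (0:ℝ) 1 ∧ budBr (g.p r) r (g.S r) (g.B r) = 0} :=
      (hfreq.and_eventually self_mem_nhdsWithin).mono fun y hy => ⟨hy.2, hy.1⟩
    refine hf2.mono ?_
    rintro y ⟨hy, hy01, hyb⟩
    have hy' : r < y := hy
    have hp := contact_pair h hr.1 hy'.le hy01.2.le (hc hr hH) hyb
    have hpos : 0 < y - r := by linarith
    have e : slope g.S r y = (g.S y - g.S r) / (y - r) := by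
      rw [slope_def_field]
    rw [e]
    have : 2 * (1 - g.p y) * ((g.S y - g.S r) / (y - r)) ≤ 2 + 2 * y / r := by
      rw [← mul_div_assoc, div_le_iff₀ hpos]
      linarith
    linarith
  rw [mul_div_assoc, div_self hr.1.ne'] at hle
  rw [le_div_iff₀ hp1]
  linarith

/-- nonfloor points, a.e.: `|S - r| ≤ D + 1/M` -/
theorem nonfloor_ae (h : g.Ok) :
    ∀ᵐ r ∂volume, r ∈ Ioo (0:ℝ) 1 → g.H r ≤ 0 → |g.S r - r| ≤ g.D r + 1 / g.M := by
  filter_upwards [contact_ae' h] with r hc hr hH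
  have hr' := Ioo_subset_Icc_self hr
  have hM : 0 < 1 / g.M := by have := h.M1; positivity
  have hD : 0 ≤ g.D r := Real.sqrt_nonneg _
  have hup : g.S r ≤ r + 1 / g.M := nonfloor_S_le h hr' hH
  rw [abs_le]
  refine ⟨?_, by linarith⟩
  rcases hH.eq_or_lt with h0 | h0
  · have := (hc hr h0).2.2
    linarith
  · obtain ⟨a, b, har, hrb, hl, hrr⟩ := exists_cap h hr' h0
    have hra : a < r := by
      rcases har.eq_or_lt with e | e
      · exfalso
        rcases hl.2.2.2.2 with e2 | e2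
        · rw [e] at e2; linarith
        · rw [e2] at e; exact absurd e.symm hr.1.ne'
      · exact e
    have hrb' : r < b := by
      rcases hrb.eq_or_lt with e | e
      · exfalso
        rcases hrr.2.2.2.2 with e2 | e2
        · rw [← e] at e2; linarith
        · rw [e2] at e; exact absurd e hr.2.ne
      · exact e
    have h1 := cap_sub_S_le h hl (r := r) ⟨hra, hrb'⟩
    have h2 := cap_width h hl.1 hl.2.1.le hl.2.2.1 hl.2.2.2.1
    linarith

end BudGeo

end Claimed.Agent.R286
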