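import Claimed.Agent.R286.Bud.GeoDefs

/-!
# Row 286, N4c: the bathtub principle   (head helper109; proofs helper86, 0 sorry)
Proof plan.  `Φ r = ∫_0^r G`.  (1) For `ρ'` in the box, `∫_0^1 G (α' - α) = - ∫_0^1 Φ (ρ' - ρ)` (Fubini, or integration by parts for
absolutely continuous functions: `AbsolutelyContinuousOnInterval.integral_mul_deriv_eq_deriv_mul`; `α'-α` vanishes at `0` and `1`).  So `∫ Φ (ρ'-ρ) ≥ 0`.
(2) `Pset = {ρ < M}`, `Nset = {kb < ρ}` (inside `(0,1)`).  Exchange: if `c1 < c2`, `A1 = Pset ∩ {Φ < c1}`, `A2 = Nset ∩ {Φ > c2}` both of positive measure, put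
`w1 = 1_{A1} (M-ρ)`, `w2 = 1_{A2} (ρ-kb)`, `m_i = ∫ w_i > 0`, `ε = min m1 m2`, `ρ' = ρ + ε (w1/m1 - w2/m2)`: in the box, and `∫ Φ (ρ'-ρ) ≤ ε (c1 - c2) < 0`.  Contradiction.
(3) `c0 := sSup {c | volume (Pset ∩ {Φ < c}) = 0}` (if `Pset` is null take `c0 = K + 1`; the set contains `-K-1`).
-/

set_option autoImplicit false

open MeasureTheory Set Filter Topology

namespace Claimed.Agent.R286

theorem bud_bt_ii_Ioo (f : ℝ → ℝ) : ∫ r in (0:ℝ)..1, f r = ∫ r in Ioo (0:ℝ) 1, f r := by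
  rw [intervalIntegral.integral_of_le zero_le_one, integral_Ioc_eq_integral_Ioo]

/-- a measurable function bounded a.e. on `(0,1)` is integrable there -/
theorem bud_bt_int {f : ℝ → ℝ} (hf : AEStronglyMeasurable f (volume.restrict (Ioo (0:ℝ) 1))) {C : ℝ}
    (hC : ∀ᵐ r ∂volume, r ∈ Ioo (0:ℝ) 1 → |f r| ≤ C) : Integrable f (volume.restrict (Ioo (0:ℝ) 1)) := by
  refine Integrable.of_bound hf C ?_
  rw [ae_restrict_iff' measurableSet_Ioo]
  filter_upwards [hC] with r hr h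
  simpa using hr h

theorem bud_bt_ii {f : ℝ → ℝ} (hf : Integrable f (volume.restrict (Ioo (0:ℝ) 1))) :
    IntervalIntegrable f volume 0 1 := by
  rw [intervalIntegrable_iff_integrableOn_Ioo_of_le zero_le_one]
  exact hf

theorem BudDens.bt_abs {kb ρ : ℝ → ℝ} {M : ℝ} (h : BudDens kb M ρ) (hkb0 : ∀ r, 0 ≤ kb r) :
    ∀ᵐ r ∂volume, r ∈ Ioo (0:ℝ) 1 → |ρ r| ≤ M := by
  filter_upwards [h.lo, h.hi] with r h1 h2 hr
  rw [abs_of_nonneg ((hkb0 r).trans (h1 hr))]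
  exact h2 hr

theorem BudDens.bt_int {kb ρ : ℝ → ℝ} {M : ℝ} (h : BudDens kb M ρ) (hkb0 : ∀ r, 0 ≤ kb r) :
    Integrable ρ (volume.restrict (Ioo (0:ℝ) 1)) :=
  bud_bt_int h.meas.aestronglyMeasurable (h.bt_abs hkb0)

theorem bud_bt_G_int {G : ℝ → ℝ} {K : ℝ} (hG : Measurable G) (hGb : ∀ r ∈ Icc (0:ℝ) 1, |G r| ≤ K) :
    Integrable G (volume.restrict (Ioo (0:ℝ) 1)) :=
  bud_bt_int hG.aestronglyMeasurable (Eventually.of_forall fun r hr => hGb r (Ioo_subset_Icc_self hr))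

/-- first variation in density form -/
theorem bud_fv_dens (G kb : ℝ → ℝ) (M K : ℝ) (ρ ρ' : ℝ → ℝ)
    (hG : Measurable G) (hGb : ∀ r ∈ Icc (0:ℝ) 1, |G r| ≤ K) (hkb0 : ∀ r, 0 ≤ kb r)
    (hρ : BudDens kb M ρ) (hρ' : BudDens kb M ρ') :
    ∫ r in (0:ℝ)..1, G r * (budAl ρ' r - budAl ρ r)
      = - ∫ r in (0:ℝ)..1, (∫ t in (0:ℝ)..r, G t) * (ρ' r - ρ r) := by
  have hGi : IntervalIntegrable G volume 0 1 := bud_bt_ii (bud_bt_G_int hG hGb)
  have hρi : IntervalIntegrable ρ volume 0 1 := bud_bt_ii (hρ.bt_int hkb0)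
  have hρ'i : IntervalIntegrable ρ' volume 0 1 := bud_bt_ii (hρ'.bt_int hkb0)
  have hδ : IntervalIntegrable (fun r => ρ' r - ρ r) volume 0 1 := hρ'i.sub hρi
  have acΦ := hGi.absolutelyContinuousOnInterval_intervalIntegral (c := 0) (by simp)
  have acD := hδ.absolutelyContinuousOnInterval_intervalIntegral (c := 0) (by simp)
  have ibp := acΦ.integral_mul_deriv_eq_deriv_mul acD
  have hD : ∀ x ∈ Icc (0:ℝ) 1, ∫ t in (0:ℝ)..x, (ρ' t - ρ t) = budAl ρ' x - budAl ρ x := by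
    intro x hx
    have hsub : uIcc (0:ℝ) x ⊆ uIcc 0 1 := by
      rw [uIcc_of_le hx.1, uIcc_of_le zero_le_one]; exact Icc_subset_Icc_right hx.2
    exact intervalIntegral.integral_sub (hρ'i.mono_set hsub) (hρi.mono_set hsub)
  have e1 : ∫ x in (0:ℝ)..1, (∫ t in (0:ℝ)..x, G t) * deriv (fun x => ∫ t in (0:ℝ)..x, (ρ' t - ρ t)) x
      = ∫ x in (0:ℝ)..1, (∫ t in (0:ℝ)..x, G t) * (ρ' x - ρ x) := by
    apply intervalIntegral.integral_congr_ae
    filter_upwards [hδ.ae_hasDerivAt_integral] with x hx hx2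
    rw [(hx (uIoc_subset_uIcc hx2) 0 (by simp)).deriv]
  have e2 : ∫ x in (0:ℝ)..1, deriv (fun x => ∫ t in (0:ℝ)..x, G t) x * (∫ t in (0:ℝ)..x, (ρ' t - ρ t))
      = ∫ x in (0:ℝ)..1, G x * (budAl ρ' x - budAl ρ x) := by
    apply intervalIntegral.integral_congr_ae
    filter_upwards [hGi.ae_hasDerivAt_integral] with x hx hx2
    have hx3 := uIoc_subset_uIcc hx2
    rw [(hx hx3 0 (by simp)).deriv, hD x (by rwa [uIcc_of_le zero_le_one] at hx3)]
  rw [e1, e2] at ibp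
  have h1 : ∫ t in (0:ℝ)..1, (ρ' t - ρ t) = 0 := by
    rw [intervalIntegral.integral_sub hρ'i hρi, hρ.mass, hρ'.mass, sub_self]
  rw [h1] at ibp
  simp only [intervalIntegral.integral_same, mul_zero, sub_zero, zero_sub] at ibp
  rw [ibp, neg_neg]

theorem bud_bt_Phi_cont {G : ℝ → ℝ} {K : ℝ} (hG : Measurable G) (hGb : ∀ r ∈ Icc (0:ℝ) 1, |G r| ≤ K) :
    ContinuousOn (fun r => ∫ t in (0:ℝ)..r, G t) (Icc 0 1) := by
  have hGi : IntervalIntegrable G volume 0 1 := bud_bt_ii (bud_bt_G_int hG hGb)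
  have := (hGi.absolutelyContinuousOnInterval_intervalIntegral (c := 0) (by simp)).continuousOn
  rwa [uIcc_of_le zero_le_one] at this

theorem bud_bt_Phi_le {G : ℝ → ℝ} {K : ℝ} (hGb : ∀ r ∈ Icc (0:ℝ) 1, |G r| ≤ K) (r : ℝ) (hr : r ∈ Icc (0:ℝ) 1) :
    |∫ t in (0:ℝ)..r, G t| ≤ K := by
  have hK : 0 ≤ K := (abs_nonneg _).trans (hGb 0 (by simp))
  have h := intervalIntegral.norm_integral_le_of_norm_le_const (a := (0:ℝ)) (b := r) (f := G) (C := K) (by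
    intro x hx
    rw [uIoc_of_le hr.1] at hx
    exact hGb x ⟨hx.1.le, hx.2.trans hr.2⟩)
  rw [Real.norm_eq_abs, sub_zero, abs_of_nonneg hr.1] at h
  exact h.trans (by nlinarith [hr.2])

/-- the exchange argument -/
theorem bud_bt_exchange (G kb : ℝ → ℝ) (M K : ℝ) (ρ : ℝ → ℝ)
    (hG : Measurable G) (hGb : ∀ r ∈ Icc (0:ℝ) 1, |G r| ≤ K) (hkb : Measurable kb)
    (hkb0 : ∀ r, 0 ≤ kb r)
    (hρ : BudDens kb M ρ) (hFV : BudFV G kb M ρ) {c1 c2 : ℝ} (hc : c1 < c2) :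
    volume {r | r ∈ Ioo (0:ℝ) 1 ∧ ρ r < M ∧ (∫ t in (0:ℝ)..r, G t) < c1} = 0 ∨
    volume {r | r ∈ Ioo (0:ℝ) 1 ∧ kb r < ρ r ∧ c2 < (∫ t in (0:ℝ)..r, G t)} = 0 := by
  by_contra hcon
  rw [not_or] at hcon
  obtain ⟨hA1, hA2⟩ := hcon
  obtain ⟨Φ, hΦ⟩ : ∃ Φ : ℝ → ℝ, Φ = fun r => ∫ t in (0:ℝ)..r, G t := ⟨_, rfl⟩
  have hΦr : ∀ r, (∫ t in (0:ℝ)..r, G t) = Φ r := fun r => by rw [hΦ]
  simp only [hΦr] at hA1 hA2
  have hΦc : ContinuousOn Φ (Ioo 0 1) := by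
    rw [hΦ]; exact (bud_bt_Phi_cont hG hGb).mono Ioo_subset_Icc_self
  have hΦb : ∀ r ∈ Ioo (0:ℝ) 1, |Φ r| ≤ K := fun r hr => by
    rw [hΦ]; exact bud_bt_Phi_le hGb r (Ioo_subset_Icc_self hr)
  have hK : 0 ≤ K := (abs_nonneg _).trans (hGb 0 (by simp))
  obtain ⟨A1, hA1d⟩ : ∃ A : Set ℝ, A = {r | r ∈ Ioo (0:ℝ) 1 ∧ ρ r < M ∧ Φ r < c1} := ⟨_, rfl⟩
  obtain ⟨A2, hA2d⟩ : ∃ A : Set ℝ, A = {r | r ∈ Ioo (0:ℝ) 1 ∧ kb r < ρ r ∧ c2 < Φ r} := ⟨_, rfl⟩
  rw [← hA1d] at hA1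
  rw [← hA2d] at hA2
  have mA1 : MeasurableSet A1 := by
    have e : A1 = (Ioo (0:ℝ) 1 ∩ Φ ⁻¹' Iio c1) ∩ {r | ρ r < M} := by
      rw [hA1d]; ext r; simp only [mem_ofPred_eq, mem_inter_iff, mem_preimage, mem_Iio]; tauto
    rw [e]
    exact (hΦc.isOpen_inter_preimage isOpen_Ioo isOpen_Iio).measurableSet.inter
      (measurableSet_lt hρ.meas measurable_const)
  have mA2 : MeasurableSet A2 := by
    have e : A2 = (Ioo (0:ℝ) 1 ∩ Φ ⁻¹' Ioi c2) ∩ {r | kb r < ρ r} := by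
      rw [hA2d]; ext r; simp only [mem_ofPred_eq, mem_inter_iff, mem_preimage, mem_Ioi]; tauto
    rw [e]
    exact (hΦc.isOpen_inter_preimage isOpen_Ioo isOpen_Ioi).measurableSet.inter
      (measurableSet_lt hkb hρ.meas)
  have sA1 : A1 ⊆ Ioo (0:ℝ) 1 := by rw [hA1d]; exact fun r hr => hr.1
  have sA2 : A2 ⊆ Ioo (0:ℝ) 1 := by rw [hA2d]; exact fun r hr => hr.1
  obtain ⟨w1, hw1⟩ : ∃ w : ℝ → ℝ, w = A1.indicator (fun r => M - ρ r) := ⟨_, rfl⟩
  obtain ⟨w2, hw2⟩ : ∃ w : ℝ → ℝ, w = A2.indicator (fun r => ρ r - kb r) := ⟨_, rfl⟩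
  have mw1 : Measurable w1 := by rw [hw1]; exact (measurable_const.sub hρ.meas).indicator mA1
  have mw2 : Measurable w2 := by rw [hw2]; exact (hρ.meas.sub hkb).indicator mA2
  have w1nn : ∀ r, 0 ≤ w1 r := by
    intro r; rw [hw1]
    refine indicator_nonneg (fun x hx => ?_) r
    rw [hA1d] at hx; linarith [hx.2.1]
  have w2nn : ∀ r, 0 ≤ w2 r := by
    intro r; rw [hw2]
    refine indicator_nonneg (fun x hx => ?_) r
    rw [hA2d] at hx; linarith [hx.2.1]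
  have w1le : ∀ r, ρ r ≤ M → w1 r ≤ M - ρ r := by
    intro r hr; rw [hw1]
    by_cases h : r ∈ A1
    · rw [indicator_of_mem h]
    · rw [indicator_of_notMem h]; linarith
  have w2le : ∀ r, kb r ≤ ρ r → w2 r ≤ ρ r - kb r := by
    intro r hr; rw [hw2]
    by_cases h : r ∈ A2
    · rw [indicator_of_mem h]
    · rw [indicator_of_notMem h]; linarith
  have w1Φ : ∀ r, Φ r * w1 r ≤ c1 * w1 r := by
    intro r
    by_cases h : r ∈ A1
    · have h' := h; rw [hA1d] at h'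
      exact mul_le_mul_of_nonneg_right h'.2.2.le (w1nn r)
    · rw [hw1, indicator_of_notMem h]; simp
  have w2Φ : ∀ r, c2 * w2 r ≤ Φ r * w2 r := by
    intro r
    by_cases h : r ∈ A2
    · have h' := h; rw [hA2d] at h'
      exact mul_le_mul_of_nonneg_right h'.2.2.le (w2nn r)
    · rw [hw2, indicator_of_notMem h]; simp
  have b1 : ∀ᵐ r ∂volume, r ∈ Ioo (0:ℝ) 1 → |w1 r| ≤ M := by
    filter_upwards [hρ.lo, hρ.hi] with r h1 h2 hr
    rw [abs_of_nonneg (w1nn r)]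
    linarith [w1le r (h2 hr), h1 hr, hkb0 r]
  have b2 : ∀ᵐ r ∂volume, r ∈ Ioo (0:ℝ) 1 → |w2 r| ≤ M := by
    filter_upwards [hρ.lo, hρ.hi] with r h1 h2 hr
    rw [abs_of_nonneg (w2nn r)]
    linarith [w2le r (h1 hr), h2 hr, hkb0 r]
  have i1 : Integrable w1 (volume.restrict (Ioo (0:ℝ) 1)) := bud_bt_int mw1.aestronglyMeasurable b1
  have i2 : Integrable w2 (volume.restrict (Ioo (0:ℝ) 1)) := bud_bt_int mw2.aestronglyMeasurable b2
  have mΦ : AEStronglyMeasurable Φ (volume.restrict (Ioo (0:ℝ) 1)) := hΦc.aestronglyMeasurable measurableSet_Ioo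
  have j1 : Integrable (fun r => Φ r * w1 r) (volume.restrict (Ioo (0:ℝ) 1)) := by
    refine bud_bt_int (C := K * M) (mΦ.mul mw1.aestronglyMeasurable) ?_
    filter_upwards [b1] with r h1 hr
    rw [abs_mul]
    exact mul_le_mul (hΦb r hr) (h1 hr) (abs_nonneg _) hK
  have j2 : Integrable (fun r => Φ r * w2 r) (volume.restrict (Ioo (0:ℝ) 1)) := by
    refine bud_bt_int (C := K * M) (mΦ.mul mw2.aestronglyMeasurable) ?_
    filter_upwards [b2] with r h1 hr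
    rw [abs_mul]
    exact mul_le_mul (hΦb r hr) (h1 hr) (abs_nonneg _) hK
  obtain ⟨m1, hm1⟩ : ∃ m : ℝ, m = ∫ r in Ioo (0:ℝ) 1, w1 r := ⟨_, rfl⟩
  obtain ⟨m2, hm2⟩ : ∃ m : ℝ, m = ∫ r in Ioo (0:ℝ) 1, w2 r := ⟨_, rfl⟩
  have m1pos : 0 < m1 := by
    rw [hm1, integral_pos_iff_support_of_nonneg w1nn i1]
    have e : Function.support w1 = A1 := by
      rw [hw1, Set.support_indicator]
      refine inter_eq_left.2 fun r hr => ?_
      rw [hA1d] at hr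
      simp only [Function.mem_support]
      linarith [hr.2.1]
    rw [e, Measure.restrict_apply mA1, inter_eq_left.2 sA1]
    exact pos_iff_ne_zero.2 hA1
  have m2pos : 0 < m2 := by
    rw [hm2, integral_pos_iff_support_of_nonneg w2nn i2]
    have e : Function.support w2 = A2 := by
      rw [hw2, Set.support_indicator]
      refine inter_eq_left.2 fun r hr => ?_
      rw [hA2d] at hr
      simp only [Function.mem_support]
      linarith [hr.2.1]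
    rw [e, Measure.restrict_apply mA2, inter_eq_left.2 sA2]
    exact pos_iff_ne_zero.2 hA2
  obtain ⟨t, ht⟩ : ∃ t : ℝ, t = (m1 + m2)⁻¹ := ⟨_, rfl⟩
  have tpos : 0 < t := by rw [ht]; positivity
  have t1 : t * m1 ≤ 1 := by
    rw [ht, inv_mul_le_iff₀ (by positivity)]; linarith
  have t2 : t * m2 ≤ 1 := by
    rw [ht, inv_mul_le_iff₀ (by positivity)]; linarith
  have hρ' : BudDens kb M (fun r => ρ r + t * (m2 * w1 r - m1 * w2 r)) := by
    refine ⟨hρ.meas.add (((mw1.const_mul m2).sub (mw2.const_mul m1)).const_mul t), ?_, ?_, ?_⟩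
    · filter_upwards [hρ.lo] with r h1 hr
      have a1 := w2le r (h1 hr)
      have a2 : (t * m1) * w2 r ≤ 1 * w2 r := mul_le_mul_of_nonneg_right t1 (w2nn r)
      have a3 : 0 ≤ (t * m2) * w1 r := mul_nonneg (mul_nonneg tpos.le m2pos.le) (w1nn r)
      nlinarith
    · filter_upwards [hρ.hi] with r h1 hr
      have a1 := w1le r (h1 hr)
      have a2 : (t * m2) * w1 r ≤ 1 * w1 r := mul_le_mul_of_nonneg_right t2 (w1nn r)
      have a3 : 0 ≤ (t * m1) * w2 r := mul_nonneg (mul_nonneg tpos.le m1pos.le) (w2nn r)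
      nlinarith
    · have q1 : Integrable (fun r => m2 * w1 r - m1 * w2 r) (volume.restrict (Ioo (0:ℝ) 1)) :=
        (i1.const_mul m2).sub (i2.const_mul m1)
      have q2 : Integrable (fun r => t * (m2 * w1 r - m1 * w2 r)) (volume.restrict (Ioo (0:ℝ) 1)) :=
        q1.const_mul t
      rw [bud_bt_ii_Ioo, integral_add (hρ.bt_int hkb0) q2,
        integral_const_mul, integral_sub (i1.const_mul m2) (i2.const_mul m1), integral_const_mul,
        integral_const_mul, ← hm1, ← hm2, ← bud_bt_ii_Ioo, hρ.mass]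
      ring
  have h1 := hFV _ hρ'
  rw [bud_fv_dens G kb M K ρ _ hG hGb hkb0 hρ hρ', bud_bt_ii_Ioo] at h1
  simp only [hΦr, add_sub_cancel_left] at h1
  have e : ∫ r in Ioo (0:ℝ) 1, Φ r * (t * (m2 * w1 r - m1 * w2 r))
      = t * (m2 * (∫ r in Ioo (0:ℝ) 1, Φ r * w1 r) - m1 * ∫ r in Ioo (0:ℝ) 1, Φ r * w2 r) := by
    rw [← integral_const_mul, ← integral_const_mul, ← integral_sub (j1.const_mul m2) (j2.const_mul m1),
      ← integral_const_mul]
    congr 1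
    funext r
    ring
  rw [e] at h1
  have k1 : ∫ r in Ioo (0:ℝ) 1, Φ r * w1 r ≤ c1 * m1 := by
    rw [hm1, ← integral_const_mul]
    exact integral_mono j1 (i1.const_mul c1) w1Φ
  have k2 : c2 * m2 ≤ ∫ r in Ioo (0:ℝ) 1, Φ r * w2 r := by
    rw [hm2, ← integral_const_mul]
    exact integral_mono (i2.const_mul c2) j2 w2Φ
  have k3 : m2 * (∫ r in Ioo (0:ℝ) 1, Φ r * w1 r) - m1 * (∫ r in Ioo (0:ℝ) 1, Φ r * w2 r) < 0 := by
    have a1 := mul_le_mul_of_nonneg_left k1 m2pos.le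
    have a2 := mul_le_mul_of_nonneg_left k2 m1pos.le
    have a3 : 0 < m1 * m2 * (c2 - c1) := mul_pos (mul_pos m1pos m2pos) (sub_pos.2 hc)
    nlinarith
  have k4 := mul_neg_of_pos_of_neg tpos k3
  linarith

/-- **N4c bathtub principle.** -/
theorem bud_bathtub (G kb : ℝ → ℝ) (M K : ℝ) (ρ : ℝ → ℝ)
    (hG : Measurable G) (hGb : ∀ r ∈ Icc (0:ℝ) 1, |G r| ≤ K) (hkb : Measurable kb)
    (hkb0 : ∀ r, 0 ≤ kb r) (hkbM : ∀ r, kb r ≤ M)
    (hρ : BudDens kb M ρ) (hFV : BudFV G kb M ρ) :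
    ∃ c0 : ℝ,
      (∀ᵐ r ∂volume, r ∈ Ioo (0:ℝ) 1 → (∫ t in (0:ℝ)..r, G t) - c0 < 0 → ρ r = M) ∧
      (∀ᵐ r ∂volume, r ∈ Ioo (0:ℝ) 1 → 0 < (∫ t in (0:ℝ)..r, G t) - c0 → ρ r = kb r) := by
  have hX := fun c1 c2 (hc : c1 < c2) => bud_bt_exchange G kb M K ρ hG hGb hkb hkb0 hρ hFV hc
  have hΦb := bud_bt_Phi_le hGb
  obtain ⟨Φ, hΦ⟩ : ∃ Φ : ℝ → ℝ, Φ = fun r => ∫ t in (0:ℝ)..r, G t := ⟨_, rfl⟩
  have hΦr : ∀ r, (∫ t in (0:ℝ)..r, G t) = Φ r := fun r => by rw [hΦ]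
  simp only [hΦr] at hX hΦb ⊢
  obtain ⟨A, hA⟩ : ∃ A : ℝ → Set ℝ, A = fun c => {r | r ∈ Ioo (0:ℝ) 1 ∧ ρ r < M ∧ Φ r < c} := ⟨_, rfl⟩
  obtain ⟨B, hB⟩ : ∃ B : ℝ → Set ℝ, B = fun c => {r | r ∈ Ioo (0:ℝ) 1 ∧ kb r < ρ r ∧ c < Φ r} := ⟨_, rfl⟩
  have hX' : ∀ c1 c2, c1 < c2 → volume (A c1) = 0 ∨ volume (B c2) = 0 := by
    intro c1 c2 hc; rw [hA, hB]; exact hX c1 c2 hc
  have hAmono : ∀ c c', c' ≤ c → A c' ⊆ A c := by
    intro c c' hcc r hr; rw [hA] at hr ⊢; exact ⟨hr.1, hr.2.1, hr.2.2.trans_le hcc⟩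
  -- it is enough to find `c0` with both sets null
  suffices h : ∃ c0, volume (A c0) = 0 ∧ volume (B c0) = 0 by
    obtain ⟨c0, h1, h2⟩ := h
    refine ⟨c0, ?_, ?_⟩
    · filter_upwards [measure_eq_zero_iff_ae_notMem.1 h1, hρ.hi] with r hr hhi hr1 hr2
      by_contra hne
      exact hr (by rw [hA]; exact ⟨hr1, lt_of_le_of_ne (hhi hr1) hne, by linarith⟩)
    · filter_upwards [measure_eq_zero_iff_ae_notMem.1 h2, hρ.lo] with r hr hlo hr1 hr2
      by_contra hne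
      exact hr (by rw [hB]; exact ⟨hr1, lt_of_le_of_ne (hlo hr1) (Ne.symm hne), by linarith⟩)
  have hBK : ∀ c, K ≤ c → B c = ∅ := by
    intro c hc
    rw [hB]
    ext r
    simp only [mem_ofPred_eq, mem_empty_iff_false, iff_false, not_and, not_lt]
    intro hr _
    exact ((le_abs_self _).trans (hΦb r (Ioo_subset_Icc_self hr))).trans hc
  have hAK : A (-K) = ∅ := by
    rw [hA]
    ext r
    simp only [mem_ofPred_eq, mem_empty_iff_false, iff_false, not_and, not_lt]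
    intro hr _
    exact (abs_le.1 (hΦb r (Ioo_subset_Icc_self hr))).1
  by_cases hT : BddAbove {c | volume (A c) = 0}
  · have hne : ({c | volume (A c) = 0} : Set ℝ).Nonempty := ⟨-K, by simp [hAK]⟩
    refine ⟨sSup {c | volume (A c) = 0}, ?_, ?_⟩
    · have hsub : A (sSup {c | volume (A c) = 0})
          ⊆ ⋃ n : ℕ, A (sSup {c | volume (A c) = 0} - 1 / ((n : ℝ) + 1)) := by
        intro r hr
        have hr' := hr
        rw [hA] at hr'
        obtain ⟨n, hn⟩ := exists_nat_one_div_lt (sub_pos.2 hr'.2.2)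
        refine mem_iUnion.2 ⟨n, ?_⟩
        rw [hA]
        exact ⟨hr'.1, hr'.2.1, by linarith⟩
      refine measure_mono_null hsub (measure_iUnion_null fun n => ?_)
      have hlt : sSup {c | volume (A c) = 0} - 1 / ((n : ℝ) + 1) < sSup {c | volume (A c) = 0} :=
        sub_lt_self _ (by positivity)
      obtain ⟨c, hc, hcl⟩ := exists_lt_of_lt_csSup hne hlt
      exact measure_mono_null (hAmono c _ hcl.le) hc
    · have hsub : B (sSup {c | volume (A c) = 0})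
          ⊆ ⋃ n : ℕ, B (sSup {c | volume (A c) = 0} + 2 * (1 / ((n : ℝ) + 1))) := by
        intro r hr
        have hr' := hr
        rw [hB] at hr'
        obtain ⟨n, hn⟩ := exists_nat_one_div_lt (half_pos (sub_pos.2 hr'.2.2))
        refine mem_iUnion.2 ⟨n, ?_⟩
        rw [hB]
        exact ⟨hr'.1, hr'.2.1, by linarith⟩
      refine measure_mono_null hsub (measure_iUnion_null fun n => ?_)
      have hpos : (0:ℝ) < 1 / ((n : ℝ) + 1) := by positivity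
      have hnot : ¬ volume (A (sSup {c | volume (A c) = 0} + 1 / ((n : ℝ) + 1))) = 0 := by
        intro h0
        have := le_csSup hT (show sSup {c | volume (A c) = 0} + 1 / ((n : ℝ) + 1) ∈ {c | volume (A c) = 0} from h0)
        linarith
      exact (hX' _ _ (by linarith)).resolve_left hnot
  · rw [not_bddAbove_iff] at hT
    obtain ⟨c, hc, hcl⟩ := hT K
    exact ⟨K, measure_mono_null (hAmono c K hcl.le) hc, by simp [hBK K le_rfl]⟩

end Claimed.Agent.R286
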