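import Claimed.Agent.R286.Bud.GeoQ
import Claimed.Agent.R286.Bud.GeoBath
import Claimed.Agent.R286.Lib.Helly

/-!
# Row 286, N4a/b: minimiser, first variation, assembly of the geometry   (head helper109; provers helper35, helper171, helper238; 0 sorry)

**First variation** (LL l.176-186, PE proof of Lemma 3.3).  `ρ_t = ρ + t (ρ' - ρ)`, `α_t = α + t δ`, `δ = α' - α`.
With `φ = r C`, `ψ = r² C`, mean value theorem for `P.seg` on the affine segment of clocks from the clocks of `ρ` to those of `ρ_t` and `bud_transport`: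
  Obj ρ_t - Obj ρ = -¼ ∫ C'(r) (∫_{α r}^{α_t r} B^{(t)}) dr + ½ ∫ φ'(r) (∫_{α r}^{α_t r} S^{(t)}) dr - (t/4) ∫ ψ'(r) δ(r) dr,
`S^{(t)}, B^{(t)}` = statistics at an intermediate clock, which tends uniformly to the clock of `ρ` (`budQ_stab`).
`P.cont_S` + monotonicity give `S^{(t)} → S` in `L¹(0,1)`; `|∫_{α r}^{α r + tδ} (S^{(t)} - S)|` integrated in `r` is `≤ 2 t ‖S^{(t)}-S‖₁ / kmin` (`bud_cov_le` after a shift);
`(1/t) ∫_{α r}^{α r + t δ r} S → δ(r) S(α r)` at continuity points of the monotone `S` (all but countably many `r`), dominated.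
Limit: `0 ≤ -¼ ∫ (C' B - 2 φ' S + ψ') δ = -¼ ∫ G δ`,  since `C' = -p C/r`, `φ' = C (1-p)`, `ψ' = C r (2-p)`.
-/

set_option autoImplicit false

open MeasureTheory Set Filter Topology

namespace Claimed.Agent.R286

variable {P : PSys} {b h kb C C' : ℝ → ℝ} {M kmin : ℝ} {ρ ρ' : ℝ → ℝ}

theorem BudLoc.box (hL : BudLoc P b h kb C C' M kmin) : BudBoxOk kb M kmin :=
  ⟨hL.kbm, hL.kmin0, hL.kb_ge, hL.kb_le⟩

/-! ### the profile -/

theorem bfv_C_cont (hp : BudProf C C') : ContinuousOn C (Icc 0 1) :=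
  fun r hr => (hp.deriv r hr).continuousAt.continuousWithinAt

theorem bfv_C_anti (hp : BudProf C C') : AntitoneOn C (Icc 0 1) := by
  apply antitoneOn_of_hasDerivWithinAt_nonpos (convex_Icc 0 1) (bfv_C_cont hp) (f' := C')
  · intro r hr; exact (hp.deriv r (interior_subset hr)).hasDerivWithinAt
  · intro r hr; exact hp.anti r (interior_subset hr)

theorem bfv_phi_deriv (hp : BudProf C C') {r : ℝ} (hr : r ∈ Icc (0:ℝ) 1) :
    HasDerivAt (fun r => C r * r) (C r + r * C' r) r := by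
  have := (hp.deriv r hr).mul (hasDerivAt_id r)
  refine this.congr_deriv ?_
  simp only [id]; ring

theorem bfv_psi_deriv (hp : BudProf C C') {r : ℝ} (hr : r ∈ Icc (0:ℝ) 1) :
    HasDerivAt (fun r => C r * r ^ 2) (2 * r * C r + r ^ 2 * C' r) r := by
  have := (hp.deriv r hr).mul (hasDerivAt_pow 2 r)
  refine this.congr_deriv ?_
  simp only [Nat.cast_ofNat, Nat.add_one_sub_one, pow_one]; ring

theorem bfv_phi_cont' (hp : BudProf C C') : ContinuousOn (fun r => C r + r * C' r) (Icc 0 1) :=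
  (bfv_C_cont hp).add (continuousOn_id.mul hp.cont')

theorem bfv_psi_cont' (hp : BudProf C C') : ContinuousOn (fun r => 2 * r * C r + r ^ 2 * C' r) (Icc 0 1) :=
  ((continuousOn_const.mul continuousOn_id).mul (bfv_C_cont hp)).add ((continuousOn_id.pow 2).mul hp.cont')

theorem bfv_phi_mono (hp : BudProf C C') : MonotoneOn (fun r => C r * r) (Icc 0 1) := by
  apply monotoneOn_of_hasDerivWithinAt_nonneg (convex_Icc 0 1) (f' := fun r => C r + r * C' r)
  · exact fun r hr => (bfv_phi_deriv hp hr).continuousAt.continuousWithinAt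
  · intro r hr; exact (bfv_phi_deriv hp (interior_subset hr)).hasDerivWithinAt
  · intro r hr
    have := hp.slope r (interior_subset hr)
    linarith

theorem bfv_psi_mono (hp : BudProf C C') : MonotoneOn (fun r => C r * r ^ 2) (Icc 0 1) := by
  apply monotoneOn_of_hasDerivWithinAt_nonneg (convex_Icc 0 1) (f' := fun r => 2 * r * C r + r ^ 2 * C' r)
  · exact fun r hr => (bfv_psi_deriv hp hr).continuousAt.continuousWithinAt
  · intro r hr; exact (bfv_psi_deriv hp (interior_subset hr)).hasDerivWithinAt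
  · intro r hr
    have hr' : r ∈ Icc (0:ℝ) 1 := interior_subset hr
    have h1 := hp.slope r hr'
    have h2 := hp.pos r hr'
    have : 2 * r * C r + r ^ 2 * C' r = r * (C r + (C r + r * C' r)) := by ring
    rw [this]
    exact mul_nonneg hr'.1 (by linarith)

/-- a `C¹` function on `[0,1]` is Lipschitz -/
theorem bfv_lip {g g' : ℝ → ℝ} (hg : ∀ r ∈ Icc (0:ℝ) 1, HasDerivAt g (g' r) r)
    (hg' : ContinuousOn g' (Icc 0 1)) :
    ∃ L, 0 ≤ L ∧ ∀ x ∈ Icc (0:ℝ) 1, ∀ y ∈ Icc (0:ℝ) 1, |g x - g y| ≤ L * |x - y| := by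
  obtain ⟨L, hL⟩ := isCompact_Icc.exists_bound_of_continuousOn hg'
  refine ⟨max L 0, le_max_right _ _, fun x hx y hy => ?_⟩
  have := Convex.norm_image_sub_le_of_norm_hasDerivWithin_le (f := g) (f' := g') (C := max L 0)
    (s := Icc 0 1) (fun r hr => (hg r hr).hasDerivWithinAt)
    (fun r hr => (hL r hr).trans (le_max_left _ _)) (convex_Icc 0 1) hy hx
  simpa using this

theorem bfv_Q_mem (hB : BudBoxOk kb M kmin) (hρ : BudDens kb M ρ) {v : ℝ} (hv : v ∈ Ioo (0:ℝ) 1) :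
    budQ ρ v ∈ Icc (0:ℝ) 1 := Ioo_subset_Icc_self (budQ_mem hB hρ hv)

/-- the changed clocks are clocks -/
theorem bud_clock_b (hL : BudLoc P b h kb C C' M kmin) (hρ : BudDens kb M ρ) : IsClock 1 (budCb b C ρ) := by
  have hB := hL.box
  obtain ⟨Cb, hCb⟩ := hL.hb.bdd
  refine ⟨?_, ?_, ⟨Cb, ?_⟩⟩
  · intro x hx y hy hxy
    have h1 := hL.hb.mono hx hy hxy
    have h2 := bfv_C_anti hL.prof (bfv_Q_mem hB hρ hx) (bfv_Q_mem hB hρ hy)
      (budQ_mono hB hρ (Ioo_subset_Icc_self hx) (Ioo_subset_Icc_self hy) hxy)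
    unfold budCb
    linarith
  · intro v hv
    have h1 := bfv_C_anti hL.prof (left_mem_Icc.2 zero_le_one) (bfv_Q_mem hB hρ hv) (bfv_Q_mem hB hρ hv).1
    have h2 := hL.marg v hv
    unfold budCb
    linarith
  · intro v hv
    have h1 := hL.prof.pos _ (bfv_Q_mem hB hρ hv)
    have h2 := hCb v hv
    unfold budCb
    linarith

theorem bud_clock_h (hL : BudLoc P b h kb C C' M kmin) (hρ : BudDens kb M ρ) : IsClock 1 (budCh h C ρ) := by
  have hB := hL.box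
  obtain ⟨Ch, hCh⟩ := hL.hh.bdd
  refine ⟨?_, ?_, ⟨Ch + C 1 * 1, ?_⟩⟩
  · intro x hx y hy hxy
    have h1 := hL.hh.mono hx hy hxy
    have h2 := bfv_phi_mono hL.prof (bfv_Q_mem hB hρ hx) (bfv_Q_mem hB hρ hy)
      (budQ_mono hB hρ (Ioo_subset_Icc_self hx) (Ioo_subset_Icc_self hy) hxy)
    simp only at h2
    unfold budCh
    linarith
  · intro v hv
    have h1 := hL.prof.pos _ (bfv_Q_mem hB hρ hv)
    have h2 := hL.hh.nonneg v hv
    have h3 := mul_nonneg h1.le (bfv_Q_mem hB hρ hv).1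
    unfold budCh
    linarith
  · intro v hv
    have h1 := bfv_phi_mono hL.prof (bfv_Q_mem hB hρ hv) (right_mem_Icc.2 zero_le_one) (bfv_Q_mem hB hρ hv).2
    simp only at h1
    have h2 := hCh v hv
    unfold budCh
    linarith
/-! ### integrability, Lipschitz bound of the objective -/

theorem bfv_int_comp (hB : BudBoxOk kb M kmin) (hρ : BudDens kb M ρ) {g : ℝ → ℝ}
    (hg : MonotoneOn g (Icc 0 1)) : IntegrableOn (fun v => g (budQ ρ v)) (Ioo 0 1) := by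
  refine bud_integrableOn_of_monoOn (C := max |g 0| |g 1|) ?_ ?_
  · intro x hx y hy hxy
    exact hg (bfv_Q_mem hB hρ hx) (bfv_Q_mem hB hρ hy)
      (budQ_mono hB hρ (Ioo_subset_Icc_self hx) (Ioo_subset_Icc_self hy) hxy)
  · intro v hv
    have hq := bfv_Q_mem hB hρ hv
    exact abs_le_max_abs_abs (hg (left_mem_Icc.2 zero_le_one) hq hq.1)
      (hg hq (right_mem_Icc.2 zero_le_one) hq.2)

theorem bfv_lipL1 (ha : P.a = 1) {b0 h0 b1 h1 : ℝ → ℝ} (hb0 : IsClock 1 b0) (hh0 : IsClock 1 h0)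
    (hb1 : IsClock 1 b1) (hh1 : IsClock 1 h1) :
    |P.f b1 h1 - P.f b0 h0| ≤ (1/4) * (∫ v in Ioo (0:ℝ) 1, |b1 v - b0 v|)
      + (1/2) * ∫ v in Ioo (0:ℝ) 1, |h1 v - h0 v| := by
  have := bud_lipL1 P b0 h0 b1 h1 (ha ▸ hb0) (ha ▸ hh0) (ha ▸ hb1) (ha ▸ hh1)
  rwa [ha] at this

/-- integral over `(0,1)` of a function bounded by `K` -/
theorem bfv_int_le {g : ℝ → ℝ} {K : ℝ} (hg : ∀ v ∈ Ioo (0:ℝ) 1, |g v| ≤ K) :
    |∫ v in Ioo (0:ℝ) 1, g v| ≤ K := by
  have := norm_setIntegral_le_of_norm_le_const (μ := volume) (s := Ioo (0:ℝ) 1) (f := g) (C := K)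
    (by simp) (fun v hv => by simpa using hg v hv)
  simpa using this

theorem bfv_obj_lip (hL : BudLoc P b h kb C C' M kmin) :
    ∃ K, 0 ≤ K ∧ ∀ ρ ρ' : ℝ → ℝ, ∀ e : ℝ, BudDens kb M ρ → BudDens kb M ρ' →
      (∀ r ∈ Icc (0:ℝ) 1, |budAl ρ' r - budAl ρ r| ≤ e) →
      |budObj P b h C ρ' - budObj P b h C ρ| ≤ K * e := by
  have hB := hL.box
  have hp := hL.prof
  obtain ⟨L1, hL10, hL1⟩ := bfv_lip hp.deriv hp.cont'
  obtain ⟨L2, hL20, hL2⟩ := bfv_lip (fun r hr => bfv_phi_deriv hp hr) (bfv_phi_cont' hp)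
  obtain ⟨L3, hL30, hL3⟩ := bfv_lip (fun r hr => bfv_psi_deriv hp hr) (bfv_psi_cont' hp)
  have hk := hL.kmin0
  refine ⟨(1/4 * L1 + 1/2 * L2 + 1/4 * L3) / kmin, by positivity, ?_⟩
  intro ρ ρ' e hρ hρ' he
  have hQ : ∀ v ∈ Ioo (0:ℝ) 1, |budQ ρ' v - budQ ρ v| ≤ e / kmin := fun v hv =>
    budQ_stab hB hρ hρ' he (Ioo_subset_Icc_self hv)
  have h1 := bfv_lipL1 hL.a1 (bud_clock_b hL hρ) (bud_clock_h hL hρ) (bud_clock_b hL hρ')
    (bud_clock_h hL hρ')
  have i1 : (∫ v in Ioo (0:ℝ) 1, |budCb b C ρ' v - budCb b C ρ v|) ≤ L1 * (e / kmin) := by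
    refine (le_abs_self _).trans (bfv_int_le fun v hv => ?_)
    rw [abs_abs]
    have := hL1 _ (bfv_Q_mem hB hρ hv) _ (bfv_Q_mem hB hρ' hv)
    have e1 : budCb b C ρ' v - budCb b C ρ v = C (budQ ρ v) - C (budQ ρ' v) := by
      unfold budCb; ring
    rw [e1]
    refine this.trans (mul_le_mul_of_nonneg_left ?_ hL10)
    rw [abs_sub_comm]; exact hQ v hv
  have i2 : (∫ v in Ioo (0:ℝ) 1, |budCh h C ρ' v - budCh h C ρ v|) ≤ L2 * (e / kmin) := by
    refine (le_abs_self _).trans (bfv_int_le fun v hv => ?_)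
    rw [abs_abs]
    have := hL2 _ (bfv_Q_mem hB hρ' hv) _ (bfv_Q_mem hB hρ hv)
    have e1 : budCh h C ρ' v - budCh h C ρ v
        = C (budQ ρ' v) * budQ ρ' v - C (budQ ρ v) * budQ ρ v := by
      unfold budCh; ring
    rw [e1]
    exact this.trans (mul_le_mul_of_nonneg_left (hQ v hv) hL20)
  have i3 : |(∫ v in Ioo (0:ℝ) 1, C (budQ ρ' v) * budQ ρ' v ^ 2)
      - ∫ v in Ioo (0:ℝ) 1, C (budQ ρ v) * budQ ρ v ^ 2| ≤ L3 * (e / kmin) := by
    rw [← integral_sub (bfv_int_comp hB hρ' (bfv_psi_mono hp)) (bfv_int_comp hB hρ (bfv_psi_mono hp))]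
    refine bfv_int_le fun v hv => ?_
    have := hL3 _ (bfv_Q_mem hB hρ' hv) _ (bfv_Q_mem hB hρ hv)
    exact this.trans (mul_le_mul_of_nonneg_left (hQ v hv) hL30)
  have e2 : budObj P b h C ρ' - budObj P b h C ρ
      = (P.f (budCb b C ρ') (budCh h C ρ') - P.f (budCb b C ρ) (budCh h C ρ))
        + (1/4) * ((∫ v in Ioo (0:ℝ) 1, C (budQ ρ' v) * budQ ρ' v ^ 2)
          - ∫ v in Ioo (0:ℝ) 1, C (budQ ρ v) * budQ ρ v ^ 2) := by
    unfold budObj; ring
  rw [e2]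
  refine (abs_add_le _ _).trans ?_
  rw [abs_mul, abs_of_nonneg (by norm_num : (0:ℝ) ≤ 1/4)]
  have e3 : (1/4 * L1 + 1/2 * L2 + 1/4 * L3) / kmin * e
      = 1/4 * (L1 * (e / kmin)) + 1/2 * (L2 * (e / kmin)) + 1/4 * (L3 * (e / kmin)) := by
    field_simp
  rw [e3]
  linarith

/-- continuity of the objective for the uniform convergence of `α` -/
theorem bud_obj_cont (hL : BudLoc P b h kb C C' M kmin) (ρk : ℕ → ℝ → ℝ) (hk : ∀ k, BudDens kb M (ρk k))
    (hρ : BudDens kb M ρ) (hc : TendstoUniformlyOn (fun k => budAl (ρk k)) (budAl ρ) atTop (Icc 0 1)) :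
    Tendsto (fun k => budObj P b h C (ρk k)) atTop (𝓝 (budObj P b h C ρ)) := by
  obtain ⟨K, hK0, hK⟩ := bfv_obj_lip hL
  rw [Metric.tendsto_atTop]
  intro ε hε
  have h1 := Metric.tendstoUniformlyOn_iff.1 hc (ε / (K + 1)) (by positivity)
  obtain ⟨N, hN⟩ := eventually_atTop.1 h1
  refine ⟨N, fun n hn => ?_⟩
  have h2 := hK ρ (ρk n) (ε / (K + 1)) hρ (hk n) (fun r hr => by
    have := hN n hn r hr
    rw [Real.dist_eq, abs_sub_comm] at this
    exact this.le)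
  rw [Real.dist_eq]
  refine h2.trans_lt ?_
  rw [mul_div_assoc', div_lt_iff₀ (by positivity)]
  nlinarith

/-- the objective is bounded below on the box -/
theorem bud_obj_bddBelow (hL : BudLoc P b h kb C C' M kmin) :
    BddBelow {x | ∃ ρ, BudDens kb M ρ ∧ x = budObj P b h C ρ} := by
  have hB := hL.box
  have hp := hL.prof
  refine ⟨P.f b h - (1/4 * C 0 + 1/2 * C 0), ?_⟩
  rintro x ⟨ρ, hρ, rfl⟩
  have h1 := bfv_lipL1 hL.a1 hL.hb hL.hh (bud_clock_b hL hρ) (bud_clock_h hL hρ)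
  have hC0 : ∀ v ∈ Ioo (0:ℝ) 1, C (budQ ρ v) ≤ C 0 := fun v hv =>
    bfv_C_anti hp (left_mem_Icc.2 zero_le_one) (bfv_Q_mem hB hρ hv) (bfv_Q_mem hB hρ hv).1
  have i1 : (∫ v in Ioo (0:ℝ) 1, |budCb b C ρ v - b v|) ≤ C 0 := by
    refine (le_abs_self _).trans (bfv_int_le fun v hv => ?_)
    rw [abs_abs]
    have e1 : budCb b C ρ v - b v = - C (budQ ρ v) := by unfold budCb; ring
    rw [e1, abs_neg, abs_of_pos (hp.pos _ (bfv_Q_mem hB hρ hv))]
    exact hC0 v hv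
  have i2 : (∫ v in Ioo (0:ℝ) 1, |budCh h C ρ v - h v|) ≤ C 0 := by
    refine (le_abs_self _).trans (bfv_int_le fun v hv => ?_)
    rw [abs_abs]
    have hq := bfv_Q_mem hB hρ hv
    have e1 : budCh h C ρ v - h v = C (budQ ρ v) * budQ ρ v := by unfold budCh; ring
    rw [e1, abs_of_nonneg (mul_nonneg (hp.pos _ hq).le hq.1)]
    calc C (budQ ρ v) * budQ ρ v ≤ C (budQ ρ v) * 1 := mul_le_mul_of_nonneg_left hq.2 (hp.pos _ hq).le
      _ ≤ C 0 := by rw [mul_one]; exact hC0 v hv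
  have i3 : 0 ≤ ∫ v in Ioo (0:ℝ) 1, C (budQ ρ v) * budQ ρ v ^ 2 :=
    setIntegral_nonneg measurableSet_Ioo fun v hv =>
      mul_nonneg (hp.pos _ (bfv_Q_mem hB hρ hv)).le (sq_nonneg _)
  have h2 := (abs_le.1 h1).1
  unfold budObj
  linarith

/-- **N4a** existence of a minimiser -/
theorem bud_exists_min (hL : BudLoc P b h kb C C' M kmin) : ∃ ρ, BudMin P b h kb C M ρ := by
  have hB := hL.box
  obtain ⟨ρ0, hρ0⟩ := bud_box_nonempty hB hL.kb_int hL.M1.le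
  have hne : {x | ∃ ρ, BudDens kb M ρ ∧ x = budObj P b h C ρ}.Nonempty := ⟨_, ρ0, hρ0, rfl⟩
  obtain ⟨u, -, hu, hmem⟩ := exists_seq_tendsto_sInf hne (bud_obj_bddBelow hL)
  choose ρk hρk hk using hmem
  obtain ⟨ρ, φ, hρ, hφ, hc⟩ := bud_box_compact hB ρk hρk
  have h1 := bud_obj_cont hL (fun k => ρk (φ k)) (fun k => hρk _) hρ hc
  have h2 : Tendsto (fun k => budObj P b h C (ρk (φ k))) atTop
      (𝓝 (sInf {x | ∃ ρ, BudDens kb M ρ ∧ x = budObj P b h C ρ})) :=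
    (hu.comp hφ.tendsto_atTop).congr fun k => hk _
  have h3 := tendsto_nhds_unique h1 h2
  refine ⟨ρ, hρ, fun ρ' hρ' => ?_⟩
  rw [h3]
  exact csInf_le (bud_obj_bddBelow hL) ⟨ρ', hρ', rfl⟩
/-! ### the pressure system at `a = 1` -/

theorem bfv_B_mono (ha : P.a = 1) {b h : ℝ → ℝ} (hb : IsClock 1 b) (hh : IsClock 1 h) :
    MonotoneOn (P.B b h) (Ioo 0 1) := by
  have := P.B_mono b h (ha ▸ hb) (ha ▸ hh); rwa [ha] at this

theorem bfv_S_mono (ha : P.a = 1) {b h : ℝ → ℝ} (hb : IsClock 1 b) (hh : IsClock 1 h) :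
    MonotoneOn (P.S b h) (Ioo 0 1) := by
  have := P.S_mono b h (ha ▸ hb) (ha ▸ hh); rwa [ha] at this

theorem bfv_B_abs (ha : P.a = 1) {b h : ℝ → ℝ} (hb : IsClock 1 b) (hh : IsClock 1 h) :
    ∀ v ∈ Ioo (0:ℝ) 1, |P.B b h v| ≤ 1 := fun v hv =>
  P.B_abs_le (b := b) (h := h) (ha ▸ hb) (ha ▸ hh) (by rw [ha]; exact hv)

theorem bfv_S_abs (ha : P.a = 1) {b h : ℝ → ℝ} (hb : IsClock 1 b) (hh : IsClock 1 h) :
    ∀ v ∈ Ioo (0:ℝ) 1, |P.S b h v| ≤ 1 := fun v hv =>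
  P.S_abs_le (b := b) (h := h) (ha ▸ hb) (ha ▸ hh) (by rw [ha]; exact hv)

theorem bfv_B_int (ha : P.a = 1) {b h : ℝ → ℝ} (hb : IsClock 1 b) (hh : IsClock 1 h) :
    IntegrableOn (P.B b h) (Ioo 0 1) :=
  bud_integrableOn_of_monoOn (bfv_B_mono ha hb hh) (bfv_B_abs ha hb hh)

theorem bfv_S_int (ha : P.a = 1) {b h : ℝ → ℝ} (hb : IsClock 1 b) (hh : IsClock 1 h) :
    IntegrableOn (P.S b h) (Ioo 0 1) :=
  bud_integrableOn_of_monoOn (bfv_S_mono ha hb hh) (bfv_S_abs ha hb hh)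

theorem bfv_seg (ha : P.a = 1) {b0 h0 b1 h1 : ℝ → ℝ} (hb0 : IsClock 1 b0) (hh0 : IsClock 1 h0)
    (hb1 : IsClock 1 b1) (hh1 : IsClock 1 h1) {t : ℝ} (ht : t ∈ Icc (0:ℝ) 1) :
    HasDerivWithinAt (fun s => P.f (clerp s b0 b1) (clerp s h0 h1))
      (-(1/4) * (∫ v in Ioo (0:ℝ) 1, P.B (clerp t b0 b1) (clerp t h0 h1) v * (b1 v - b0 v))
        - (1/2) * (∫ v in Ioo (0:ℝ) 1, P.S (clerp t b0 b1) (clerp t h0 h1) v * (h1 v - h0 v))) (Icc 0 1) t := by
  have := P.seg b0 h0 b1 h1 (ha ▸ hb0) (ha ▸ hh0) (ha ▸ hb1) (ha ▸ hh1) t ht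
  rwa [ha] at this

/-- increment of the objective (mean value form) -/
theorem bud_obj_diff (hL : BudLoc P b h kb C C' M kmin) (hρ : BudDens kb M ρ) (hρ' : BudDens kb M ρ') :
    ∃ s ∈ Icc (0:ℝ) 1,
      budObj P b h C ρ' - budObj P b h C ρ
        = -(1/4) * (∫ r in (0:ℝ)..1, C' r * ∫ v in (budAl ρ r)..(budAl ρ' r),
              P.B (clerp s (budCb b C ρ) (budCb b C ρ')) (clerp s (budCh h C ρ) (budCh h C ρ')) v)
          + (1/2) * (∫ r in (0:ℝ)..1, (C r + r * C' r) * ∫ v in (budAl ρ r)..(budAl ρ' r),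
              P.S (clerp s (budCb b C ρ) (budCb b C ρ')) (clerp s (budCh h C ρ) (budCh h C ρ')) v)
          - (1/4) * (∫ r in (0:ℝ)..1, (2 * r * C r + r ^ 2 * C' r) * (budAl ρ' r - budAl ρ r)) := by
  have hB := hL.box
  have hp := hL.prof
  have ha := hL.a1
  have hb0 := bud_clock_b hL hρ
  have hb1 := bud_clock_b hL hρ'
  have hh0 := bud_clock_h hL hρ
  have hh1 := bud_clock_h hL hρ'
  have hd := fun t (ht : t ∈ Icc (0:ℝ) 1) => bfv_seg ha hb0 hh0 hb1 hh1 ht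
  obtain ⟨s, hs, hs'⟩ := exists_hasDerivAt_eq_slope
    (fun s => P.f (clerp s (budCb b C ρ) (budCb b C ρ')) (clerp s (budCh h C ρ) (budCh h C ρ')))
    (fun t => -(1/4) * (∫ v in Ioo (0:ℝ) 1, P.B (clerp t (budCb b C ρ) (budCb b C ρ'))
          (clerp t (budCh h C ρ) (budCh h C ρ')) v * (budCb b C ρ' v - budCb b C ρ v))
        - (1/2) * (∫ v in Ioo (0:ℝ) 1, P.S (clerp t (budCb b C ρ) (budCb b C ρ'))
          (clerp t (budCh h C ρ) (budCh h C ρ')) v * (budCh h C ρ' v - budCh h C ρ v)))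
    (zero_lt_one) (fun t ht => (hd t ht).continuousWithinAt)
    (fun t ht => (hd t (Ioo_subset_Icc_self ht)).hasDerivAt (Icc_mem_nhds ht.1 ht.2))
  have hs1 : s ∈ Icc (0:ℝ) 1 := Ioo_subset_Icc_self hs
  refine ⟨s, hs1, ?_⟩
  simp only [clerp_one, clerp_zero, sub_zero, div_one] at hs'
  have hbs := hb0.clerp hb1 hs1
  have hhs := hh0.clerp hh1 hs1
  have t1 := bud_transport hB hρ hρ' _ C C' (bfv_B_int ha hbs hhs) hp.deriv hp.cont'
  have t2 := bud_transport hB hρ hρ' _ (fun r => C r * r) (fun r => C r + r * C' r)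
    (bfv_S_int ha hbs hhs) (fun r hr => bfv_phi_deriv hp hr) (bfv_phi_cont' hp)
  have t3 := bud_transport hB hρ hρ' (fun _ => 1) (fun r => C r * r ^ 2)
    (fun r => 2 * r * C r + r ^ 2 * C' r) (integrableOn_const (by simp))
    (fun r hr => bfv_psi_deriv hp hr) (bfv_psi_cont' hp)
  have e1 : (∫ v in Ioo (0:ℝ) 1, P.B (clerp s (budCb b C ρ) (budCb b C ρ'))
      (clerp s (budCh h C ρ) (budCh h C ρ')) v * (budCb b C ρ' v - budCb b C ρ v))
      = - ∫ v in Ioo (0:ℝ) 1, P.B (clerp s (budCb b C ρ) (budCb b C ρ'))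
      (clerp s (budCh h C ρ) (budCh h C ρ')) v * (C (budQ ρ' v) - C (budQ ρ v)) := by
    rw [← integral_neg]
    congr 1; funext v; unfold budCb; ring
  have e2 : (∫ v in Ioo (0:ℝ) 1, P.S (clerp s (budCb b C ρ) (budCb b C ρ'))
      (clerp s (budCh h C ρ) (budCh h C ρ')) v * (budCh h C ρ' v - budCh h C ρ v))
      = ∫ v in Ioo (0:ℝ) 1, P.S (clerp s (budCb b C ρ) (budCb b C ρ'))
      (clerp s (budCh h C ρ) (budCh h C ρ')) v * (C (budQ ρ' v) * budQ ρ' v - C (budQ ρ v) * budQ ρ v) := by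
    congr 1; funext v; unfold budCh; ring
  have e3 : (∫ v in Ioo (0:ℝ) 1, C (budQ ρ' v) * budQ ρ' v ^ 2)
      - (∫ v in Ioo (0:ℝ) 1, C (budQ ρ v) * budQ ρ v ^ 2)
      = - ∫ r in (0:ℝ)..1, (2 * r * C r + r ^ 2 * C' r) * (budAl ρ' r - budAl ρ r) := by
    rw [← integral_sub (bfv_int_comp hB hρ' (bfv_psi_mono hp)) (bfv_int_comp hB hρ (bfv_psi_mono hp))]
    simp only [one_mul, intervalIntegral.integral_const, smul_eq_mul, mul_one] at t3
    exact t3
  rw [e1, e2, t1, t2] at hs'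
  have e4 : budObj P b h C ρ' - budObj P b h C ρ
      = (P.f (budCb b C ρ') (budCh h C ρ') - P.f (budCb b C ρ) (budCh h C ρ))
        + (1/4) * ((∫ v in Ioo (0:ℝ) 1, C (budQ ρ' v) * budQ ρ' v ^ 2)
          - ∫ v in Ioo (0:ℝ) 1, C (budQ ρ v) * budQ ρ v ^ 2) := by
    unfold budObj; ring
  rw [e4, e3, ← hs']
  ring

/-- weak convergence of bounded monotone functions is `L¹` convergence -/
theorem bud_mono_weak_L1 (Fk : ℕ → ℝ → ℝ) (F : ℝ → ℝ) (hk : ∀ k, MonotoneOn (Fk k) (Ioo 0 1))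
    (hF : MonotoneOn F (Ioo 0 1)) (hkb : ∀ k, ∀ v ∈ Ioo (0:ℝ) 1, |Fk k v| ≤ 1) (hFb : ∀ v ∈ Ioo (0:ℝ) 1, |F v| ≤ 1)
    (hw : ∀ φ : ℝ → ℝ, IntegrableOn φ (Ioo 0 1) →
      Tendsto (fun k => ∫ v in Ioo (0:ℝ) 1, Fk k v * φ v) atTop (𝓝 (∫ v in Ioo (0:ℝ) 1, F v * φ v))) :
    Tendsto (fun k => ∫ v in Ioo (0:ℝ) 1, |Fk k v - F v|) atTop (𝓝 0) := by
  apply tendsto_of_subseq_tendsto
  intro ns hns
  obtain ⟨φ, g, hφ, hgm, hgb, -, hL1⟩ := sk_helly_L1 volume (Ioo (0:ℝ) 1) measurableSet_Ioo (by simp)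
    (fun k => Fk (ns k)) (-1) 1 (fun k => hk _) (fun k x hx => abs_le.1 (hkb _ x hx))
  refine ⟨φ, ?_⟩
  have hgb' : ∀ v ∈ Ioo (0:ℝ) 1, |g v| ≤ 1 := fun v hv => abs_le.2 (hgb v hv)
  have hgi : IntegrableOn g (Ioo 0 1) := bud_integrableOn_of_monoOn (C := 1) (hgm.monotoneOn _) hgb'
  have hFi : IntegrableOn F (Ioo 0 1) := bud_integrableOn_of_monoOn hF hFb
  have hki : ∀ k, IntegrableOn (Fk k) (Ioo 0 1) := fun k => bud_integrableOn_of_monoOn (hk k) (hkb k)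
  have hψi : IntegrableOn (fun v => g v - F v) (Ioo 0 1) := hgi.sub hFi
  have hψb : ∀ v ∈ Ioo (0:ℝ) 1, |g v - F v| ≤ 2 := fun v hv => by
    have := abs_sub (g v) (F v)
    have := hgb' v hv
    have := hFb v hv
    linarith
  have i1 : ∀ k, IntegrableOn (fun v => Fk k v * (g v - F v)) (Ioo 0 1) := fun k =>
    bud_integrableOn_mul (hk k) (hkb k) hψi
  have i2 : IntegrableOn (fun v => g v * (g v - F v)) (Ioo 0 1) :=
    bud_integrableOn_mul (hgm.monotoneOn _) hgb' hψi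
  have i3 : IntegrableOn (fun v => F v * (g v - F v)) (Ioo 0 1) := bud_integrableOn_mul hF hFb hψi
  have l1 : Tendsto (fun k => ∫ v in Ioo (0:ℝ) 1, Fk (ns (φ k)) v * (g v - F v)) atTop
      (𝓝 (∫ v in Ioo (0:ℝ) 1, F v * (g v - F v))) :=
    (hw _ hψi).comp (hns.comp hφ.tendsto_atTop)
  have l2 : Tendsto (fun k => ∫ v in Ioo (0:ℝ) 1, Fk (ns (φ k)) v * (g v - F v)) atTop
      (𝓝 (∫ v in Ioo (0:ℝ) 1, g v * (g v - F v))) := by
    rw [tendsto_iff_norm_sub_tendsto_zero]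
    refine squeeze_zero (fun _ => norm_nonneg _) (fun k => ?_) (by simpa using hL1.const_mul 2)
    rw [← integral_sub (i1 _) i2, Real.norm_eq_abs]
    refine abs_integral_le_integral_abs.trans ?_
    rw [← integral_const_mul]
    refine setIntegral_mono_on ((i1 _).sub i2).abs ((((hki _).sub hgi).abs).const_mul 2)
      measurableSet_Ioo fun v hv => ?_
    rw [← sub_mul, abs_mul, mul_comm]
    exact mul_le_mul_of_nonneg_right (hψb v hv) (abs_nonneg _)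
  have h0 : ∫ v in Ioo (0:ℝ) 1, (g v - F v) ^ 2 = 0 := by
    have h1 := tendsto_nhds_unique l1 l2
    have h2 : (fun v => (g v - F v) ^ 2) = fun v => g v * (g v - F v) - F v * (g v - F v) := by
      funext v; ring
    rw [h2, integral_sub i2 i3, h1, sub_self]
  have i4 : IntegrableOn (fun v => (g v - F v) ^ 2) (Ioo 0 1) := by
    have h2 : (fun v => (g v - F v) ^ 2) = fun v => g v * (g v - F v) - F v * (g v - F v) := by
      funext v; ring
    rw [h2]; exact i2.sub i3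
  have hae := (integral_eq_zero_iff_of_nonneg (fun v => sq_nonneg _) i4).1 h0
  refine hL1.congr fun k => integral_congr_ae (hae.mono fun v hv => ?_)
  have : g v = F v := by
    have : (g v - F v) ^ 2 = 0 := hv
    have := pow_eq_zero_iff (two_ne_zero) |>.1 this
    linarith
  simp only [this]

/-! ### the window lemma -/

/-- `|∫_a^b F| ≤ |b - a|` for `|F| ≤ 1` on `(0,1)` -/
theorem bfw_abs_le {F : ℝ → ℝ} (hFb : ∀ v ∈ Ioo (0:ℝ) 1, |F v| ≤ 1) {x y : ℝ} (hx : x ∈ Icc (0:ℝ) 1)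
    (hy : y ∈ Icc (0:ℝ) 1) : |∫ v in x..y, F v| ≤ |y - x| := by
  have h1 : ∀ᵐ v ∂(volume : Measure ℝ), v ∈ uIoc x y → ‖F v‖ ≤ 1 := by
    have h2 : ∀ᵐ v ∂(volume : Measure ℝ), v ≠ 1 := by
      simp [ae_iff]
    filter_upwards [h2] with v hv hm
    rw [Real.norm_eq_abs]
    apply hFb
    rw [uIoc, mem_Ioc] at hm
    refine ⟨lt_of_le_of_lt (le_min hx.1 hy.1) hm.1, lt_of_le_of_ne (hm.2.trans (max_le hx.2 hy.2)) hv⟩
  have := intervalIntegral.norm_integral_le_of_norm_le_const_ae h1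
  simpa using this

/-- the segment of `α` stays in `[0,1]` -/
theorem bfw_seg_mem (hB : BudBoxOk kb M kmin) (hρ : BudDens kb M ρ) (hρ' : BudDens kb M ρ') {t : ℝ}
    (ht : t ∈ Icc (0:ℝ) 1) {r : ℝ} (hr : r ∈ Icc (0:ℝ) 1) :
    budAl ρ r + t * (budAl ρ' r - budAl ρ r) ∈ Icc (0:ℝ) 1 := by
  rw [← budAl_lerp hB hρ hρ' t hr]
  exact budAl_mem_Icc hB (hρ.lerp hB hρ' ht) hr

theorem bfw_delta_le (hB : BudBoxOk kb M kmin) (hρ : BudDens kb M ρ) (hρ' : BudDens kb M ρ') {r : ℝ}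
    (hr : r ∈ Icc (0:ℝ) 1) : |budAl ρ' r - budAl ρ r| ≤ 1 := by
  have h1 := budAl_mem_Icc hB hρ hr
  have h2 := budAl_mem_Icc hB hρ' hr
  rw [abs_le]; constructor <;> linarith [h1.1, h1.2, h2.1, h2.2]

/-- continuity in `r` of the window integral -/
theorem bfw_win_cont (hB : BudBoxOk kb M kmin) (hρ : BudDens kb M ρ) (hρ' : BudDens kb M ρ') {t : ℝ}
    (ht : t ∈ Icc (0:ℝ) 1) {F : ℝ → ℝ} (hF : IntegrableOn F (Ioo 0 1)) :
    ContinuousOn (fun r => ∫ v in (budAl ρ r)..(budAl ρ r + t * (budAl ρ' r - budAl ρ r)), F v) (Icc 0 1) := by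
  have hF' : IntegrableOn F (uIcc 0 1) := by
    rw [uIcc_of_le zero_le_one, integrableOn_Icc_iff_integrableOn_Ioo]; exact hF
  have hc := intervalIntegral.continuousOn_primitive_interval hF'
  rw [uIcc_of_le zero_le_one] at hc
  have c1 : ContinuousOn (fun r => ∫ v in (0:ℝ)..(budAl ρ r), F v) (Icc 0 1) :=
    hc.comp (budAl_cont hB hρ) (fun r hr => budAl_mem_Icc hB hρ hr)
  have c2 : ContinuousOn (fun r => ∫ v in (0:ℝ)..(budAl ρ r + t * (budAl ρ' r - budAl ρ r)), F v) (Icc 0 1) :=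
    hc.comp ((budAl_cont hB hρ).add (continuousOn_const.mul ((budAl_cont hB hρ').sub (budAl_cont hB hρ))))
      (fun r hr => bfw_seg_mem hB hρ hρ' ht hr)
  refine (c2.sub c1).congr fun r hr => ?_
  have z : (0:ℝ) ∈ Icc (0:ℝ) 1 := left_mem_Icc.2 zero_le_one
  exact (intervalIntegral.integral_interval_sub_left
    (bud_F_intervalIntegrable hF z (bfw_seg_mem hB hρ hρ' ht hr))
    (bud_F_intervalIntegrable hF z (budAl_mem_Icc hB hρ hr))).symm

/-- the error part of the window lemma, through the transport identity -/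
theorem bfw_err (hB : BudBoxOk kb M kmin) (hρ : BudDens kb M ρ) (hρ' : BudDens kb M ρ') {t : ℝ}
    (ht : t ∈ Icc (0:ℝ) 1) {G w : ℝ → ℝ} (hG : IntegrableOn G (Ioo 0 1)) (hw : ContinuousOn w (Icc 0 1))
    {K : ℝ} (hK : ∀ r ∈ Icc (0:ℝ) 1, |w r| ≤ K) :
    |∫ r in (0:ℝ)..1, w r * ∫ v in (budAl ρ r)..(budAl ρ r + t * (budAl ρ' r - budAl ρ r)), G v|
      ≤ K * (t / kmin) * ∫ v in Ioo (0:ℝ) 1, |G v| := by
  have hK0 : 0 ≤ K := (abs_nonneg _).trans (hK 0 (left_mem_Icc.2 zero_le_one))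
  set w' : ℝ → ℝ := IccExtend (zero_le_one' ℝ) (domRestrict (Icc 0 1) w) with hw'
  have hw'c : Continuous w' := (continuousOn_iff_continuous_domRestrict.1 hw).Icc_extend'
  have hw'e : ∀ r ∈ Icc (0:ℝ) 1, w' r = w r := fun r hr => by
    rw [hw', IccExtend_of_mem _ _ hr]; rfl
  have hw'b : ∀ r, |w' r| ≤ K := fun r => by
    rw [hw']; exact hK _ (projIcc 0 1 (zero_le_one' ℝ) r).2
  set W : ℝ → ℝ := fun r => ∫ s in (0:ℝ)..r, w' s with hW
  have hWd : ∀ r, HasDerivAt W (w' r) r := fun r =>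
    intervalIntegral.integral_hasDerivAt_right (hw'c.intervalIntegrable _ _)
      (hw'c.stronglyMeasurableAtFilter _ _) hw'c.continuousAt
  have hρt := hρ.lerp hB hρ' ht
  have tr := bud_transport hB hρ hρt G W w' hG (fun r _ => hWd r) hw'c.continuousOn
  have e1 : (∫ r in (0:ℝ)..1, w r * ∫ v in (budAl ρ r)..(budAl ρ r + t * (budAl ρ' r - budAl ρ r)), G v)
      = ∫ r in (0:ℝ)..1, w' r * ∫ v in (budAl ρ r)..(budAl (fun r => ρ r + t * (ρ' r - ρ r)) r), G v := by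
    refine intervalIntegral.integral_congr fun r hr => ?_
    rw [uIcc_of_le zero_le_one] at hr
    rw [hw'e r hr, budAl_lerp hB hρ hρ' t hr]
  rw [e1, ← neg_eq_iff_eq_neg.2 tr, abs_neg, ← Real.norm_eq_abs, ← integral_const_mul]
  refine norm_integral_le_of_norm_le (hG.abs.const_mul _) ?_
  refine (ae_restrict_iff' measurableSet_Ioo).2 (Eventually.of_forall fun v hv => ?_)
  have hq : |budQ (fun r => ρ r + t * (ρ' r - ρ r)) v - budQ ρ v| ≤ t / kmin := by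
    refine budQ_stab hB hρ hρt (fun r hr => ?_) (Ioo_subset_Icc_self hv)
    rw [budAl_lerp hB hρ hρ' t hr, add_sub_cancel_left, abs_mul, abs_of_nonneg ht.1]
    calc t * |budAl ρ' r - budAl ρ r| ≤ t * 1 :=
          mul_le_mul_of_nonneg_left (bfw_delta_le hB hρ hρ' hr) ht.1
      _ = t := mul_one t
  have hl : |W (budQ (fun r => ρ r + t * (ρ' r - ρ r)) v) - W (budQ ρ v)|
      ≤ K * |budQ (fun r => ρ r + t * (ρ' r - ρ r)) v - budQ ρ v| := by
    have := Convex.norm_image_sub_le_of_norm_hasDerivWithin_le (f := W) (f' := w') (C := K)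
      (s := univ) (fun r _ => (hWd r).hasDerivWithinAt) (fun r _ => hw'b r) convex_univ
      (mem_univ (budQ ρ v)) (mem_univ (budQ (fun r => ρ r + t * (ρ' r - ρ r)) v))
    simpa using this
  rw [Real.norm_eq_abs, abs_mul, mul_comm]
  exact mul_le_mul_of_nonneg_right (hl.trans (mul_le_mul_of_nonneg_left hq hK0)) (abs_nonneg _)

/-- pointwise limit of the window average at a continuity point -/
theorem bfw_pt {F : ℝ → ℝ} (hF : IntegrableOn F (Ioo 0 1)) {v0 d : ℝ} (hv : v0 ∈ Ioo (0:ℝ) 1)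
    (hc : ContinuousAt F v0) (tk : ℕ → ℝ) (ht0 : ∀ k, 0 < tk k) (ht : Tendsto tk atTop (𝓝 0)) :
    Tendsto (fun k => (tk k)⁻¹ * ∫ v in v0..(v0 + tk k * d), F v) atTop (𝓝 (d * F v0)) := by
  have h1 : HasDerivAt (fun u => ∫ v in v0..u, F v) (F v0) (v0 + 0 * d) := by
    have := intervalIntegral.integral_hasDerivAt_right (f := F) (a := v0) (b := v0)
      IntervalIntegrable.refl ⟨Ioo 0 1, Ioo_mem_nhds hv.1 hv.2, hF.aestronglyMeasurable⟩ hc
    simpa using this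
  have h2 : HasDerivAt (fun t : ℝ => v0 + t * d) d 0 := by
    simpa using ((hasDerivAt_id (0:ℝ)).mul_const d).const_add v0
  have h3 := (h1.comp 0 h2).tendsto_slope_zero
  have h4 : Tendsto tk atTop (𝓝[≠] 0) :=
    tendsto_nhdsWithin_iff.2 ⟨ht, Eventually.of_forall fun k => (ht0 k).ne'⟩
  have h5 := h3.comp h4
  rw [mul_comm d]
  refine h5.congr fun k => ?_
  simp [Function.comp]

/-- the main part of the window lemma: dominated convergence -/
theorem bfw_main (hB : BudBoxOk kb M kmin) (hρ : BudDens kb M ρ) (hρ' : BudDens kb M ρ')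
    (F w : ℝ → ℝ) (tk : ℕ → ℝ) (ht0 : ∀ k, 0 < tk k) (ht1 : ∀ k, tk k ≤ 1)
    (ht : Tendsto tk atTop (𝓝 0)) (hF : MonotoneOn F (Ioo 0 1))
    (hFb : ∀ v ∈ Ioo (0:ℝ) 1, |F v| ≤ 1) (hw : ContinuousOn w (Icc 0 1)) :
    Tendsto (fun k => ∫ r in (0:ℝ)..1, w r * ((tk k)⁻¹ *
        ∫ v in (budAl ρ r)..(budAl ρ r + tk k * (budAl ρ' r - budAl ρ r)), F v)) atTop
      (𝓝 (∫ r in (0:ℝ)..1, w r * ((budAl ρ' r - budAl ρ r) * F (budAl ρ r)))) := by
  have hFi : IntegrableOn F (Ioo 0 1) := bud_integrableOn_of_monoOn hF hFb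
  obtain ⟨K, hK⟩ := isCompact_Icc.exists_bound_of_continuousOn hw
  have htm : ∀ k, tk k ∈ Icc (0:ℝ) 1 := fun k => ⟨(ht0 k).le, ht1 k⟩
  refine intervalIntegral.tendsto_integral_filter_of_dominated_convergence (fun _ => K) ?_ ?_ ?_ ?_
  · refine Eventually.of_forall fun k => ?_
    have hc : ContinuousOn (fun r => w r * ((tk k)⁻¹ *
        ∫ v in (budAl ρ r)..(budAl ρ r + tk k * (budAl ρ' r - budAl ρ r)), F v)) (Icc 0 1) :=
      hw.mul (continuousOn_const.mul (bfw_win_cont hB hρ hρ' (htm k) hFi))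
    rw [uIoc_of_le zero_le_one]
    exact (hc.aestronglyMeasurable measurableSet_Icc).mono_set Ioc_subset_Icc_self
  · refine Eventually.of_forall fun k => Eventually.of_forall fun r hr => ?_
    rw [uIoc_of_le zero_le_one] at hr
    have hr' : r ∈ Icc (0:ℝ) 1 := Ioc_subset_Icc_self hr
    have h1 := bfw_abs_le hFb (budAl_mem_Icc hB hρ hr') (bfw_seg_mem hB hρ hρ' (htm k) hr')
    rw [add_sub_cancel_left, abs_mul, abs_of_pos (ht0 k)] at h1
    have h2 := bfw_delta_le hB hρ hρ' hr'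
    have h3 : |(tk k)⁻¹ * ∫ v in (budAl ρ r)..(budAl ρ r + tk k * (budAl ρ' r - budAl ρ r)), F v| ≤ 1 := by
      rw [abs_mul, abs_of_pos (inv_pos.2 (ht0 k)), inv_mul_le_iff₀ (ht0 k)]
      calc _ ≤ tk k * |budAl ρ' r - budAl ρ r| := h1
        _ ≤ tk k * 1 := mul_le_mul_of_nonneg_left h2 (ht0 k).le
    rw [norm_mul]
    calc ‖w r‖ * _ ≤ K * 1 := mul_le_mul (hK r hr') h3 (abs_nonneg _) ((norm_nonneg _).trans (hK r hr'))
      _ = K := mul_one K
  · exact intervalIntegrable_const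
  · have hD := hF.countable_not_continuousWithinAt
    have hD' : {r | r ∈ Icc (0:ℝ) 1 ∧ budAl ρ r ∈ {x ∈ Ioo (0:ℝ) 1 | ¬ContinuousWithinAt F (Ioo 0 1) x}}.Countable :=
      MapsTo.countable_of_injOn (f := budAl ρ) (fun r hr => hr.2)
        ((budAl_strictMonoOn hB hρ).injOn.mono fun r hr => hr.1) hD
    have h1 : ∀ᵐ r ∂(volume : Measure ℝ), r ≠ 1 := by simp [ae_iff]
    filter_upwards [hD'.ae_notMem volume, h1] with r hr hr1 hm
    rw [uIoc_of_le zero_le_one] at hm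
    have hr' : r ∈ Ioo (0:ℝ) 1 := ⟨hm.1, lt_of_le_of_ne hm.2 hr1⟩
    have hv := budAl_mem hB hρ hr'
    have hc : ContinuousAt F (budAl ρ r) := by
      by_contra hcon
      exact hr ⟨Ioo_subset_Icc_self hr', hv, fun hh => hcon (hh.continuousAt (Ioo_mem_nhds hv.1 hv.2))⟩
    exact (bfw_pt hFi hv hc tk ht0 ht).const_mul (w r)

/-- the window lemma -/
theorem bud_window (hB : BudBoxOk kb M kmin) (hρ : BudDens kb M ρ) (hρ' : BudDens kb M ρ')
    (Fk : ℕ → ℝ → ℝ) (F w : ℝ → ℝ) (tk : ℕ → ℝ) (ht0 : ∀ k, 0 < tk k) (ht1 : ∀ k, tk k ≤ 1)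
    (ht : Tendsto tk atTop (𝓝 0)) (hk : ∀ k, MonotoneOn (Fk k) (Ioo 0 1)) (hF : MonotoneOn F (Ioo 0 1))
    (hkb : ∀ k, ∀ v ∈ Ioo (0:ℝ) 1, |Fk k v| ≤ 1) (hFb : ∀ v ∈ Ioo (0:ℝ) 1, |F v| ≤ 1)
    (hL1 : Tendsto (fun k => ∫ v in Ioo (0:ℝ) 1, |Fk k v - F v|) atTop (𝓝 0))
    (hw : ContinuousOn w (Icc 0 1)) :
    Tendsto (fun k => (tk k)⁻¹ * ∫ r in (0:ℝ)..1, w r *
        ∫ v in (budAl ρ r)..(budAl ρ r + tk k * (budAl ρ' r - budAl ρ r)), Fk k v) atTop
      (𝓝 (∫ r in (0:ℝ)..1, w r * ((budAl ρ' r - budAl ρ r) * F (budAl ρ r)))) := by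
  have hFi : IntegrableOn F (Ioo 0 1) := bud_integrableOn_of_monoOn hF hFb
  have hki : ∀ k, IntegrableOn (Fk k) (Ioo 0 1) := fun k => bud_integrableOn_of_monoOn (hk k) (hkb k)
  obtain ⟨K, hK⟩ := isCompact_Icc.exists_bound_of_continuousOn hw
  have htm : ∀ k, tk k ∈ Icc (0:ℝ) 1 := fun k => ⟨(ht0 k).le, ht1 k⟩
  have hmain := bfw_main hB hρ hρ' F w tk ht0 ht1 ht hF hFb hw
  have hii : ∀ k (G : ℝ → ℝ), IntegrableOn G (Ioo 0 1) → IntervalIntegrable (fun r => w r *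
      ∫ v in (budAl ρ r)..(budAl ρ r + tk k * (budAl ρ' r - budAl ρ r)), G v) volume 0 1 := fun k G hG =>
    ContinuousOn.intervalIntegrable (by
      rw [uIcc_of_le zero_le_one]; exact hw.mul (bfw_win_cont hB hρ hρ' (htm k) hG))
  have herr : Tendsto (fun k => (tk k)⁻¹ * ∫ r in (0:ℝ)..1, w r *
      ∫ v in (budAl ρ r)..(budAl ρ r + tk k * (budAl ρ' r - budAl ρ r)), (Fk k v - F v)) atTop (𝓝 0) := by
    rw [tendsto_zero_iff_abs_tendsto_zero]
    refine squeeze_zero (fun _ => abs_nonneg _) (fun k => ?_) (by simpa using hL1.const_mul (K / kmin))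
    have h1 := bfw_err hB hρ hρ' (htm k) ((hki k).sub hFi) hw (K := K) (fun r hr => hK r hr)
    simp only [Pi.sub_apply] at h1
    rw [Function.comp, abs_mul, abs_of_pos (inv_pos.2 (ht0 k)), inv_mul_le_iff₀ (ht0 k)]
    refine h1.trans (le_of_eq ?_)
    ring
  have hsum := hmain.add herr
  rw [add_zero] at hsum
  refine hsum.congr fun k => ?_
  rw [← intervalIntegral.integral_const_mul, ← intervalIntegral.integral_const_mul,
    ← intervalIntegral.integral_add]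
  · refine intervalIntegral.integral_congr fun r hr => ?_
    rw [uIcc_of_le zero_le_one] at hr
    have i1 := bud_F_intervalIntegrable hFi (budAl_mem_Icc hB hρ hr) (bfw_seg_mem hB hρ hρ' (htm k) hr)
    have i2 := bud_F_intervalIntegrable (hki k) (budAl_mem_Icc hB hρ hr) (bfw_seg_mem hB hρ hρ' (htm k) hr)
    rw [intervalIntegral.integral_sub i2 i1]
    ring
  · have := (hii k F hFi).const_mul (tk k)⁻¹
    refine this.congr ?_
    exact fun r _ => by ring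
  · exact (hii k _ ((hki k).sub hFi)).const_mul _

theorem bfw_unif {c0 : ℝ → ℝ} {ck : ℕ → ℝ → ℝ} {e : ℕ → ℝ} (he : Tendsto e atTop (𝓝 0))
    (hc : ∀ k, ∀ v ∈ Ioo (0:ℝ) 1, |ck k v - c0 v| ≤ e k) : TendstoUniformlyOn ck c0 atTop (Ioo 0 1) := by
  rw [Metric.tendstoUniformlyOn_iff]
  intro ε hε
  filter_upwards [he.eventually (gt_mem_nhds hε)] with k hk v hv
  rw [Real.dist_eq, abs_sub_comm]
  exact (hc k v hv).trans_lt hk

theorem bfw_lim_int (hB : BudBoxOk kb M kmin) (hρ : BudDens kb M ρ) (hρ' : BudDens kb M ρ')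
    {F w : ℝ → ℝ} (hF : MonotoneOn F (Ioo 0 1)) (hFb : ∀ v ∈ Ioo (0:ℝ) 1, |F v| ≤ 1)
    (hw : ContinuousOn w (Icc 0 1)) :
    IntervalIntegrable (fun r => w r * ((budAl ρ' r - budAl ρ r) * F (budAl ρ r))) volume 0 1 := by
  rw [intervalIntegrable_iff_integrableOn_Ioo_of_le zero_le_one]
  have hFi : IntegrableOn F (Ioo 0 1) := bud_integrableOn_of_monoOn hF hFb
  have h1 := (bud_cov_le hB hρ F hFi).1
  have hc : ContinuousOn (fun r => w r * (budAl ρ' r - budAl ρ r)) (Icc 0 1) :=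
    hw.mul ((budAl_cont hB hρ').sub (budAl_cont hB hρ))
  obtain ⟨K, hK⟩ := isCompact_Icc.exists_bound_of_continuousOn hc
  have h2 : IntegrableOn (fun r => (w r * (budAl ρ' r - budAl ρ r)) * F (budAl ρ r)) (Ioo 0 1) := by
    refine Integrable.bdd_mul (c := K) h1
      ((hc.aestronglyMeasurable measurableSet_Icc).mono_set Ioo_subset_Icc_self) ?_
    exact (ae_restrict_iff' measurableSet_Ioo).2
      (Eventually.of_forall fun r hr => hK r (Ioo_subset_Icc_self hr))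
  refine h2.congr (Eventually.of_forall fun r => ?_)
  simp only; ring

/-- the variation density in terms of `C'`, `φ'`, `ψ'` -/
theorem bfw_G_eq (hp : BudProf C C') {r : ℝ} (hr0 : 0 < r) (hr1 : r ≤ 1) (S B : ℝ) :
    C r * budBr (budP C C' r) r S B
      = (2 * r * C r + r ^ 2 * C' r) - 2 * (C r + r * C' r) * S + C' r * B := by
  have hC := (hp.pos r ⟨hr0.le, hr1⟩).ne'
  unfold budBr budP
  field_simp
  ring

theorem bfw_cont_B (ha : P.a = 1) (bk hk : ℕ → ℝ → ℝ) (b h : ℝ → ℝ) (h1 : ∀ k, IsClock 1 (bk k))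
    (h2 : ∀ k, IsClock 1 (hk k)) (h3 : IsClock 1 b) (h4 : IsClock 1 h)
    (h5 : TendstoUniformlyOn bk b atTop (Ioo 0 1)) (h6 : TendstoUniformlyOn hk h atTop (Ioo 0 1))
    (φ : ℝ → ℝ) (hφ : IntegrableOn φ (Ioo 0 1)) :
    Tendsto (fun k => ∫ v in Ioo (0:ℝ) 1, P.B (bk k) (hk k) v * φ v) atTop
      (𝓝 (∫ v in Ioo (0:ℝ) 1, P.B b h v * φ v)) := by
  have := P.cont_B bk hk b h (ha ▸ h1) (ha ▸ h2) (ha ▸ h3) (ha ▸ h4) (ha ▸ h5) (ha ▸ h6) φ (ha ▸ hφ)
  rwa [ha] at this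

theorem bfw_cont_S (ha : P.a = 1) (bk hk : ℕ → ℝ → ℝ) (b h : ℝ → ℝ) (h1 : ∀ k, IsClock 1 (bk k))
    (h2 : ∀ k, IsClock 1 (hk k)) (h3 : IsClock 1 b) (h4 : IsClock 1 h)
    (h5 : TendstoUniformlyOn bk b atTop (Ioo 0 1)) (h6 : TendstoUniformlyOn hk h atTop (Ioo 0 1))
    (φ : ℝ → ℝ) (hφ : IntegrableOn φ (Ioo 0 1)) :
    Tendsto (fun k => ∫ v in Ioo (0:ℝ) 1, P.S (bk k) (hk k) v * φ v) atTop
      (𝓝 (∫ v in Ioo (0:ℝ) 1, P.S b h v * φ v)) := by
  have := P.cont_S bk hk b h (ha ▸ h1) (ha ▸ h2) (ha ▸ h3) (ha ▸ h4) (ha ▸ h5) (ha ▸ h6) φ (ha ▸ hφ)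
  rwa [ha] at this

/-- **N4b** first variation at a minimiser -/
theorem bud_first_variation (hL : BudLoc P b h kb C C' M kmin) (hmin : BudMin P b h kb C M ρ) :
    BudFV (fun r => C r * budBr (budP C C' r) r (budSr P b h C ρ r) (budBr' P b h C ρ r)) kb M ρ := by
  intro ρ' hρ'
  have hB := hL.box
  have hp := hL.prof
  have ha := hL.a1
  have hρ := hmin.1
  have hkm := hL.kmin0
  set tk : ℕ → ℝ := fun k => 1 / ((k:ℝ) + 1) with htk
  have ht0 : ∀ k, 0 < tk k := fun k => by rw [htk]; positivity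
  have ht1 : ∀ k, tk k ≤ 1 := fun k => by
    rw [htk]; simp only
    rw [div_le_one (by positivity)]
    have : (0:ℝ) ≤ k := Nat.cast_nonneg k
    linarith
  have ht : Tendsto tk atTop (𝓝 0) := tendsto_one_div_add_atTop_nhds_zero_nat
  have htm : ∀ k, tk k ∈ Icc (0:ℝ) 1 := fun k => ⟨(ht0 k).le, ht1 k⟩
  set ρk : ℕ → ℝ → ℝ := fun k r => ρ r + tk k * (ρ' r - ρ r) with hρkdef
  have hρk : ∀ k, BudDens kb M (ρk k) := fun k => hρ.lerp hB hρ' (htm k)
  have hal : ∀ k, ∀ r ∈ Icc (0:ℝ) 1, budAl (ρk k) r = budAl ρ r + tk k * (budAl ρ' r - budAl ρ r) :=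
    fun k r hr => budAl_lerp hB hρ hρ' (tk k) hr
  choose s hs hs' using fun k => bud_obj_diff hL hρ (hρk k)
  have hb0 := bud_clock_b hL hρ
  have hh0 := bud_clock_h hL hρ
  have hb1 := fun k => bud_clock_b hL (hρk k)
  have hh1 := fun k => bud_clock_h hL (hρk k)
  set bk : ℕ → ℝ → ℝ := fun k => clerp (s k) (budCb b C ρ) (budCb b C (ρk k)) with hbk
  set hk : ℕ → ℝ → ℝ := fun k => clerp (s k) (budCh h C ρ) (budCh h C (ρk k)) with hhk
  have cbk : ∀ k, IsClock 1 (bk k) := fun k => hb0.clerp (hb1 k) (hs k)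
  have chk : ∀ k, IsClock 1 (hk k) := fun k => hh0.clerp (hh1 k) (hs k)
  -- uniform convergence of the clocks
  obtain ⟨L1, hL10, hL1⟩ := bfv_lip hp.deriv hp.cont'
  obtain ⟨L2, hL20, hL2⟩ := bfv_lip (fun r hr => bfv_phi_deriv hp hr) (bfv_phi_cont' hp)
  have hQ : ∀ k, ∀ v ∈ Ioo (0:ℝ) 1, |budQ (ρk k) v - budQ ρ v| ≤ tk k / kmin := fun k v hv => by
    refine budQ_stab hB hρ (hρk k) (fun r hr => ?_) (Ioo_subset_Icc_self hv)
    rw [hal k r hr, add_sub_cancel_left, abs_mul, abs_of_pos (ht0 k)]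
    calc tk k * |budAl ρ' r - budAl ρ r| ≤ tk k * 1 :=
          mul_le_mul_of_nonneg_left (bfw_delta_le hB hρ hρ' hr) (ht0 k).le
      _ = tk k := mul_one _
  have ub : TendstoUniformlyOn bk (budCb b C ρ) atTop (Ioo 0 1) := by
    refine bfw_unif (e := fun k => L1 * (tk k / kmin)) (by simpa using (ht.div_const kmin).const_mul L1) ?_
    intro k v hv
    have e1 : bk k v - budCb b C ρ v = s k * (C (budQ ρ v) - C (budQ (ρk k) v)) := by
      rw [hbk]; unfold clerp budCb; ring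
    rw [e1, abs_mul, abs_of_nonneg (hs k).1]
    have h1 := hL1 _ (bfv_Q_mem hB hρ hv) _ (bfv_Q_mem hB (hρk k) hv)
    rw [abs_sub_comm (budQ ρ v)] at h1
    calc s k * |C (budQ ρ v) - C (budQ (ρk k) v)| ≤ 1 * |C (budQ ρ v) - C (budQ (ρk k) v)| :=
          mul_le_mul_of_nonneg_right (hs k).2 (abs_nonneg _)
      _ ≤ L1 * (tk k / kmin) := by
          rw [one_mul]; exact h1.trans (mul_le_mul_of_nonneg_left (hQ k v hv) hL10)
  have uh : TendstoUniformlyOn hk (budCh h C ρ) atTop (Ioo 0 1) := by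
    refine bfw_unif (e := fun k => L2 * (tk k / kmin)) (by simpa using (ht.div_const kmin).const_mul L2) ?_
    intro k v hv
    have e1 : hk k v - budCh h C ρ v
        = s k * (C (budQ (ρk k) v) * budQ (ρk k) v - C (budQ ρ v) * budQ ρ v) := by
      rw [hhk]; unfold clerp budCh; ring
    rw [e1, abs_mul, abs_of_nonneg (hs k).1]
    have h1 := hL2 _ (bfv_Q_mem hB (hρk k) hv) _ (bfv_Q_mem hB hρ hv)
    calc s k * |C (budQ (ρk k) v) * budQ (ρk k) v - C (budQ ρ v) * budQ ρ v|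
        ≤ 1 * |C (budQ (ρk k) v) * budQ (ρk k) v - C (budQ ρ v) * budQ ρ v| :=
          mul_le_mul_of_nonneg_right (hs k).2 (abs_nonneg _)
      _ ≤ L2 * (tk k / kmin) := by
          rw [one_mul]; exact h1.trans (mul_le_mul_of_nonneg_left (hQ k v hv) hL20)
  -- `L¹` convergence of the statistics
  have lB := bud_mono_weak_L1 (fun k => P.B (bk k) (hk k)) (P.B (budCb b C ρ) (budCh h C ρ))
    (fun k => bfv_B_mono ha (cbk k) (chk k)) (bfv_B_mono ha hb0 hh0)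
    (fun k => bfv_B_abs ha (cbk k) (chk k)) (bfv_B_abs ha hb0 hh0)
    (bfw_cont_B ha bk hk _ _ cbk chk hb0 hh0 ub uh)
  have lS := bud_mono_weak_L1 (fun k => P.S (bk k) (hk k)) (P.S (budCb b C ρ) (budCh h C ρ))
    (fun k => bfv_S_mono ha (cbk k) (chk k)) (bfv_S_mono ha hb0 hh0)
    (fun k => bfv_S_abs ha (cbk k) (chk k)) (bfv_S_abs ha hb0 hh0)
    (bfw_cont_S ha bk hk _ _ cbk chk hb0 hh0 ub uh)
  have wB := bud_window hB hρ hρ' _ _ C' tk ht0 ht1 ht
    (fun k => bfv_B_mono ha (cbk k) (chk k)) (bfv_B_mono ha hb0 hh0)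
    (fun k => bfv_B_abs ha (cbk k) (chk k)) (bfv_B_abs ha hb0 hh0) lB hp.cont'
  have wS := bud_window hB hρ hρ' _ _ (fun r => C r + r * C' r) tk ht0 ht1 ht
    (fun k => bfv_S_mono ha (cbk k) (chk k)) (bfv_S_mono ha hb0 hh0)
    (fun k => bfv_S_abs ha (cbk k) (chk k)) (bfv_S_abs ha hb0 hh0) lS (bfv_phi_cont' hp)
  set IB := ∫ r in (0:ℝ)..1, C' r * ((budAl ρ' r - budAl ρ r) * P.B (budCb b C ρ) (budCh h C ρ) (budAl ρ r))
    with hIB
  set IS := ∫ r in (0:ℝ)..1, (C r + r * C' r) *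
    ((budAl ρ' r - budAl ρ r) * P.S (budCb b C ρ) (budCh h C ρ) (budAl ρ r)) with hIS
  set Iψ := ∫ r in (0:ℝ)..1, (2 * r * C r + r ^ 2 * C' r) * (budAl ρ' r - budAl ρ r) with hIψ
  have hlim : Tendsto (fun k => (tk k)⁻¹ * (budObj P b h C (ρk k) - budObj P b h C ρ)) atTop
      (𝓝 (-(1/4) * IB + (1/2) * IS - (1/4) * Iψ)) := by
    have h1 := ((wB.const_mul (-(1/4))).add (wS.const_mul (1/2))).sub
      (tendsto_const_nhds (x := (1/4) * Iψ))
    refine h1.congr fun k => ?_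
    rw [hs' k]
    have e1 : (∫ r in (0:ℝ)..1, C' r * ∫ v in (budAl ρ r)..(budAl (ρk k) r), P.B (bk k) (hk k) v)
        = ∫ r in (0:ℝ)..1, C' r * ∫ v in (budAl ρ r)..(budAl ρ r + tk k * (budAl ρ' r - budAl ρ r)),
            P.B (bk k) (hk k) v := by
      refine intervalIntegral.integral_congr fun r hr => ?_
      rw [uIcc_of_le zero_le_one] at hr
      simp only [hal k r hr]
    have e2 : (∫ r in (0:ℝ)..1, (C r + r * C' r) * ∫ v in (budAl ρ r)..(budAl (ρk k) r), P.S (bk k) (hk k) v)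
        = ∫ r in (0:ℝ)..1, (C r + r * C' r) *
            ∫ v in (budAl ρ r)..(budAl ρ r + tk k * (budAl ρ' r - budAl ρ r)), P.S (bk k) (hk k) v := by
      refine intervalIntegral.integral_congr fun r hr => ?_
      rw [uIcc_of_le zero_le_one] at hr
      simp only [hal k r hr]
    have e3 : (∫ r in (0:ℝ)..1, (2 * r * C r + r ^ 2 * C' r) * (budAl (ρk k) r - budAl ρ r))
        = tk k * Iψ := by
      rw [hIψ, ← intervalIntegral.integral_const_mul]
      refine intervalIntegral.integral_congr fun r hr => ?_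
      rw [uIcc_of_le zero_le_one] at hr
      simp only [hal k r hr]
      ring
    rw [e1, e2, e3]
    have := (ht0 k).ne'
    field_simp
  have hge : 0 ≤ -(1/4) * IB + (1/2) * IS - (1/4) * Iψ :=
    ge_of_tendsto' hlim fun k =>
      mul_nonneg (inv_pos.2 (ht0 k)).le (sub_nonneg.2 (hmin.2 _ (hρk k)))
  have iB := bfw_lim_int hB hρ hρ' (bfv_B_mono ha hb0 hh0) (bfv_B_abs ha hb0 hh0) hp.cont'
  have iS := bfw_lim_int hB hρ hρ' (bfv_S_mono ha hb0 hh0) (bfv_S_abs ha hb0 hh0) (bfv_phi_cont' hp)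
  have iψ : IntervalIntegrable (fun r => (2 * r * C r + r ^ 2 * C' r) * (budAl ρ' r - budAl ρ r))
      volume 0 1 := ContinuousOn.intervalIntegrable (by
    rw [uIcc_of_le zero_le_one]
    exact (bfv_psi_cont' hp).mul ((budAl_cont hB hρ').sub (budAl_cont hB hρ)))
  have hfin : (∫ r in (0:ℝ)..1, C r * budBr (budP C C' r) r (budSr P b h C ρ r) (budBr' P b h C ρ r)
      * (budAl ρ' r - budAl ρ r)) = Iψ - 2 * IS + IB := by
    rw [hIψ, hIS, hIB, ← intervalIntegral.integral_const_mul, ← intervalIntegral.integral_sub iψ (iS.const_mul 2),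
      ← intervalIntegral.integral_add (iψ.sub (iS.const_mul 2)) iB]
    refine intervalIntegral.integral_congr fun r hr => ?_
    rw [uIcc_of_le zero_le_one] at hr
    rcases eq_or_lt_of_le hr.1 with h0 | h0
    · simp [← h0, budAl_zero]
    rcases eq_or_lt_of_le hr.2 with h1 | h1
    · simp [h1, budAl_one hρ, budAl_one hρ']
    rw [bfw_G_eq hp h0 hr.2]
    unfold budSr budBr'
    rw [if_neg (not_le.2 h0), if_neg (not_le.2 h1), if_neg (not_le.2 h0), if_neg (not_le.2 h1)]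
    ring
  rw [hfin]
  linarith

/-- gluing `0`, a monotone `[0,1]`-valued function of `α`, `1` -/
theorem bfw_glue_mono (hB : BudBoxOk kb M kmin) (hρ : BudDens kb M ρ) {F : ℝ → ℝ}
    (hF : MonotoneOn F (Ioo 0 1)) (h0 : ∀ v ∈ Ioo (0:ℝ) 1, 0 ≤ F v) (h1 : ∀ v ∈ Ioo (0:ℝ) 1, F v ≤ 1) :
    Monotone (fun r : ℝ => if r ≤ 0 then (0:ℝ) else if 1 ≤ r then 1 else F (budAl ρ r)) := by
  intro x y hxy
  simp only
  by_cases hx0 : x ≤ 0
  · rw [if_pos hx0]
    split_ifs with hy0 hy1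
    · exact le_rfl
    · exact zero_le_one
    · exact h0 _ (budAl_mem hB hρ ⟨not_le.1 hy0, not_le.1 hy1⟩)
  have hy0 : ¬ y ≤ 0 := fun hh => hx0 (hxy.trans hh)
  rw [if_neg hx0, if_neg hy0]
  by_cases hy1 : 1 ≤ y
  · rw [if_pos hy1]
    split_ifs with hx1
    · exact le_rfl
    · exact h1 _ (budAl_mem hB hρ ⟨not_le.1 hx0, not_le.1 hx1⟩)
  have hx1 : ¬ 1 ≤ x := fun hh => hy1 (hh.trans hxy)
  rw [if_neg hx1, if_neg hy1]
  have mx : x ∈ Ioo (0:ℝ) 1 := ⟨not_le.1 hx0, not_le.1 hx1⟩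
  have my : y ∈ Ioo (0:ℝ) 1 := ⟨not_le.1 hy0, not_le.1 hy1⟩
  exact hF (budAl_mem hB hρ mx) (budAl_mem hB hρ my)
    ((budAl_strictMonoOn hB hρ).monotoneOn (Ioo_subset_Icc_self mx) (Ioo_subset_Icc_self my) hxy)

theorem bfw_S_mono (hL : BudLoc P b h kb C C' M kmin) (hρ : BudDens kb M ρ) :
    Monotone (budSr P b h C ρ) := by
  have ha := hL.a1
  have hb0 := bud_clock_b hL hρ
  have hh0 := bud_clock_h hL hρ
  exact bfw_glue_mono hL.box hρ (bfv_S_mono ha hb0 hh0)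
    (fun v hv => P.S_nonneg _ _ (ha ▸ hb0) (ha ▸ hh0) v (by rw [ha]; exact hv))
    (fun v hv => (le_abs_self _).trans (bfv_S_abs ha hb0 hh0 v hv))

theorem bfw_B_mono (hL : BudLoc P b h kb C C' M kmin) (hρ : BudDens kb M ρ) :
    Monotone (budBr' P b h C ρ) := by
  have ha := hL.a1
  have hb0 := bud_clock_b hL hρ
  have hh0 := bud_clock_h hL hρ
  exact bfw_glue_mono hL.box hρ (bfv_B_mono ha hb0 hh0)
    (fun v hv => P.B_nonneg (ha ▸ hb0) (ha ▸ hh0) (by rw [ha]; exact hv))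
    (fun v hv => (le_abs_self _).trans (bfv_B_abs ha hb0 hh0 v hv))

/-- values of the statistics in radius coordinates -/
theorem bfw_SB (hL : BudLoc P b h kb C C' M kmin) (hρ : BudDens kb M ρ) (r : ℝ) :
    0 ≤ budSr P b h C ρ r ∧ budSr P b h C ρ r ^ 2 ≤ budBr' P b h C ρ r ∧ budBr' P b h C ρ r ≤ 1 := by
  have ha := hL.a1
  have hb0 := bud_clock_b hL hρ
  have hh0 := bud_clock_h hL hρ
  unfold budSr budBr'
  by_cases h0 : r ≤ 0
  · simp [h0]
  by_cases h1 : 1 ≤ r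
  · simp [h0, h1]
  rw [if_neg h0, if_neg h1, if_neg h0, if_neg h1]
  have hv : budAl ρ r ∈ Ioo 0 P.a := by
    rw [ha]; exact budAl_mem hL.box hρ ⟨not_le.1 h0, not_le.1 h1⟩
  exact ⟨P.S_nonneg _ _ (ha ▸ hb0) (ha ▸ hh0) _ hv, P.S_sq_le _ _ (ha ▸ hb0) (ha ▸ hh0) _ hv,
    P.B_le _ _ (ha ▸ hb0) (ha ▸ hh0) _ hv⟩

theorem bfw_P_meas (hp : BudProf C C') : Measurable (budP C C') := by
  unfold budP
  exact ((measurable_id.mul hp.meas').neg).div hp.meas

/-- **N4** (LL Lemma 7.2): the geometry of every minimiser -/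
theorem bud_geometry (hL : BudLoc P b h kb C C' M kmin) (hmin : BudMin P b h kb C M ρ) :
    ∃ c0, (budGeoOf P b h kb C C' M ρ c0).Ok := by
  have hB := hL.box
  have hp := hL.prof
  have hρ := hmin.1
  have hkb0 : ∀ r, 0 ≤ kb r := fun r => hL.kmin0.le.trans (hL.kb_ge r)
  have hSm := (bfw_S_mono hL hρ).measurable
  have hBm := (bfw_B_mono hL hρ).measurable
  have hPm := bfw_P_meas hp
  have hGm : Measurable (fun r => C r * budBr (budP C C' r) r (budSr P b h C ρ r) (budBr' P b h C ρ r)) := by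
    unfold budBr
    exact hp.meas.mul ((((measurable_const.sub hPm).mul measurable_id).sub
      ((measurable_const.mul (measurable_const.sub hPm)).mul hSm)).sub ((hPm.mul hBm).div measurable_id))
  obtain ⟨K1, hK1⟩ := isCompact_Icc.exists_bound_of_continuousOn (bfv_psi_cont' hp)
  obtain ⟨K2, hK2⟩ := isCompact_Icc.exists_bound_of_continuousOn (bfv_phi_cont' hp)
  obtain ⟨K3, hK3⟩ := isCompact_Icc.exists_bound_of_continuousOn hp.cont'
  have hGb : ∀ r ∈ Icc (0:ℝ) 1,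
      |C r * budBr (budP C C' r) r (budSr P b h C ρ r) (budBr' P b h C ρ r)| ≤ K1 + 2 * K2 + K3 := by
    intro r hr
    have k1 := hK1 r hr
    have k2 := hK2 r hr
    have k3 := hK3 r hr
    rw [Real.norm_eq_abs] at k1 k2 k3
    obtain ⟨s0, sb, b1⟩ := bfw_SB hL hρ r
    have b0 : 0 ≤ budBr' P b h C ρ r := (sq_nonneg _).trans sb
    have s1 : budSr P b h C ρ r ≤ 1 := by nlinarith
    rcases eq_or_lt_of_le hr.1 with h0 | h0
    · have : C r * budBr (budP C C' r) r (budSr P b h C ρ r) (budBr' P b h C ρ r) = 0 := by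
        rw [← h0]; simp [budBr, budSr]
      rw [this, abs_zero]
      have := abs_nonneg (2 * r * C r + r ^ 2 * C' r)
      have := abs_nonneg (C r + r * C' r)
      have := abs_nonneg (C' r)
      linarith
    rw [bfw_G_eq hp h0 hr.2]
    have a1 : |2 * (C r + r * C' r) * budSr P b h C ρ r| ≤ 2 * K2 := by
      rw [abs_mul, abs_mul, abs_of_nonneg s0, abs_of_pos (by norm_num : (0:ℝ) < 2)]
      have : |C r + r * C' r| * budSr P b h C ρ r ≤ K2 * 1 :=
        mul_le_mul k2 s1 s0 ((abs_nonneg _).trans k2)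
      nlinarith
    have a2 : |C' r * budBr' P b h C ρ r| ≤ K3 := by
      rw [abs_mul, abs_of_nonneg b0]
      have : |C' r| * budBr' P b h C ρ r ≤ K3 * 1 := mul_le_mul k3 b1 b0 ((abs_nonneg _).trans k3)
      linarith
    calc _ ≤ |2 * r * C r + r ^ 2 * C' r - 2 * (C r + r * C' r) * budSr P b h C ρ r|
          + |C' r * budBr' P b h C ρ r| := abs_add_le _ _
      _ ≤ |2 * r * C r + r ^ 2 * C' r| + |2 * (C r + r * C' r) * budSr P b h C ρ r|
          + |C' r * budBr' P b h C ρ r| := by gcongr; exact abs_sub _ _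
      _ ≤ K1 + 2 * K2 + K3 := by linarith
  obtain ⟨c0, hcap, hfloor⟩ := bud_bathtub _ kb M _ ρ hGm hGb hL.kbm hkb0 hL.kb_le hρ
    (bud_first_variation hL hmin)
  refine ⟨c0, ?_⟩
  exact
    { M1 := hL.M1
      kbm := hL.kbm
      kb0 := hkb0
      dens := hρ
      Cm := hp.meas
      Cpos := hp.pos
      Cbd := ⟨C 0, fun r hr => bfv_C_anti hp (left_mem_Icc.2 zero_le_one) hr hr.1⟩
      pm := hPm
      Sm := hSm
      Bm := hBm
      pmono := hp.pmono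
      p0 := fun r hr => div_nonneg (neg_nonneg.2 (mul_nonpos_of_nonneg_of_nonpos hr.1 (hp.anti r hr)))
        (hp.pos r hr).le
      p1 := fun r hr => (div_lt_one (hp.pos r hr)).2 (hp.slope r hr)
      pz := by
        obtain ⟨e, he, hz⟩ := hp.flat0
        exact ⟨e, he, fun r hr => by
          show -(r * C' r) / C r = 0
          rw [hz r hr]; simp⟩
      Smono := (bfw_S_mono hL hρ).monotoneOn _
      Bmono := (bfw_B_mono hL hρ).monotoneOn _
      S0 := fun r _ => (bfw_SB hL hρ r).1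
      SB := fun r _ => (bfw_SB hL hρ r).2.1
      B1 := fun r _ => (bfw_SB hL hρ r).2.2
      cap := hcap
      floor := hfloor }

end Claimed.Agent.R286
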