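import Claimed.Agent.R286.Bud.GeoCap

/-!
# Row 286, N4d: the constant part of the removal (`p = 0`, `C = C0` on `[0,R0]`)   (head helper109)
LL Lemma 7.2 (last sentences), LL 06-global l.200-220, LL 07 l.512-518.   On `[0,R0]`: `G r = 2 C0 (r - S r)`.
-/

set_option autoImplicit false

open MeasureTheory Set Filter Topology

namespace Claimed.Agent.R286

namespace BudGeo

variable {g : BudGeo}

theorem flat_G (h : g.Ok) {R0 C0 : ℝ} (hf : g.Flat R0 C0) {r : ℝ} (hr : r ∈ Icc (0:ℝ) R0) :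
    g.G r = 2 * C0 * (r - g.S r) := by
  unfold BudGeo.G
  rw [hf.hC r hr, hf.hp r hr, budBr_p_zero]
  ring

/-- on a complete cap inside the flat region `a ≤ S ≤ b` -/
theorem flat_cap (h : g.Ok) {R0 C0 : ℝ} (hf : g.Flat R0 C0) {a b : ℝ} (hl : g.CapL a b) (hr : g.CapR a b)
    (hb : b ≤ R0) {r : ℝ} (hr' : r ∈ Ioo a b) : a ≤ g.S r ∧ g.S r ≤ b ∧ |g.S r - r| ≤ 1 / g.M := by
  have h1 : a ≤ g.S r := cap_S_ge h hl (fun t ht => hf.hp t ⟨hl.1.trans ht.1, ht.2.trans hb⟩) hr'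
  have h2 : g.S r ≤ b := cap_S_le h hr hr'
  have h3 : b - a ≤ 1 / g.M := cap_width h hl.1 hl.2.1.le hl.2.2.1 hl.2.2.2.1
  refine ⟨h1, h2, ?_⟩
  rw [abs_le]
  constructor <;> linarith [hr'.1, hr'.2]

/-- (d7) lower bound of the potential.
Proof: `H r < 0` : maximal cap `(a,b) ∋ r`, `b ≤ a + 1/M ≤ R0`, `|G| ≤ 2 C0 (b-a)` on it; `M > 1` excludes `a = 0 ∧ b = 1`, so one endpoint has `H = 0`;
integrate from that endpoint: `H r ≥ - 2 C0 (b-a)²`. -/
theorem flat_H_ge (h : g.Ok) {R0 C0 : ℝ} (hf : g.Flat R0 C0) {r : ℝ} (hr0 : 0 ≤ r)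
    (hr : r + 1 / g.M ≤ R0) : -(2 * C0 / g.M ^ 2) ≤ g.H r := by
  have hM : 0 < g.M := lt_trans one_pos h.M1
  have hM' : 0 < 1 / g.M := by positivity
  have hC0 := hf.hC0
  by_cases hH : 0 ≤ g.H r
  · have : 0 ≤ 2 * C0 / g.M ^ 2 := by positivity
    linarith
  push Not at hH
  have hr1 : r ≤ 1 := by linarith [hf.hR]
  obtain ⟨a, b, har, hrb, hl, hrr⟩ := exists_cap h ⟨hr0, hr1⟩ hH
  have hw : b - a ≤ 1 / g.M := cap_width h hl.1 hl.2.1.le hl.2.2.1 hl.2.2.2.1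
  have hbR : b ≤ R0 := by linarith
  have hab : 0 < b - a := by linarith [hl.2.1]
  have hG : ∀ t ∈ Ioo a b, |g.G t| ≤ 2 * C0 * (b - a) := by
    intro t ht
    obtain ⟨h1, h2, _⟩ := flat_cap h hf hl hrr hbR ht
    rw [flat_G h hf ⟨hl.1.trans ht.1.le, ht.2.le.trans hbR⟩, abs_mul, abs_of_pos (by positivity : 0 < 2 * C0)]
    apply mul_le_mul_of_nonneg_left _ (by positivity)
    rw [abs_le]; constructor <;> linarith [ht.1, ht.2]
  have hsq : 2 * C0 * (b - a) * (b - a) ≤ 2 * C0 / g.M ^ 2 := by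
    have : (b - a) * (b - a) ≤ (1 / g.M) * (1 / g.M) := mul_le_mul hw hw hab.le hM'.le
    have e : 2 * C0 / g.M ^ 2 = 2 * C0 * ((1 / g.M) * (1 / g.M)) := by field_simp
    rw [e, mul_assoc]
    exact mul_le_mul_of_nonneg_left this (by positivity)
  have hlt1 : 1 / g.M < 1 := by rw [div_lt_one hM]; exact h.M1
  have hcase : g.H a = 0 ∨ g.H b = 0 := by
    rcases hl.2.2.2.2 with h1 | h1
    · exact Or.inl h1
    · rcases hrr.2.2.2.2 with h2 | h2
      · exact Or.inr h2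
      · exfalso; rw [h1, h2] at hw; linarith
  rcases hcase with h0 | h0
  · have := le_H_sub h (s := a) (t := r) (c := -(2 * C0 * (b - a))) hl.1 har hr1
      (fun t ht => (abs_le.mp (hG t ⟨ht.1, ht.2.trans_le hrb⟩)).1)
    rw [h0] at this
    have h2 : 2 * C0 * (b - a) * (r - a) ≤ 2 * C0 * (b - a) * (b - a) :=
      mul_le_mul_of_nonneg_left (by linarith) (by positivity)
    linarith
  · have := H_sub_le h (s := r) (t := b) (c := 2 * C0 * (b - a)) hr0 hrb hl.2.2.1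
      (fun t ht => (abs_le.mp (hG t ⟨lt_of_le_of_lt har ht.1, ht.2⟩)).2)
    rw [h0] at this
    have h2 : 2 * C0 * (b - a) * (b - r) ≤ 2 * C0 * (b - a) * (b - a) :=
      mul_le_mul_of_nonneg_left (by linarith) (by positivity)
    linarith

/-- (d6') every nonfloor point of the flat region: `|S - r| ≤ 2/M` (no exceptional set).
Proof: upper = `nonfloor_S_le`.  Lower: `η = r - S r > 2/M`; on `[r-η/2, r]` (`⊆ [0,r]` as `η ≤ r`) `S t ≤ S r ≤ t - η/2`, `G ≥ C0 η`,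
`H (r-η/2) ≤ H r - C0 η²/2 < -2 C0/M²`, against `flat_H_ge`. -/
theorem flat_nonfloor (h : g.Ok) {R0 C0 : ℝ} (hf : g.Flat R0 C0) {r : ℝ} (hr0 : 0 ≤ r)
    (hr : r + 1 / g.M ≤ R0) (hH : g.H r ≤ 0) : |g.S r - r| ≤ 2 / g.M := by
  have hM : 0 < g.M := lt_trans one_pos h.M1
  have hM' : 0 < 1 / g.M := by positivity
  have hC0 := hf.hC0
  have hr1 : r ≤ 1 := by linarith [hf.hR]
  have hup := nonfloor_S_le h ⟨hr0, hr1⟩ hH
  have e2 : 2 / g.M = 2 * (1 / g.M) := by ring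
  rw [abs_le]
  refine ⟨?_, by rw [e2]; linarith⟩
  by_contra hcon
  push Not at hcon
  obtain ⟨η, hη⟩ : ∃ η, η = r - g.S r := ⟨_, rfl⟩
  have hη2 : 2 * (1 / g.M) < η := by rw [hη, ← e2]; linarith
  have hS0 := h.S0 r ⟨hr0, hr1⟩
  have hηr : η ≤ r := by linarith
  have hs0 : 0 ≤ r - η / 2 := by linarith
  have hG : ∀ t ∈ Ioo (r - η / 2) r, C0 * η ≤ g.G t := by
    intro t ht
    have ht0 : 0 ≤ t := hs0.trans ht.1.le
    have hSt : g.S t ≤ g.S r := h.Smono ⟨ht0, ht.2.le.trans hr1⟩ ⟨hr0, hr1⟩ ht.2.le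
    rw [flat_G h hf ⟨ht0, by linarith [ht.2]⟩]
    have : η / 2 ≤ t - g.S t := by linarith [ht.1]
    have := mul_le_mul_of_nonneg_left this (by positivity : 0 ≤ 2 * C0)
    linarith
  have h1 := le_H_sub h hs0 (by linarith) hr1 hG
  have h2 := flat_H_ge h hf hs0 (by linarith)
  have h3 : 2 * C0 / g.M ^ 2 < C0 * η * (η / 2) := by
    have e : 2 * C0 / g.M ^ 2 = C0 * (2 * (1 / g.M)) * ((2 * (1 / g.M)) / 2) := by field_simp
    rw [e]
    have hp : 0 < 2 * (1 / g.M) := by positivity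
    have : (2 * (1 / g.M)) * (2 * (1 / g.M)) < η * η := mul_lt_mul'' hη2 hη2 hp.le hp.le
    nlinarith
  have e3 : r - (r - η / 2) = η / 2 := by ring
  rw [e3] at h1
  linarith

theorem flat_lin_integral (s t c k : ℝ) :
    ∫ u in s..t, (c + k * (u - s)) = c * (t - s) + k * (t - s) ^ 2 / 2 := by
  have hd : ∀ u ∈ uIcc s t, HasDerivAt (fun u : ℝ => c * (u - s) + k * (u - s) ^ 2 / 2) (c + k * (u - s)) u := by
    intro u _
    have h1 : HasDerivAt (fun u : ℝ => u - s) 1 u := (hasDerivAt_id u).sub_const s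
    have h2 := (h1.const_mul c).add (((h1.fun_pow 2).const_mul k).div_const 2)
    refine h2.congr_deriv ?_
    simp; ring
  rw [intervalIntegral.integral_eq_sub_of_hasDerivAt hd (by apply Continuous.intervalIntegrable; fun_prop)]
  ring

theorem flat_H_sub_le_lin (h : g.Ok) {s t c k : ℝ} (hs : 0 ≤ s) (hst : s ≤ t) (ht : t ≤ 1)
    (hG : ∀ u ∈ Icc s t, g.G u ≤ c + k * (u - s)) : g.H t - g.H s ≤ c * (t - s) + k * (t - s) ^ 2 / 2 := by
  rw [H_sub h ⟨hs, hst.trans ht⟩ ⟨hs.trans hst, ht⟩, ← flat_lin_integral]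
  exact intervalIntegral.integral_mono_on hst (G_intervalIntegrable h ⟨hs, hst.trans ht⟩ ⟨hs.trans hst, ht⟩)
    (by apply Continuous.intervalIntegrable; fun_prop) hG

theorem flat_le_H_sub_lin (h : g.Ok) {s t c k : ℝ} (hs : 0 ≤ s) (hst : s ≤ t) (ht : t ≤ 1)
    (hG : ∀ u ∈ Icc s t, c + k * (u - s) ≤ g.G u) : c * (t - s) + k * (t - s) ^ 2 / 2 ≤ g.H t - g.H s := by
  rw [H_sub h ⟨hs, hst.trans ht⟩ ⟨hs.trans hst, ht⟩, ← flat_lin_integral]
  exact intervalIntegral.integral_mono_on hst (by apply Continuous.intervalIntegrable; fun_prop)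
    (G_intervalIntegrable h ⟨hs, hst.trans ht⟩ ⟨hs.trans hst, ht⟩) hG

/-- (d8) local potential bound: near a nonfloor point `s0`, `S = s0 + O(L + 1/M)`.
Proof (K := √2 (L + 2/M) ≤ (3/2)(L + 2/M)).  `r ≥ s0`: `S r ≥ S s0 ≥ s0 - 2/M`.  If `S r > r + K`: on `[r, r+K/2]` `G ≤ -C0 K`, and
`H r ≤ H s0 + 2 C0 ∫_{s0}^r (t - s0 + 2/M) ≤ C0 (L² + 4L/M)`, so `H (r+K/2) ≤ C0 (L²+4L/M) - C0 K²/2 = -4 C0/M²`, against `flat_H_ge`.
`r ≤ s0`: symmetric with `S r ≤ S s0 ≤ s0 + 1/M`; if `r - K/2 < 0` then `S r ≥ 0 > r - K`. -/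
theorem flat_S_near (h : g.Ok) {R0 C0 : ℝ} (hf : g.Flat R0 C0) {s0 L : ℝ} (hs0 : 0 ≤ s0) (hL : 0 ≤ L)
    (hroom : s0 + 2 * L + 5 / g.M ≤ R0) (hH : g.H s0 ≤ 0) {r : ℝ} (hr0 : 0 ≤ r) (hr : |r - s0| ≤ L) :
    |g.S r - s0| ≤ 3 * L + 3 / g.M := by
  have hM : 0 < g.M := lt_trans one_pos h.M1
  obtain ⟨w, hw⟩ : ∃ w, w = 1 / g.M := ⟨_, rfl⟩
  have hw0 : 0 < w := by rw [hw]; positivity
  have e5 : 5 / g.M = 5 * w := by rw [hw]; ring
  have e3 : 3 / g.M = 3 * w := by rw [hw]; ring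
  have e2 : 2 / g.M = 2 * w := by rw [hw]; ring
  have eq2 : 2 * C0 / g.M ^ 2 = 2 * C0 * w ^ 2 := by rw [hw]; field_simp
  rw [e5] at hroom
  rw [e3]
  have hC0 := hf.hC0
  have hR := hf.hR
  obtain ⟨hrl, hru⟩ := abs_le.mp hr
  have hs01 : s0 ≤ 1 := by linarith
  have hr1 : r ≤ 1 := by linarith
  have hnf := flat_nonfloor h hf hs0 (by rw [← hw]; linarith) hH
  rw [e2] at hnf
  obtain ⟨hnl, hnu⟩ := abs_le.mp hnf
  obtain ⟨K, hK⟩ : ∃ K, K = 3 / 2 * (L + 2 * w) := ⟨_, rfl⟩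
  have hK0 : 0 < K := by rw [hK]; positivity
  have hKsq : L ^ 2 + 4 * L * w + 4 * w ^ 2 ≤ K * (K / 2) := by
    rw [hK]; nlinarith [sq_nonneg (L + 2 * w)]
  rcases le_total s0 r with hsr | hsr
  · -- r ≥ s0
    have hlow : g.S s0 ≤ g.S r := h.Smono ⟨hs0, hs01⟩ ⟨hr0, hr1⟩ hsr
    have hupp : g.S r ≤ r + K := by
      by_contra hcon
      push Not at hcon
      have hrK : r + K / 2 + w ≤ R0 := by rw [hK]; linarith
      have hrK1 : r + K / 2 ≤ 1 := by linarith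
      have hG1 : ∀ t ∈ Ioo r (r + K / 2), g.G t ≤ -(C0 * K) := by
        intro t ht
        have ht0 : 0 ≤ t := hr0.trans ht.1.le
        have hSt : g.S r ≤ g.S t := h.Smono ⟨hr0, hr1⟩ ⟨ht0, ht.2.le.trans hrK1⟩ ht.1.le
        rw [flat_G h hf ⟨ht0, by linarith [ht.2]⟩]
        have : t - g.S t ≤ -(K / 2) := by linarith [ht.2]
        have := mul_le_mul_of_nonneg_left this (by positivity : 0 ≤ 2 * C0)
        linarith
      have h1 := H_sub_le h hr0 (by linarith) hrK1 hG1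
      have hG2 : ∀ u ∈ Icc s0 r, g.G u ≤ 4 * C0 * w + 2 * C0 * (u - s0) := by
        intro u hu
        have hu0 : 0 ≤ u := hs0.trans hu.1
        have hSu : g.S s0 ≤ g.S u := h.Smono ⟨hs0, hs01⟩ ⟨hu0, hu.2.trans hr1⟩ hu.1
        rw [flat_G h hf ⟨hu0, by linarith [hu.2]⟩]
        have : u - g.S u ≤ 2 * w + (u - s0) := by linarith
        have := mul_le_mul_of_nonneg_left this (by positivity : 0 ≤ 2 * C0)
        linarith
      have h2 := flat_H_sub_le_lin h hs0 hsr hr1 hG2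
      have h3 := flat_H_ge h hf (r := r + K / 2) (by linarith) (by rw [← hw]; exact hrK)
      rw [eq2] at h3
      have hd : 0 ≤ r - s0 := by linarith
      have h4 : 4 * C0 * w * (r - s0) + 2 * C0 * (r - s0) ^ 2 / 2 ≤ C0 * (L ^ 2 + 4 * L * w) := by
        have a1 : (r - s0) ^ 2 ≤ L ^ 2 := by nlinarith
        have a2 : w * (r - s0) ≤ w * L := mul_le_mul_of_nonneg_left hru hw0.le
        have a3 := mul_le_mul_of_nonneg_left a1 hC0.le
        have a4 := mul_le_mul_of_nonneg_left a2 hC0.le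
        linarith
      have h5 := mul_le_mul_of_nonneg_left hKsq hC0.le
      have e6 : r + K / 2 - r = K / 2 := by ring
      rw [e6] at h1
      have h7 : 0 < C0 * w ^ 2 := by positivity
      linarith
    rw [abs_le]
    constructor
    · linarith
    · rw [hK] at hupp; linarith
  · -- r ≤ s0
    have hupp : g.S r ≤ g.S s0 := h.Smono ⟨hr0, hr1⟩ ⟨hs0, hs01⟩ hsr
    have hlow : r - K ≤ g.S r := by
      by_contra hcon
      push Not at hcon
      have hS0 := h.S0 r ⟨hr0, hr1⟩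
      have hrK0 : 0 ≤ r - K / 2 := by linarith
      have hG1 : ∀ t ∈ Ioo (r - K / 2) r, C0 * K ≤ g.G t := by
        intro t ht
        have ht0 : 0 ≤ t := hrK0.trans ht.1.le
        have hSt : g.S t ≤ g.S r := h.Smono ⟨ht0, ht.2.le.trans hr1⟩ ⟨hr0, hr1⟩ ht.2.le
        rw [flat_G h hf ⟨ht0, by linarith [ht.2]⟩]
        have : K / 2 ≤ t - g.S t := by linarith [ht.1]
        have := mul_le_mul_of_nonneg_left this (by positivity : 0 ≤ 2 * C0)
        linarith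
      have h1 := le_H_sub h hrK0 (by linarith) hr1 hG1
      have hG2 : ∀ u ∈ Icc r s0, -(2 * C0 * ((s0 - r) + 2 * w)) + 2 * C0 * (u - r) ≤ g.G u := by
        intro u hu
        have hu0 : 0 ≤ u := hr0.trans hu.1
        have hSu : g.S u ≤ g.S s0 := h.Smono ⟨hu0, hu.2.trans hs01⟩ ⟨hs0, hs01⟩ hu.2
        rw [flat_G h hf ⟨hu0, by linarith [hu.2]⟩]
        have : -((s0 - r) + 2 * w) + (u - r) ≤ u - g.S u := by linarith
        have := mul_le_mul_of_nonneg_left this (by positivity : 0 ≤ 2 * C0)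
        linarith
      have h2 := flat_le_H_sub_lin h hr0 hsr hs01 hG2
      have h3 := flat_H_ge h hf (r := r - K / 2) hrK0 (by rw [← hw]; linarith)
      rw [eq2] at h3
      have hd : 0 ≤ s0 - r := by linarith
      have hdL : s0 - r ≤ L := by linarith
      have h4 : -(C0 * (L ^ 2 + 4 * L * w)) ≤ -(2 * C0 * ((s0 - r) + 2 * w)) * (s0 - r) + 2 * C0 * (s0 - r) ^ 2 / 2 := by
        have a1 : (s0 - r) ^ 2 ≤ L ^ 2 := by nlinarith
        have a2 : w * (s0 - r) ≤ w * L := mul_le_mul_of_nonneg_left hdL hw0.le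
        have a3 := mul_le_mul_of_nonneg_left a1 hC0.le
        have a4 := mul_le_mul_of_nonneg_left a2 hC0.le
        linarith
      have h5 := mul_le_mul_of_nonneg_left hKsq hC0.le
      have e6 : r - (r - K / 2) = K / 2 := by ring
      rw [e6] at h1
      have h7 : 0 < C0 * w ^ 2 := by positivity
      linarith
    rw [abs_le]
    constructor
    · rw [hK] at hlow; linarith
    · linarith

end BudGeo

end Claimed.Agent.R286
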