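import Claimed.Agent.R286.Bud.Defs

/-!
# Row 286, LL sec. 7: the stage scales (C11)      (owner helper248, second head of L08; prefix `bds_`)

TEX[LL:bud:strengthening] (the scales (C11) before the lemma).  TeX: LL `07-budgets.tex` l.1159-1166 (and the uses l.1515, l.1561).   Pure arithmetic on `BdFr`, `BdFix` of `Bud/Defs`.
NON-asymptotic: the only "large `N`" input is `BdsBig F X : CU² ≤ lam^{-τ₀/2}`, which holds eventually (`bds_big_ev`).

* `bds_x_pos … bds_Xr_ge`         elementary facts on a frame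
* `bds_agoal_le`, `bds_a0_le`      `a_goal ≤ lam^{τ₀/2}`, `a_0 ≤ lam^{τ₀/2}`   (`a_0 = o(1)`)
* `bds_astage_anti`                the scales are nonincreasing
* `bds_astage_ge`, `bds_astage_last`   `a_goal ≤ a_j`, and `a_{n-1} = a_goal` as soon as `(2/3)^n (2/p_*) ≤ 0.12` (`bds_stage_exists`: a FIXED number of steps)
* `bds_fix_le`, `bds_fix_ge`, `bds_astage_le_fix`      the fixed point `A lam^{-0.36} ≤ lam^{0.12} a_goal`, `≥ lam^{2/p_*}`, closed form of the recursion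
* `bds_kstage_le`                  `κ_j ≤ lam^{2 s₀} Λ^{-2/3}` (the bound of (C5)), `bds_kstage_small` (`≤ lam^{0.96}`), `bds_kstage_mono`
* `bds_prefactor`                  `(A/L)^{3/2} κ_j^{-1/2} ≤ lam^{0.18}` for `L ≥ a_j`      (l.1515, l.1561)
-/

set_option autoImplicit false

namespace Claimed.Agent.R286

open Real

namespace BdFr

variable {F : BdFr} {X : BdFix}

theorem bds_x_pos (h : F.Ok X) : 0 < F.x := by
  unfold BdFr.x
  have : (0:ℝ) < F.N := by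
    have := h.N2
    positivity
  exact rpow_pos_of_pos this _

theorem bds_x_lt_one (h : F.Ok X) : F.x < 1 := by
  unfold BdFr.x
  have h2 : (1:ℝ) < F.N := by
    have := h.N2
    exact_mod_cast (by omega : 1 < F.N)
  exact rpow_lt_one_of_one_lt_of_neg h2 (by norm_num)

theorem bds_lam_pos (h : F.Ok X) : 0 < F.lam :=
  lt_of_lt_of_le (rpow_pos_of_pos (bds_x_pos h) _) h.lam_lo

theorem bds_lam_lt_one (h : F.Ok X) (hX : X.Ok) : F.lam < 1 :=
  lt_of_le_of_lt h.lam_hi (rpow_lt_one (bds_x_pos h).le (bds_x_lt_one h) hX.pS_pos)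

theorem bds_U_pos (h : F.Ok X) : 0 < F.U X := by
  unfold BdFr.U
  exact mul_pos (bds_x_pos h) (rpow_pos_of_pos (bds_lam_pos h) _)

theorem bds_u_pos (h : F.Ok X) (hX : X.Ok) : 0 < F.u := by
  have h1 := lt_of_lt_of_le (bds_U_pos h) h.u_lo
  exact (pos_iff_pos_of_mul_pos h1).mp hX.CU_pos

theorem bds_u_le_one (h : F.Ok X) (hX : X.Ok) : F.u ≤ 1 :=
  h.u_hi.trans (rpow_le_one (bds_lam_pos h).le (bds_lam_lt_one h hX).le hX.bl_pos.le)

theorem bds_Xr_pos (h : F.Ok X) (hX : X.Ok) : 0 < F.Xr := by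
  unfold BdFr.Xr
  exact div_pos (bds_x_pos h) (bds_u_pos h hX)

/-- `X = x/u ≤ CU lam^{s_*/2}` -/
theorem bds_Xr_le (h : F.Ok X) (hX : X.Ok) : F.Xr ≤ X.CU * F.lam ^ (X.sS / 2) := by
  have hl := bds_lam_pos h
  have hu := bds_u_pos h hX
  unfold BdFr.Xr
  rw [div_le_iff₀ hu]
  have h1 := h.u_lo
  unfold BdFr.U at h1
  have h2 : F.x = F.x * F.lam ^ (-(X.sS / 2)) * F.lam ^ (X.sS / 2) := by
    rw [mul_assoc, ← rpow_add hl]; simp
  calc F.x = F.x * F.lam ^ (-(X.sS / 2)) * F.lam ^ (X.sS / 2) := h2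
    _ ≤ X.CU * F.u * F.lam ^ (X.sS / 2) :=
        mul_le_mul_of_nonneg_right h1 (rpow_nonneg hl.le _)
    _ = X.CU * F.lam ^ (X.sS / 2) * F.u := by ring

/-- `lam^{1/p_*} ≤ x ≤ X` -/
theorem bds_Xr_ge (h : F.Ok X) (hX : X.Ok) : F.lam ^ (1 / X.pS) ≤ F.Xr := by
  have hl := bds_lam_pos h
  have hx := bds_x_pos h
  have h1 : F.lam ^ (1 / X.pS) ≤ F.x := by
    calc F.lam ^ (1 / X.pS) ≤ (F.x ^ X.pS) ^ (1 / X.pS) :=
          rpow_le_rpow hl.le h.lam_hi (by have := hX.pS_pos; positivity)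
      _ = F.x := by
          rw [← rpow_mul hx.le, mul_one_div_cancel hX.pS_pos.ne', rpow_one]
  refine h1.trans ?_
  unfold BdFr.Xr
  rw [le_div_iff₀ (bds_u_pos h hX)]
  calc F.x * F.u ≤ F.x * 1 := mul_le_mul_of_nonneg_left (bds_u_le_one h hX) hx.le
    _ = F.x := mul_one _

/-- `A = X² lam^{-1/100}` -/
theorem bds_A_eq (h : F.Ok X) : F.A = F.Xr ^ (2:ℝ) * F.lam ^ (-(1/100) : ℝ) := by
  unfold BdFr.A BdFr.Lam
  rw [← rpow_mul (bds_lam_pos h).le, rpow_two]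
  norm_num

theorem bds_agoal_eq : F.agoal X = F.Xr ^ (2:ℝ) * F.lam ^ (-X.s0) := by
  unfold BdFr.agoal
  rw [rpow_two]

theorem bds_A_pos (h : F.Ok X) (hX : X.Ok) : 0 < F.A := by
  rw [bds_A_eq h]
  exact mul_pos (rpow_pos_of_pos (bds_Xr_pos h hX) _) (rpow_pos_of_pos (bds_lam_pos h) _)

theorem bds_agoal_pos (h : F.Ok X) (hX : X.Ok) : 0 < F.agoal X := by
  rw [bds_agoal_eq]
  exact mul_pos (rpow_pos_of_pos (bds_Xr_pos h hX) _) (rpow_pos_of_pos (bds_lam_pos h) _)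

end BdFr

/-- the only largeness of `N` used by the stage arithmetic -/
def BdsBig (F : BdFr) (X : BdFix) : Prop := X.CU ^ (2:ℝ) ≤ F.lam ^ (-(X.tau0 / 2))

theorem bds_defs_eqns_cite : True := by
  have := @BdsBig.eq_1
  trivial

/-- `BdsBig` holds for all large sizes, uniformly over the frames -/
theorem bds_big_ev (X : BdFix) (hX : X.Ok) : ∃ N0 : ℕ, ∀ F : BdFr, F.Ok X → N0 ≤ F.N → BdsBig F X := by
  set e : ℝ := X.pS * X.tau0 / 12 with he
  have he0 : 0 < e := by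
    have := hX.pS_pos; have := hX.tau0_pos; positivity
  have hC0 : 0 ≤ X.CU ^ (2:ℝ) := rpow_nonneg hX.CU_pos.le _
  refine ⟨⌈(X.CU ^ (2:ℝ)) ^ (1 / e)⌉₊ + 2, fun F h hN => ?_⟩
  have hNpos : (0:ℝ) < F.N := by
    have := h.N2
    positivity
  have hN' : (X.CU ^ (2:ℝ)) ^ (1 / e) ≤ F.N := by
    calc (X.CU ^ (2:ℝ)) ^ (1 / e) ≤ (⌈(X.CU ^ (2:ℝ)) ^ (1 / e)⌉₊ : ℝ) := Nat.le_ceil _
      _ ≤ F.N := by exact_mod_cast (by omega : ⌈(X.CU ^ (2:ℝ)) ^ (1 / e)⌉₊ ≤ F.N)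
  have h1 : X.CU ^ (2:ℝ) ≤ (F.N : ℝ) ^ e := by
    calc X.CU ^ (2:ℝ) = ((X.CU ^ (2:ℝ)) ^ (1 / e)) ^ e := by
          rw [← rpow_mul hC0, one_div_mul_cancel he0.ne', rpow_one]
      _ ≤ (F.N : ℝ) ^ e := rpow_le_rpow (rpow_nonneg hC0 _) hN' he0.le
  have h2 : (F.N : ℝ) ^ e = (F.x ^ X.pS) ^ (-(X.tau0 / 2)) := by
    unfold BdFr.x
    rw [← rpow_mul hNpos.le, ← rpow_mul hNpos.le]
    congr 1
    rw [he]; ring
  have h3 : (F.x ^ X.pS) ^ (-(X.tau0 / 2)) ≤ F.lam ^ (-(X.tau0 / 2)) :=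
    antitoneOn_rpow_Ioi_of_exponent_nonpos (by have := hX.tau0_pos; linarith)
      (BdFr.bds_lam_pos h) (lt_of_lt_of_le (BdFr.bds_lam_pos h) h.lam_hi) h.lam_hi
  unfold BdsBig
  linarith

namespace BdFr

variable {F : BdFr} {X : BdFix}

/-- `a_goal ≤ lam^{τ₀/2}`: the (tiny) margin of `a_goal = o(1)` -/
theorem bds_agoal_le (h : F.Ok X) (hX : X.Ok) (hB : BdsBig F X) : F.agoal X ≤ F.lam ^ (X.tau0 / 2) := by
  have hl := bds_lam_pos h
  have hXr := bds_Xr_pos h hX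
  rw [bds_agoal_eq]
  have h1 : F.Xr ^ (2:ℝ) ≤ X.CU ^ (2:ℝ) * F.lam ^ X.sS := by
    calc F.Xr ^ (2:ℝ) ≤ (X.CU * F.lam ^ (X.sS / 2)) ^ (2:ℝ) :=
          rpow_le_rpow hXr.le (bds_Xr_le h hX) (by norm_num)
      _ = X.CU ^ (2:ℝ) * F.lam ^ X.sS := by
          rw [mul_rpow hX.CU_pos.le (rpow_nonneg hl.le _), ← rpow_mul hl.le]
          congr 2; ring
  calc F.Xr ^ (2:ℝ) * F.lam ^ (-X.s0)
      ≤ (F.lam ^ (-(X.tau0 / 2)) * F.lam ^ X.sS) * F.lam ^ (-X.s0) := by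
        apply mul_le_mul_of_nonneg_right _ (rpow_nonneg hl.le _)
        exact h1.trans (mul_le_mul_of_nonneg_right hB (rpow_nonneg hl.le _))
    _ = F.lam ^ (X.tau0 / 2) := by
        rw [← rpow_add hl, ← rpow_add hl]
        congr 1
        unfold BdFix.s0; ring

/-- the multiplier of the recursion: `lam^{-0.12} A^{1/3} ≤ lam^{0.04}` -/
theorem bds_mult_le (h : F.Ok X) (hX : X.Ok) (hB : BdsBig F X) :
    F.lam ^ (-(0.12 : ℝ)) * F.A ^ (1 / 3 : ℝ) ≤ F.lam ^ (0.04 : ℝ) := by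
  have hl := bds_lam_pos h
  have hl1 := (bds_lam_lt_one h hX).le
  have hXr := bds_Xr_pos h hX
  have hCU := hX.CU_pos
  have h1 : F.Xr ^ (2 / 3 : ℝ) ≤ F.lam ^ (-(X.tau0 / 6)) * F.lam ^ (X.sS / 3) := by
    calc F.Xr ^ (2 / 3 : ℝ) ≤ (X.CU * F.lam ^ (X.sS / 2)) ^ (2 / 3 : ℝ) :=
          rpow_le_rpow hXr.le (bds_Xr_le h hX) (by norm_num)
      _ = (X.CU ^ (2:ℝ)) ^ (1 / 3 : ℝ) * F.lam ^ (X.sS / 3) := by
          rw [mul_rpow hCU.le (rpow_nonneg hl.le _), ← rpow_mul hl.le, ← rpow_mul hCU.le]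
          congr 2 <;> ring
      _ ≤ (F.lam ^ (-(X.tau0 / 2))) ^ (1 / 3 : ℝ) * F.lam ^ (X.sS / 3) := by
          apply mul_le_mul_of_nonneg_right _ (rpow_nonneg hl.le _)
          exact rpow_le_rpow (rpow_nonneg hCU.le _) hB (by norm_num)
      _ = F.lam ^ (-(X.tau0 / 6)) * F.lam ^ (X.sS / 3) := by
          rw [← rpow_mul hl.le]
          congr 2; ring
  have e1 : F.A ^ (1 / 3 : ℝ) = F.Xr ^ (2 / 3 : ℝ) * F.lam ^ (-(1 / 300) : ℝ) := by
    rw [bds_A_eq h, mul_rpow (rpow_nonneg hXr.le _) (rpow_nonneg hl.le _), ← rpow_mul hXr.le,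
      ← rpow_mul hl.le]
    congr 2 <;> norm_num
  rw [e1]
  calc F.lam ^ (-(0.12 : ℝ)) * (F.Xr ^ (2 / 3 : ℝ) * F.lam ^ (-(1 / 300) : ℝ))
      ≤ F.lam ^ (-(0.12 : ℝ)) * ((F.lam ^ (-(X.tau0 / 6)) * F.lam ^ (X.sS / 3)) * F.lam ^ (-(1 / 300) : ℝ)) := by
        apply mul_le_mul_of_nonneg_left _ (rpow_nonneg hl.le _)
        exact mul_le_mul_of_nonneg_right h1 (rpow_nonneg hl.le _)
    _ = F.lam ^ (-(0.12 : ℝ) + ((-(X.tau0 / 6) + X.sS / 3) + -(1 / 300))) := by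
        rw [← rpow_add hl, ← rpow_add hl, ← rpow_add hl]
    _ ≤ F.lam ^ (0.04 : ℝ) := by
        apply rpow_le_rpow_of_exponent_ge hl hl1
        have := hX.tau_le; have := hX.eta_le; have := hX.tau0_le; have := hX.tau0_pos
        unfold BdFix.sS
        norm_num
        linarith

theorem bds_astage_pos (h : F.Ok X) (hX : X.Ok) : ∀ n, 0 < F.astage X n
  | 0 => by simp [BdFr.astage]
  | _ + 1 => lt_of_lt_of_le (bds_agoal_pos h hX) (le_max_left _ _)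

theorem bds_lam_rpow_le_one (h : F.Ok X) (hX : X.Ok) {e : ℝ} (he : 0 ≤ e) : F.lam ^ e ≤ 1 :=
  rpow_le_one (bds_lam_pos h).le (bds_lam_lt_one h hX).le he

/-- `a_goal ≤ a_j` at every stage -/
theorem bds_astage_ge (h : F.Ok X) (hX : X.Ok) (hB : BdsBig F X) : ∀ n, F.agoal X ≤ F.astage X n
  | 0 => by
      have := bds_agoal_le h hX hB
      have h2 := bds_lam_rpow_le_one h hX (e := X.tau0 / 2) (by have := hX.tau0_pos; linarith)
      simpa [BdFr.astage] using this.trans h2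
  | _ + 1 => le_max_left _ _

/-- `a_0 ≤ lam^{τ₀/2}`  (`a_0 = o(1)`) -/
theorem bds_a0_le (h : F.Ok X) (hX : X.Ok) (hB : BdsBig F X) : F.astage X 1 ≤ F.lam ^ (X.tau0 / 2) := by
  have hl := bds_lam_pos h
  have hl1 := (bds_lam_lt_one h hX).le
  simp only [BdFr.astage, one_rpow, mul_one]
  apply max_le (bds_agoal_le h hX hB)
  refine (bds_mult_le h hX hB).trans (rpow_le_rpow_of_exponent_ge hl hl1 ?_)
  have := hX.tau_le; have := hX.eta_le; have := hX.tau0_le; have := hX.tau0_pos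
  norm_num
  linarith

/-- the scales are nonincreasing -/
theorem bds_astage_anti (h : F.Ok X) (hX : X.Ok) (hB : BdsBig F X) :
    ∀ n, F.astage X (n + 1) ≤ F.astage X n
  | 0 => by
      have h2 := bds_lam_rpow_le_one h hX (e := X.tau0 / 2) (by have := hX.tau0_pos; linarith)
      have := (bds_a0_le h hX hB).trans h2
      simpa [BdFr.astage] using this
  | n + 1 => by
      have ih := bds_astage_anti h hX hB n
      have hl := bds_lam_pos h
      show max _ _ ≤ max _ _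
      apply max_le_max le_rfl
      apply mul_le_mul_of_nonneg_left _
        (mul_nonneg (rpow_nonneg hl.le _) (rpow_nonneg (bds_A_pos h hX).le _))
      exact rpow_le_rpow (bds_astage_pos h hX _).le ih (by norm_num)

theorem bds_astage_antitone (h : F.Ok X) (hX : X.Ok) (hB : BdsBig F X) : Antitone (F.astage X) :=
  antitone_nat_of_succ_le (bds_astage_anti h hX hB)

theorem bds_astage_le_one (h : F.Ok X) (hX : X.Ok) (hB : BdsBig F X) (n : ℕ) : F.astage X n ≤ 1 := by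
  have := bds_astage_antitone h hX hB (Nat.zero_le n)
  simpa [BdFr.astage] using this

/-! ### the fixed point `A lam^{-0.36}` and the number of stages -/

/-- the fixed point of the iterated term -/
theorem bds_fix_eq (h : F.Ok X) : F.A * F.lam ^ (-(0.36 : ℝ)) = F.Xr ^ (2:ℝ) * F.lam ^ (-(0.37 : ℝ)) := by
  rw [bds_A_eq h, mul_assoc, ← rpow_add (bds_lam_pos h)]
  norm_num

theorem bds_fix_pos (h : F.Ok X) (hX : X.Ok) : 0 < F.A * F.lam ^ (-(0.36 : ℝ)) :=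
  mul_pos (bds_A_pos h hX) (rpow_pos_of_pos (bds_lam_pos h) _)

/-- the multiplier is the cube root of the fixed point -/
theorem bds_mult_eq (h : F.Ok X) (hX : X.Ok) :
    F.lam ^ (-(0.12 : ℝ)) * F.A ^ (1 / 3 : ℝ) = (F.A * F.lam ^ (-(0.36 : ℝ))) ^ (1 / 3 : ℝ) := by
  have hl := bds_lam_pos h
  rw [mul_rpow (bds_A_pos h hX).le (rpow_nonneg hl.le _), ← rpow_mul hl.le, mul_comm]
  norm_num

theorem bds_s0_ge (hX : X.Ok) : (0.49 : ℝ) ≤ X.s0 := by
  have := hX.tau_le; have := hX.eta_le; have := hX.tau0_le; have := hX.tau0_pos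
  unfold BdFix.s0 BdFix.sS
  norm_num
  linarith

theorem bds_s0_le (hX : X.Ok) : X.s0 ≤ 1 / 2 := by
  have := hX.tau_le; have := hX.eta_le; have := hX.tau0_le; have := hX.tau0_pos
  unfold BdFix.s0 BdFix.sS
  linarith

/-- `A lam^{-0.36} ≤ lam^{0.12} a_goal`      (`≪ a_goal`) -/
theorem bds_fix_le (h : F.Ok X) (hX : X.Ok) :
    F.A * F.lam ^ (-(0.36 : ℝ)) ≤ F.lam ^ (0.12 : ℝ) * F.agoal X := by
  have hl := bds_lam_pos h
  rw [bds_fix_eq h, bds_agoal_eq, mul_left_comm, ← rpow_add hl]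
  apply mul_le_mul_of_nonneg_left _ (rpow_nonneg (bds_Xr_pos h hX).le _)
  apply rpow_le_rpow_of_exponent_ge hl (bds_lam_lt_one h hX).le
  have := bds_s0_ge hX
  norm_num at this ⊢
  linarith

theorem bds_fix_le' (h : F.Ok X) (hX : X.Ok) : F.A * F.lam ^ (-(0.36 : ℝ)) ≤ F.agoal X := by
  refine (bds_fix_le h hX).trans ?_
  have := bds_lam_rpow_le_one h hX (e := 0.12) (by norm_num)
  nlinarith [bds_agoal_pos h hX]

/-- `lam^{2/p_*} ≤ A lam^{-0.36}`      (`A ≳ lam^{2/p_*}`) -/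
theorem bds_fix_ge (h : F.Ok X) (hX : X.Ok) : F.lam ^ (2 / X.pS) ≤ F.A * F.lam ^ (-(0.36 : ℝ)) := by
  have hl := bds_lam_pos h
  rw [bds_fix_eq h]
  have h1 : F.lam ^ (2 / X.pS) ≤ F.Xr ^ (2:ℝ) := by
    calc F.lam ^ (2 / X.pS) = (F.lam ^ (1 / X.pS)) ^ (2:ℝ) := by
          rw [← rpow_mul hl.le]; congr 1; ring
      _ ≤ F.Xr ^ (2:ℝ) := rpow_le_rpow (rpow_nonneg hl.le _) (bds_Xr_ge h hX) (by norm_num)
  have h2 : (1:ℝ) ≤ F.lam ^ (-(0.37 : ℝ)) :=
    one_le_rpow_of_pos_of_le_one_of_nonpos hl (bds_lam_lt_one h hX).le (by norm_num)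
  calc F.lam ^ (2 / X.pS) ≤ F.Xr ^ (2:ℝ) := h1
    _ = F.Xr ^ (2:ℝ) * 1 := (mul_one _).symm
    _ ≤ F.Xr ^ (2:ℝ) * F.lam ^ (-(0.37 : ℝ)) :=
        mul_le_mul_of_nonneg_left h2 (rpow_nonneg (bds_Xr_pos h hX).le _)

/-- closed form of the recursion: `a_{n-1} ≤ max(a_goal, (A lam^{-0.36})^{1-(2/3)^n})` -/
theorem bds_astage_le_fix (h : F.Ok X) (hX : X.Ok) :
    ∀ n : ℕ, F.astage X n ≤ max (F.agoal X) ((F.A * F.lam ^ (-(0.36 : ℝ))) ^ (1 - (2 / 3 : ℝ) ^ n))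
  | 0 => by simp [BdFr.astage]
  | n + 1 => by
      have ih := bds_astage_le_fix h hX n
      have hf := bds_fix_pos h hX
      have hg := bds_agoal_pos h hX
      show max _ _ ≤ _
      apply max_le (le_max_left _ _)
      rw [bds_mult_eq h hX]
      set f : ℝ := F.A * F.lam ^ (-(0.36 : ℝ)) with hfdef
      have h1 : F.astage X n ^ (2 / 3 : ℝ) ≤ (max (F.agoal X) (f ^ (1 - (2 / 3 : ℝ) ^ n))) ^ (2 / 3 : ℝ) :=
        rpow_le_rpow (bds_astage_pos h hX n).le ih (by norm_num)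
      refine (mul_le_mul_of_nonneg_left h1 (rpow_nonneg hf.le _)).trans ?_
      rcases le_total (F.agoal X) (f ^ (1 - (2 / 3 : ℝ) ^ n)) with hc | hc
      · rw [max_eq_right hc]
        refine le_trans (le_of_eq ?_) (le_max_right _ _)
        rw [← rpow_mul hf.le, ← rpow_add hf]
        congr 1
        rw [pow_succ]; ring
      · rw [max_eq_left hc]
        refine le_trans ?_ (le_max_left _ _)
        calc f ^ (1 / 3 : ℝ) * F.agoal X ^ (2 / 3 : ℝ)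
            ≤ F.agoal X ^ (1 / 3 : ℝ) * F.agoal X ^ (2 / 3 : ℝ) :=
              mul_le_mul_of_nonneg_right (rpow_le_rpow hf.le (bds_fix_le' h hX) (by norm_num))
                (rpow_nonneg hg.le _)
          _ = F.agoal X := by
              rw [← rpow_add hg]; norm_num

/-- **the goal is reached after a FIXED number of steps**: `n` depends on `p_*` only -/
theorem bds_astage_last (h : F.Ok X) (hX : X.Ok) (hB : BdsBig F X) {n : ℕ}
    (hn : (2 / 3 : ℝ) ^ n * (2 / X.pS) ≤ 0.12) : F.astage X n = F.agoal X := by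
  apply le_antisymm _ (bds_astage_ge h hX hB n)
  refine (bds_astage_le_fix h hX n).trans (max_le le_rfl ?_)
  have hl := bds_lam_pos h
  have hf := bds_fix_pos h hX
  set f : ℝ := F.A * F.lam ^ (-(0.36 : ℝ)) with hfdef
  set θ : ℝ := (2 / 3 : ℝ) ^ n with hθ
  have hθ0 : 0 ≤ θ := by positivity
  have h1 : f ^ (-θ) ≤ (F.lam ^ (2 / X.pS)) ^ (-θ) :=
    antitoneOn_rpow_Ioi_of_exponent_nonpos (by linarith) (rpow_pos_of_pos hl _) hf (bds_fix_ge h hX)
  have h2 : (F.lam ^ (2 / X.pS)) ^ (-θ) ≤ F.lam ^ (-(0.12 : ℝ)) := by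
    rw [← rpow_mul hl.le]
    apply rpow_le_rpow_of_exponent_ge hl (bds_lam_lt_one h hX).le
    nlinarith
  calc f ^ (1 - θ) = f * f ^ (-θ) := by
        rw [sub_eq_add_neg, rpow_add hf, rpow_one]
    _ ≤ (F.lam ^ (0.12 : ℝ) * F.agoal X) * F.lam ^ (-(0.12 : ℝ)) :=
        mul_le_mul (bds_fix_le h hX) (h1.trans h2) (rpow_nonneg hf.le _)
          (mul_nonneg (rpow_nonneg hl.le _) (bds_agoal_pos h hX).le)
    _ = F.agoal X := by
        rw [mul_right_comm, ← rpow_add hl]; simp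

/-- a number of stages that works -/
theorem bds_stage_exists (hX : X.Ok) : ∃ n : ℕ, (2 / 3 : ℝ) ^ n * (2 / X.pS) ≤ 0.12 := by
  have hp := hX.pS_pos
  obtain ⟨n, hn⟩ := exists_pow_lt_of_lt_one (show (0:ℝ) < 0.12 * (X.pS / 2) by positivity)
    (show (2 / 3 : ℝ) < 1 by norm_num)
  refine ⟨n, ?_⟩
  have : (2 / 3 : ℝ) ^ n * (2 / X.pS) ≤ 0.12 * (X.pS / 2) * (2 / X.pS) :=
    mul_le_mul_of_nonneg_right hn.le (by positivity)
  refine this.trans (le_of_eq ?_)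
  field_simp

/-! ### the extra floors `κ_j` -/

theorem bds_kstage_nonneg : ∀ n, 0 ≤ F.kstage X n
  | 0 => le_rfl
  | _ + 1 => sq_nonneg _

theorem bds_kstage_pos (h : F.Ok X) (hX : X.Ok) (n : ℕ) : 0 < F.kstage X (n + 1) :=
  pow_pos (div_pos (bds_A_pos h hX) (bds_astage_pos h hX n)) 2

/-- `κ_j ≤ lam^{2 s_0} Λ^{-2/3}`: every stage floor is admissible in (C5) (`BdFr.Ok.kap1`) -/
theorem bds_kstage_le (h : F.Ok X) (hX : X.Ok) (hB : BdsBig F X) :
    ∀ n, F.kstage X n ≤ F.lam ^ (2 * X.s0) * F.Lam ^ (-(2 / 3) : ℝ)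
  | 0 => by
      have hl := bds_lam_pos h
      exact mul_nonneg (rpow_nonneg hl.le _) (rpow_nonneg (rpow_nonneg hl.le _) _)
  | n + 1 => by
      have hl := bds_lam_pos h
      have hg := bds_agoal_pos h hX
      have hA := bds_A_pos h hX
      have hXr := bds_Xr_pos h hX
      have h1 : F.A / F.astage X n ≤ F.A / F.agoal X :=
        div_le_div_of_nonneg_left hA.le hg (bds_astage_ge h hX hB n)
      have h2 : F.A / F.agoal X = F.lam ^ (X.s0 - 1 / 100) := by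
        rw [bds_A_eq h, bds_agoal_eq, mul_div_mul_left _ _ (rpow_pos_of_pos hXr _).ne', ← rpow_sub hl]
        congr 1; ring
      show (F.A / F.astage X n) ^ 2 ≤ _
      calc (F.A / F.astage X n) ^ 2 ≤ (F.lam ^ (X.s0 - 1 / 100)) ^ 2 :=
            pow_le_pow_left₀ (div_pos hA (bds_astage_pos h hX n)).le (h2 ▸ h1) 2
        _ = F.lam ^ (2 * X.s0) * F.Lam ^ (-(2 / 3) : ℝ) := by
            unfold BdFr.Lam
            rw [← rpow_natCast, ← rpow_mul hl.le, ← rpow_mul hl.le, ← rpow_add hl]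
            congr 1; push_cast; ring

/-- `κ_j ≤ lam^{0.96}`      (`κ_j = o(1)`) -/
theorem bds_kstage_small (h : F.Ok X) (hX : X.Ok) (hB : BdsBig F X) (n : ℕ) :
    F.kstage X n ≤ F.lam ^ (0.96 : ℝ) := by
  have hl := bds_lam_pos h
  refine (bds_kstage_le h hX hB n).trans ?_
  unfold BdFr.Lam
  rw [← rpow_mul hl.le, ← rpow_add hl]
  apply rpow_le_rpow_of_exponent_ge hl (bds_lam_lt_one h hX).le
  have := bds_s0_ge hX
  norm_num at this ⊢
  linarith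

/-- the floors increase with the stage -/
theorem bds_kstage_mono (h : F.Ok X) (hX : X.Ok) (hB : BdsBig F X) : Monotone (F.kstage X) := by
  apply monotone_nat_of_le_succ
  intro n
  cases n with
  | zero => exact bds_kstage_nonneg _
  | succ n =>
      show (F.A / F.astage X n) ^ 2 ≤ (F.A / F.astage X (n + 1)) ^ 2
      apply pow_le_pow_left₀ (div_pos (bds_A_pos h hX) (bds_astage_pos h hX n)).le
      exact div_le_div_of_nonneg_left (bds_A_pos h hX).le (bds_astage_pos h hX _) (bds_astage_anti h hX hB n)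

/-- **the prefactor of the contradiction** (l.1515, l.1561): `(A/L)^{3/2} κ_j^{-1/2} ≤ lam^{0.18}` for `L ≥ a_j` -/
theorem bds_prefactor (h : F.Ok X) (hX : X.Ok) (n : ℕ) {L : ℝ} (hL : F.astage X (n + 1) ≤ L) :
    (F.A / L) ^ (3 / 2 : ℝ) * F.kstage X (n + 1) ^ (-(1 / 2) : ℝ) ≤ F.lam ^ (0.18 : ℝ) := by
  have hl := bds_lam_pos h
  have hA := bds_A_pos h hX
  have ha := bds_astage_pos h hX n
  have hL0 : 0 < L := lt_of_lt_of_le (bds_astage_pos h hX (n + 1)) hL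
  have h1 : F.lam ^ (-(0.12 : ℝ)) * F.A ^ (1 / 3 : ℝ) * F.astage X n ^ (2 / 3 : ℝ) ≤ L :=
    (le_max_right _ _).trans hL
  have h2 : F.lam ^ (-(0.18 : ℝ)) * F.A ^ (1 / 2 : ℝ) * F.astage X n ≤ L ^ (3 / 2 : ℝ) := by
    calc F.lam ^ (-(0.18 : ℝ)) * F.A ^ (1 / 2 : ℝ) * F.astage X n
        = (F.lam ^ (-(0.12 : ℝ)) * F.A ^ (1 / 3 : ℝ) * F.astage X n ^ (2 / 3 : ℝ)) ^ (3 / 2 : ℝ) := by
          rw [mul_rpow (mul_nonneg (rpow_nonneg hl.le _) (rpow_nonneg hA.le _)) (rpow_nonneg ha.le _),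
            mul_rpow (rpow_nonneg hl.le _) (rpow_nonneg hA.le _), ← rpow_mul hl.le, ← rpow_mul hA.le,
            ← rpow_mul ha.le]
          norm_num
      _ ≤ L ^ (3 / 2 : ℝ) := rpow_le_rpow (by positivity) h1 (by norm_num)
  have h3 : F.kstage X (n + 1) ^ (-(1 / 2) : ℝ) = F.astage X n / F.A := by
    show ((F.A / F.astage X n) ^ 2) ^ (-(1 / 2) : ℝ) = _
    rw [← rpow_natCast, ← rpow_mul (div_pos hA ha).le]
    norm_num
    rw [rpow_neg_one, inv_div]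
  rw [h3, div_rpow hA.le hL0.le]
  have hA32 : F.A ^ (3 / 2 : ℝ) = F.A ^ (1 / 2 : ℝ) * F.A := by
    rw [← rpow_add_one hA.ne']; norm_num
  rw [hA32]
  have hLp : 0 < L ^ (3 / 2 : ℝ) := rpow_pos_of_pos hL0 _
  have e : F.A ^ (1 / 2 : ℝ) * F.A / L ^ (3 / 2 : ℝ) * (F.astage X n / F.A)
      = F.A ^ (1 / 2 : ℝ) * F.astage X n / L ^ (3 / 2 : ℝ) := by
    field_simp
  rw [e, div_le_iff₀ hLp]
  calc F.A ^ (1 / 2 : ℝ) * F.astage X n
      = F.lam ^ (0.18 : ℝ) * (F.lam ^ (-(0.18 : ℝ)) * F.A ^ (1 / 2 : ℝ) * F.astage X n) := by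
        rw [← mul_assoc, ← mul_assoc, ← rpow_add hl]; simp
    _ ≤ F.lam ^ (0.18 : ℝ) * L ^ (3 / 2 : ℝ) := mul_le_mul_of_nonneg_left h2 (rpow_nonneg hl.le _)

end BdFr

end Claimed.Agent.R286
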