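import Claimed.Agent.R286.Bud.Defs
import Claimed.Agent.R286.Bud.Stage
import Claimed.Agent.R286.Cmp.Prof
import Claimed.Agent.R286.Bud.GeoFV
import Claimed.Agent.R286.Bud.GeoFlat
import Claimed.Agent.R286.Bud.GeoCon

/-!
# Row 286, N4: BRIDGE from the abstract geometry (`Bud/Geo*.lean`) to the vocabulary of `Bud/Defs.lean`; EXITS of node N4   (head helper109; proofs helper86, 0 sorry)

EXITS (used by N5-N9, N10-N18):  `bud_n4_exists` (a minimiser exists), `bud_n4_geo` (every minimiser has a potential, and the abstract geometry datum is `Ok`),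
dictionary `bud_n4_al`, `bud_n4_S`, `bud_n4_B`, `bud_n4_flat`.   After that every lemma of GeoPot / GeoCap / GeoCon / GeoFlat applies to `budGeoQ Q W g c0`.
IMPORTS: `BdFr.Base` = admissibility of the bare path at the parameter `g` (LL03: (P3)-(P7), owner 253) ; profile lemmas of `Cmp/Prof.lean` (192).
The density of `Q : BdQ F X` is `deriv Q.al` (Lipschitz ⟹ absolutely continuous ⟹ FTC: `AbsolutelyContinuousOnInterval.integral_deriv_eq_sub`;
CHANGE (86): `bud_n4_S`, `bud_n4_B`, `bud_n4_D` take `hB : F.Base X W g` (`PSys.S_congr` needs `a = 1`: `Q.r` is arbitrary outside `[0,1]`).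
the same facts for an abstract box are `cm4_ftc`, `cm4_deriv_mem` of `Cmp/P04Cls.lean`).
-/

set_option autoImplicit false

open MeasureTheory Set Filter Topology

namespace Claimed.Agent.R286

/-- admissibility of the bare path of the frame at the parameter `g`, with the matrix margin.   SUPPLIER: LL03 paths (253). -/
structure BdFr.Base (F : BdFr) (X : BdFix) (W : BdWorld) (g : ℝ) : Prop where
  a1 : (W.ps F.m).a = 1
  hb : IsClock 1 (F.b g)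
  hh : IsClock 1 (F.h g)
  marg : ∀ v ∈ Ioo (0:ℝ) 1, F.C X 0 ≤ F.b g v

/-- the floor of (C5), frozen outside `[0,1]` -/
noncomputable def budKb (F : BdFr) (X : BdFix) (r : ℝ) : ℝ := F.kbar X (max 0 (min r 1))

/-- the derivative of the removal profile, `C' = -p C / r` -/
noncomputable def budCp (F : BdFr) (X : BdFix) (r : ℝ) : ℝ := -(F.pC X r * F.C X r / r)

/-- the geometry datum of a feasible `Q` -/
noncomputable def budGeoQ {F : BdFr} {X : BdFix} (Q : BdQ F X) (W : BdWorld) (g c0 : ℝ) : BudGeo :=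
  budGeoOf (W.ps F.m) (F.b g) (F.h g) (budKb F X) (F.C X) (budCp F X) F.Mj (deriv Q.al) c0

theorem bud_geobr_eqns_cite : True := by
  have := @budKb.eq_1; have := @budCp.eq_1; have := @budGeoQ.eq_1
  trivial

/-- the bracket of `Bud/GeoDefs.lean` is the bracket of `Cmp/Defs.lean` (so `cm_br_*` of `Cmp/Num.lean` apply) -/
theorem bud_br_eq_cm (p r S B : ℝ) : budBr p r S B = cmBr p r S B := rfl

/-! ### elementary facts on a frame (helper86) -/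

theorem bud_gb_Lam_pos {X : BdFix} {F : BdFr} (hF : F.Ok X) : 0 < F.Lam :=
  Real.rpow_pos_of_pos (BdFr.bds_lam_pos hF) _

theorem bud_gb_C0_pos {X : BdFix} (hX : X.Ok) {F : BdFr} (hF : F.Ok X) : 0 < F.C0 :=
  mul_pos (pow_pos (BdFr.bds_u_pos hF hX) 2) (bud_gb_Lam_pos hF)

theorem bud_gb_d_pos {X : BdFix} (hX : X.Ok) {F : BdFr} (hF : F.Ok X) : 0 < F.dPE X :=
  mul_pos (mul_pos hX.cd_pos (BdFr.bds_u_pos hF hX)) (Real.rpow_pos_of_pos (bud_gb_Lam_pos hF) _)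

theorem bud_gb_d_cube {X : BdFix} {F : BdFr} (hF : F.Ok X) : F.dPE X ^ 3 = X.cd ^ 3 * F.u * F.C0 := by
  have h1 : (F.Lam ^ (1 / 3 : ℝ)) ^ 3 = F.Lam := by
    rw [← Real.rpow_natCast, ← Real.rpow_mul (bud_gb_Lam_pos hF).le]
    norm_num
  unfold BdFr.dPE BdFr.C0
  rw [mul_pow, mul_pow, h1]
  ring

/-- the removal is flat on `r ≤ cd³ u` -/
theorem bud_gb_arg_le {X : BdFix} (hX : X.Ok) {F : BdFr} (hF : F.Ok X) {r : ℝ} (hr : r ≤ X.cd ^ 3 * F.u) :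
    F.C0 * r ≤ F.dPE X ^ 3 := by
  rw [bud_gb_d_cube hF, mul_comm]
  exact mul_le_mul_of_nonneg_right hr (bud_gb_C0_pos hX hF).le

theorem bud_gb_pC_zero {X : BdFix} (hX : X.Ok) {F : BdFr} (hF : F.Ok X) {r : ℝ} (hr : r ≤ X.cd ^ 3 * F.u) :
    F.pC X r = 0 := by
  refine cm_pp_of_le (F.call X) ?_
  have hd : 0 < F.dPE X ^ 3 := pow_pos (bud_gb_d_pos hX hF) 3
  exact (div_le_one hd).2 (bud_gb_arg_le hX hF hr)

theorem bud_gb_C_flat {X : BdFix} (hX : X.Ok) {F : BdFr} (hF : F.Ok X) {r : ℝ} (hr : r ≤ X.cd ^ 3 * F.u) :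
    F.C X r = F.C0 :=
  cm_e_eq (F.call X) (bud_gb_d_pos hX hF) (bud_gb_arg_le hX hF hr)

theorem bud_gb_C_pos {X : BdFix} (hX : X.Ok) {F : BdFr} (hF : F.Ok X) (r : ℝ) : 0 < F.C X r :=
  cm_e_pos (F.call X) (bud_gb_C0_pos hX hF) r

theorem bud_gb_flat_pos {X : BdFix} (hX : X.Ok) {F : BdFr} (hF : F.Ok X) : 0 < X.cd ^ 3 * F.u :=
  mul_pos (pow_pos hX.cd_pos 3) (BdFr.bds_u_pos hF hX)

/-- `-(r C') = p C` at every `r` -/
theorem bud_gb_rCp {X : BdFix} (hX : X.Ok) {F : BdFr} (hF : F.Ok X) (r : ℝ) :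
    -(r * budCp F X r) = F.pC X r * F.C X r := by
  unfold budCp
  rcases eq_or_ne r 0 with rfl | h
  · rw [bud_gb_pC_zero hX hF (bud_gb_flat_pos hX hF).le]; simp
  · field_simp

theorem bud_gb_P (X : BdFix) (hX : X.Ok) (F : BdFr) (hF : F.Ok X) (r : ℝ) :
    budP (F.C X) (budCp F X) r = F.pC X r := by
  unfold budP
  rw [bud_gb_rCp hX hF, mul_div_assoc, div_self (bud_gb_C_pos hX hF r).ne', mul_one]

theorem bud_P_of_frame (X : BdFix) (hX : X.Ok) (F : BdFr) (hF : F.Ok X) {r : ℝ} (_hr : r ∈ Icc (0:ℝ) 1) :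
    budP (F.C X) (budCp F X) r = F.pC X r := bud_gb_P X hX F hF r

/-- the profile of the frame is a `BudProf` -/
theorem bud_prof_of_frame (X : BdFix) (hX : X.Ok) (F : BdFr) (hF : F.Ok X) : BudProf (F.C X) (budCp F X) := by
  have cC : Continuous (F.C X) := cm_e_cont (F.call X) F.C0
  have cp : Continuous (F.pC X) := cm_pp_cont (F.call X) F.C0
  have hfl := bud_gb_flat_pos hX hF
  have hz : ∀ r, r ≤ X.cd ^ 3 * F.u → budCp F X r = 0 := by
    intro r hr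
    unfold budCp
    rw [bud_gb_pC_zero hX hF hr]; simp
  refine ⟨cC.measurable, ?_, fun r _ => cm_e_hasDerivAt_r (F.call X) F.C0 r, ?_, fun r _ => bud_gb_C_pos hX hF r,
    ?_, ?_, ?_, ⟨X.cd ^ 3 * F.u, hfl, fun r hr => hz r hr.2⟩⟩
  · exact ((cp.measurable.mul cC.measurable).div measurable_id).neg
  · intro r hr
    apply ContinuousAt.continuousWithinAt
    rcases eq_or_lt_of_le hr.1 with h0 | h0
    · have : budCp F X =ᶠ[𝓝 r] fun _ => 0 := by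
        filter_upwards [Iio_mem_nhds (show r < X.cd ^ 3 * F.u by rw [← h0]; exact hfl)] with y hy
        exact hz y (le_of_lt hy)
      exact continuousAt_const.congr this.symm
    · exact (((cp.continuousAt).mul cC.continuousAt).div continuousAt_id h0.ne').neg
  · intro r hr
    unfold budCp
    have := div_nonneg (mul_nonneg (cm_pp_nonneg (F.call X) F.C0 r) (bud_gb_C_pos hX hF r).le) hr.1
    exact neg_nonpos.2 this
  · intro r _
    rw [bud_gb_rCp hX hF]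
    have h1 : F.pC X r < 1 := cm_pp_lt_one (F.call X) F.C0 r
    have := bud_gb_C_pos hX hF r
    nlinarith
  · have e : (fun r => -(r * budCp F X r) / F.C X r) = F.pC X := by
      funext r; exact bud_gb_P X hX F hF r
    rw [e]
    exact (cm_pp_mono (F.call X) (bud_gb_d_pos hX hF) (bud_gb_C0_pos hX hF).le).monotoneOn _

/-! ### the floor (the lemmas `cm_k_*` of `Cmp/Num.lean` under the bare positivity hypotheses) -/

section floor
variable (P : CmCall)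

theorem bud_gb_k_pos (hN : 0 < P.N) (hu : 0 < P.us) {r : ℝ} (hr : 0 ≤ r) : 0 < P.k r := by
  have hcc : 0 < P.N ^ (2 * P.dl) * P.us := by positivity
  unfold CmCall.k
  positivity

theorem bud_gb_k_le (hN : 0 < P.N) (hu : 0 < P.us) {r : ℝ} (hr : 0 ≤ r) : P.k r ≤ P.N ^ (-(3 * P.dl)) := by
  have hcc : 0 < P.N ^ (2 * P.dl) * P.us := by positivity
  unfold CmCall.k
  rw [div_le_iff₀ (by positivity)]
  have h1 : (P.N ^ (2 * P.dl) * P.us) ^ 2 ≤ (r + P.N ^ (2 * P.dl) * P.us) ^ 2 :=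
    pow_le_pow_left₀ hcc.le (by linarith) 2
  have h2 : P.N ^ (-(3 * P.dl)) * (P.N ^ (2 * P.dl) * P.N ^ (2 * P.dl)) = P.N ^ P.dl := by
    rw [← Real.rpow_add hN, ← Real.rpow_add hN]; congr 1; ring
  calc P.N ^ P.dl * P.us ^ 2 = P.N ^ (-(3 * P.dl)) * (P.N ^ (2 * P.dl) * P.us) ^ 2 := by
        rw [← h2]; ring
    _ ≤ _ := mul_le_mul_of_nonneg_left h1 (by positivity)

theorem bud_gb_k_anti (hN : 0 < P.N) (hu : 0 < P.us) : AntitoneOn P.k (Ici 0) := by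
  have hcc : 0 < P.N ^ (2 * P.dl) * P.us := by positivity
  intro r1 h1 r2 h2 h12
  have h1' : (0 : ℝ) ≤ r1 := h1
  unfold CmCall.k
  apply div_le_div_of_nonneg_left (by positivity) (by positivity)
  exact pow_le_pow_left₀ (by linarith) (by linarith) 2

theorem bud_gb_k_cont (hN : 0 < P.N) (hu : 0 < P.us) : ContinuousOn P.k (Ici 0) := by
  have hcc : 0 < P.N ^ (2 * P.dl) * P.us := by positivity
  unfold CmCall.k
  apply ContinuousOn.div continuousOn_const (by fun_prop)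
  intro r hr
  have hr' : (0 : ℝ) ≤ r := hr
  positivity

theorem bud_gb_k_meas : Measurable P.k := by
  unfold CmCall.k
  fun_prop

theorem bud_gb_k_integral (hN : 0 < P.N) (hu : 0 < P.us) {r1 r2 : ℝ} (h1 : 0 ≤ r1) (h12 : r1 ≤ r2) :
    ∫ r in r1..r2, P.k r ≤ P.N ^ (-P.dl) * P.us := by
  have hcc : 0 < P.N ^ (2 * P.dl) * P.us := by positivity
  set c := P.N ^ (2 * P.dl) * P.us with hcdef
  set A := P.N ^ P.dl * P.us ^ 2 with hA
  have hA0 : 0 < A := by positivity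
  have hder : ∀ x ∈ uIcc r1 r2, HasDerivAt (fun r => -A / (r + c)) (P.k x) x := by
    intro x hx
    rw [uIcc_of_le h12] at hx
    have hx0 : 0 < x + c := by linarith [hx.1]
    have h0 : HasDerivAt (fun r : ℝ => r + c) 1 x := (hasDerivAt_id x).add_const c
    have h3 : HasDerivAt (fun r : ℝ => -A / (r + c)) ((0 * (x + c) - (-A) * 1) / (x + c) ^ 2) x :=
      (hasDerivAt_const x (-A)).div h0 hx0.ne'
    have e : P.k x = (0 * (x + c) - (-A) * 1) / (x + c) ^ 2 := by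
      unfold CmCall.k
      rw [← hcdef, ← hA]; ring
    rw [e]; exact h3
  have hint : IntervalIntegrable P.k volume r1 r2 := by
    apply ContinuousOn.intervalIntegrable
    rw [uIcc_of_le h12]
    exact (bud_gb_k_cont P hN hu).mono (fun x hx => h1.trans hx.1)
  rw [intervalIntegral.integral_eq_sub_of_hasDerivAt hder hint]
  have e1 : A / c = P.N ^ (-P.dl) * P.us := by
    rw [hA, hcdef, div_eq_iff (by positivity)]
    have : P.N ^ (-P.dl) * P.N ^ (2 * P.dl) = P.N ^ P.dl := by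
      rw [← Real.rpow_add hN]; congr 1; ring
    rw [← this]; ring
  have e2 : A / (r1 + c) ≤ A / c := div_le_div_of_nonneg_left hA0.le hcc (by linarith)
  have e3 : 0 ≤ A / (r2 + c) := by
    have : 0 < r2 + c := by linarith
    positivity
  rw [← e1]
  have : -A / (r2 + c) - -A / (r1 + c) = A / (r1 + c) - A / (r2 + c) := by ring
  rw [this]; linarith

end floor

theorem bud_gb_m_ge {X : BdFix} {F : BdFr} (hF : F.Ok X) : (1:ℝ) ≤ F.m := by
  have h2 : (2:ℝ) ≤ F.N := by exact_mod_cast hF.N2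
  linarith [hF.m_lo]

theorem bud_gb_N_pos {X : BdFix} {F : BdFr} (hF : F.Ok X) : 0 < (F.call X).N :=
  lt_of_lt_of_le one_pos (bud_gb_m_ge hF)

theorem bud_gb_E_pos {X : BdFix} (hX : X.Ok) {F : BdFr} (hF : F.Ok X) : 0 < F.E X :=
  mul_pos (Real.rpow_pos_of_pos (BdFr.bds_x_pos hF) _) (bud_gb_d_pos hX hF)

theorem bud_gb_us_pos {X : BdFix} (hX : X.Ok) {F : BdFr} (hF : F.Ok X) : 0 < (F.call X).us :=
  one_div_pos.2 (mul_pos (bud_gb_N_pos hF) (bud_gb_E_pos hX hF))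

theorem bud_gb_clamp (r : ℝ) : max 0 (min r 1) ∈ Icc (0:ℝ) 1 :=
  ⟨le_max_left _ _, max_le zero_le_one (min_le_right _ _)⟩

theorem bud_gb_clamp_eq {r : ℝ} (hr : r ∈ Icc (0:ℝ) 1) : max 0 (min r 1) = r := by
  rw [min_eq_left hr.2, max_eq_right hr.1]

theorem bud_gb_Kb_eq (F : BdFr) (X : BdFix) {r : ℝ} (hr : r ∈ Icc (0:ℝ) 1) : budKb F X r = F.kbar X r := by
  unfold budKb; rw [bud_gb_clamp_eq hr]

/-- `kap ≤ lam^(9/10)` -/
theorem bud_gb_kap_le {X : BdFix} (hX : X.Ok) {F : BdFr} (hF : F.Ok X) : F.kap ≤ F.lam ^ (9 / 10 : ℝ) := by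
  have hl := BdFr.bds_lam_pos hF
  have hl1 := (BdFr.bds_lam_lt_one hF hX).le
  refine hF.kap1.trans ?_
  unfold BdFr.Lam
  rw [← Real.rpow_mul hl.le, ← Real.rpow_add hl]
  apply Real.rpow_le_rpow_of_exponent_ge hl hl1
  have h1 := hX.tau_le
  have h2 := hX.eta_le
  have h3 := hX.tau0_le
  have h4 := hX.tau0_pos
  unfold BdFix.s0 BdFix.sS
  norm_num
  linarith

theorem bud_gb_Mj_ge {X : BdFix} {F : BdFr} (hF : F.Ok X) : 2 ≤ F.Mj := by
  have hN2 : (2:ℝ) ≤ F.N := by exact_mod_cast hF.N2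
  have hN0 : (0:ℝ) < F.N := by linarith
  have h1 : (F.N : ℝ) ≤ F.x ^ (-(100 : ℝ)) := by
    unfold BdFr.x
    rw [← Real.rpow_mul hN0.le]
    calc (F.N : ℝ) = (F.N : ℝ) ^ (1:ℝ) := (Real.rpow_one _).symm
      _ ≤ _ := Real.rpow_le_rpow_of_exponent_le (by linarith) (by norm_num)
  have h2 : (1:ℝ) ≤ 2 ^ F.st := one_le_pow₀ (by norm_num)
  unfold BdFr.Mj
  nlinarith

/-- the box of a frame -/
theorem bud_gb_box {X : BdFix} (hX : X.Ok) {F : BdFr} (hF : F.Ok X) : BudBoxOk (budKb F X) F.Mj (F.k X 1) := by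
  have hN := bud_gb_N_pos hF
  have hu := bud_gb_us_pos hX hF
  have mk : Measurable (F.kbar X) := by
    unfold BdFr.kbar
    exact (bud_gb_k_meas (F.call X)).add (Measurable.ite measurableSet_Icc measurable_const measurable_const)
  refine ⟨mk.comp (by fun_prop), bud_gb_k_pos (F.call X) hN hu zero_le_one, fun r => ?_, fun r => ?_⟩
  · have hc := bud_gb_clamp r
    have h1 : F.k X 1 ≤ F.k X (max 0 (min r 1)) :=
      bud_gb_k_anti (F.call X) hN hu (mem_Ici.2 hc.1) (mem_Ici.2 zero_le_one) hc.2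
    unfold budKb BdFr.kbar
    split_ifs
    · linarith [hF.kap0]
    · linarith
  · have hc := bud_gb_clamp r
    have h1 : F.k X (max 0 (min r 1)) ≤ 1 := by
      refine (bud_gb_k_le (F.call X) hN hu hc.1).trans ?_
      apply Real.rpow_le_one_of_one_le_of_nonpos (bud_gb_m_ge hF)
      have : 0 < (F.call X).dl := div_pos hX.mPE_pos (by norm_num)
      linarith
    have h2 : F.kap ≤ 1 := (bud_gb_kap_le hX hF).trans
      (Real.rpow_le_one (BdFr.bds_lam_pos hF).le (BdFr.bds_lam_lt_one hF hX).le (by norm_num))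
    have h3 := bud_gb_Mj_ge hF
    unfold budKb BdFr.kbar
    split_ifs
    · linarith
    · linarith

/-- lower bound of `m E` -/
theorem bud_gb_mE_ge {X : BdFix} (hX : X.Ok) {F : BdFr} (hF : F.Ok X) :
    X.cd / (2 * X.CU) * (F.N : ℝ) ^ (1 / 10 : ℝ) ≤ F.m * F.E X := by
  have hN2 : (2:ℝ) ≤ F.N := by exact_mod_cast hF.N2
  have hN0 : (0:ℝ) < F.N := by linarith
  have hx := BdFr.bds_x_pos hF
  have hl := BdFr.bds_lam_pos hF
  have hl1 := (BdFr.bds_lam_lt_one hF hX).le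
  have hu := BdFr.bds_u_pos hF hX
  have hCU := hX.CU_pos
  have hcd := hX.cd_pos
  -- (b)
  have hb : F.x / X.CU ≤ F.u := by
    rw [div_le_iff₀ hCU]
    have h1 : (1:ℝ) ≤ F.lam ^ (-(X.sS / 2)) := by
      apply Real.one_le_rpow_of_pos_of_le_one_of_nonpos hl hl1
      have := hX.tau_le
      unfold BdFix.sS
      linarith
    have h2 := hF.u_lo
    unfold BdFr.U at h2
    nlinarith
  -- (c)
  have hc : F.x ^ (12 / 100 : ℝ) ≤ F.Lam ^ (1 / 3 : ℝ) := by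
    unfold BdFr.Lam
    rw [← Real.rpow_mul hl.le]
    calc F.x ^ (12 / 100 : ℝ) = (F.x ^ (12:ℝ)) ^ (0.03 * (1 / 3) : ℝ) := by
          rw [← Real.rpow_mul hx.le]; norm_num
      _ ≤ _ := Real.rpow_le_rpow (Real.rpow_nonneg hx.le _) hF.lam_lo (by norm_num)
  have hz : 0 < X.zeta := hX.zeta_pos
  have e1 : (F.N : ℝ) * (F.x ^ (4 - X.zeta) * (F.x * F.x ^ (12 / 100 : ℝ)))
      = (F.N : ℝ) ^ (1 + (-(1 / 6) * (4 - X.zeta) + (-(1 / 6) + -(1 / 6) * (12 / 100))) : ℝ) := by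
    unfold BdFr.x
    rw [← Real.rpow_mul hN0.le, ← Real.rpow_mul hN0.le, Real.rpow_add hN0, Real.rpow_add hN0, Real.rpow_add hN0,
      Real.rpow_one]
  have e2 : (F.N : ℝ) ^ (1 / 10 : ℝ) ≤ (F.N : ℝ) * (F.x ^ (4 - X.zeta) * (F.x * F.x ^ (12 / 100 : ℝ))) := by
    rw [e1]
    apply Real.rpow_le_rpow_of_exponent_le (by linarith)
    linarith
  have hx4 : 0 < F.x ^ (4 - X.zeta) := Real.rpow_pos_of_pos hx _
  have hx12 : 0 < F.x ^ (12 / 100 : ℝ) := Real.rpow_pos_of_pos hx _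
  have e3 : F.x / X.CU * F.x ^ (12 / 100 : ℝ) ≤ F.u * F.Lam ^ (1 / 3 : ℝ) :=
    mul_le_mul hb hc hx12.le hu.le
  calc X.cd / (2 * X.CU) * (F.N : ℝ) ^ (1 / 10 : ℝ)
      ≤ X.cd / (2 * X.CU) * ((F.N : ℝ) * (F.x ^ (4 - X.zeta) * (F.x * F.x ^ (12 / 100 : ℝ)))) :=
        mul_le_mul_of_nonneg_left e2 (by positivity)
    _ = ((F.N : ℝ) / 2) * (F.x ^ (4 - X.zeta) * (X.cd * (F.x / X.CU * F.x ^ (12 / 100 : ℝ)))) := by
        field_simp
    _ ≤ F.m * (F.x ^ (4 - X.zeta) * (X.cd * (F.u * F.Lam ^ (1 / 3 : ℝ)))) := by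
        apply mul_le_mul hF.m_lo _ (by positivity) (by linarith [bud_gb_m_ge hF])
        exact mul_le_mul_of_nonneg_left (mul_le_mul_of_nonneg_left e3 hcd.le) hx4.le
    _ = F.m * F.E X := by
        unfold BdFr.E BdFr.dPE; ring

/-- `kap ≤ N^(-(3/20) pS)` -/
theorem bud_gb_kap_le_N {X : BdFix} (hX : X.Ok) {F : BdFr} (hF : F.Ok X) :
    F.kap ≤ (F.N : ℝ) ^ (-(3 / 20 * X.pS)) := by
  have hN2 : (2:ℝ) ≤ F.N := by exact_mod_cast hF.N2
  have hN0 : (0:ℝ) < F.N := by linarith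
  have hl := BdFr.bds_lam_pos hF
  refine (bud_gb_kap_le hX hF).trans ?_
  calc F.lam ^ (9 / 10 : ℝ) ≤ (F.x ^ X.pS) ^ (9 / 10 : ℝ) := Real.rpow_le_rpow hl.le hF.lam_hi (by norm_num)
    _ = _ := by
        unfold BdFr.x
        rw [← Real.rpow_mul hN0.le, ← Real.rpow_mul hN0.le]
        congr 1; ring

/-- the mass of the floor is at most `1` for large sizes -/
theorem bud_gb_kb_int (X : BdFix) (hX : X.Ok) :
    ∃ N0 : ℕ, ∀ F : BdFr, F.Ok X → N0 ≤ F.N → ∫ r in (0:ℝ)..1, budKb F X r ≤ 1 := by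
  have h1 : ∀ᶠ n : ℕ in atTop, 4 * X.CU / X.cd ≤ (n:ℝ) ^ (1 / 10 : ℝ) :=
    ((tendsto_rpow_atTop (by norm_num : (0:ℝ) < 1 / 10)).comp tendsto_natCast_atTop_atTop).eventually_ge_atTop _
  have hp : 0 < 3 / 20 * X.pS := by have := hX.pS_pos; positivity
  have h2 : ∀ᶠ n : ℕ in atTop, (n:ℝ) ^ (-(3 / 20 * X.pS)) ≤ 1 / 2 :=
    ((tendsto_rpow_neg_atTop hp).comp tendsto_natCast_atTop_atTop).eventually_le_const (by norm_num)
  obtain ⟨N0, hN0⟩ := eventually_atTop.1 (h1.and h2)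
  refine ⟨N0, fun F hF hN => ?_⟩
  obtain ⟨g1, g2⟩ := hN0 F.N hN
  have hNp := bud_gb_N_pos hF
  have hu := bud_gb_us_pos hX hF
  have hkap : F.kap ≤ 1 / 2 := (bud_gb_kap_le_N hX hF).trans g2
  have hmE : 2 ≤ F.m * F.E X := by
    refine le_trans ?_ (bud_gb_mE_ge hX hF)
    have hCU := hX.CU_pos
    have hcd := hX.cd_pos
    calc (2:ℝ) = X.cd / (2 * X.CU) * (4 * X.CU / X.cd) := by field_simp; norm_num
      _ ≤ _ := mul_le_mul_of_nonneg_left g1 (by positivity)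
  have hus : (F.call X).us ≤ 1 / 2 := by
    show 1 / ((F.m : ℝ) * F.E X) ≤ 1 / 2
    exact one_div_le_one_div_of_le (by norm_num) hmE
  have hk : ∫ r in (0:ℝ)..1, F.k X r ≤ 1 / 2 := by
    refine (bud_gb_k_integral (F.call X) hNp hu le_rfl zero_le_one).trans ?_
    have : (F.call X).N ^ (-(F.call X).dl) ≤ 1 := by
      apply Real.rpow_le_one_of_one_le_of_nonpos (bud_gb_m_ge hF)
      have : 0 < (F.call X).dl := div_pos hX.mPE_pos (by norm_num)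
      linarith
    nlinarith
  have ik : IntervalIntegrable (F.k X) volume 0 1 := by
    apply ContinuousOn.intervalIntegrable
    rw [uIcc_of_le zero_le_one]
    exact (bud_gb_k_cont (F.call X) hNp hu).mono (fun x hx => hx.1)
  have hle : ∫ r in (0:ℝ)..1, budKb F X r ≤ ∫ r in (0:ℝ)..1, (F.k X r + F.kap) := by
    refine intervalIntegral.integral_mono_on zero_le_one ((bud_gb_box hX hF).kb_intervalIntegrable 0 1)
      (ik.add intervalIntegrable_const) (fun r hr => ?_)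
    rw [bud_gb_Kb_eq F X hr]
    unfold BdFr.kbar
    split_ifs
    · exact le_rfl
    · linarith [hF.kap0]
  rw [intervalIntegral.integral_add ik intervalIntegrable_const, intervalIntegral.integral_const] at hle
  simp only [sub_zero, smul_eq_mul, one_mul] at hle
  linarith

/-- INSTANCE of `BudLoc` -/
theorem bud_loc_of_frame (X : BdFix) (hX : X.Ok) :
    ∃ N0 : ℕ, ∀ F : BdFr, F.Ok X → N0 ≤ F.N → ∀ (W : BdWorld) (g : ℝ), F.Base X W g →
      BudLoc (W.ps F.m) (F.b g) (F.h g) (budKb F X) (F.C X) (budCp F X) F.Mj (F.k X 1) := by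
  obtain ⟨N0, hN0⟩ := bud_gb_kb_int X hX
  refine ⟨N0, fun F hF hN W g hB => ?_⟩
  have hbox := bud_gb_box hX hF
  exact ⟨hB.a1, hB.hb, hB.hh, hB.marg, bud_prof_of_frame X hX F hF, hbox.kbm, hbox.kmin0, hbox.kb_ge, hbox.kb_le,
    hN0 F hF hN, by linarith [bud_gb_Mj_ge hF]⟩

theorem bud_gb_int_Kb (F : BdFr) (X : BdFix) {s t : ℝ} (hs : 0 ≤ s) (hst : s ≤ t) (ht : t ≤ 1) :
    ∫ r in s..t, budKb F X r = ∫ r in s..t, F.kbar X r := by
  refine intervalIntegral.integral_congr fun r hr => ?_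
  rw [uIcc_of_le hst] at hr
  exact bud_gb_Kb_eq F X ⟨hs.trans hr.1, hr.2.trans ht⟩

/-- from the integrated class to densities -/
theorem bud_dens_of_bdq (X : BdFix) (hX : X.Ok) (F : BdFr) (hF : F.Ok X) (Q : BdQ F X) :
    BudDens (budKb F X) F.Mj (deriv Q.al) ∧ (∀ r ∈ Icc (0:ℝ) 1, budAl (deriv Q.al) r = Q.al r) ∧
      (∀ v ∈ Icc (0:ℝ) 1, budQ (deriv Q.al) v = Q.r v) := by
  have hbox := bud_gb_box hX hF
  obtain ⟨h1, h2⟩ := bud_dens_of_slopes hbox Q.al_zero Q.al_one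
    (fun s t hs hst ht => by rw [bud_gb_int_Kb F X hs hst ht]; exact Q.lo s t hs hst ht) Q.hi
  refine ⟨h1, h2, fun v hv => ?_⟩
  have h3 := budQ_al hbox h1 (Q.r_mem v hv)
  rwa [h2 _ (Q.r_mem v hv), Q.al_r v hv] at h3

/-- from densities to the integrated class -/
theorem bud_bdq_of_dens (X : BdFix) (hX : X.Ok) (F : BdFr) (hF : F.Ok X) {ρ : ℝ → ℝ}
    (hρ : BudDens (budKb F X) F.Mj ρ) :
    ∃ Q : BdQ F X, (∀ r ∈ Icc (0:ℝ) 1, Q.al r = budAl ρ r) ∧ (∀ v ∈ Icc (0:ℝ) 1, Q.r v = budQ ρ v) := by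
  have hbox := bud_gb_box hX hF
  exact ⟨⟨budAl ρ, budQ ρ, budAl_zero ρ, budAl_one hρ,
    fun s t hs hst ht => by rw [← bud_gb_int_Kb F X hs hst ht]; exact budAl_slope_kb hbox hρ hs hst ht,
    fun s t hs hst ht => (budAl_slope hbox hρ hs hst ht).2,
    fun v hv => budQ_mem_Icc hbox hρ hv, fun v hv => budAl_Q hbox hρ hv, fun t ht => budQ_al hbox hρ ht⟩,
    fun _ _ => rfl, fun _ _ => rfl⟩

theorem bud_gb_bq_eq {X : BdFix} {F : BdFr} (Q : BdQ F X) (g : ℝ) {ρ : ℝ → ℝ}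
    (hQ : ∀ v ∈ Icc (0:ℝ) 1, Q.r v = budQ ρ v) : ∀ v ∈ Ioo (0:ℝ) 1, Q.bq g v = budCb (F.b g) (F.C X) ρ v := by
  intro v hv
  unfold BdQ.bq budCb
  rw [hQ v (Ioo_subset_Icc_self hv)]

theorem bud_gb_hq_eq {X : BdFix} {F : BdFr} (Q : BdQ F X) (g : ℝ) {ρ : ℝ → ℝ}
    (hQ : ∀ v ∈ Icc (0:ℝ) 1, Q.r v = budQ ρ v) : ∀ v ∈ Ioo (0:ℝ) 1, Q.hq g v = budCh (F.h g) (F.C X) ρ v := by
  intro v hv
  unfold BdQ.hq budCh
  rw [hQ v (Ioo_subset_Icc_self hv)]

/-- the two objectives agree -/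
theorem bud_obj_eq (X : BdFix) (_hX : X.Ok) (F : BdFr) (_hF : F.Ok X) (W : BdWorld) (g : ℝ) (hB : F.Base X W g)
    (Q : BdQ F X) {ρ : ℝ → ℝ} (hQ : ∀ v ∈ Icc (0:ℝ) 1, Q.r v = budQ ρ v) :
    Q.obj W g = budObj (W.ps F.m) (F.b g) (F.h g) (F.C X) ρ := by
  unfold BdQ.obj budObj BdQ.pen
  have e1 : (W.ps F.m).f (Q.bq g) (Q.hq g)
      = (W.ps F.m).f (budCb (F.b g) (F.C X) ρ) (budCh (F.h g) (F.C X) ρ) := by
    apply (W.ps F.m).f_congr
    · rw [hB.a1]; exact bud_gb_bq_eq Q g hQ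
    · rw [hB.a1]; exact bud_gb_hq_eq Q g hQ
  have e2 : ∫ v in (0 : ℝ)..1, F.C X (Q.r v) * Q.r v ^ 2
      = ∫ v in Ioo (0:ℝ) 1, F.C X (budQ ρ v) * budQ ρ v ^ 2 := by
    rw [intervalIntegral.integral_of_le zero_le_one, integral_Ioc_eq_integral_Ioo]
    refine setIntegral_congr_fun measurableSet_Ioo fun v hv => ?_
    rw [hQ v (Ioo_subset_Icc_self hv)]
  rw [e1, e2]

/-- minimisers correspond -/
theorem bud_min_of_opt (X : BdFix) (hX : X.Ok) (F : BdFr) (hF : F.Ok X) (W : BdWorld) (g : ℝ) (hB : F.Base X W g)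
    (Q : BdQ F X) (hQ : Q.IsOpt W g) :
    BudMin (W.ps F.m) (F.b g) (F.h g) (budKb F X) (F.C X) F.Mj (deriv Q.al) := by
  obtain ⟨h1, _, h3⟩ := bud_dens_of_bdq X hX F hF Q
  refine ⟨h1, fun ρ' hρ' => ?_⟩
  obtain ⟨Q', _, hQ'⟩ := bud_bdq_of_dens X hX F hF hρ'
  rw [← bud_obj_eq X hX F hF W g hB Q (fun v hv => (h3 v hv).symm), ← bud_obj_eq X hX F hF W g hB Q' hQ']
  exact hQ Q'

/-- **EXIT N4a**: a minimiser of (C5) exists.   TEX[LL:bud:geometry] (l.153) -/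
theorem bud_n4_exists (X : BdFix) (hX : X.Ok) :
    ∃ N0 : ℕ, ∀ F : BdFr, F.Ok X → N0 ≤ F.N → ∀ (W : BdWorld) (g : ℝ), F.Base X W g →
      ∃ Q : BdQ F X, Q.IsOpt W g := by
  obtain ⟨N0, hN0⟩ := bud_loc_of_frame X hX
  refine ⟨N0, fun F hF hN W g hB => ?_⟩
  obtain ⟨ρ, hρ, hmin⟩ := bud_exists_min (hN0 F hF hN W g hB)
  obtain ⟨Q, _, hQ⟩ := bud_bdq_of_dens X hX F hF hρ
  refine ⟨Q, fun Q' => ?_⟩
  obtain ⟨h1, _, h3⟩ := bud_dens_of_bdq X hX F hF Q'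
  rw [bud_obj_eq X hX F hF W g hB Q hQ, bud_obj_eq X hX F hF W g hB Q' (fun v hv => (h3 v hv).symm)]
  exact hmin _ h1

/-! ### dictionary -/

theorem bud_n4_al (X : BdFix) (hX : X.Ok) (F : BdFr) (hF : F.Ok X) (Q : BdQ F X) (W : BdWorld) (g c0 : ℝ) {r : ℝ}
    (hr : r ∈ Icc (0:ℝ) 1) : (budGeoQ Q W g c0).al r = Q.al r :=
  (bud_dens_of_bdq X hX F hF Q).2.1 r hr

theorem bud_n4_S (X : BdFix) (hX : X.Ok) (F : BdFr) (hF : F.Ok X) (Q : BdQ F X) (W : BdWorld) (g c0 : ℝ)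
    (hB : F.Base X W g) {r : ℝ}
    (hr : r ∈ Ioo (0:ℝ) 1) : (budGeoQ Q W g c0).S r = Q.Sq W g (Q.al r) := by
  obtain ⟨_, h2, h3⟩ := bud_dens_of_bdq X hX F hF Q
  have e : (W.ps F.m).S (Q.bq g) (Q.hq g)
      = (W.ps F.m).S (budCb (F.b g) (F.C X) (deriv Q.al)) (budCh (F.h g) (F.C X) (deriv Q.al)) := by
    apply (W.ps F.m).S_congr
    · rw [hB.a1]; exact bud_gb_bq_eq Q g (fun v hv => (h3 v hv).symm)
    · rw [hB.a1]; exact bud_gb_hq_eq Q g (fun v hv => (h3 v hv).symm)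
  show budSr (W.ps F.m) (F.b g) (F.h g) (F.C X) (deriv Q.al) r = _
  unfold budSr BdQ.Sq
  rw [if_neg (not_le.2 hr.1), if_neg (not_le.2 hr.2), e, h2 r (Ioo_subset_Icc_self hr)]

theorem bud_n4_B (X : BdFix) (hX : X.Ok) (F : BdFr) (hF : F.Ok X) (Q : BdQ F X) (W : BdWorld) (g c0 : ℝ)
    (hB : F.Base X W g) {r : ℝ}
    (hr : r ∈ Ioo (0:ℝ) 1) : (budGeoQ Q W g c0).B r = Q.Bq W g (Q.al r) := by
  obtain ⟨_, h2, h3⟩ := bud_dens_of_bdq X hX F hF Q
  have e : (W.ps F.m).B (Q.bq g) (Q.hq g)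
      = (W.ps F.m).B (budCb (F.b g) (F.C X) (deriv Q.al)) (budCh (F.h g) (F.C X) (deriv Q.al)) := by
    apply (W.ps F.m).B_congr
    · rw [hB.a1]; exact bud_gb_bq_eq Q g (fun v hv => (h3 v hv).symm)
    · rw [hB.a1]; exact bud_gb_hq_eq Q g (fun v hv => (h3 v hv).symm)
  show budBr' (W.ps F.m) (F.b g) (F.h g) (F.C X) (deriv Q.al) r = _
  unfold budBr' BdQ.Bq
  rw [if_neg (not_le.2 hr.1), if_neg (not_le.2 hr.2), e, h2 r (Ioo_subset_Icc_self hr)]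

theorem bud_n4_D (X : BdFix) (hX : X.Ok) (F : BdFr) (hF : F.Ok X) (Q : BdQ F X) (W : BdWorld) (g c0 : ℝ)
    (hB : F.Base X W g) {r : ℝ}
    (hr : r ∈ Ioo (0:ℝ) 1) : (budGeoQ Q W g c0).D r = Q.Dq W g (Q.al r) := by
  unfold BudGeo.D BdQ.Dq BdQ.Dq2
  rw [bud_n4_S X hX F hF Q W g c0 hB hr, bud_n4_B X hX F hF Q W g c0 hB hr]

/-- the removal is constant on `[0, min (cd³ u) 1]` (`cmF = 1` on `[0,1]`, argument `C0 r/d_PE³ = r/(cd³ u)`) -/
theorem bud_n4_flat (X : BdFix) (hX : X.Ok) (F : BdFr) (hF : F.Ok X) (Q : BdQ F X) (W : BdWorld) (g c0 : ℝ) :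
    (budGeoQ Q W g c0).Flat (min (X.cd ^ 3 * F.u) 1) F.C0 := by
  refine ⟨min_le_right _ _, bud_gb_C0_pos hX hF, fun r hr => ?_, fun r hr => ?_⟩
  · exact bud_gb_C_flat hX hF (hr.2.trans (min_le_left _ _))
  · show budP (F.C X) (budCp F X) r = 0
    rw [bud_gb_P X hX F hF, bud_gb_pC_zero hX hF (hr.2.trans (min_le_left _ _))]

/-- **EXIT N4**: potential and geometry of EVERY minimiser.   TEX[LL:bud:geometry] -/
theorem bud_n4_geo (X : BdFix) (hX : X.Ok) :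
    ∃ N0 : ℕ, ∀ F : BdFr, F.Ok X → N0 ≤ F.N → ∀ (W : BdWorld) (g : ℝ), F.Base X W g →
      ∀ Q : BdQ F X, Q.IsOpt W g →
        ∃ c0 : ℝ, (budGeoQ Q W g c0).Ok ∧ Q.IsPot W g (budGeoQ Q W g c0).H := by
  obtain ⟨N0, hN0⟩ := bud_loc_of_frame X hX
  refine ⟨N0, fun F hF hN W g hB Q hQ => ?_⟩
  obtain ⟨c0, hc0⟩ := bud_geometry (hN0 F hF hN W g hB) (bud_min_of_opt X hX F hF W g hB Q hQ)
  have hOk : (budGeoQ Q W g c0).Ok := hc0
  obtain ⟨h1, h2, _⟩ := bud_dens_of_bdq X hX F hF Q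
  have hbox := bud_gb_box hX hF
  have hsub : ∀ r1 r2 : ℝ, 0 ≤ r1 → r1 ≤ r2 → r2 ≤ 1 → Q.al r2 - Q.al r1 = ∫ r in r1..r2, deriv Q.al r := by
    intro r1 r2 h0 h12 h21
    rw [← h2 r1 ⟨h0, h12.trans h21⟩, ← h2 r2 ⟨h0.trans h12, h21⟩]
    exact budAl_sub hbox h1 ⟨h0, h12.trans h21⟩ ⟨h0.trans h12, h21⟩
  have hIoo : ∀ r1 r2 : ℝ, ∀ᵐ r ∂(volume : Measure ℝ), r ∈ uIoc r1 r2 → r ≠ r1 ∧ r ≠ r2 := by
    intro r1 r2
    have a1 : ∀ᵐ r ∂(volume : Measure ℝ), r ≠ r1 := by simp [ae_iff, measure_singleton]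
    have a2 : ∀ᵐ r ∂(volume : Measure ℝ), r ≠ r2 := by simp [ae_iff, measure_singleton]
    filter_upwards [a1, a2] with r b1 b2 _
    exact ⟨b1, b2⟩
  refine ⟨c0, hOk, ⟨fun r1 hr1 r2 hr2 => ?_, fun r1 r2 h0 h12 h21 hH => ?_, fun r1 r2 h0 h12 h21 hH => ?_⟩⟩
  · rw [BudGeo.H_sub hOk hr1 hr2]
    apply intervalIntegral.integral_congr_ae
    have a0 : ∀ᵐ r ∂(volume : Measure ℝ), r ≠ 0 := by simp [ae_iff, measure_singleton]
    have a1 : ∀ᵐ r ∂(volume : Measure ℝ), r ≠ 1 := by simp [ae_iff, measure_singleton]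
    filter_upwards [a0, a1] with r b0 b1 hr
    have hr' : r ∈ Icc (0:ℝ) 1 := by
      have := uIoc_subset_uIcc hr
      rcases le_total r1 r2 with h | h
      · rw [uIcc_of_le h] at this; exact ⟨hr1.1.trans this.1, this.2.trans hr2.2⟩
      · rw [uIcc_of_ge h] at this; exact ⟨hr2.1.trans this.1, this.2.trans hr1.2⟩
    have hr'' : r ∈ Ioo (0:ℝ) 1 := ⟨lt_of_le_of_ne hr'.1 (Ne.symm b0), lt_of_le_of_ne hr'.2 b1⟩
    unfold BudGeo.G
    rw [bud_n4_S X hX F hF Q W g c0 hB hr'', bud_n4_B X hX F hF Q W g c0 hB hr'']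
    show F.C X r * budBr (budP (F.C X) (budCp F X) r) r _ _ = _
    rw [bud_gb_P X hX F hF]
    rfl
  · rw [hsub r1 r2 h0 h12 h21]
    have e : ∫ r in r1..r2, deriv Q.al r = ∫ _r in r1..r2, F.Mj := by
      apply intervalIntegral.integral_congr_ae
      filter_upwards [hOk.cap, hIoo r1 r2] with r hcap hne hr
      rw [uIoc_of_le h12] at hr
      have hr2 : r ∈ Ioo r1 r2 := ⟨hr.1, lt_of_le_of_ne hr.2 (hne (by rw [uIoc_of_le h12]; exact hr)).2⟩
      exact hcap ⟨lt_of_le_of_lt h0 hr2.1, lt_of_lt_of_le hr2.2 h21⟩ (hH r hr2)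
    rw [e, intervalIntegral.integral_const, smul_eq_mul, mul_comm]
  · rw [hsub r1 r2 h0 h12 h21, ← bud_gb_int_Kb F X h0 h12 h21]
    apply intervalIntegral.integral_congr_ae
    filter_upwards [hOk.floor, hIoo r1 r2] with r hfl hne hr
    rw [uIoc_of_le h12] at hr
    have hr2 : r ∈ Ioo r1 r2 := ⟨hr.1, lt_of_le_of_ne hr.2 (hne (by rw [uIoc_of_le h12]; exact hr)).2⟩
    exact hfl ⟨lt_of_le_of_lt h0 hr2.1, lt_of_lt_of_le hr2.2 h21⟩ (hH r hr2)

end Claimed.Agent.R286
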