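import Claimed.Agent.R286.Bud.PSys

/-!
# Row 286, LL sec. 7 (budgets): square interpolation and the `L¹`-Lipschitz bound of an abstract
pressure system

`bud_sqInterp : P.SqInterp` and `bud_lipL1 : P.LipL1`, both from `PSys.seg_le`.
-/

set_option autoImplicit false

namespace Claimed.Agent.R286

open MeasureTheory Set Filter Topology

/-- a monotone function on `(0,a)` is a.e. strongly measurable there -/
theorem bud_aesm_of_monoOn {a : ℝ} {g : ℝ → ℝ} (hm : MonotoneOn g (Ioo 0 a)) :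
    AEStronglyMeasurable g (volume.restrict (Ioo 0 a)) :=
  (aemeasurable_restrict_of_monotoneOn measurableSet_Ioo hm).aestronglyMeasurable

/-- a bounded monotone function on `(0,a)` is integrable there -/
theorem bud_integrableOn_of_monoOn {a C : ℝ} {g : ℝ → ℝ} (hm : MonotoneOn g (Ioo 0 a))
    (hb : ∀ v ∈ Ioo 0 a, |g v| ≤ C) : IntegrableOn g (Ioo 0 a) := by
  have h1 : IntegrableOn (fun _ : ℝ => (1:ℝ)) (Ioo 0 a) := integrableOn_const measure_Ioo_lt_top.ne
  have h2 : IntegrableOn (fun v => g v * 1) (Ioo 0 a) := by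
    refine Integrable.bdd_mul (c := C) h1 (bud_aesm_of_monoOn hm) ?_
    exact (ae_restrict_iff' measurableSet_Ioo).2 (Eventually.of_forall fun v hv => by
      simpa [Real.norm_eq_abs] using hb v hv)
  simpa using h2

/-- a clock is integrable -/
theorem IsClock.integrableOn {a : ℝ} {c : ℝ → ℝ} (h : IsClock a c) : IntegrableOn c (Ioo 0 a) := by
  obtain ⟨C, hC⟩ := h.bdd
  refine bud_integrableOn_of_monoOn (C := C) h.mono fun v hv => ?_
  rw [abs_of_nonneg (h.nonneg v hv)]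
  exact hC v hv

/-- bounded monotone times integrable is integrable -/
theorem bud_integrableOn_mul {a C : ℝ} {g φ : ℝ → ℝ} (hm : MonotoneOn g (Ioo 0 a))
    (hb : ∀ v ∈ Ioo 0 a, |g v| ≤ C) (hφ : IntegrableOn φ (Ioo 0 a)) :
    IntegrableOn (fun v => g v * φ v) (Ioo 0 a) := by
  refine Integrable.bdd_mul (c := C) hφ (bud_aesm_of_monoOn hm) ?_
  exact (ae_restrict_iff' measurableSet_Ioo).2 (Eventually.of_forall fun v hv => by
    simpa [Real.norm_eq_abs] using hb v hv)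

namespace PSys

variable (P : PSys)

theorem B_nonneg {b h : ℝ → ℝ} (hb : IsClock P.a b) (hh : IsClock P.a h) {v : ℝ}
    (hv : v ∈ Ioo 0 P.a) : 0 ≤ P.B b h v :=
  (sq_nonneg _).trans (P.S_sq_le b h hb hh v hv)

theorem B_abs_le {b h : ℝ → ℝ} (hb : IsClock P.a b) (hh : IsClock P.a h) {v : ℝ}
    (hv : v ∈ Ioo 0 P.a) : |P.B b h v| ≤ 1 := by
  rw [abs_of_nonneg (P.B_nonneg hb hh hv)]
  exact P.B_le b h hb hh v hv

theorem S_le_one {b h : ℝ → ℝ} (hb : IsClock P.a b) (hh : IsClock P.a h) {v : ℝ}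
    (hv : v ∈ Ioo 0 P.a) : P.S b h v ≤ 1 := by
  have h1 := (P.S_sq_le b h hb hh v hv).trans (P.B_le b h hb hh v hv)
  nlinarith [P.S_nonneg b h hb hh v hv]

theorem S_abs_le {b h : ℝ → ℝ} (hb : IsClock P.a b) (hh : IsClock P.a h) {v : ℝ}
    (hv : v ∈ Ioo 0 P.a) : |P.S b h v| ≤ 1 := by
  rw [abs_of_nonneg (P.S_nonneg b h hb hh v hv)]
  exact P.S_le_one hb hh hv

theorem integrableOn_B_mul {b h φ : ℝ → ℝ} (hb : IsClock P.a b) (hh : IsClock P.a h)
    (hφ : IntegrableOn φ (Ioo 0 P.a)) : IntegrableOn (fun v => P.B b h v * φ v) (Ioo 0 P.a) :=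
  bud_integrableOn_mul (C := 1) (P.B_mono b h hb hh) (fun _ hv => P.B_abs_le hb hh hv) hφ

theorem integrableOn_S_mul {b h φ : ℝ → ℝ} (hb : IsClock P.a b) (hh : IsClock P.a h)
    (hφ : IntegrableOn φ (Ioo 0 P.a)) : IntegrableOn (fun v => P.S b h v * φ v) (Ioo 0 P.a) :=
  bud_integrableOn_mul (C := 1) (P.S_mono b h hb hh) (fun _ hv => P.S_abs_le hb hh hv) hφ

/-- `|∫ B φ| ≤ ∫ |φ|` -/
theorem abs_integral_B_mul_le {b h φ : ℝ → ℝ} (hb : IsClock P.a b) (hh : IsClock P.a h)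
    (hφ : IntegrableOn φ (Ioo 0 P.a)) :
    |∫ v in Ioo 0 P.a, P.B b h v * φ v| ≤ ∫ v in Ioo 0 P.a, |φ v| := by
  refine (abs_integral_le_integral_abs).trans ?_
  refine setIntegral_mono_on (P.integrableOn_B_mul hb hh hφ).abs hφ.abs measurableSet_Ioo ?_
  intro v hv
  rw [abs_mul]
  exact mul_le_of_le_one_left (abs_nonneg _) (P.B_abs_le hb hh hv)

/-- `|∫ S φ| ≤ ∫ |φ|` -/
theorem abs_integral_S_mul_le {b h φ : ℝ → ℝ} (hb : IsClock P.a b) (hh : IsClock P.a h)
    (hφ : IntegrableOn φ (Ioo 0 P.a)) :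
    |∫ v in Ioo 0 P.a, P.S b h v * φ v| ≤ ∫ v in Ioo 0 P.a, |φ v| := by
  refine (abs_integral_le_integral_abs).trans ?_
  refine setIntegral_mono_on (P.integrableOn_S_mul hb hh hφ).abs hφ.abs measurableSet_Ioo ?_
  intro v hv
  rw [abs_mul]
  exact mul_le_of_le_one_left (abs_nonneg _) (P.S_abs_le hb hh hv)

/-- the derivative along a segment is bounded by the `L¹` distance of the end points -/
theorem abs_dseg_le {b0 h0 b1 h1 : ℝ → ℝ} (hb0 : IsClock P.a b0) (hh0 : IsClock P.a h0)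
    (hb1 : IsClock P.a b1) (hh1 : IsClock P.a h1) {t : ℝ} (ht : t ∈ Icc (0:ℝ) 1) :
    |P.dseg b0 h0 b1 h1 t| ≤ (1/4) * (∫ v in Ioo 0 P.a, |b1 v - b0 v|)
      + (1/2) * (∫ v in Ioo 0 P.a, |h1 v - h0 v|) := by
  have hbt := hb0.clerp hb1 ht
  have hht := hh0.clerp hh1 ht
  have h1 := P.abs_integral_B_mul_le hbt hht (hb1.integrableOn.sub hb0.integrableOn)
  have h2 := P.abs_integral_S_mul_le hbt hht (hh1.integrableOn.sub hh0.integrableOn)
  simp only [Pi.sub_apply] at h1 h2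
  unfold dseg
  rw [abs_le] at h1 h2 ⊢
  constructor <;> linarith [h1.1, h1.2, h2.1, h2.2]

end PSys

/-- **`L¹`-Lipschitz bound** of the pressure (PE Lemma 2.2) -/
theorem bud_lipL1 (P : PSys) : P.LipL1 := by
  intro b0 h0 b1 h1 hb0 hh0 hb1 hh1
  have hA : P.f b0 h0 ≤ P.f b1 h1 + ((1/4) * (∫ v in Ioo 0 P.a, |b1 v - b0 v|)
      + (1/2) * (∫ v in Ioo 0 P.a, |h1 v - h0 v|)) := by
    refine P.seg_le hb0 hh0 hb1 hh1 fun t ht => ?_
    have := (abs_le.1 (P.abs_dseg_le hb0 hh0 hb1 hh1 ht)).1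
    linarith
  have hB : P.f b1 h1 ≤ P.f b0 h0 + ((1/4) * (∫ v in Ioo 0 P.a, |b0 v - b1 v|)
      + (1/2) * (∫ v in Ioo 0 P.a, |h0 v - h1 v|)) := by
    refine P.seg_le hb1 hh1 hb0 hh0 fun t ht => ?_
    have := (abs_le.1 (P.abs_dseg_le hb1 hh1 hb0 hh0 ht)).1
    linarith
  simp only [abs_sub_comm (b0 _) (b1 _), abs_sub_comm (h0 _) (h1 _)] at hB
  rw [abs_le]
  constructor <;> linarith

/-- the completed square: `∫ e (B - 2 ρ S + ρ²) ≥ ∫ e (S - ρ)² ≥ 0` -/
theorem PSys.sq_key (P : PSys) {b h e ρ : ℝ → ℝ} (hb : IsClock P.a b) (hh : IsClock P.a h)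
    (he : ∀ v ∈ Ioo 0 P.a, 0 ≤ e v) (hie : IntegrableOn e (Ioo 0 P.a))
    (hier : IntegrableOn (fun v => e v * ρ v) (Ioo 0 P.a))
    (hint : IntegrableOn (fun v => e v * ρ v ^ 2) (Ioo 0 P.a)) :
    0 ≤ (∫ v in Ioo 0 P.a, P.B b h v * e v) - 2 * (∫ v in Ioo 0 P.a, P.S b h v * (e v * ρ v))
        + ∫ v in Ioo 0 P.a, e v * ρ v ^ 2 := by
  have hiB := P.integrableOn_B_mul hb hh hie
  have hiS := P.integrableOn_S_mul hb hh hier
  have key : 0 ≤ ∫ v in Ioo 0 P.a,
      (P.B b h v * e v - 2 * (P.S b h v * (e v * ρ v)) + e v * ρ v ^ 2) := by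
    refine setIntegral_nonneg measurableSet_Ioo fun v hv => ?_
    have h1 := P.S_sq_le b h hb hh v hv
    have h2 := he v hv
    have h3 : 0 ≤ e v * (P.B b h v - P.S b h v ^ 2) := mul_nonneg h2 (by linarith)
    have h4 : 0 ≤ e v * (P.S b h v - ρ v) ^ 2 := mul_nonneg h2 (sq_nonneg _)
    nlinarith
  have hsplit : (∫ v in Ioo 0 P.a,
      (P.B b h v * e v - 2 * (P.S b h v * (e v * ρ v)) + e v * ρ v ^ 2))
      = (∫ v in Ioo 0 P.a, P.B b h v * e v) - 2 * (∫ v in Ioo 0 P.a, P.S b h v * (e v * ρ v))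
        + ∫ v in Ioo 0 P.a, e v * ρ v ^ 2 := by
    have h1 := integral_add (hiB.sub (hiS.const_mul 2)) hint
    have h2 := integral_sub hiB (hiS.const_mul 2)
    have h3 : (∫ v in Ioo 0 P.a, 2 * (P.S b h v * (e v * ρ v)))
        = 2 * ∫ v in Ioo 0 P.a, P.S b h v * (e v * ρ v) := integral_const_mul _ _
    simp only [Pi.sub_apply] at h1
    rw [h1, h2, h3]
  rw [hsplit] at key
  exact key

/-- **Square interpolation** (Guerra bound) -/
theorem bud_sqInterp (P : PSys) : P.SqInterp := by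
  intro b h e ρ hb hh hb1 hh1 he hint
  refine P.seg_le hb hh hb1 hh1 fun t ht => ?_
  have hbt := hb.clerp hb1 ht
  have hht := hh.clerp hh1 ht
  have hie : IntegrableOn e (Ioo 0 P.a) := by
    have := hb.integrableOn.sub hb1.integrableOn
    refine this.congr (Eventually.of_forall fun v => ?_)
    simp
  have hier : IntegrableOn (fun v => e v * ρ v) (Ioo 0 P.a) := by
    have := hh1.integrableOn.sub hh.integrableOn
    refine this.congr (Eventually.of_forall fun v => ?_)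
    simp
  have key := P.sq_key hbt hht he hie hier hint
  unfold PSys.dseg
  have e1 : ∀ B : ℝ → ℝ, (∫ v in Ioo 0 P.a, B v * (b v - e v - b v))
      = -∫ v in Ioo 0 P.a, B v * e v := by
    intro B
    rw [← integral_neg]
    refine integral_congr_ae (Eventually.of_forall fun v => ?_)
    simp only []
    ring
  have e2 : ∀ S : ℝ → ℝ, (∫ v in Ioo 0 P.a, S v * (h v + e v * ρ v - h v))
      = ∫ v in Ioo 0 P.a, S v * (e v * ρ v) := by
    intro S
    refine integral_congr_ae (Eventually.of_forall fun v => ?_)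
    simp only []
    ring
  rw [e1, e2]
  linarith

end Claimed.Agent.R286
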