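import Claimed.Agent.R286.Bud.GeoDefs
import Claimed.Agent.R286.Bud.PSysA
import Claimed.Agent.R286.Lib.Helly
import Claimed.Agent.R286.Lib.MonoKit

/-!
# Row 286, N4a/b: calculus of quantiles of a density box   (head helper109; proofs helper7, 0 sorry)
Standing: `kmin ≤ kb`, `0 < kmin`, `ρ` in the box.  `α = budAl ρ` is bi-Lipschitz `[0,1] → [0,1]`, `budQ ρ` is its inverse.
Extra API: `budAl_strictMonoOn`, `budAl_mem_Icc`, `budQ_mem_Icc`, `budAl_surj`, `budAl_abs_sub_le`, `budAl_slope_kb`, `BudDens.ae_bounds`,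
`bud_map` (`α` pushes `ρ dr` to Lebesgue measure), `bud_transport_one`, `bud_dens_of_slopes` (slopes in the box => `deriv g` is a density of the box).
-/

set_option autoImplicit false

open MeasureTheory Set Filter Topology

namespace Claimed.Agent.R286

/-- hypotheses on the box used in this file -/
structure BudBoxOk (kb : ℝ → ℝ) (M kmin : ℝ) : Prop where
  kbm : Measurable kb
  kmin0 : 0 < kmin
  kb_ge : ∀ r, kmin ≤ kb r
  kb_le : ∀ r, kb r ≤ M

variable {kb : ℝ → ℝ} {M kmin : ℝ} {ρ ρ' : ℝ → ℝ}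

theorem BudDens.intervalIntegrable (hB : BudBoxOk kb M kmin) (hρ : BudDens kb M ρ) {s t : ℝ}
    (hs : s ∈ Icc (0:ℝ) 1) (ht : t ∈ Icc (0:ℝ) 1) : IntervalIntegrable ρ volume s t := by
  have h01 : IntervalIntegrable ρ volume 0 1 :=
    intervalIntegral.intervalIntegrable_of_integral_ne_zero (by rw [hρ.mass]; exact one_ne_zero)
  exact h01.mono_set (by rw [uIcc_of_le zero_le_one]; exact uIcc_subset_Icc hs ht)

/-- the a.e. bounds on the closed interval -/
theorem BudDens.ae_bounds (hB : BudBoxOk kb M kmin) (hρ : BudDens kb M ρ) :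
    ∀ᵐ r ∂(volume : Measure ℝ), r ∈ Icc (0:ℝ) 1 → kb r ≤ ρ r ∧ ρ r ≤ M := by
  have h0 : ∀ᵐ r ∂(volume : Measure ℝ), r ≠ 0 := by simp [ae_iff, measure_singleton]
  have h1 : ∀ᵐ r ∂(volume : Measure ℝ), r ≠ 1 := by simp [ae_iff, measure_singleton]
  filter_upwards [hρ.lo, hρ.hi, h0, h1] with r ha hb h0 h1 hr
  have : r ∈ Ioo (0:ℝ) 1 := ⟨lt_of_le_of_ne hr.1 (Ne.symm h0), lt_of_le_of_ne hr.2 h1⟩
  exact ⟨ha this, hb this⟩

theorem budAl_sub (hB : BudBoxOk kb M kmin) (hρ : BudDens kb M ρ) {s t : ℝ}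
    (hs : s ∈ Icc (0:ℝ) 1) (ht : t ∈ Icc (0:ℝ) 1) : budAl ρ t - budAl ρ s = ∫ r in s..t, ρ r := by
  unfold budAl
  exact intervalIntegral.integral_interval_sub_left
    (hρ.intervalIntegrable hB (left_mem_Icc.2 zero_le_one) ht)
    (hρ.intervalIntegrable hB (left_mem_Icc.2 zero_le_one) hs)

/-- sharper lower slope: the floor itself -/
theorem budAl_slope_kb (hB : BudBoxOk kb M kmin) (hρ : BudDens kb M ρ) {s t : ℝ} (hs : 0 ≤ s)
    (hst : s ≤ t) (ht : t ≤ 1) : ∫ r in s..t, kb r ≤ budAl ρ t - budAl ρ s := by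
  have hs' : s ∈ Icc (0:ℝ) 1 := ⟨hs, hst.trans ht⟩
  have ht' : t ∈ Icc (0:ℝ) 1 := ⟨hs.trans hst, ht⟩
  rw [budAl_sub hB hρ hs' ht']
  have hsub : Icc s t ⊆ Icc (0:ℝ) 1 := Icc_subset_Icc hs ht
  have hkb : IntervalIntegrable kb volume s t := by
    rw [intervalIntegrable_iff]
    refine Measure.integrableOn_of_bounded (M := max |kmin| |M|) (by simp)
      hB.kbm.aestronglyMeasurable (Eventually.of_forall fun r => ?_)
    rw [Real.norm_eq_abs]
    exact abs_le_max_abs_abs (hB.kb_ge r) (hB.kb_le r)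
  refine intervalIntegral.integral_mono_ae_restrict hst hkb (hρ.intervalIntegrable hB hs' ht') ?_
  rw [EventuallyLE, ae_restrict_iff' measurableSet_Icc]
  filter_upwards [hρ.ae_bounds hB] with r hr hrm
  exact (hr (hsub hrm)).1

theorem budAl_slope (hB : BudBoxOk kb M kmin) (hρ : BudDens kb M ρ) {s t : ℝ} (hs : 0 ≤ s) (hst : s ≤ t)
    (ht : t ≤ 1) : kmin * (t - s) ≤ budAl ρ t - budAl ρ s ∧ budAl ρ t - budAl ρ s ≤ M * (t - s) := by
  have hs' : s ∈ Icc (0:ℝ) 1 := ⟨hs, hst.trans ht⟩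
  have ht' : t ∈ Icc (0:ℝ) 1 := ⟨hs.trans hst, ht⟩
  rw [budAl_sub hB hρ hs' ht']
  have hsub : Icc s t ⊆ Icc (0:ℝ) 1 := Icc_subset_Icc hs ht
  have hint := hρ.intervalIntegrable hB hs' ht'
  constructor
  · have : ∫ _r in s..t, kmin ≤ ∫ r in s..t, ρ r := by
      refine intervalIntegral.integral_mono_ae_restrict hst intervalIntegrable_const hint ?_
      rw [EventuallyLE, ae_restrict_iff' measurableSet_Icc]
      filter_upwards [hρ.ae_bounds hB] with r hr hrm
      exact (hB.kb_ge r).trans (hr (hsub hrm)).1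
    rw [intervalIntegral.integral_const, smul_eq_mul] at this
    linarith
  · have : ∫ r in s..t, ρ r ≤ ∫ _r in s..t, M := by
      refine intervalIntegral.integral_mono_ae_restrict hst hint intervalIntegrable_const ?_
      rw [EventuallyLE, ae_restrict_iff' measurableSet_Icc]
      filter_upwards [hρ.ae_bounds hB] with r hr hrm
      exact (hr (hsub hrm)).2
    rw [intervalIntegral.integral_const, smul_eq_mul] at this
    linarith

theorem budAl_zero (ρ : ℝ → ℝ) : budAl ρ 0 = 0 := by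
  simp [budAl]

theorem budAl_one (hρ : BudDens kb M ρ) : budAl ρ 1 = 1 := hρ.mass

theorem budAl_strictMonoOn (hB : BudBoxOk kb M kmin) (hρ : BudDens kb M ρ) :
    StrictMonoOn (budAl ρ) (Icc 0 1) := by
  intro s hs t ht hst
  have := (budAl_slope hB hρ hs.1 hst.le ht.2).1
  have h2 : 0 < kmin * (t - s) := mul_pos hB.kmin0 (by linarith)
  linarith

theorem budAl_mem (hB : BudBoxOk kb M kmin) (hρ : BudDens kb M ρ) {r : ℝ} (hr : r ∈ Ioo (0:ℝ) 1) :
    budAl ρ r ∈ Ioo (0:ℝ) 1 := by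
  have h0 := budAl_strictMonoOn hB hρ (left_mem_Icc.2 zero_le_one) (Ioo_subset_Icc_self hr) hr.1
  have h1 := budAl_strictMonoOn hB hρ (Ioo_subset_Icc_self hr) (right_mem_Icc.2 zero_le_one) hr.2
  rw [budAl_zero] at h0
  rw [budAl_one hρ] at h1
  exact ⟨h0, h1⟩

theorem budAl_mem_Icc (hB : BudBoxOk kb M kmin) (hρ : BudDens kb M ρ) {r : ℝ}
    (hr : r ∈ Icc (0:ℝ) 1) : budAl ρ r ∈ Icc (0:ℝ) 1 := by
  have hm := (budAl_strictMonoOn hB hρ).monotoneOn
  have h0 := hm (left_mem_Icc.2 zero_le_one) hr hr.1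
  have h1 := hm hr (right_mem_Icc.2 zero_le_one) hr.2
  rw [budAl_zero] at h0
  rw [budAl_one hρ] at h1
  exact ⟨h0, h1⟩

theorem budAl_abs_sub_le (hB : BudBoxOk kb M kmin) (hρ : BudDens kb M ρ) {s t : ℝ}
    (hs : s ∈ Icc (0:ℝ) 1) (ht : t ∈ Icc (0:ℝ) 1) :
    kmin * |t - s| ≤ |budAl ρ t - budAl ρ s| ∧ |budAl ρ t - budAl ρ s| ≤ M * |t - s| := by
  rcases le_total s t with h | h
  · have := budAl_slope hB hρ hs.1 h ht.2
    have h0 : 0 ≤ kmin * (t - s) := mul_nonneg hB.kmin0.le (by linarith)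
    rw [abs_of_nonneg (by linarith : 0 ≤ t - s),
      abs_of_nonneg (by linarith : 0 ≤ budAl ρ t - budAl ρ s)]
    exact this
  · have := budAl_slope hB hρ ht.1 h hs.2
    have h0 : 0 ≤ kmin * (s - t) := mul_nonneg hB.kmin0.le (by linarith)
    rw [abs_sub_comm t s, abs_sub_comm (budAl ρ t), abs_of_nonneg (by linarith : 0 ≤ s - t),
      abs_of_nonneg (by linarith : 0 ≤ budAl ρ s - budAl ρ t)]
    exact this

theorem budAl_cont (hB : BudBoxOk kb M kmin) (hρ : BudDens kb M ρ) : ContinuousOn (budAl ρ) (Icc 0 1) := by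
  have hM : 0 ≤ M := hB.kmin0.le.trans ((hB.kb_ge 0).trans (hB.kb_le 0))
  have : LipschitzOnWith (Real.toNNReal M) (budAl ρ) (Icc 0 1) := by
    refine LipschitzOnWith.of_dist_le_mul fun x hx y hy => ?_
    rw [Real.dist_eq, Real.dist_eq, Real.coe_toNNReal _ hM]
    exact (budAl_abs_sub_le hB hρ hy hx).2
  exact this.continuousOn

theorem budQ_al (hB : BudBoxOk kb M kmin) (hρ : BudDens kb M ρ) {r : ℝ} (hr : r ∈ Icc (0:ℝ) 1) :
    budQ ρ (budAl ρ r) = r := by
  unfold budQ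
  have : {r' ∈ Icc (0:ℝ) 1 | budAl ρ r' ≤ budAl ρ r} = Icc 0 r := by
    ext x
    constructor
    · rintro ⟨hx, hle⟩
      exact ⟨hx.1, ((budAl_strictMonoOn hB hρ).le_iff_le hx hr).1 hle⟩
    · intro hx
      have hx' : x ∈ Icc (0:ℝ) 1 := ⟨hx.1, hx.2.trans hr.2⟩
      exact ⟨hx', ((budAl_strictMonoOn hB hρ).le_iff_le hx' hr).2 hx.2⟩
  rw [this, csSup_Icc hr.1]

/-- surjectivity -/
theorem budAl_surj (hB : BudBoxOk kb M kmin) (hρ : BudDens kb M ρ) {v : ℝ} (hv : v ∈ Icc (0:ℝ) 1) :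
    ∃ r ∈ Icc (0:ℝ) 1, budAl ρ r = v := by
  have := intermediate_value_Icc zero_le_one (budAl_cont hB hρ)
  rw [budAl_zero, budAl_one hρ] at this
  obtain ⟨r, hr, h⟩ := this hv
  exact ⟨r, hr, h⟩

theorem budQ_mem_Icc (hB : BudBoxOk kb M kmin) (hρ : BudDens kb M ρ) {v : ℝ} (hv : v ∈ Icc (0:ℝ) 1) :
    budQ ρ v ∈ Icc (0:ℝ) 1 := by
  obtain ⟨r, hr, rfl⟩ := budAl_surj hB hρ hv
  rw [budQ_al hB hρ hr]; exact hr

theorem budAl_Q (hB : BudBoxOk kb M kmin) (hρ : BudDens kb M ρ) {v : ℝ} (hv : v ∈ Icc (0:ℝ) 1) :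
    budAl ρ (budQ ρ v) = v := by
  obtain ⟨r, hr, rfl⟩ := budAl_surj hB hρ hv
  rw [budQ_al hB hρ hr]

/-- `s < r(v) ↔ α(s) < v` -/
theorem lt_budQ_iff (hB : BudBoxOk kb M kmin) (hρ : BudDens kb M ρ) {s v : ℝ} (hs : s ∈ Icc (0:ℝ) 1)
    (hv : v ∈ Icc (0:ℝ) 1) : s < budQ ρ v ↔ budAl ρ s < v := by
  obtain ⟨r, hr, rfl⟩ := budAl_surj hB hρ hv
  rw [budQ_al hB hρ hr]
  exact ((budAl_strictMonoOn hB hρ).lt_iff_lt hs hr).symm

theorem budQ_mem (hB : BudBoxOk kb M kmin) (hρ : BudDens kb M ρ) {v : ℝ} (hv : v ∈ Ioo (0:ℝ) 1) :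
    budQ ρ v ∈ Ioo (0:ℝ) 1 := by
  have hv' := Ioo_subset_Icc_self hv
  have hq := budQ_mem_Icc hB hρ hv'
  refine ⟨(lt_budQ_iff hB hρ (left_mem_Icc.2 zero_le_one) hv').2 (by rw [budAl_zero]; exact hv.1), ?_⟩
  refine lt_of_le_of_ne hq.2 fun h => ?_
  have := budAl_Q hB hρ hv'
  rw [h, budAl_one hρ] at this
  exact absurd this.symm hv.2.ne

theorem budQ_mono (hB : BudBoxOk kb M kmin) (hρ : BudDens kb M ρ) : MonotoneOn (budQ ρ) (Icc 0 1) := by
  intro v hv w hw hvw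
  obtain ⟨r, hr, rfl⟩ := budAl_surj hB hρ hv
  obtain ⟨r', hr', rfl⟩ := budAl_surj hB hρ hw
  rw [budQ_al hB hρ hr, budQ_al hB hρ hr']
  exact ((budAl_strictMonoOn hB hρ).le_iff_le hr hr').1 hvw

theorem budQ_lip (hB : BudBoxOk kb M kmin) (hρ : BudDens kb M ρ) {v w : ℝ} (hv : v ∈ Icc (0:ℝ) 1)
    (hw : w ∈ Icc (0:ℝ) 1) : |budQ ρ v - budQ ρ w| ≤ |v - w| / kmin := by
  obtain ⟨r, hr, rfl⟩ := budAl_surj hB hρ hv
  obtain ⟨r', hr', rfl⟩ := budAl_surj hB hρ hw
  rw [budQ_al hB hρ hr, budQ_al hB hρ hr', le_div_iff₀ hB.kmin0, mul_comm]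
  exact (budAl_abs_sub_le hB hρ hr' hr).1

/-- stability of the quantile -/
theorem budQ_stab (hB : BudBoxOk kb M kmin) (hρ : BudDens kb M ρ) (hρ' : BudDens kb M ρ') {e : ℝ}
    (he : ∀ r ∈ Icc (0:ℝ) 1, |budAl ρ' r - budAl ρ r| ≤ e) {v : ℝ} (hv : v ∈ Icc (0:ℝ) 1) :
    |budQ ρ' v - budQ ρ v| ≤ e / kmin := by
  have hq := budQ_mem_Icc hB hρ hv
  have hq' := budQ_mem_Icc hB hρ' hv
  rw [le_div_iff₀ hB.kmin0, mul_comm]
  refine (budAl_abs_sub_le hB hρ hq hq').1.trans ?_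
  rw [budAl_Q hB hρ hv]
  have := he _ hq'
  rw [budAl_Q hB hρ' hv] at this
  rwa [abs_sub_comm]

/-- the box is convex -/
theorem BudDens.lerp (hB : BudBoxOk kb M kmin) (hρ : BudDens kb M ρ) (hρ' : BudDens kb M ρ') {t : ℝ}
    (ht : t ∈ Icc (0:ℝ) 1) : BudDens kb M (fun r => ρ r + t * (ρ' r - ρ r)) := by
  have h0 : (0:ℝ) ∈ Icc (0:ℝ) 1 := left_mem_Icc.2 zero_le_one
  have h1 : (1:ℝ) ∈ Icc (0:ℝ) 1 := right_mem_Icc.2 zero_le_one
  refine ⟨hρ.meas.add ((hρ'.meas.sub hρ.meas).const_mul t), ?_, ?_, ?_⟩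
  · filter_upwards [hρ.lo, hρ'.lo] with r h h' hr
    nlinarith [h hr, h' hr, ht.1, ht.2]
  · filter_upwards [hρ.hi, hρ'.hi] with r h h' hr
    nlinarith [h hr, h' hr, ht.1, ht.2]
  · have i1 := hρ.intervalIntegrable hB h0 h1
    have i2 := hρ'.intervalIntegrable hB h0 h1
    rw [intervalIntegral.integral_add i1 ((i2.sub i1).const_mul t),
      intervalIntegral.integral_const_mul, intervalIntegral.integral_sub i2 i1, hρ.mass, hρ'.mass]
    ring

theorem budAl_lerp (hB : BudBoxOk kb M kmin) (hρ : BudDens kb M ρ) (hρ' : BudDens kb M ρ') (t : ℝ) {r : ℝ}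
    (hr : r ∈ Icc (0:ℝ) 1) :
    budAl (fun r => ρ r + t * (ρ' r - ρ r)) r = budAl ρ r + t * (budAl ρ' r - budAl ρ r) := by
  have h0 : (0:ℝ) ∈ Icc (0:ℝ) 1 := left_mem_Icc.2 zero_le_one
  have i1 := hρ.intervalIntegrable hB h0 hr
  have i2 := hρ'.intervalIntegrable hB h0 hr
  unfold budAl
  rw [intervalIntegral.integral_add i1 ((i2.sub i1).const_mul t),
    intervalIntegral.integral_const_mul, intervalIntegral.integral_sub i2 i1]

/-! ### change of variables -/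

/-- the measure `ρ dr` on `(0,1)` -/
noncomputable def budMu (ρ : ℝ → ℝ) : Measure ℝ :=
  (volume.restrict (Ioo (0:ℝ) 1)).withDensity (fun r => ENNReal.ofReal (ρ r))

theorem budMu_Ioc (hB : BudBoxOk kb M kmin) (hρ : BudDens kb M ρ) {c : ℝ} (hc : c ∈ Icc (0:ℝ) 1) :
    ∫⁻ r in Ioc 0 c, ENNReal.ofReal (ρ r) = ENNReal.ofReal (budAl ρ c) := by
  have hint := hρ.intervalIntegrable hB (left_mem_Icc.2 zero_le_one) hc
  rw [intervalIntegrable_iff_integrableOn_Ioc_of_le hc.1] at hint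
  unfold budAl
  rw [intervalIntegral.integral_of_le hc.1, ofReal_integral_eq_lintegral_ofReal hint]
  rw [EventuallyLE, ae_restrict_iff' measurableSet_Ioc]
  filter_upwards [hρ.ae_bounds hB] with r hr hrm
  exact hB.kmin0.le.trans ((hB.kb_ge r).trans (hr ⟨hrm.1.le, hrm.2.trans hc.2⟩).1)

theorem budAl_aemeasurable (hB : BudBoxOk kb M kmin) (hρ : BudDens kb M ρ) :
    AEMeasurable (budAl ρ) (budMu ρ) :=
  (((budAl_cont hB hρ).mono Ioo_subset_Icc_self).aemeasurable measurableSet_Ioo).mono_ac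
    (withDensity_absolutelyContinuous _ _)

/-- `α` pushes `ρ dr` to Lebesgue measure -/
theorem bud_map (hB : BudBoxOk kb M kmin) (hρ : BudDens kb M ρ) :
    (budMu ρ).map (budAl ρ) = volume.restrict (Ioo (0:ℝ) 1) := by
  symm
  apply Measure.ext_of_Iic
  intro a
  rw [Measure.map_apply_of_aemeasurable (budAl_aemeasurable hB hρ) measurableSet_Iic, budMu,
    withDensity_apply', Measure.restrict_congr_set (Ioo_ae_eq_Ioc (a := (0:ℝ)) (b := 1)),
    Measure.restrict_restrict' measurableSet_Ioc, Measure.restrict_apply measurableSet_Iic]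
  rcases lt_or_ge a 0 with ha | ha
  · have e1 : Iic a ∩ Ioc (0:ℝ) 1 = ∅ := by
      ext x; simp only [mem_inter_iff, mem_Iic, mem_Ioc, mem_empty_iff_false, iff_false]
      intro h; linarith [h.1, h.2.1]
    have e2 : budAl ρ ⁻¹' Iic a ∩ Ioc (0:ℝ) 1 = ∅ := by
      ext x; simp only [mem_inter_iff, mem_preimage, mem_Iic, mem_Ioc, mem_empty_iff_false, iff_false]
      intro h
      have := (budAl_mem_Icc hB hρ (r := x) ⟨h.2.1.le, h.2.2⟩).1
      linarith [h.1]
    rw [e1, e2]; simp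
  · set b : ℝ := min a 1 with hb
    have hbm : b ∈ Icc (0:ℝ) 1 := ⟨le_min ha zero_le_one, min_le_right _ _⟩
    have e1 : Iic a ∩ Ioc (0:ℝ) 1 = Ioc 0 b := by
      ext x; simp only [mem_inter_iff, mem_Iic, mem_Ioc, hb, le_min_iff]; tauto
    have e2 : budAl ρ ⁻¹' Iic a ∩ Ioc (0:ℝ) 1 = Ioc 0 (budQ ρ b) := by
      ext x
      simp only [mem_inter_iff, mem_preimage, mem_Iic, mem_Ioc]
      have hq := budQ_mem_Icc hB hρ hbm
      constructor
      · rintro ⟨h1, h2, h3⟩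
        have hx : x ∈ Icc (0:ℝ) 1 := ⟨h2.le, h3⟩
        refine ⟨h2, ((budAl_strictMonoOn hB hρ).le_iff_le hx hq).1 ?_⟩
        rw [budAl_Q hB hρ hbm]
        exact le_min h1 (budAl_mem_Icc hB hρ hx).2
      · rintro ⟨h2, h3⟩
        have hx : x ∈ Icc (0:ℝ) 1 := ⟨h2.le, h3.trans hq.2⟩
        have := ((budAl_strictMonoOn hB hρ).le_iff_le hx hq).2 h3
        rw [budAl_Q hB hρ hbm] at this
        exact ⟨this.trans (min_le_left _ _), h2, hx.2⟩
    rw [e1, e2, budMu_Ioc hB hρ (budQ_mem_Icc hB hρ hbm), budAl_Q hB hρ hbm, Real.volume_Ioc, sub_zero]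

/-- change of variables `v = α(r)` -/
theorem bud_cov (hB : BudBoxOk kb M kmin) (hρ : BudDens kb M ρ) (F : ℝ → ℝ) (hF : IntegrableOn F (Ioo 0 1)) :
    IntegrableOn (fun r => F (budAl ρ r) * ρ r) (Ioo 0 1) ∧
      ∫ v in Ioo (0:ℝ) 1, F v = ∫ r in Ioo (0:ℝ) 1, F (budAl ρ r) * ρ r := by
  have hmap := bud_map hB hρ
  have hα := budAl_aemeasurable hB hρ
  have hF' : Integrable F ((budMu ρ).map (budAl ρ)) := by rw [hmap]; exact hF
  have h1 : Integrable (F ∘ budAl ρ) (budMu ρ) :=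
    (integrable_map_measure hF'.aestronglyMeasurable hα).1 hF'
  have hm : Measurable (fun r => ENNReal.ofReal (ρ r)) := hρ.meas.ennreal_ofReal
  have hlt : ∀ᵐ r ∂(volume.restrict (Ioo (0:ℝ) 1)), ENNReal.ofReal (ρ r) < ⊤ :=
    Eventually.of_forall fun _ => ENNReal.ofReal_lt_top
  have h2 := (integrable_withDensity_iff_integrable_smul' hm hlt).1 h1
  have hae : (fun x => (ENNReal.ofReal (ρ x)).toReal • (F ∘ budAl ρ) x)
      =ᵐ[volume.restrict (Ioo (0:ℝ) 1)] fun r => F (budAl ρ r) * ρ r := by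
    rw [EventuallyEq, ae_restrict_iff' measurableSet_Ioo]
    filter_upwards [hρ.lo] with r h hr
    rw [ENNReal.toReal_ofReal (hB.kmin0.le.trans ((hB.kb_ge r).trans (h hr))), smul_eq_mul, mul_comm]
    rfl
  refine ⟨h2.congr hae, ?_⟩
  calc ∫ v in Ioo (0:ℝ) 1, F v = ∫ v, F v ∂((budMu ρ).map (budAl ρ)) := by rw [hmap]
    _ = ∫ r, F (budAl ρ r) ∂(budMu ρ) := integral_map hα hF'.aestronglyMeasurable
    _ = ∫ r in Ioo (0:ℝ) 1, (ENNReal.ofReal (ρ r)).toReal • (F ∘ budAl ρ) r :=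
        integral_withDensity_eq_integral_toReal_smul hm hlt _
    _ = ∫ r in Ioo (0:ℝ) 1, F (budAl ρ r) * ρ r := integral_congr_ae hae

/-- consequence: `∫ |F(α(r))| dr ≤ kmin⁻¹ ∫ |F|` -/
theorem bud_cov_le (hB : BudBoxOk kb M kmin) (hρ : BudDens kb M ρ) (F : ℝ → ℝ) (hF : IntegrableOn F (Ioo 0 1)) :
    IntegrableOn (fun r => F (budAl ρ r)) (Ioo 0 1) ∧
      ∫ r in Ioo (0:ℝ) 1, |F (budAl ρ r)| ≤ (∫ v in Ioo (0:ℝ) 1, |F v|) / kmin := by
  obtain ⟨i1, e1⟩ := bud_cov hB hρ (fun v => |F v|) hF.abs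
  obtain ⟨i0, -⟩ := bud_cov hB hρ F hF
  have hae : ∀ᵐ r ∂(volume.restrict (Ioo (0:ℝ) 1)), kmin ≤ ρ r := by
    rw [ae_restrict_iff' measurableSet_Ioo]
    filter_upwards [hρ.lo] with r h hr
    exact (hB.kb_ge r).trans (h hr)
  have hmeas : AEStronglyMeasurable (fun r => F (budAl ρ r)) (volume.restrict (Ioo (0:ℝ) 1)) := by
    have : (fun r => F (budAl ρ r)) =ᵐ[volume.restrict (Ioo (0:ℝ) 1)]
        fun r => (F (budAl ρ r) * ρ r) * (ρ r)⁻¹ := by
      filter_upwards [hae] with r hr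
      have : ρ r ≠ 0 := (hB.kmin0.trans_le hr).ne'
      field_simp
    exact (i0.aestronglyMeasurable.mul hρ.meas.inv.aestronglyMeasurable).congr this.symm
  have hint : IntegrableOn (fun r => F (budAl ρ r)) (Ioo 0 1) := by
    refine Integrable.mono' (i1.div_const kmin) hmeas ?_
    filter_upwards [hae] with r hr
    rw [Real.norm_eq_abs, le_div_iff₀ hB.kmin0]
    exact mul_le_mul_of_nonneg_left hr (abs_nonneg _)
  refine ⟨hint, ?_⟩
  rw [e1, le_div_iff₀ hB.kmin0, ← integral_mul_const]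
  refine integral_mono_ae (hint.abs.mul_const _) i1 ?_
  filter_upwards [hae] with r hr
  exact mul_le_mul_of_nonneg_left hr (abs_nonneg _)

/-! ### the transport identity -/

/-- a globally continuous version of `α` -/
theorem budAl_exists_cont (hB : BudBoxOk kb M kmin) (hρ : BudDens kb M ρ) :
    ∃ A : ℝ → ℝ, Continuous A ∧ ∀ r ∈ Icc (0:ℝ) 1, A r = budAl ρ r := by
  refine ⟨fun r => budAl ρ (max 0 (min 1 r)), ?_, fun r hr => ?_⟩
  · exact (budAl_cont hB hρ).comp_continuous (by fun_prop)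
      (fun r => ⟨le_max_left _ _, max_le zero_le_one (min_le_left _ _)⟩)
  · simp only [min_eq_right hr.2, max_eq_right hr.1]

theorem bud_F_intervalIntegrable {F : ℝ → ℝ} (hF : IntegrableOn F (Ioo 0 1)) {s t : ℝ}
    (hs : s ∈ Icc (0:ℝ) 1) (ht : t ∈ Icc (0:ℝ) 1) : IntervalIntegrable F volume s t := by
  have h01 : IntervalIntegrable F volume 0 1 :=
    (intervalIntegrable_iff_integrableOn_Ioo_of_le zero_le_one).2 hF
  exact h01.mono_set (by rw [uIcc_of_le zero_le_one]; exact uIcc_subset_Icc hs ht)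

/-- one half of the transport identity (Fubini) -/
theorem bud_transport_one (hB : BudBoxOk kb M kmin) (hρ : BudDens kb M ρ)
    (F φ φ' : ℝ → ℝ) (hF : IntegrableOn F (Ioo 0 1)) (hφ : ∀ r ∈ Icc (0:ℝ) 1, HasDerivAt φ (φ' r) r)
    (hφ' : ContinuousOn φ' (Icc 0 1)) :
    IntegrableOn (fun v => F v * (φ (budQ ρ v) - φ 0)) (Ioo 0 1) ∧
    IntervalIntegrable (fun r => φ' r * ∫ v in (budAl ρ r)..1, F v) volume 0 1 ∧
    ∫ v in Ioo (0:ℝ) 1, F v * (φ (budQ ρ v) - φ 0)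
      = ∫ r in (0:ℝ)..1, φ' r * ∫ v in (budAl ρ r)..1, F v := by
  obtain ⟨A, hAc, hA⟩ := budAl_exists_cont hB hρ
  set μ : Measure ℝ := volume.restrict (Ioo (0:ℝ) 1) with hμ
  have hφ'i : Integrable φ' μ := (hφ'.integrableOn_Icc).mono_set Ioo_subset_Icc_self
  set S : Set (ℝ × ℝ) := {p | A p.2 < p.1} with hS
  have hSm : MeasurableSet S :=
    measurableSet_lt (hAc.measurable.comp measurable_snd) measurable_fst
  set G : ℝ → ℝ → ℝ := fun v s => S.indicator (fun p : ℝ × ℝ => F p.1 * φ' p.2) (v, s) with hG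
  have hGi : Integrable (Function.uncurry G) (μ.prod μ) := (hF.mul_prod hφ'i).indicator hSm
  -- inner integral in `s`
  have hL : ∀ v ∈ Ioo (0:ℝ) 1, ∫ s, G v s ∂μ = F v * (φ (budQ ρ v) - φ 0) := by
    intro v hv
    have hv' := Ioo_subset_Icc_self hv
    have hq := budQ_mem hB hρ hv
    have e0 : (fun s => G v s) = {s | A s < v}.indicator (fun s => F v * φ' s) := by
      funext s
      simp only [hG, hS, indicator, mem_setOf_eq]
    have hm : MeasurableSet {s | A s < v} := measurableSet_lt hAc.measurable measurable_const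
    have e1 : Ioo (0:ℝ) 1 ∩ {s | A s < v} = Ioo 0 (budQ ρ v) := by
      ext s
      simp only [mem_inter_iff, mem_Ioo, mem_setOf_eq]
      constructor
      · rintro ⟨⟨h0, h1⟩, h2⟩
        rw [hA s ⟨h0.le, h1.le⟩] at h2
        exact ⟨h0, (lt_budQ_iff hB hρ ⟨h0.le, h1.le⟩ hv').2 h2⟩
      · rintro ⟨h0, h1⟩
        have hs : s ∈ Icc (0:ℝ) 1 := ⟨h0.le, (h1.trans hq.2).le⟩
        refine ⟨⟨h0, h1.trans hq.2⟩, ?_⟩
        rw [hA s hs]
        exact (lt_budQ_iff hB hρ hs hv').1 h1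
    rw [e0, hμ, setIntegral_indicator hm, e1, integral_const_mul, ← integral_Ioc_eq_integral_Ioo,
      ← intervalIntegral.integral_of_le hq.1.le]
    congr 1
    have hsub : uIcc 0 (budQ ρ v) ⊆ Icc (0:ℝ) 1 := by
      rw [uIcc_of_le hq.1.le]; exact Icc_subset_Icc le_rfl hq.2.le
    exact intervalIntegral.integral_eq_sub_of_hasDerivAt (fun x hx => hφ x (hsub hx))
      ((hφ'.mono hsub).intervalIntegrable)
  -- inner integral in `v`
  have hR : ∀ s ∈ Ioo (0:ℝ) 1, ∫ v, G v s ∂μ = φ' s * ∫ v in (budAl ρ s)..1, F v := by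
    intro s hs
    have hs' := Ioo_subset_Icc_self hs
    have ha := budAl_mem hB hρ hs
    have e0 : (fun v => G v s) = {v | A s < v}.indicator (fun v => F v * φ' s) := by
      funext v
      simp only [hG, hS, indicator, mem_setOf_eq]
    have hm : MeasurableSet {v | A s < v} := measurableSet_lt measurable_const measurable_id
    have e1 : Ioo (0:ℝ) 1 ∩ {v | A s < v} = Ioo (budAl ρ s) 1 := by
      ext v
      simp only [mem_inter_iff, mem_Ioo, mem_setOf_eq, hA s hs']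
      constructor
      · rintro ⟨⟨_, h1⟩, h2⟩; exact ⟨h2, h1⟩
      · rintro ⟨h0, h1⟩; exact ⟨⟨ha.1.trans h0, h1⟩, h0⟩
    rw [e0, hμ, setIntegral_indicator hm, e1, integral_mul_const, ← integral_Ioc_eq_integral_Ioo,
      ← intervalIntegral.integral_of_le ha.2.le, mul_comm]
  have hLae : (fun v => ∫ s, G v s ∂μ) =ᵐ[μ] fun v => F v * (φ (budQ ρ v) - φ 0) := by
    rw [hμ, EventuallyEq, ae_restrict_iff' measurableSet_Ioo]
    exact Eventually.of_forall hL
  have hRae : (fun s => ∫ v, G v s ∂μ) =ᵐ[μ] fun s => φ' s * ∫ v in (budAl ρ s)..1, F v := by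
    rw [hμ, EventuallyEq, ae_restrict_iff' measurableSet_Ioo]
    exact Eventually.of_forall hR
  have i1 : Integrable (fun v => F v * (φ (budQ ρ v) - φ 0)) μ :=
    (hGi.integral_prod_left).congr hLae
  have i2 : Integrable (fun s => φ' s * ∫ v in (budAl ρ s)..1, F v) μ :=
    (hGi.integral_prod_right).congr hRae
  refine ⟨i1, (intervalIntegrable_iff_integrableOn_Ioo_of_le zero_le_one).2 i2, ?_⟩
  rw [intervalIntegral.integral_of_le zero_le_one, integral_Ioc_eq_integral_Ioo,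
    ← integral_congr_ae hLae, ← integral_congr_ae hRae]
  exact integral_integral_swap hGi

/-- **transport identity** (Fubini; `φ(r'(v)) - φ(r(v)) = ∫_0^1 φ'(s) (1_{α'(s) < v} - 1_{α(s) < v}) ds`) -/
theorem bud_transport (hB : BudBoxOk kb M kmin) (hρ : BudDens kb M ρ) (hρ' : BudDens kb M ρ')
    (F φ φ' : ℝ → ℝ) (hF : IntegrableOn F (Ioo 0 1)) (hφ : ∀ r ∈ Icc (0:ℝ) 1, HasDerivAt φ (φ' r) r)
    (hφ' : ContinuousOn φ' (Icc 0 1)) :
    ∫ v in Ioo (0:ℝ) 1, F v * (φ (budQ ρ' v) - φ (budQ ρ v))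
      = - ∫ r in (0:ℝ)..1, φ' r * ∫ v in (budAl ρ r)..(budAl ρ' r), F v := by
  obtain ⟨a1, a2, a3⟩ := bud_transport_one hB hρ F φ φ' hF hφ hφ'
  obtain ⟨b1, b2, b3⟩ := bud_transport_one hB hρ' F φ φ' hF hφ hφ'
  have e1 : (fun v => F v * (φ (budQ ρ' v) - φ (budQ ρ v)))
      = fun v => F v * (φ (budQ ρ' v) - φ 0) - F v * (φ (budQ ρ v) - φ 0) := by
    funext v; ring
  rw [e1, integral_sub b1 a1, a3, b3, ← intervalIntegral.integral_sub b2 a2,
    ← intervalIntegral.integral_neg]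
  refine intervalIntegral.integral_congr fun r hr => ?_
  rw [uIcc_of_le zero_le_one] at hr
  have h1 : (1:ℝ) ∈ Icc (0:ℝ) 1 := right_mem_Icc.2 zero_le_one
  have := intervalIntegral.integral_add_adjacent_intervals
    (bud_F_intervalIntegrable hF (budAl_mem_Icc hB hρ hr) (budAl_mem_Icc hB hρ' hr))
    (bud_F_intervalIntegrable hF (budAl_mem_Icc hB hρ' hr) h1)
  rw [← this]
  ring

/-! ### compactness and nonemptiness of the box -/

theorem BudBoxOk.kb_intervalIntegrable (hB : BudBoxOk kb M kmin) (s t : ℝ) :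
    IntervalIntegrable kb volume s t := by
  rw [intervalIntegrable_iff]
  refine Measure.integrableOn_of_bounded (M := max |kmin| |M|) (by simp)
    hB.kbm.aestronglyMeasurable (Eventually.of_forall fun r => ?_)
  rw [Real.norm_eq_abs]
  exact abs_le_max_abs_abs (hB.kb_ge r) (hB.kb_le r)

/-- a function with the slopes of the box is the `α` of a density of the box -/
theorem bud_dens_of_slopes (hB : BudBoxOk kb M kmin) {g : ℝ → ℝ} (g0 : g 0 = 0) (g1 : g 1 = 1)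
    (hlo : ∀ s t, 0 ≤ s → s ≤ t → t ≤ 1 → ∫ r in s..t, kb r ≤ g t - g s)
    (hhi : ∀ s t, 0 ≤ s → s ≤ t → t ≤ 1 → g t - g s ≤ M * (t - s)) :
    BudDens kb M (deriv g) ∧ ∀ r ∈ Icc (0:ℝ) 1, budAl (deriv g) r = g r := by
  have hM : 0 ≤ M := hB.kmin0.le.trans ((hB.kb_ge 0).trans (hB.kb_le 0))
  have hkb0 : ∀ s t, s ≤ t → 0 ≤ ∫ r in s..t, kb r := fun s t hst =>
    intervalIntegral.integral_nonneg hst fun r _ => hB.kmin0.le.trans (hB.kb_ge r)
  have hlip : LipschitzOnWith (Real.toNNReal M) g (uIcc 0 1) := by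
    rw [uIcc_of_le zero_le_one]
    refine LipschitzOnWith.of_dist_le_mul fun x hx y hy => ?_
    rw [Real.dist_eq, Real.dist_eq, Real.coe_toNNReal _ hM]
    rcases le_total x y with h | h
    · have h1 := hhi x y hx.1 h hy.2
      have h2 := (hkb0 x y h).trans (hlo x y hx.1 h hy.2)
      rw [abs_sub_comm, abs_sub_comm x y, abs_of_nonneg h2, abs_of_nonneg (by linarith)]
      exact h1
    · have h1 := hhi y x hy.1 h hx.2
      have h2 := (hkb0 y x h).trans (hlo y x hy.1 h hx.2)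
      rw [abs_of_nonneg h2, abs_of_nonneg (by linarith)]
      exact h1
  have hac : AbsolutelyContinuousOnInterval g 0 1 := hlip.absolutelyContinuousOnInterval
  have hal : ∀ r ∈ Icc (0:ℝ) 1, budAl (deriv g) r = g r := by
    intro r hr
    have := (hac.mono (c := 0) (d := r) (by
      rw [uIcc_of_le hr.1, uIcc_of_le zero_le_one]; exact Icc_subset_Icc le_rfl hr.2)).integral_deriv_eq_sub
    unfold budAl
    rw [this, g0, sub_zero]
  refine ⟨⟨measurable_deriv g, ?_, ?_, ?_⟩, hal⟩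
  · -- lower bound: `g - ∫ kb` is monotone
    filter_upwards [hac.ae_differentiableAt, (hB.kb_intervalIntegrable 0 1).ae_hasDerivAt_integral]
      with r h1 h2 hr
    have hr' : r ∈ uIcc (0:ℝ) 1 := by rw [uIcc_of_le zero_le_one]; exact Ioo_subset_Icc_self hr
    have d1 := (h1 hr').hasDerivAt
    have d2 := h2 hr' 0 (by simp)
    have d3 : HasDerivAt (fun x => g x - ∫ t in (0:ℝ)..x, kb t) (deriv g r - kb r) r := d1.sub d2
    have hmono : MonotoneOn (fun x => g x - ∫ t in (0:ℝ)..x, kb t) (Ioo 0 1) := by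
      intro x hx y hy hxy
      have := hlo x y hx.1.le hxy hy.2.le
      have e := intervalIntegral.integral_add_adjacent_intervals
        (hB.kb_intervalIntegrable 0 x) (hB.kb_intervalIntegrable x y)
      simp only
      linarith
    have h0 := hmono.derivWithin_nonneg (x := r)
    rw [(d3.hasDerivWithinAt).derivWithin (isOpen_Ioo.uniqueDiffWithinAt hr)] at h0
    linarith
  · filter_upwards [hac.ae_differentiableAt] with r h1 hr
    have hr' : r ∈ uIcc (0:ℝ) 1 := by rw [uIcc_of_le zero_le_one]; exact Ioo_subset_Icc_self hr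
    have d1 := (h1 hr').hasDerivAt
    have d3 : HasDerivAt (fun x => M * id x - g x) (M * 1 - deriv g r) r :=
      ((hasDerivAt_id r).const_mul M).sub d1
    have hmono : MonotoneOn (fun x => M * id x - g x) (Ioo 0 1) := by
      intro x hx y hy hxy
      have := hhi x y hx.1.le hxy hy.2.le
      simp only [id]
      linarith
    have h0 := hmono.derivWithin_nonneg (x := r)
    rw [(d3.hasDerivWithinAt).derivWithin (isOpen_Ioo.uniqueDiffWithinAt hr)] at h0
    linarith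
  · have := hal 1 (right_mem_Icc.2 zero_le_one)
    unfold budAl at this
    rw [this, g1]

/-- compactness of the box: a sequence of densities has a subsequence whose `α` converge uniformly to the `α` of a density of the box.
Proof: `sk_helly` (or Arzela-Ascoli) for the monotone `M`-Lipschitz `α_k`; the limit satisfies `∫_s^t kb ≤ α t - α s ≤ M (t-s)`, is absolutely continuous;
`ρ := deriv α` (clamped to `[kb, M]`, measurable), `AbsolutelyContinuousOnInterval.integral_deriv_eq_sub`, Lebesgue differentiation for the two bounds. -/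
theorem bud_box_compact (hB : BudBoxOk kb M kmin) (ρk : ℕ → ℝ → ℝ) (hk : ∀ k, BudDens kb M (ρk k)) :
    ∃ (ρ : ℝ → ℝ) (φ : ℕ → ℕ), BudDens kb M ρ ∧ StrictMono φ ∧
      TendstoUniformlyOn (fun k => budAl (ρk (φ k))) (budAl ρ) atTop (Icc 0 1) := by
  obtain ⟨φ, g, hφ, -, -, hlim⟩ := sk_helly_on (Icc (0:ℝ) 1) (fun k => budAl (ρk k)) 0 1
    (fun k => (budAl_strictMonoOn hB (hk k)).monotoneOn) (fun k x hx => budAl_mem_Icc hB (hk k) hx)
  have h0 : (0:ℝ) ∈ Icc (0:ℝ) 1 := left_mem_Icc.2 zero_le_one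
  have h1 : (1:ℝ) ∈ Icc (0:ℝ) 1 := right_mem_Icc.2 zero_le_one
  have g0 : g 0 = 0 := by
    refine tendsto_nhds_unique (hlim 0 h0) ?_
    simp only [budAl_zero]; exact tendsto_const_nhds
  have g1 : g 1 = 1 := by
    refine tendsto_nhds_unique (hlim 1 h1) ?_
    simp only [budAl_one (hk _)]; exact tendsto_const_nhds
  have hlo : ∀ s t, 0 ≤ s → s ≤ t → t ≤ 1 → ∫ r in s..t, kb r ≤ g t - g s := by
    intro s t hs hst ht
    refine ge_of_tendsto' ((hlim t ⟨hs.trans hst, ht⟩).sub (hlim s ⟨hs, hst.trans ht⟩)) fun k => ?_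
    exact budAl_slope_kb hB (hk _) hs hst ht
  have hhi : ∀ s t, 0 ≤ s → s ≤ t → t ≤ 1 → g t - g s ≤ M * (t - s) := by
    intro s t hs hst ht
    refine le_of_tendsto' ((hlim t ⟨hs.trans hst, ht⟩).sub (hlim s ⟨hs, hst.trans ht⟩)) fun k => ?_
    exact (budAl_slope hB (hk _) hs hst ht).2
  obtain ⟨hd, hal⟩ := bud_dens_of_slopes hB g0 g1 hlo hhi
  refine ⟨deriv g, φ, hd, hφ, ?_⟩
  refine r286_polya (fun k => budAl (ρk (φ k))) (budAl (deriv g))
    (fun k => (budAl_strictMonoOn hB (hk _)).monotoneOn) (budAl_cont hB hd) fun x hx => ?_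
  rw [hal x hx]
  exact hlim x hx

/-- the box is nonempty -/
theorem bud_box_nonempty (hB : BudBoxOk kb M kmin) (hk : ∫ r in (0:ℝ)..1, kb r ≤ 1) (hM : 1 ≤ M) :
    ∃ ρ, BudDens kb M ρ := by
  set I : ℝ := ∫ r in (0:ℝ)..1, kb r with hI
  have hki := hB.kb_intervalIntegrable 0 1
  obtain ⟨c, hc0, hc1, hc⟩ : ∃ c : ℝ, 0 ≤ c ∧ c ≤ 1 ∧ I + c * (M - I) = 1 := by
    rcases eq_or_lt_of_le (hk.trans hM) with h | h
    · exact ⟨0, le_rfl, zero_le_one, by linarith⟩
    · have hpos : 0 < M - I := by linarith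
      refine ⟨(1 - I) / (M - I), div_nonneg (by linarith) hpos.le, ?_, ?_⟩
      · rw [div_le_one hpos]; linarith
      · field_simp; ring
  refine ⟨fun r => kb r + c * (M - kb r), hB.kbm.add ((measurable_const.sub hB.kbm).const_mul c),
    Eventually.of_forall fun r _ => ?_, Eventually.of_forall fun r _ => ?_, ?_⟩
  · nlinarith [hB.kb_le r]
  · nlinarith [hB.kb_le r]
  · rw [intervalIntegral.integral_add hki ((intervalIntegrable_const.sub hki).const_mul c),
      intervalIntegral.integral_const_mul, intervalIntegral.integral_sub intervalIntegrable_const hki,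
      intervalIntegral.integral_const, ← hI]
    simpa using hc

end Claimed.Agent.R286
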