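import Claimed.Agent.R286.Bud.Defs
import Claimed.Agent.R286.Bud.GeoFlat
import Claimed.Agent.R286.Bud.GeoCon
import Claimed.Agent.R286.Bud.GeoQ

/-!
# Row 286, LL 07-budgets l.1367-1400, node N11, parts D and E: layer cake, the transport estimate      (typed by helper6, proved by helper25, layer cake with helper248; 0 sorry)
IMPORTED BY `Bud/N11.lean`.

`∫ min(u,t) |δα_t| dt ≤ explicit`, ONE instance, deterministic, explicit constants (form and suppliers: header of `Bud/N11.lean`).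
* tools      `BudBM` (bounded a.e.-measurable functions on `(0,1)`), `bud_n11_cs_gen`, `bud_n11_cs_w` (Cauchy-Schwarz), `bud_n11_strip_tonelli`
* E1, E1'    `bud_n11_cs`, `bud_n11_cs_band`
* E2         `bud_n11_area`        area between two increasing graphs
* `BudTr`, `BudTr.Ok`      data and hypotheses (helper6's typing, verbatim)
* E3-E5, E   `bud_n11_nonfloor_part`, `bud_n11_extra_floor`, `bud_n11_removal`, `bud_n11_transport`
-/

set_option autoImplicit false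

open MeasureTheory Set Filter Topology

namespace Claimed.Agent.R286

/-! ## D. layer cake -/

/-- the strip between the two graphs -/
def budN11Strip (K1 K2 : ℝ → ℝ) : Set (ℝ × ℝ) :=
  {p | min (K1 p.1) (K2 p.1) ≤ p.2 ∧ p.2 < max (K1 p.1) (K2 p.1)}

theorem bud_n11_strip_eqns_cite : True := by
  have := @budN11Strip.eq_1
  trivial

theorem bud_n11_strip_meas {K1 K2 : ℝ → ℝ} (h1 : Measurable K1) (h2 : Measurable K2) :
    MeasurableSet (budN11Strip K1 K2) := by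
  unfold budN11Strip
  apply MeasurableSet.inter
  · exact measurableSet_le ((h1.comp measurable_fst).min (h2.comp measurable_fst)) measurable_snd
  · exact measurableSet_lt measurable_snd ((h1.comp measurable_fst).max (h2.comp measurable_fst))

/-- pointwise in `t`: difference of the two distribution functions is at most the section of the strip -/
theorem bud_n11_dist_diff_le {μ : Measure ℝ} [IsFiniteMeasure μ] {K1 K2 : ℝ → ℝ}
    (h1 : Measurable K1) (h2 : Measurable K2) (t : ℝ) :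
    ENNReal.ofReal |(μ {v | K1 v ≤ t}).toReal - (μ {v | K2 v ≤ t}).toReal|
      ≤ μ {v | (v, t) ∈ budN11Strip K1 K2} := by
  set A := {v | K1 v ≤ t} with hA
  set B := {v | K2 v ≤ t} with hB
  set S := {v | (v, t) ∈ budN11Strip K1 K2} with hS
  have hAB : A ⊆ B ∪ S := by
    intro v hv
    by_cases hb : K2 v ≤ t
    · exact Or.inl hb
    · right
      simp only [hS, budN11Strip, mem_ofPred_eq]
      exact ⟨(min_le_left _ _).trans hv, lt_of_lt_of_le (not_le.mp hb) (le_max_right _ _)⟩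
  have hBA : B ⊆ A ∪ S := by
    intro v hv
    by_cases ha : K1 v ≤ t
    · exact Or.inl ha
    · right
      simp only [hS, budN11Strip, mem_ofPred_eq]
      exact ⟨(min_le_right _ _).trans hv, lt_of_lt_of_le (not_le.mp ha) (le_max_left _ _)⟩
  have e1 : (μ A).toReal ≤ (μ B).toReal + (μ S).toReal := by
    rw [← ENNReal.toReal_add (measure_ne_top _ _) (measure_ne_top _ _)]
    exact ENNReal.toReal_mono (by simp [measure_ne_top]) ((measure_mono hAB).trans (measure_union_le _ _))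
  have e2 : (μ B).toReal ≤ (μ A).toReal + (μ S).toReal := by
    rw [← ENNReal.toReal_add (measure_ne_top _ _) (measure_ne_top _ _)]
    exact ENNReal.toReal_mono (by simp [measure_ne_top]) ((measure_mono hBA).trans (measure_union_le _ _))
  have : |(μ A).toReal - (μ B).toReal| ≤ (μ S).toReal := by
    rw [abs_le]; constructor <;> linarith
  calc ENNReal.ofReal |(μ A).toReal - (μ B).toReal| ≤ ENNReal.ofReal (μ S).toReal :=
        ENNReal.ofReal_le_ofReal this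
    _ = μ S := ENNReal.ofReal_toReal (measure_ne_top _ _)

/-- TEX[LL:bud l.1369 "one-dimensional inverse-transport bound"].
Layer cake: for ANY measurable clocks `K1 K2` and any nondecreasing weight `w`,
`∫ w(t) | |{K1 ≤ t}| - |{K2 ≤ t}| | dt ≤ ∫ w(max(K1,K2)(v)) |K1 - K2|(v) dμ(v)`. -/
theorem bud_n11_layer_lint {μ : Measure ℝ} [IsFiniteMeasure μ] {K1 K2 : ℝ → ℝ}
    (h1 : Measurable K1) (h2 : Measurable K2) {w : ℝ → ENNReal} (hw : Monotone w) :
    ∫⁻ t, w t * ENNReal.ofReal |(μ {v | K1 v ≤ t}).toReal - (μ {v | K2 v ≤ t}).toReal|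
      ≤ ∫⁻ v, w (max (K1 v) (K2 v)) * ENNReal.ofReal |K1 v - K2 v| ∂μ := by
  have hwm : Measurable w := hw.measurable
  have hS := bud_n11_strip_meas h1 h2
  set G : ℝ → ℝ → ENNReal := fun v t => w t * (budN11Strip K1 K2).indicator (fun _ => (1 : ENNReal)) (v, t)
    with hG
  have hGm : Measurable (Function.uncurry G) := by
    have : Function.uncurry G
        = fun p : ℝ × ℝ => w p.2 * (budN11Strip K1 K2).indicator (fun _ => (1 : ENNReal)) p := by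
      funext p; rfl
    rw [this]
    exact (hwm.comp measurable_snd).mul (measurable_const.indicator hS)
  -- step 1: replace by the section of the strip
  have s1 : ∫⁻ t, w t * ENNReal.ofReal |(μ {v | K1 v ≤ t}).toReal - (μ {v | K2 v ≤ t}).toReal|
      ≤ ∫⁻ t, ∫⁻ v, G v t ∂μ := by
    apply lintegral_mono
    intro t
    have hsec : MeasurableSet {v | (v, t) ∈ budN11Strip K1 K2} :=
      (measurable_id.prodMk measurable_const) hS
    have hind : (fun v => (budN11Strip K1 K2).indicator (fun _ => (1 : ENNReal)) (v, t))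
        = ({v | (v, t) ∈ budN11Strip K1 K2}).indicator (fun _ => (1 : ENNReal)) := by
      funext v; simp [indicator]
    have : ∫⁻ v, G v t ∂μ = w t * μ {v | (v, t) ∈ budN11Strip K1 K2} := by
      simp only [hG]
      rw [lintegral_const_mul _ (by rw [hind]; exact measurable_const.indicator hsec), hind,
        lintegral_indicator hsec]
      simp
    show w t * _ ≤ ∫⁻ v, G v t ∂μ
    rw [this]
    exact mul_le_mul_right (bud_n11_dist_diff_le h1 h2 t) _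
  -- step 2: Tonelli
  have s2 : ∫⁻ t, ∫⁻ v, G v t ∂μ = ∫⁻ v, (∫⁻ t, G v t) ∂μ :=
    (lintegral_lintegral_swap hGm.aemeasurable).symm
  -- step 3: each vertical section
  have s3 : ∀ v, ∫⁻ t, G v t ≤ w (max (K1 v) (K2 v)) * ENNReal.ofReal |K1 v - K2 v| := by
    intro v
    set a := min (K1 v) (K2 v) with ha
    set b := max (K1 v) (K2 v) with hb
    have hind : ∀ t, G v t ≤ (Ico a b).indicator (fun _ => w b) t := by
      intro t
      simp only [hG]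
      by_cases ht : t ∈ Ico a b
      · have : (v, t) ∈ budN11Strip K1 K2 := ht
        rw [indicator_of_mem this, indicator_of_mem ht, mul_one]
        exact hw ht.2.le
      · have : (v, t) ∉ budN11Strip K1 K2 := ht
        rw [indicator_of_notMem this]; simp
    calc ∫⁻ t, G v t ≤ ∫⁻ t, (Ico a b).indicator (fun _ => w b) t := lintegral_mono hind
      _ = w b * volume (Ico a b) := by
          rw [lintegral_indicator measurableSet_Ico]; simp
      _ = w b * ENNReal.ofReal |K1 v - K2 v| := by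
          rw [Real.volume_Ico, hb, ha, max_sub_min_eq_abs']
  calc _ ≤ ∫⁻ t, ∫⁻ v, G v t ∂μ := s1
    _ = ∫⁻ v, (∫⁻ t, G v t) ∂μ := s2
    _ ≤ _ := lintegral_mono s3

/-- **N11.D** one-dimensional inverse transport (T1 of 248).
Proof: `|dist K1 t - dist K2 t| ≤ |{v : min(K1,K2) v ≤ t < max(K1,K2) v}|`, Tonelli, `∫_{min}^{max} w ≤ w(max)(max - min)`. -/
theorem bud_n11_layer {K1 K2 w : ℝ → ℝ} {Q0 : ℝ} (h1 : MonotoneOn K1 (Ioo 0 1)) (h2 : MonotoneOn K2 (Ioo 0 1))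
    (hr1 : ∀ v ∈ Ioo (0:ℝ) 1, K1 v ∈ Icc 0 Q0) (hr2 : ∀ v ∈ Ioo (0:ℝ) 1, K2 v ∈ Icc 0 Q0)
    (hw : MonotoneOn w (Icc 0 Q0)) (hw0 : ∀ t ∈ Icc 0 Q0, 0 ≤ w t) :
    ∫ t in (0:ℝ)..Q0, w t * |bdDist K1 t - bdDist K2 t|
      ≤ ∫ v in (0:ℝ)..1, w (max (K1 v) (K2 v)) * |K1 v - K2 v| := by
  have hQ0 : 0 ≤ Q0 := by
    have := hr1 (1 / 2) ⟨by norm_num, by norm_num⟩
    exact this.1.trans this.2
  -- monotone extensions
  obtain ⟨g1, hg1, e1⟩ := h1.exists_monotone_extension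
    ⟨0, by rintro _ ⟨v, hv, rfl⟩; exact (hr1 v hv).1⟩ ⟨Q0, by rintro _ ⟨v, hv, rfl⟩; exact (hr1 v hv).2⟩
  obtain ⟨g2, hg2, e2⟩ := h2.exists_monotone_extension
    ⟨0, by rintro _ ⟨v, hv, rfl⟩; exact (hr2 v hv).1⟩ ⟨Q0, by rintro _ ⟨v, hv, rfl⟩; exact (hr2 v hv).2⟩
  set cl : ℝ → ℝ := fun t => max 0 (min t Q0) with hcl
  have hclm : Monotone cl := fun s t hst => max_le_max le_rfl (min_le_min hst le_rfl)
  have hclI : ∀ t, cl t ∈ Icc 0 Q0 := fun t => ⟨le_max_left _ _, max_le hQ0 (min_le_right _ _)⟩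
  have hcle : ∀ t ∈ Icc 0 Q0, cl t = t := by
    intro t ht
    simp only [hcl]
    rw [min_eq_left ht.2, max_eq_right ht.1]
  set w1 : ℝ → ℝ := fun t => w (cl t) with hw1
  have hw1m : Monotone w1 := fun s t hst => hw (hclI s) (hclI t) (hclm hst)
  have hw10 : ∀ t, 0 ≤ w1 t := fun t => hw0 _ (hclI t)
  have hw1Q : ∀ t, w1 t ≤ w Q0 := fun t => hw (hclI t) ⟨hQ0, le_rfl⟩ (hclI t).2
  set μ : Measure ℝ := volume.restrict (Ioo 0 1) with hμ
  have hd : ∀ (K g : ℝ → ℝ), Monotone g → EqOn K g (Ioo 0 1) → ∀ t, bdDist K t = (μ {v | g v ≤ t}).toReal := by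
    intro K g hg e t
    have hm : MeasurableSet {v | g v ≤ t} := measurableSet_le hg.measurable measurable_const
    rw [hμ, Measure.restrict_apply hm, bdDist]
    congr 2
    ext v
    constructor
    · rintro ⟨hv, hk⟩
      exact ⟨by show g v ≤ t; rw [← e hv]; exact hk, hv⟩
    · rintro ⟨hk, hv⟩
      exact ⟨hv, by rw [e hv]; exact hk⟩
  have hd1 := hd K1 g1 hg1 e1
  have hd2 := hd K2 g2 hg2 e2
  have main := bud_n11_layer_lint (μ := μ) hg1.measurable hg2.measurable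
    (w := fun t => ENNReal.ofReal (w1 t)) (fun s t hst => ENNReal.ofReal_le_ofReal (hw1m hst))
  -- the two real functions
  set G : ℝ → ℝ := fun t => w1 t * |(μ {v | g1 v ≤ t}).toReal - (μ {v | g2 v ≤ t}).toReal| with hG
  set F : ℝ → ℝ := fun v => w1 (max (g1 v) (g2 v)) * |g1 v - g2 v| with hF
  have hG0 : ∀ t, 0 ≤ G t := fun t => mul_nonneg (hw10 t) (abs_nonneg _)
  have hF0 : ∀ v, 0 ≤ F v := fun v => mul_nonneg (hw10 _) (abs_nonneg _)
  have hFm : Measurable F :=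
    (hw1m.measurable.comp (hg1.measurable.max hg2.measurable)).mul (hg1.measurable.sub hg2.measurable).abs
  have hmono : ∀ g : ℝ → ℝ, Monotone (fun t => (μ {v | g v ≤ t}).toReal) := by
    intro g s t hst
    exact ENNReal.toReal_mono (measure_ne_top _ _) (measure_mono (fun v hv => le_trans hv hst))
  have hGm : Measurable G :=
    hw1m.measurable.mul ((hmono g1).measurable.sub (hmono g2).measurable).abs
  have eL : ∫ t in (0:ℝ)..Q0, w t * |bdDist K1 t - bdDist K2 t| = ∫ t in Ioc 0 Q0, G t := by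
    rw [intervalIntegral.integral_of_le hQ0]
    apply setIntegral_congr_fun measurableSet_Ioc
    intro t ht
    simp only [hG, hw1]
    rw [hcle t ⟨ht.1.le, ht.2⟩, hd1, hd2]
  have eR : ∫ v in (0:ℝ)..1, w (max (K1 v) (K2 v)) * |K1 v - K2 v| = ∫ v, F v ∂μ := by
    rw [intervalIntegral.integral_of_le zero_le_one, integral_Ioc_eq_integral_Ioo]
    apply setIntegral_congr_fun measurableSet_Ioo
    intro v hv
    simp only [hF, hw1]
    rw [← e1 hv, ← e2 hv, hcle _ ⟨le_max_of_le_left (hr1 v hv).1, max_le (hr1 v hv).2 (hr2 v hv).2⟩]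
  rw [eL, eR, integral_eq_lintegral_of_nonneg_ae (Eventually.of_forall hG0) hGm.aestronglyMeasurable,
    integral_eq_lintegral_of_nonneg_ae (Eventually.of_forall hF0) hFm.aestronglyMeasurable]
  have hfin : ∫⁻ v, ENNReal.ofReal (F v) ∂μ ≠ ⊤ := by
    have hb : ∀ᵐ v ∂μ, ENNReal.ofReal (F v) ≤ ENNReal.ofReal (w Q0 * Q0) := by
      rw [hμ]
      filter_upwards [ae_restrict_mem measurableSet_Ioo] with v hv
      apply ENNReal.ofReal_le_ofReal
      simp only [hF]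
      apply mul_le_mul (hw1Q _) _ (abs_nonneg _) (hw0 Q0 ⟨hQ0, le_rfl⟩)
      rw [← e1 hv, ← e2 hv, abs_le]
      have a1 := hr1 v hv
      have a2 := hr2 v hv
      constructor <;> linarith [a1.1, a1.2, a2.1, a2.2]
    have := lintegral_mono_ae hb
    rw [lintegral_const] at this
    exact ne_top_of_le_ne_top (ENNReal.mul_ne_top ENNReal.ofReal_ne_top (measure_ne_top _ _)) this
  apply ENNReal.toReal_mono hfin
  calc ∫⁻ t in Ioc 0 Q0, ENNReal.ofReal (G t) ≤ ∫⁻ t, ENNReal.ofReal (G t) :=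
        lintegral_mono' Measure.restrict_le_self le_rfl
    _ = ∫⁻ t, ENNReal.ofReal (w1 t) * ENNReal.ofReal |(μ {v | g1 v ≤ t}).toReal - (μ {v | g2 v ≤ t}).toReal| := by
        apply lintegral_congr
        intro t
        simp only [hG]
        rw [ENNReal.ofReal_mul (hw10 t)]
    _ ≤ ∫⁻ v, ENNReal.ofReal (w1 (max (g1 v) (g2 v))) * ENNReal.ofReal |g1 v - g2 v| ∂μ := main
    _ = ∫⁻ v, ENNReal.ofReal (F v) ∂μ := by
        apply lintegral_congr
        intro v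
        simp only [hF]
        rw [ENNReal.ofReal_mul (hw10 _)]

/-! ### bounded a.e.-measurable functions on `(0,1)` -/

/-- a.e.-bounded and a.e.-measurable on `(0,1)` -/
def BudBM (f : ℝ → ℝ) : Prop :=
  AEStronglyMeasurable f (volume.restrict (Ioo (0:ℝ) 1)) ∧ ∃ C, ∀ᵐ v ∂(volume.restrict (Ioo (0:ℝ) 1)), |f v| ≤ C

theorem bud_n11e_eqns_cite : True := by
  have := @BudBM.eq_1
  trivial

namespace BudBM

variable {f g : ℝ → ℝ}

theorem const (c : ℝ) : BudBM (fun _ => c) := ⟨aestronglyMeasurable_const, |c|, Eventually.of_forall fun _ => le_rfl⟩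

theorem add (hf : BudBM f) (hg : BudBM g) : BudBM (fun v => f v + g v) := by
  obtain ⟨m1, C1, h1⟩ := hf
  obtain ⟨m2, C2, h2⟩ := hg
  refine ⟨m1.add m2, C1 + C2, ?_⟩
  filter_upwards [h1, h2] with v a1 a2 using (abs_add_le _ _).trans (add_le_add a1 a2)

theorem sub (hf : BudBM f) (hg : BudBM g) : BudBM (fun v => f v - g v) := by
  obtain ⟨m1, C1, h1⟩ := hf
  obtain ⟨m2, C2, h2⟩ := hg
  refine ⟨m1.sub m2, C1 + C2, ?_⟩
  filter_upwards [h1, h2] with v a1 a2 using (abs_sub _ _).trans (add_le_add a1 a2)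

theorem mul (hf : BudBM f) (hg : BudBM g) : BudBM (fun v => f v * g v) := by
  obtain ⟨m1, C1, h1⟩ := hf
  obtain ⟨m2, C2, h2⟩ := hg
  refine ⟨m1.mul m2, C1 * C2, ?_⟩
  filter_upwards [h1, h2] with v a1 a2
  rw [abs_mul]
  exact mul_le_mul a1 a2 (abs_nonneg _) ((abs_nonneg _).trans a1)

theorem abs (hf : BudBM f) : BudBM (fun v => |f v|) := by
  obtain ⟨m1, C1, h1⟩ := hf
  refine ⟨m1.norm, C1, ?_⟩
  filter_upwards [h1] with v a1
  rw [abs_abs]; exact a1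

theorem sq (hf : BudBM f) : BudBM (fun v => f v ^ 2) := by
  have := hf.mul hf
  simpa [pow_two] using this

theorem sqrt (hf : BudBM f) : BudBM (fun v => Real.sqrt (f v)) := by
  obtain ⟨m1, C1, h1⟩ := hf
  refine ⟨(Real.continuous_sqrt.measurable.comp_aemeasurable m1.aemeasurable).aestronglyMeasurable,
    Real.sqrt C1, ?_⟩
  filter_upwards [h1] with v a1
  rw [abs_of_nonneg (Real.sqrt_nonneg _)]
  exact Real.sqrt_le_sqrt ((le_abs_self _).trans a1)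

theorem of_bd (hf : AEStronglyMeasurable f (volume.restrict (Ioo (0:ℝ) 1))) {C : ℝ} (h : ∀ v ∈ Ioo (0:ℝ) 1, |f v| ≤ C) :
    BudBM f :=
  ⟨hf, C, by filter_upwards [ae_restrict_mem measurableSet_Ioo] with v hv using h v hv⟩

theorem of_meas (hf : Measurable f) {C : ℝ} (h : ∀ v ∈ Ioo (0:ℝ) 1, |f v| ≤ C) : BudBM f :=
  of_bd hf.aestronglyMeasurable h

theorem of_mono (hf : MonotoneOn f (Ioo 0 1)) {C : ℝ} (h : ∀ v ∈ Ioo (0:ℝ) 1, |f v| ≤ C) : BudBM f :=
  of_bd (aemeasurable_restrict_of_monotoneOn measurableSet_Ioo hf).aestronglyMeasurable h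

theorem comp_meas {φ : ℝ → ℝ} (hφ : Measurable φ) (hf : BudBM f) {C : ℝ} (h : ∀ v ∈ Ioo (0:ℝ) 1, |φ (f v)| ≤ C) :
    BudBM (fun v => φ (f v)) :=
  of_bd (hφ.comp_aemeasurable hf.1.aemeasurable).aestronglyMeasurable h

theorem indicator (hf : BudBM f) {s : Set ℝ} (hs : MeasurableSet s) : BudBM (s.indicator f) := by
  obtain ⟨m1, C1, h1⟩ := hf
  refine ⟨m1.indicator hs, C1, ?_⟩
  filter_upwards [h1] with v a1
  by_cases hvs : v ∈ s
  · rw [indicator_of_mem hvs]; exact a1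
  · rw [indicator_of_notMem hvs, abs_zero]; exact (abs_nonneg _).trans a1

theorem congr (hf : BudBM f) (h : ∀ v ∈ Ioo (0:ℝ) 1, f v = g v) : BudBM g := by
  obtain ⟨m1, C1, h1⟩ := hf
  have hae : f =ᵐ[volume.restrict (Ioo (0:ℝ) 1)] g := by
    filter_upwards [ae_restrict_mem measurableSet_Ioo] with v hv using h v hv
  refine ⟨m1.congr hae, C1, ?_⟩
  filter_upwards [h1, hae] with v a1 a2
  rw [← a2]; exact a1

theorem integrableOn (hf : BudBM f) : IntegrableOn f (Ioo 0 1) := by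
  obtain ⟨m1, C1, h1⟩ := hf
  refine Integrable.of_bound m1 C1 ?_
  filter_upwards [h1] with v a1
  rw [Real.norm_eq_abs]; exact a1

theorem integrableOn_sub (hf : BudBM f) {s : Set ℝ} (hs : s ⊆ Ioo 0 1) : IntegrableOn f s :=
  hf.integrableOn.mono_set hs

theorem intervalIntegrable (hf : BudBM f) {a b : ℝ} (ha : 0 ≤ a) (hab : a ≤ b) (hb : b ≤ 1) :
    IntervalIntegrable f volume a b := by
  rw [intervalIntegrable_iff, uIoc_of_le hab, integrableOn_Ioc_iff_integrableOn_Ioo]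
  exact hf.integrableOn_sub (Ioo_subset_Ioo ha hb)

end BudBM

theorem bud_n11_bm_id : BudBM (fun v => v) :=
  BudBM.of_meas measurable_id (C := 1) (fun v hv => by rw [abs_of_pos hv.1]; exact hv.2.le)

theorem bud_n11_bm_min (u : ℝ) (hu : 0 ≤ u) : BudBM (fun v => min u v) :=
  BudBM.of_meas (measurable_const.min measurable_id) (C := u) (fun v hv => by
    rw [abs_of_nonneg (le_min hu hv.1.le)]; exact min_le_left _ _)

/-- interval integral on `[0,1]` as an integral over `(0,1)` -/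
theorem bud_n11_int01 (f : ℝ → ℝ) : ∫ v in (0:ℝ)..1, f v = ∫ v in Ioo (0:ℝ) 1, f v := by
  rw [intervalIntegral.integral_of_le zero_le_one, integral_Ioc_eq_integral_Ioo]

/-- interval integral on `[a,1] ⊆ (0,1]` as an integral over `(0,1)` -/
theorem bud_n11_int_eq (f : ℝ → ℝ) {a : ℝ} (ha : 0 < a) (ha1 : a ≤ 1) :
    ∫ v in a..1, f v = ∫ v in Ioo (0:ℝ) 1, (Ici a).indicator f v := by
  rw [intervalIntegral.integral_of_le ha1, integral_Ioc_eq_integral_Ioo, ← integral_Ico_eq_integral_Ioo,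
    setIntegral_indicator measurableSet_Ici]
  congr 2
  ext v
  simp only [mem_Ico, mem_Ioo, mem_inter_iff, mem_Ici]
  constructor
  · rintro ⟨h1, h2⟩; exact ⟨⟨lt_of_lt_of_le ha h1, h2⟩, h1⟩
  · rintro ⟨⟨_, h2⟩, h3⟩; exact ⟨h3, h2⟩

/-- Cauchy-Schwarz for bounded functions on a finite measure space -/
theorem bud_n11_cs_gen {μ : Measure ℝ} [IsFiniteMeasure μ] {φ ψ : ℝ → ℝ}
    (hφ : AEStronglyMeasurable φ μ) (hψ : AEStronglyMeasurable ψ μ) {C1 C2 : ℝ}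
    (h1 : ∀ᵐ x ∂μ, |φ x| ≤ C1) (h2 : ∀ᵐ x ∂μ, |ψ x| ≤ C2) (hφ0 : 0 ≤ᵐ[μ] φ) (hψ0 : 0 ≤ᵐ[μ] ψ) :
    ∫ x, φ x * ψ x ∂μ ≤ Real.sqrt (∫ x, φ x ^ 2 ∂μ) * Real.sqrt (∫ x, ψ x ^ 2 ∂μ) := by
  have hpq : (2:ℝ).HolderConjugate 2 := by
    constructor <;> norm_num
  have m1 : MemLp φ (ENNReal.ofReal 2) μ := MemLp.of_bound hφ C1 (by simpa [Real.norm_eq_abs] using h1)
  have m2 : MemLp ψ (ENNReal.ofReal 2) μ := MemLp.of_bound hψ C2 (by simpa [Real.norm_eq_abs] using h2)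
  have := integral_mul_le_Lp_mul_Lq_of_nonneg hpq hφ0 hψ0 m1 m2
  simp only [Real.rpow_two] at this
  rw [Real.sqrt_eq_rpow, Real.sqrt_eq_rpow]
  exact this


theorem bud_n11_int_inv_sq {a b c : ℝ} (ha : 0 < a) (hab : a ≤ b) :
    IntervalIntegrable (fun v => (c / v) ^ 2) volume a b ∧ ∫ v in a..b, (c / v) ^ 2 = c ^ 2 * (1 / a - 1 / b) := by
  have hder : ∀ x ∈ uIcc a b, HasDerivAt (fun v => -(c ^ 2) / v) ((c / x) ^ 2) x := by
    intro x hx
    rw [uIcc_of_le hab] at hx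
    have hx0 : 0 < x := lt_of_lt_of_le ha hx.1
    have h3 : HasDerivAt (fun v : ℝ => -(c ^ 2) / v) ((0 * x - (-(c ^ 2)) * 1) / x ^ 2) x :=
      (hasDerivAt_const x (-(c ^ 2))).div (hasDerivAt_id x) hx0.ne'
    have e : (c / x) ^ 2 = (0 * x - (-(c ^ 2)) * 1) / x ^ 2 := by
      rw [div_pow]; ring
    rw [e]; exact h3
  have hint : IntervalIntegrable (fun v => (c / v) ^ 2) volume a b := by
    apply ContinuousOn.intervalIntegrable
    rw [uIcc_of_le hab]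
    apply ContinuousOn.pow
    apply ContinuousOn.div continuousOn_const continuousOn_id
    intro x hx
    exact (lt_of_lt_of_le ha hx.1).ne'
  refine ⟨hint, ?_⟩
  rw [intervalIntegral.integral_eq_sub_of_hasDerivAt hder hint]
  have hb : 0 < b := lt_of_lt_of_le ha hab
  field_simp
  ring

/-- weighted Cauchy-Schwarz: `∫_a^1 w |f| ≤ √Wb √(∫_0^1 v² f²)` if `∫_a^1 (w/v)² ≤ Wb` -/
theorem bud_n11_cs_w {f w : ℝ → ℝ} {a Wb Cw : ℝ} (ha : 0 ≤ a) (ha1 : a ≤ 1) (hf : BudBM f)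
    (hw : Measurable w) (hw0 : ∀ v ∈ Ioo a 1, 0 ≤ w v) (hwb : ∀ v ∈ Ioo a 1, w v ≤ Cw * v)
    (hW : ∫ v in a..1, (w v / v) ^ 2 ≤ Wb) :
    ∫ v in a..1, w v * |f v| ≤ Real.sqrt Wb * Real.sqrt (∫ v in (0:ℝ)..1, v ^ 2 * f v ^ 2) := by
  obtain ⟨C, hC⟩ := hf.2
  have hsub : Ioo a 1 ⊆ Ioo (0:ℝ) 1 := Ioo_subset_Ioo ha le_rfl
  have hC' : ∀ᵐ v ∂(volume.restrict (Ioo a 1)), |f v| ≤ C := ae_restrict_of_ae_restrict_of_subset hsub hC
  have hfm : AEStronglyMeasurable f (volume.restrict (Ioo a 1)) := hf.1.mono_set hsub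
  have hmem := ae_restrict_mem (μ := (volume : Measure ℝ)) (measurableSet_Ioo (a := a) (b := 1))
  have cs := bud_n11_cs_gen (μ := volume.restrict (Ioo a 1)) (φ := fun v => w v / v) (ψ := fun v => v * |f v|)
    (hw.div measurable_id).aestronglyMeasurable
    (measurable_id.aestronglyMeasurable.mul hfm.norm) (C1 := Cw) (C2 := C)
    (by
      filter_upwards [hmem] with v hv
      have hv0 : 0 < v := lt_of_le_of_lt ha hv.1
      rw [abs_of_nonneg (div_nonneg (hw0 v hv) hv0.le), div_le_iff₀ hv0]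
      exact hwb v hv)
    (by
      filter_upwards [hmem, hC'] with v hv hCv
      have hv0 : 0 < v := lt_of_le_of_lt ha hv.1
      rw [abs_mul, abs_abs, abs_of_pos hv0]
      calc v * |f v| ≤ 1 * |f v| := mul_le_mul_of_nonneg_right hv.2.le (abs_nonneg _)
        _ ≤ C := by rw [one_mul]; exact hCv)
    (by
      filter_upwards [hmem] with v hv
      exact div_nonneg (hw0 v hv) (lt_of_le_of_lt ha hv.1).le)
    (by
      filter_upwards [hmem] with v hv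
      exact mul_nonneg (lt_of_le_of_lt ha hv.1).le (abs_nonneg _))
  have e1 : ∫ v in a..1, w v * |f v| = ∫ v in Ioo a 1, w v / v * (v * |f v|) := by
    rw [intervalIntegral.integral_of_le ha1, integral_Ioc_eq_integral_Ioo]
    apply setIntegral_congr_fun measurableSet_Ioo
    intro v hv
    have hv0 : v ≠ 0 := (lt_of_le_of_lt ha hv.1).ne'
    show w v * |f v| = w v / v * (v * |f v|)
    field_simp
  have e2 : ∫ v in Ioo a 1, (w v / v) ^ 2 ≤ Wb := by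
    rw [intervalIntegral.integral_of_le ha1, integral_Ioc_eq_integral_Ioo] at hW
    exact hW
  have e3 : ∫ v in Ioo a 1, (v * |f v|) ^ 2 ≤ ∫ v in (0:ℝ)..1, v ^ 2 * f v ^ 2 := by
    rw [intervalIntegral.integral_of_le zero_le_one, integral_Ioc_eq_integral_Ioo]
    have : ∀ v, (v * |f v|) ^ 2 = v ^ 2 * f v ^ 2 := fun v => by rw [mul_pow, sq_abs]
    simp only [this]
    apply setIntegral_mono_set (bud_n11_bm_id.sq.mul hf.sq).integrableOn
    · exact Eventually.of_forall (fun v => by positivity)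
    · exact hsub.eventuallyLE
  rw [e1]
  refine cs.trans ?_
  exact mul_le_mul (Real.sqrt_le_sqrt e2) (Real.sqrt_le_sqrt e3) (Real.sqrt_nonneg _) (Real.sqrt_nonneg _)

theorem bud_n11_min_sq {u a : ℝ} (hu : 0 < u) (hu1 : u ≤ 1) (ha : 0 ≤ a) (ha1 : a ≤ 1) :
    ∫ v in a..1, (min u v / v) ^ 2 ≤ 2 * u := by
  have hbm : BudBM (fun v => (min u v / v) ^ 2) :=
    BudBM.of_meas (((measurable_const.min measurable_id).div measurable_id).pow_const 2) (C := 1) (fun v hv => by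
      rw [abs_of_nonneg (by positivity)]
      have h1 : 0 ≤ min u v / v := div_nonneg (le_min hu.le hv.1.le) hv.1.le
      have h2 : min u v / v ≤ 1 := by rw [div_le_one hv.1]; exact min_le_right _ _
      nlinarith)
  have h0 : ∫ v in a..1, (min u v / v) ^ 2 ≤ ∫ v in (0:ℝ)..1, (min u v / v) ^ 2 :=
    intervalIntegral.integral_mono_interval ha ha1 le_rfl (Eventually.of_forall (fun v => by positivity))
      (hbm.intervalIntegrable le_rfl zero_le_one le_rfl)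
  refine h0.trans ?_
  rw [← intervalIntegral.integral_add_adjacent_intervals (hbm.intervalIntegrable le_rfl hu.le hu1)
    (hbm.intervalIntegrable hu.le hu1 le_rfl)]
  have e1 : ∫ v in (0:ℝ)..u, (min u v / v) ^ 2 = ∫ _v in (0:ℝ)..u, (1:ℝ) := by
    apply intervalIntegral.integral_congr_ae
    refine Eventually.of_forall (fun v hv => ?_)
    rw [uIoc_of_le hu.le] at hv
    rw [min_eq_right hv.2, div_self hv.1.ne', one_pow]
  have e2 : ∫ v in u..1, (min u v / v) ^ 2 = ∫ v in u..1, (u / v) ^ 2 := by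
    apply intervalIntegral.integral_congr_ae
    refine Eventually.of_forall (fun v hv => ?_)
    rw [uIoc_of_le hu1] at hv
    rw [min_eq_left hv.1.le]
  rw [e1, e2, (bud_n11_int_inv_sq (c := u) hu hu1).2]
  simp only [intervalIntegral.integral_const, smul_eq_mul, sub_zero, mul_one]
  have : u ^ 2 * (1 / u - 1 / 1) = u - u ^ 2 := by field_simp
  rw [this]
  nlinarith [sq_nonneg u]

/-- E1 Cauchy-Schwarz with the weight `min(u,v)`:  `∫ (min(u,v)/v)² dv ≤ 2u` -/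
theorem bud_n11_cs {f : ℝ → ℝ} {u a : ℝ} (hu : 0 < u) (hu1 : u ≤ 1) (ha : 0 ≤ a) (ha1 : a ≤ 1)
    (hf : AEStronglyMeasurable f (volume.restrict (Ioo (0:ℝ) 1)))
    (hfb : ∃ C, ∀ v ∈ Ioo (0:ℝ) 1, |f v| ≤ C) :
    ∫ v in a..1, min u v * |f v| ≤ Real.sqrt (2 * u) * Real.sqrt (∫ v in (0:ℝ)..1, v ^ 2 * f v ^ 2) := by
  obtain ⟨C, hC⟩ := hfb
  refine bud_n11_cs_w (Cw := 1) ha ha1 (BudBM.of_bd hf hC) (measurable_const.min measurable_id)
    (fun v hv => le_min hu.le (ha.trans hv.1.le)) (fun v _ => by rw [one_mul]; exact min_le_right _ _)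
    (bud_n11_min_sq hu hu1 ha ha1)

/-- E1' the same on a band `[a, 1]`, without weight: `∫_a^1 v⁻² ≤ 1/a` -/
theorem bud_n11_cs_band {f : ℝ → ℝ} {a : ℝ} (ha : 0 < a) (ha1 : a ≤ 1)
    (hf : AEStronglyMeasurable f (volume.restrict (Ioo (0:ℝ) 1)))
    (hfb : ∃ C, ∀ v ∈ Ioo (0:ℝ) 1, |f v| ≤ C) :
    ∫ v in a..1, |f v| ≤ Real.sqrt (∫ v in (0:ℝ)..1, v ^ 2 * f v ^ 2) / Real.sqrt a := by
  obtain ⟨C, hC⟩ := hfb
  have h := bud_n11_cs_w (w := fun _ => 1) (Cw := 1 / a) (Wb := 1 / a) ha.le ha1 (BudBM.of_bd hf hC) measurable_const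
    (fun v _ => zero_le_one) (fun v hv => by
      rw [div_mul_eq_mul_div, one_mul, le_div_iff₀ ha, one_mul]; exact hv.1.le)
    (by
      rw [(bud_n11_int_inv_sq (c := 1) ha ha1).2]
      have : (0:ℝ) ≤ 1 / 1 := by norm_num
      nlinarith [this])
  simp only [one_mul] at h
  refine h.trans (le_of_eq ?_)
  rw [Real.sqrt_div zero_le_one, Real.sqrt_one]
  ring

/-- Tonelli on the strip between two graphs -/
theorem bud_n11_strip_tonelli {μ : Measure ℝ} [SFinite μ] {K1 K2 : ℝ → ℝ} (h1 : Measurable K1) (h2 : Measurable K2) :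
    ∫⁻ v, ENNReal.ofReal |K1 v - K2 v| ∂μ = ∫⁻ t, μ {v | (v, t) ∈ budN11Strip K1 K2} := by
  have hS := bud_n11_strip_meas h1 h2
  set G : ℝ → ℝ → ENNReal := fun v t => (budN11Strip K1 K2).indicator (fun _ => (1 : ENNReal)) (v, t) with hG
  have hGm : Measurable (Function.uncurry G) := by
    have : Function.uncurry G = fun p : ℝ × ℝ => (budN11Strip K1 K2).indicator (fun _ => (1 : ENNReal)) p := by
      funext p; rfl
    rw [this]
    exact measurable_const.indicator hS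
  have s1 : ∀ t, ∫⁻ v, G v t ∂μ = μ {v | (v, t) ∈ budN11Strip K1 K2} := by
    intro t
    have hsec : MeasurableSet {v | (v, t) ∈ budN11Strip K1 K2} :=
      (measurable_id.prodMk measurable_const) hS
    have hind : (fun v => G v t) = ({v | (v, t) ∈ budN11Strip K1 K2}).indicator (fun _ => (1 : ENNReal)) := by
      funext v; simp [hG, indicator]
    rw [hind, lintegral_indicator hsec]
    simp
  have s3 : ∀ v, ∫⁻ t, G v t = ENNReal.ofReal |K1 v - K2 v| := by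
    intro v
    have hind : (fun t => G v t) = (Ico (min (K1 v) (K2 v)) (max (K1 v) (K2 v))).indicator (fun _ => (1 : ENNReal)) := by
      funext t
      simp only [hG]
      by_cases ht : t ∈ Ico (min (K1 v) (K2 v)) (max (K1 v) (K2 v))
      · have : (v, t) ∈ budN11Strip K1 K2 := ht
        rw [indicator_of_mem this, indicator_of_mem ht]
      · have : (v, t) ∉ budN11Strip K1 K2 := ht
        rw [indicator_of_notMem this, indicator_of_notMem ht]
    rw [hind, lintegral_indicator measurableSet_Ico]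
    simp only [lintegral_const, Measure.restrict_apply MeasurableSet.univ, univ_inter, one_mul]
    rw [Real.volume_Ico, max_sub_min_eq_abs']
  calc ∫⁻ v, ENNReal.ofReal |K1 v - K2 v| ∂μ = ∫⁻ v, (∫⁻ t, G v t) ∂μ := by simp only [s3]
    _ = ∫⁻ t, ∫⁻ v, G v t ∂μ := lintegral_lintegral_swap hGm.aemeasurable
    _ = _ := by simp only [s1]

/-- E2 area between two increasing graphs (Fubini): `al`, `β` on `[Ilo,Ihi]`, inverses `r`, `q` on the band.
`∫_I |α - β| dr = ∫ |[r(v), q(v)] ∩ I| dv ≤ ∫_{band} |r(v) - q(v)| dv`. -/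
theorem bud_n11_area {al β r q : ℝ → ℝ} {Ilo Ihi vlo : ℝ} (hI : Ilo ≤ Ihi)
    (hal : MonotoneOn al (Icc Ilo Ihi)) (hβ : MonotoneOn β (Icc Ilo Ihi))
    (hr : MonotoneOn r (Ioo 0 1)) (hq : MonotoneOn q (Ioo 0 1))
    (hrb : ∀ v ∈ Ioo (0:ℝ) 1, r v ∈ Icc (0:ℝ) 1) (hqb : ∀ v ∈ Ioo (0:ℝ) 1, q v ∈ Icc (0:ℝ) 1)
    (halm : ∀ s ∈ Icc Ilo Ihi, al s ∈ Ico vlo 1) (hβm : ∀ s ∈ Icc Ilo Ihi, β s ∈ Ico vlo 1) (hvlo : 0 < vlo)
    (hral : ∀ s ∈ Icc Ilo Ihi, r (al s) = s) (hqβ : ∀ s ∈ Icc Ilo Ihi, q (β s) = s) :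
    ∫ s in Ilo..Ihi, |al s - β s| ≤ ∫ v in vlo..1, |r v - q v| := by
  have hvlo1 : vlo ≤ 1 := by
    have := halm Ilo ⟨le_rfl, hI⟩
    exact (this.1.trans this.2.le)
  obtain ⟨a1, ha1, e1⟩ := hal.exists_monotone_extension
    ⟨vlo, by rintro _ ⟨v, hv, rfl⟩; exact (halm v hv).1⟩ ⟨1, by rintro _ ⟨v, hv, rfl⟩; exact (halm v hv).2.le⟩
  obtain ⟨b1, hb1, e2⟩ := hβ.exists_monotone_extension
    ⟨vlo, by rintro _ ⟨v, hv, rfl⟩; exact (hβm v hv).1⟩ ⟨1, by rintro _ ⟨v, hv, rfl⟩; exact (hβm v hv).2.le⟩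
  set μ : Measure ℝ := volume.restrict (Ioc Ilo Ihi) with hμ
  have hsubI : Ioc Ilo Ihi ⊆ Icc Ilo Ihi := Ioc_subset_Icc_self
  have hsubv : Ico vlo 1 ⊆ Ioo (0:ℝ) 1 := fun v hv => ⟨lt_of_lt_of_le hvlo hv.1, hv.2⟩
  have ton := bud_n11_strip_tonelli (μ := μ) ha1.measurable hb1.measurable
  -- sections
  have hsec : ∀ t, μ {s | (s, t) ∈ budN11Strip a1 b1} ≤ (Ico vlo 1).indicator (fun t => ENNReal.ofReal |r t - q t|) t := by
    intro t
    have hm : MeasurableSet {s | (s, t) ∈ budN11Strip a1 b1} :=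
      (measurable_id.prodMk measurable_const) (bud_n11_strip_meas ha1.measurable hb1.measurable)
    rw [hμ, Measure.restrict_apply hm]
    by_cases ht : t ∈ Ico vlo 1
    · rw [indicator_of_mem ht]
      have hsub : {s | (s, t) ∈ budN11Strip a1 b1} ∩ Ioc Ilo Ihi ⊆ Icc (min (r t) (q t)) (max (r t) (q t)) := by
        rintro s ⟨hs, hsI⟩
        have hsI' := hsubI hsI
        have hs' : min (al s) (β s) ≤ t ∧ t < max (al s) (β s) := by
          have : min (a1 s) (b1 s) ≤ t ∧ t < max (a1 s) (b1 s) := hs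
          rwa [← e1 hsI', ← e2 hsI'] at this
        have ht' := hsubv ht
        have hA := hsubv (halm s hsI')
        have hB := hsubv (hβm s hsI')
        rcases le_total (al s) (β s) with hle | hle
        · rw [min_eq_left hle, max_eq_right hle] at hs'
          have k1 : s ≤ r t := by rw [← hral s hsI']; exact hr hA ht' hs'.1
          have k2 : q t ≤ s := by rw [← hqβ s hsI']; exact hq ht' hB hs'.2.le
          exact ⟨(min_le_right _ _).trans k2, k1.trans (le_max_left _ _)⟩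
        · rw [min_eq_right hle, max_eq_left hle] at hs'
          have k1 : r t ≤ s := by rw [← hral s hsI']; exact hr ht' hA hs'.2.le
          have k2 : s ≤ q t := by rw [← hqβ s hsI']; exact hq hB ht' hs'.1
          exact ⟨(min_le_left _ _).trans k1, k2.trans (le_max_right _ _)⟩
      calc volume ({s | (s, t) ∈ budN11Strip a1 b1} ∩ Ioc Ilo Ihi) ≤ volume (Icc (min (r t) (q t)) (max (r t) (q t))) :=
            measure_mono hsub
        _ = ENNReal.ofReal |r t - q t| := by rw [Real.volume_Icc, max_sub_min_eq_abs']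
    · rw [indicator_of_notMem ht]
      have : {s | (s, t) ∈ budN11Strip a1 b1} ∩ Ioc Ilo Ihi = ∅ := by
        ext s
        simp only [mem_inter_iff, mem_empty_iff_false, iff_false]
        rintro ⟨hs, hsI⟩
        have hsI' := hsubI hsI
        have hs' : min (al s) (β s) ≤ t ∧ t < max (al s) (β s) := by
          have : min (a1 s) (b1 s) ≤ t ∧ t < max (a1 s) (b1 s) := hs
          rwa [← e1 hsI', ← e2 hsI'] at this
        exact ht ⟨(le_min (halm s hsI').1 (hβm s hsI').1).trans hs'.1,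
          lt_of_lt_of_le hs'.2 (max_le (halm s hsI').2.le (hβm s hsI').2.le)⟩
      rw [this]; simp
  have eL : ∫ s in Ilo..Ihi, |al s - β s| = ∫ s, |a1 s - b1 s| ∂μ := by
    rw [intervalIntegral.integral_of_le hI]
    apply setIntegral_congr_fun measurableSet_Ioc
    intro s hs
    show |al s - β s| = |a1 s - b1 s|
    rw [e1 (hsubI hs), e2 (hsubI hs)]
  have eR : ∫ v in vlo..1, |r v - q v| = ∫ v in Ico vlo 1, |r v - q v| := by
    rw [intervalIntegral.integral_of_le hvlo1, integral_Ioc_eq_integral_Ioo, integral_Ico_eq_integral_Ioo]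
  have hmR : AEStronglyMeasurable (fun v => |r v - q v|) (volume.restrict (Ico vlo 1)) :=
    (((aemeasurable_restrict_of_monotoneOn measurableSet_Ico (hr.mono hsubv)).sub
      (aemeasurable_restrict_of_monotoneOn measurableSet_Ico (hq.mono hsubv))).aestronglyMeasurable).norm
  have hmL : AEStronglyMeasurable (fun s => |a1 s - b1 s|) μ :=
    (ha1.measurable.sub hb1.measurable).abs.aestronglyMeasurable
  rw [eL, eR, integral_eq_lintegral_of_nonneg_ae (Eventually.of_forall (fun _ => abs_nonneg _)) hmL,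
    integral_eq_lintegral_of_nonneg_ae (Eventually.of_forall (fun _ => abs_nonneg _)) hmR]
  have hfin : ∫⁻ v in Ico vlo 1, ENNReal.ofReal |r v - q v| ≠ ⊤ := by
    have hb : ∀ᵐ v ∂(volume.restrict (Ico vlo 1)), ENNReal.ofReal |r v - q v| ≤ 1 := by
      filter_upwards [ae_restrict_mem measurableSet_Ico] with v hv
      rw [← ENNReal.ofReal_one]
      apply ENNReal.ofReal_le_ofReal
      have a1 := hrb v (hsubv hv)
      have a2 := hqb v (hsubv hv)
      rw [abs_le]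
      constructor <;> linarith [a1.1, a1.2, a2.1, a2.2]
    have := lintegral_mono_ae hb
    rw [lintegral_const] at this
    refine ne_top_of_le_ne_top ?_ this
    simp
  apply ENNReal.toReal_mono hfin
  rw [ton]
  calc ∫⁻ t, μ {s | (s, t) ∈ budN11Strip a1 b1} ≤ ∫⁻ t, (Ico vlo 1).indicator (fun t => ENNReal.ofReal |r t - q t|) t :=
        lintegral_mono hsec
    _ = ∫⁻ v in Ico vlo 1, ENNReal.ofReal |r v - q v| := lintegral_indicator measurableSet_Ico _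

/-! ## the data -/

/-- data of the transport estimate; `g` = geometry datum; `q d b Ks Kst` functions of the MASS; `k0` = the original floor, `kap` = the extra floor on `[Ilo, Ihi]` -/
structure BudTr where
  g : BudGeo
  q : ℝ → ℝ
  d : ℝ → ℝ
  Ks : ℝ → ℝ
  Kst : ℝ → ℝ
  β : ℝ → ℝ
  k0 : ℝ → ℝ
  kap : ℝ
  Ilo : ℝ
  Ihi : ℝ
  u : ℝ
  wc : ℝ
  vlow : ℝ

namespace BudTr

variable (D : BudTr)

/-- the quantile -/
noncomputable def r (v : ℝ) : ℝ := budQ D.g.ρ v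
/-- `S_v` -/
noncomputable def Sm (v : ℝ) : ℝ := D.g.S (D.r v)
/-- `D_v²` -/
noncomputable def D2m (v : ℝ) : ℝ := D.g.B (D.r v) - D.g.S (D.r v) ^ 2
/-- `∫ v² [D_v² + (S_v - q)²] dv  (≤ 𝓝²)` -/
noncomputable def N2 : ℝ := ∫ v in (0:ℝ)..1, v ^ 2 * (D.D2m v + (D.Sm v - D.q v) ^ 2)
/-- `∫_{vlow}^1 min(u,v) |d| dv` -/
noncomputable def Dd : ℝ := ∫ v in D.vlow..1, min D.u v * |D.d v|
/-- `∫_0^1 k` -/
noncomputable def kint : ℝ := ∫ r in (0:ℝ)..1, D.k0 r
/-- `∫_{I ∩ floor} |S - r| dr` -/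
noncomputable def Jf : ℝ := ∫ r in Icc D.Ilo D.Ihi ∩ {r | 0 < D.g.H r}, |D.g.S r - r|

/-- hypotheses of the transport estimate -/
structure Ok (CK bmax Cq cb C0 Q0 kmin dmax : ℝ) : Prop where
  ok : D.g.Ok
  box : BudBoxOk D.g.kb D.g.M kmin
  u0 : 0 < D.u
  u1 : D.u ≤ 1
  CK1 : 1 ≤ CK
  bmax0 : 0 ≤ bmax
  cb0 : 0 < cb
  wc0 : 0 ≤ D.wc
  vlow0 : D.wc ≤ D.vlow
  vlow1 : D.vlow ≤ 1
  /-- the removal is at most `C0` -/
  C_le : ∀ r ∈ Icc (0:ℝ) 1, D.g.C r ≤ C0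
  /-- the floor of (C5) -/
  k0m : Measurable D.k0
  k00 : ∀ r, 0 ≤ D.k0 r
  kap0 : 0 ≤ D.kap
  kb_eq : ∀ r ∈ Icc (0:ℝ) 1, D.g.kb r = D.k0 r + if r ∈ Icc D.Ilo D.Ihi then D.kap else 0
  I0 : 0 < D.Ilo
  I1 : D.Ilo ≤ D.Ihi
  I2 : D.Ihi < 1
  /-- absorption: `κ Cq ≤ 1/2` -/
  absb : D.kap * Cq ≤ 1 / 2
  /-- the two clocks -/
  Ks_mono : MonotoneOn D.Ks (Ioo 0 1)
  Kst_mono : MonotoneOn D.Kst (Ioo 0 1)
  Ks_mem : ∀ v ∈ Ioo (0:ℝ) 1, D.Ks v ∈ Icc 0 Q0
  Kst_mem : ∀ v ∈ Ioo (0:ℝ) 1, D.Kst v ∈ Icc 0 Q0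
  Ks_le : ∀ v ∈ Ioo (0:ℝ) 1, D.Ks v ≤ CK * (v + D.wc)
  Kst_le : ∀ v ∈ Ioo (0:ℝ) 1, D.Kst v ≤ CK * (v + D.wc)
  /-- `K_s - K_* = d + b (S - q) - C(r)(S - r)` above `vlow` -/
  diff : ∀ v ∈ Ioo D.vlow 1, |D.Ks v - D.Kst v| ≤ bmax * |D.Sm v - D.q v| + |D.d v| + D.g.C (D.r v) * |D.Sm v - D.r v|
  /-- `q`, `d` -/
  q_mono : MonotoneOn D.q (Ioo 0 1)
  q_mem : ∀ v ∈ Ioo (0:ℝ) 1, D.q v ∈ Icc (0:ℝ) 1
  dm : Measurable D.d
  d_le : ∀ v ∈ Ioo (0:ℝ) 1, |D.d v| ≤ dmax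
  /-- `β = q⁻¹` on the patch; the band `α(I) ∪ β(I)` lies in `[cb u, 1)`; `q_lip` = the ONLY use of the Lipschitz bound of `q` (E4: `|q(α r) - r| = |q(α r) - q(β r)|`; 248: `q` need not be Lipschitz up to the edge) -/
  β_mono : MonotoneOn D.β (Icc D.Ilo D.Ihi)
  β_mem : ∀ r ∈ Icc D.Ilo D.Ihi, D.β r ∈ Ico (cb * D.u) 1
  qβ : ∀ r ∈ Icc D.Ilo D.Ihi, D.q (D.β r) = r
  al_ge : cb * D.u ≤ D.g.al D.Ilo
  q_lip : ∀ r ∈ Icc D.Ilo D.Ihi, |D.q (D.g.al r) - r| ≤ Cq * |D.g.al r - D.β r|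

end BudTr

theorem bud_n11e_tr_eqns_cite : True := by
  have := @BudTr.r.eq_1; have := @BudTr.Sm.eq_1; have := @BudTr.D2m.eq_1; have := @BudTr.N2.eq_1
  have := @BudTr.Dd.eq_1; have := @BudTr.kint.eq_1; have := @BudTr.Jf.eq_1
  trivial

/-! ## basic facts -/

/-- the floor set is measurable inside `[0,1]` -/
theorem bud_n11_floor_set {g : BudGeo} (hg : g.Ok) :
    ∃ U : Set ℝ, MeasurableSet U ∧ ∀ r ∈ Icc (0:ℝ) 1, (r ∈ U ↔ 0 < g.H r) := by
  obtain ⟨U, hU, hUeq⟩ := (continuousOn_iff'.1 (BudGeo.H_cont hg)) (Ioi 0) isOpen_Ioi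
  refine ⟨U, hU.measurableSet, fun r hr => ⟨fun h => ?_, fun h => ?_⟩⟩
  · have : r ∈ U ∩ Icc 0 1 := ⟨h, hr⟩
    rw [← hUeq] at this
    exact this.1
  · have : r ∈ g.H ⁻¹' Ioi 0 ∩ Icc 0 1 := ⟨h, hr⟩
    rw [hUeq] at this
    exact this.1

namespace BudTr.Ok

variable {D : BudTr} {CK bmax Cq cb C0 Q0 kmin dmax : ℝ}

theorem r_mem (h : D.Ok CK bmax Cq cb C0 Q0 kmin dmax) {v : ℝ} (hv : v ∈ Ioo (0:ℝ) 1) : D.r v ∈ Ioo (0:ℝ) 1 :=
  budQ_mem h.box h.ok.dens hv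

theorem r_al (h : D.Ok CK bmax Cq cb C0 Q0 kmin dmax) {r : ℝ} (hr : r ∈ Icc (0:ℝ) 1) : D.r (D.g.al r) = r :=
  budQ_al h.box h.ok.dens hr

theorem al_mem (h : D.Ok CK bmax Cq cb C0 Q0 kmin dmax) {r : ℝ} (hr : r ∈ Ioo (0:ℝ) 1) : D.g.al r ∈ Ioo (0:ℝ) 1 :=
  budAl_mem h.box h.ok.dens hr

theorem S_mem (h : D.Ok CK bmax Cq cb C0 Q0 kmin dmax) {r : ℝ} (hr : r ∈ Icc (0:ℝ) 1) : D.g.S r ∈ Icc (0:ℝ) 1 :=
  ⟨h.ok.S0 r hr, BudGeo.pot_S_le_one h.ok hr⟩

theorem Sr_le (h : D.Ok CK bmax Cq cb C0 Q0 kmin dmax) {r : ℝ} (hr : r ∈ Icc (0:ℝ) 1) : |D.g.S r - r| ≤ 1 := by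
  have := h.S_mem hr
  rw [abs_le]; constructor <;> linarith [this.1, this.2, hr.1, hr.2]

theorem M_pos (h : D.Ok CK bmax Cq cb C0 Q0 kmin dmax) : 0 < D.g.M := lt_trans one_pos h.ok.M1

theorem bm_r (h : D.Ok CK bmax Cq cb C0 Q0 kmin dmax) : BudBM D.r :=
  BudBM.of_mono ((budQ_mono h.box h.ok.dens).mono Ioo_subset_Icc_self) (C := 1) (fun v hv => by
    have := h.r_mem hv
    rw [abs_of_pos this.1]; exact this.2.le)

theorem bm_Sm (h : D.Ok CK bmax Cq cb C0 Q0 kmin dmax) : BudBM D.Sm :=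
  BudBM.comp_meas (φ := D.g.S) (f := D.r) h.ok.Sm h.bm_r (C := 1) (fun v hv => by
    have := h.S_mem (Ioo_subset_Icc_self (h.r_mem hv))
    rw [abs_of_nonneg this.1]; exact this.2)

theorem bm_D2m (h : D.Ok CK bmax Cq cb C0 Q0 kmin dmax) : BudBM D.D2m :=
  (BudBM.comp_meas (φ := D.g.B) (f := D.r) h.ok.Bm h.bm_r (C := 1) (fun v hv => by
    have hr := Ioo_subset_Icc_self (h.r_mem hv)
    rw [abs_of_nonneg (BudGeo.pot_B_nonneg h.ok hr)]; exact h.ok.B1 _ hr)).sub h.bm_Sm.sq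

theorem D2m_nonneg (h : D.Ok CK bmax Cq cb C0 Q0 kmin dmax) {v : ℝ} (hv : v ∈ Ioo (0:ℝ) 1) : 0 ≤ D.D2m v := by
  have := h.ok.SB _ (Ioo_subset_Icc_self (h.r_mem hv))
  unfold BudTr.D2m
  linarith

theorem bm_q (h : D.Ok CK bmax Cq cb C0 Q0 kmin dmax) : BudBM D.q :=
  BudBM.of_mono h.q_mono (C := 1) (fun v hv => by
    have := h.q_mem v hv
    rw [abs_of_nonneg this.1]; exact this.2)

theorem bm_d (h : D.Ok CK bmax Cq cb C0 Q0 kmin dmax) : BudBM D.d := BudBM.of_bd h.dm.aestronglyMeasurable h.d_le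

theorem bm_C (h : D.Ok CK bmax Cq cb C0 Q0 kmin dmax) : BudBM (fun v => D.g.C (D.r v)) :=
  BudBM.comp_meas (φ := D.g.C) (f := D.r) h.ok.Cm h.bm_r (C := C0) (fun v hv => by
    have hr := Ioo_subset_Icc_self (h.r_mem hv)
    rw [abs_of_pos (h.ok.Cpos _ hr)]; exact h.C_le _ hr)

theorem bm_rho (h : D.Ok CK bmax Cq cb C0 Q0 kmin dmax) : BudBM D.g.ρ := by
  refine ⟨h.ok.dens.meas.aestronglyMeasurable, D.g.M, ?_⟩
  filter_upwards [ae_restrict_mem measurableSet_Ioo, ae_restrict_of_ae (BudGeo.pot_rho_ae h.ok)] with r hr h1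
  have := h1 hr
  rw [abs_of_nonneg ((h.ok.kb0 r).trans this.1)]
  exact this.2

theorem bm_k0 (h : D.Ok CK bmax Cq cb C0 Q0 kmin dmax) : BudBM D.k0 :=
  BudBM.of_meas h.k0m (C := D.g.M) (fun r hr => by
    rw [abs_of_nonneg (h.k00 r)]
    have h1 := h.kb_eq r (Ioo_subset_Icc_self hr)
    have h2 := h.box.kb_le r
    have h3 : (0:ℝ) ≤ if r ∈ Icc D.Ilo D.Ihi then D.kap else 0 := by
      split_ifs
      · exact h.kap0
      · exact le_rfl
    linarith)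

theorem bm_Sr (h : D.Ok CK bmax Cq cb C0 Q0 kmin dmax) : BudBM (fun r => |D.g.S r - r|) :=
  BudBM.of_meas (h.ok.Sm.sub measurable_id).abs (C := 1) (fun r hr => by
    rw [abs_abs]; exact h.Sr_le (Ioo_subset_Icc_self hr))

/-- change of variables `v = α(r)` for bounded functions -/
theorem cov (h : D.Ok CK bmax Cq cb C0 Q0 kmin dmax) {F : ℝ → ℝ} (hF : BudBM F) :
    IntegrableOn (fun r => F (D.g.al r) * D.g.ρ r) (Ioo 0 1) ∧
      ∫ v in Ioo (0:ℝ) 1, F v = ∫ r in Ioo (0:ℝ) 1, F (D.g.al r) * D.g.ρ r :=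
  bud_cov h.box h.ok.dens F hF.integrableOn

theorem N2_D (h : D.Ok CK bmax Cq cb C0 Q0 kmin dmax) :
    ∫ v in (0:ℝ)..1, v ^ 2 * Real.sqrt (D.D2m v) ^ 2 ≤ D.N2 := by
  unfold BudTr.N2
  rw [bud_n11_int01, bud_n11_int01]
  apply setIntegral_mono_on (bud_n11_bm_id.sq.mul h.bm_D2m.sqrt.sq).integrableOn
    (bud_n11_bm_id.sq.mul (h.bm_D2m.add (h.bm_Sm.sub h.bm_q).sq)).integrableOn measurableSet_Ioo
  intro v hv
  rw [Real.sq_sqrt (h.D2m_nonneg hv)]
  exact mul_le_mul_of_nonneg_left (by linarith [sq_nonneg (D.Sm v - D.q v)]) (by positivity)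

theorem N2_S (h : D.Ok CK bmax Cq cb C0 Q0 kmin dmax) :
    ∫ v in (0:ℝ)..1, v ^ 2 * (D.Sm v - D.q v) ^ 2 ≤ D.N2 := by
  unfold BudTr.N2
  rw [bud_n11_int01, bud_n11_int01]
  apply setIntegral_mono_on (bud_n11_bm_id.sq.mul (h.bm_Sm.sub h.bm_q).sq).integrableOn
    (bud_n11_bm_id.sq.mul (h.bm_D2m.add (h.bm_Sm.sub h.bm_q).sq)).integrableOn measurableSet_Ioo
  intro v hv
  exact mul_le_mul_of_nonneg_left (by linarith [h.D2m_nonneg hv]) (by positivity)

theorem meas_fl (h : D.Ok CK bmax Cq cb C0 Q0 kmin dmax) : MeasurableSet (Ioo (0:ℝ) 1 ∩ {r | 0 < D.g.H r}) := by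
  obtain ⟨U, hU, hUe⟩ := bud_n11_floor_set h.ok
  have : Ioo (0:ℝ) 1 ∩ {r | 0 < D.g.H r} = Ioo (0:ℝ) 1 ∩ U := by
    ext r
    constructor
    · rintro ⟨h1, h2⟩; exact ⟨h1, (hUe r (Ioo_subset_Icc_self h1)).2 h2⟩
    · rintro ⟨h1, h2⟩; exact ⟨h1, (hUe r (Ioo_subset_Icc_self h1)).1 h2⟩
  rw [this]; exact measurableSet_Ioo.inter hU

theorem meas_nf (h : D.Ok CK bmax Cq cb C0 Q0 kmin dmax) : MeasurableSet (Ioo (0:ℝ) 1 ∩ {r | D.g.H r ≤ 0}) := by
  have : Ioo (0:ℝ) 1 ∩ {r | D.g.H r ≤ 0} = Ioo (0:ℝ) 1 \ (Ioo (0:ℝ) 1 ∩ {r | 0 < D.g.H r}) := by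
    ext r
    constructor
    · rintro ⟨h1, h2⟩; exact ⟨h1, fun h3 => absurd (show 0 < D.g.H r from h3.2) (not_lt.2 h2)⟩
    · rintro ⟨h1, h2⟩; exact ⟨h1, show D.g.H r ≤ 0 from not_lt.1 (fun h3 => h2 ⟨h1, h3⟩)⟩
  rw [this]; exact measurableSet_Ioo.diff h.meas_fl

/-- the integrand `W(α r) |S - r| ρ` in the two coordinates -/
theorem cov_W (h : D.Ok CK bmax Cq cb C0 Q0 kmin dmax) {W : ℝ → ℝ} (hW : BudBM W) :
    IntegrableOn (fun r => W (D.g.al r) * |D.g.S r - r| * D.g.ρ r) (Ioo 0 1) ∧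
      ∫ v in Ioo (0:ℝ) 1, W v * |D.Sm v - D.r v| = ∫ r in Ioo (0:ℝ) 1, W (D.g.al r) * |D.g.S r - r| * D.g.ρ r := by
  obtain ⟨c1, c2⟩ := h.cov (hW.mul (h.bm_Sm.sub h.bm_r).abs)
  have e : EqOn (fun r => W (D.g.al r) * |D.Sm (D.g.al r) - D.r (D.g.al r)| * D.g.ρ r)
      (fun r => W (D.g.al r) * |D.g.S r - r| * D.g.ρ r) (Ioo 0 1) := by
    intro r hr
    have := h.r_al (Ioo_subset_Icc_self hr)
    simp only [BudTr.Sm, this]
  exact ⟨c1.congr_fun e measurableSet_Ioo, c2.trans (setIntegral_congr_fun measurableSet_Ioo e)⟩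

theorem rho_nonneg_ae (h : D.Ok CK bmax Cq cb C0 Q0 kmin dmax) :
    ∀ᵐ r ∂(volume.restrict (Ioo (0:ℝ) 1)), 0 ≤ D.g.ρ r := by
  filter_upwards [ae_restrict_mem measurableSet_Ioo, ae_restrict_of_ae (BudGeo.pot_rho_ae h.ok)] with r hr h1
  exact (h.ok.kb0 r).trans (h1 hr).1

/-- nonfloor part, general weight -/
theorem nf (h : D.Ok CK bmax Cq cb C0 Q0 kmin dmax) {W : ℝ → ℝ} (hW : BudBM W) (hW0 : ∀ v ∈ Ioo (0:ℝ) 1, 0 ≤ W v) :
    ∫ r in Ioo (0:ℝ) 1 ∩ {r | D.g.H r ≤ 0}, W (D.g.al r) * |D.g.S r - r| * D.g.ρ r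
      ≤ ∫ v in Ioo (0:ℝ) 1, W v * (Real.sqrt (D.D2m v) + 1 / D.g.M) := by
  obtain ⟨i1, -⟩ := h.cov_W hW
  obtain ⟨i2, e2⟩ := h.cov (hW.mul (h.bm_D2m.sqrt.add (BudBM.const (1 / D.g.M))))
  have hsub : Ioo (0:ℝ) 1 ∩ {r | D.g.H r ≤ 0} ⊆ Ioo (0:ℝ) 1 := inter_subset_left
  have hM := h.M_pos
  rw [e2]
  have step1 : ∫ r in Ioo (0:ℝ) 1 ∩ {r | D.g.H r ≤ 0}, W (D.g.al r) * |D.g.S r - r| * D.g.ρ r
      ≤ ∫ r in Ioo (0:ℝ) 1 ∩ {r | D.g.H r ≤ 0}, W (D.g.al r) * (Real.sqrt (D.D2m (D.g.al r)) + 1 / D.g.M) * D.g.ρ r := by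
    apply setIntegral_mono_ae_restrict (i1.mono_set hsub) (i2.mono_set hsub)
    filter_upwards [ae_restrict_mem h.meas_nf, ae_restrict_of_ae (BudGeo.nonfloor_ae h.ok),
      ae_restrict_of_ae_restrict_of_subset hsub h.rho_nonneg_ae] with r hr h1 h2
    have h3 := h1 hr.1 hr.2
    have h4 : Real.sqrt (D.D2m (D.g.al r)) = D.g.D r := by
      simp only [BudTr.D2m, h.r_al (Ioo_subset_Icc_self hr.1), BudGeo.D]
    rw [h4]
    exact mul_le_mul_of_nonneg_right (mul_le_mul_of_nonneg_left h3 (hW0 _ (h.al_mem hr.1))) h2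
  refine step1.trans ?_
  apply setIntegral_mono_set i2
  · filter_upwards [ae_restrict_mem measurableSet_Ioo, h.rho_nonneg_ae] with r hr h2
    exact mul_nonneg (mul_nonneg (hW0 _ (h.al_mem hr)) (by positivity)) h2
  · exact hsub.eventuallyLE

/-- floor part, general weight -/
theorem fl (h : D.Ok CK bmax Cq cb C0 Q0 kmin dmax) {W : ℝ → ℝ} (hW : BudBM W) {Wm : ℝ}
    (hW0 : ∀ v ∈ Ioo (0:ℝ) 1, 0 ≤ W v) (hW1 : ∀ v ∈ Ioo (0:ℝ) 1, W v ≤ Wm) :
    ∫ r in Ioo (0:ℝ) 1 ∩ {r | 0 < D.g.H r}, W (D.g.al r) * |D.g.S r - r| * D.g.ρ r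
      ≤ Wm * (D.kint + D.kap * D.Jf) := by
  obtain ⟨i1, -⟩ := h.cov_W hW
  have hsub : Ioo (0:ℝ) 1 ∩ {r | 0 < D.g.H r} ⊆ Ioo (0:ℝ) 1 := inter_subset_left
  have hWm : 0 ≤ Wm := (hW0 (1 / 2) ⟨by norm_num, by norm_num⟩).trans (hW1 (1 / 2) ⟨by norm_num, by norm_num⟩)
  have bmI : BudBM ((Icc D.Ilo D.Ihi).indicator (fun r => |D.g.S r - r|)) := h.bm_Sr.indicator measurableSet_Icc
  have bmG : BudBM (fun r => Wm * (D.k0 r + D.kap * (Icc D.Ilo D.Ihi).indicator (fun r => |D.g.S r - r|) r)) :=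
    (BudBM.const Wm).mul (h.bm_k0.add ((BudBM.const D.kap).mul bmI))
  have step1 : ∫ r in Ioo (0:ℝ) 1 ∩ {r | 0 < D.g.H r}, W (D.g.al r) * |D.g.S r - r| * D.g.ρ r
      ≤ ∫ r in Ioo (0:ℝ) 1 ∩ {r | 0 < D.g.H r},
          Wm * (D.k0 r + D.kap * (Icc D.Ilo D.Ihi).indicator (fun r => |D.g.S r - r|) r) := by
    apply setIntegral_mono_ae_restrict (i1.mono_set hsub) (bmG.integrableOn_sub hsub)
    filter_upwards [ae_restrict_mem h.meas_fl, ae_restrict_of_ae h.ok.floor] with r hr h1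
    have hr' := Ioo_subset_Icc_self hr.1
    have h2 : D.g.ρ r = D.k0 r + if r ∈ Icc D.Ilo D.Ihi then D.kap else 0 := by
      rw [h1 hr.1 hr.2, h.kb_eq r hr']
    have h3 := h.Sr_le hr'
    have h4 := abs_nonneg (D.g.S r - r)
    have h5 := hW0 _ (h.al_mem hr.1)
    have h6 := hW1 _ (h.al_mem hr.1)
    have h7 := h.k00 r
    have h8 : |D.g.S r - r| * D.g.ρ r ≤ D.k0 r + D.kap * (Icc D.Ilo D.Ihi).indicator (fun r => |D.g.S r - r|) r := by
      rw [h2]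
      by_cases hI : r ∈ Icc D.Ilo D.Ihi
      · rw [if_pos hI, indicator_of_mem hI]
        nlinarith
      · rw [if_neg hI, indicator_of_notMem hI]
        nlinarith
    have h9 : 0 ≤ |D.g.S r - r| * D.g.ρ r := by
      rw [h2]
      apply mul_nonneg h4
      split_ifs
      · linarith [h.kap0]
      · linarith
    calc W (D.g.al r) * |D.g.S r - r| * D.g.ρ r = W (D.g.al r) * (|D.g.S r - r| * D.g.ρ r) := by ring
      _ ≤ Wm * (|D.g.S r - r| * D.g.ρ r) := mul_le_mul_of_nonneg_right h6 h9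
      _ ≤ _ := mul_le_mul_of_nonneg_left h8 hWm
  refine step1.trans ?_
  rw [integral_const_mul]
  apply mul_le_mul_of_nonneg_left _ hWm
  rw [integral_add (h.bm_k0.integrableOn_sub hsub) (((BudBM.const D.kap).mul bmI).integrableOn_sub hsub),
    integral_const_mul]
  have k1 : ∫ r in Ioo (0:ℝ) 1 ∩ {r | 0 < D.g.H r}, D.k0 r ≤ D.kint := by
    unfold BudTr.kint
    rw [bud_n11_int01]
    exact setIntegral_mono_set h.bm_k0.integrableOn (Eventually.of_forall h.k00) hsub.eventuallyLE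
  have k2 : ∫ r in Ioo (0:ℝ) 1 ∩ {r | 0 < D.g.H r}, (Icc D.Ilo D.Ihi).indicator (fun r => |D.g.S r - r|) r = D.Jf := by
    unfold BudTr.Jf
    rw [setIntegral_indicator measurableSet_Icc]
    congr 2
    ext r
    constructor
    · rintro ⟨⟨_, h2⟩, h3⟩; exact ⟨h3, h2⟩
    · rintro ⟨h3, h2⟩
      exact ⟨⟨⟨lt_of_lt_of_le h.I0 h3.1, lt_of_le_of_lt h3.2 h.I2⟩, h2⟩, h3⟩
  rw [k2]
  linarith

/-- **the removal term with a general weight**: nonfloor + floor -/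
theorem split (h : D.Ok CK bmax Cq cb C0 Q0 kmin dmax) {W : ℝ → ℝ} (hW : BudBM W) {Wm : ℝ}
    (hW0 : ∀ v ∈ Ioo (0:ℝ) 1, 0 ≤ W v) (hW1 : ∀ v ∈ Ioo (0:ℝ) 1, W v ≤ Wm) :
    ∫ v in Ioo (0:ℝ) 1, W v * |D.Sm v - D.r v|
      ≤ (∫ v in Ioo (0:ℝ) 1, W v * (Real.sqrt (D.D2m v) + 1 / D.g.M)) + Wm * (D.kint + D.kap * D.Jf) := by
  obtain ⟨i1, e1⟩ := h.cov_W hW
  have hun : Ioo (0:ℝ) 1 = (Ioo (0:ℝ) 1 ∩ {r | D.g.H r ≤ 0}) ∪ (Ioo (0:ℝ) 1 ∩ {r | 0 < D.g.H r}) := by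
    ext r
    constructor
    · intro hr
      rcases le_or_gt (D.g.H r) 0 with h0 | h0
      · exact Or.inl ⟨hr, h0⟩
      · exact Or.inr ⟨hr, h0⟩
    · rintro (hr | hr) <;> exact hr.1
  have hdis : Disjoint (Ioo (0:ℝ) 1 ∩ {r | D.g.H r ≤ 0}) (Ioo (0:ℝ) 1 ∩ {r | 0 < D.g.H r}) := by
    rw [Set.disjoint_left]
    rintro r ⟨_, h1⟩ ⟨_, h2⟩
    exact absurd (show 0 < D.g.H r from h2) (not_lt.2 h1)
  rw [e1]
  nth_rewrite 1 [hun]
  rw [setIntegral_union hdis h.meas_fl (i1.mono_set inter_subset_left) (i1.mono_set inter_subset_left)]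
  exact add_le_add (h.nf hW hW0) (h.fl hW hW0 hW1)

/-- `∫ min(u,v) (D_v + 1/M) dv` -/
theorem minD (h : D.Ok CK bmax Cq cb C0 Q0 kmin dmax) :
    ∫ v in Ioo (0:ℝ) 1, min D.u v * (Real.sqrt (D.D2m v) + 1 / D.g.M)
      ≤ Real.sqrt (2 * D.u) * Real.sqrt D.N2 + D.u / D.g.M := by
  have hM := h.M_pos
  have bmm := bud_n11_bm_min D.u h.u0.le
  have e : ∀ v, min D.u v * (Real.sqrt (D.D2m v) + 1 / D.g.M)
      = min D.u v * |Real.sqrt (D.D2m v)| + min D.u v * (1 / D.g.M) := fun v => by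
    rw [abs_of_nonneg (Real.sqrt_nonneg _)]; ring
  simp only [e]
  rw [integral_add (bmm.mul h.bm_D2m.sqrt.abs).integrableOn (bmm.mul (BudBM.const _)).integrableOn]
  have h1 : ∫ v in Ioo (0:ℝ) 1, min D.u v * |Real.sqrt (D.D2m v)| ≤ Real.sqrt (2 * D.u) * Real.sqrt D.N2 := by
    rw [← bud_n11_int01]
    obtain ⟨m1, -⟩ := h.bm_D2m.sqrt
    refine (bud_n11_cs_w (Cw := 1) le_rfl zero_le_one h.bm_D2m.sqrt (measurable_const.min measurable_id)
      (fun v hv => le_min h.u0.le hv.1.le) (fun v _ => by rw [one_mul]; exact min_le_right _ _)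
      (bud_n11_min_sq h.u0 h.u1 le_rfl zero_le_one)).trans ?_
    exact mul_le_mul_of_nonneg_left (Real.sqrt_le_sqrt h.N2_D) (Real.sqrt_nonneg _)
  have h2 : ∫ v in Ioo (0:ℝ) 1, min D.u v * (1 / D.g.M) ≤ D.u / D.g.M := by
    have : ∫ v in Ioo (0:ℝ) 1, min D.u v * (1 / D.g.M) ≤ ∫ _v in Ioo (0:ℝ) 1, D.u / D.g.M := by
      apply setIntegral_mono_on (bmm.mul (BudBM.const _)).integrableOn (BudBM.const _).integrableOn measurableSet_Ioo
      intro v _
      rw [mul_one_div]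
      exact div_le_div_of_nonneg_right (min_le_left _ _) hM.le
    simpa using this
  linarith

/-- the lower end of the band -/
theorem band (h : D.Ok CK bmax Cq cb C0 Q0 kmin dmax) : 0 < cb * D.u ∧ cb * D.u ≤ 1 := by
  refine ⟨mul_pos h.cb0 h.u0, ?_⟩
  have := h.al_mem (r := D.Ilo) ⟨h.I0, lt_of_le_of_lt h.I1 h.I2⟩
  linarith [h.al_ge, this.2]

/-- integrals over the band as weighted integrals -/
theorem band_int (f : ℝ → ℝ) {a : ℝ} (ha : 0 < a) (ha1 : a ≤ 1) :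
    ∫ v in Ioo (0:ℝ) 1, (Ici a).indicator (fun _ => (1:ℝ)) v * f v = ∫ v in a..1, f v := by
  rw [bud_n11_int_eq f ha ha1]
  congr 1
  funext v
  by_cases hv : v ∈ Ici a
  · rw [indicator_of_mem hv, indicator_of_mem hv, one_mul]
  · rw [indicator_of_notMem hv, indicator_of_notMem hv, zero_mul]

theorem bm_band (a : ℝ) : BudBM ((Ici a).indicator (fun _ => (1:ℝ))) := (BudBM.const 1).indicator measurableSet_Ici

theorem band_SQ (h : D.Ok CK bmax Cq cb C0 Q0 kmin dmax) :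
    ∫ v in (cb * D.u)..1, |D.Sm v - D.q v| ≤ Real.sqrt D.N2 / Real.sqrt (cb * D.u) := by
  obtain ⟨ha, ha1⟩ := h.band
  have hbm := h.bm_Sm.sub h.bm_q
  have h1 := bud_n11_cs_w (w := fun _ => 1) (Cw := 1 / (cb * D.u)) (Wb := 1 / (cb * D.u)) ha.le ha1 hbm measurable_const
    (fun v _ => zero_le_one) (fun v hv => by
      rw [div_mul_eq_mul_div, one_mul, le_div_iff₀ ha, one_mul]; exact hv.1.le)
    (by
      rw [(bud_n11_int_inv_sq (c := 1) ha ha1).2]
      have : (0:ℝ) ≤ 1 / 1 := by norm_num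
      nlinarith [this])
  simp only [one_mul] at h1
  refine h1.trans ?_
  rw [Real.sqrt_div zero_le_one, Real.sqrt_one, div_mul_eq_mul_div, one_mul]
  exact div_le_div_of_nonneg_right (Real.sqrt_le_sqrt h.N2_S) (Real.sqrt_nonneg _)

theorem band_D (h : D.Ok CK bmax Cq cb C0 Q0 kmin dmax) :
    ∫ v in (cb * D.u)..1, Real.sqrt (D.D2m v) ≤ Real.sqrt D.N2 / Real.sqrt (cb * D.u) := by
  obtain ⟨ha, ha1⟩ := h.band
  have hbm := h.bm_D2m.sqrt
  have h1 := bud_n11_cs_w (w := fun _ => 1) (Cw := 1 / (cb * D.u)) (Wb := 1 / (cb * D.u)) ha.le ha1 hbm measurable_const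
    (fun v _ => zero_le_one) (fun v hv => by
      rw [div_mul_eq_mul_div, one_mul, le_div_iff₀ ha, one_mul]; exact hv.1.le)
    (by
      rw [(bud_n11_int_inv_sq (c := 1) ha ha1).2]
      have : (0:ℝ) ≤ 1 / 1 := by norm_num
      nlinarith [this])
  simp only [one_mul, abs_of_nonneg (Real.sqrt_nonneg _)] at h1
  refine h1.trans ?_
  rw [Real.sqrt_div zero_le_one, Real.sqrt_one, div_mul_eq_mul_div, one_mul]
  exact div_le_div_of_nonneg_right (Real.sqrt_le_sqrt h.N2_D) (Real.sqrt_nonneg _)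

theorem band_SR (h : D.Ok CK bmax Cq cb C0 Q0 kmin dmax) :
    ∫ v in (cb * D.u)..1, |D.Sm v - D.r v|
      ≤ Real.sqrt D.N2 / Real.sqrt (cb * D.u) + 1 / D.g.M + (D.kint + D.kap * D.Jf) := by
  obtain ⟨ha, ha1⟩ := h.band
  have hM := h.M_pos
  have hs := h.split (W := (Ici (cb * D.u)).indicator (fun _ => (1:ℝ))) (bm_band _) (Wm := 1)
    (fun v _ => indicator_nonneg (fun _ _ => zero_le_one) v)
    (fun v _ => indicator_le_self' (fun _ _ => zero_le_one) v)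
  rw [band_int _ ha ha1, band_int _ ha ha1, one_mul,
    intervalIntegral.integral_add (h.bm_D2m.sqrt.intervalIntegrable ha.le ha1 le_rfl) intervalIntegrable_const] at hs
  have h2 : ∫ _v in (cb * D.u)..1, 1 / D.g.M ≤ 1 / D.g.M := by
    rw [intervalIntegral.integral_const, smul_eq_mul]
    have : 0 < 1 / D.g.M := by positivity
    nlinarith
  linarith [h.band_D]

theorem Jf_nonneg (D : BudTr) : 0 ≤ D.Jf := integral_nonneg (fun _ => abs_nonneg _)

theorem kint_nonneg (h : D.Ok CK bmax Cq cb C0 Q0 kmin dmax) : 0 ≤ D.kint :=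
  intervalIntegral.integral_nonneg zero_le_one (fun r _ => h.k00 r)

theorem I_sub (h : D.Ok CK bmax Cq cb C0 Q0 kmin dmax) : Icc D.Ilo D.Ihi ⊆ Ioo (0:ℝ) 1 :=
  fun _ hr => ⟨lt_of_lt_of_le h.I0 hr.1, lt_of_le_of_lt hr.2 h.I2⟩

theorem al_band (h : D.Ok CK bmax Cq cb C0 Q0 kmin dmax) {r : ℝ} (hr : r ∈ Icc D.Ilo D.Ihi) :
    D.g.al r ∈ Ico (cb * D.u) 1 := by
  have hm := BudGeo.al_mono h.ok
  have h0 : D.Ilo ∈ Icc (0:ℝ) 1 := Ioo_subset_Icc_self (h.I_sub ⟨le_rfl, h.I1⟩)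
  have hr' : r ∈ Icc (0:ℝ) 1 := Ioo_subset_Icc_self (h.I_sub hr)
  exact ⟨h.al_ge.trans (hm h0 hr' hr.1), (h.al_mem (h.I_sub hr)).2⟩

/-- Fubini on the patch -/
theorem area (h : D.Ok CK bmax Cq cb C0 Q0 kmin dmax) :
    ∫ s in D.Ilo..D.Ihi, |D.g.al s - D.β s| ≤ ∫ v in (cb * D.u)..1, |D.r v - D.q v| := by
  apply bud_n11_area h.I1 ((BudGeo.al_mono h.ok).mono (h.I_sub.trans Ioo_subset_Icc_self)) h.β_mono
    ((budQ_mono h.box h.ok.dens).mono Ioo_subset_Icc_self) h.q_mono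
    (fun v hv => Ioo_subset_Icc_self (h.r_mem hv)) h.q_mem
    (fun s hs => h.al_band hs) h.β_mem h.band.1
    (fun s hs => h.r_al (Ioo_subset_Icc_self (h.I_sub hs))) h.qβ

/-- first step of the absorption: `κ J ≤ ∫_band |S - q| + κ Cq ∫_I |α - β|` -/
theorem Jf_le (h : D.Ok CK bmax Cq cb C0 Q0 kmin dmax) :
    D.kap * D.Jf ≤ (∫ v in (cb * D.u)..1, |D.Sm v - D.q v|) + D.kap * max Cq 0 * ∫ s in D.Ilo..D.Ihi, |D.g.al s - D.β s| := by
  obtain ⟨ha, ha1⟩ := h.band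
  set W : ℝ → ℝ := (Ici (cb * D.u)).indicator (fun _ => (1:ℝ)) with hW
  obtain ⟨i1, e1⟩ := h.cov ((bm_band (cb * D.u)).mul (h.bm_Sm.sub h.bm_q).abs)
  rw [band_int _ ha ha1] at e1
  have hIU : Icc D.Ilo D.Ihi ∩ {r | 0 < D.g.H r} = (Ioo (0:ℝ) 1 ∩ {r | 0 < D.g.H r}) ∩ Icc D.Ilo D.Ihi := by
    ext r
    constructor
    · rintro ⟨h1, h2⟩; exact ⟨⟨h.I_sub h1, h2⟩, h1⟩
    · rintro ⟨⟨_, h2⟩, h1⟩; exact ⟨h1, h2⟩
  have hIUm : MeasurableSet (Icc D.Ilo D.Ihi ∩ {r | 0 < D.g.H r}) := by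
    rw [hIU]; exact h.meas_fl.inter measurableSet_Icc
  have hsub : Icc D.Ilo D.Ihi ∩ {r | 0 < D.g.H r} ⊆ Ioo (0:ℝ) 1 := fun r hr => h.I_sub hr.1
  have hsubI : Icc D.Ilo D.Ihi ∩ {r | 0 < D.g.H r} ⊆ Icc D.Ilo D.Ihi := inter_subset_left
  have hab : IntegrableOn (fun s => |D.g.al s - D.β s|) (Icc D.Ilo D.Ihi) := by
    have h1 : IntervalIntegrable D.g.al volume D.Ilo D.Ihi := by
      apply MonotoneOn.intervalIntegrable
      rw [uIcc_of_le h.I1]
      exact (BudGeo.al_mono h.ok).mono (h.I_sub.trans Ioo_subset_Icc_self)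
    have h2 : IntervalIntegrable D.β volume D.Ilo D.Ihi := by
      apply MonotoneOn.intervalIntegrable
      rw [uIcc_of_le h.I1]
      exact h.β_mono
    have := (h1.sub h2).abs
    rw [intervalIntegrable_iff_integrableOn_Icc_of_le h.I1] at this
    exact this
  unfold BudTr.Jf
  rw [← integral_const_mul]
  have step : ∫ r in Icc D.Ilo D.Ihi ∩ {r | 0 < D.g.H r}, D.kap * |D.g.S r - r|
      ≤ ∫ r in Icc D.Ilo D.Ihi ∩ {r | 0 < D.g.H r},
        (W (D.g.al r) * |D.Sm (D.g.al r) - D.q (D.g.al r)| * D.g.ρ r + D.kap * max Cq 0 * |D.g.al r - D.β r|) := by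
    apply setIntegral_mono_ae_restrict (((BudBM.const D.kap).mul h.bm_Sr).integrableOn_sub hsub)
      ((i1.mono_set hsub).add ((hab.mono_set hsubI).const_mul _))
    filter_upwards [ae_restrict_mem hIUm, ae_restrict_of_ae h.ok.floor] with r hr h1
    have hr0 := h.I_sub hr.1
    have hr' := Ioo_subset_Icc_self hr0
    have h2 : D.g.ρ r = D.k0 r + D.kap := by
      rw [h1 hr0 hr.2, h.kb_eq r hr', if_pos hr.1]
    have hb := h.al_band hr.1
    have hW1 : W (D.g.al r) = 1 := by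
      rw [hW, indicator_of_mem (show D.g.al r ∈ Ici (cb * D.u) from hb.1)]
    have hS : D.Sm (D.g.al r) = D.g.S r := by simp only [BudTr.Sm, h.r_al hr']
    have hq : |D.q (D.g.al r) - r| ≤ max Cq 0 * |D.g.al r - D.β r| :=
      (h.q_lip r hr.1).trans (mul_le_mul_of_nonneg_right (le_max_left _ _) (abs_nonneg _))
    have htri : |D.g.S r - r| ≤ |D.g.S r - D.q (D.g.al r)| + |D.q (D.g.al r) - r| := by
      have := abs_add_le (D.g.S r - D.q (D.g.al r)) (D.q (D.g.al r) - r)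
      simpa using this
    show D.kap * |D.g.S r - r| ≤ W (D.g.al r) * |D.Sm (D.g.al r) - D.q (D.g.al r)| * D.g.ρ r + D.kap * max Cq 0 * |D.g.al r - D.β r|
    rw [hW1, hS, h2, one_mul]
    have k0 := h.k00 r
    have kap0 := h.kap0
    have a1 := abs_nonneg (D.g.S r - D.q (D.g.al r))
    calc D.kap * |D.g.S r - r| ≤ D.kap * (|D.g.S r - D.q (D.g.al r)| + max Cq 0 * |D.g.al r - D.β r|) :=
          mul_le_mul_of_nonneg_left (by linarith) kap0
      _ = |D.g.S r - D.q (D.g.al r)| * D.kap + D.kap * max Cq 0 * |D.g.al r - D.β r| := by ring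
      _ ≤ _ := by nlinarith
  refine step.trans ?_
  rw [integral_add (i1.mono_set hsub) ((hab.mono_set hsubI).const_mul _), integral_const_mul]
  have t1 : ∫ r in Icc D.Ilo D.Ihi ∩ {r | 0 < D.g.H r}, W (D.g.al r) * |D.Sm (D.g.al r) - D.q (D.g.al r)| * D.g.ρ r
      ≤ ∫ v in (cb * D.u)..1, |D.Sm v - D.q v| := by
    rw [e1]
    apply setIntegral_mono_set i1
    · filter_upwards [h.rho_nonneg_ae] with r h2
      exact mul_nonneg (mul_nonneg (indicator_nonneg (fun _ _ => zero_le_one) _) (abs_nonneg _)) h2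
    · exact hsub.eventuallyLE
  have t2 : ∫ r in Icc D.Ilo D.Ihi ∩ {r | 0 < D.g.H r}, |D.g.al r - D.β r| ≤ ∫ s in D.Ilo..D.Ihi, |D.g.al s - D.β s| := by
    rw [intervalIntegral.integral_of_le h.I1, ← integral_Icc_eq_integral_Ioc]
    exact setIntegral_mono_set hab (Eventually.of_forall (fun _ => abs_nonneg _)) hsubI.eventuallyLE
  have := mul_le_mul_of_nonneg_left t2 (mul_nonneg h.kap0 (le_max_right Cq 0))
  linarith

/-- the absorption -/
theorem Jf_bound (h : D.Ok CK bmax Cq cb C0 Q0 kmin dmax) :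
    D.kap * D.Jf ≤ 4 * Real.sqrt D.N2 / Real.sqrt (cb * D.u) + 1 / D.g.M + D.kint := by
  obtain ⟨ha, ha1⟩ := h.band
  have h1 := h.Jf_le
  have h2 := h.area
  have h3 := h.band_SQ
  have h4 := h.band_SR
  have h5 : ∫ v in (cb * D.u)..1, |D.r v - D.q v|
      ≤ (∫ v in (cb * D.u)..1, |D.Sm v - D.q v|) + ∫ v in (cb * D.u)..1, |D.Sm v - D.r v| := by
    rw [← intervalIntegral.integral_add ((h.bm_Sm.sub h.bm_q).abs.intervalIntegrable ha.le ha1 le_rfl)
      ((h.bm_Sm.sub h.bm_r).abs.intervalIntegrable ha.le ha1 le_rfl)]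
    apply intervalIntegral.integral_mono_on ha1 ((h.bm_r.sub h.bm_q).abs.intervalIntegrable ha.le ha1 le_rfl)
      (((h.bm_Sm.sub h.bm_q).abs.add (h.bm_Sm.sub h.bm_r).abs).intervalIntegrable ha.le ha1 le_rfl)
    intro v _
    have := abs_add_le (D.Sm v - D.q v) (-(D.Sm v - D.r v))
    rw [abs_neg] at this
    calc |D.r v - D.q v| = |D.Sm v - D.q v + -(D.Sm v - D.r v)| := by congr 1; ring
      _ ≤ _ := this
  have h6 : 0 ≤ ∫ s in D.Ilo..D.Ihi, |D.g.al s - D.β s| :=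
    intervalIntegral.integral_nonneg h.I1 (fun _ _ => abs_nonneg _)
  have habs : D.kap * max Cq 0 ≤ 1 / 2 := by
    rcases le_total Cq 0 with hc | hc
    · rw [max_eq_right hc, mul_zero]; norm_num
    · rw [max_eq_left hc]; exact h.absb
  have h7 : D.kap * max Cq 0 * (∫ s in D.Ilo..D.Ihi, |D.g.al s - D.β s|) ≤ 1 / 2 * ∫ s in D.Ilo..D.Ihi, |D.g.al s - D.β s| :=
    mul_le_mul_of_nonneg_right habs h6
  have e : 4 * Real.sqrt D.N2 / Real.sqrt (cb * D.u) = 4 * (Real.sqrt D.N2 / Real.sqrt (cb * D.u)) := by ring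
  rw [e]
  linarith

end BudTr.Ok

/-! ## E3 - E5, E -/

/-- E3 the removal term, nonfloor part.   Proof: `BudGeo.nonfloor_ae`, change of variables `bud_cov`, E1. -/
theorem bud_n11_nonfloor_part (D : BudTr) {CK bmax Cq cb C0 Q0 kmin dmax : ℝ} (h : D.Ok CK bmax Cq cb C0 Q0 kmin dmax) :
    ∫ r in Ioo (0:ℝ) 1 ∩ {r | D.g.H r ≤ 0}, min D.u (D.g.al r) * |D.g.S r - r| * D.g.ρ r
      ≤ Real.sqrt (2 * D.u) * Real.sqrt D.N2 + D.u / D.g.M :=
  (h.nf (W := fun v => min D.u v) (bud_n11_bm_min D.u h.u0.le) (fun _ hv => le_min h.u0.le hv.1.le)).trans h.minD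

/-- E4 the extra floor, after absorption (l.1385-1394):  `κ ∫_{I ∩ floor} |S - r| dr ≤ 4 𝓝/√(cb u) + 1/M + ∫ k`.
Proof: `J = ∫_{I ∩ floor}|S - r| dr`.  `κ J ≤ ∫_{α(I)}|S_v - q| dv + κ Cq ∫_I |α - β|` (on the floor `κ dr ≤ ρ dr`; `|q(α r) - r| = |q(α r) - q(β r)|`);
E2; `∫_band |r - q| ≤ ∫_band |S - q| + ∫_band |r - S|`, the last one `≤ ∫_band D + 1/M + ∫ k + κ J` (nonfloor / floor); E1'; `κ Cq ≤ 1/2`. -/
theorem bud_n11_extra_floor (D : BudTr) {CK bmax Cq cb C0 Q0 kmin dmax : ℝ} (h : D.Ok CK bmax Cq cb C0 Q0 kmin dmax) :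
    D.kap * ∫ r in Icc D.Ilo D.Ihi ∩ {r | 0 < D.g.H r}, |D.g.S r - r|
      ≤ 4 * Real.sqrt D.N2 / Real.sqrt (cb * D.u) + 1 / D.g.M + D.kint :=
  h.Jf_bound

/-- E5 the removal term:  `∫ min(u,v) C(r)|S - r| dv ≤ C0 [(√2 + 4/√cb) √u 𝓝 + 2u/M + 2u ∫k]` -/
theorem bud_n11_removal (D : BudTr) {CK bmax Cq cb C0 Q0 kmin dmax : ℝ} (h : D.Ok CK bmax Cq cb C0 Q0 kmin dmax) :
    ∫ v in (0:ℝ)..1, min D.u v * (D.g.C (D.r v) * |D.Sm v - D.r v|)
      ≤ C0 * ((Real.sqrt 2 + 4 / Real.sqrt cb) * (Real.sqrt D.u * Real.sqrt D.N2) + 2 * D.u / D.g.M + 2 * D.u * D.kint) := by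
  have bmm := bud_n11_bm_min D.u h.u0.le
  have bmSr := (h.bm_Sm.sub h.bm_r).abs
  have hC0 : 0 ≤ C0 := (h.ok.Cpos 0 ⟨le_rfl, zero_le_one⟩).le.trans (h.C_le 0 ⟨le_rfl, zero_le_one⟩)
  have s1 : ∫ v in (0:ℝ)..1, min D.u v * (D.g.C (D.r v) * |D.Sm v - D.r v|)
      ≤ C0 * ∫ v in Ioo (0:ℝ) 1, min D.u v * |D.Sm v - D.r v| := by
    rw [bud_n11_int01, ← integral_const_mul]
    apply setIntegral_mono_on (bmm.mul (h.bm_C.mul bmSr)).integrableOn
      ((BudBM.const C0).mul (bmm.mul bmSr)).integrableOn measurableSet_Ioo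
    intro v hv
    have h1 := h.C_le _ (Ioo_subset_Icc_self (h.r_mem hv))
    have h2 : 0 ≤ min D.u v := le_min h.u0.le hv.1.le
    have h3 := abs_nonneg (D.Sm v - D.r v)
    calc min D.u v * (D.g.C (D.r v) * |D.Sm v - D.r v|) = D.g.C (D.r v) * (min D.u v * |D.Sm v - D.r v|) := by ring
      _ ≤ C0 * (min D.u v * |D.Sm v - D.r v|) := mul_le_mul_of_nonneg_right h1 (mul_nonneg h2 h3)
  refine s1.trans (mul_le_mul_of_nonneg_left ?_ hC0)
  have s2 := h.split (W := fun v => min D.u v) bmm (Wm := D.u) (fun _ hv => le_min h.u0.le hv.1.le)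
    (fun _ _ => min_le_left _ _)
  have s3 := h.minD
  have s4 := mul_le_mul_of_nonneg_left h.Jf_bound h.u0.le
  have hsu : 0 < Real.sqrt D.u := Real.sqrt_pos.2 h.u0
  have hscb : 0 < Real.sqrt cb := Real.sqrt_pos.2 h.cb0
  have e1 : Real.sqrt (2 * D.u) = Real.sqrt 2 * Real.sqrt D.u := Real.sqrt_mul (by norm_num) _
  have e2 : Real.sqrt (cb * D.u) = Real.sqrt cb * Real.sqrt D.u := Real.sqrt_mul h.cb0.le _
  have e3 : D.u * (4 * Real.sqrt D.N2 / Real.sqrt (cb * D.u)) = 4 / Real.sqrt cb * (Real.sqrt D.u * Real.sqrt D.N2) := by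
    rw [e2]
    have : D.u = Real.sqrt D.u * Real.sqrt D.u := (Real.mul_self_sqrt h.u0.le).symm
    nth_rewrite 1 [this]
    field_simp
  have e4 : D.u * (4 * Real.sqrt D.N2 / Real.sqrt (cb * D.u) + 1 / D.g.M + D.kint)
      = 4 / Real.sqrt cb * (Real.sqrt D.u * Real.sqrt D.N2) + D.u / D.g.M + D.u * D.kint := by
    rw [mul_add, mul_add, e3]; ring
  rw [e4] at s4
  rw [e1] at s3
  have e5 : D.u * (D.kint + D.kap * D.Jf) = D.u * D.kint + D.u * (D.kap * D.Jf) := by ring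
  rw [e5] at s2
  have e6 : 2 * D.u / D.g.M = D.u / D.g.M + D.u / D.g.M := by ring
  rw [e6]
  nlinarith

theorem bud_n11_min_scale {u v c : ℝ} (hu : 0 ≤ u) (_hv : 0 ≤ v) (hc : 1 ≤ c) : min u (c * v) ≤ c * min u v := by
  rcases le_total u v with h | h
  · rw [min_eq_left h]
    exact (min_le_left _ _).trans (le_mul_of_one_le_left hu hc)
  · rw [min_eq_right h]
    exact min_le_right _ _

/-- **N11.E the transport estimate** (l.1367-1398), explicit form.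
Proof: D with `w = min u`; `max(K_s,K_*) ≤ CK (v + w_c)`; `v ≤ vlow`: integrand `≤ (CK (vlow + w_c))²`; `v ≥ vlow ≥ w_c`: weight `≤ 2 CK min(u,v)`, `diff`, E1 (twice), E5. -/
theorem bud_n11_transport (D : BudTr) {CK bmax Cq cb C0 Q0 kmin dmax : ℝ} (h : D.Ok CK bmax Cq cb C0 Q0 kmin dmax) :
    ∫ t in (0:ℝ)..Q0, min D.u t * |bdDist D.Ks t - bdDist D.Kst t|
      ≤ CK ^ 2 * (D.vlow + D.wc) ^ 2 * D.vlow
        + 2 * CK * (bmax * (Real.sqrt (2 * D.u) * Real.sqrt D.N2) + D.Dd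
          + C0 * ((Real.sqrt 2 + 4 / Real.sqrt cb) * (Real.sqrt D.u * Real.sqrt D.N2) + 2 * D.u / D.g.M + 2 * D.u * D.kint)) := by
  have hu := h.u0
  have hCK0 : 0 < CK := lt_of_lt_of_le one_pos h.CK1
  have hvl0 : 0 ≤ D.vlow := h.wc0.trans h.vlow0
  have hlay := bud_n11_layer (w := fun t => min D.u t) h.Ks_mono h.Kst_mono h.Ks_mem h.Kst_mem
    (fun s _ t _ hst => min_le_min le_rfl hst) (fun t ht => le_min hu.le ht.1)
  refine hlay.trans ?_
  -- measurability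
  have bmKs : BudBM D.Ks := BudBM.of_mono h.Ks_mono (C := Q0) (fun v hv => by
    rw [abs_of_nonneg (h.Ks_mem v hv).1]; exact (h.Ks_mem v hv).2)
  have bmKst : BudBM D.Kst := BudBM.of_mono h.Kst_mono (C := Q0) (fun v hv => by
    rw [abs_of_nonneg (h.Kst_mem v hv).1]; exact (h.Kst_mem v hv).2)
  have bmmax : BudBM (fun v => max (D.Ks v) (D.Kst v)) :=
    BudBM.of_bd (bmKs.1.aemeasurable.max bmKst.1.aemeasurable).aestronglyMeasurable (C := Q0) (fun v hv => by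
      rw [abs_of_nonneg (le_max_of_le_left (h.Ks_mem v hv).1)]
      exact max_le (h.Ks_mem v hv).2 (h.Kst_mem v hv).2)
  have bmw : BudBM (fun v => min D.u (max (D.Ks v) (D.Kst v))) :=
    BudBM.comp_meas (φ := fun t => min D.u t) (measurable_const.min measurable_id) bmmax (C := D.u) (fun v hv => by
      rw [abs_of_nonneg (le_min hu.le (le_max_of_le_left (h.Ks_mem v hv).1))]
      exact min_le_left _ _)
  have bmΘ : BudBM (fun v => min D.u (max (D.Ks v) (D.Kst v)) * |D.Ks v - D.Kst v|) := bmw.mul (bmKs.sub bmKst).abs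
  have bmm := bud_n11_bm_min D.u hu.le
  have bmSq := (h.bm_Sm.sub h.bm_q).abs
  have bmSr := (h.bm_Sm.sub h.bm_r).abs
  rw [← intervalIntegral.integral_add_adjacent_intervals (bmΘ.intervalIntegrable le_rfl hvl0 h.vlow1)
    (bmΘ.intervalIntegrable hvl0 h.vlow1 le_rfl)]
  -- low masses
  have low : ∫ v in (0:ℝ)..D.vlow, min D.u (max (D.Ks v) (D.Kst v)) * |D.Ks v - D.Kst v|
      ≤ CK ^ 2 * (D.vlow + D.wc) ^ 2 * D.vlow := by
    have : ∫ v in (0:ℝ)..D.vlow, min D.u (max (D.Ks v) (D.Kst v)) * |D.Ks v - D.Kst v|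
        ≤ ∫ _v in (0:ℝ)..D.vlow, CK ^ 2 * (D.vlow + D.wc) ^ 2 := by
      apply intervalIntegral.integral_mono_on_of_le_Ioo hvl0 (bmΘ.intervalIntegrable le_rfl hvl0 h.vlow1)
        intervalIntegrable_const
      intro v hv
      have hv' : v ∈ Ioo (0:ℝ) 1 := ⟨hv.1, lt_of_lt_of_le hv.2 h.vlow1⟩
      have k1 := h.Ks_mem v hv'
      have k2 := h.Kst_mem v hv'
      have hb : CK * (v + D.wc) ≤ CK * (D.vlow + D.wc) := mul_le_mul_of_nonneg_left (by linarith [hv.2]) hCK0.le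
      have m1 : max (D.Ks v) (D.Kst v) ≤ CK * (D.vlow + D.wc) :=
        max_le ((h.Ks_le v hv').trans hb) ((h.Kst_le v hv').trans hb)
      have m0 : 0 ≤ max (D.Ks v) (D.Kst v) := le_max_of_le_left k1.1
      have a1 : |D.Ks v - D.Kst v| ≤ CK * (D.vlow + D.wc) := by
        refine le_trans ?_ m1
        rw [abs_le]
        constructor
        · linarith [le_max_right (D.Ks v) (D.Kst v), k1.1]
        · linarith [le_max_left (D.Ks v) (D.Kst v), k2.1]
      have a2 : min D.u (max (D.Ks v) (D.Kst v)) ≤ CK * (D.vlow + D.wc) := (min_le_right _ _).trans m1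
      calc min D.u (max (D.Ks v) (D.Kst v)) * |D.Ks v - D.Kst v|
          ≤ (CK * (D.vlow + D.wc)) * (CK * (D.vlow + D.wc)) :=
            mul_le_mul a2 a1 (abs_nonneg _) (m0.trans m1)
        _ = CK ^ 2 * (D.vlow + D.wc) ^ 2 := by ring
    rw [intervalIntegral.integral_const, smul_eq_mul, sub_zero] at this
    linarith
  -- high masses
  have ii1 := (bmm.mul bmSq).intervalIntegrable hvl0 h.vlow1 le_rfl
  have ii2 := (bmm.mul h.bm_d.abs).intervalIntegrable hvl0 h.vlow1 le_rfl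
  have bm3 := bmm.mul (h.bm_C.mul bmSr)
  have ii3 := bm3.intervalIntegrable hvl0 h.vlow1 le_rfl
  have high : ∫ v in D.vlow..1, min D.u (max (D.Ks v) (D.Kst v)) * |D.Ks v - D.Kst v|
      ≤ 2 * CK * (bmax * (∫ v in D.vlow..1, min D.u v * |D.Sm v - D.q v|) + D.Dd
          + ∫ v in D.vlow..1, min D.u v * (D.g.C (D.r v) * |D.Sm v - D.r v|)) := by
    unfold BudTr.Dd
    rw [← intervalIntegral.integral_const_mul bmax, ← intervalIntegral.integral_add (ii1.const_mul _) ii2,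
      ← intervalIntegral.integral_add ((ii1.const_mul _).add ii2) ii3, ← intervalIntegral.integral_const_mul]
    apply intervalIntegral.integral_mono_on_of_le_Ioo h.vlow1 (bmΘ.intervalIntegrable hvl0 h.vlow1 le_rfl)
      ((((ii1.const_mul _).add ii2).add ii3).const_mul _)
    intro v hv
    have hv0 : 0 < v := lt_of_le_of_lt hvl0 hv.1
    have hv' : v ∈ Ioo (0:ℝ) 1 := ⟨hv0, hv.2⟩
    have hb : CK * (v + D.wc) ≤ 2 * CK * v := by nlinarith [h.vlow0, hv.1]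
    have m1 : max (D.Ks v) (D.Kst v) ≤ 2 * CK * v := max_le ((h.Ks_le v hv').trans hb) ((h.Kst_le v hv').trans hb)
    have w1 : min D.u (max (D.Ks v) (D.Kst v)) ≤ 2 * CK * min D.u v :=
      (min_le_min le_rfl m1).trans (bud_n11_min_scale hu.le hv0.le (by linarith [h.CK1]))
    have hmin : 0 ≤ min D.u v := le_min hu.le hv0.le
    have hd := h.diff v hv
    calc min D.u (max (D.Ks v) (D.Kst v)) * |D.Ks v - D.Kst v|
        ≤ (2 * CK * min D.u v) * (bmax * |D.Sm v - D.q v| + |D.d v| + D.g.C (D.r v) * |D.Sm v - D.r v|) :=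
          mul_le_mul w1 hd (abs_nonneg _) (by positivity)
      _ = 2 * CK * (bmax * (min D.u v * |D.Sm v - D.q v|) + min D.u v * |D.d v|
            + min D.u v * (D.g.C (D.r v) * |D.Sm v - D.r v|)) := by ring
  have t1 : ∫ v in D.vlow..1, min D.u v * |D.Sm v - D.q v| ≤ Real.sqrt (2 * D.u) * Real.sqrt D.N2 := by
    refine (bud_n11_cs_w (Cw := 1) hvl0 h.vlow1 (h.bm_Sm.sub h.bm_q) (measurable_const.min measurable_id)
      (fun v hv => le_min hu.le (hvl0.trans hv.1.le)) (fun v _ => by rw [one_mul]; exact min_le_right _ _)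
      (bud_n11_min_sq hu h.u1 hvl0 h.vlow1)).trans ?_
    exact mul_le_mul_of_nonneg_left (Real.sqrt_le_sqrt h.N2_S) (Real.sqrt_nonneg _)
  have t3 : ∫ v in D.vlow..1, min D.u v * (D.g.C (D.r v) * |D.Sm v - D.r v|)
      ≤ ∫ v in (0:ℝ)..1, min D.u v * (D.g.C (D.r v) * |D.Sm v - D.r v|) := by
    apply intervalIntegral.integral_mono_interval hvl0 h.vlow1 le_rfl _ (bm3.intervalIntegrable le_rfl zero_le_one le_rfl)
    rw [← restrict_Ioo_eq_restrict_Ioc]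
    filter_upwards [ae_restrict_mem measurableSet_Ioo] with v hv
    exact mul_nonneg (le_min hu.le hv.1.le)
      (mul_nonneg (h.ok.Cpos _ (Ioo_subset_Icc_self (h.r_mem hv))).le (abs_nonneg _))
  have t4 := bud_n11_removal D h
  have t5 := mul_le_mul_of_nonneg_left t1 h.bmax0
  have : 2 * CK * (bmax * (∫ v in D.vlow..1, min D.u v * |D.Sm v - D.q v|) + D.Dd
          + ∫ v in D.vlow..1, min D.u v * (D.g.C (D.r v) * |D.Sm v - D.r v|))
      ≤ 2 * CK * (bmax * (Real.sqrt (2 * D.u) * Real.sqrt D.N2) + D.Dd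
          + C0 * ((Real.sqrt 2 + 4 / Real.sqrt cb) * (Real.sqrt D.u * Real.sqrt D.N2) + 2 * D.u / D.g.M + 2 * D.u * D.kint)) :=
    mul_le_mul_of_nonneg_left (by linarith) (by positivity)
  linarith

end Claimed.Agent.R286
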