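import Claimed.Agent.R286.Bud.Defs
import Claimed.Agent.R286.Bud.GeoFlat
import Claimed.Agent.R286.Bud.GeoCon
import Claimed.Agent.R286.Bud.GeoQ
import Claimed.Agent.R286.Bud.GeoBr
import Claimed.Agent.R286.Bud.N11E

/-!
# Row 286, LL 07-budgets l.1305-1400, node N11: buffered geometry and the transport estimate
OWNER helper6 (ADV helper248).   Consumers: 212 (N13-N15), 184 (N17-N19, fields (H1)-(H4) of `RigD.Ok`), N12 (`Bud/N12.lean`).

FORM.  Every statement is about ONE instance, DETERMINISTIC, with EXPLICIT constants: no `o(.)`, no sequence, no world.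
The optimiser enters only through the geometry datum `g : BudGeo` of node N4 (109): radius coordinate `r`, `g.al = α`, `g.S r = S_{α(r)}`, `g.H = 𝓗`.
Mass coordinate: `v = g.al r`, `r = budQ g.ρ v`.      Smallness (`= o(d₀)`) is the pure arithmetic of part F.

EXITS
* A `bud_n11_select`        buffer selection by doubling (l.1313-1330)
* B `BudBuf` + `BudBuf.exists_nonfloor, S_near, S_osc, al_osc, nonfloor_mass, Y_off`      (l.1336-1345)
* C `bud_n11_dist_bracket, bud_n11_cross, bud_n11_rtil, bud_n11_altil`      `r~(α(r)) = r + O(d₀)`, `α~ - β₀ = O(d₀)`, crossing bound (l.1347-1365, l.2074, l.2131)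
* D `bud_n11_layer`         one-dimensional inverse transport (layer cake)      IN `Bud/N11E.lean`
* E `BudTr` + `bud_n11_transport`      `∫ min(u,t)|δα_t| dt ≤ explicit` (l.1367-1398)      IN `Bud/N11E.lean` (0 sorry)
* F `bud_n11_pow_seed, bud_n11_pow_wc, bud_n11_pow_norm, bud_n11_pow_floor`      the four power margins

IMPORTS (hypotheses of the statements; suppliers): `g.Ok`, `g.Flat` (N4, 109); slopes of `β₀`, `q`, `Γ_*` (LL03 (P2)); `K_s, K_* ≤ CK (v + w_c)` ((C7),(C8): N5-N9; (P4)-(P7));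
`𝓝² ≤ N2` ((C13): N10, 212); seed bound for `d` ((P6),(P7)), `∫ min(u,v)|d|` ((P8)).
-/

set_option autoImplicit false

open MeasureTheory Set Filter Topology

namespace Claimed.Agent.R286

/-! ## A. buffer selection -/

theorem bud_bf_sqrt_step {L L' : ℝ} (_hL : 0 ≤ L) (h : 2 * L ≤ L') :
    Real.sqrt L ≤ 5 / 2 * (Real.sqrt L' - Real.sqrt L) := by
  have h1 : Real.sqrt (2 * L) ≤ Real.sqrt L' := Real.sqrt_le_sqrt h
  have h2 : Real.sqrt (2 * L) = Real.sqrt 2 * Real.sqrt L := Real.sqrt_mul (by norm_num) L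
  have h3 : (7:ℝ) / 5 ≤ Real.sqrt 2 := by
    rw [show (7:ℝ) / 5 = Real.sqrt ((7 / 5) ^ 2) by rw [Real.sqrt_sq (by norm_num)]]
    exact Real.sqrt_le_sqrt (by norm_num)
  have h4 := Real.sqrt_nonneg L
  nlinarith

/-- doubling selection in normalised radius (LL l.1311-1322): at most `n` doublings -/
theorem bud_bf_select (φ : ℝ → ℝ) (ε e : ℝ) (he : 0 ≤ e) (n : ℕ) :
    ∀ r : ℝ, 0 < φ r → φ r ≤ ε → ε < 2 ^ n * φ r →
      (∀ s, |s - r| ≤ 5 / 2 * (Real.sqrt ε - Real.sqrt (φ r)) + Real.sqrt ε + (n + 1) * e → φ s ≤ ε) →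
      ∃ r0, |r0 - r| ≤ 5 / 2 * (Real.sqrt (φ r0) - Real.sqrt (φ r)) + n * e ∧ φ r ≤ φ r0 ∧ φ r0 ≤ ε ∧
        ∀ s, |s - r0| ≤ Real.sqrt (φ r0) + e → φ s ≤ 2 * φ r0 := by
  induction n with
  | zero =>
    intro r hL hε hn hb
    simp only [pow_zero, one_mul] at hn
    linarith
  | succ n ih =>
    intro r hL hε hn hb
    by_cases hgood : ∀ s, |s - r| ≤ Real.sqrt (φ r) + e → φ s ≤ 2 * φ r
    · refine ⟨r, ?_, le_rfl, hε, hgood⟩
      simp only [sub_self, abs_zero, mul_zero, zero_add]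
      positivity
    · push Not at hgood
      obtain ⟨s, hs, hs2⟩ := hgood
      have hsq : Real.sqrt (φ r) ≤ Real.sqrt ε := Real.sqrt_le_sqrt hε
      have hstep := bud_bf_sqrt_step hL.le hs2.le
      have hsε : φ s ≤ ε := by
        apply hb s
        push_cast
        nlinarith
      have hs0 : 0 < φ s := by linarith
      have hn' : ε < 2 ^ n * φ s := by
        have : (2:ℝ) ^ (n + 1) * φ r = 2 ^ n * (2 * φ r) := by rw [pow_succ]; ring
        rw [this] at hn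
        exact lt_trans hn (mul_lt_mul_of_pos_left hs2 (by positivity))
      obtain ⟨r0, h1, h2, h3, h4⟩ := ih s hs0 hsε hn' (by
        intro t ht
        apply hb t
        have : |t - r| ≤ |t - s| + |s - r| := by
          have := abs_add_le (t - s) (s - r)
          simpa using this
        push_cast
        linarith)
      refine ⟨r0, ?_, by linarith, h3, h4⟩
      have : |r0 - r| ≤ |r0 - s| + |s - r| := by
        have := abs_add_le (r0 - s) (s - r)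
        simpa using this
      push_cast
      linarith

/-- **N11.A** (l.1313-1330), pure real analysis; `D = |α - β₀|`, `[a,b]` = the patch, `[a',b']` = the smaller interval, `μ = λ^ρ`.
Proof: doubling.  `r⁰ = r1, L⁰ = L1`.  If the buffer bound fails at `(r^k, L^k)` take `r^{k+1}` in the buffer with `D > 2 u L^k`, `L^{k+1} = D(r^{k+1})/u > 2 L^k`.
As long as the points stay in `[a,b]`: `2^k L1 ≤ L^k ≤ ε`, so `k ≤ logb 2 (ε/L1)`, and `∑_{i ≤ k} √L^i ≤ √L^k / (1 - 1/√2) ≤ 3.42 √ε`.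
Induct on `n` with `ε < 2^n L`: claim for all `(r, L)` with `D r = u L`, `dist(r, {a,b}) ≥ u (3.42 √ε' ..)`; or strong induction on `⌊logb 2 (ε/L)⌋₊`. -/
theorem bud_n11_select {D : ℝ → ℝ} {a b a' b' u ε μ L1 r1 : ℝ}
    (hu : 0 < u) (hμ : 0 ≤ μ) (hL1 : 0 < L1) (hL1ε : L1 ≤ ε)
    (hD : ∀ r ∈ Icc a b, D r ≤ ε * u)
    (hr1 : r1 ∈ Icc a' b') (hD1 : D r1 = u * L1)
    (hroom : u * (5 * Real.sqrt ε + μ * (Real.logb 2 (ε / L1) + 2)) ≤ min (a' - a) (b - b')) :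
    ∃ r0 L, L1 ≤ L ∧ L ≤ ε ∧ D r0 = u * L ∧ a ≤ r0 - u * (Real.sqrt L + μ) ∧ r0 + u * (Real.sqrt L + μ) ≤ b ∧
      ∀ r, |r - r0| ≤ u * (Real.sqrt L + μ) → D r ≤ 2 * (u * L) := by
  set lg := Real.logb 2 (ε / L1) with hlg
  have hq1 : 1 ≤ ε / L1 := by rw [le_div_iff₀ hL1]; linarith
  have hlg0 : 0 ≤ lg := Real.logb_nonneg (by norm_num) hq1
  set n : ℕ := ⌊lg⌋₊ + 1 with hn
  have hn1 : (n : ℝ) ≤ lg + 1 := by
    rw [hn]; push_cast
    linarith [Nat.floor_le hlg0]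
  have hn2 : lg < n := by
    rw [hn]; push_cast
    exact Nat.lt_floor_add_one lg
  have hpow : ε < 2 ^ n * L1 := by
    have h1 : ε / L1 < (2:ℝ) ^ (n:ℝ) := by
      rw [← Real.logb_lt_iff_lt_rpow (by norm_num) (by linarith)]
      exact hn2
    rw [Real.rpow_natCast, div_lt_iff₀ hL1] at h1
    exact h1
  set φ : ℝ → ℝ := fun s => D (u * s) / u with hφ
  have hφ1 : φ (r1 / u) = L1 := by
    simp only [hφ]
    rw [mul_div_cancel₀ _ hu.ne', hD1]
    field_simp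
  have hsε := Real.sqrt_nonneg ε
  have hra : u * (5 * Real.sqrt ε + μ * (lg + 2)) ≤ a' - a := hroom.trans (min_le_left _ _)
  have hrb : u * (5 * Real.sqrt ε + μ * (lg + 2)) ≤ b - b' := hroom.trans (min_le_right _ _)
  have hnμ : (n:ℝ) * μ ≤ (lg + 1) * μ := mul_le_mul_of_nonneg_right hn1 hμ
  -- a point within the room lies in the patch
  have hin : ∀ s w : ℝ, |s - r1 / u| ≤ w → w ≤ 5 * Real.sqrt ε + μ * (lg + 2) → u * s ∈ Icc a b := by
    intro s w hs hw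
    have h1 := abs_le.mp (hs.trans hw)
    have h2 : u * (s - r1 / u) = u * s - r1 := by field_simp
    have h3 : u * (s - r1 / u) ≤ u * (5 * Real.sqrt ε + μ * (lg + 2)) := mul_le_mul_of_nonneg_left h1.2 hu.le
    have h4 : u * (-(5 * Real.sqrt ε + μ * (lg + 2))) ≤ u * (s - r1 / u) := mul_le_mul_of_nonneg_left h1.1 hu.le
    constructor
    · linarith [hr1.1]
    · linarith [hr1.2]
  obtain ⟨ρ0, h1, h2, h3, h4⟩ := bud_bf_select φ ε μ hμ n (r1 / u) (by rw [hφ1]; exact hL1) (by rw [hφ1]; exact hL1ε)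
    (by rw [hφ1]; exact hpow) (by
      intro s hs
      have hmem := hin s _ hs (by
        have := Real.sqrt_nonneg (φ (r1 / u))
        nlinarith)
      have := hD _ hmem
      simp only [hφ]
      rw [div_le_iff₀ hu]
      exact this)
  rw [hφ1] at h1 h2
  have hsL : Real.sqrt (φ ρ0) ≤ Real.sqrt ε := Real.sqrt_le_sqrt h3
  have hsL0 := Real.sqrt_nonneg (φ ρ0)
  have hsL1 := Real.sqrt_nonneg L1
  have hDr0 : D (u * ρ0) = u * φ ρ0 := by
    simp only [hφ]; field_simp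
  have hd := abs_le.mp h1
  have e1 : u * (ρ0 - r1 / u) = u * ρ0 - r1 := by field_simp
  have k1 : u * (ρ0 - r1 / u) ≤ u * (5 / 2 * (Real.sqrt (φ ρ0) - Real.sqrt L1) + n * μ) :=
    mul_le_mul_of_nonneg_left hd.2 hu.le
  have k2 : u * (-(5 / 2 * (Real.sqrt (φ ρ0) - Real.sqrt L1) + n * μ)) ≤ u * (ρ0 - r1 / u) :=
    mul_le_mul_of_nonneg_left hd.1 hu.le
  have k3 : u * (5 / 2 * (Real.sqrt (φ ρ0) - Real.sqrt L1) + n * μ) + u * (Real.sqrt (φ ρ0) + μ)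
      ≤ u * (5 * Real.sqrt ε + μ * (lg + 2)) := by
    rw [← mul_add]
    apply mul_le_mul_of_nonneg_left _ hu.le
    nlinarith
  refine ⟨u * ρ0, φ ρ0, h2, h3, hDr0, ?_, ?_, ?_⟩
  · linarith [hr1.1]
  · linarith [hr1.2]
  · intro r hr
    have h5 : |r / u - ρ0| ≤ Real.sqrt (φ ρ0) + μ := by
      have : r / u - ρ0 = (r - u * ρ0) / u := by field_simp
      rw [this, abs_div, abs_of_pos hu, div_le_iff₀ hu]
      linarith
    have h6 := h4 (r / u) h5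
    simp only [hφ] at h6
    rw [mul_div_cancel₀ _ hu.ne', div_le_iff₀ hu] at h6
    simp only [hφ]
    calc D r ≤ 2 * (D (u * ρ0) / u) * u := h6
      _ = 2 * (u * (D (u * ρ0) / u)) := by ring

/-! ## B. geometry in a buffer -/

/-- **a buffer** `[lo,hi]` in radius coordinates: inside the constant part of the removal, `|α - β| ≤ d` (`d = Cbuf d₀`), `β` has slopes in `[cβ, Cβ]`,
the floor is at most `cβ/2` -/
structure BudBuf (g : BudGeo) (β : ℝ → ℝ) (lo hi d cβ Cβ R0 C0 : ℝ) : Prop where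
  ok : g.Ok
  flat : g.Flat R0 C0
  lo0 : 0 ≤ lo
  lohi : lo ≤ hi
  hiR : hi + 1 / g.M ≤ R0
  d0 : 0 ≤ d
  cβ0 : 0 < cβ
  βlo : ∀ s ∈ Icc lo hi, ∀ t ∈ Icc lo hi, s ≤ t → cβ * (t - s) ≤ β t - β s
  βhi : ∀ s ∈ Icc lo hi, ∀ t ∈ Icc lo hi, s ≤ t → β t - β s ≤ Cβ * (t - s)
  near : ∀ r ∈ Icc lo hi, |g.al r - β r| ≤ d
  kb : ∀ r ∈ Icc lo hi, g.kb r ≤ cβ / 2

namespace BudBuf

variable {g : BudGeo} {β : ℝ → ℝ} {lo hi d cβ Cβ R0 C0 : ℝ}

/-- B0 increments of `α` in a buffer -/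
theorem al_osc (h : BudBuf g β lo hi d cβ Cβ R0 C0) {s t : ℝ} (hs : s ∈ Icc lo hi) (ht : t ∈ Icc lo hi) (hst : s ≤ t) :
    cβ * (t - s) - 2 * d ≤ g.al t - g.al s ∧ g.al t - g.al s ≤ Cβ * (t - s) + 2 * d := by
  have h1 := h.βlo s hs t ht hst
  have h2 := h.βhi s hs t ht hst
  have h3 := abs_le.mp (h.near s hs)
  have h4 := abs_le.mp (h.near t ht)
  constructor <;> linarith

/-- B1 every radius interval longer than `4 d / cβ` contains a nonfloor point.   Proof: `BudGeo.exists_nonfloor`, `∫ kb ≤ (cβ/2)(t-s) < cβ (t-s) - 2d ≤ α t - α s`. -/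
theorem exists_nonfloor (h : BudBuf g β lo hi d cβ Cβ R0 C0) {s t : ℝ} (hs : s ∈ Icc lo hi) (ht : t ∈ Icc lo hi)
    (hst : 4 * d / cβ < t - s) : ∃ r ∈ Ioo s t, g.H r ≤ 0 := by
  have hpos : 0 ≤ 4 * d / cβ := by have := h.d0; have := h.cβ0; positivity
  have hlt : s < t := by linarith
  have hi1 : hi ≤ 1 := by
    have := h.flat.hR
    have hM : 0 < 1 / g.M := by have := h.ok.M1; positivity
    linarith [h.hiR]
  apply BudGeo.exists_nonfloor h.ok (h.lo0.trans hs.1) hlt (ht.2.trans hi1)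
  have h1 : ∫ r in s..t, g.kb r ≤ ∫ _r in s..t, cβ / 2 := by
    apply intervalIntegral.integral_mono_on hlt.le
      (BudGeo.pot_kb_int h.ok (h.lo0.trans hs.1) hlt.le (ht.2.trans hi1)) intervalIntegrable_const
    intro r hr
    exact h.kb r ⟨hs.1.trans hr.1, hr.2.trans ht.2⟩
  rw [intervalIntegral.integral_const, smul_eq_mul] at h1
  have h2 := (h.al_osc hs ht hlt.le).1
  have h5 : 4 * d < cβ * (t - s) := by
    rw [div_lt_iff₀ h.cβ0] at hst; linarith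
  linarith

/-- B2 `|S - r| = O(d₀)`.   Proof: nonfloor points `s₁ ∈ (r-ℓ, r)`, `s₂ ∈ (r, r+ℓ)`, `BudGeo.flat_nonfloor` at both, monotonicity of `S`. -/
theorem S_near (h : BudBuf g β lo hi d cβ Cβ R0 C0) {ℓ r : ℝ} (hℓ : 4 * d / cβ < ℓ) (hr : r ∈ Icc (lo + ℓ) (hi - ℓ)) :
    |g.S r - r| ≤ ℓ + 2 / g.M := by
  have hpos : 0 ≤ 4 * d / cβ := by have := h.d0; have := h.cβ0; positivity
  have hi1 : hi ≤ 1 := by
    have := h.flat.hR
    have hM : 0 < 1 / g.M := by have := h.ok.M1; positivity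
    linarith [h.hiR]
  obtain ⟨hr1, hr2⟩ := hr
  obtain ⟨a, ha, hHa⟩ := h.exists_nonfloor (s := r - ℓ) (t := r) ⟨by linarith, by linarith⟩
    ⟨by linarith, by linarith⟩ (by linarith)
  obtain ⟨b, hb, hHb⟩ := h.exists_nonfloor (s := r) (t := r + ℓ) ⟨by linarith, by linarith⟩
    ⟨by linarith, by linarith⟩ (by linarith)
  have hlo0 := h.lo0
  have hna := abs_le.mp (BudGeo.flat_nonfloor h.ok h.flat (r := a) (by linarith [ha.1]) (by linarith [ha.2, h.hiR]) hHa)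
  have hnb := abs_le.mp (BudGeo.flat_nonfloor h.ok h.flat (r := b) (by linarith [hb.1]) (by linarith [hb.2, h.hiR]) hHb)
  have m1 : g.S a ≤ g.S r := h.ok.Smono ⟨by linarith [ha.1], by linarith [ha.2]⟩ ⟨by linarith, by linarith⟩ ha.2.le
  have m2 : g.S r ≤ g.S b := h.ok.Smono ⟨by linarith, by linarith⟩ ⟨by linarith [hb.1], by linarith [hb.2]⟩ hb.1.le
  rw [abs_le]
  constructor
  · linarith [ha.1]
  · linarith [hb.2]

/-- B3 oscillation of `S` -/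
theorem S_osc (h : BudBuf g β lo hi d cβ Cβ R0 C0) {ℓ s t : ℝ} (hℓ : 4 * d / cβ < ℓ) (hs : s ∈ Icc (lo + ℓ) (hi - ℓ))
    (ht : t ∈ Icc (lo + ℓ) (hi - ℓ)) (hst : s ≤ t) : g.S t - g.S s ≤ (t - s) + 2 * ℓ + 4 / g.M := by
  have _ := hst
  have h1 := abs_le.mp (h.S_near hℓ hs)
  have h2 := abs_le.mp (h.S_near hℓ ht)
  have e : 4 / g.M = 2 * (2 / g.M) := by ring
  linarith

/-- B4 at nonfloor points `|S - r| ≤ 2/M` (= `BudGeo.flat_nonfloor` in the buffer) -/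
theorem Y_off (h : BudBuf g β lo hi d cβ Cβ R0 C0) {r : ℝ} (hr : r ∈ Icc lo hi) (hH : g.H r ≤ 0) :
    |g.S r - r| ≤ 2 / g.M := by
  exact BudGeo.flat_nonfloor h.ok h.flat (h.lo0.trans hr.1) (by linarith [hr.2, h.hiR]) hH

/-- B5 nonfloor physical mass of an interval.   Proof: `α t - α s = ∫ ρ`, `BudGeo.floor_mass`, `al_osc`. -/
theorem nonfloor_mass (h : BudBuf g β lo hi d cβ Cβ R0 C0) {s t : ℝ} (hs : s ∈ Icc lo hi) (ht : t ∈ Icc lo hi) (hst : s ≤ t) :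
    cβ / 2 * (t - s) - 2 * d ≤ ∫ r in Ioc s t ∩ {r | g.H r ≤ 0}, g.ρ r := by
  have hi1 : hi ≤ 1 := by
    have := h.flat.hR
    have hM : 0 < 1 / g.M := by have := h.ok.M1; positivity
    linarith [h.hiR]
  have hs0 : 0 ≤ s := h.lo0.trans hs.1
  have ht1 : t ≤ 1 := ht.2.trans hi1
  have h1 : ∫ r in s..t, g.kb r ≤ ∫ _r in s..t, cβ / 2 := by
    apply intervalIntegral.integral_mono_on hst
      (BudGeo.pot_kb_int h.ok hs0 hst ht1) intervalIntegrable_const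
    intro r hr
    exact h.kb r ⟨hs.1.trans hr.1, hr.2.trans ht.2⟩
  rw [intervalIntegral.integral_const, smul_eq_mul] at h1
  have h2 := (h.al_osc hs ht hst).1
  have h3 := BudGeo.floor_mass h.ok hs0 hst ht1
  have h4 := BudGeo.pot_al_sub h.ok hs0 hst ht1
  have hint := BudGeo.pot_rho_int h.ok hs0 hst ht1
  rw [intervalIntegrable_iff, uIoc_of_le hst] at hint
  -- measurability of the floor set inside the interval
  have hc := BudGeo.H_cont h.ok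
  obtain ⟨U, hU, hUeq⟩ := (continuousOn_iff'.1 hc) (Ioi 0) isOpen_Ioi
  have hsub : Ioc s t ⊆ Icc (0:ℝ) 1 := fun x hx => ⟨hs0.trans hx.1.le, hx.2.trans ht1⟩
  have hset : Ioc s t ∩ {r | 0 < g.H r} = Ioc s t ∩ U := by
    ext x
    constructor
    · rintro ⟨hx1, hx2⟩
      have : x ∈ g.H ⁻¹' Ioi 0 ∩ Icc 0 1 := ⟨hx2, hsub hx1⟩
      rw [hUeq] at this
      exact ⟨hx1, this.1⟩
    · rintro ⟨hx1, hx2⟩
      have : x ∈ U ∩ Icc 0 1 := ⟨hx2, hsub hx1⟩
      rw [← hUeq] at this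
      exact ⟨hx1, this.1⟩
  have hset2 : Ioc s t ∩ {r | g.H r ≤ 0} = Ioc s t ∩ Uᶜ := by
    ext x
    constructor
    · rintro ⟨hx1, hx2⟩
      refine ⟨hx1, fun hxU => ?_⟩
      have : x ∈ Ioc s t ∩ {r | 0 < g.H r} := by rw [hset]; exact ⟨hx1, hxU⟩
      exact absurd (show 0 < g.H x from this.2) (not_lt.2 hx2)
    · rintro ⟨hx1, hx2⟩
      refine ⟨hx1, ?_⟩
      by_contra hcon
      have : x ∈ Ioc s t ∩ U := by rw [← hset]; exact ⟨hx1, show 0 < g.H x from not_le.1 hcon⟩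
      exact hx2 this.2
  have hsplit : ∫ r in Ioc s t, g.ρ r = (∫ r in Ioc s t ∩ U, g.ρ r) + ∫ r in Ioc s t ∩ Uᶜ, g.ρ r := by
    rw [← Set.sdiff_eq]
    exact (integral_inter_add_sdiff hU.measurableSet hint).symm
  rw [hset] at h3
  rw [hset2]
  rw [intervalIntegral.integral_of_le hst] at h4
  linarith

/-- B6 a sub-interval of a buffer is a buffer -/
theorem mono (h : BudBuf g β lo hi d cβ Cβ R0 C0) {lo' hi' : ℝ} (h1 : lo ≤ lo') (h2 : lo' ≤ hi') (h3 : hi' ≤ hi) :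
    BudBuf g β lo' hi' d cβ Cβ R0 C0 := by
  have hsub : ∀ r, r ∈ Icc lo' hi' → r ∈ Icc lo hi := fun r hr => ⟨h1.trans hr.1, hr.2.trans h3⟩
  exact ⟨h.ok, h.flat, h.lo0.trans h1, h2, by linarith [h.hiR], h.d0, h.cβ0,
    fun s hs t ht => h.βlo s (hsub s hs) t (hsub t ht), fun s hs t ht => h.βhi s (hsub s hs) t (hsub t ht),
    fun r hr => h.near r (hsub r hr), fun r hr => h.kb r (hsub r hr)⟩

end BudBuf

/-! ## C. the transported quantile `r~ = Γ_* ∘ K_s` and its distribution `α~` -/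

/-- C1 monotone bracketing.   `ψ = r~` (mass coordinate).
Proof: `v ≤ al (r - e')` gives `ψ v ≤ ψ (al (r-e')) ≤ r - e' + e < r`; `v ≥ al (r + e')` gives `ψ v > r`.
(25: retyped with `al s ∈ Ioo 0 1` on the whole buffer and `0 ≤ e`: with `al ≡ 1` on the buffer, or `e' < 0`, the first typing was false.) -/
theorem bud_n11_dist_bracket {ψ al : ℝ → ℝ} {lo hi e e' r : ℝ}
    (hψ : MonotoneOn ψ (Ioo 0 1)) (hal : ∀ s ∈ Icc lo hi, al s ∈ Ioo (0:ℝ) 1)
    (hnear : ∀ s ∈ Icc lo hi, |ψ (al s) - s| ≤ e) (he : 0 ≤ e) (hee : e < e')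
    (hr : r ∈ Icc (lo + e') (hi - e')) :
    al (r - e') ≤ bdDist ψ r ∧ bdDist ψ r ≤ al (r + e') := by
  obtain ⟨hr1, hr2⟩ := hr
  have hs1 : r - e' ∈ Icc lo hi := ⟨by linarith, by linarith⟩
  have hs2 : r + e' ∈ Icc lo hi := ⟨by linarith, by linarith⟩
  have hfin : volume {v : ℝ | v ∈ Ioo (0 : ℝ) 1 ∧ ψ v ≤ r} ≠ ⊤ :=
    ne_top_of_le_ne_top (by simp) (measure_mono (t := Ioo (0:ℝ) 1) (fun v hv => hv.1))
  constructor
  · have ha := hal _ hs1
    have hn := abs_le.mp (hnear _ hs1)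
    have hsub : Ioc 0 (al (r - e')) ⊆ {v : ℝ | v ∈ Ioo (0 : ℝ) 1 ∧ ψ v ≤ r} := by
      intro v hv
      have hv1 : v ∈ Ioo (0:ℝ) 1 := ⟨hv.1, lt_of_le_of_lt hv.2 ha.2⟩
      exact ⟨hv1, by linarith [hψ hv1 ha hv.2]⟩
    have := ENNReal.toReal_mono hfin (measure_mono hsub)
    rw [Real.volume_Ioc, sub_zero, ENNReal.toReal_ofReal ha.1.le] at this
    exact this
  · have hb := hal _ hs2
    have hn := abs_le.mp (hnear _ hs2)
    have hsub : {v : ℝ | v ∈ Ioo (0 : ℝ) 1 ∧ ψ v ≤ r} ⊆ Ioo 0 (al (r + e')) := by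
      intro v hv
      refine ⟨hv.1.1, ?_⟩
      by_contra hcon
      have := hψ hb hv.1 (not_lt.1 hcon)
      linarith [hv.2]
    have := ENNReal.toReal_mono (by simp) (measure_mono (μ := volume) hsub)
    rw [Real.volume_Ioo, sub_zero, ENNReal.toReal_ofReal hb.1.le] at this
    exact this

theorem bud_n11_al_cont {g : BudGeo} (hg : g.Ok) : ContinuousOn g.al (Icc 0 1) := by
  have h1 := BudGeo.pot_rho_int hg le_rfl zero_le_one le_rfl
  rw [intervalIntegrable_iff_integrableOn_Icc_of_le zero_le_one] at h1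
  have := intervalIntegral.continuousOn_primitive_interval (a := 0) (b := 1) (f := g.ρ) (μ := volume)
    (by rw [uIcc_of_le zero_le_one]; exact h1)
  rw [uIcc_of_le zero_le_one] at this
  exact this

/-- below the value of the distribution function the clock has not passed `r`, above it has -/
theorem bud_n11_dist_lt {ψ : ℝ → ℝ} (hψ : MonotoneOn ψ (Ioo 0 1)) {r v : ℝ} (hv : v ∈ Ioo (0:ℝ) 1) :
    (v < bdDist ψ r → ψ v ≤ r) ∧ (bdDist ψ r < v → r < ψ v) := by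
  constructor
  · intro h
    by_contra hcon
    have hsub : {x : ℝ | x ∈ Ioo (0 : ℝ) 1 ∧ ψ x ≤ r} ⊆ Ioo 0 v := by
      intro x hx
      refine ⟨hx.1.1, ?_⟩
      by_contra hc2
      have := hψ hv hx.1 (not_lt.1 hc2)
      exact hcon (this.trans hx.2)
    have := ENNReal.toReal_mono (by simp) (measure_mono (μ := volume) hsub)
    rw [Real.volume_Ioo, sub_zero, ENNReal.toReal_ofReal hv.1.le] at this
    exact absurd h (not_lt.2 this)
  · intro h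
    by_contra hcon
    have hfin : volume {x : ℝ | x ∈ Ioo (0 : ℝ) 1 ∧ ψ x ≤ r} ≠ ⊤ :=
      ne_top_of_le_ne_top (by simp) (measure_mono (t := Ioo (0:ℝ) 1) (fun x hx => hx.1))
    have hsub : Ioc 0 v ⊆ {x : ℝ | x ∈ Ioo (0 : ℝ) 1 ∧ ψ x ≤ r} := by
      intro x hx
      have hx1 : x ∈ Ioo (0:ℝ) 1 := ⟨hx.1, lt_of_le_of_lt hx.2 hv.2⟩
      exact ⟨hx1, (hψ hx1 hv hx.2).trans (not_lt.1 hcon)⟩
    have := ENNReal.toReal_mono hfin (measure_mono hsub)
    rw [Real.volume_Ioc, sub_zero, ENNReal.toReal_ofReal hv.1.le] at this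
    exact absurd h (not_lt.2 this)

/-- C2 crossing bound (= field `transp` of `RigD.Ok` before rescaling; l.2074, l.2131 "Fubini").
Proof: `|dist ψ r - α r| ≤ |{v ≤ α r, ψ v > r}| + |{v > α r, ψ v ≤ r}|`; by C1 these `v` lie in `α([r-w, r+w])`; `s ↦ ψ (α s)` is monotone, so
`{s ∈ (r-w, r] : ψ (α s) > r}` is an interval `(s*, r]` or `[s*, r]`, whose image has length `α r - α s* = ∫ ρ`. -/
theorem bud_n11_cross {g : BudGeo} (hg : g.Ok) {ψ : ℝ → ℝ} {lo hi e w r : ℝ} (hlo : 0 ≤ lo) (hhi : hi ≤ 1)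
    (hψ : MonotoneOn ψ (Ioo 0 1)) (hal : ∀ s ∈ Icc lo hi, g.al s ∈ Ioo (0:ℝ) 1)
    (hnear : ∀ s ∈ Icc lo hi, |ψ (g.al s) - s| ≤ e) (he : 0 ≤ e) (hew : e < w)
    (hr : r ∈ Icc (lo + w) (hi - w)) :
    |bdDist ψ r - g.al r| ≤ ∫ s in (r - w)..(r + w),
      (open Classical in if (s ≤ r ∧ r < ψ (g.al s)) ∨ (r < s ∧ ψ (g.al s) ≤ r) then g.ρ s else 0) := by
  classical
  obtain ⟨b1, b2⟩ := bud_n11_dist_bracket hψ hal hnear he hew hr
  obtain ⟨hr1, hr2⟩ := hr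
  have hw : 0 < w := lt_of_le_of_lt he hew
  set c := bdDist ψ r with hc
  set a := g.al r with ha
  set f : ℝ → ℝ := fun s => if (s ≤ r ∧ r < ψ (g.al s)) ∨ (r < s ∧ ψ (g.al s) ≤ r) then g.ρ s else 0 with hf
  have hsubI : ∀ s, s ∈ Icc (r - w) (r + w) → s ∈ Icc lo hi := fun s hs => ⟨by linarith [hs.1], by linarith [hs.2]⟩
  have hI01 : ∀ s, s ∈ Icc lo hi → s ∈ Icc (0:ℝ) 1 := fun s hs => ⟨hlo.trans hs.1, hs.2.trans hhi⟩
  have hχ : MonotoneOn (fun s => ψ (g.al s)) (Icc lo hi) := by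
    intro s hs t ht hst
    exact hψ (hal s hs) (hal t ht) (BudGeo.al_mono hg (hI01 s hs) (hI01 t ht) hst)
  -- measurability of the crossing set
  set T1 : Set ℝ := {s | s ∈ Ioc (r - w) r ∧ r < ψ (g.al s)} with hT1
  set T2 : Set ℝ := {s | s ∈ Ioc r (r + w) ∧ ψ (g.al s) ≤ r} with hT2
  have hT1m : MeasurableSet T1 := by
    apply Set.OrdConnected.measurableSet
    refine ⟨fun x hx y hy z hz => ⟨⟨lt_of_lt_of_le hx.1.1 hz.1, hz.2.trans hy.1.2⟩, ?_⟩⟩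
    have hxI : x ∈ Icc lo hi := hsubI x ⟨hx.1.1.le, by linarith [hx.1.2]⟩
    have hzI : z ∈ Icc lo hi := hsubI z ⟨by linarith [hx.1.1, hz.1], by linarith [hz.2, hy.1.2]⟩
    exact lt_of_lt_of_le hx.2 (hχ hxI hzI hz.1)
  have hT2m : MeasurableSet T2 := by
    apply Set.OrdConnected.measurableSet
    refine ⟨fun x hx y hy z hz => ⟨⟨lt_of_lt_of_le hx.1.1 hz.1, hz.2.trans hy.1.2⟩, ?_⟩⟩
    have hyI : y ∈ Icc lo hi := hsubI y ⟨by linarith [hy.1.1], hy.1.2⟩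
    have hzI : z ∈ Icc lo hi := hsubI z ⟨by linarith [hx.1.1, hz.1], by linarith [hz.2, hy.1.2]⟩
    exact (hχ hzI hyI hz.2).trans hy.2
  have hρint : IntegrableOn g.ρ (Ioc (r - w) (r + w)) := by
    have := BudGeo.pot_rho_int hg (s := r - w) (t := r + w) (by linarith) (by linarith) (by linarith)
    rw [intervalIntegrable_iff, uIoc_of_le (by linarith)] at this
    exact this
  have hfeq : EqOn f ((T1 ∪ T2).indicator g.ρ) (Ioc (r - w) (r + w)) := by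
    intro s hs
    simp only [hf]
    by_cases hP : (s ≤ r ∧ r < ψ (g.al s)) ∨ (r < s ∧ ψ (g.al s) ≤ r)
    · rw [if_pos hP, indicator_of_mem]
      rcases hP with hP | hP
      · exact Or.inl ⟨⟨hs.1, hP.1⟩, hP.2⟩
      · exact Or.inr ⟨⟨hP.1, hs.2⟩, hP.2⟩
    · rw [if_neg hP, indicator_of_notMem]
      rintro (hx | hx)
      · exact hP (Or.inl ⟨hx.1.2, hx.2⟩)
      · exact hP (Or.inr ⟨hx.1.1, hx.2⟩)
  have hfint : IntervalIntegrable f volume (r - w) (r + w) := by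
    rw [intervalIntegrable_iff, uIoc_of_le (by linarith)]
    exact (hρint.indicator (hT1m.union hT2m)).congr_fun hfeq.symm measurableSet_Ioc
  have hf0 : 0 ≤ᵐ[volume.restrict (Ioc (r - w) (r + w))] f := by
    have h1 := BudGeo.pot_ae_Ioo (s := r - w) (t := r + w) (by linarith) (by linarith) (by linarith)
    rw [uIoc_of_le (by linarith)] at h1
    filter_upwards [h1, ae_restrict_of_ae (BudGeo.pot_rho_ae hg)] with s hs h2
    simp only [hf, Pi.zero_apply]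
    split_ifs
    · exact (hg.kb0 s).trans (h2 hs.2).1
    · exact le_rfl
  set I := ∫ s in (r - w)..(r + w), f s with hI
  have hcont := bud_n11_al_cont hg
  rcases le_total a c with hac | hca
  · rw [abs_of_nonneg (by linarith)]
    have key : ∀ c' ∈ Ioo a c, c' - a ≤ I := by
      intro c' hc'
      have hsub : Icc r (r + w) ⊆ Icc (0:ℝ) 1 := fun s hs => hI01 s (hsubI s ⟨by linarith [hs.1], hs.2⟩)
      obtain ⟨s', hs', hs'e⟩ := intermediate_value_Icc (by linarith : r ≤ r + w) (hcont.mono hsub)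
        (show c' ∈ Icc (g.al r) (g.al (r + w)) from ⟨hc'.1.le, hc'.2.le.trans b2⟩)
      have h1 : ∫ s in r..s', f s ≤ I :=
        intervalIntegral.integral_mono_interval (by linarith) hs'.1 hs'.2 hf0 hfint
      have h2 : ∫ s in r..s', f s = ∫ s in r..s', g.ρ s := by
        apply intervalIntegral.integral_congr_ae
        refine Eventually.of_forall (fun s hs => ?_)
        rw [uIoc_of_le hs'.1] at hs
        have hsI : s ∈ Icc lo hi := hsubI s ⟨by linarith [hs.1], hs.2.trans hs'.2⟩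
        have hle : g.al s ≤ c' := by
          rw [← hs'e]
          exact BudGeo.al_mono hg (hI01 s hsI) (hsub hs') hs.2
        have := (bud_n11_dist_lt hψ (r := r) (hal s hsI)).1 (lt_of_le_of_lt hle hc'.2)
        simp only [hf]
        rw [if_pos (Or.inr ⟨hs.1, this⟩)]
      rw [h2, ← BudGeo.pot_al_sub hg (by linarith) hs'.1 (hsub hs').2, hs'e] at h1
      exact h1
    by_contra hcon
    have hlt : max (a + I) a < c := max_lt (by linarith) (by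
      rcases hac.lt_or_eq with h | h
      · exact h
      · exfalso
        have : 0 ≤ I := intervalIntegral.integral_nonneg_of_ae_restrict (by linarith) (by
          rw [← restrict_Ioc_eq_restrict_Icc]; exact hf0)
        linarith)
    have := key ((max (a + I) a + c) / 2) ⟨by linarith [le_max_right (a + I) a], by linarith⟩
    linarith [le_max_left (a + I) a]
  · rw [abs_of_nonpos (by linarith)]
    have key : ∀ c' ∈ Ioo c a, a - c' ≤ I := by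
      intro c' hc'
      have hsub : Icc (r - w) r ⊆ Icc (0:ℝ) 1 := fun s hs => hI01 s (hsubI s ⟨hs.1, by linarith [hs.2]⟩)
      obtain ⟨s', hs', hs'e⟩ := intermediate_value_Icc (by linarith : r - w ≤ r) (hcont.mono hsub)
        (show c' ∈ Icc (g.al (r - w)) (g.al r) from ⟨b1.trans hc'.1.le, hc'.2.le⟩)
      have h1 : ∫ s in s'..r, f s ≤ I :=
        intervalIntegral.integral_mono_interval hs'.1 hs'.2 (by linarith) hf0 hfint
      have h2 : ∫ s in s'..r, f s = ∫ s in s'..r, g.ρ s := by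
        apply intervalIntegral.integral_congr_ae
        refine Eventually.of_forall (fun s hs => ?_)
        rw [uIoc_of_le hs'.2] at hs
        have hsI : s ∈ Icc lo hi := hsubI s ⟨by linarith [hs.1, hs'.1], by linarith [hs.2]⟩
        have hle : c' ≤ g.al s := by
          rw [← hs'e]
          exact BudGeo.al_mono hg (hsub hs') (hI01 s hsI) hs.1.le
        have := (bud_n11_dist_lt hψ (r := r) (hal s hsI)).2 (lt_of_lt_of_le hc'.1 hle)
        simp only [hf]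
        rw [if_pos (Or.inl ⟨hs.2, this⟩)]
      rw [h2, ← BudGeo.pot_al_sub hg (hsub hs').1 hs'.2 (by linarith), hs'e] at h1
      exact h1
    by_contra hcon
    have hlt : c < min (a - I) a := lt_min (by linarith) (by
      rcases hca.lt_or_eq with h | h
      · exact h
      · exfalso
        have : 0 ≤ I := intervalIntegral.integral_nonneg_of_ae_restrict (by linarith) (by
          rw [← restrict_Ioc_eq_restrict_Icc]; exact hf0)
        linarith)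
    have := key ((min (a - I) a + c) / 2) ⟨by linarith, by linarith [min_le_right (a - I) a]⟩
    linarith [min_le_left (a - I) a]

/-- C3 `r~(α(r)) = r + O(d₀)` (l.1364), and the sharper `r~(α(r)) - S = o(d₀)` (l.2053) in ONE explicit identity-with-error.
`Γ = Γ_*`, `Γ1 = Γ_*'(K_*(v))`, `v = α(r)`, `S = S_v`, `q = q(v) = Γ(K)`, `Ks - K = dd + b (S - q) - C0 (S - r)`; `Γ` has derivative `Γ1` at `K` with second order error `c2`:
`Γ(Ks) - S = -(1 - b Γ1)(S - q) - Γ1 C0 (S - r) + Γ1 dd + O(c2 (Ks-K)²)`. -/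
theorem bud_n11_rtil {Γ : ℝ → ℝ} {K Ks Γ1 c2 S q r b C0 dd : ℝ}
    (hq : q = Γ K) (hKs : Ks - K = dd + b * (S - q) - C0 * (S - r))
    (hT : |Γ Ks - Γ K - Γ1 * (Ks - K)| ≤ c2 * (Ks - K) ^ 2) :
    |Γ Ks - S + (1 - b * Γ1) * (S - q) + Γ1 * C0 * (S - r) - Γ1 * dd| ≤ c2 * (Ks - K) ^ 2 := by
  have : Γ Ks - S + (1 - b * Γ1) * (S - q) + Γ1 * C0 * (S - r) - Γ1 * dd = Γ Ks - Γ K - Γ1 * (Ks - K) := by
    rw [hKs, ← hq]; ring
  rw [this]
  exact hT

/-- C4 `α~ - β₀ = O(d₀)` in the buffer shrunk by `e'`.   Proof: C1, `BudBuf.al_osc`, `near`. -/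
theorem bud_n11_altil {g : BudGeo} {β ψ : ℝ → ℝ} {lo hi d cβ Cβ R0 C0 e e' r : ℝ}
    (h : BudBuf g β lo hi d cβ Cβ R0 C0) (hψ : MonotoneOn ψ (Ioo 0 1))
    (hal : ∀ s ∈ Icc lo hi, g.al s ∈ Ioo (0:ℝ) 1)
    (hnear : ∀ s ∈ Icc lo hi, |ψ (g.al s) - s| ≤ e) (he : 0 ≤ e) (hee : e < e')
    (hr : r ∈ Icc (lo + e') (hi - e')) :
    |bdDist ψ r - β r| ≤ Cβ * e' + 3 * d := by
  obtain ⟨b1, b2⟩ := bud_n11_dist_bracket hψ hal hnear he hee hr
  obtain ⟨hr1, hr2⟩ := hr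
  have hs1 : r - e' ∈ Icc lo hi := ⟨by linarith, by linarith⟩
  have hs2 : r + e' ∈ Icc lo hi := ⟨by linarith, by linarith⟩
  have hs0 : r ∈ Icc lo hi := ⟨by linarith, by linarith⟩
  have o1 := (h.al_osc hs1 hs0 (by linarith)).2
  have o2 := (h.al_osc hs0 hs2 (by linarith)).2
  have n0 := abs_le.mp (h.near r hs0)
  rw [abs_le]
  constructor <;> linarith

/-! ## D. layer cake, E. the transport estimate: in `Bud/N11E.lean` (imported HERE: `import Bud.N11` still gives everything) -/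

/-! ## F. power margins (pure arithmetic; `Xr = x/u`) -/

/-- F1 the seed (l.1353-1362): `λ₁ U³ = u³ λ^{1+η} (X λ^{-s_*/2})³ ≤ λ^{0.2} u³ P₁`.
Proof: `X³ ≤ L^{3/2} λ^{3 s₀/2}`, so LHS `≤ L^{3/2} λ^{1+η-3τ₀/2}`; it remains `L^{1/2} λ^{0.8+η-3τ₀/2} ≤ G₁`: against `Λ` trivially;
`L² ≤ λ`: `L^{1/2} ≤ λ^{1/4}`; `L² ≥ λ`: `λ^{0.75} ≤ L^{3/2}`. -/
theorem bud_n11_pow_seed {X : BdFix} (hX : X.Ok) {lam Xr L : ℝ} (hlam : 0 < lam) (hlam1 : lam ≤ 1) (hXr : 0 < Xr)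
    (hL : Xr ^ 2 * lam ^ (-X.s0) ≤ L) (hL1 : L ≤ 1) :
    lam ^ (1 + X.eta) * (Xr * lam ^ (-(X.sS / 2))) ^ 3
      ≤ lam ^ (0.2 : ℝ) * (L * min (max (L ^ 2) lam) (lam ^ (0.03 : ℝ))) := by
  have hL0 : 0 < L := lt_of_lt_of_le (by positivity) hL
  obtain ⟨a, rfl⟩ : ∃ a, lam = Real.exp a := ⟨Real.log lam, (Real.exp_log hlam).symm⟩
  obtain ⟨b, rfl⟩ : ∃ b, Xr = Real.exp b := ⟨Real.log Xr, (Real.exp_log hXr).symm⟩
  obtain ⟨l, rfl⟩ : ∃ l, L = Real.exp l := ⟨Real.log L, (Real.exp_log hL0).symm⟩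
  have ha : a ≤ 0 := by rwa [Real.exp_le_one_iff] at hlam1
  have hl : l ≤ 0 := by rwa [Real.exp_le_one_iff] at hL1
  have e2 : ∀ y : ℝ, Real.exp y ^ 2 = Real.exp (2 * y) := fun y => by
    rw [← Real.exp_nat_mul]; norm_num
  have e3 : ∀ y : ℝ, Real.exp y ^ 3 = Real.exp (3 * y) := fun y => by
    rw [← Real.exp_nat_mul]; norm_num
  rw [e2] at hL
  simp only [← Real.exp_mul, ← Real.exp_add] at hL
  rw [Real.exp_le_exp] at hL
  unfold BdFix.s0 BdFix.sS at hL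
  have t1 : a * X.eta ≤ 0 := mul_nonpos_of_nonpos_of_nonneg ha (by linarith [hX.tau0_pos, hX.tau0_le])
  have t2 : a * (X.eta / 100) ≤ a * X.tau0 := mul_le_mul_of_nonpos_left hX.tau0_le ha
  have t3 : a * X.tau0 ≤ 0 := mul_nonpos_of_nonpos_of_nonneg ha hX.tau0_pos.le
  rw [e2]
  unfold BdFix.sS
  rcases le_total (max (Real.exp (2 * l)) (Real.exp a)) (Real.exp a ^ (0.03 : ℝ)) with hm | hm
  · rw [min_eq_left hm]
    rcases le_total (Real.exp (2 * l)) (Real.exp a) with h2 | h2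
    · rw [max_eq_right h2]
      rw [Real.exp_le_exp] at h2
      simp only [← Real.exp_mul, ← Real.exp_add, e3]
      rw [Real.exp_le_exp]
      nlinarith
    · rw [max_eq_left h2]
      rw [Real.exp_le_exp] at h2
      simp only [← Real.exp_mul, ← Real.exp_add, e3]
      rw [Real.exp_le_exp]
      nlinarith
  · rw [min_eq_right hm]
    simp only [← Real.exp_mul, ← Real.exp_add, e3]
    rw [Real.exp_le_exp]
    nlinarith

theorem bud_n11_cube_add {P Q : ℝ} (hP : 0 ≤ P) (hQ : 0 ≤ Q) : (P + Q) ^ 3 ≤ 4 * (P ^ 3 + Q ^ 3) := by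
  nlinarith [mul_nonneg (add_nonneg hP hQ) (sq_nonneg (P - Q))]

/-- F2 low masses: `w_c³ ≤ 8 max(1,CU) λ^{0.4} d₀`.
Proof: `(a+b)³ ≤ 4(a³+b³)`; `x^{-30ζ} ≤ λ^{-30ζ/p_*}`; `X ≤ CU λ^{s_*/2}`; `u ≤ 1`; exponent `s₀ - 0.015 - 30ζ/p_* ≥ 0.4`. -/
theorem bud_n11_pow_wc {X : BdFix} (hX : X.Ok) {x lam u L : ℝ} (hx : 0 < x) (hx1 : x ≤ 1) (hlam0 : 0 < lam)
    (hlam : lam ≤ x ^ X.pS) (hu0 : 0 < u) (hu : u ≤ lam ^ X.bl) (hU : x * lam ^ (-(X.sS / 2)) ≤ X.CU * u)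
    (hL : (x / u) ^ 2 * lam ^ (-X.s0) ≤ L) :
    (x ^ (-(10 * X.zeta)) * (x / u * (lam ^ (0.03 : ℝ)) ^ (-(1 / 6) : ℝ) + (x / u) ^ (3 / 4 : ℝ) * lam ^ (0.12 : ℝ)) * u) ^ 3
      ≤ 8 * max 1 X.CU * lam ^ (0.4 : ℝ) * (u * L) := by
  have hCm : 0 < max 1 X.CU := lt_of_lt_of_le one_pos (le_max_left _ _)
  have hU' : x * lam ^ (-(X.sS / 2)) ≤ max 1 X.CU * u :=
    hU.trans (mul_le_mul_of_nonneg_right (le_max_right _ _) hu0.le)
  have hk1 : 1 ≤ max 1 X.CU := le_max_left _ _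
  generalize max 1 X.CU = Cm at hCm hU' hk1 ⊢
  obtain ⟨ξ, rfl⟩ : ∃ ξ, x = Real.exp ξ := ⟨Real.log x, (Real.exp_log hx).symm⟩
  obtain ⟨a, rfl⟩ : ∃ a, lam = Real.exp a := ⟨Real.log lam, (Real.exp_log hlam0).symm⟩
  obtain ⟨υ, rfl⟩ : ∃ υ, u = Real.exp υ := ⟨Real.log u, (Real.exp_log hu0).symm⟩
  obtain ⟨k, rfl⟩ : ∃ k, Cm = Real.exp k := ⟨Real.log Cm, (Real.exp_log hCm).symm⟩
  have hξ : ξ ≤ 0 := by rwa [Real.exp_le_one_iff] at hx1
  have hk : 0 ≤ k := by rwa [Real.one_le_exp_iff] at hk1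
  have e2 : ∀ y : ℝ, Real.exp y ^ 2 = Real.exp (2 * y) := fun y => by
    rw [← Real.exp_nat_mul]; norm_num
  have e3 : ∀ y : ℝ, Real.exp y ^ 3 = Real.exp (3 * y) := fun y => by
    rw [← Real.exp_nat_mul]; norm_num
  simp only [← Real.exp_mul] at hlam hu
  rw [Real.exp_le_exp] at hlam hu
  simp only [← Real.exp_mul, ← Real.exp_add] at hU'
  rw [Real.exp_le_exp] at hU'
  unfold BdFix.sS at hU'
  have hpS := hX.pS_pos
  have ha : a ≤ 0 := hlam.trans (mul_nonpos_of_nonpos_of_nonneg hξ hpS.le)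
  have hbl := hX.bl_pos
  have hυ : υ ≤ 0 := hu.trans (mul_nonpos_of_nonpos_of_nonneg ha hbl.le)
  have ht0 := hX.tau0_pos
  have heta : X.eta ≤ 1 / 10000000 := by linarith [hX.eta_le, hX.tau_le]
  have htau0 : X.tau0 ≤ 1 / 100000 := by linarith [hX.tau0_le]
  have htaupos : 0 < X.tau := by linarith [hX.tau0_le, hX.eta_le]
  have hbl1 : X.bl ≤ 1 := by linarith [hX.bl_le, hX.bs_le]
  have tb0 : 0 ≤ X.tau0 * X.bl := by positivity
  have tb1 : X.tau0 * X.bl ≤ 1 := by nlinarith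
  have z1 : ξ * (X.pS * X.tau0 * X.bl / 100000) ≤ ξ * X.zeta := mul_le_mul_of_nonpos_left hX.zeta_le hξ
  have z2 : ξ * X.pS ≤ (ξ * X.pS) * (X.tau0 * X.bl) :=
    le_mul_of_le_one_right (mul_nonpos_of_nonpos_of_nonneg hξ hpS.le) tb1
  have z3 : a / 100000 ≤ ξ * X.zeta := by
    have : ξ * (X.pS * X.tau0 * X.bl / 100000) = (ξ * X.pS) * (X.tau0 * X.bl) / 100000 := by ring
    rw [this] at z1
    linarith
  have t1 : a * (1 / 100000) ≤ a * X.tau := mul_le_mul_of_nonpos_left hX.tau_le ha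
  have t1' : a * X.tau ≤ 0 := mul_nonpos_of_nonpos_of_nonneg ha htaupos.le
  have t2 : a * (1 / 100000) ≤ a * X.tau0 := mul_le_mul_of_nonpos_left htau0 ha
  have t2' : a * X.tau0 ≤ 0 := mul_nonpos_of_nonpos_of_nonneg ha ht0.le
  -- the target with `L` replaced by its lower bound
  set T : ℝ := Real.exp k * Real.exp a ^ (0.4 : ℝ) * (Real.exp υ * ((Real.exp ξ / Real.exp υ) ^ 2 * Real.exp a ^ (-X.s0))) with hT
  have hTL : 8 * T ≤ 8 * Real.exp k * Real.exp a ^ (0.4 : ℝ) * (Real.exp υ * L) := by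
    have : T ≤ Real.exp k * Real.exp a ^ (0.4 : ℝ) * (Real.exp υ * L) := by
      rw [hT]
      exact mul_le_mul_of_nonneg_left (mul_le_mul_of_nonneg_left hL (Real.exp_pos _).le) (by positivity)
    linarith
  refine le_trans ?_ hTL
  have hsplit : Real.exp ξ ^ (-(10 * X.zeta)) * (Real.exp ξ / Real.exp υ * (Real.exp a ^ (0.03 : ℝ)) ^ (-(1 / 6) : ℝ)
        + (Real.exp ξ / Real.exp υ) ^ (3 / 4 : ℝ) * Real.exp a ^ (0.12 : ℝ)) * Real.exp υ
      = Real.exp ξ ^ (-(10 * X.zeta)) * (Real.exp ξ / Real.exp υ * (Real.exp a ^ (0.03 : ℝ)) ^ (-(1 / 6) : ℝ)) * Real.exp υ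
        + Real.exp ξ ^ (-(10 * X.zeta)) * ((Real.exp ξ / Real.exp υ) ^ (3 / 4 : ℝ) * Real.exp a ^ (0.12 : ℝ)) * Real.exp υ := by
    ring
  rw [hsplit]
  refine (bud_n11_cube_add (by positivity) (by positivity)).trans ?_
  have hP : (Real.exp ξ ^ (-(10 * X.zeta)) * (Real.exp ξ / Real.exp υ * (Real.exp a ^ (0.03 : ℝ)) ^ (-(1 / 6) : ℝ)) * Real.exp υ) ^ 3 ≤ T := by
    rw [hT]
    unfold BdFix.s0 BdFix.sS
    simp only [← Real.exp_sub, ← Real.exp_mul, ← Real.exp_add, e2, e3]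
    rw [Real.exp_le_exp]
    linarith
  have hQ : (Real.exp ξ ^ (-(10 * X.zeta)) * ((Real.exp ξ / Real.exp υ) ^ (3 / 4 : ℝ) * Real.exp a ^ (0.12 : ℝ)) * Real.exp υ) ^ 3 ≤ T := by
    rw [hT]
    unfold BdFix.s0 BdFix.sS
    simp only [← Real.exp_sub, ← Real.exp_mul, ← Real.exp_add, e2, e3]
    rw [Real.exp_le_exp]
    linarith
  linarith

/-- F3 the norm term: `√u x² λ^{-s₀} Z ≤ u^{3/2} d₀` (exact) -/
theorem bud_n11_pow_norm {x lam u s0 Z L : ℝ} (hx : 0 < x) (hu : 0 < u) (hlam : 0 < lam)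
    (hL : (x / u) ^ 2 * lam ^ (-s0) * Z ≤ L) :
    Real.sqrt u * (x ^ 2 * lam ^ (-s0) * Z) ≤ u ^ (3 / 2 : ℝ) * (u * L) := by
  have _ := hx
  have _ := hlam
  have e1 : u ^ (3 / 2 : ℝ) = Real.sqrt u * u := by
    rw [Real.sqrt_eq_rpow]
    nth_rewrite 3 [← Real.rpow_one u]
    rw [← Real.rpow_add hu]; norm_num
  have e2 : x ^ 2 * lam ^ (-s0) * Z = u ^ 2 * ((x / u) ^ 2 * lam ^ (-s0) * Z) := by
    field_simp
  rw [e1, e2]
  have h1 : u ^ 2 * ((x / u) ^ 2 * lam ^ (-s0) * Z) ≤ u ^ 2 * L := mul_le_mul_of_nonneg_left hL (by positivity)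
  calc Real.sqrt u * (u ^ 2 * ((x / u) ^ 2 * lam ^ (-s0) * Z)) ≤ Real.sqrt u * (u ^ 2 * L) :=
        mul_le_mul_of_nonneg_left h1 (Real.sqrt_nonneg u)
    _ = Real.sqrt u * u * (u * L) := by ring

/-- F4a mass of the original floor: `∫_0^1 k ≤ v_*` -/
theorem bud_n11_kint {F : BdFr} {X : BdFix} (hX : X.Ok) (hF : F.Ok X) : ∫ r in (0:ℝ)..1, F.k X r ≤ F.vs X := by
  have h1 := bud_gb_k_integral (F.call X) (bud_gb_N_pos hF) (bud_gb_us_pos hX hF) (r1 := 0) (r2 := 1) le_rfl zero_le_one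
  have hN1 : (1:ℝ) ≤ (F.call X).N := bud_gb_m_ge hF
  have hdl : 0 ≤ (F.call X).dl := by
    have : (F.call X).dl = X.mPE / 10000 := rfl
    rw [this]; linarith [hX.mPE_pos]
  have h2 : (F.call X).N ^ (-(F.call X).dl) ≤ 1 := Real.rpow_le_one_of_one_le_of_nonpos hN1 (by linarith)
  have h3 := (bud_gb_us_pos hX hF).le
  calc ∫ r in (0:ℝ)..1, F.k X r = ∫ r in (0:ℝ)..1, (F.call X).k r := rfl
    _ ≤ (F.call X).N ^ (-(F.call X).dl) * (F.call X).us := h1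
    _ ≤ 1 * (F.call X).us := mul_le_mul_of_nonneg_right h2 h3
    _ = F.vs X := by rw [one_mul]; rfl

/-- F4b the floor and cap terms: `C₀ u (2/M_j + 2 v_*) ≤ (4/c_d + 2) u³ d₀`.
Proof: `v_* ≤ (2/c_d) x^ζ u X² Λ^{-1/3}` (`m ≥ N/2 = x⁻⁶/2`), `X² ≤ L`, `x^{100} ≤ x² ≤ u L`. -/
theorem bud_n11_pow_floor {F : BdFr} {X : BdFix} (hX : X.Ok) (hF : F.Ok X) {L : ℝ} (hL : F.agoal X ≤ L) :
    F.C0 * F.u * (2 / F.Mj + 2 * F.vs X) ≤ (4 / X.cd + 2) * F.u ^ 3 * (F.u * L) := by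
  have hx := BdFr.bds_x_pos hF
  have hx1 := (BdFr.bds_x_lt_one hF).le
  have hl := BdFr.bds_lam_pos hF
  have hl1 := (BdFr.bds_lam_lt_one hF hX).le
  have hu := BdFr.bds_u_pos hF hX
  have hu1 := BdFr.bds_u_le_one hF hX
  have hcd := hX.cd_pos
  have hLam0 : 0 < F.Lam := Real.rpow_pos_of_pos hl _
  have hLam1 : F.Lam ≤ 1 := Real.rpow_le_one hl.le hl1 (by norm_num)
  have hs0 : 0 ≤ X.s0 := by linarith [BdFr.bds_s0_ge hX]
  -- `u² x² ≤ u⁴ L`
  have hbase : F.u ^ 2 * F.x ^ 2 ≤ F.u ^ 3 * (F.u * L) := by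
    have h1 : (1:ℝ) ≤ F.lam ^ (-X.s0) := Real.one_le_rpow_of_pos_of_le_one_of_nonpos hl hl1 (by linarith)
    have h2 : F.Xr ^ 2 ≤ L := by
      refine le_trans ?_ hL
      unfold BdFr.agoal
      exact le_mul_of_one_le_right (by positivity) h1
    have h3 : F.u ^ 2 * F.x ^ 2 = F.u ^ 4 * F.Xr ^ 2 := by
      unfold BdFr.Xr; field_simp
    rw [h3]
    calc F.u ^ 4 * F.Xr ^ 2 ≤ F.u ^ 4 * L := mul_le_mul_of_nonneg_left h2 (by positivity)
      _ = F.u ^ 3 * (F.u * L) := by ring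
  -- the cap
  have hMj : 1 / F.Mj ≤ F.x ^ 2 := by
    have h1 : F.x ^ (-(100:ℝ)) ≤ F.Mj := by
      unfold BdFr.Mj
      exact le_mul_of_one_le_left (by positivity) (one_le_pow₀ (by norm_num))
    have h2 : 0 < F.x ^ (-(100:ℝ)) := Real.rpow_pos_of_pos hx _
    calc 1 / F.Mj ≤ 1 / F.x ^ (-(100:ℝ)) := one_div_le_one_div_of_le h2 h1
      _ = F.x ^ (100:ℝ) := by rw [Real.rpow_neg hx.le, one_div, inv_inv]
      _ ≤ F.x ^ (2:ℝ) := Real.rpow_le_rpow_of_exponent_ge hx hx1 (by norm_num)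
      _ = F.x ^ 2 := by rw [← Real.rpow_natCast]; norm_num
  -- the floor
  have hN0 : (0:ℝ) < F.N := by
    have : (2:ℝ) ≤ F.N := by exact_mod_cast hF.N2
    linarith
  have hNx : (F.N : ℝ) = F.x ^ (-(6:ℝ)) := by
    unfold BdFr.x
    rw [← Real.rpow_mul hN0.le]; norm_num
  have hvs : F.vs X * (F.u * F.Lam ^ (1 / 3 : ℝ)) ≤ 2 / X.cd * F.x ^ 2 := by
    have hm : 0 < (F.m : ℝ) := lt_of_lt_of_le one_pos (bud_gb_m_ge hF)
    have hL3 : 0 < F.Lam ^ (1 / 3 : ℝ) := Real.rpow_pos_of_pos hLam0 _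
    have hx4 : 0 < F.x ^ (4 - X.zeta) := Real.rpow_pos_of_pos hx _
    have e : F.vs X = 1 / ((F.m : ℝ) * (F.x ^ (4 - X.zeta) * (X.cd * F.u * F.Lam ^ (1 / 3 : ℝ)))) := rfl
    rw [e]
    have e' : 1 / ((F.m : ℝ) * (F.x ^ (4 - X.zeta) * (X.cd * F.u * F.Lam ^ (1 / 3 : ℝ)))) * (F.u * F.Lam ^ (1 / 3 : ℝ))
        = 1 / X.cd * (1 / ((F.m : ℝ) * F.x ^ (4 - X.zeta))) := by
      field_simp
    rw [e']
    have h1 : F.x ^ (-(6:ℝ)) / 2 * F.x ^ (4 - X.zeta) ≤ (F.m : ℝ) * F.x ^ (4 - X.zeta) :=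
      mul_le_mul_of_nonneg_right (by rw [← hNx]; exact hF.m_lo) hx4.le
    have h2 : F.x ^ (-(6:ℝ)) / 2 * F.x ^ (4 - X.zeta) = F.x ^ (-(2 + X.zeta)) / 2 := by
      rw [div_mul_eq_mul_div, ← Real.rpow_add hx]; congr 2; ring
    rw [h2] at h1
    have h3 : 0 < F.x ^ (-(2 + X.zeta)) / 2 := by positivity
    have h4 : 1 / ((F.m : ℝ) * F.x ^ (4 - X.zeta)) ≤ 2 * F.x ^ 2 := by
      calc 1 / ((F.m : ℝ) * F.x ^ (4 - X.zeta)) ≤ 1 / (F.x ^ (-(2 + X.zeta)) / 2) := one_div_le_one_div_of_le h3 h1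
        _ = 2 * F.x ^ (2 + X.zeta) := by
            rw [Real.rpow_neg hx.le]; field_simp
        _ ≤ 2 * F.x ^ (2:ℝ) := by
            have := Real.rpow_le_rpow_of_exponent_ge hx hx1 (show (2:ℝ) ≤ 2 + X.zeta by linarith [hX.zeta_pos])
            linarith
        _ = 2 * F.x ^ 2 := by rw [← Real.rpow_natCast]; norm_num
    calc 1 / X.cd * (1 / ((F.m : ℝ) * F.x ^ (4 - X.zeta))) ≤ 1 / X.cd * (2 * F.x ^ 2) :=
          mul_le_mul_of_nonneg_left h4 (by positivity)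
      _ = 2 / X.cd * F.x ^ 2 := by ring
  have hLsplit : F.Lam = F.Lam ^ (2 / 3 : ℝ) * F.Lam ^ (1 / 3 : ℝ) := by
    rw [← Real.rpow_add hLam0]; norm_num
  have hL23 : F.Lam ^ (2 / 3 : ℝ) ≤ 1 := Real.rpow_le_one hLam0.le hLam1 (by norm_num)
  have hL23' : 0 < F.Lam ^ (2 / 3 : ℝ) := Real.rpow_pos_of_pos hLam0 _
  have hvs0 : 0 ≤ F.vs X := (bud_gb_us_pos hX hF).le
  have term1 : F.C0 * F.u * (2 / F.Mj) ≤ 2 * (F.u ^ 2 * F.x ^ 2) := by
    unfold BdFr.C0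
    have : F.u ^ 2 * F.Lam * F.u * (2 / F.Mj) = 2 * (F.u ^ 2 * (F.Lam * F.u * (1 / F.Mj))) := by ring
    rw [this]
    have h1 : F.Lam * F.u ≤ 1 := by nlinarith
    have h2 : 0 ≤ 1 / F.Mj := by
      have : 0 < F.Mj := by linarith [bud_gb_Mj_ge hF]
      positivity
    have h3 : F.Lam * F.u * (1 / F.Mj) ≤ F.x ^ 2 := by
      calc F.Lam * F.u * (1 / F.Mj) ≤ 1 * (1 / F.Mj) := mul_le_mul_of_nonneg_right h1 h2
        _ ≤ F.x ^ 2 := by rw [one_mul]; exact hMj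
    have := mul_le_mul_of_nonneg_left h3 (show 0 ≤ F.u ^ 2 by positivity)
    linarith
  have term2 : F.C0 * F.u * (2 * F.vs X) ≤ 4 / X.cd * (F.u ^ 2 * F.x ^ 2) := by
    unfold BdFr.C0
    have : F.u ^ 2 * F.Lam * F.u * (2 * F.vs X)
        = 2 * F.u ^ 2 * F.Lam ^ (2 / 3 : ℝ) * (F.vs X * (F.u * F.Lam ^ (1 / 3 : ℝ))) := by
      nth_rewrite 1 [hLsplit]; ring
    rw [this]
    have h0 : 0 ≤ F.vs X * (F.u * F.Lam ^ (1 / 3 : ℝ)) := by positivity
    calc 2 * F.u ^ 2 * F.Lam ^ (2 / 3 : ℝ) * (F.vs X * (F.u * F.Lam ^ (1 / 3 : ℝ)))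
        ≤ 2 * F.u ^ 2 * 1 * (F.vs X * (F.u * F.Lam ^ (1 / 3 : ℝ))) := by
          apply mul_le_mul_of_nonneg_right _ h0
          exact mul_le_mul_of_nonneg_left hL23 (by positivity)
      _ ≤ 2 * F.u ^ 2 * 1 * (2 / X.cd * F.x ^ 2) := mul_le_mul_of_nonneg_left hvs (by positivity)
      _ = 4 / X.cd * (F.u ^ 2 * F.x ^ 2) := by ring
  have hc : 0 ≤ 4 / X.cd + 2 := by positivity
  calc F.C0 * F.u * (2 / F.Mj + 2 * F.vs X) = F.C0 * F.u * (2 / F.Mj) + F.C0 * F.u * (2 * F.vs X) := by ring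
    _ ≤ (4 / X.cd + 2) * (F.u ^ 2 * F.x ^ 2) := by linarith
    _ ≤ (4 / X.cd + 2) * (F.u ^ 3 * (F.u * L)) := mul_le_mul_of_nonneg_left hbase hc
    _ = (4 / X.cd + 2) * F.u ^ 3 * (F.u * L) := by ring

end Claimed.Agent.R286
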