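import Claimed.Agent.R286.Bud.L8Defs
import Claimed.Agent.R286.Bud.N11
import Claimed.Agent.R286.Bud.GeoBr
import Claimed.Agent.R286.Bud.Stage

/-!
# Row 286, LL sec. 7, N11: THE BRIDGES frame level <- abstract level      (owner helper248; prefix `bdg_`)

`Bud/HubB.lean` (157) states the nodes of part B on the frames of `Bud/Defs.lean`; `Bud/N11.lean` (6, 25) proves the buffered geometry for ONE abstract instance
(`g : BudGeo`).  This file proves the frame-level statements, in CLOSED (unfolded) form, so that `HubB` can write `exact`: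
* `bdg_lsmall`     = `BudB.LSmall`      (`L → 0`, from (C7))
* `bdg_bufsel`     = `BudB.BufSel`      (doubling; NEEDS `1 ≤ Z_j`, i.e. `BudZ n`: without it `L₁` has no lower bound and the number of moves is unbounded)
* `bdg_bufgeo`     = `BudB.BufGeo`      (geometry in the half buffer; NEEDS `1 ≤ Z_j` for `1/M_j ≤ d₀`; clause 4 with `2/M_j`)
TOOLS for every other bridge of part B:
* `bdg_base`       `BdStd ⟹ BdFr.Base` (admissible bare path with the matrix margin), as soon as one `Q : BdQ F X` is at hand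
* `bdg_ok_of_pot`  EVERY potential `H` of (C6) is the potential of `budGeoQ Q W g (-H 0)`, and this datum is `Ok`
* `bdg_flat`       `BudGeo.Flat R0 C0` for every `R0 < c_I u` (from `BdStd.Cconst`)
* `bdg_budbuf`     the buffer of a buffered violation is a `BudBuf` (so all of `Bud/N11.lean` part B applies), for every potential
* `bdg_c7 bdg_lam_small bdg_kbar_small bdg_invM_small bdg_invM_le_goal`      closed forms / smallness
TEX[LL:bud:envelope]#1300-1347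
-/

set_option autoImplicit false

namespace Claimed.Agent.R286

open MeasureTheory Set Filter Topology Asymptotics

noncomputable section

variable {X : BdFix} {W : BdWorld} {Fam : BdFr → Prop} {K : BdCst}

/-! ## 0. fixed data, smallness -/

/-- nesting of the fixed data -/
theorem bdg_nest (hX : X.Ok) : ∀ n ≤ X.J + 1, X.plo 0 ≤ X.plo n ∧ X.phi n ≤ X.phi 0 ∧ X.glo 0 ≤ X.glo n ∧ X.ghi n ≤ X.ghi 0 := by
  intro n
  induction n with
  | zero => intro _; exact ⟨le_rfl, le_rfl, le_rfl, le_rfl⟩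
  | succ n ih =>
    intro hn
    obtain ⟨a1, a2, a3, a4⟩ := ih (by omega)
    obtain ⟨b1, b2⟩ := hX.nest n (by omega)
    obtain ⟨c1, c2⟩ := hX.gnest n (by omega)
    obtain ⟨_, d1, _, d2, _⟩ := hX.pat n (by omega)
    exact ⟨by linarith, by linarith, by linarith, by linarith⟩

/-- `lam^e → 0`, uniformly over the frames -/
theorem bdg_lam_small (hX : X.Ok) {e ε : ℝ} (he : 0 < e) (hε : 0 < ε) :
    ∃ N0 : ℕ, ∀ F : BdFr, F.Ok X → N0 ≤ F.N → F.lam ^ e ≤ ε := by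
  obtain ⟨c, hc⟩ : ∃ c : ℝ, c = X.pS * e / 6 := ⟨_, rfl⟩
  have hc0 : 0 < c := by rw [hc]; have := hX.pS_pos; positivity
  refine ⟨⌈ε ^ (-(1 / c))⌉₊ + 2, fun F h hN => ?_⟩
  have hNpos : (0:ℝ) < F.N := by
    have := h.N2
    positivity
  have hb : 0 < ε ^ (-(1 / c)) := Real.rpow_pos_of_pos hε _
  have hN' : ε ^ (-(1 / c)) ≤ F.N := by
    calc ε ^ (-(1 / c)) ≤ (⌈ε ^ (-(1 / c))⌉₊ : ℝ) := Nat.le_ceil _
      _ ≤ F.N := by exact_mod_cast (by omega : ⌈ε ^ (-(1 / c))⌉₊ ≤ F.N)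
  have hl := BdFr.bds_lam_pos h
  calc F.lam ^ e ≤ (F.x ^ X.pS) ^ e := Real.rpow_le_rpow hl.le h.lam_hi he.le
    _ = (F.N : ℝ) ^ (-c) := by
        unfold BdFr.x
        rw [← Real.rpow_mul hNpos.le, ← Real.rpow_mul hNpos.le]
        congr 1
        rw [hc]; ring
    _ ≤ (ε ^ (-(1 / c))) ^ (-c) := Real.rpow_le_rpow_of_nonpos hb hN' (by linarith)
    _ = ε := by
        rw [← Real.rpow_mul hε.le]
        have : -(1 / c) * -c = 1 := by field_simp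
        rw [this, Real.rpow_one]

/-- (C7) in closed form on the patch of the stage index `n` -/
theorem bdg_c7 (hS : BdStd X W Fam K) (h7 : BudC7al X W Fam) {n : ℕ} (hn : n ≤ X.J + 1) {ε : ℝ} (hε : 0 < ε) :
    ∃ N0 : ℕ, ∀ (F : BdFr) (g : ℝ) (Q : BdQ F X), Fam F → g ∈ Icc (X.glo n) (X.ghi n) → Q.IsOpt W g → N0 ≤ F.N →
      ∀ r ∈ Icc (X.plo n * F.u) (X.phi n * F.u), |Q.al r - F.beta0 r| ≤ ε * F.u := by
  obtain ⟨N0, h⟩ := bd_ev_iff.1 ((isLittleO_iff.1 h7) hε)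
  obtain ⟨n1, n2, n3, n4⟩ := bdg_nest hS.fix n hn
  refine ⟨N0, fun F g Q hF hg hopt hN r hr => ?_⟩
  have hu : 0 < F.u := BdFr.bds_u_pos (hS.ok _ hF) hS.fix
  have := h (⟨F, g, Q⟩, r) ⟨⟨hF, ⟨n3.trans hg.1, hg.2.trans n4⟩, hopt⟩,
    ⟨(mul_le_mul_of_nonneg_right n1 hu.le).trans hr.1, hr.2.trans (mul_le_mul_of_nonneg_right n2 hu.le)⟩⟩ hN
  simpa [Real.norm_eq_abs, abs_of_pos hu] using this

theorem bdg_bbuf_nonneg {F : BdFr} (hF : F.Ok X) (hX : X.Ok) (V : BdViol F X W) : 0 ≤ V.bbuf := by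
  unfold BdViol.bbuf
  exact mul_nonneg (BdFr.bds_u_pos hF hX).le
    (add_nonneg (Real.sqrt_nonneg _) (Real.rpow_nonneg (BdFr.bds_lam_pos hF).le _))

/-- the centre of a buffered violation lies in the patch -/
theorem bdg_r0_mem {F : BdFr} (hF : F.Ok X) (hX : X.Ok) (V : BdViol F X W) {Cbuf : ℝ} (hV : V.Ok Cbuf) :
    V.r0 ∈ Icc (X.plo F.st * F.u) (X.phi F.st * F.u) := by
  have hb := bdg_bbuf_nonneg hF hX V
  exact ⟨by linarith [hV.r0_mem.1.1], by linarith [hV.r0_mem.2.2]⟩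

/-! ## 1. `L → 0` -/

/-- **`BudB.LSmall`** -/
theorem bdg_lsmall (hS : BdStd X W Fam K) (h7 : BudC7al X W Fam) {n : ℕ} (hn : n ≤ X.J + 1) :
    ∀ ε : ℝ, 0 < ε → ∃ N0 : ℕ, ∀ i : BdVI X W, i.Ok Fam n 2 → N0 ≤ i.F.N → i.V.L ≤ ε := by
  intro ε hε
  obtain ⟨N0, h⟩ := bdg_c7 hS h7 hn hε
  refine ⟨N0, fun i hi hN => ?_⟩
  obtain ⟨hF, _, hst, hV, _⟩ := hi
  have hFok := hS.ok _ hF
  have hu : 0 < i.F.u := BdFr.bds_u_pos hFok hS.fix
  have hr0 := bdg_r0_mem hFok hS.fix i.V hV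
  have hg := hV.g_mem
  rw [hst] at hr0 hg
  have h1 := h i.F i.V.g i.V.Q hF hg hV.opt hN i.V.r0 hr0
  rw [hV.disc] at h1
  unfold BdViol.d0 at h1
  have : i.F.u * i.V.L ≤ i.F.u * ε := by linarith
  exact le_of_mul_le_mul_left this hu

/-! ## 2. buffer selection -/

/-- `lam^ρ ((2/p_*) log₂(1/lam) + 2) → 0`: the sum of the `u lam^ρ` travel bounds -/
theorem bdg_travel (hX : X.Ok) {γ : ℝ} (hγ : 0 < γ) :
    ∃ N0 : ℕ, ∀ F : BdFr, F.Ok X → N0 ≤ F.N → F.lam ^ X.rho * (2 / X.pS * Real.logb 2 F.lam⁻¹ + 2) ≤ γ := by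
  have hρ := hX.rho_pos
  have hp := hX.pS_pos
  have hlog2 : 0 < Real.log 2 := Real.log_pos (by norm_num)
  set Cc : ℝ := 2 / X.pS * ((2 / X.rho) / Real.log 2) + 2 with hCc
  have hCc0 : 0 < Cc := by positivity
  obtain ⟨N0, h⟩ := bdg_lam_small hX (e := X.rho / 2) (ε := γ / Cc) (by positivity) (by positivity)
  refine ⟨N0, fun F hF hN => ?_⟩
  have hl := BdFr.bds_lam_pos hF
  have hl1 := (BdFr.bds_lam_lt_one hF hX).le
  have h1 : Real.log F.lam⁻¹ ≤ F.lam ^ (-(X.rho / 2)) * (2 / X.rho) := by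
    have := Real.log_le_rpow_div (x := F.lam⁻¹) (inv_nonneg.2 hl.le) (ε := X.rho / 2) (by positivity)
    rw [Real.inv_rpow hl.le, ← Real.rpow_neg hl.le] at this
    calc Real.log F.lam⁻¹ ≤ F.lam ^ (-(X.rho / 2)) / (X.rho / 2) := this
      _ = F.lam ^ (-(X.rho / 2)) * (2 / X.rho) := by field_simp
  have h2 : F.lam ^ X.rho * Real.logb 2 F.lam⁻¹ ≤ F.lam ^ (X.rho / 2) * ((2 / X.rho) / Real.log 2) := by
    unfold Real.logb
    calc F.lam ^ X.rho * (Real.log F.lam⁻¹ / Real.log 2)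
        ≤ F.lam ^ X.rho * (F.lam ^ (-(X.rho / 2)) * (2 / X.rho) / Real.log 2) := by
          apply mul_le_mul_of_nonneg_left _ (Real.rpow_nonneg hl.le _)
          exact div_le_div_of_nonneg_right h1 hlog2.le
      _ = (F.lam ^ X.rho * F.lam ^ (-(X.rho / 2))) * ((2 / X.rho) / Real.log 2) := by ring
      _ = F.lam ^ (X.rho / 2) * ((2 / X.rho) / Real.log 2) := by
          rw [← Real.rpow_add hl]; congr 2; ring
  have h3 : F.lam ^ X.rho ≤ F.lam ^ (X.rho / 2) :=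
    Real.rpow_le_rpow_of_exponent_ge hl hl1 (by linarith)
  calc F.lam ^ X.rho * (2 / X.pS * Real.logb 2 F.lam⁻¹ + 2)
      = 2 / X.pS * (F.lam ^ X.rho * Real.logb 2 F.lam⁻¹) + 2 * F.lam ^ X.rho := by ring
    _ ≤ 2 / X.pS * (F.lam ^ (X.rho / 2) * ((2 / X.rho) / Real.log 2)) + 2 * F.lam ^ (X.rho / 2) := by
        have := mul_le_mul_of_nonneg_left h2 (show 0 ≤ 2 / X.pS by positivity)
        linarith
    _ = Cc * F.lam ^ (X.rho / 2) := by rw [hCc]; ring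
    _ ≤ Cc * (γ / Cc) := mul_le_mul_of_nonneg_left (h F hF hN) hCc0.le
    _ = γ := by field_simp

/-- `lam^{2/p_*} ≤ a_goal` -/
theorem bdg_agoal_ge {F : BdFr} (hF : F.Ok X) (hX : X.Ok) : F.lam ^ (2 / X.pS) ≤ F.agoal X :=
  (BdFr.bds_fix_ge hF hX).trans (BdFr.bds_fix_le' hF hX)

/-- **`BudB.BufSel`**: a violation of (C12) with the constant `1` produces a buffered violation.
`hZ1` (`Z_j ≥ 1`, part of `BudZ n`) is NEEDED: it is the lower bound `L₁ ≥ a_goal ≥ lam^{2/p_*}` which bounds the number of doublings. -/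
theorem bdg_bufsel (hS : BdStd X W Fam K) (h7 : BudC7al X W Fam) {n : ℕ} (hn : n ≤ X.J + 1)
    (hZ1 : ∃ N0 : ℕ, ∀ F, BdAt X Fam n F → N0 ≤ F.N → ∀ g ∈ Icc (X.glo n) (X.ghi n), 1 ≤ F.Zj X W g) :
    ∃ N0 : ℕ, ∀ i : BdI X,
      (BdAt X Fam n i.F ∧ i.g ∈ Icc (X.glo n) (X.ghi n) ∧ i.F.GoodG X W i.g ∧ i.Q.IsOpt W i.g) → N0 ≤ i.F.N →
      ∀ r1 ∈ Icc (X.qlo n * i.F.u) (X.qhi n * i.F.u), i.F.u * i.F.aj X * i.F.Zj X W i.g < |i.Q.al r1 - i.F.beta0 r1| →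
        ∃ V : BdViol i.F X W, (⟨i.F, V⟩ : BdVI X W).Ok Fam n 2 := by
  have hX := hS.fix
  obtain ⟨p0, p1, _, p3, _⟩ := hX.pat n hn
  set γ : ℝ := min (X.qlo n - X.plo n) (X.phi n - X.qhi n) with hγ
  have hγ0 : 0 < γ := lt_min (by linarith) (by linarith)
  set ε : ℝ := min 1 ((γ / 10) ^ 2) with hε
  have hε0 : 0 < ε := lt_min one_pos (by positivity)
  have hε1 : ε ≤ 1 := min_le_left _ _
  have hsε : 5 * Real.sqrt ε ≤ γ / 2 := by
    have : Real.sqrt ε ≤ γ / 10 := by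
      rw [show γ / 10 = Real.sqrt ((γ / 10) ^ 2) by rw [Real.sqrt_sq (by positivity)]]
      exact Real.sqrt_le_sqrt (min_le_right _ _)
    linarith
  obtain ⟨N1, h1⟩ := bdg_c7 hS h7 hn hε0
  obtain ⟨N2, h2⟩ := bdg_travel hX (γ := γ / 2) (by positivity)
  obtain ⟨N3, h3⟩ := bds_big_ev X hX
  obtain ⟨N4, h4⟩ := hZ1
  refine ⟨max (max N1 N2) (max N3 N4), fun i hi hN r1 hr1 hviol => ?_⟩
  obtain ⟨hAt, hg, hgood, hopt⟩ := hi
  obtain ⟨hF, hstage, hst⟩ := hAt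
  have hN1 : N1 ≤ i.F.N := le_trans (le_trans (le_max_left _ _) (le_max_left _ _)) hN
  have hN2 : N2 ≤ i.F.N := le_trans (le_trans (le_max_right _ _) (le_max_left _ _)) hN
  have hN3 : N3 ≤ i.F.N := le_trans (le_trans (le_max_left _ _) (le_max_right _ _)) hN
  have hN4 : N4 ≤ i.F.N := le_trans (le_trans (le_max_right _ _) (le_max_right _ _)) hN
  have hFok := hS.ok _ hF
  have hu : 0 < i.F.u := BdFr.bds_u_pos hFok hX
  have hl := BdFr.bds_lam_pos hFok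
  have hB := h3 i.F hFok hN3
  have hZ := h4 i.F ⟨hF, hstage, hst⟩ hN4 i.g hg
  set D : ℝ → ℝ := fun r => |i.Q.al r - i.F.beta0 r| with hD
  set L1 : ℝ := D r1 / i.F.u with hL1
  have hD1 : D r1 = i.F.u * L1 := by rw [hL1]; field_simp
  have haj : i.F.agoal X ≤ i.F.aj X := BdFr.bds_astage_ge hFok hX hB _
  have hag := BdFr.bds_agoal_pos hFok hX
  have hajZ : i.F.aj X * i.F.Zj X W i.g < L1 := by
    have : i.F.u * (i.F.aj X * i.F.Zj X W i.g) < i.F.u * L1 := by rw [← hD1, ← mul_assoc]; exact hviol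
    exact lt_of_mul_lt_mul_left this hu.le
  have hajle : i.F.aj X ≤ i.F.aj X * i.F.Zj X W i.g := by
    have : 0 < i.F.aj X := lt_of_lt_of_le hag haj
    nlinarith
  have hL1lo : i.F.lam ^ (2 / X.pS) ≤ L1 := by
    have := bdg_agoal_ge hFok hX
    linarith
  have hL1pos : 0 < L1 := lt_of_lt_of_le (Real.rpow_pos_of_pos hl _) hL1lo
  have hDle : ∀ r ∈ Icc (X.plo n * i.F.u) (X.phi n * i.F.u), D r ≤ ε * i.F.u :=
    fun r hr => h1 i.F i.g i.Q hF hg hopt hN1 r hr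
  have hr1' : r1 ∈ Icc (X.plo n * i.F.u) (X.phi n * i.F.u) :=
    ⟨(mul_le_mul_of_nonneg_right p1.le hu.le).trans hr1.1, hr1.2.trans (mul_le_mul_of_nonneg_right p3.le hu.le)⟩
  have hL1ε : L1 ≤ ε := by
    have := hDle r1 hr1'
    rw [hD1] at this
    have : i.F.u * L1 ≤ i.F.u * ε := by linarith
    exact le_of_mul_le_mul_left this hu
  have hlog : Real.logb 2 (ε / L1) ≤ 2 / X.pS * Real.logb 2 i.F.lam⁻¹ := by
    rw [← Real.logb_rpow_eq_mul_logb_of_pos (inv_pos.2 hl)]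
    apply Real.logb_le_logb_of_le (by norm_num) (by positivity)
    rw [Real.inv_rpow hl.le, div_le_iff₀ hL1pos]
    have hpw := Real.rpow_pos_of_pos hl (2 / X.pS)
    calc ε ≤ 1 := hε1
      _ = (i.F.lam ^ (2 / X.pS))⁻¹ * i.F.lam ^ (2 / X.pS) := by field_simp
      _ ≤ (i.F.lam ^ (2 / X.pS))⁻¹ * L1 := mul_le_mul_of_nonneg_left hL1lo (inv_nonneg.2 hpw.le)
  have hμ0 : 0 ≤ i.F.lam ^ X.rho := Real.rpow_nonneg hl.le _
  have hroom : i.F.u * (5 * Real.sqrt ε + i.F.lam ^ X.rho * (Real.logb 2 (ε / L1) + 2))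
      ≤ min (X.qlo n * i.F.u - X.plo n * i.F.u) (X.phi n * i.F.u - X.qhi n * i.F.u) := by
    have e1 : min (X.qlo n * i.F.u - X.plo n * i.F.u) (X.phi n * i.F.u - X.qhi n * i.F.u) = i.F.u * γ := by
      rw [hγ, ← sub_mul, ← sub_mul, mul_comm _ i.F.u, mul_comm _ i.F.u, mul_min_of_nonneg _ _ hu.le]
    rw [e1]
    apply mul_le_mul_of_nonneg_left _ hu.le
    have := h2 i.F hFok hN2
    have h5 : i.F.lam ^ X.rho * (Real.logb 2 (ε / L1) + 2)
        ≤ i.F.lam ^ X.rho * (2 / X.pS * Real.logb 2 i.F.lam⁻¹ + 2) :=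
      mul_le_mul_of_nonneg_left (by linarith) hμ0
    linarith
  obtain ⟨r0, L, hLL, hLε, hDr0, hlo, hhi, hbuf⟩ :=
    bud_n11_select (D := D) hu hμ0 hL1pos hL1ε hDle hr1 hD1 hroom
  have hbb : 0 ≤ i.F.u * (Real.sqrt L + i.F.lam ^ X.rho) :=
    mul_nonneg hu.le (add_nonneg (Real.sqrt_nonneg _) hμ0)
  refine ⟨⟨i.g, i.Q, r0, L⟩, hF, hstage, hst, ?_, hLε.trans hε1⟩
  refine ⟨by rw [hst]; exact hg, hgood, hopt, ?_, hDr0, ?_, ?_⟩
  · rw [hst]
    exact ⟨⟨hlo, by show r0 - i.F.u * (Real.sqrt L + i.F.lam ^ X.rho) ≤ _; linarith⟩,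
      ⟨by show _ ≤ r0 + i.F.u * (Real.sqrt L + i.F.lam ^ X.rho); linarith, hhi⟩⟩
  · show i.F.aj X * i.F.Zj X W i.g ≤ L
    linarith
  · intro r hr
    exact hbuf r hr

/-! ## 3. geometry in the half buffer -/

theorem bdg_kbar_nonneg {F : BdFr} (hF : F.Ok X) (hX : X.Ok) {r : ℝ} (hr : 0 ≤ r) : 0 ≤ F.kbar X r := by
  have h1 : 0 < F.k X r := bud_gb_k_pos (F.call X) (bud_gb_N_pos hF) (bud_gb_us_pos hX hF) hr
  unfold BdFr.kbar
  split_ifs
  · linarith [hF.kap0]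
  · linarith

theorem bdg_al_mono {F : BdFr} (hF : F.Ok X) (hX : X.Ok) (Q : BdQ F X) : MonotoneOn Q.al (Icc 0 1) := by
  intro r1 h1 r2 h2 h12
  have := Q.lo r1 r2 h1.1 h12 h2.2
  have h0 : 0 ≤ ∫ t in r1..r2, F.kbar X t :=
    intervalIntegral.integral_nonneg h12 fun t ht => bdg_kbar_nonneg hF hX (h1.1.trans ht.1)
  linarith

/-- **the bare path of a frame of the family is admissible with the matrix margin** (`BdFr.Base` of `Bud/GeoBr`), as soon as the class (C5) is nonempty -/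
theorem bdg_base (hS : BdStd X W Fam K) {F : BdFr} (hF : Fam F) (Q : BdQ F X) {g : ℝ} (hg : g ∈ Icc (X.glo 0) (X.ghi 0)) :
    F.Base X W g := by
  have hX := hS.fix
  have hFok := hS.ok _ hF
  obtain ⟨hb, hh⟩ := hS.clk0 F hF g hg
  refine ⟨hS.a1 _, hb, hh, fun v hv => ?_⟩
  have hfl := bud_gb_flat_pos hX hFok
  have hvI : v ∈ Icc (0:ℝ) 1 := Ioo_subset_Icc_self hv
  have hrv := Q.r_mem v hvI
  have hrv0 : 0 < Q.r v := by
    rcases eq_or_lt_of_le hrv.1 with h | h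
    · have := Q.al_r v hvI
      rw [← h, Q.al_zero] at this
      exact absurd this (ne_of_lt hv.1)
    · exact h
  obtain ⟨t, ht⟩ : ∃ t : ℝ, t = min (X.cd ^ 3 * F.u) (Q.r v) := ⟨_, rfl⟩
  have ht0 : 0 < t := by rw [ht]; exact lt_min hfl hrv0
  have ht1 : t ≤ Q.r v := by rw [ht]; exact min_le_right _ _
  have ht2 : t ≤ X.cd ^ 3 * F.u := by rw [ht]; exact min_le_left _ _
  have htI : t ∈ Icc (0:ℝ) 1 := ⟨ht0.le, ht1.trans hrv.2⟩
  have hmono := bdg_al_mono hFok hX Q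
  have hv'le : Q.al t ≤ v := by
    have := hmono htI hrv ht1
    rwa [Q.al_r v hvI] at this
  have hv'0 : 0 < Q.al t := by
    have h0 : 0 ≤ Q.al t := by
      have := hmono ⟨le_rfl, zero_le_one⟩ htI ht0.le
      rwa [Q.al_zero] at this
    rcases eq_or_lt_of_le h0 with h | h
    · have e1 := Q.r_al t htI
      have e2 := Q.r_al 0 ⟨le_rfl, zero_le_one⟩
      rw [← h] at e1
      rw [Q.al_zero] at e2
      linarith
    · exact h
  have hv'I : Q.al t ∈ Ioo (0:ℝ) 1 := ⟨hv'0, lt_of_le_of_lt hv'le hv.2⟩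
  have h1 := (hS.clk F hF g hg Q).1.nonneg _ hv'I
  unfold BdQ.bq at h1
  rw [Q.r_al t htI, bud_gb_C_flat hX hFok ht2] at h1
  have h2 := hb.mono hv'I hv hv'le
  rw [bud_gb_C_flat hX hFok hfl.le]
  linarith

/-- the floor of (C5) is continuous off the two end points of the extra floor -/
theorem bdg_kbar_contAt {F : BdFr} (hF : F.Ok X) (hX : X.Ok) {r : ℝ} (hr : 0 < r) (h1 : r ≠ F.Ilo * F.u) (h2 : r ≠ F.Ihi * F.u) :
    ContinuousAt (F.kbar X) r := by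
  have hk : ContinuousAt (F.k X) r :=
    (bud_gb_k_cont (F.call X) (bud_gb_N_pos hF) (bud_gb_us_pos hX hF)).continuousAt (Ici_mem_nhds hr)
  unfold BdFr.kbar
  refine hk.add ?_
  by_cases hm : r ∈ Icc (F.Ilo * F.u) (F.Ihi * F.u)
  · have hm' : r ∈ Ioo (F.Ilo * F.u) (F.Ihi * F.u) := ⟨lt_of_le_of_ne hm.1 (Ne.symm h1), lt_of_le_of_ne hm.2 h2⟩
    have : (fun r => if r ∈ Icc (F.Ilo * F.u) (F.Ihi * F.u) then F.kap else 0) =ᶠ[𝓝 r] fun _ => F.kap := by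
      filter_upwards [Ioo_mem_nhds hm'.1 hm'.2] with y hy
      rw [if_pos (Ioo_subset_Icc_self hy)]
    exact continuousAt_const.congr this.symm
  · have : (fun r => if r ∈ Icc (F.Ilo * F.u) (F.Ihi * F.u) then F.kap else 0) =ᶠ[𝓝 r] fun _ => (0:ℝ) := by
      filter_upwards [isClosed_Icc.isOpen_compl.mem_nhds hm] with y hy
      rw [if_neg hy]
    exact continuousAt_const.congr this.symm

theorem bdg_kbar_meas (F : BdFr) (X : BdFix) : Measurable (F.kbar X) := by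
  unfold BdFr.kbar
  exact (bud_gb_k_meas (F.call X)).add (Measurable.ite measurableSet_Icc measurable_const measurable_const)

/-- **every potential of (C6) is the potential of the abstract geometry datum**, at the constant `c0 = -H 0` -/
theorem bdg_ok_of_pot {F : BdFr} (hF : F.Ok X) (hX : X.Ok) (Q : BdQ F X) {g c0 : ℝ}
    (hOk : (budGeoQ Q W g c0).Ok) (hP0 : Q.IsPot W g (budGeoQ Q W g c0).H) {H : ℝ → ℝ} (hP : Q.IsPot W g H) :
    (budGeoQ Q W g (-H 0)).Ok ∧ ∀ r ∈ Icc (0:ℝ) 1, (budGeoQ Q W g (-H 0)).H r = H r := by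
  have h0I : (0:ℝ) ∈ Icc (0:ℝ) 1 := ⟨le_rfl, zero_le_one⟩
  have hsh : ∀ r, (budGeoQ Q W g (-H 0)).H r = (budGeoQ Q W g c0).H r + c0 + H 0 := by
    intro r
    show (∫ t in (0:ℝ)..r, (budGeoQ Q W g c0).G t) - (-H 0) = ((∫ t in (0:ℝ)..r, (budGeoQ Q W g c0).G t) - c0) + c0 + H 0
    ring
  have hz : (budGeoQ Q W g c0).H 0 = -c0 := by
    show (∫ t in (0:ℝ)..0, (budGeoQ Q W g c0).G t) - c0 = -c0
    rw [intervalIntegral.integral_same]; ring
  have hH : ∀ r ∈ Icc (0:ℝ) 1, (budGeoQ Q W g (-H 0)).H r = H r := by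
    intro r hr
    have e1 := hP.int 0 h0I r hr
    have e2 := hP0.int 0 h0I r hr
    rw [hsh, ← sub_eq_zero]
    rw [← e2, hz] at e1
    linarith
  have hcont : ContinuousOn H (Icc 0 1) := by
    have h1 : ContinuousOn (fun r => (budGeoQ Q W g c0).H r + c0 + H 0) (Icc 0 1) :=
      ((BudGeo.H_cont hOk).add continuousOn_const).add continuousOn_const
    refine h1.congr fun r hr => ?_
    rw [← hH r hr, hsh]
  -- a neighbourhood on which a strict sign persists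
  have hnb : ∀ (U : Set ℝ), IsOpen U → ∀ r ∈ Ioo (0:ℝ) 1, H r ∈ U →
      ∃ e > 0, 0 ≤ r - e ∧ r + e ≤ 1 ∧ ∀ s ∈ Icc (r - e) (r + e), H s ∈ U := by
    intro U hU r hr hrU
    have hc : ContinuousAt H r := hcont.continuousAt (Icc_mem_nhds hr.1 hr.2)
    have h1 : ∀ᶠ s in 𝓝 r, H s ∈ U := hc.eventually (hU.mem_nhds hrU)
    obtain ⟨e, he, hball⟩ := Metric.eventually_nhds_iff.1 h1
    refine ⟨min (e / 2) (min r (1 - r)), lt_min (by positivity) (lt_min hr.1 (by linarith [hr.2])), ?_, ?_, fun s hs => hball ?_⟩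
    · have : min (e / 2) (min r (1 - r)) ≤ r := (min_le_right _ _).trans (min_le_left _ _)
      linarith
    · have : min (e / 2) (min r (1 - r)) ≤ 1 - r := (min_le_right _ _).trans (min_le_right _ _)
      linarith
    · have : min (e / 2) (min r (1 - r)) ≤ e / 2 := min_le_left _ _
      rw [Real.dist_eq, abs_lt]
      constructor <;> linarith [hs.1, hs.2]
  refine ⟨⟨hOk.M1, hOk.kbm, hOk.kb0, hOk.dens, hOk.Cm, hOk.Cpos, hOk.Cbd, hOk.pm, hOk.Sm, hOk.Bm, hOk.pmono, hOk.p0, hOk.p1,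
    hOk.pz, hOk.Smono, hOk.Bmono, hOk.S0, hOk.SB, hOk.B1, ?_, ?_⟩, hH⟩
  · refine Eventually.of_forall fun r hr hneg => ?_
    rw [hH r (Ioo_subset_Icc_self hr)] at hneg
    obtain ⟨e, he, e0, e1, hs⟩ := hnb (Iio 0) isOpen_Iio r hr hneg
    show deriv Q.al r = F.Mj
    have haff : Q.al =ᶠ[𝓝 r] fun s => Q.al r + F.Mj * (s - r) := by
      filter_upwards [Icc_mem_nhds (show r - e < r by linarith) (show r < r + e by linarith)] with s hsI
      rcases le_total r s with h | h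
      · have := hP.cap r s hr.1.le h (hsI.2.trans e1)
          (fun t ht => hs t ⟨by linarith [ht.1], by linarith [ht.2, hsI.2]⟩)
        linarith
      · have := hP.cap s r (e0.trans hsI.1) h hr.2.le
          (fun t ht => hs t ⟨by linarith [ht.1, hsI.1], by linarith [ht.2]⟩)
        linarith
    rw [haff.deriv_eq]
    have : HasDerivAt (fun s => Q.al r + F.Mj * (s - r)) (F.Mj * 1) r :=
      (((hasDerivAt_id r).sub_const r).const_mul F.Mj).const_add _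
    rw [this.deriv, mul_one]
  · have a1 : ∀ᵐ r ∂(volume : Measure ℝ), r ≠ F.Ilo * F.u := by simp [ae_iff, measure_singleton]
    have a2 : ∀ᵐ r ∂(volume : Measure ℝ), r ≠ F.Ihi * F.u := by simp [ae_iff, measure_singleton]
    filter_upwards [a1, a2] with r b1 b2 hr hpos
    rw [hH r (Ioo_subset_Icc_self hr)] at hpos
    obtain ⟨e, he, e0, e1, hs⟩ := hnb (Ioi 0) isOpen_Ioi r hr hpos
    show deriv Q.al r = budKb F X r
    rw [bud_gb_Kb_eq F X (Ioo_subset_Icc_self hr)]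
    have haff : Q.al =ᶠ[𝓝 r] fun s => Q.al r + ∫ t in r..s, F.kbar X t := by
      filter_upwards [Icc_mem_nhds (show r - e < r by linarith) (show r < r + e by linarith)] with s hsI
      rcases le_total r s with h | h
      · have := hP.floor r s hr.1.le h (hsI.2.trans e1)
          (fun t ht => hs t ⟨by linarith [ht.1], by linarith [ht.2, hsI.2]⟩)
        linarith
      · have := hP.floor s r (e0.trans hsI.1) h hr.2.le
          (fun t ht => hs t ⟨by linarith [ht.1, hsI.1], by linarith [ht.2]⟩)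
        rw [intervalIntegral.integral_symm]
        linarith
    rw [haff.deriv_eq]
    have hd : HasDerivAt (fun s => ∫ t in r..s, F.kbar X t) (F.kbar X r) r :=
      intervalIntegral.integral_hasDerivAt_right (by simp)
        ((bdg_kbar_meas F X).stronglyMeasurable.stronglyMeasurableAtFilter) (bdg_kbar_contAt hF hX hr.1 b1 b2)
    exact (hd.const_add _).deriv

/-- the constant part of the removal, from `BdStd.Cconst` (any `R0 < c_I u`) -/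
theorem bdg_flat (hS : BdStd X W Fam K) {F : BdFr} (hF : Fam F) (Q : BdQ F X) (g c0 : ℝ) {R0 : ℝ} (h1 : R0 ≤ 1)
    (h2 : R0 < X.cI * F.u) : (budGeoQ Q W g c0).Flat R0 F.C0 := by
  have hX := hS.fix
  have hFok := hS.ok _ hF
  refine ⟨h1, bud_gb_C0_pos hX hFok, fun r hr => hS.Cconst F hF r ⟨hr.1, by linarith [hr.2]⟩, fun r hr => ?_⟩
  show budP (F.C X) (budCp F X) r = 0
  rw [bud_gb_P X hX F hFok]
  rcases eq_or_lt_of_le hr.1 with h0 | h0
  · rw [← h0]; exact bud_gb_pC_zero hX hFok (bud_gb_flat_pos hX hFok).le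
  · have hd : HasDerivAt (F.C X) (-(F.pC X r * F.C X r / r)) r := cm_e_hasDerivAt_r (F.call X) F.C0 r
    have hc : F.C X =ᶠ[𝓝 r] fun _ => F.C0 := by
      filter_upwards [Ioo_mem_nhds h0 (lt_of_le_of_lt hr.2 h2)] with y hy
      exact hS.Cconst F hF y ⟨hy.1.le, hy.2.le⟩
    have hd0 : HasDerivAt (F.C X) 0 r := (hasDerivAt_const r F.C0).congr_of_eventuallyEq hc
    have e := hd.unique hd0
    have hC := bud_gb_C_pos hX hFok r
    have e2 : F.pC X r * F.C X r / r = 0 := by linarith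
    rcases div_eq_zero_iff.1 e2 with h | h
    · rcases mul_eq_zero.1 h with h | h
      · exact h
      · exact absurd h hC.ne'
    · exact absurd h h0.ne'

theorem bdg_invM_le {F : BdFr} (hF : F.Ok X) : 1 / F.Mj ≤ F.x ^ (100 : ℝ) := by
  have hx := BdFr.bds_x_pos hF
  have hp : 0 < F.x ^ (-(100 : ℝ)) := Real.rpow_pos_of_pos hx _
  have h2 : (1:ℝ) ≤ 2 ^ F.st := one_le_pow₀ (by norm_num)
  have h3 : F.x ^ (-(100 : ℝ)) ≤ F.Mj := by unfold BdFr.Mj; nlinarith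
  calc 1 / F.Mj ≤ 1 / F.x ^ (-(100 : ℝ)) := one_div_le_one_div_of_le hp h3
    _ = F.x ^ (100 : ℝ) := by rw [Real.rpow_neg hx.le, one_div, inv_inv]

theorem bdg_x2_le {F : BdFr} (hF : F.Ok X) (hX : X.Ok) : F.x ^ (2 : ℕ) ≤ F.u * F.agoal X := by
  have hx := BdFr.bds_x_pos hF
  have hu := BdFr.bds_u_pos hF hX
  have hu1 := BdFr.bds_u_le_one hF hX
  have hl := BdFr.bds_lam_pos hF
  have hl1 := (BdFr.bds_lam_lt_one hF hX).le
  have h1 : (1:ℝ) ≤ F.lam ^ (-X.s0) :=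
    Real.one_le_rpow_of_pos_of_le_one_of_nonpos hl hl1 (by linarith [BdFr.bds_s0_ge hX])
  have e : F.u * F.agoal X = F.x ^ 2 / F.u * F.lam ^ (-X.s0) := by
    unfold BdFr.agoal BdFr.Xr
    field_simp
  rw [e]
  have h2 : F.x ^ 2 ≤ F.x ^ 2 / F.u := by
    rw [le_div_iff₀ hu]
    nlinarith [pow_pos hx 2]
  nlinarith [pow_pos hx 2]

/-- `1/M_j ≤ u a_goal` -/
theorem bdg_invM_le_goal {F : BdFr} (hF : F.Ok X) (hX : X.Ok) : 1 / F.Mj ≤ F.u * F.agoal X := by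
  have hx := BdFr.bds_x_pos hF
  have hx1 := (BdFr.bds_x_lt_one hF).le
  refine (bdg_invM_le hF).trans (le_trans ?_ (bdg_x2_le hF hX))
  rw [← Real.rpow_natCast]
  exact Real.rpow_le_rpow_of_exponent_ge hx hx1 (by norm_num)

/-- `1/M_j ≤ γ u` for large sizes -/
theorem bdg_invM_small (hX : X.Ok) {γ : ℝ} (hγ : 0 < γ) :
    ∃ N0 : ℕ, ∀ F : BdFr, F.Ok X → N0 ≤ F.N → 1 / F.Mj ≤ γ * F.u := by
  have hCU := hX.CU_pos
  obtain ⟨N0, h⟩ := bdg_lam_small hX (e := 99 / 12) (ε := γ / X.CU) (by norm_num) (by positivity)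
  refine ⟨N0, fun F hF hN => ?_⟩
  have hx := BdFr.bds_x_pos hF
  have hu := BdFr.bds_u_pos hF hX
  have hl := BdFr.bds_lam_pos hF
  have h1 : F.x ≤ X.CU * F.u := by
    have h2 := BdFr.bds_Xr_le hF hX
    have h3 : F.lam ^ (X.sS / 2) ≤ 1 := BdFr.bds_lam_rpow_le_one hF hX (by
      have := hX.tau_le
      unfold BdFix.sS; linarith)
    unfold BdFr.Xr at h2
    rw [div_le_iff₀ hu] at h2
    have h5 : X.CU * F.lam ^ (X.sS / 2) * F.u ≤ X.CU * 1 * F.u := by gcongr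
    linarith
  have h4 : F.x ^ (99 : ℝ) ≤ γ / X.CU := by
    refine le_trans ?_ (h F hF hN)
    calc F.x ^ (99 : ℝ) = (F.x ^ (12 : ℝ)) ^ (99 / 12 : ℝ) := by rw [← Real.rpow_mul hx.le]; norm_num
      _ ≤ _ := Real.rpow_le_rpow (Real.rpow_nonneg hx.le _) hF.lam_lo (by norm_num)
  calc 1 / F.Mj ≤ F.x ^ (100 : ℝ) := bdg_invM_le hF
    _ = F.x ^ (99 : ℝ) * F.x := by
        rw [show (100:ℝ) = 99 + 1 by norm_num, Real.rpow_add hx, Real.rpow_one]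
    _ ≤ γ / X.CU * (X.CU * F.u) := mul_le_mul h4 h1 hx.le (by positivity)
    _ = γ * F.u := by field_simp

/-- the floor of (C5) is small -/
theorem bdg_kbar_small (hX : X.Ok) {ε : ℝ} (hε : 0 < ε) :
    ∃ N0 : ℕ, ∀ F : BdFr, F.Ok X → N0 ≤ F.N → ∀ r, 0 ≤ r → F.kbar X r ≤ ε := by
  obtain ⟨N1, h1⟩ := bdg_lam_small hX (e := 9 / 10) (ε := ε / 2) (by norm_num) (by positivity)
  have hc : 0 < 3 * (X.mPE / 10000) := by have := hX.mPE_pos; positivity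
  have h2 : ∀ᶠ n : ℕ in atTop, ((n:ℝ) / 2) ^ (-(3 * (X.mPE / 10000))) ≤ ε / 2 :=
    ((tendsto_rpow_neg_atTop hc).comp
      (tendsto_natCast_atTop_atTop.atTop_div_const (by norm_num : (0:ℝ) < 2))).eventually_le_const (by positivity)
  obtain ⟨N2, h2⟩ := eventually_atTop.1 h2
  refine ⟨max N1 N2, fun F hF hN r hr => ?_⟩
  have hN2 : (2:ℝ) ≤ F.N := by exact_mod_cast hF.N2
  have a1 : F.kap ≤ ε / 2 := (bud_gb_kap_le hX hF).trans (h1 F hF (le_trans (le_max_left _ _) hN))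
  have a2 : F.k X r ≤ ε / 2 := by
    refine (bud_gb_k_le (F.call X) (bud_gb_N_pos hF) (bud_gb_us_pos hX hF) hr).trans ?_
    refine le_trans ?_ (h2 F.N (le_trans (le_max_right _ _) hN))
    show (F.m : ℝ) ^ (-(3 * (X.mPE / 10000))) ≤ _
    exact Real.rpow_le_rpow_of_nonpos (by linarith) hF.m_lo (by linarith)
  unfold BdFr.kbar
  split_ifs
  · linarith
  · linarith

/-- **the buffer of a buffered violation is a buffer `BudBuf` of the abstract geometry** (datum at the constant `-H 0`, for EVERY potential `H`);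
so every lemma of `Bud/N11.lean`, part B, and of `Bud/Geo*.lean` applies -/
theorem bdg_budbuf (hS : BdStd X W Fam K) {n : ℕ} (hn : n ≤ X.J + 1) :
    ∃ N0 : ℕ, ∀ i : BdVI X W, i.Ok Fam n 2 → N0 ≤ i.F.N → ∀ H : ℝ → ℝ, i.V.Q.IsPot W i.V.g H →
      i.F.Base X W i.V.g ∧
      BudBuf (budGeoQ i.V.Q W i.V.g (-H 0)) i.F.beta0 (i.V.r0 - i.V.bbuf) (i.V.r0 + i.V.bbuf) (2 * i.V.d0) K.cb K.Cb
        ((X.phi n + X.cI) / 2 * i.F.u) i.F.C0 ∧
      (∀ r ∈ Icc (0:ℝ) 1, (budGeoQ i.V.Q W i.V.g (-H 0)).H r = H r) ∧ 0 < i.V.r0 - i.V.bbuf ∧ i.V.r0 + i.V.bbuf < 1 := by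
  have hX := hS.fix
  obtain ⟨p0, _, _, _, p4⟩ := hX.pat n hn
  obtain ⟨_, _, n3, n4⟩ := bdg_nest hX n hn
  have hcI := hX.cI_pos
  obtain ⟨N1, h1⟩ := bud_n4_geo X hX
  obtain ⟨N2, h2⟩ := bdg_lam_small hX hX.bl_pos (ε := 1 / X.cI) (by positivity)
  obtain ⟨N3, h3⟩ := bdg_invM_small hX (γ := (X.cI - X.phi n) / 2) (by linarith)
  obtain ⟨N4, h4⟩ := bdg_kbar_small hX (ε := K.cb / 2) (by have := hS.cb_pos; positivity)
  refine ⟨max (max N1 N2) (max N3 N4), fun i hi hN H hP => ?_⟩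
  have hN1 : N1 ≤ i.F.N := le_trans (le_trans (le_max_left _ _) (le_max_left _ _)) hN
  have hN2 : N2 ≤ i.F.N := le_trans (le_trans (le_max_right _ _) (le_max_left _ _)) hN
  have hN3 : N3 ≤ i.F.N := le_trans (le_trans (le_max_left _ _) (le_max_right _ _)) hN
  have hN4 : N4 ≤ i.F.N := le_trans (le_trans (le_max_right _ _) (le_max_right _ _)) hN
  obtain ⟨hF, _, hst, hV, _⟩ := hi
  have hFok := hS.ok _ hF
  have hu : 0 < i.F.u := BdFr.bds_u_pos hFok hX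
  have hg := hV.g_mem
  have hr0 := hV.r0_mem
  rw [hst] at hg hr0
  have hg0 : i.V.g ∈ Icc (X.glo 0) (X.ghi 0) := ⟨n3.trans hg.1, hg.2.trans n4⟩
  have hB := bdg_base hS hF i.V.Q hg0
  obtain ⟨c0, hOk0, hP0⟩ := h1 i.F hFok hN1 W i.V.g hB i.V.Q hV.opt
  obtain ⟨hOk, hH⟩ := bdg_ok_of_pot hFok hX i.V.Q hOk0 hP0 hP
  have hcIu : X.cI * i.F.u ≤ 1 := by
    have h5 : i.F.u ≤ 1 / X.cI := hFok.u_hi.trans (h2 _ hFok hN2)
    calc X.cI * i.F.u ≤ X.cI * (1 / X.cI) := mul_le_mul_of_nonneg_left h5 hcI.le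
      _ = 1 := by field_simp
  have hR : (X.phi n + X.cI) / 2 * i.F.u < X.cI * i.F.u := mul_lt_mul_of_pos_right (by linarith) hu
  have hflat := bdg_flat hS hF i.V.Q (W := W) i.V.g (-H 0) (by linarith) hR
  have hbb := bdg_bbuf_nonneg hFok hX i.V
  have hlo : 0 < i.V.r0 - i.V.bbuf := lt_of_lt_of_le (mul_pos p0 hu) hr0.1.1
  have hM := h3 _ hFok hN3
  have hMpos : 0 < 1 / i.F.Mj := by have := bud_gb_Mj_ge hFok; positivity
  have hhiR : i.V.r0 + i.V.bbuf + 1 / i.F.Mj ≤ (X.phi n + X.cI) / 2 * i.F.u := by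
    have := hr0.2.2
    nlinarith
  have hhi1 : i.V.r0 + i.V.bbuf < 1 := by linarith
  have hI : ∀ r ∈ Icc (i.V.r0 - i.V.bbuf) (i.V.r0 + i.V.bbuf), r ∈ Icc (0:ℝ) 1 :=
    fun r hr => ⟨by linarith [hr.1], by linarith [hr.2]⟩
  have hIc : ∀ r ∈ Icc (i.V.r0 - i.V.bbuf) (i.V.r0 + i.V.bbuf), r ≤ X.cI * i.F.u :=
    fun r hr => by linarith [hr.2]
  refine ⟨hB, ⟨hOk, hflat, hlo.le, by linarith, hhiR, ?_, hS.cb_pos, ?_, ?_, ?_, ?_⟩, hH, hlo, hhi1⟩
  · rw [← hV.disc]; positivity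
  · intro s hs t ht hst
    exact (hS.beta _ hF s t (hI s hs).1 hst (hIc t ht)).1
  · intro s hs t ht hst
    exact (hS.beta _ hF s t (hI s hs).1 hst (hIc t ht)).2
  · intro r hr
    rw [bud_n4_al X hX i.F hFok i.V.Q W i.V.g _ (hI r hr)]
    exact hV.buf r (by rw [abs_le]; constructor <;> linarith [hr.1, hr.2])
  · intro r hr
    show budKb i.F X r ≤ K.cb / 2
    rw [bud_gb_Kb_eq i.F X (hI r hr)]
    exact h4 _ hFok hN4 r (hI r hr).1

/-- the five assertions of B5 for ONE abstract buffer, with the explicit constant `18/cβ + |Cβ| + 5` -/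
theorem bdg_abs_geo {g : BudGeo} {β : ℝ → ℝ} {lo hi d cβ Cβ R0 C0 lo' hi' : ℝ} (h : BudBuf g β lo hi (2 * d) cβ Cβ R0 C0)
    (hd : 0 < d) (hM : 1 / g.M ≤ d) (h1 : lo + 9 * d / cβ ≤ lo') (h2 : hi' ≤ hi - 9 * d / cβ) :
    (∀ r ∈ Icc lo' hi', |g.S r - r| ≤ (18 / cβ + |Cβ| + 5) * d) ∧
    (∀ a ∈ Icc lo' hi', ∀ b ∈ Icc lo' hi', (18 / cβ + |Cβ| + 5) * d ≤ b - a → ∃ r ∈ Ioo a b, g.H r ≤ 0) ∧
    (∀ a ∈ Icc lo' hi', ∀ b ∈ Icc lo' hi', a ≤ b →
      g.S b - g.S a ≤ (18 / cβ + |Cβ| + 5) * (d + (b - a)) ∧ g.al b - g.al a ≤ (18 / cβ + |Cβ| + 5) * (d + (b - a))) ∧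
    (∀ r ∈ Icc lo' hi', g.H r ≤ 0 → |g.S r - r| ≤ 2 / g.M) ∧
    (∀ r ∈ Icc lo' hi', -((18 / cβ + |Cβ| + 5) * C0 / g.M ^ 2) ≤ g.H r) := by
  have hcb := h.cβ0
  have hCb0 : 0 ≤ |Cβ| := abs_nonneg _
  have h18 : 0 < 18 / cβ := by positivity
  have e2M : 2 / g.M = 2 * (1 / g.M) := by ring
  have e4M : 4 / g.M = 4 * (1 / g.M) := by ring
  obtain ⟨ℓ, hℓd⟩ : ∃ ℓ : ℝ, ℓ = 9 * d / cβ := ⟨_, rfl⟩
  rw [← hℓd] at h1 h2
  have hℓ : 4 * (2 * d) / cβ < ℓ := by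
    rw [hℓd]
    exact div_lt_div_of_pos_right (by linarith) hcb
  have hℓ0 : 0 < ℓ := by rw [hℓd]; positivity
  have hℓC : 18 / cβ * d = 2 * ℓ := by rw [hℓd]; ring
  have hin : ∀ r ∈ Icc lo' hi', r ∈ Icc (lo + ℓ) (hi - ℓ) := fun r hr => ⟨h1.trans hr.1, hr.2.trans h2⟩
  have hin' : ∀ r ∈ Icc lo' hi', r ∈ Icc lo hi := fun r hr => ⟨by linarith [hr.1], by linarith [hr.2]⟩
  have hCd : ∀ t : ℝ, (18 / cβ + |Cβ| + 5) * t = 18 / cβ * t + |Cβ| * t + 5 * t := fun t => by ring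
  have hp1 : 0 ≤ |Cβ| * d := mul_nonneg hCb0 hd.le
  refine ⟨fun r hr => ?_, fun a ha b hb hab => ?_, fun a ha b hb hab => ⟨?_, ?_⟩, fun r hr hnf => ?_, fun r hr => ?_⟩
  · refine (h.S_near hℓ (hin r hr)).trans ?_
    rw [hCd, hℓC, e2M]
    linarith
  · refine h.exists_nonfloor (hin' a ha) (hin' b hb) (lt_of_lt_of_le hℓ (le_trans ?_ hab))
    rw [hCd, hℓC]
    linarith
  · refine (h.S_osc hℓ (hin a ha) (hin b hb) hab).trans ?_
    have hba : 0 ≤ b - a := by linarith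
    have hp2 := mul_nonneg h18.le hba
    have hp3 := mul_nonneg hCb0 hba
    rw [hCd, mul_add, mul_add, hℓC, e4M]
    linarith
  · refine (h.al_osc (hin' a ha) (hin' b hb) hab).2.trans ?_
    have hba : 0 ≤ b - a := by linarith
    have hp2 := mul_nonneg h18.le hba
    have hCb : Cβ * (b - a) ≤ |Cβ| * (b - a) := mul_le_mul_of_nonneg_right (le_abs_self _) hba
    rw [hCd, mul_add, mul_add, hℓC]
    linarith
  · exact h.Y_off (hin' r hr) hnf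
  · have hr' := hin' r hr
    refine le_trans ?_ (BudGeo.flat_H_ge h.ok h.flat (r := r) (h.lo0.trans hr'.1) (by linarith [h.hiR, hr'.2]))
    have hC0 := h.flat.hC0
    have hMp : 0 < g.M := lt_trans one_pos h.ok.M1
    have : 2 * C0 / g.M ^ 2 ≤ (18 / cβ + |Cβ| + 5) * C0 / g.M ^ 2 := by
      apply div_le_div_of_nonneg_right _ (by positivity)
      apply mul_le_mul_of_nonneg_right _ hC0.le
      linarith
    linarith

/-- **`BudB.BufGeo`** with `s = 1/2`; clause 4 with `2/M_j` (what N4 proves: `BudGeo.flat_nonfloor`).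
`hZ1` (`Z_j ≥ 1`, part of `BudZ n`) is NEEDED: `1/M_j ≤ u a_goal ≤ d₀`. -/
theorem bdg_bufgeo (hS : BdStd X W Fam K) {n : ℕ} (hn : n ≤ X.J + 1)
    (hL : ∀ ε : ℝ, 0 < ε → ∃ N0 : ℕ, ∀ i : BdVI X W, i.Ok Fam n 2 → N0 ≤ i.F.N → i.V.L ≤ ε)
    (hZ1 : ∃ N0 : ℕ, ∀ F, BdAt X Fam n F → N0 ≤ F.N → ∀ g ∈ Icc (X.glo n) (X.ghi n), 1 ≤ F.Zj X W g) :
    ∃ C s : ℝ, 0 < s ∧ s ≤ 1 ∧ ∃ N0 : ℕ, ∀ i : BdVI X W, i.Ok Fam n 2 → N0 ≤ i.F.N →
      ∀ H : ℝ → ℝ, i.V.Q.IsPot W i.V.g H →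
        (∀ r ∈ i.V.Buf s, |i.V.Q.Sq W i.V.g (i.V.Q.al r) - r| ≤ C * i.V.d0) ∧
        (∀ a ∈ i.V.Buf s, ∀ b ∈ i.V.Buf s, C * i.V.d0 ≤ b - a → ∃ r ∈ Icc a b, r ∈ bdNonfloor H) ∧
        (∀ a ∈ i.V.Buf s, ∀ b ∈ i.V.Buf s, a ≤ b →
          i.V.Q.Sq W i.V.g (i.V.Q.al b) - i.V.Q.Sq W i.V.g (i.V.Q.al a) ≤ C * (i.V.d0 + (b - a)) ∧
          i.V.Q.al b - i.V.Q.al a ≤ C * (i.V.d0 + (b - a))) ∧
        (∀ r ∈ i.V.Buf s, r ∈ bdNonfloor H → |i.V.Q.Sq W i.V.g (i.V.Q.al r) - r| ≤ 2 / i.F.Mj) ∧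
        (∀ r ∈ i.V.Buf s, -(C * i.F.C0 / i.F.Mj ^ 2) ≤ H r) := by
  have hX := hS.fix
  have hcb := hS.cb_pos
  obtain ⟨N1, h1⟩ := bdg_budbuf (W := W) hS hn
  obtain ⟨N2, h2⟩ := hL ((K.cb / 18) ^ 2) (by positivity)
  obtain ⟨N3, h3⟩ := bds_big_ev X hX
  obtain ⟨N4, h4⟩ := hZ1
  refine ⟨18 / K.cb + |K.Cb| + 5, 1 / 2, by norm_num, by norm_num, max (max N1 N2) (max N3 N4), fun i hi hN H hP => ?_⟩
  have hN1 : N1 ≤ i.F.N := le_trans (le_trans (le_max_left _ _) (le_max_left _ _)) hN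
  have hN2 : N2 ≤ i.F.N := le_trans (le_trans (le_max_right _ _) (le_max_left _ _)) hN
  have hN3 : N3 ≤ i.F.N := le_trans (le_trans (le_max_left _ _) (le_max_right _ _)) hN
  have hN4 : N4 ≤ i.F.N := le_trans (le_trans (le_max_right _ _) (le_max_right _ _)) hN
  obtain ⟨hB, hbuf, hH, hlo, hhi⟩ := h1 i hi hN1 H hP
  have hLs := h2 i hi hN2
  obtain ⟨hF, hstage, hst, hV, _⟩ := hi
  have hFok := hS.ok _ hF
  have hu : 0 < i.F.u := BdFr.bds_u_pos hFok hX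
  have hl := BdFr.bds_lam_pos hFok
  have hg := hV.g_mem
  rw [hst] at hg
  have hZ := h4 i.F ⟨hF, hstage, hst⟩ hN4 i.V.g hg
  have hag := BdFr.bds_agoal_pos hFok hX
  have haj : i.F.agoal X ≤ i.F.aj X := BdFr.bds_astage_ge hFok hX (h3 _ hFok hN3) _
  have hLlo : i.F.agoal X ≤ i.V.L := by
    have := hV.big
    nlinarith
  have hLpos : 0 < i.V.L := lt_of_lt_of_le hag hLlo
  have hd0 : 0 < i.V.d0 := mul_pos hu hLpos
  have hMd : 1 / i.F.Mj ≤ i.V.d0 :=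
    (bdg_invM_le_goal hFok hX).trans (mul_le_mul_of_nonneg_left hLlo hu.le)
  have hsq : Real.sqrt i.V.L ≤ K.cb / 18 := by
    rw [show K.cb / 18 = Real.sqrt ((K.cb / 18) ^ 2) by rw [Real.sqrt_sq (by positivity)]]
    exact Real.sqrt_le_sqrt hLs
  have hℓb : 9 * i.V.d0 / K.cb ≤ 1 / 2 * i.V.bbuf := by
    have hs0 := Real.sqrt_nonneg i.V.L
    have hss : Real.sqrt i.V.L * Real.sqrt i.V.L = i.V.L := Real.mul_self_sqrt hLpos.le
    have hρ : 0 ≤ i.F.lam ^ X.rho := Real.rpow_nonneg hl.le _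
    have a1 : 18 * i.V.L ≤ K.cb * Real.sqrt i.V.L := by nlinarith
    rw [div_le_iff₀ hcb]
    unfold BdViol.d0 BdViol.bbuf
    have a2 : i.F.u * (18 * i.V.L) ≤ i.F.u * (K.cb * Real.sqrt i.V.L) := mul_le_mul_of_nonneg_left a1 hu.le
    have a3 : 0 ≤ i.F.u * (K.cb * i.F.lam ^ X.rho) := by positivity
    nlinarith
  have hbb := bdg_bbuf_nonneg hFok hX i.V
  obtain ⟨g1, g2, g3, g4, g5⟩ := bdg_abs_geo hbuf hd0 hMd (lo' := i.V.r0 - 1 / 2 * i.V.bbuf) (hi' := i.V.r0 + 1 / 2 * i.V.bbuf)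
    (by linarith) (by linarith)
  have hIoo : ∀ r ∈ i.V.Buf (1 / 2), r ∈ Ioo (0:ℝ) 1 := by
    intro r hr
    exact ⟨by linarith [hr.1], by linarith [hr.2]⟩
  have hSd : ∀ r ∈ i.V.Buf (1 / 2), (budGeoQ i.V.Q W i.V.g (-H 0)).S r = i.V.Q.Sq W i.V.g (i.V.Q.al r) :=
    fun r hr => bud_n4_S X hX i.F hFok i.V.Q W i.V.g _ hB (hIoo r hr)
  have hAd : ∀ r ∈ i.V.Buf (1 / 2), (budGeoQ i.V.Q W i.V.g (-H 0)).al r = i.V.Q.al r :=
    fun r hr => bud_n4_al X hX i.F hFok i.V.Q W i.V.g _ (Ioo_subset_Icc_self (hIoo r hr))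
  refine ⟨fun r hr => ?_, fun a ha b hb hab => ?_, fun a ha b hb hab => ?_, fun r hr hnf => ?_, fun r hr => ?_⟩
  · rw [← hSd r hr]; exact g1 r hr
  · obtain ⟨r, hr, hHr⟩ := g2 a ha b hb hab
    have hrI : r ∈ Icc (0:ℝ) 1 := ⟨by linarith [hr.1, (hIoo a ha).1], by linarith [hr.2, (hIoo b hb).2]⟩
    exact ⟨r, Ioo_subset_Icc_self hr, hrI, by rw [← hH r hrI]; exact hHr⟩
  · rw [← hSd a ha, ← hSd b hb, ← hAd a ha, ← hAd b hb]; exact g3 a ha b hb hab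
  · rw [← hSd r hr]; exact g4 r hr (by rw [hH r hnf.1]; exact hnf.2)
  · rw [← hH r (Ioo_subset_Icc_self (hIoo r hr))]; exact g5 r hr

end

end Claimed.Agent.R286
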