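import Claimed.Agent.R286.Bud.Pow

/-!
# Row 286, LL sec. 7: the strict power margin (C18) a:  `T₂ ≪ P₁`

Put `ℓ = X² λ^{-s₀} ≤ L ≤ 1`.  Every monomial of `T₂` is `X^p λ^e = ℓ^α λ^γ`, `α = p/2 ∈ [1,3]`, `γ = s₀ α + e`.
`bp_mono`: `ℓ^α λ^γ ≤ λ^{0.04} L G₁` as soon as `γ ≥ 0.07` and `γ ≥ 1.04 - θ`, `θ = (α-1)/2`
(use `max(L², λ) ≥ (L²)^θ λ^{1-θ}`).
-/

set_option autoImplicit false

namespace Claimed.Agent.R286

/-- the basic monomial bound -/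
theorem bp_mono {lam L l : ℝ} (hl0 : 0 < lam) (hl1 : lam ≤ 1) (hp0 : 0 < l) (hlL : l ≤ L)
    (hL1 : L ≤ 1) {α γ : ℝ} (hα1 : 1 ≤ α) (hα2 : α ≤ 3) (hγ1 : 7/100 ≤ γ)
    (hγ2 : 104/100 - (α - 1) / 2 ≤ γ) :
    l ^ α * lam ^ γ ≤ lam ^ (4/100 : ℝ) * bpP1 lam L := by
  have hL0 : 0 < L := lt_of_lt_of_le hp0 hlL
  have h1 : l ^ α ≤ L ^ α := Real.rpow_le_rpow hp0.le hlL (by linarith)
  have hLα : 0 < L ^ α := Real.rpow_pos_of_pos hL0 _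
  unfold bpP1 bpG1 bpLam
  rcases le_total (max (L ^ (2:ℝ)) lam) (lam ^ (3/100 : ℝ)) with h | h
  · rw [min_eq_left h]
    set θ : ℝ := (α - 1) / 2 with hθ
    have hθ0 : 0 ≤ θ := by rw [hθ]; linarith
    have hθ1 : θ ≤ 1 := by rw [hθ]; linarith
    set M : ℝ := max (L ^ (2:ℝ)) lam with hM
    have hM0 : 0 < M := lt_of_lt_of_le hl0 (le_max_right _ _)
    have hgm : (L ^ (2:ℝ)) ^ θ * lam ^ (1 - θ) ≤ M := by
      calc (L ^ (2:ℝ)) ^ θ * lam ^ (1 - θ) ≤ M ^ θ * M ^ (1 - θ) := by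
            apply mul_le_mul
            · exact Real.rpow_le_rpow (Real.rpow_nonneg hL0.le _) (le_max_left _ _) hθ0
            · exact Real.rpow_le_rpow hl0.le (le_max_right _ _) (by linarith)
            · exact Real.rpow_nonneg hl0.le _
            · exact Real.rpow_nonneg hM0.le _
        _ = M := by rw [← Real.rpow_add hM0]; simp
    have e1 : L ^ α = L * (L ^ (2:ℝ)) ^ θ := by
      rw [← Real.rpow_mul hL0.le]
      nth_rewrite 2 [← Real.rpow_one L]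
      rw [← Real.rpow_add hL0]
      congr 1
      rw [hθ]; ring
    have e2 : lam ^ (104/100 - θ) = lam ^ (4/100 : ℝ) * lam ^ (1 - θ) := by
      rw [← Real.rpow_add hl0]
      congr 1
      ring
    calc l ^ α * lam ^ γ ≤ L ^ α * lam ^ (104/100 - θ) := by
          apply mul_le_mul h1 (Real.rpow_le_rpow_of_exponent_ge hl0 hl1 hγ2)
            (Real.rpow_nonneg hl0.le _) hLα.le
      _ = lam ^ (4/100 : ℝ) * (L * ((L ^ (2:ℝ)) ^ θ * lam ^ (1 - θ))) := by rw [e1, e2]; ring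
      _ ≤ lam ^ (4/100 : ℝ) * (L * M) := by
          apply mul_le_mul_of_nonneg_left _ (Real.rpow_nonneg hl0.le _)
          exact mul_le_mul_of_nonneg_left hgm hL0.le
  · rw [min_eq_right h]
    have h2 : L ^ α ≤ L := by
      calc L ^ α ≤ L ^ (1:ℝ) := Real.rpow_le_rpow_of_exponent_ge hL0 hL1 hα1
        _ = L := Real.rpow_one L
    have e2 : lam ^ (7/100 : ℝ) = lam ^ (4/100 : ℝ) * lam ^ (3/100 : ℝ) := by
      rw [← Real.rpow_add hl0]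
      norm_num
    calc l ^ α * lam ^ γ ≤ L * lam ^ (7/100 : ℝ) := by
          apply mul_le_mul (h1.trans h2) (Real.rpow_le_rpow_of_exponent_ge hl0 hl1 hγ1)
            (Real.rpow_nonneg hl0.le _) hL0.le
      _ = lam ^ (4/100 : ℝ) * (L * lam ^ (3/100 : ℝ)) := by rw [e2]; ring

/-- `X^p λ^e = ℓ^{p/2} λ^{s₀ p/2 + e}` for `ℓ = X² λ^{-s₀}` -/
theorem bp_Xpow {s0 lam X : ℝ} (hl0 : 0 < lam) (hX0 : 0 < X) (p e : ℝ) :
    X ^ p * lam ^ e = (X ^ (2:ℝ) * lam ^ (-s0)) ^ (p / 2) * lam ^ (s0 * (p / 2) + e) := by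
  rw [Real.mul_rpow (Real.rpow_nonneg hX0.le _) (Real.rpow_nonneg hl0.le _),
    ← Real.rpow_mul hX0.le, ← Real.rpow_mul hl0.le, mul_assoc, ← Real.rpow_add hl0]
  congr 2 <;> ring

/-- the monomial bound in the variables of (C18) -/
theorem bp_term {τ τ0 η ρ κ lam X Z L w : ℝ} (H : BpHyp τ τ0 η ρ κ lam X Z L w) (p e : ℝ)
    (hp1 : 2 ≤ p) (hp2 : p ≤ 6) (h1 : 7/100 ≤ (1/2 - τ - τ0) * (p / 2) + e)
    (h2 : 104/100 - (p / 2 - 1) / 2 ≤ (1/2 - τ - τ0) * (p / 2) + e) :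
    X ^ p * lam ^ e ≤ lam ^ (4/100 : ℝ) * bpP1 lam L := by
  have hl : 0 < X ^ (2:ℝ) * lam ^ (-(1/2 - τ - τ0)) :=
    mul_pos (Real.rpow_pos_of_pos H.X0 _) (Real.rpow_pos_of_pos H.lam0 _)
  have hlL : X ^ (2:ℝ) * lam ^ (-(1/2 - τ - τ0)) ≤ L := by
    refine le_trans ?_ H.L0
    exact le_mul_of_one_le_right hl.le H.Z1
  rw [bp_Xpow (s0 := 1/2 - τ - τ0) H.lam0 H.X0 p e]
  exact bp_mono H.lam0 H.lam1 hl hlL H.L1 (by linarith) (by linarith) h1 h2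

/-- `(a+b)^{5/3} ≤ 4 (a^{5/3} + b^{5/3})` -/
theorem bp_add_rpow {a b : ℝ} (ha : 0 ≤ a) (hb : 0 ≤ b) :
    (a + b) ^ (5/3 : ℝ) ≤ 4 * (a ^ (5/3 : ℝ) + b ^ (5/3 : ℝ)) := by
  have h2 : (2:ℝ) ^ (5/3 : ℝ) ≤ 4 := by
    calc (2:ℝ) ^ (5/3 : ℝ) ≤ (2:ℝ) ^ (2:ℝ) :=
          Real.rpow_le_rpow_of_exponent_le (by norm_num) (by norm_num)
      _ = 4 := by norm_num
  have hm : 0 ≤ max a b := le_max_of_le_left ha
  have h3 : (max a b) ^ (5/3 : ℝ) ≤ a ^ (5/3 : ℝ) + b ^ (5/3 : ℝ) := by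
    rcases le_total a b with h | h
    · rw [max_eq_right h]
      linarith [Real.rpow_nonneg ha (5/3 : ℝ)]
    · rw [max_eq_left h]
      linarith [Real.rpow_nonneg hb (5/3 : ℝ)]
  calc (a + b) ^ (5/3 : ℝ) ≤ (2 * max a b) ^ (5/3 : ℝ) := by
        apply Real.rpow_le_rpow (by linarith) _ (by norm_num)
        linarith [le_max_left a b, le_max_right a b]
    _ = (2:ℝ) ^ (5/3 : ℝ) * (max a b) ^ (5/3 : ℝ) := Real.mul_rpow (by norm_num) hm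
    _ ≤ 4 * (a ^ (5/3 : ℝ) + b ^ (5/3 : ℝ)) :=
        mul_le_mul h2 h3 (Real.rpow_nonneg hm _) (by norm_num)

/-- `(X^a λ^b)^c = X^{ac} λ^{bc}` -/
theorem bp_mon_pow {lam X : ℝ} (hl0 : 0 < lam) (hX0 : 0 < X) (a b c : ℝ) :
    (X ^ a * lam ^ b) ^ c = X ^ (a * c) * lam ^ (b * c) := by
  rw [Real.mul_rpow (Real.rpow_nonneg hX0.le _) (Real.rpow_nonneg hl0.le _),
    ← Real.rpow_mul hX0.le, ← Real.rpow_mul hl0.le]

/-- `X^a λ^b · X^c λ^d = X^{a+c} λ^{b+d}` -/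
theorem bp_mon_mul {lam X : ℝ} (hl0 : 0 < lam) (hX0 : 0 < X) (a b c d : ℝ) :
    (X ^ a * lam ^ b) * (X ^ c * lam ^ d) = X ^ (a + c) * lam ^ (b + d) := by
  rw [Real.rpow_add hX0, Real.rpow_add hl0]; ring

/-- (C18) a -/
theorem bud_BudC18a : BudC18a := by
  intro τ τ0 η ρ κ lam X Z L w H
  have hl0 := H.lam0
  have hX0 := H.X0
  have hw0 : 0 < w := lt_of_lt_of_le one_pos H.w0
  have hτ1 := H.τ1
  have hτ01 := H.τ01
  have hκ1 := H.κ1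
  have hτ0 := H.τ0'
  have hτ00 := H.τ00
  have hκ0 := H.κ0
  set R : ℝ := lam ^ (4/100 : ℝ) * bpP1 lam L with hR
  -- the six monomials
  have m1 : X ^ (4:ℝ) * lam ^ (-(2/100) : ℝ) ≤ R :=
    bp_term H 4 (-(2/100)) (by norm_num) (by norm_num) (by linarith) (by linarith)
  have m2 : X ^ (3:ℝ) * lam ^ ((1/2 - τ - τ0) - 1/40) ≤ R :=
    bp_term H 3 ((1/2 - τ - τ0) - 1/40) (by norm_num) (by norm_num) (by linarith) (by linarith)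
  have m3a : X ^ (4:ℝ) * lam ^ (-(2/100) - κ) ≤ R :=
    bp_term H 4 (-(2/100) - κ) (by norm_num) (by norm_num) (by linarith) (by linarith)
  have m3b : X ^ (15/4:ℝ) * lam ^ (105/1000 - κ) ≤ R :=
    bp_term H (15/4) (105/1000 - κ) (by norm_num) (by norm_num) (by linarith) (by linarith)
  have m4a : X ^ (11/3:ℝ) * lam ^ (-(1/100) - 1/120 - 5/3 * κ) ≤ R :=
    bp_term H (11/3) (-(1/100) - 1/120 - 5/3 * κ) (by norm_num) (by norm_num) (by linarith)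
      (by linarith)
  have m4b : X ^ (13/4:ℝ) * lam ^ (-(1/100) + 1/5 - 5/3 * κ) ≤ R :=
    bp_term H (13/4) (-(1/100) + 1/5 - 5/3 * κ) (by norm_num) (by norm_num) (by linarith)
      (by linarith)
  -- the pieces
  have eA2 : bpA lam X ^ (2:ℝ) = X ^ (4:ℝ) * lam ^ (-(2/100) : ℝ) := by
    unfold bpA
    rw [bp_mon_pow hl0 hX0]
    norm_num
  have eB2 : bpBf (1/2 - τ - τ0) lam X ^ (2:ℝ) = X ^ (3:ℝ) * lam ^ ((1/2 - τ - τ0) - 1/40) := by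
    unfold bpBf
    rw [bp_mon_pow hl0 hX0]
    congr 2 <;> ring
  have eA32 : bpA lam X ^ (3/2:ℝ) = X ^ (3:ℝ) * lam ^ (-(3/200) : ℝ) := by
    unfold bpA
    rw [bp_mon_pow hl0 hX0]
    norm_num
  set a : ℝ := X ^ (1:ℝ) * lam ^ (-(1/200) : ℝ) with ha
  set b : ℝ := X ^ (3/4 : ℝ) * lam ^ (12/100 : ℝ) with hb
  have ha0 : 0 < a := mul_pos (Real.rpow_pos_of_pos hX0 _) (Real.rpow_pos_of_pos hl0 _)
  have hb0 : 0 < b := mul_pos (Real.rpow_pos_of_pos hX0 _) (Real.rpow_pos_of_pos hl0 _)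
  have eY : bpY lam X w = w * (a + b) := by
    unfold bpY
    rw [ha, Real.rpow_one]
  have hY : bpY lam X w ≤ lam ^ (-κ) * (a + b) := by
    rw [eY]
    exact mul_le_mul_of_nonneg_right H.w1 (by positivity)
  have hY0 : 0 ≤ bpY lam X w := by rw [eY]; positivity
  have hY53 : bpY lam X w ^ (5/3 : ℝ)
      ≤ lam ^ (-(5/3 * κ)) * (4 * (a ^ (5/3 : ℝ) + b ^ (5/3 : ℝ))) := by
    calc bpY lam X w ^ (5/3 : ℝ) ≤ (lam ^ (-κ) * (a + b)) ^ (5/3 : ℝ) :=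
          Real.rpow_le_rpow hY0 hY (by norm_num)
      _ = lam ^ (-(5/3 * κ)) * (a + b) ^ (5/3 : ℝ) := by
          rw [Real.mul_rpow (Real.rpow_nonneg hl0.le _) (by positivity), ← Real.rpow_mul hl0.le]
          congr 2
          ring
      _ ≤ lam ^ (-(5/3 * κ)) * (4 * (a ^ (5/3 : ℝ) + b ^ (5/3 : ℝ))) :=
          mul_le_mul_of_nonneg_left (bp_add_rpow ha0.le hb0.le) (Real.rpow_nonneg hl0.le _)
  have t3 : bpA lam X ^ (3/2:ℝ) * bpY lam X w ≤ 2 * R := by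
    have e3a : (X ^ (3:ℝ) * lam ^ (-(3/200) : ℝ)) * (lam ^ (-κ) * a)
        = X ^ (4:ℝ) * lam ^ (-(2/100) - κ) := by
      rw [ha, show lam ^ (-κ) * (X ^ (1:ℝ) * lam ^ (-(1/200) : ℝ))
        = X ^ (1:ℝ) * lam ^ (-(1/200) - κ) by rw [sub_eq_add_neg, Real.rpow_add hl0]; ring,
        bp_mon_mul hl0 hX0]
      congr 2 <;> ring
    have e3b : (X ^ (3:ℝ) * lam ^ (-(3/200) : ℝ)) * (lam ^ (-κ) * b)
        = X ^ (15/4:ℝ) * lam ^ (105/1000 - κ) := by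
      rw [hb, show lam ^ (-κ) * (X ^ (3/4:ℝ) * lam ^ (12/100 : ℝ))
        = X ^ (3/4:ℝ) * lam ^ (12/100 - κ) by rw [sub_eq_add_neg, Real.rpow_add hl0]; ring,
        bp_mon_mul hl0 hX0]
      congr 2 <;> ring
    calc bpA lam X ^ (3/2:ℝ) * bpY lam X w
        ≤ (X ^ (3:ℝ) * lam ^ (-(3/200) : ℝ)) * (lam ^ (-κ) * (a + b)) := by
          rw [eA32]
          exact mul_le_mul_of_nonneg_left hY (by positivity)
      _ = (X ^ (3:ℝ) * lam ^ (-(3/200) : ℝ)) * (lam ^ (-κ) * a)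
          + (X ^ (3:ℝ) * lam ^ (-(3/200) : ℝ)) * (lam ^ (-κ) * b) := by ring
      _ ≤ 2 * R := by rw [e3a, e3b]; linarith
  have t4 : bpA lam X * bpY lam X w ^ (5/3 : ℝ) ≤ 8 * R := by
    have e4a : (X ^ (2:ℝ) * lam ^ (-(1/100) : ℝ)) * (lam ^ (-(5/3 * κ)) * a ^ (5/3 : ℝ))
        = X ^ (11/3:ℝ) * lam ^ (-(1/100) - 1/120 - 5/3 * κ) := by
      rw [ha, bp_mon_pow hl0 hX0, show lam ^ (-(5/3 * κ)) * (X ^ ((1:ℝ) * (5/3)) * lam ^ (-(1/200) * (5/3) : ℝ))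
        = X ^ ((1:ℝ) * (5/3)) * lam ^ (-(1/200) * (5/3) + -(5/3 * κ)) by
          rw [Real.rpow_add hl0]; ring,
        bp_mon_mul hl0 hX0]
      congr 2 <;> ring
    have e4b : (X ^ (2:ℝ) * lam ^ (-(1/100) : ℝ)) * (lam ^ (-(5/3 * κ)) * b ^ (5/3 : ℝ))
        = X ^ (13/4:ℝ) * lam ^ (-(1/100) + 1/5 - 5/3 * κ) := by
      rw [hb, bp_mon_pow hl0 hX0, show lam ^ (-(5/3 * κ)) * (X ^ ((3/4:ℝ) * (5/3)) * lam ^ ((12/100) * (5/3) : ℝ))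
        = X ^ ((3/4:ℝ) * (5/3)) * lam ^ ((12/100) * (5/3) + -(5/3 * κ)) by
          rw [Real.rpow_add hl0]; ring,
        bp_mon_mul hl0 hX0]
      congr 2 <;> ring
    calc bpA lam X * bpY lam X w ^ (5/3 : ℝ)
        ≤ (X ^ (2:ℝ) * lam ^ (-(1/100) : ℝ))
          * (lam ^ (-(5/3 * κ)) * (4 * (a ^ (5/3 : ℝ) + b ^ (5/3 : ℝ)))) := by
          unfold bpA
          exact mul_le_mul_of_nonneg_left hY53 (by positivity)
      _ = 4 * ((X ^ (2:ℝ) * lam ^ (-(1/100) : ℝ)) * (lam ^ (-(5/3 * κ)) * a ^ (5/3 : ℝ)))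
          + 4 * ((X ^ (2:ℝ) * lam ^ (-(1/100) : ℝ)) * (lam ^ (-(5/3 * κ)) * b ^ (5/3 : ℝ))) := by
          ring
      _ ≤ 8 * R := by rw [e4a, e4b]; linarith
  have hR0 : 0 ≤ R := le_trans (by positivity) m1
  unfold bpT2
  rw [eA2, eB2, mul_assoc, ← hR]
  linarith

end Claimed.Agent.R286
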