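import Claimed.Agent.R286.Bud.PowA

/-!
# Row 286, LL sec. 7: the strict power margin (C18) b:  `A T₁, X³ A Λ^{-1/3} λ^{-1/6}, λ^{-2ρ} A³ ≪ P₁`

Same method as (C18) a: every monomial is `X^p λ^e`, bounded by `bp_term`.
-/

set_option autoImplicit false

namespace Claimed.Agent.R286

/-- `(a+b)^2 ≤ 2 (a^2 + b^2)` with real exponents -/
theorem bp_add_rpow_two {a b : ℝ} :
    (a + b) ^ (2 : ℝ) ≤ 2 * (a ^ (2 : ℝ) + b ^ (2 : ℝ)) := by
  rw [Real.rpow_two, Real.rpow_two, Real.rpow_two]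
  nlinarith [sq_nonneg (a - b)]

/-- (C18) b -/
theorem bud_BudC18b : BudC18b := by
  intro τ τ0 η ρ κ lam X Z L w H
  have hl0 := H.lam0
  have hX0 := H.X0
  have hw0 : 0 < w := lt_of_lt_of_le one_pos H.w0
  have hτ1 := H.τ1
  have hτ01 := H.τ01
  have hκ1 := H.κ1
  have hτ0 := H.τ0'
  have hτ00 := H.τ00
  have hκ0 := H.κ0
  have hρ0 := H.ρ0
  have hρ1 := H.ρ1
  set R : ℝ := lam ^ (4/100 : ℝ) * bpP1 lam L with hR
  have m1 : X ^ (4:ℝ) * lam ^ (-(2/100) : ℝ) ≤ R :=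
    bp_term H 4 (-(2/100)) (by norm_num) (by norm_num) (by linarith) (by linarith)
  have hR0 : 0 ≤ R := le_trans (by positivity) m1
  refine ⟨?_, ?_, ?_⟩
  · have m2 : X ^ (7/2:ℝ) * lam ^ (-(1/100) + ((1/2 - τ - τ0) / 2 - 1/80)) ≤ R :=
      bp_term H (7/2) (-(1/100) + ((1/2 - τ - τ0) / 2 - 1/80)) (by norm_num) (by norm_num)
        (by linarith) (by linarith)
    have m3a : X ^ (4:ℝ) * lam ^ (-(2/100) - 2 * κ) ≤ R :=
      bp_term H 4 (-(2/100) - 2 * κ) (by norm_num) (by norm_num) (by linarith) (by linarith)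
    have m3b : X ^ (7/2:ℝ) * lam ^ (23/100 - 2 * κ) ≤ R :=
      bp_term H (7/2) (23/100 - 2 * κ) (by norm_num) (by norm_num) (by linarith) (by linarith)
    have eAA : bpA lam X * bpA lam X = X ^ (4:ℝ) * lam ^ (-(2/100) : ℝ) := by
      unfold bpA
      rw [bp_mon_mul hl0 hX0]
      norm_num
    have eAB : bpA lam X * bpBf (1/2 - τ - τ0) lam X
        = X ^ (7/2:ℝ) * lam ^ (-(1/100) + ((1/2 - τ - τ0) / 2 - 1/80)) := by
      unfold bpA bpBf
      rw [bp_mon_mul hl0 hX0]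
      norm_num
    set a : ℝ := X ^ (1:ℝ) * lam ^ (-(1/200) : ℝ) with ha
    set b : ℝ := X ^ (3/4 : ℝ) * lam ^ (12/100 : ℝ) with hb
    have ha0 : 0 < a := mul_pos (Real.rpow_pos_of_pos hX0 _) (Real.rpow_pos_of_pos hl0 _)
    have hb0 : 0 < b := mul_pos (Real.rpow_pos_of_pos hX0 _) (Real.rpow_pos_of_pos hl0 _)
    have eY : bpY lam X w = w * (a + b) := by
      unfold bpY
      rw [ha, Real.rpow_one]
    have hY : bpY lam X w ≤ lam ^ (-κ) * (a + b) := by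
      rw [eY]
      exact mul_le_mul_of_nonneg_right H.w1 (by positivity)
    have hY0 : 0 ≤ bpY lam X w := by rw [eY]; positivity
    have hY2 : bpY lam X w ^ (2 : ℝ)
        ≤ lam ^ (-(2 * κ)) * (2 * (a ^ (2 : ℝ) + b ^ (2 : ℝ))) := by
      calc bpY lam X w ^ (2 : ℝ) ≤ (lam ^ (-κ) * (a + b)) ^ (2 : ℝ) :=
            Real.rpow_le_rpow hY0 hY (by norm_num)
        _ = lam ^ (-(2 * κ)) * (a + b) ^ (2 : ℝ) := by
            rw [Real.mul_rpow (Real.rpow_nonneg hl0.le _) (by positivity), ← Real.rpow_mul hl0.le]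
            congr 2
            ring
        _ ≤ lam ^ (-(2 * κ)) * (2 * (a ^ (2 : ℝ) + b ^ (2 : ℝ))) :=
            mul_le_mul_of_nonneg_left bp_add_rpow_two (Real.rpow_nonneg hl0.le _)
    have t3 : bpA lam X * bpY lam X w ^ (2 : ℝ) ≤ 4 * R := by
      have e4a : (X ^ (2:ℝ) * lam ^ (-(1/100) : ℝ)) * (lam ^ (-(2 * κ)) * a ^ (2 : ℝ))
          = X ^ (4:ℝ) * lam ^ (-(2/100) - 2 * κ) := by
        rw [ha, bp_mon_pow hl0 hX0,
          show lam ^ (-(2 * κ)) * (X ^ ((1:ℝ) * 2) * lam ^ (-(1/200) * 2 : ℝ))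
            = X ^ ((1:ℝ) * 2) * lam ^ (-(1/200) * 2 + -(2 * κ)) by
            rw [Real.rpow_add hl0]; ring,
          bp_mon_mul hl0 hX0]
        congr 2 <;> ring
      have e4b : (X ^ (2:ℝ) * lam ^ (-(1/100) : ℝ)) * (lam ^ (-(2 * κ)) * b ^ (2 : ℝ))
          = X ^ (7/2:ℝ) * lam ^ (23/100 - 2 * κ) := by
        rw [hb, bp_mon_pow hl0 hX0,
          show lam ^ (-(2 * κ)) * (X ^ ((3/4:ℝ) * 2) * lam ^ ((12/100) * 2 : ℝ))
            = X ^ ((3/4:ℝ) * 2) * lam ^ ((12/100) * 2 + -(2 * κ)) by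
            rw [Real.rpow_add hl0]; ring,
          bp_mon_mul hl0 hX0]
        congr 2 <;> ring
      calc bpA lam X * bpY lam X w ^ (2 : ℝ)
          ≤ (X ^ (2:ℝ) * lam ^ (-(1/100) : ℝ))
            * (lam ^ (-(2 * κ)) * (2 * (a ^ (2 : ℝ) + b ^ (2 : ℝ)))) := by
            unfold bpA
            exact mul_le_mul_of_nonneg_left hY2 (by positivity)
        _ = 2 * ((X ^ (2:ℝ) * lam ^ (-(1/100) : ℝ)) * (lam ^ (-(2 * κ)) * a ^ (2 : ℝ)))
            + 2 * ((X ^ (2:ℝ) * lam ^ (-(1/100) : ℝ)) * (lam ^ (-(2 * κ)) * b ^ (2 : ℝ))) := by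
            ring
        _ ≤ 4 * R := by rw [e4a, e4b]; linarith
    unfold bpT1
    rw [mul_add, mul_add, eAA, eAB, mul_assoc, ← hR]
    linarith
  · have m : X ^ (5:ℝ) * lam ^ (-(1/100) + (-(1/100) - 1/6) : ℝ) ≤ R :=
      bp_term H 5 (-(1/100) + (-(1/100) - 1/6)) (by norm_num) (by norm_num) (by linarith)
        (by linarith)
    have e : X ^ (3:ℝ) * bpA lam X * lam ^ (-(1/100) - 1/6 : ℝ)
        = X ^ (5:ℝ) * lam ^ (-(1/100) + (-(1/100) - 1/6) : ℝ) := by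
      unfold bpA
      rw [Real.rpow_add hl0, show (5:ℝ) = 3 + 2 by norm_num, Real.rpow_add hX0]
      ring
    rw [e, mul_assoc, ← hR]
    linarith
  · have m : X ^ (6:ℝ) * lam ^ (-(3/100) - 2 * ρ) ≤ R :=
      bp_term H 6 (-(3/100) - 2 * ρ) (by norm_num) (by norm_num) (by linarith) (by linarith)
    have e : lam ^ (-(2 * ρ)) * bpA lam X ^ (3:ℝ) = X ^ (6:ℝ) * lam ^ (-(3/100) - 2 * ρ) := by
      unfold bpA
      rw [bp_mon_pow hl0 hX0, sub_eq_add_neg, Real.rpow_add hl0]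
      norm_num
      ring
    rw [e, mul_assoc, ← hR]
    linarith

end Claimed.Agent.R286
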