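import Claimed.Agent.R286.Bud.Pow

/-!
# Row 286, LL sec. 7, node N16: proof of `BudC18c`   (owner helper25)

`λ^{0.06} T₁, L T₁ ≪ G₁`.  Everything is written as `exp` of an affine form in the logarithms
`a = log λ ≤ 0`, `b = log X`, `l = log L`, `ω = log Z`, `σ = log w`.
-/

set_option autoImplicit false

namespace Claimed.Agent.R286

theorem bpc_G1_exp (a l : ℝ) :
    bpG1 (Real.exp a) (Real.exp l) = Real.exp (min (max (l * 2) a) (a * (3/100))) := by
  unfold bpG1 bpLam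
  rw [Real.exp_monotone.map_min, Real.exp_monotone.map_max, ← Real.exp_mul, ← Real.exp_mul]

theorem bpc_A_exp (a b : ℝ) : bpA (Real.exp a) (Real.exp b) = Real.exp (2 * b - a / 100) := by
  unfold bpA
  simp only [← Real.exp_mul, ← Real.exp_add]
  congr 1; ring

theorem bpc_Bf_exp (s0 a b : ℝ) :
    bpBf s0 (Real.exp a) (Real.exp b) = Real.exp (3 / 2 * b + (s0 / 2 - 1 / 80) * a) := by
  unfold bpBf
  simp only [← Real.exp_mul, ← Real.exp_add]
  congr 1; ring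

theorem bpc_Y_le (a b σ : ℝ) :
    bpY (Real.exp a) (Real.exp b) (Real.exp σ)
      ≤ 2 * Real.exp (σ + max (b - a / 200) (3 / 4 * b + 12 / 100 * a)) := by
  unfold bpY
  have h1 : Real.exp b * (Real.exp a) ^ (-(1/200) : ℝ) = Real.exp (b - a / 200) := by
    simp only [← Real.exp_mul, ← Real.exp_add]
    congr 1; ring
  have h2 : (Real.exp b) ^ (3/4 : ℝ) * (Real.exp a) ^ (12/100 : ℝ)
      = Real.exp (3 / 4 * b + 12 / 100 * a) := by
    simp only [← Real.exp_mul, ← Real.exp_add]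
    congr 1; ring
  rw [h1, h2, Real.exp_add σ, Real.exp_monotone.map_max]
  have := le_max_left (Real.exp (b - a / 200)) (Real.exp (3 / 4 * b + 12 / 100 * a))
  have := le_max_right (Real.exp (b - a / 200)) (Real.exp (3 / 4 * b + 12 / 100 * a))
  have hp := Real.exp_pos σ
  nlinarith

theorem bpc_Y_nonneg (a b σ : ℝ) : 0 ≤ bpY (Real.exp a) (Real.exp b) (Real.exp σ) := by
  unfold bpY; positivity

theorem bpc_Ysq_le (a b σ : ℝ) :
    bpY (Real.exp a) (Real.exp b) (Real.exp σ) ^ (2:ℝ)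
      ≤ 4 * Real.exp (2 * (σ + max (b - a / 200) (3 / 4 * b + 12 / 100 * a))) := by
  have h := bpc_Y_le a b σ
  have h0 := bpc_Y_nonneg a b σ
  rw [Real.rpow_two]
  calc bpY (Real.exp a) (Real.exp b) (Real.exp σ) ^ 2
      ≤ (2 * Real.exp (σ + max (b - a / 200) (3 / 4 * b + 12 / 100 * a))) ^ 2 :=
        pow_le_pow_left₀ h0 h 2
    _ = 4 * Real.exp (2 * (σ + max (b - a / 200) (3 / 4 * b + 12 / 100 * a))) := by
        rw [mul_pow, ← Real.exp_nat_mul]; norm_num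

set_option maxHeartbeats 1000000 in
/-- the affine inequalities behind `BudC18c` -/
theorem bpc_lin {a b l ω σ τ τ0 κ y g : ℝ} (ha : a ≤ 0)
    (hτ : 0 ≤ τ) (hτ' : τ ≤ 1/10000) (hτ0 : 0 ≤ τ0) (hτ0' : τ0 ≤ 1/10000)
    (hκ : 0 ≤ κ) (hκ' : κ ≤ 1/10000)
    (hb : b ≤ ((1/2 - τ)/2 - κ) * a) (hσ : σ ≤ -κ * a) (hω : 0 ≤ ω)
    (hl : 2*b - (1/2 - τ - τ0) * a + ω ≤ l) (hl0 : l ≤ 0)
    (hy : y = σ + max (b - a/200) (3/4*b + 12/100*a))
    (hg : g = min (max (l*2) a) (a*(3/100))) :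
    (6/100*a + (2*b - a/100) ≤ 4/100*a + g) ∧
    (6/100*a + (3/2*b + ((1/2 - τ - τ0)/2 - 1/80)*a) ≤ 4/100*a + g) ∧
    (6/100*a + 2*y ≤ 4/100*a + g) ∧
    (l + (2*b - a/100) ≤ 4/100*a + g) ∧
    (l + (3/2*b + ((1/2 - τ - τ0)/2 - 1/80)*a) ≤ 4/100*a + g) ∧
    (l + 2*y ≤ 4/100*a + g) := by
  have t1 : 0 ≤ τ * (-a) := mul_nonneg hτ (by linarith)
  have t1' : τ * (-a) ≤ 1/10000 * (-a) := mul_le_mul_of_nonneg_right hτ' (by linarith)
  have t2 : 0 ≤ τ0 * (-a) := mul_nonneg hτ0 (by linarith)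
  have t2' : τ0 * (-a) ≤ 1/10000 * (-a) := mul_le_mul_of_nonneg_right hτ0' (by linarith)
  have t5 : 0 ≤ κ * (-a) := mul_nonneg hκ (by linarith)
  have t5' : κ * (-a) ≤ 1/10000 * (-a) := mul_le_mul_of_nonneg_right hκ' (by linarith)
  have hgc : (l*2 ≤ a ∧ g = a) ∨ (a ≤ l*2 ∧ l*2 ≤ a*(3/100) ∧ g = l*2) ∨
      (a*(3/100) ≤ l*2 ∧ g = a*(3/100)) := by
    rcases le_total (l*2) a with h2 | h2
    · left; refine ⟨h2, ?_⟩
      rw [hg, max_eq_right h2, min_eq_left (by linarith)]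
    · rcases le_total (l*2) (a*(3/100)) with h3 | h3
      · right; left; refine ⟨h2, h3, ?_⟩
        rw [hg, max_eq_left h2, min_eq_left h3]
      · right; right; refine ⟨h3, ?_⟩
        rw [hg, max_eq_left h2, min_eq_right h3]
  have hyc : (b - a/200 ≤ 3/4*b + 12/100*a ∧ y = σ + (3/4*b + 12/100*a)) ∨
      (3/4*b + 12/100*a ≤ b - a/200 ∧ y = σ + (b - a/200)) := by
    rcases le_total (b - a/200) (3/4*b + 12/100*a) with h1 | h1
    · left; exact ⟨h1, by rw [hy, max_eq_right h1]⟩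
    · right; exact ⟨h1, by rw [hy, max_eq_left h1]⟩
  clear hy hg
  rcases hyc with ⟨h1, rfl⟩ | ⟨h1, rfl⟩ <;>
  rcases hgc with ⟨h2, rfl⟩ | ⟨h2, h3, rfl⟩ | ⟨h2, rfl⟩ <;>
  refine ⟨?_, ?_, ?_, ?_, ?_, ?_⟩ <;> linarith

theorem bud_BudC18c : BudC18c := by
  intro τ τ0 η ρ κ lam X Z L w H
  have hZ0 : 0 < Z := lt_of_lt_of_le one_pos H.Z1
  have hw0 : 0 < w := lt_of_lt_of_le one_pos H.w0
  have hL0 : 0 < L := lt_of_lt_of_le
    (mul_pos (mul_pos (Real.rpow_pos_of_pos H.X0 _) (Real.rpow_pos_of_pos H.lam0 _)) hZ0) H.L0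
  obtain ⟨a, rfl⟩ : ∃ a, lam = Real.exp a := ⟨Real.log lam, (Real.exp_log H.lam0).symm⟩
  obtain ⟨b, rfl⟩ : ∃ b, X = Real.exp b := ⟨Real.log X, (Real.exp_log H.X0).symm⟩
  obtain ⟨l, rfl⟩ : ∃ l, L = Real.exp l := ⟨Real.log L, (Real.exp_log hL0).symm⟩
  obtain ⟨ω, rfl⟩ : ∃ ω, Z = Real.exp ω := ⟨Real.log Z, (Real.exp_log hZ0).symm⟩
  obtain ⟨σ, rfl⟩ : ∃ σ, w = Real.exp σ := ⟨Real.log w, (Real.exp_log hw0).symm⟩
  have ha : a ≤ 0 := by
    have := H.lam1; rwa [← Real.exp_zero, Real.exp_le_exp] at this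
  have hl0 : l ≤ 0 := by
    have := H.L1; rwa [← Real.exp_zero, Real.exp_le_exp] at this
  have hω : 0 ≤ ω := by
    have := H.Z1; rwa [← Real.exp_zero, Real.exp_le_exp] at this
  have hb : b ≤ ((1/2 - τ)/2 - κ) * a := by
    have := H.X1
    rw [← Real.exp_mul, Real.exp_le_exp] at this
    linarith
  have hσ : σ ≤ -κ * a := by
    have := H.w1
    rw [← Real.exp_mul, Real.exp_le_exp] at this
    linarith
  have hl : 2*b - (1/2 - τ - τ0) * a + ω ≤ l := by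
    have := H.L0
    simp only [← Real.exp_mul, ← Real.exp_add] at this
    rw [Real.exp_le_exp] at this
    linarith
  obtain ⟨e1, e2, e3, e4, e5, e6⟩ := bpc_lin ha H.τ0' H.τ1 H.τ00 H.τ01 H.κ0 H.κ1 hb hσ hω hl hl0
    rfl rfl
  set y := σ + max (b - a/200) (3/4*b + 12/100*a) with hy
  set g := min (max (l*2) a) (a*(3/100)) with hg
  have hT1 : bpT1 (1/2 - τ - τ0) (Real.exp a) (Real.exp b) (Real.exp σ)
      ≤ Real.exp (2 * b - a / 100) + Real.exp (3 / 2 * b + ((1/2 - τ - τ0) / 2 - 1 / 80) * a)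
        + 4 * Real.exp (2 * y) := by
    unfold bpT1
    rw [bpc_A_exp, bpc_Bf_exp]
    have : bpY (Real.exp a) (Real.exp b) (Real.exp σ) ^ (2:ℝ) ≤ 4 * Real.exp (2 * y) :=
      bpc_Ysq_le a b σ
    linarith
  rw [bpc_G1_exp, ← Real.exp_mul, ← Real.exp_mul]
  have hR : (16:ℝ) * Real.exp (a * (4/100)) * Real.exp g = 16 * Real.exp (4/100*a + g) := by
    rw [mul_assoc, ← Real.exp_add]; congr 2; ring
  rw [hR]
  constructor
  · have k1 : Real.exp (a * (6/100)) * Real.exp (2 * b - a / 100) ≤ Real.exp (4/100*a + g) := by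
      rw [← Real.exp_add, Real.exp_le_exp]; linarith
    have k2 : Real.exp (a * (6/100)) * Real.exp (3 / 2 * b + ((1/2 - τ - τ0) / 2 - 1 / 80) * a)
        ≤ Real.exp (4/100*a + g) := by
      rw [← Real.exp_add, Real.exp_le_exp]; linarith
    have k3 : Real.exp (a * (6/100)) * Real.exp (2 * y) ≤ Real.exp (4/100*a + g) := by
      rw [← Real.exp_add, Real.exp_le_exp]; linarith
    have hp := Real.exp_pos (4/100*a + g)
    calc Real.exp (a * (6/100)) * bpT1 (1/2 - τ - τ0) (Real.exp a) (Real.exp b) (Real.exp σ)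
        ≤ Real.exp (a * (6/100)) * (Real.exp (2 * b - a / 100)
          + Real.exp (3 / 2 * b + ((1/2 - τ - τ0) / 2 - 1 / 80) * a) + 4 * Real.exp (2 * y)) :=
          mul_le_mul_of_nonneg_left hT1 (Real.exp_pos _).le
      _ ≤ 16 * Real.exp (4/100*a + g) := by nlinarith
  · have k1 : Real.exp l * Real.exp (2 * b - a / 100) ≤ Real.exp (4/100*a + g) := by
      rw [← Real.exp_add, Real.exp_le_exp]; linarith
    have k2 : Real.exp l * Real.exp (3 / 2 * b + ((1/2 - τ - τ0) / 2 - 1 / 80) * a)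
        ≤ Real.exp (4/100*a + g) := by
      rw [← Real.exp_add, Real.exp_le_exp]; linarith
    have k3 : Real.exp l * Real.exp (2 * y) ≤ Real.exp (4/100*a + g) := by
      rw [← Real.exp_add, Real.exp_le_exp]; linarith
    have hp := Real.exp_pos (4/100*a + g)
    calc Real.exp l * bpT1 (1/2 - τ - τ0) (Real.exp a) (Real.exp b) (Real.exp σ)
        ≤ Real.exp l * (Real.exp (2 * b - a / 100)
          + Real.exp (3 / 2 * b + ((1/2 - τ - τ0) / 2 - 1 / 80) * a) + 4 * Real.exp (2 * y)) :=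
          mul_le_mul_of_nonneg_left hT1 (Real.exp_pos _).le
      _ ≤ 16 * Real.exp (4/100*a + g) := by nlinarith

end Claimed.Agent.R286
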