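import Claimed.Agent.R286.Bud.Pow

/-!
# Row 286, LL sec. 7: further exponent arithmetic of l.1151-2253, Defs-free      (owner helper25; prefix `bpe_`)

Ready-made power accounting for the nodes N10-N19 (same variables as `Bud/Pow.lean`).
* `bpe_penalty`        l.1215: `C₀ κ_j u σ² ≤ C² x⁴ u Λ^{1/3} Z²`
* `bpe_kap_le`         (C5)/(C11): `κ_j = (A/a_{j-1})² ≤ λ^{2 s₀} Λ^{-2/3}` as soon as `a_goal ≤ a_{j-1}`
* `bpe_A_le_L`         `A ≤ λ^{s₀ - 1/100} L`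
* `bpe_pref`           l.1510: `(A/L)^{3/2} κ_j^{-1/2} ≤ λ^{0.18}`
* `bpe_box2`           l.1555: `t' + (A/L)³/(κ_j t') + A³/L² ≤ 3 λ^{0.14}`
* `bpe_sync`           l.1530: `A^{3/2}/√L ≤ λ^{0.7} L`
* `bpe_seed`           l.1352: `X³ λ^{1+η-3s_*/2} ≤ λ^{0.2} P₁`
* `bpe_wc3`            l.1380: `y_c³ ≤ 8 λ^{0.7} L`
* `bpe_G1_ge`          l.1725: `√λ L ≤ G₁`
* `bpe_m2`             l.2012: `λ^{0.14} L (L + λ) ≤ 2 λ^{0.11} G₁`
* `bpe_ratio`          l.2016: `u³ P₁/(d₀ h₁²) = G₁/max(L², λ)`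
* `bpe_rec`            l.1518: the recurrence `Q_{k+1} ≤ C (1 + λ^{0.1} √Q_k)`
* `bpStage`, `bpe_stage_*`   (C11): monotone, `≥ a_goal`, closed bound, reaches `a_goal` after finitely many steps
-/

set_option autoImplicit false

namespace Claimed.Agent.R286

/-! ### the envelope penalty -/

/-- l.1215: with `C₀ = u² Λ`, `κ = (A/a)²`, `A = X² Λ^{-1/3}`, `X = x/u`, `σ ≤ C u a Z`. -/
theorem bpe_penalty {x u Lm a Z σ C : ℝ} (hx : 0 < x) (hu : 0 < u) (hLm : 0 < Lm) (ha : 0 < a)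
    (hσ0 : 0 ≤ σ) (hσ : σ ≤ C * u * a * Z) :
    (u ^ 2 * Lm) * (((x / u) ^ 2 * Lm ^ (-(1/3) : ℝ)) / a) ^ 2 * u * σ ^ 2
      ≤ C ^ 2 * (x ^ 4 * u * Lm ^ (1/3 : ℝ) * Z ^ 2) := by
  have h1 : σ ^ 2 ≤ (C * u * a * Z) ^ 2 := pow_le_pow_left₀ hσ0 hσ 2
  have hL : Lm * (Lm ^ (-(1/3) : ℝ)) ^ 2 = Lm ^ (1/3 : ℝ) := by
    rw [← Real.rpow_natCast (Lm ^ (-(1/3) : ℝ)) 2, ← Real.rpow_mul hLm.le]
    nth_rewrite 1 [← Real.rpow_one Lm]
    rw [← Real.rpow_add hLm]; norm_num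
  have hc : 0 ≤ (u ^ 2 * Lm) * (((x / u) ^ 2 * Lm ^ (-(1/3) : ℝ)) / a) ^ 2 * u := by positivity
  calc (u ^ 2 * Lm) * (((x / u) ^ 2 * Lm ^ (-(1/3) : ℝ)) / a) ^ 2 * u * σ ^ 2
      ≤ (u ^ 2 * Lm) * (((x / u) ^ 2 * Lm ^ (-(1/3) : ℝ)) / a) ^ 2 * u * (C * u * a * Z) ^ 2 :=
        mul_le_mul_of_nonneg_left h1 hc
    _ = C ^ 2 * (x ^ 4 * u * (Lm * (Lm ^ (-(1/3) : ℝ)) ^ 2) * Z ^ 2) := by
        field_simp
    _ = C ^ 2 * (x ^ 4 * u * Lm ^ (1/3 : ℝ) * Z ^ 2) := by rw [hL]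

/-! ### monomial bounds -/

/-- `κ_j = (A/a_{j-1})² ≤ λ^{2 s₀} Λ^{-2/3}` as soon as `a_goal = X² λ^{-s₀} ≤ a_{j-1}` -/
theorem bpe_kap_le {s0 lam X a : ℝ} (hlam : 0 < lam) (hX : 0 < X)
    (ha : X ^ (2:ℝ) * lam ^ (-s0) ≤ a) :
    (bpA lam X / a) ^ (2:ℝ) ≤ lam ^ (2 * s0) * bpLam lam ^ (-(2/3) : ℝ) := by
  have ha0 : 0 < a := lt_of_lt_of_le (by positivity) ha
  obtain ⟨α, rfl⟩ : ∃ α, lam = Real.exp α := ⟨Real.log lam, (Real.exp_log hlam).symm⟩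
  obtain ⟨b, rfl⟩ : ∃ b, X = Real.exp b := ⟨Real.log X, (Real.exp_log hX).symm⟩
  obtain ⟨c, rfl⟩ : ∃ c, a = Real.exp c := ⟨Real.log a, (Real.exp_log ha0).symm⟩
  unfold bpA bpLam
  simp only [← Real.exp_mul, ← Real.exp_add, ← Real.exp_sub] at ha ⊢
  rw [Real.exp_le_exp] at ha ⊢
  linarith

/-- `A ≤ λ^{s₀ - 1/100} L` as soon as `a_goal ≤ L` -/
theorem bpe_A_le_L {s0 lam X L : ℝ} (hlam : 0 < lam)
    (hL : X ^ (2:ℝ) * lam ^ (-s0) ≤ L) :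
    bpA lam X ≤ lam ^ (s0 - 1/100) * L := by
  have h : bpA lam X = lam ^ (s0 - 1/100) * (X ^ (2:ℝ) * lam ^ (-s0)) := by
    unfold bpA
    rw [mul_left_comm, ← Real.rpow_add hlam]; congr 2; ring
  rw [h]
  exact mul_le_mul_of_nonneg_left hL (Real.rpow_pos_of_pos hlam _).le

/-- l.1510: `(A/L)^{3/2} κ^{-1/2} ≤ λ^{0.18}` for `κ = (A/a)²`, `L ≥ λ^{-0.12} A^{1/3} a^{2/3}` -/
theorem bpe_pref {lam A a L : ℝ} (hlam : 0 < lam) (hA : 0 < A) (ha : 0 < a)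
    (hL : lam ^ (-(12/100) : ℝ) * A ^ (1/3 : ℝ) * a ^ (2/3 : ℝ) ≤ L) :
    (A / L) ^ (3/2 : ℝ) * ((A / a) ^ (2:ℝ)) ^ (-(1/2) : ℝ) ≤ lam ^ (18/100 : ℝ) := by
  have hL0 : 0 < L := lt_of_lt_of_le (by positivity) hL
  obtain ⟨α, rfl⟩ : ∃ α, lam = Real.exp α := ⟨Real.log lam, (Real.exp_log hlam).symm⟩
  obtain ⟨b, rfl⟩ : ∃ b, A = Real.exp b := ⟨Real.log A, (Real.exp_log hA).symm⟩
  obtain ⟨c, rfl⟩ : ∃ c, a = Real.exp c := ⟨Real.log a, (Real.exp_log ha).symm⟩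
  obtain ⟨l, rfl⟩ : ∃ l, L = Real.exp l := ⟨Real.log L, (Real.exp_log hL0).symm⟩
  simp only [← Real.exp_mul, ← Real.exp_add, ← Real.exp_sub] at hL ⊢
  rw [Real.exp_le_exp] at hL ⊢
  linarith

/-- l.1530: `A^{3/2}/√L ≤ λ^{0.7} L` under the hypotheses of (C18) -/
theorem bpe_sync {τ τ0 η ρ κ lam X Z L w : ℝ} (H : BpHyp τ τ0 η ρ κ lam X Z L w) :
    bpA lam X ^ (3/2 : ℝ) * L ^ (-(1/2) : ℝ) ≤ lam ^ (7/10 : ℝ) * L := by
  have hZ0 : 0 < Z := lt_of_lt_of_le one_pos H.Z1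
  have hL0 : 0 < L := lt_of_lt_of_le
    (mul_pos (mul_pos (Real.rpow_pos_of_pos H.X0 _) (Real.rpow_pos_of_pos H.lam0 _)) hZ0) H.L0
  obtain ⟨h0, h1, h2, h3, hl1, hX0, hlam0, hL⟩ := And.intro H.τ0' (And.intro H.τ1 (And.intro H.τ00
    (And.intro H.τ01 (And.intro H.lam1 (And.intro H.X0 (And.intro H.lam0 H.L0))))))
  have hZ1 := H.Z1
  clear H
  obtain ⟨a, rfl⟩ : ∃ a, lam = Real.exp a := ⟨Real.log lam, (Real.exp_log hlam0).symm⟩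
  obtain ⟨b, rfl⟩ : ∃ b, X = Real.exp b := ⟨Real.log X, (Real.exp_log hX0).symm⟩
  obtain ⟨l, rfl⟩ : ∃ l, L = Real.exp l := ⟨Real.log L, (Real.exp_log hL0).symm⟩
  obtain ⟨ω, rfl⟩ : ∃ ω, Z = Real.exp ω := ⟨Real.log Z, (Real.exp_log hZ0).symm⟩
  have ha : a ≤ 0 := by rwa [← Real.exp_zero, Real.exp_le_exp] at hl1
  have hω : 0 ≤ ω := by rwa [← Real.exp_zero, Real.exp_le_exp] at hZ1
  unfold bpA
  simp only [← Real.exp_mul, ← Real.exp_add] at hL ⊢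
  rw [Real.exp_le_exp] at hL ⊢
  have t1 : τ * (-a) ≤ 1/10000 * (-a) := mul_le_mul_of_nonneg_right h1 (by linarith)
  have t2 : τ0 * (-a) ≤ 1/10000 * (-a) := mul_le_mul_of_nonneg_right h3 (by linarith)
  nlinarith


/-- the logarithmic form of `BpHyp` -/
theorem bpe_logs {τ τ0 η ρ κ lam X Z L w : ℝ} (H : BpHyp τ τ0 η ρ κ lam X Z L w) :
    ∃ a b l ω σ : ℝ, lam = Real.exp a ∧ X = Real.exp b ∧ L = Real.exp l ∧ Z = Real.exp ω ∧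
      w = Real.exp σ ∧ a ≤ 0 ∧ l ≤ 0 ∧ 0 ≤ ω ∧ 0 ≤ σ ∧ b ≤ ((1/2 - τ)/2 - κ) * a ∧ σ ≤ -κ * a ∧
      2*b - (1/2 - τ - τ0) * a + ω ≤ l ∧
      0 ≤ τ * (-a) ∧ τ * (-a) ≤ 1/10000 * (-a) ∧ 0 ≤ τ0 * (-a) ∧ τ0 * (-a) ≤ 1/10000 * (-a) ∧
      0 ≤ η * (-a) ∧ η * (-a) ≤ 1/10000 * (-a) ∧ 0 ≤ ρ * (-a) ∧ ρ * (-a) ≤ 1/1000 * (-a) ∧
      0 ≤ κ * (-a) ∧ κ * (-a) ≤ 1/10000 * (-a) := by
  have hZ0 : 0 < Z := lt_of_lt_of_le one_pos H.Z1
  have hw0 : 0 < w := lt_of_lt_of_le one_pos H.w0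
  have hL0 : 0 < L := lt_of_lt_of_le
    (mul_pos (mul_pos (Real.rpow_pos_of_pos H.X0 _) (Real.rpow_pos_of_pos H.lam0 _)) hZ0) H.L0
  obtain ⟨a, rfl⟩ : ∃ a, lam = Real.exp a := ⟨Real.log lam, (Real.exp_log H.lam0).symm⟩
  obtain ⟨b, rfl⟩ : ∃ b, X = Real.exp b := ⟨Real.log X, (Real.exp_log H.X0).symm⟩
  obtain ⟨l, rfl⟩ : ∃ l, L = Real.exp l := ⟨Real.log L, (Real.exp_log hL0).symm⟩
  obtain ⟨ω, rfl⟩ : ∃ ω, Z = Real.exp ω := ⟨Real.log Z, (Real.exp_log hZ0).symm⟩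
  obtain ⟨σ, rfl⟩ : ∃ σ, w = Real.exp σ := ⟨Real.log w, (Real.exp_log hw0).symm⟩
  have ha : a ≤ 0 := by
    have := H.lam1; rwa [← Real.exp_zero, Real.exp_le_exp] at this
  have hl0 : l ≤ 0 := by
    have := H.L1; rwa [← Real.exp_zero, Real.exp_le_exp] at this
  have hω : 0 ≤ ω := by
    have := H.Z1; rwa [← Real.exp_zero, Real.exp_le_exp] at this
  have hσ0 : 0 ≤ σ := by
    have := H.w0; rwa [← Real.exp_zero, Real.exp_le_exp] at this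
  have hb : b ≤ ((1/2 - τ)/2 - κ) * a := by
    have := H.X1
    rw [← Real.exp_mul, Real.exp_le_exp] at this
    linarith
  have hσ : σ ≤ -κ * a := by
    have := H.w1
    rw [← Real.exp_mul, Real.exp_le_exp] at this
    linarith
  have hl : 2*b - (1/2 - τ - τ0) * a + ω ≤ l := by
    have := H.L0
    simp only [← Real.exp_mul, ← Real.exp_add] at this
    rw [Real.exp_le_exp] at this
    linarith
  have na : 0 ≤ -a := by linarith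
  exact ⟨a, b, l, ω, σ, rfl, rfl, rfl, rfl, rfl, ha, hl0, hω, hσ0, hb, hσ, hl,
    mul_nonneg H.τ0' na, mul_le_mul_of_nonneg_right H.τ1 na,
    mul_nonneg H.τ00 na, mul_le_mul_of_nonneg_right H.τ01 na,
    mul_nonneg H.η0 na, mul_le_mul_of_nonneg_right H.η1 na,
    mul_nonneg H.ρ0 na, mul_le_mul_of_nonneg_right H.ρ1 na,
    mul_nonneg H.κ0 na, mul_le_mul_of_nonneg_right H.κ1 na⟩

/-- `G₁` in logarithmic form, with its three branches -/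
theorem bpe_G1_cases {a l : ℝ} (ha : a ≤ 0) :
    ∃ g, bpG1 (Real.exp a) (Real.exp l) = Real.exp g ∧
      ((l*2 ≤ a ∧ g = a) ∨ (a ≤ l*2 ∧ l*2 ≤ a*(3/100) ∧ g = l*2) ∨
        (a*(3/100) ≤ l*2 ∧ g = a*(3/100))) := by
  refine ⟨min (max (l * 2) a) (a * (3/100)), ?_, ?_⟩
  · unfold bpG1 bpLam
    rw [Real.exp_monotone.map_min, Real.exp_monotone.map_max, ← Real.exp_mul, ← Real.exp_mul]
  · rcases le_total (l*2) a with h2 | h2
    · left; refine ⟨h2, ?_⟩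
      rw [max_eq_right h2, min_eq_left (by linarith)]
    · rcases le_total (l*2) (a*(3/100)) with h3 | h3
      · right; left; refine ⟨h2, h3, ?_⟩
        rw [max_eq_left h2, min_eq_left h3]
      · right; right; refine ⟨h3, ?_⟩
        rw [max_eq_left h2, min_eq_right h3]

/-- l.1725: `√λ L ≤ G₁` for `L ≤ 1`, `λ ≤ 1` -/
theorem bpe_G1_ge {lam L : ℝ} (hlam : 0 < lam) (hlam1 : lam ≤ 1) (hL : 0 < L) (hL1 : L ≤ 1) :
    lam ^ (1/2 : ℝ) * L ≤ bpG1 lam L := by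
  obtain ⟨a, rfl⟩ : ∃ a, lam = Real.exp a := ⟨Real.log lam, (Real.exp_log hlam).symm⟩
  obtain ⟨l, rfl⟩ : ∃ l, L = Real.exp l := ⟨Real.log L, (Real.exp_log hL).symm⟩
  have ha : a ≤ 0 := by rwa [← Real.exp_zero, Real.exp_le_exp] at hlam1
  have hl : l ≤ 0 := by rwa [← Real.exp_zero, Real.exp_le_exp] at hL1
  obtain ⟨g, hg, hc⟩ := bpe_G1_cases (l := l) ha
  rw [hg]
  simp only [← Real.exp_mul, ← Real.exp_add]
  rw [Real.exp_le_exp]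
  rcases hc with ⟨h2, rfl⟩ | ⟨h2, h3, rfl⟩ | ⟨h2, rfl⟩ <;> linarith

/-- l.2012: `λ^{0.14} L (L + λ) ≤ 2 λ^{0.11} G₁` -/
theorem bpe_m2 {lam L : ℝ} (hlam : 0 < lam) (hlam1 : lam ≤ 1) (hL : 0 < L) (hL1 : L ≤ 1) :
    lam ^ (14/100 : ℝ) * (L * (L + lam)) ≤ 2 * (lam ^ (11/100 : ℝ) * bpG1 lam L) := by
  obtain ⟨a, rfl⟩ : ∃ a, lam = Real.exp a := ⟨Real.log lam, (Real.exp_log hlam).symm⟩
  obtain ⟨l, rfl⟩ : ∃ l, L = Real.exp l := ⟨Real.log L, (Real.exp_log hL).symm⟩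
  have ha : a ≤ 0 := by rwa [← Real.exp_zero, Real.exp_le_exp] at hlam1
  have hl : l ≤ 0 := by rwa [← Real.exp_zero, Real.exp_le_exp] at hL1
  obtain ⟨g, hg, hc⟩ := bpe_G1_cases (l := l) ha
  rw [hg]
  have k1 : Real.exp a ^ (14/100 : ℝ) * (Real.exp l * Real.exp l)
      ≤ Real.exp a ^ (11/100 : ℝ) * Real.exp g := by
    simp only [← Real.exp_mul, ← Real.exp_add]
    rw [Real.exp_le_exp]
    rcases hc with ⟨h2, rfl⟩ | ⟨h2, h3, rfl⟩ | ⟨h2, rfl⟩ <;> linarith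
  have k2 : Real.exp a ^ (14/100 : ℝ) * (Real.exp l * Real.exp a)
      ≤ Real.exp a ^ (11/100 : ℝ) * Real.exp g := by
    simp only [← Real.exp_mul, ← Real.exp_add]
    rw [Real.exp_le_exp]
    rcases hc with ⟨h2, rfl⟩ | ⟨h2, h3, rfl⟩ | ⟨h2, rfl⟩ <;> linarith
  calc Real.exp a ^ (14/100 : ℝ) * (Real.exp l * (Real.exp l + Real.exp a))
      = Real.exp a ^ (14/100 : ℝ) * (Real.exp l * Real.exp l)
        + Real.exp a ^ (14/100 : ℝ) * (Real.exp l * Real.exp a) := by ring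
    _ ≤ 2 * (Real.exp a ^ (11/100 : ℝ) * Real.exp g) := by linarith

/-- l.1352: the logarithmic seed, `X³ λ^{1+η-3s_*/2} ≤ λ^{0.2} P₁` -/
theorem bpe_seed {τ τ0 η ρ κ lam X Z L w : ℝ} (H : BpHyp τ τ0 η ρ κ lam X Z L w) :
    X ^ (3:ℝ) * lam ^ (1 + η - 3 * (1/2 - τ) / 2) ≤ lam ^ (2/10 : ℝ) * bpP1 lam L := by
  obtain ⟨a, b, l, ω, σ, rfl, rfl, rfl, rfl, rfl, ha, hl0, hω, hσ0, hb, hσ, hl,
    t1, t1', t2, t2', t3, t3', t4, t4', t5, t5'⟩ := bpe_logs H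
  obtain ⟨g, hg, hc⟩ := bpe_G1_cases (l := l) ha
  unfold bpP1
  rw [hg]
  simp only [← Real.exp_mul, ← Real.exp_add]
  rw [Real.exp_le_exp]
  rcases hc with ⟨h2, rfl⟩ | ⟨h2, h3, rfl⟩ | ⟨h2, rfl⟩ <;> linarith

/-- l.2016: `u³ P₁/(d₀ h₁²) = G₁/max(L², λ)` -/
theorem bpe_ratio {u lam L G : ℝ} (hu : 0 < u) (hlam : 0 < lam) (hL : 0 < L) :
    u ^ 3 * (L * G) / ((u * L) * (u * max L (Real.sqrt lam)) ^ 2) = G / max (L ^ 2) lam := by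
  have hm : (max L (Real.sqrt lam)) ^ 2 = max (L ^ 2) lam := by
    rcases le_total L (Real.sqrt lam) with h | h
    · rw [max_eq_right h, Real.sq_sqrt hlam.le, max_eq_right]
      calc L ^ 2 ≤ (Real.sqrt lam) ^ 2 := pow_le_pow_left₀ hL.le h 2
        _ = lam := Real.sq_sqrt hlam.le
    · rw [max_eq_left h, max_eq_left]
      calc lam = (Real.sqrt lam) ^ 2 := (Real.sq_sqrt hlam.le).symm
        _ ≤ L ^ 2 := pow_le_pow_left₀ (Real.sqrt_nonneg _) h 2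
  have hpos : 0 < max (L ^ 2) lam := lt_max_of_lt_right hlam
  rw [mul_pow, hm]
  field_simp


/-- `y_c ≤ 2 exp(σ + max(..))`, logarithmic form -/
theorem bpe_Y_le (a b σ : ℝ) :
    ∃ y, bpY (Real.exp a) (Real.exp b) (Real.exp σ) ≤ 2 * Real.exp y ∧
      ((b - a/200 ≤ 3/4*b + 12/100*a ∧ y = σ + (3/4*b + 12/100*a)) ∨
        (3/4*b + 12/100*a ≤ b - a/200 ∧ y = σ + (b - a/200))) := by
  refine ⟨σ + max (b - a / 200) (3 / 4 * b + 12 / 100 * a), ?_, ?_⟩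
  · unfold bpY
    have h1 : Real.exp b * (Real.exp a) ^ (-(1/200) : ℝ) = Real.exp (b - a / 200) := by
      simp only [← Real.exp_mul, ← Real.exp_add]
      congr 1; ring
    have h2 : (Real.exp b) ^ (3/4 : ℝ) * (Real.exp a) ^ (12/100 : ℝ)
        = Real.exp (3 / 4 * b + 12 / 100 * a) := by
      simp only [← Real.exp_mul, ← Real.exp_add]
      congr 1; ring
    rw [h1, h2, Real.exp_add σ, Real.exp_monotone.map_max]
    have := le_max_left (Real.exp (b - a / 200)) (Real.exp (3 / 4 * b + 12 / 100 * a))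
    have := le_max_right (Real.exp (b - a / 200)) (Real.exp (3 / 4 * b + 12 / 100 * a))
    have hp := Real.exp_pos σ
    nlinarith
  · rcases le_total (b - a/200) (3/4*b + 12/100*a) with h1 | h1
    · left; exact ⟨h1, by rw [max_eq_right h1]⟩
    · right; exact ⟨h1, by rw [max_eq_left h1]⟩

/-- l.1380: `w_c³ ≪ d₀`, in the form `y_c³ ≤ 8 λ^{0.7} L` -/
theorem bpe_wc3 {τ τ0 η ρ κ lam X Z L w : ℝ} (H : BpHyp τ τ0 η ρ κ lam X Z L w) :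
    bpY lam X w ^ 3 ≤ 8 * (lam ^ (7/10 : ℝ) * L) := by
  obtain ⟨a, b, l, ω, σ, rfl, rfl, rfl, rfl, rfl, ha, hl0, hω, hσ0, hb, hσ, hl,
    t1, t1', t2, t2', t3, t3', t4, t4', t5, t5'⟩ := bpe_logs H
  obtain ⟨y, hy, hc⟩ := bpe_Y_le a b σ
  have h0 : 0 ≤ bpY (Real.exp a) (Real.exp b) (Real.exp σ) := by unfold bpY; positivity
  calc bpY (Real.exp a) (Real.exp b) (Real.exp σ) ^ 3 ≤ (2 * Real.exp y) ^ 3 :=
        pow_le_pow_left₀ h0 hy 3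
    _ = 8 * Real.exp (3 * y) := by
        rw [mul_pow, ← Real.exp_nat_mul]; norm_num
    _ ≤ 8 * (Real.exp a ^ (7/10 : ℝ) * Real.exp l) := by
        simp only [← Real.exp_mul, ← Real.exp_add]
        have : Real.exp (3 * y) ≤ Real.exp (a * (7/10) + l) := by
          rw [Real.exp_le_exp]
          rcases hc with ⟨h1, rfl⟩ | ⟨h1, rfl⟩ <;> linarith
        linarith

/-- l.1555: with `t' = (A/L)^{3/2}/√κ`, `κ = (A/a)²`:  `t' + (A/L)³/(κ t') + A³/L² ≤ 3 λ^{0.14}` -/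
theorem bpe_box2 {τ τ0 η ρ κ lam X Z L w a : ℝ} (H : BpHyp τ τ0 η ρ κ lam X Z L w) (ha : 0 < a)
    (hL : lam ^ (-(12/100) : ℝ) * bpA lam X ^ (1/3 : ℝ) * a ^ (2/3 : ℝ) ≤ L) :
    (bpA lam X / L) ^ (3/2 : ℝ) * ((bpA lam X / a) ^ (2:ℝ)) ^ (-(1/2) : ℝ)
      + (bpA lam X / L) ^ (3:ℝ) / ((bpA lam X / a) ^ (2:ℝ) *
          ((bpA lam X / L) ^ (3/2 : ℝ) * ((bpA lam X / a) ^ (2:ℝ)) ^ (-(1/2) : ℝ)))
      + bpA lam X ^ (3:ℝ) / L ^ (2:ℝ) ≤ 3 * lam ^ (14/100 : ℝ) := by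
  obtain ⟨α, b, l, ω, σ, rfl, rfl, rfl, rfl, rfl, hα, hl0, hω, hσ0, hb, hσ, hl,
    t1, t1', t2, t2', t3, t3', t4, t4', t5, t5'⟩ := bpe_logs H
  obtain ⟨c, rfl⟩ : ∃ c, a = Real.exp c := ⟨Real.log a, (Real.exp_log ha).symm⟩
  unfold bpA at hL ⊢
  simp only [← Real.exp_mul, ← Real.exp_add, ← Real.exp_sub] at hL ⊢
  rw [Real.exp_le_exp] at hL
  have k1 : Real.exp ((b * 2 + α * -(1 / 100) - l) * (3 / 2) + (b * 2 + α * -(1 / 100) - c) * 2 * -(1 / 2))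
      ≤ Real.exp (α * (14/100)) := by
    rw [Real.exp_le_exp]; linarith
  have k2 : Real.exp ((b * 2 + α * -(1 / 100) - l) * 3 - ((b * 2 + α * -(1 / 100) - c) * 2 +
      ((b * 2 + α * -(1 / 100) - l) * (3 / 2) + (b * 2 + α * -(1 / 100) - c) * 2 * -(1 / 2))))
      ≤ Real.exp (α * (14/100)) := by
    rw [Real.exp_le_exp]; linarith
  have k3 : Real.exp ((b * 2 + α * -(1 / 100)) * 3 - l * 2) ≤ Real.exp (α * (14/100)) := by
    rw [Real.exp_le_exp]; linarith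
  linarith

/-! ### the recurrence of l.1518 -/

/-- the constants `B_{k+1} = C (1 + √B_k)` -/
noncomputable def bpeB (C B0 : ℝ) : ℕ → ℝ
  | 0 => B0
  | k + 1 => C * (1 + Real.sqrt (bpeB C B0 k))

/-- the exponents `e_{k+1} = 1/10 + e_k/2`, `e_0 = -K` -/
noncomputable def bpeE (K : ℝ) : ℕ → ℝ
  | 0 => -K
  | k + 1 => 1/10 + bpeE K k / 2

theorem bpeE_eq (K : ℝ) (k : ℕ) : bpeE K k = 2/10 * (1 - (1/2 : ℝ) ^ k) - K * (1/2 : ℝ) ^ k := by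
  induction k with
  | zero => simp [bpeE]
  | succ k ih => rw [bpeE, ih, pow_succ]; ring

theorem bpeB_nonneg {C B0 : ℝ} (hC : 0 ≤ C) (hB : 0 ≤ B0) (k : ℕ) : 0 ≤ bpeB C B0 k := by
  cases k with
  | zero => exact hB
  | succ k => exact mul_nonneg hC (add_nonneg zero_le_one (Real.sqrt_nonneg _))

/-- l.1518: `Q_{k+1} ≤ C (1 + λ^{0.1} √Q_k)`, `Q_0 ≤ B₀ λ^{-K}` give `Q_k ≤ B_k (1 + λ^{e_k})`. -/
theorem bpe_rec {lam C B0 K : ℝ} (hlam : 0 < lam) (hlam1 : lam ≤ 1) (hC : 0 ≤ C) (hB : 0 ≤ B0) (Q : ℕ → ℝ)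
    (hQ0 : Q 0 ≤ B0 * lam ^ (-K))
    (hQ : ∀ k, Q (k + 1) ≤ C * (1 + lam ^ (1/10 : ℝ) * Real.sqrt (Q k))) (k : ℕ) :
    Q k ≤ bpeB C B0 k * (1 + lam ^ bpeE K k) := by
  induction k with
  | zero =>
    have : 0 ≤ B0 * 1 := by linarith
    simp only [bpeB, bpeE]
    nlinarith [Real.rpow_pos_of_pos hlam (-K)]
  | succ k ih =>
    have hBk := bpeB_nonneg hC hB k
    have hp : 0 < lam ^ bpeE K k := Real.rpow_pos_of_pos hlam _
    have h1 : Real.sqrt (Q k) ≤ Real.sqrt (bpeB C B0 k) * (1 + lam ^ (bpeE K k / 2)) := by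
      calc Real.sqrt (Q k) ≤ Real.sqrt (bpeB C B0 k * (1 + lam ^ bpeE K k)) := Real.sqrt_le_sqrt ih
        _ = Real.sqrt (bpeB C B0 k) * Real.sqrt (1 + lam ^ bpeE K k) := Real.sqrt_mul hBk _
        _ ≤ Real.sqrt (bpeB C B0 k) * (1 + lam ^ (bpeE K k / 2)) := by
          apply mul_le_mul_of_nonneg_left _ (Real.sqrt_nonneg _)
          rw [Real.sqrt_le_left (by positivity)]
          have : (lam ^ (bpeE K k / 2)) ^ 2 = lam ^ bpeE K k := by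
            rw [← Real.rpow_natCast, ← Real.rpow_mul hlam.le]; congr 1; push_cast; ring
          nlinarith [Real.rpow_pos_of_pos hlam (bpeE K k / 2)]
    have h2 : lam ^ (1/10 : ℝ) * lam ^ (bpeE K k / 2) = lam ^ bpeE K (k + 1) := by
      rw [← Real.rpow_add hlam]; rfl
    have h3 : lam ^ (1/10 : ℝ) ≤ 1 := Real.rpow_le_one hlam.le hlam1 (by norm_num)
    have h4 : 0 < lam ^ (1/10 : ℝ) := Real.rpow_pos_of_pos hlam _
    have h5 : 0 < lam ^ bpeE K (k + 1) := Real.rpow_pos_of_pos hlam _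
    have hs := Real.sqrt_nonneg (bpeB C B0 k)
    have h6 : lam ^ (1/10 : ℝ) * Real.sqrt (Q k)
        ≤ Real.sqrt (bpeB C B0 k) + Real.sqrt (bpeB C B0 k) * lam ^ bpeE K (k + 1) := by
      calc lam ^ (1/10 : ℝ) * Real.sqrt (Q k)
          ≤ lam ^ (1/10 : ℝ) * (Real.sqrt (bpeB C B0 k) * (1 + lam ^ (bpeE K k / 2))) :=
            mul_le_mul_of_nonneg_left h1 h4.le
        _ = lam ^ (1/10 : ℝ) * Real.sqrt (bpeB C B0 k)
            + Real.sqrt (bpeB C B0 k) * (lam ^ (1/10 : ℝ) * lam ^ (bpeE K k / 2)) := by ring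
        _ ≤ Real.sqrt (bpeB C B0 k) + Real.sqrt (bpeB C B0 k) * lam ^ bpeE K (k + 1) := by
            rw [h2]; nlinarith
    calc Q (k + 1) ≤ C * (1 + lam ^ (1/10 : ℝ) * Real.sqrt (Q k)) := hQ k
      _ ≤ C * (1 + (Real.sqrt (bpeB C B0 k) + Real.sqrt (bpeB C B0 k) * lam ^ bpeE K (k + 1))) :=
          mul_le_mul_of_nonneg_left (by linarith) hC
      _ ≤ C * ((1 + Real.sqrt (bpeB C B0 k)) * (1 + lam ^ bpeE K (k + 1))) := by
          apply mul_le_mul_of_nonneg_left _ hC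
          nlinarith
      _ = bpeB C B0 (k + 1) * (1 + lam ^ bpeE K (k + 1)) := by
          rw [bpeB]; ring

/-- consequence: as soon as `e_n ≥ 0`, `Q_n ≤ 2 B_n` -/
theorem bpe_rec_bdd {lam C B0 K : ℝ} (hlam : 0 < lam) (hlam1 : lam ≤ 1) (hC : 0 ≤ C) (hB : 0 ≤ B0)
    (Q : ℕ → ℝ) (hQ0 : Q 0 ≤ B0 * lam ^ (-K))
    (hQ : ∀ k, Q (k + 1) ≤ C * (1 + lam ^ (1/10 : ℝ) * Real.sqrt (Q k))) (n : ℕ)
    (hn : K * (1/2 : ℝ) ^ n ≤ 2/10 * (1 - (1/2 : ℝ) ^ n)) :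
    Q n ≤ 2 * bpeB C B0 n := by
  have h := bpe_rec hlam hlam1 hC hB Q hQ0 hQ n
  have he : 0 ≤ bpeE K n := by rw [bpeE_eq]; linarith
  have h1 : lam ^ bpeE K n ≤ 1 := Real.rpow_le_one hlam.le hlam1 he
  have := bpeB_nonneg hC hB n
  nlinarith

/-- there is such an `n` -/
theorem bpe_rec_n (K : ℝ) : ∃ n : ℕ, K * (1/2 : ℝ) ^ n ≤ 2/10 * (1 - (1/2 : ℝ) ^ n) := by
  have h : Filter.Tendsto (fun n : ℕ => (K + 2/10) * (1/2 : ℝ) ^ n) Filter.atTop (nhds ((K + 2/10) * 0)) :=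
    (tendsto_pow_atTop_nhds_zero_of_lt_one (by norm_num) (by norm_num)).const_mul _
  rw [mul_zero] at h
  obtain ⟨n, hn⟩ := (h.eventually (gt_mem_nhds (show (0:ℝ) < 2/10 by norm_num))).exists
  exact ⟨n, by nlinarith⟩


/-! ### the stages (C11) -/

/-- (C11): `bpStage n = a_{n-1}`; `bpStage 0 = a_{-1} = 1` -/
noncomputable def bpStage (lam A ag : ℝ) : ℕ → ℝ
  | 0 => 1
  | n + 1 => max ag (lam ^ (-(12/100) : ℝ) * A ^ (1/3 : ℝ) * bpStage lam A ag n ^ (2/3 : ℝ))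

theorem bpe_stage_ge (lam A ag : ℝ) (n : ℕ) : ag ≤ bpStage lam A ag (n + 1) := le_max_left _ _

theorem bpe_stage_pos {lam A ag : ℝ} (hag : 0 < ag) (n : ℕ) : 0 < bpStage lam A ag n := by
  cases n with
  | zero => exact one_pos
  | succ n => exact lt_of_lt_of_le hag (bpe_stage_ge _ _ _ n)

/-- the scales are nonincreasing -/
theorem bpe_stage_anti {lam A ag : ℝ} (hlam : 0 < lam) (hA : 0 < A) (hag : 0 < ag) (hag1 : ag ≤ 1)
    (hc : lam ^ (-(12/100) : ℝ) * A ^ (1/3 : ℝ) ≤ 1) (n : ℕ) :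
    bpStage lam A ag (n + 1) ≤ bpStage lam A ag n := by
  have hc0 : 0 < lam ^ (-(12/100) : ℝ) * A ^ (1/3 : ℝ) := by positivity
  induction n with
  | zero =>
    simp only [bpStage, Real.one_rpow, mul_one]
    exact max_le hag1 hc
  | succ n ih =>
    show max ag (lam ^ (-(12/100) : ℝ) * A ^ (1/3 : ℝ) * bpStage lam A ag (n + 1) ^ (2/3 : ℝ))
      ≤ max ag (lam ^ (-(12/100) : ℝ) * A ^ (1/3 : ℝ) * bpStage lam A ag n ^ (2/3 : ℝ))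
    apply max_le_max le_rfl
    apply mul_le_mul_of_nonneg_left _ hc0.le
    exact Real.rpow_le_rpow (bpe_stage_pos hag _).le ih (by norm_num)

/-- closed bound: `a_{n-1} ≤ max(a_goal, (λ^{-0.36} A)^{1-(2/3)^n})` when the fixed point lies below the goal -/
theorem bpe_stage_le {lam A ag : ℝ} (hlam : 0 < lam) (hA : 0 < A) (hag : 0 < ag)
    (hfix : lam ^ (-(36/100) : ℝ) * A ≤ ag) (n : ℕ) :
    bpStage lam A ag n ≤ max ag ((lam ^ (-(36/100) : ℝ) * A) ^ (1 - (2/3 : ℝ) ^ n)) := by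
  obtain ⟨α, rfl⟩ : ∃ α, lam = Real.exp α := ⟨Real.log lam, (Real.exp_log hlam).symm⟩
  obtain ⟨b, rfl⟩ : ∃ b, A = Real.exp b := ⟨Real.log A, (Real.exp_log hA).symm⟩
  obtain ⟨c, rfl⟩ : ∃ c, ag = Real.exp c := ⟨Real.log ag, (Real.exp_log hag).symm⟩
  simp only [← Real.exp_mul, ← Real.exp_add] at hfix ⊢
  rw [Real.exp_le_exp] at hfix
  induction n with
  | zero => simp [bpStage]
  | succ n ih =>
    rw [bpStage]
    apply max_le (le_max_left _ _)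
    have h0 := (bpe_stage_pos (lam := Real.exp α) (A := Real.exp b) (Real.exp_pos c) n).le
    have h1 : bpStage (Real.exp α) (Real.exp b) (Real.exp c) n ^ (2/3 : ℝ)
        ≤ (max (Real.exp c) (Real.exp ((α * -(36 / 100) + b) * (1 - (2 / 3) ^ n)))) ^ (2/3 : ℝ) :=
      Real.rpow_le_rpow h0 ih (by norm_num)
    rw [← Real.exp_monotone.map_max, ← Real.exp_mul] at h1
    have hc0 : 0 < Real.exp α ^ (-(12/100) : ℝ) * Real.exp b ^ (1/3 : ℝ) := by positivity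
    refine le_trans (mul_le_mul_of_nonneg_left h1 hc0.le) ?_
    simp only [← Real.exp_mul, ← Real.exp_add]
    rw [← Real.exp_monotone.map_max, Real.exp_le_exp]
    rcases le_total c ((α * -(36 / 100) + b) * (1 - (2 / 3) ^ n)) with h | h
    · rw [max_eq_right h]
      apply le_max_of_le_right
      rw [pow_succ]
      apply le_of_eq; ring
    · rw [max_eq_left h]
      apply le_max_of_le_left
      linarith

/-- the goal is reached as soon as `(λ^{-0.36} A)^{1-(2/3)^n} ≤ a_goal` -/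
theorem bpe_stage_reach {lam A ag : ℝ} (hlam : 0 < lam) (hA : 0 < A) (hag : 0 < ag)
    (hfix : lam ^ (-(36/100) : ℝ) * A ≤ ag) (n : ℕ)
    (hn : (lam ^ (-(36/100) : ℝ) * A) ^ (1 - (2/3 : ℝ) ^ (n + 1)) ≤ ag) :
    bpStage lam A ag (n + 1) = ag :=
  le_antisymm (le_trans (bpe_stage_le hlam hA hag hfix (n + 1)) (max_le le_rfl hn))
    (bpe_stage_ge _ _ _ n)

/-- (C11) for the actual scales: `A = X² Λ^{-1/3}`, `a_goal = X² λ^{-s₀}`, `X ≥ λ^K`: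
the goal is reached after `n + 1` steps as soon as `2 K (2/3)^{n+1} ≤ s₀ - 0.37`. -/
theorem bpe_stage_reach' {s0 K lam X : ℝ} (hlam : 0 < lam) (hlam1 : lam ≤ 1) (hX : 0 < X)
    (hs0 : 37/100 ≤ s0) (hXK : lam ^ K ≤ X) (n : ℕ) (hn : 2 * K * (2/3 : ℝ) ^ (n + 1) ≤ s0 - 37/100) :
    bpStage lam (bpA lam X) (X ^ (2:ℝ) * lam ^ (-s0)) (n + 1) = X ^ (2:ℝ) * lam ^ (-s0) := by
  have hA : 0 < bpA lam X := by unfold bpA; positivity
  have hag : 0 < X ^ (2:ℝ) * lam ^ (-s0) := by positivity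
  have hθ0 : (0:ℝ) ≤ (2/3 : ℝ) ^ (n + 1) := by positivity
  set θ : ℝ := (2/3 : ℝ) ^ (n + 1) with hθ
  obtain ⟨α, rfl⟩ : ∃ α, lam = Real.exp α := ⟨Real.log lam, (Real.exp_log hlam).symm⟩
  obtain ⟨b, rfl⟩ : ∃ b, X = Real.exp b := ⟨Real.log X, (Real.exp_log hX).symm⟩
  have hα : α ≤ 0 := by rwa [← Real.exp_zero, Real.exp_le_exp] at hlam1
  rw [← Real.exp_mul, Real.exp_le_exp] at hXK
  apply bpe_stage_reach hlam hA hag
  · unfold bpA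
    simp only [← Real.exp_mul, ← Real.exp_add]
    rw [Real.exp_le_exp]
    nlinarith
  · rw [← hθ]
    unfold bpA
    simp only [← Real.exp_mul, ← Real.exp_add]
    rw [Real.exp_le_exp]
    have h1 : θ * (α * K) ≤ θ * b := mul_le_mul_of_nonneg_left hXK hθ0
    have h2 : (2 * K * θ) * (-α) ≤ (s0 - 37/100) * (-α) :=
      mul_le_mul_of_nonneg_right hn (by linarith)
    have h3 : 0 ≤ θ * (-α) := mul_nonneg hθ0 (by linarith)
    nlinarith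

/-- `a_0 ≤ λ^{min(τ₀ - 2κ, 0.04)}`: the first stage is already power small -/
theorem bpe_stage_one {τ τ0 κ lam X : ℝ} (hτ1 : τ ≤ 1/10000)
    (hκ1 : κ ≤ 1/10000) (hlam : 0 < lam) (hlam1 : lam ≤ 1) (hX : 0 < X)
    (hX1 : X ≤ lam ^ ((1/2 - τ) / 2 - κ)) :
    bpStage lam (bpA lam X) (X ^ (2:ℝ) * lam ^ (-(1/2 - τ - τ0))) 1
      ≤ max (lam ^ (τ0 - 2 * κ)) (lam ^ (4/100 : ℝ)) := by
  obtain ⟨α, rfl⟩ : ∃ α, lam = Real.exp α := ⟨Real.log lam, (Real.exp_log hlam).symm⟩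
  obtain ⟨b, rfl⟩ : ∃ b, X = Real.exp b := ⟨Real.log X, (Real.exp_log hX).symm⟩
  have hα : α ≤ 0 := by rwa [← Real.exp_zero, Real.exp_le_exp] at hlam1
  rw [← Real.exp_mul, Real.exp_le_exp] at hX1
  simp only [bpStage, Real.one_rpow, mul_one]
  unfold bpA
  simp only [← Real.exp_mul, ← Real.exp_add]
  have t1 : τ * (-α) ≤ 1/10000 * (-α) := mul_le_mul_of_nonneg_right hτ1 (by linarith)
  have t2 : κ * (-α) ≤ 1/10000 * (-α) := mul_le_mul_of_nonneg_right hκ1 (by linarith)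
  apply max_le_max
  · rw [Real.exp_le_exp]; nlinarith
  · rw [Real.exp_le_exp]; nlinarith


end Claimed.Agent.R286
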