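import Claimed.Agent.R286.Bud.Stage
import Claimed.Agent.R286.Bud.Pow

/-!
# Row 286, LL sec. 7: FROM FRAMES TO THE DEFS-FREE POWER ACCOUNTING      (owner helper212; prefix `bpf_`)

The exponent arithmetic of `Bud/Pow*.lean` is written in the free variables `(τ τ0 η ρ κ lam X Z L w)` under `BpHyp`.   This file is the dictionary
for the nodes N13-N17:
* `bpf_Lam bpf_A bpf_Bf bpf_yc bpf_T1 bpf_T2`      `F.Lam = bpLam F.lam`, `F.A = bpA F.lam F.Xr`, ... with `w = F.x^{-10ζ}`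
* `bpf_G1 bpf_P1`                                  `V.G1 = bpG1 F.lam V.L`, `V.P1 = bpP1 F.lam V.L`
* `bpf_hyp`       `BpHyp X.tau X.tau0 X.eta X.rho (1/10000) F.lam F.Xr Z L (F.x^{-10ζ})` from `F.Ok X`, `BdsBig F X`, `1 ≤ Z`, `a_goal Z ≤ L ≤ 1`
* `bpf_hyp_viol`  the same for a buffered violation (`Z = Z_j(g)`, `L = V.L`)
* `bpf_lam_le_N`  `lam^e ≤ N^{-e pS/6}`: a power of `lam` is a power of `N`
-/

set_option autoImplicit false

namespace Claimed.Agent.R286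

open Real

namespace BdFr

variable {F : BdFr} {X : BdFix}

/-- the sub-power prefactor of `y_c` -/
noncomputable def wz (F : BdFr) (X : BdFix) : ℝ := F.x ^ (-(10 * X.zeta))

theorem bpf_Lam : F.Lam = bpLam F.lam := by
  unfold BdFr.Lam bpLam; norm_num

theorem bpf_A (h : F.Ok X) : F.A = bpA F.lam F.Xr := by
  rw [bds_A_eq h]; rfl

theorem bpf_Bf (h : F.Ok X) : F.Bf X = bpBf X.s0 F.lam F.Xr := by
  have hl := bds_lam_pos h
  unfold BdFr.Bf BdFr.Lam bpBf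
  rw [← rpow_mul hl.le, mul_assoc, ← rpow_add hl]
  congr 2; norm_num; ring

theorem bpf_yc (h : F.Ok X) : F.yc X = bpY F.lam F.Xr (F.wz X) := by
  have hl := bds_lam_pos h
  unfold BdFr.yc BdFr.Lam bpY BdFr.wz
  rw [← rpow_mul hl.le]
  norm_num

theorem bpf_T1 (h : F.Ok X) : F.T1 X = bpT1 X.s0 F.lam F.Xr (F.wz X) := by
  unfold BdFr.T1 bpT1
  rw [bpf_A h, bpf_Bf h, bpf_yc h, rpow_two]

theorem bpf_T2 (h : F.Ok X) : F.T2 X = bpT2 X.s0 F.lam F.Xr (F.wz X) := by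
  unfold BdFr.T2 bpT2
  rw [bpf_A h, bpf_Bf h, bpf_yc h, rpow_two, rpow_two]

theorem bpf_s0 : X.s0 = 1 / 2 - X.tau - X.tau0 := by
  unfold BdFix.s0 BdFix.sS; ring

/-- a power of `lam` is a power of `N` -/
theorem bpf_lam_le_N (h : F.Ok X) {e : ℝ} (he : 0 ≤ e) : F.lam ^ e ≤ (F.N : ℝ) ^ (-(e * X.pS / 6)) := by
  have hl := bds_lam_pos h
  have hN : (0:ℝ) < F.N := by
    have := h.N2
    positivity
  calc F.lam ^ e ≤ (F.x ^ X.pS) ^ e := rpow_le_rpow hl.le h.lam_hi he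
    _ = (F.N : ℝ) ^ (-(e * X.pS / 6)) := by
        unfold BdFr.x
        rw [← rpow_mul hN.le, ← rpow_mul hN.le]
        congr 1; ring

/-- **the hypotheses of (C18)** for a frame -/
theorem bpf_hyp (h : F.Ok X) (hX : X.Ok) (hB : BdsBig F X) {Z L : ℝ} (hZ : 1 ≤ Z) (hL0 : F.agoal X * Z ≤ L) (hL1 : L ≤ 1) :
    BpHyp X.tau X.tau0 X.eta X.rho (1 / 10000) F.lam F.Xr Z L (F.wz X) := by
  have hl := bds_lam_pos h
  have hl1 := (bds_lam_lt_one h hX).le
  have hx := bds_x_pos h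
  have hx1 := (bds_x_lt_one h).le
  have t0 := hX.tau0_pos
  have t1 := hX.tau0_le
  have t2 := hX.eta_le
  have t3 := hX.tau_le
  have hbl := hX.bl_pos
  have hbl1 := hX.bl_le
  have hbs := hX.bs_le
  refine ⟨by linarith, by linarith, t0.le, by linarith, by linarith, by linarith, hX.rho_pos.le,
    by have := hX.rho_le; linarith, by norm_num, le_rfl, hl, hl1, bds_Xr_pos h hX, ?_, hZ, ?_, hL1, ?_, ?_⟩
  · -- `X ≤ lam^{s_*/2 - κ}`
    have hCU : X.CU ≤ F.lam ^ (-(1 / 10000 : ℝ)) := by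
      have h1 : X.CU ^ (2:ℝ) ≤ F.lam ^ (-(X.tau0 / 2)) := hB
      have h2 : X.CU = (X.CU ^ (2:ℝ)) ^ (1 / 2 : ℝ) := by
        rw [← rpow_mul hX.CU_pos.le]; norm_num
      calc X.CU = (X.CU ^ (2:ℝ)) ^ (1 / 2 : ℝ) := h2
        _ ≤ (F.lam ^ (-(X.tau0 / 2))) ^ (1 / 2 : ℝ) :=
            rpow_le_rpow (rpow_nonneg hX.CU_pos.le _) h1 (by norm_num)
        _ = F.lam ^ (-(X.tau0 / 4)) := by
            rw [← rpow_mul hl.le]; congr 1; ring
        _ ≤ F.lam ^ (-(1 / 10000 : ℝ)) := rpow_le_rpow_of_exponent_ge hl hl1 (by linarith)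
    calc F.Xr ≤ X.CU * F.lam ^ (X.sS / 2) := bds_Xr_le h hX
      _ ≤ F.lam ^ (-(1 / 10000 : ℝ)) * F.lam ^ (X.sS / 2) :=
          mul_le_mul_of_nonneg_right hCU (rpow_nonneg hl.le _)
      _ = F.lam ^ ((1 / 2 - X.tau) / 2 - 1 / 10000) := by
          rw [← rpow_add hl]; congr 1; unfold BdFix.sS; ring
  · -- `a_goal Z ≤ L`
    rw [bds_agoal_eq, bpf_s0] at hL0
    exact hL0
  · -- `1 ≤ w`
    unfold BdFr.wz
    exact one_le_rpow_of_pos_of_le_one_of_nonpos hx hx1 (by have := hX.zeta_pos; linarith)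
  · -- `w ≤ lam^{-κ}`
    unfold BdFr.wz
    have hz : 10 * X.zeta ≤ X.pS * (1 / 10000) := by
      have h1 := hX.zeta_le
      have hp := hX.pS_pos
      have h2 : X.tau0 * X.bl ≤ 1 * 1 := mul_le_mul (by linarith) (by linarith) hbl.le (by norm_num)
      have h3 : X.pS * X.tau0 * X.bl ≤ X.pS := by
        calc X.pS * X.tau0 * X.bl = X.pS * (X.tau0 * X.bl) := by ring
          _ ≤ X.pS * (1 * 1) := mul_le_mul_of_nonneg_left h2 hp.le
          _ = X.pS := by ring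
      linarith
    calc F.x ^ (-(10 * X.zeta)) ≤ F.x ^ (-(X.pS * (1 / 10000))) :=
          rpow_le_rpow_of_exponent_ge hx hx1 (by linarith)
      _ = (F.x ^ X.pS) ^ (-(1 / 10000 : ℝ)) := by
          rw [← rpow_mul hx.le]; congr 1; ring
      _ ≤ F.lam ^ (-(1 / 10000 : ℝ)) :=
          antitoneOn_rpow_Ioi_of_exponent_nonpos (by norm_num) hl (lt_of_lt_of_le hl h.lam_hi) h.lam_hi

end BdFr

section viol

variable {F : BdFr} {X : BdFix} {W : BdWorld} (V : BdViol F X W)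

theorem bpf_G1 : V.G1 = bpG1 F.lam V.L := by
  unfold BdViol.G1 bpG1
  rw [BdFr.bpf_Lam, rpow_two]

theorem bpf_P1 : V.P1 = bpP1 F.lam V.L := by
  unfold BdViol.P1 bpP1
  rw [bpf_G1]

/-- **the hypotheses of (C18)** for a buffered violation -/
theorem bpf_hyp_viol (h : F.Ok X) (hX : X.Ok) (hB : BdsBig F X) {Cbuf : ℝ} (hV : V.Ok Cbuf) (hL1 : V.L ≤ 1)
    (hZ : 1 ≤ F.Zj X W V.g) :
    BpHyp X.tau X.tau0 X.eta X.rho (1 / 10000) F.lam F.Xr (F.Zj X W V.g) V.L (F.wz X) := by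
  refine BdFr.bpf_hyp h hX hB hZ ?_ hL1
  refine le_trans ?_ hV.big
  exact mul_le_mul_of_nonneg_right (BdFr.bds_astage_ge h hX hB _) (by linarith)

end viol

theorem bpf_defs_eqns_cite : True := by
  have := @BdFr.wz.eq_1
  trivial

end Claimed.Agent.R286
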