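import Claimed.Agent.R286.Bud.HubBDefs
import Claimed.Agent.R286.Bud.PowFr
import Claimed.Agent.R286.Bud.PowA
import Claimed.Agent.R286.Bud.PowB
import Claimed.Agent.R286.Bud.PowC
import Claimed.Agent.R286.Bud.PowE

/-!
# Row 286, LL sec. 7, node N17 = Prop. `bud:closure` (C19), TeX l.1853-2026: FROM THE MASTER INEQUALITY TO (C19)      (owner helper61; names `Bcl*`, `bcl_*`, `BudB.Clo*`)

CUT of N17 (ruling of 184, 03:08Z; blueprint origin/helper180:notes/R286/N17_180.md):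
 FLOOR 1 (STEP)   MASTER: ONE universal inequality on an arbitrary admissible step path (180: `Bud/C19Defs`, `Bud/C19Ctr`; scalar block 15: `Bud/C19Sc`).
 FLOOR 2 (PATH)   `BudB.CloMI`: the limit of MASTER along the net of chains = the same inequality between NUMBERS OF THE WORLD `W`      (61: `Bud/C19Path.lean`).
 FLOOR 3 (FRAME)  THIS FILE + `Bud/C19Pt` + `Bud/C19Fin` (0 sorry):  `CloMI` + (C15)-(C18) + `Drift` + (C8) + buffer geometry ⟹ `BudB.C19`.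

STRUCTURE OF THIS FILE
 §0  one-sided closed forms of `BdO, BdSub, BdPow`; monotonicity of `bdU`.
 §1  DEFINITIONS: `BclP` (free parameters), `BdQ.CloOk`, `BdQ.cloR` (right side of the master inequality), `BudB.CloMI`, the frame inputs `BudB.C8low, CloBd, CloKs, CloX4, CloZw`, `BudB.CloPt`.
 §2  BOX:   `bcl_box : CloPt + (C15b) + (C15c) + mass of a box ⟹ C19`.
 §3  POINT: `bcl_point : CloMI + inputs ⟹ CloPt`   PROVED in `Bud/C19Pt.lean` (§3a-3e) + `Bud/C19Fin.lean` (§3f: 12 terms, asymptotic calculus of 19/298 on the instances (violation, mass)).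
 §4  `bcl_c19` (`Bud/C19Fin.lean`, PROVED) = the statement of `BudB.c19` (HubB) with the extra predecessors.

THE TERMS of `BdQ.cloR` (MASTER sec. 6 / TeX item / bound in the frame / margin):
  `1/m`                                                         l.1876      x⁶
  mm    `G2 · D_{v0}²`                                          l.1957-2012 (d₀ + λu) d₀² λ^{0.14} on average          `bpe_m2`
  ηη    `(KH + v0) · E(Q - |X|²)²`                              l.1953      u · λ^{-ρ} u² A³ on average                (C18b)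
  pL    `D_{v0} ∫_0^{vH} D`                                     (iii)       d₀ λ^{0.07} u² T₁ on average               (C18c)
  pH1   `∑_k ‖Q_{v0} - X¹·X²(w_k/2)‖_2 ∫_{w_k}^{2w_k} D`         (iii)       w z_w · uA                                 (C18b)
  pH2   `nd · D_{v0} · Pm`                                      (iii)       d₀ · o(u² G₁)
  LL    `∫_0^{vH} D² + (∫_0^{vH} D)²`                           (i)         u³ T₂                                      (C18a)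
  LH    `∫_0^{vH} D ∫_{vH}^1 D`                                 (i)         u² T₁ · uA                                 (C18b)
  HH    `KH ((∫_{vH}^1 D)² + ∫_{vH}^1 D²)`                      (i)         u · u² A²                                  (C18a)
  ppp   `D_{v0} ‖δ_{v0}‖_4²`                                    (ii)        λ^{0.07} d₀³ on average
  ppf   `‖δ_{v0}‖_4² ∫_0^1 D`                                   (ii)        d₀² (uA + u² T₁)                           (C18c)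
  pHH, HHH   `(‖δ_{v0}‖_{2l} + Rl + KH)((∫_{vH}^1 D^θ)² + ∫_{vH}^1 D^{2θ})`,  `θ = 1 - 1/(2l)`      (i),(ii)      u (uA)^{2θ}      (C18a), `l` large
-/

set_option autoImplicit false

namespace Claimed.Agent.R286

open MeasureTheory Set Filter Topology Asymptotics

noncomputable section

/-! ## 0. One-sided closed forms -/

section closed
variable {ι : Type} {N : ι → ℕ} {P P' : ι → Prop} {F G : ι → ℝ}

theorem bcl_U_mono (h : ∀ i, P' i → P i) : bdU N P' ≤ bdU N P := by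
  unfold bdU aqUnif
  exact inf_le_inf_left _ (principal_mono.2 fun i hi => h i hi)

theorem bcl_U_scale (N : ι → ℕ) (P : ι → Prop) : Tendsto (fun i => (N i : ℝ)) (bdU N P) atTop :=
  aq_unif_tendsto _ _

theorem bcl_U_tendsto {κ : Type} {M : κ → ℕ} {R : κ → Prop} (φ : ι → κ) (hN : ∀ i, M (φ i) = N i) (hP : ∀ i, P i → R (φ i)) :
    Tendsto φ (bdU N P) (bdU M R) := by
  unfold bdU
  rw [aq_unif_tendsto_iff]
  refine ⟨?_, (aq_unif_mem _ _).mono fun i hi => hP i hi⟩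
  have : ((fun k => (M k : ℝ)) ∘ φ) = fun i => (N i : ℝ) := by funext i; simp [hN]
  rw [this]
  exact aq_unif_tendsto _ _

theorem bcl_ev (h : ∃ N0 : ℕ, ∀ i, P i → N0 ≤ N i → G i ≤ F i) : ∀ᶠ i in bdU N P, G i ≤ F i := bd_ev_iff.2 h

theorem bcl_O_le (h : BdO N P F G) (hG : ∀ i, P i → 0 ≤ G i) :
    ∃ C : ℝ, 0 ≤ C ∧ ∃ N0 : ℕ, ∀ i, P i → N0 ≤ N i → |F i| ≤ C * G i := by
  obtain ⟨K, R, h⟩ := aq_unif_O_iff.1 h
  refine ⟨max K 0, le_max_right _ _, ⌈R⌉₊, fun i hP hN => ?_⟩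
  have h1 := h i hP ((Nat.le_ceil R).trans (by exact_mod_cast hN))
  rw [abs_of_nonneg (hG i hP)] at h1
  exact h1.trans (mul_le_mul_of_nonneg_right (le_max_left _ _) (hG i hP))

theorem bcl_sub_le (h : BdSub N P F G) (hG : ∀ i, P i → 0 ≤ G i) {ε : ℝ} (hε : 0 < ε) :
    ∃ C : ℝ, 0 ≤ C ∧ ∃ N0 : ℕ, ∀ i, P i → N0 ≤ N i → |F i| ≤ C * ((N i : ℝ) ^ ε * G i) :=
  bcl_O_le (h ε hε) fun i hP => mul_nonneg (Real.rpow_nonneg (Nat.cast_nonneg _) _) (hG i hP)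

theorem bcl_pow_le (h : BdPow N P F G) (hG : ∀ i, P i → 0 ≤ G i) :
    ∃ c : ℝ, 0 < c ∧ ∃ C : ℝ, 0 ≤ C ∧ ∃ N0 : ℕ, ∀ i, P i → N0 ≤ N i → |F i| ≤ C * ((N i : ℝ) ^ (-c) * G i) := by
  obtain ⟨c, hc, h⟩ := h
  exact ⟨c, hc, bcl_O_le h fun i hP => mul_nonneg (Real.rpow_nonneg (Nat.cast_nonneg _) _) (hG i hP)⟩

end closed

/-! ## 1. Definitions -/

/-- the free parameters of the master inequality -/
structure BclP where
  /-- the large moment order is `2 l` -/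
  l : ℕ
  /-- the observed fork (a mass) -/
  v0 : ℝ
  /-- low / high threshold (`c_H u` in the frame) -/
  vH : ℝ
  /-- number of high dyads `[w_k, 2 w_k]`, `w_k = vH 2^k` -/
  nd : ℕ
  /-- bound of the centred primitives over the high dyads -/
  Pm : ℝ
  /-- bound of `‖Q_v‖_{2l}` at the fork `vH` (hence at all lower forks) -/
  Rl : ℝ
  /-- bound of `K_s` just after `vH` -/
  KH : ℝ
  /-- bound of the difference quotients of `Γ_s'` across the time `K_s(v0)` -/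
  G2 : ℝ

namespace BclP
/-- `θ = 1 - 1/(2l)` : `‖δ‖_r ≤ 2 D^θ` for `1/(2l) + 2/r = 1` -/
def th (p : BclP) : ℝ := 1 - 1 / (2 * (p.l : ℝ))
/-- the lower end of the `k`-th high dyad -/
def w (p : BclP) (k : ℕ) : ℝ := p.vH * 2 ^ k
end BclP

namespace BdQ

variable {F : BdFr} {X : BdFix} (Q : BdQ F X) (W : BdWorld) (g : ℝ)

/-- `∫_a^b D_v dv` -/
def i1 (a b : ℝ) : ℝ := ∫ v in a..b, Q.Dq W g v
/-- `∫_a^b D_v² dv` -/
def i2 (a b : ℝ) : ℝ := ∫ v in a..b, Q.Dq2 W g v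
/-- `∫_a^b D_v^θ dv` -/
def iT (θ a b : ℝ) : ℝ := ∫ v in a..b, Q.Dq W g v ^ θ

/-- the difference quotients of `Γ_s'` ACROSS the time `t0`, at arbitrarily small scales, are at most `G`.
(At a time where `t ↦ |{K_s ≤ t}|` is continuous this says `|Γ_s''(t0)| = |E V_zzz² - 2 α_t E V_zz³| ≤ G`;  it follows from `BudB.Drift`, which only sees the IMAGE of the buffer.) -/
def GsLip (t0 G : ℝ) : Prop :=
  ∀ η : ℝ, 0 < η → ∃ t1 t2 : ℝ, t0 - η < t1 ∧ t1 < t0 ∧ t0 < t2 ∧ t2 < t0 + η ∧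
    |deriv (Q.Gs W g) t2 - deriv (Q.Gs W g) t1| ≤ G * (t2 - t1)

/-- admissible parameters of the master inequality -/
structure CloOk (p : BclP) : Prop where
  l2 : 2 ≤ p.l
  v0_pos : 0 < p.v0
  /-- the projection cuts `w_k / 2` lie strictly after the observed fork -/
  v0_vH : 4 * p.v0 ≤ p.vH
  vH1 : 2 * p.vH ≤ 1
  /-- the dyads `[w_k, min(2 w_k, 1)]`, `k < nd`, cover `[vH, 1]` and `w_k ≤ 1` -/
  nd_lo : 1 ≤ p.vH * 2 ^ p.nd
  nd_hi : p.vH * 2 ^ p.nd ≤ 2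
  /-- `v0` is a continuity cut -/
  cb : ContinuousAt (Q.bq g) p.v0
  ch : ContinuousAt (Q.hq g) p.v0
  cS : ContinuousAt (Q.Sq W g) p.v0
  /-- `K_s` is strictly increasing at `v0` (l.1967: "its field contains `C_0 r`") -/
  inc : ∀ v ∈ Ioo (0 : ℝ) 1, (v < p.v0 → Q.Ks W g v < Q.Ks W g p.v0) ∧ (p.v0 < v → Q.Ks W g p.v0 < Q.Ks W g v)
  Pm0 : 0 ≤ p.Pm
  /-- SOLID form (212, flag F3 of 143): the supremum over the weights `|κ| ≤ 1` of the dyad is INSIDE the limit along the chains; `bud_uq_prim1` (`Bud/PinUq.lean`) turns it into `B19Prim` -/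
  Pm : ∀ k < p.nd, Q.nLcU g ((Icc (p.w k) (min (2 * p.w k) 1)).indicator 1) ≤ p.Pm
  Rl0 : 0 ≤ p.Rl
  Rl : Q.nQ W g (2 * (p.l : ℝ)) p.vH 0 ≤ p.Rl
  KH : ∃ v1 : ℝ, p.vH < v1 ∧ v1 < 1 ∧ Q.Ks W g v1 ≤ p.KH
  G2 : Q.GsLip W g (Q.Ks W g p.v0) p.G2

/-- **the right side of the master inequality** (the 12 lines of the header, in that order) -/
def cloR (p : BclP) : ℝ :=
  1 / (F.m : ℝ)
  + p.G2 * Q.Dq2 W g p.v0
  + (p.KH + p.v0) * Q.alErr W g p.v0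
  + Q.Dq W g p.v0 * Q.i1 W g 0 p.vH
  + ∑ k ∈ Finset.range p.nd, Q.mPr W g 1 p.v0 (p.w k / 2) ^ (1 / (2 * ((1 : ℕ) : ℝ))) * Q.i1 W g (p.w k) (min (2 * p.w k) 1)
  + (p.nd : ℝ) * Q.Dq W g p.v0 * p.Pm
  + (Q.i2 W g 0 p.vH + Q.i1 W g 0 p.vH ^ 2)
  + Q.i1 W g 0 p.vH * Q.i1 W g p.vH 1
  + p.KH * (Q.i1 W g p.vH 1 ^ 2 + Q.i2 W g p.vH 1)
  + Q.Dq W g p.v0 * Q.nQ W g (2 * ((2 : ℕ) : ℝ)) p.v0 (Q.Sq W g p.v0) ^ 2
  + Q.nQ W g (2 * ((2 : ℕ) : ℝ)) p.v0 (Q.Sq W g p.v0) ^ 2 * (Q.i1 W g 0 p.vH + Q.i1 W g p.vH 1)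
  + (Q.nQ W g (2 * (p.l : ℝ)) p.v0 (Q.Sq W g p.v0) + p.Rl + p.KH) * (Q.iT W g p.th p.vH 1 ^ 2 + Q.iT W g (2 * p.th) p.vH 1)

end BdQ

namespace BudB

section Props

variable (X : BdFix) (W : BdWorld) (Fam : BdFr → Prop)

/-- **THE MASTER INEQUALITY OF THE ONE-ROW CLOSURE, PATH LEVEL.**   A law of the SK world: ANY feasible `Q` (no optimality, no frame hypothesis), any parameter, clocks bounded by `Q0`;
`C` depends on `(l, Q0)` only.      TEX[LL:bud:closure] l.1862-2012 without the power counting.      PROOF: `Bud/C19Path.lean` (MASTER of 180 + clock API). -/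
def CloMI (Q0 : ℝ) : Prop :=
  ∀ l : ℕ, 2 ≤ l → ∃ C : ℝ, 0 ≤ C ∧ ∀ (i : BdI X) (p : BclP), p.l = l → 2 ≤ i.F.m →
    IsClock 1 (i.Q.bq i.g) → IsClock 1 (i.Q.hq i.g) → (∀ v ∈ Ioo (0 : ℝ) 1, i.Q.bq i.g v ≤ Q0 ∧ i.Q.hq i.g v ≤ Q0) →
    i.Q.CloOk W i.g p →
      |i.Q.Sq W i.g p.v0 - i.Q.Gs W i.g (i.Q.Ks W i.g p.v0)| ≤ C * i.Q.cloR W i.g p

/-- [INPUT, world law; owner 61, `Bud/C19Path.lean`]  `E|X_v|⁴` is nondecreasing in the cut (martingale + Jensen), `E(Q_v - |X_v|²)² ≥ 0`.   Used ONLY for the integrability of the alias error on boxes. -/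
def CloX4 : Prop :=
  ∀ i : BdI X, 2 ≤ i.F.m → IsClock 1 (i.Q.bq i.g) → IsClock 1 (i.Q.hq i.g) →
    MonotoneOn (i.Q.mX W i.g 2) (Ioo 0 1) ∧ ∀ v ∈ Ioo (0 : ℝ) 1, 0 ≤ i.Q.alErr W i.g v

/-- [INPUT, owner N5 (109/141/7)]  **(C8)** at the fork `c_H u`, in every even moment: `‖Q_v‖_{2l} ≲_l u`  (after (C7): threshold `w_c ≤ u`).      TEX[LL:bud:outer-moments] -/
def C8low (n : ℕ) : Prop := ∀ l : ℕ, 1 ≤ l → ∃ C : ℝ, ∃ N0 : ℕ, ∀ i : BdVI X W, VSt X W Fam n i → N0 ≤ i.F.N →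
  i.V.Q.nQ W i.V.g (2 * (l : ℝ)) (X.cH * i.F.u) 0 ≤ C * i.F.u

/-- [INPUT, owner LL03 / frames (272, 157)]  the changed clocks are bounded uniformly in the family -/
def CloBd (n : ℕ) (Q0 : ℝ) : Prop := ∃ N0 : ℕ, ∀ i : BdVI X W, VSt X W Fam n i → N0 ≤ i.F.N →
  ∀ v ∈ Ioo (0 : ℝ) 1, i.V.Q.bq i.V.g v ≤ Q0 ∧ i.V.Q.hq i.V.g v ≤ Q0

/-- [INPUT, owner N11 (6): (P2)-(P7), (C7), (C8)]  `K_s(2 c_H u) ≲ u`  (l.1890 "since `K_s = O(u)` there") -/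
def CloKs (n : ℕ) : Prop := ∃ C : ℝ, ∃ N0 : ℕ, ∀ i : BdVI X W, VSt X W Fam n i → N0 ≤ i.F.N →
  i.V.Q.Ks W i.V.g (2 * (X.cH * i.F.u)) ≤ C * i.F.u

/-- [INPUT, owner N15 / N16 (8, 192)]  l.1912: `w z_w ≲ u² X³ Λ^{-1/3} λ^{-1/6}` for `c_H u ≤ w ≤ 1`  (`min(a,b) ≤ a^{2/3} b^{1/3}` and `w C(w) ≳ u C_0`, profile of PE (6)) -/
def CloZw : Prop := ∃ C : ℝ, ∃ N0 : ℕ, ∀ F : BdFr, F.Ok X → N0 ≤ F.N → ∀ w : ℝ, X.cH * F.u ≤ w → w ≤ 1 →
  w * F.zw X w ≤ C * (F.u ^ 2 * F.Xr ^ 3 * F.Lam ^ (-(1 / 3) : ℝ) * F.lam ^ (-(1 / 6) : ℝ))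

/-- the tolerance `u³ P₁` of (C19) -/
def tol (i : BdVI X W) : ℝ := i.F.u ^ 3 * i.V.P1

/-- `1 + D_v²/(d₀² λ^{0.14}) + E(Q_v - |X_v|²)²/(λ^{-ρ} u² A³)`: its two box averages are `≲_∘ 1` by (C15) -/
def yv (i : BdVI X W) (v : ℝ) : ℝ :=
  1 + i.V.Q.Dq2 W i.V.g v / (i.V.d0 ^ 2 * i.F.lam ^ (0.14 : ℝ)) + i.V.Q.alErr W i.V.g v / (i.F.lam ^ (-X.rho) * i.F.u ^ 2 * i.F.A ^ 3)

/-- **the pointwise form of (C19)**: at every continuity cut of the OPEN buffer shrunk by `s` -/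
def CloPt (n : ℕ) (s : ℝ) : Prop := ∃ c : ℝ, 0 < c ∧ ∃ C : ℝ, ∃ N0 : ℕ, ∀ i : BdVI X W, VSt X W Fam n i → N0 ≤ i.F.N →
  ∀ v ∈ Ioo (0 : ℝ) 1, i.V.Q.r v ∈ Ioo (i.V.r0 - s * i.V.bbuf) (i.V.r0 + s * i.V.bbuf) →
    ContinuousAt (i.V.Q.bq i.V.g) v → ContinuousAt (i.V.Q.hq i.V.g) v → ContinuousAt (i.V.Q.Sq W i.V.g) v →
      clo X W i v ≤ C * (i.F.N : ℝ) ^ (-c) * tol X W i * yv X W i v

end Props

end BudB

/-- forces the equation lemmas of the definitions to be generated HERE -/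
theorem bcl_defs_eqns_cite : True := by
  have := @BclP.th.eq_1; have := @BclP.w.eq_1; have := @BdQ.i1.eq_1; have := @BdQ.i2.eq_1; have := @BdQ.iT.eq_1
  have := @BdQ.GsLip.eq_1; have := @BdQ.cloR.eq_1; have := @BudB.CloMI.eq_1; have := @BudB.CloX4.eq_1; have := @BudB.C8low.eq_1
  have := @BudB.CloBd.eq_1; have := @BudB.CloKs.eq_1; have := @BudB.CloZw.eq_1; have := @BudB.tol.eq_1; have := @BudB.yv.eq_1
  have := @BudB.CloPt.eq_1
  trivial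

/-! ## 2. From the pointwise form to the box averages -/

/-- integration of a pointwise bound which holds off a countable set; NO integrability of the left side is needed -/
theorem bcl_int_le {a b : ℝ} (hab : a ≤ b) {f g : ℝ → ℝ} {Ex : Set ℝ} (hEx : Ex.Countable)
    (hg : IntervalIntegrable g volume a b) (hg0 : ∀ t ∈ Ioo a b, 0 ≤ g t)
    (hfg : ∀ t ∈ Ioo a b, t ∉ Ex → f t ≤ g t) : ∫ t in a..b, f t ≤ ∫ t in a..b, g t := by
  have hc : (Ex ∪ {a, b}).Countable := hEx.union (Set.countable_insert.2 (Set.countable_singleton b))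
  have hae := hc.ae_notMem (volume : Measure ℝ)
  have hIoo : ∀ t, t ∉ Ex ∪ {a, b} → t ∈ Icc a b → t ∈ Ioo a b ∧ t ∉ Ex := by
    intro t ht htI
    simp only [mem_union, mem_insert_iff, mem_singleton_iff, not_or] at ht
    exact ⟨⟨lt_of_le_of_ne htI.1 (Ne.symm ht.2.1), lt_of_le_of_ne htI.2 ht.2.2⟩, ht.1⟩
  by_cases hf : IntervalIntegrable f volume a b
  · refine intervalIntegral.integral_mono_ae_restrict hab hf hg ?_
    refine (ae_restrict_iff' measurableSet_Icc).2 (hae.mono fun t ht htI => ?_)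
    obtain ⟨h1, h2⟩ := hIoo t ht htI
    exact hfg t h1 h2
  · rw [intervalIntegral.integral_undef hf]
    refine intervalIntegral.integral_nonneg_of_ae_restrict hab ?_
    refine (ae_restrict_iff' measurableSet_Icc).2 (hae.mono fun t ht htI => ?_)
    exact hg0 t (hIoo t ht htI).1

/-- the discontinuities in `(0,1)` of a function which is monotone on `(0,1)` -/
theorem bcl_disc_countable {f : ℝ → ℝ} (hf : MonotoneOn f (Ioo 0 1)) : {v | v ∈ Ioo (0 : ℝ) 1 ∧ ¬ ContinuousAt f v}.Countable := by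
  refine hf.countable_not_continuousWithinAt.mono ?_
  intro v hv
  exact ⟨hv.1, fun hc => hv.2 (hc.continuousAt (isOpen_Ioo.mem_nhds hv.1))⟩

theorem bcl_N_small {c : ℝ} (hc : 0 < c) (K : ℝ) {ε : ℝ} (hε : 0 < ε) : ∃ N0 : ℕ, ∀ N : ℕ, N0 ≤ N → K * (N : ℝ) ^ (-c) ≤ ε := by
  have h1 : Tendsto (fun N : ℕ => K * (N : ℝ) ^ (-c)) atTop (𝓝 (K * 0)) :=
    ((tendsto_rpow_neg_atTop hc).comp tendsto_natCast_atTop_atTop).const_mul K
  rw [mul_zero] at h1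
  obtain ⟨N0, h⟩ := eventually_atTop.1 (h1.eventually (ge_mem_nhds hε))
  exact ⟨N0, h⟩

/-! ### the kit of one feasible `Q` -/

section kit

variable {X : BdFix} {W : BdWorld} {Fam : BdFr → Prop} {K : BdCst} {F : BdFr} {g : ℝ}

theorem bcl_kbar_nonneg (hF : F.Ok X) (r : ℝ) : 0 ≤ F.kbar X r := by
  unfold BdFr.kbar BdFr.k CmCall.k
  have h1 : 0 ≤ (F.call X).N ^ (F.call X).dl * (F.call X).us ^ 2 / (r + (F.call X).N ^ (2 * (F.call X).dl) * (F.call X).us) ^ 2 := by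
    have : 0 ≤ (F.call X).N ^ (F.call X).dl := Real.rpow_nonneg (by unfold CmCall.N; positivity) _
    positivity
  have h2 : 0 ≤ (if r ∈ Icc (F.Ilo * F.u) (F.Ihi * F.u) then F.kap else 0) := by
    split_ifs
    · exact hF.kap0
    · exact le_rfl
  linarith

theorem bcl_al_mono (Q : BdQ F X) (hF : F.Ok X) : MonotoneOn Q.al (Icc 0 1) := by
  intro r1 h1 r2 h2 h12
  have := Q.lo r1 r2 h1.1 h12 h2.2
  have h0 : 0 ≤ ∫ t in r1..r2, F.kbar X t :=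
    intervalIntegral.integral_nonneg h12 fun t _ => bcl_kbar_nonneg hF t
  linarith

theorem bcl_al_mem (Q : BdQ F X) (hF : F.Ok X) {t : ℝ} (ht : t ∈ Ioo (0 : ℝ) 1) : Q.al t ∈ Ioo (0 : ℝ) 1 := by
  have hm := bcl_al_mono Q hF
  have h0 : (0 : ℝ) ∈ Icc (0 : ℝ) 1 := ⟨le_rfl, zero_le_one⟩
  have h1 : (1 : ℝ) ∈ Icc (0 : ℝ) 1 := ⟨zero_le_one, le_rfl⟩
  have htI : t ∈ Icc (0 : ℝ) 1 := ⟨ht.1.le, ht.2.le⟩
  have a0 := hm h0 htI ht.1.le
  have a1 := hm htI h1 ht.2.le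
  rw [Q.al_zero] at a0
  rw [Q.al_one] at a1
  refine ⟨lt_of_le_of_ne a0 fun h => ?_, lt_of_le_of_ne a1 fun h => ?_⟩
  · have e1 := Q.r_al t htI
    have e2 := Q.r_al 0 h0
    rw [← h, ← Q.al_zero, e2] at e1
    exact ht.1.ne e1
  · have e1 := Q.r_al t htI
    have e2 := Q.r_al 1 h1
    rw [h, ← Q.al_one, e2] at e1
    exact ht.2.ne e1.symm

/-- `r` maps `[α a, α b]` into `[a, b]` -/
theorem bcl_r_mem (Q : BdQ F X) (hF : F.Ok X) {a b v : ℝ} (ha : a ∈ Icc (0 : ℝ) 1) (hb : b ∈ Icc (0 : ℝ) 1) (hv01 : v ∈ Icc (0 : ℝ) 1)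
    (hv : v ∈ Ioo (Q.al a) (Q.al b)) : Q.r v ∈ Icc a b := by
  have hm := bcl_al_mono Q hF
  have hr := Q.r_mem v hv01
  have e := Q.al_r v hv01
  constructor
  · by_contra h
    have := hm hr ha (not_le.1 h).le
    rw [e] at this
    exact absurd hv.1 (not_lt.2 this)
  · by_contra h
    have := hm hb hr (not_le.1 h).le
    rw [e] at this
    exact absurd hv.2 (not_lt.2 this)

variable (hS : BdStd X W Fam K) (hF : Fam F) (hg : g ∈ Icc (X.glo 0) (X.ghi 0)) (Q : BdQ F X)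
include hS hF hg

theorem bcl_S_mono : MonotoneOn (Q.Sq W g) (Ioo 0 1) := by
  obtain ⟨hb, hh⟩ := hS.clk F hF g hg Q
  have := (W.ps F.m).S_mono (Q.bq g) (Q.hq g) (by rw [hS.a1]; exact hb) (by rw [hS.a1]; exact hh)
  rw [hS.a1] at this
  exact this

theorem bcl_B_mono : MonotoneOn (Q.Bq W g) (Ioo 0 1) := by
  obtain ⟨hb, hh⟩ := hS.clk F hF g hg Q
  have := (W.ps F.m).B_mono (Q.bq g) (Q.hq g) (by rw [hS.a1]; exact hb) (by rw [hS.a1]; exact hh)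
  rw [hS.a1] at this
  exact this

theorem bcl_S_nonneg {v : ℝ} (hv : v ∈ Ioo (0 : ℝ) 1) : 0 ≤ Q.Sq W g v := by
  obtain ⟨hb, hh⟩ := hS.clk F hF g hg Q
  exact (W.ps F.m).S_nonneg (Q.bq g) (Q.hq g) (by rw [hS.a1]; exact hb) (by rw [hS.a1]; exact hh) v (by rw [hS.a1]; exact hv)

theorem bcl_D2_nonneg {v : ℝ} (hv : v ∈ Ioo (0 : ℝ) 1) : 0 ≤ Q.Dq2 W g v := by
  obtain ⟨hb, hh⟩ := hS.clk F hF g hg Q
  have := (W.ps F.m).S_sq_le (Q.bq g) (Q.hq g) (by rw [hS.a1]; exact hb) (by rw [hS.a1]; exact hh) v (by rw [hS.a1]; exact hv)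
  unfold BdQ.Dq2 BdQ.Bq BdQ.Sq
  linarith

theorem bcl_D2_le_one {v : ℝ} (hv : v ∈ Ioo (0 : ℝ) 1) : Q.Dq2 W g v ≤ 1 := by
  obtain ⟨hb, hh⟩ := hS.clk F hF g hg Q
  have := (W.ps F.m).B_le (Q.bq g) (Q.hq g) (by rw [hS.a1]; exact hb) (by rw [hS.a1]; exact hh) v (by rw [hS.a1]; exact hv)
  unfold BdQ.Dq2 BdQ.Bq
  nlinarith [sq_nonneg (Q.Sq W g v)]

/-- `D²` along a monotone map into `(0,1)` is integrable -/
theorem bcl_D2_int {a b : ℝ} (hab : a ≤ b) {φ : ℝ → ℝ} (hφ : MonotoneOn φ (Icc a b)) (hm : ∀ t ∈ Icc a b, φ t ∈ Ioo (0 : ℝ) 1) :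
    IntervalIntegrable (fun t => Q.Dq2 W g (φ t)) volume a b := by
  have h1 : MonotoneOn (fun t => Q.Bq W g (φ t)) (uIcc a b) := by
    rw [uIcc_of_le hab]
    exact fun s hs t ht hst => bcl_B_mono hS hF hg Q (hm s hs) (hm t ht) (hφ hs ht hst)
  have h2 : MonotoneOn (fun t => Q.Sq W g (φ t) ^ 2) (uIcc a b) := by
    rw [uIcc_of_le hab]
    exact fun s hs t ht hst => pow_le_pow_left₀ (bcl_S_nonneg hS hF hg Q (hm s hs))
      (bcl_S_mono hS hF hg Q (hm s hs) (hm t ht) (hφ hs ht hst)) 2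
  exact h1.intervalIntegrable.sub h2.intervalIntegrable

end kit

namespace BudB

variable {X : BdFix} {W : BdWorld} {Fam : BdFr → Prop} {K : BdCst}

/-- elementary facts on a buffered violation of large size -/
structure VF (Fam : BdFr → Prop) (i : BdVI X W) : Prop where
  fam : Fam i.F
  ok : i.F.Ok X
  vok : i.V.Ok 2
  g0 : i.V.g ∈ Icc (X.glo 0) (X.ghi 0)
  L1 : i.V.L ≤ 1
  L0 : 0 < i.V.L
  hyp : BpHyp X.tau X.tau0 X.eta X.rho (1 / 10000) i.F.lam i.F.Xr (i.F.Zj X W i.V.g) i.V.L (i.F.wz X)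
  cIu : X.cI * i.F.u < 1
  cHu : 4 * (X.cH * i.F.u) ≤ 1
  m2 : 2 ≤ i.F.m
  buf : ∀ r ∈ i.V.Buf 1, 0 < r ∧ r < X.cI * i.F.u

theorem bcl_vf (hS : BdStd X W Fam K) {n : ℕ} (hn : n ≤ X.J + 1) (hZ : BudZ X W Fam n) :
    ∃ N0 : ℕ, ∀ i : BdVI X W, VSt X W Fam n i → N0 ≤ i.F.N → VF Fam i := by
  have hX := hS.fix
  obtain ⟨N1, h1⟩ := bds_big_ev X hX
  obtain ⟨_, N2, h2⟩ := hZ
  have hε : 0 < 1 / (2 * X.cI + 4 * X.cH + 1) := by
    have := hX.cI_pos; have := hX.cH_pos; positivity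
  obtain ⟨N3, h3⟩ := ev_lam hX hX.bl_pos hε
  refine ⟨max (max N1 N2) (max N3 4), fun i hi hN => ?_⟩
  obtain ⟨hFam, hAt, hst, hV, hL1⟩ := hi
  have hF := hS.ok _ hFam
  have hN1 : N1 ≤ i.F.N := le_trans (le_trans (le_max_left _ _) (le_max_left _ _)) hN
  have hN2 : N2 ≤ i.F.N := le_trans (le_trans (le_max_right _ _) (le_max_left _ _)) hN
  have hN3 : N3 ≤ i.F.N := le_trans (le_trans (le_max_left _ _) (le_max_right _ _)) hN
  have hN4 : 4 ≤ i.F.N := le_trans (le_trans (le_max_right _ _) (le_max_right _ _)) hN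
  have hZ1 : 1 ≤ i.F.Zj X W i.V.g := (h2 i.F ⟨hFam, hAt, hst⟩ hN2).1 _ (by have := hV.g_mem; rwa [hst] at this)
  have hyp := bpf_hyp_viol i.V hF hX (h1 i.F hF hN1) hV hL1 hZ1
  have hu := BdFr.bds_u_pos hF hX
  have hu2 : i.F.u ≤ 1 / (2 * X.cI + 4 * X.cH + 1) := hF.u_hi.trans (h3 i.F hF hN3)
  have hcI := hX.cI_pos
  have hcH := hX.cH_pos
  have hden : 0 < 2 * X.cI + 4 * X.cH + 1 := by positivity
  have hu3 : i.F.u * (2 * X.cI + 4 * X.cH + 1) ≤ 1 := by rwa [le_div_iff₀ hden] at hu2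
  obtain ⟨n1, n2, n3, n4⟩ := fix_nest hX n hn
  have hL0 : 0 < i.V.L := lt_of_lt_of_le
    (mul_pos (mul_pos (Real.rpow_pos_of_pos hyp.X0 _) (Real.rpow_pos_of_pos hyp.lam0 _)) (lt_of_lt_of_le one_pos hZ1)) hyp.L0
  have hbb : 0 ≤ i.V.bbuf := by
    unfold BdViol.bbuf
    exact mul_nonneg hu.le (add_nonneg (Real.sqrt_nonneg _) (Real.rpow_nonneg hyp.lam0.le _))
  refine ⟨hFam, hF, hV, ⟨?_, ?_⟩, hL1, hL0, hyp, by nlinarith, by nlinarith, ?_, ?_⟩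
  · have := hV.g_mem.1; rw [hst] at this; linarith
  · have := hV.g_mem.2; rw [hst] at this; linarith
  · have h5 := hF.m_lo
    have h6 : (4 : ℝ) ≤ i.F.N := by exact_mod_cast hN4
    have : (2 : ℝ) ≤ i.F.m := by linarith
    exact_mod_cast this
  · intro r hr
    obtain ⟨p1, _, _, _, p5⟩ := hX.pat n hn
    have q1 := hV.r0_mem.1.1
    have q2 := hV.r0_mem.2.2
    rw [hst] at q1 q2
    have r1 := hr.1
    have r2 := hr.2
    rw [one_mul] at r1 r2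
    constructor
    · have := mul_pos p1 hu
      linarith
    · have := mul_lt_mul_of_pos_right p5 hu
      linarith

theorem VF.u_pos {i : BdVI X W} (h : VF Fam i) (hX : X.Ok) : 0 < i.F.u := BdFr.bds_u_pos h.ok hX

theorem VF.d0_pos {i : BdVI X W} (h : VF Fam i) (hX : X.Ok) : 0 < i.V.d0 := mul_pos (h.u_pos hX) h.L0

theorem VF.bbuf_pos {i : BdVI X W} (h : VF Fam i) (hX : X.Ok) : 0 < i.V.bbuf :=
  mul_pos (h.u_pos hX) (add_pos_of_nonneg_of_pos (Real.sqrt_nonneg _) (Real.rpow_pos_of_pos h.hyp.lam0 _))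

/-- `σ₂ = d₀² λ^{0.14}` -/
theorem VF.s2_pos {i : BdVI X W} (h : VF Fam i) (hX : X.Ok) : 0 < i.V.d0 ^ 2 * i.F.lam ^ (0.14 : ℝ) :=
  mul_pos (pow_pos (h.d0_pos hX) 2) (Real.rpow_pos_of_pos h.hyp.lam0 _)

/-- `σ₃ = λ^{-ρ} u² A³` -/
theorem VF.s3_pos {i : BdVI X W} (h : VF Fam i) (hX : X.Ok) : 0 < i.F.lam ^ (-X.rho) * i.F.u ^ 2 * i.F.A ^ 3 :=
  mul_pos (mul_pos (Real.rpow_pos_of_pos h.hyp.lam0 _) (pow_pos (h.u_pos hX) 2)) (pow_pos (BdFr.bds_A_pos h.ok hX) 3)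

theorem VF.G1_pos {i : BdVI X W} (h : VF Fam i) : 0 < i.V.G1 := by
  unfold BdViol.G1 BdFr.Lam
  exact lt_min (lt_max_of_lt_right h.hyp.lam0) (Real.rpow_pos_of_pos h.hyp.lam0 _)

theorem VF.tol_pos {i : BdVI X W} (h : VF Fam i) (hX : X.Ok) : 0 < tol X W i := by
  unfold tol BdViol.P1
  exact mul_pos (pow_pos (h.u_pos hX) 3) (mul_pos h.L0 h.G1_pos)

theorem VF.buf_sub {i : BdVI X W} (h : VF Fam i) (hX : X.Ok) {s s' : ℝ} (hss : s ≤ s') : i.V.Buf s ⊆ i.V.Buf s' := by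
  intro r hr
  have := mul_le_mul_of_nonneg_right hss (h.bbuf_pos hX).le
  exact ⟨by linarith [hr.1], by linarith [hr.2]⟩

/-- one box integral, along a monotone map `φ` into `(0,1)` -/
theorem bcl_box_one (hS : BdStd X W Fam K) {i : BdVI X W} (hv : VF Fam i) (hx4 : MonotoneOn (i.V.Q.mX W i.V.g 2) (Ioo 0 1))
    (he0 : ∀ v ∈ Ioo (0 : ℝ) 1, 0 ≤ i.V.Q.alErr W i.V.g v) {a b : ℝ} (hab : a ≤ b) {φ : ℝ → ℝ} (hφ : MonotoneOn φ (Icc a b))
    (hm : ∀ t ∈ Icc a b, φ t ∈ Ioo (0 : ℝ) 1) {Ex : Set ℝ} (hEx : Ex.Countable) {E : ℝ} (hE : 0 ≤ E)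
    (hpt : ∀ t ∈ Ioo a b, t ∉ Ex → clo X W i (φ t) ≤ E * yv X W i (φ t)) :
    ∫ t in a..b, clo X W i (φ t) ≤ E * ((b - a) + (∫ t in a..b, i.V.Q.Dq2 W i.V.g (φ t)) / (i.V.d0 ^ 2 * i.F.lam ^ (0.14 : ℝ))
      + (∫ t in a..b, i.V.Q.alErr W i.V.g (φ t)) / (i.F.lam ^ (-X.rho) * i.F.u ^ 2 * i.F.A ^ 3)) := by
  have hX := hS.fix
  have i2 := bcl_D2_int hS hv.fam hv.g0 i.V.Q hab hφ hm
  have i3 : IntervalIntegrable (fun t => i.V.Q.alErr W i.V.g (φ t)) volume a b := by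
    have h1 : MonotoneOn (fun t => i.V.Q.Bq W i.V.g (φ t)) (uIcc a b) := by
      rw [uIcc_of_le hab]
      exact fun s hs t ht hst => bcl_B_mono hS hv.fam hv.g0 i.V.Q (hm s hs) (hm t ht) (hφ hs ht hst)
    have h2 : MonotoneOn (fun t => i.V.Q.mX W i.V.g 2 (φ t)) (uIcc a b) := by
      rw [uIcc_of_le hab]
      exact fun s hs t ht hst => hx4 (hm s hs) (hm t ht) (hφ hs ht hst)
    exact h1.intervalIntegrable.sub h2.intervalIntegrable
  have i2' := i2.div_const (i.V.d0 ^ 2 * i.F.lam ^ (0.14 : ℝ))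
  have i3' := i3.div_const (i.F.lam ^ (-X.rho) * i.F.u ^ 2 * i.F.A ^ 3)
  have i1 : IntervalIntegrable (fun _ : ℝ => (1 : ℝ)) volume a b := intervalIntegrable_const
  have iy : IntervalIntegrable (fun t => yv X W i (φ t)) volume a b := (i1.add i2').add i3'
  have hy0 : ∀ t ∈ Ioo a b, 0 ≤ yv X W i (φ t) := by
    intro t ht
    have hmt := hm t ⟨ht.1.le, ht.2.le⟩
    unfold yv
    have := div_nonneg (bcl_D2_nonneg hS hv.fam hv.g0 i.V.Q hmt) (hv.s2_pos hX).le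
    have := div_nonneg (he0 _ hmt) (hv.s3_pos hX).le
    linarith
  have key := bcl_int_le hab hEx (iy.const_mul E) (fun t ht => mul_nonneg hE (hy0 t ht)) hpt
  refine key.trans (le_of_eq ?_)
  rw [intervalIntegral.integral_const_mul]
  congr 1
  have e1 : (∫ t in a..b, yv X W i (φ t)) = (∫ _t in a..b, (1 : ℝ))
      + (∫ t in a..b, i.V.Q.Dq2 W i.V.g (φ t) / (i.V.d0 ^ 2 * i.F.lam ^ (0.14 : ℝ)))
      + ∫ t in a..b, i.V.Q.alErr W i.V.g (φ t) / (i.F.lam ^ (-X.rho) * i.F.u ^ 2 * i.F.A ^ 3) := by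
    rw [← intervalIntegral.integral_add i1 i2', ← intervalIntegral.integral_add (i1.add i2') i3']
    rfl
  rw [e1, intervalIntegral.integral_div, intervalIntegral.integral_div]
  simp

/-- the mass of a radius interval of the buffer -/
theorem bcl_mass (hS : BdStd X W Fam K) {i : BdVI X W} (hv : VF Fam i) {a b : ℝ} (ha : a ∈ i.V.Buf 1) (hb : b ∈ i.V.Buf 1) (hab : a ≤ b) :
    i.V.Q.al b - i.V.Q.al a ≤ 4 * i.V.d0 + |K.Cb| * (b - a) := by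
  have h1 := hv.vok.buf a (abs_le.2 ⟨by have := ha.1; linarith, by have := ha.2; linarith⟩)
  have h2 := hv.vok.buf b (abs_le.2 ⟨by have := hb.1; linarith, by have := hb.2; linarith⟩)
  have h3 := (hS.beta i.F hv.fam a b (hv.buf a ha).1.le hab (hv.buf b hb).2.le).2
  have h4 : K.Cb * (b - a) ≤ |K.Cb| * (b - a) := mul_le_mul_of_nonneg_right (le_abs_self _) (by linarith)
  have := abs_le.1 h1
  have := abs_le.1 h2
  linarith [this.1, this.2]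

/-- **BOX**: the pointwise form + (C15), second and third assertions ⟹ (C19) -/
theorem bcl_box (hS : BdStd X W Fam K) {n : ℕ} (hn : n ≤ X.J + 1) (hZ : BudZ X W Fam n) {s s15 : ℝ} (hs : 0 < s)
    (hpt : CloPt X W Fam n s) (hx4 : CloX4 X W)
    (h15 : ∀ c C : ℝ, 0 < c → BudC15b X W Fam n 2 s15 c C ∧ BudC15c X W Fam n 2 s15 c C) :
    C19 X W Fam n (min (min (s / 2) s15) 1) := by
  have hX := hS.fix
  intro c C ε hc hcC hε
  obtain ⟨c0, hc0, C0, N0, hpt⟩ := hpt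
  obtain ⟨Nv, hvf⟩ := bcl_vf hS hn hZ
  obtain ⟨hb, hcc⟩ := h15 c C hc
  -- nonnegativity of the comparison functions is needed on the whole class: use the closed forms with absolute values
  obtain ⟨K1, R1, hb⟩ := aq_unif_O_iff.1 hb
  obtain ⟨K2, R2, hcc⟩ := aq_unif_O_iff.1 (hcc (c0 / 2) (half_pos hc0))
  set KK : ℝ := max C0 0 * ((C + 4 + |K.Cb| * C + max K1 0) + max K2 0) with hKK
  obtain ⟨N4, h4⟩ := bcl_N_small (half_pos hc0) KK hε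
  refine ⟨max (max N0 Nv) (max (max ⌈R1⌉₊ ⌈R2⌉₊) (max N4 1)), fun i hi hN a b hbox => ?_⟩
  have hN0 : N0 ≤ i.F.N := le_trans (le_trans (le_max_left _ _) (le_max_left _ _)) hN
  have hNv : Nv ≤ i.F.N := le_trans (le_trans (le_max_right _ _) (le_max_left _ _)) hN
  have hR1 : R1 ≤ i.F.N := (Nat.le_ceil R1).trans (by
    exact_mod_cast le_trans (le_trans (le_max_left _ _) (le_trans (le_max_left _ _) (le_max_right _ _))) hN)
  have hR2 : R2 ≤ i.F.N := (Nat.le_ceil R2).trans (by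
    exact_mod_cast le_trans (le_trans (le_max_right _ _) (le_trans (le_max_left _ _) (le_max_right _ _))) hN)
  have hN4 : N4 ≤ i.F.N := le_trans (le_trans (le_max_left _ _) (le_trans (le_max_right _ _) (le_max_right _ _))) hN
  have hN1 : 1 ≤ i.F.N := le_trans (le_trans (le_max_right _ _) (le_trans (le_max_right _ _) (le_max_right _ _))) hN
  have hv := hvf i hi hNv
  have hd0 := hv.d0_pos hX
  have hbb := hv.bbuf_pos hX
  obtain ⟨ha, hb', hl1, hl2⟩ := hbox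
  have hab : a ≤ b := by nlinarith
  have ha1 : a ∈ i.V.Buf 1 := hv.buf_sub hX (min_le_right _ _) ha
  have hb1 : b ∈ i.V.Buf 1 := hv.buf_sub hX (min_le_right _ _) hb'
  have ha15 : a ∈ i.V.Buf s15 := hv.buf_sub hX ((min_le_left _ _).trans (min_le_right _ _)) ha
  have hb15 : b ∈ i.V.Buf s15 := hv.buf_sub hX ((min_le_left _ _).trans (min_le_right _ _)) hb'
  have hss : min (min (s / 2) s15) 1 ≤ s / 2 := (min_le_left _ _).trans (min_le_left _ _)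
  have hopen : ∀ r ∈ Icc a b, r ∈ Ioo (i.V.r0 - s * i.V.bbuf) (i.V.r0 + s * i.V.bbuf) := by
    intro r hr
    have e1 := (hv.buf_sub hX hss ha).1
    have e2 := (hv.buf_sub hX hss hb').2
    have : s / 2 * i.V.bbuf < s * i.V.bbuf := mul_lt_mul_of_pos_right (by linarith) hbb
    exact ⟨by linarith [hr.1], by linarith [hr.2]⟩
  have h01 : ∀ r ∈ Icc a b, r ∈ Ioo (0 : ℝ) 1 := by
    intro r hr
    exact ⟨lt_of_lt_of_le (hv.buf a ha1).1 hr.1, lt_of_le_of_lt hr.2 ((hv.buf b hb1).2.trans hv.cIu)⟩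
  have hal := bcl_al_mono i.V.Q hv.ok
  have hal' : MonotoneOn i.V.Q.al (Icc a b) := hal.mono fun r hr => ⟨(h01 r hr).1.le, (h01 r hr).2.le⟩
  have haI : a ∈ Icc a b := ⟨le_rfl, hab⟩
  have hbI : b ∈ Icc a b := ⟨hab, le_rfl⟩
  have hαab : i.V.Q.al a ≤ i.V.Q.al b := hal' haI hbI hab
  have hαa := bcl_al_mem i.V.Q hv.ok (h01 a haI)
  have hαb := bcl_al_mem i.V.Q hv.ok (h01 b hbI)
  obtain ⟨hbq, hhq⟩ := hS.clk i.F hv.fam i.V.g hv.g0 i.V.Q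
  obtain ⟨hx4m, he0⟩ := hx4 ⟨i.F, i.V.g, i.V.Q⟩ hv.m2 hbq hhq
  -- the exceptional set
  set Ex : Set ℝ := {v | v ∈ Ioo (0 : ℝ) 1 ∧ ¬ ContinuousAt (i.V.Q.bq i.V.g) v} ∪ {v | v ∈ Ioo (0 : ℝ) 1 ∧ ¬ ContinuousAt (i.V.Q.hq i.V.g) v}
    ∪ {v | v ∈ Ioo (0 : ℝ) 1 ∧ ¬ ContinuousAt (i.V.Q.Sq W i.V.g) v} with hEx
  have hExc : Ex.Countable := ((bcl_disc_countable hbq.mono).union (bcl_disc_countable hhq.mono)).union
    (bcl_disc_countable (bcl_S_mono hS hv.fam hv.g0 i.V.Q))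
  have hNpos : (0 : ℝ) < i.F.N := by exact_mod_cast hN1
  set E : ℝ := max C0 0 * (i.F.N : ℝ) ^ (-c0) * tol X W i with hE
  have hE0 : 0 ≤ E := mul_nonneg (mul_nonneg (le_max_right _ _) (Real.rpow_nonneg hNpos.le _)) (hv.tol_pos hX).le
  have hyv0 : ∀ v ∈ Ioo (0 : ℝ) 1, 0 ≤ yv X W i v := by
    intro v hv'
    unfold yv
    have := div_nonneg (bcl_D2_nonneg hS hv.fam hv.g0 i.V.Q hv') (hv.s2_pos hX).le
    have := div_nonneg (he0 _ hv') (hv.s3_pos hX).le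
    linarith
  have hptE : ∀ v ∈ Ioo (0 : ℝ) 1, i.V.Q.r v ∈ Icc a b → v ∉ Ex → clo X W i v ≤ E * yv X W i v := by
    intro v hv' hr hvE
    simp only [hEx, mem_union, mem_ofPred_eq, not_or, not_and, not_not] at hvE
    have := hpt i hi hN0 v hv' (hopen _ hr) (hvE.1.1 hv') (hvE.1.2 hv') (hvE.2 hv')
    refine this.trans ?_
    rw [hE]
    refine mul_le_mul_of_nonneg_right ?_ (hyv0 v hv')
    refine mul_le_mul_of_nonneg_right ?_ (hv.tol_pos hX).le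
    exact mul_le_mul_of_nonneg_right (le_max_left _ _) (Real.rpow_nonneg hNpos.le _)
  -- radius average
  have hR := bcl_box_one hS hv hx4m he0 hab hal' (fun t ht => bcl_al_mem i.V.Q hv.ok (h01 t ht))
    (Ex := i.V.Q.r '' Ex) (hExc.image _) hE0 (fun t ht htE => hptE _ (bcl_al_mem i.V.Q hv.ok (h01 t ⟨ht.1.le, ht.2.le⟩))
      (by rw [i.V.Q.r_al t ⟨(h01 t ⟨ht.1.le, ht.2.le⟩).1.le, (h01 t ⟨ht.1.le, ht.2.le⟩).2.le⟩]; exact ⟨ht.1.le, ht.2.le⟩)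
      (fun hE' => htE ⟨_, hE', i.V.Q.r_al t ⟨(h01 t ⟨ht.1.le, ht.2.le⟩).1.le, (h01 t ⟨ht.1.le, ht.2.le⟩).2.le⟩⟩))
  -- mass average
  have hV := bcl_box_one hS hv hx4m he0 hαab (φ := fun t => t) (fun _ _ _ _ h => h)
    (fun t ht => ⟨lt_of_lt_of_le hαa.1 ht.1, lt_of_le_of_lt ht.2 hαb.2⟩) hExc hE0
    (fun t ht htE => hptE t ⟨lt_trans hαa.1 ht.1, lt_trans ht.2 hαb.2⟩
      (bcl_r_mem i.V.Q hv.ok ⟨(h01 a haI).1.le, (h01 a haI).2.le⟩ ⟨(h01 b hbI).1.le, (h01 b hbI).2.le⟩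
        ⟨(lt_trans hαa.1 ht.1).le, (lt_trans ht.2 hαb.2).le⟩ ht) htE)
  -- the inputs
  have hbox15 : i.V.IsBox s15 c C a b := ⟨ha15, hb15, hl1, hl2⟩
  have hi' : i.Ok Fam n 2 := hi
  have b1 := hb (i, a, b) ⟨hi', hbox15⟩ hR1
  have b2 := hcc (i, a, b) ⟨hi', hbox15⟩ hR2
  simp only [BdViol.avgR, BdViol.avgV] at b1 b2 ⊢
  set IR2 := ∫ r in a..b, i.V.Q.Dq2 W i.V.g (i.V.Q.al r) with hIR2
  set IV2 := ∫ v in (i.V.Q.al a)..(i.V.Q.al b), i.V.Q.Dq2 W i.V.g v with hIV2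
  set IRe := ∫ r in a..b, i.V.Q.alErr W i.V.g (i.V.Q.al r) with hIRe
  set IVe := ∫ v in (i.V.Q.al a)..(i.V.Q.al b), i.V.Q.alErr W i.V.g v with hIVe
  set σ2 := i.V.d0 ^ 2 * i.F.lam ^ (0.14 : ℝ) with hσ2
  set σ3 := i.F.lam ^ (-X.rho) * i.F.u ^ 2 * i.F.A ^ 3 with hσ3
  have s2 : 0 < σ2 := hv.s2_pos hX
  have s3 : 0 < σ3 := hv.s3_pos hX
  have hNe : 0 < (i.F.N : ℝ) ^ (c0 / 2) := Real.rpow_pos_of_pos hNpos _
  rw [abs_of_pos s2] at b1
  rw [abs_of_pos (mul_pos hNe s3)] at b2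
  have b1' : (IR2 + IV2) / σ2 ≤ i.V.d0 * max K1 0 := by
    rw [div_le_iff₀ s2]
    have e := (le_abs_self _).trans b1
    have e2 : K1 * σ2 ≤ max K1 0 * σ2 := mul_le_mul_of_nonneg_right (le_max_left _ _) s2.le
    have e3 : IR2 + IV2 = i.V.d0 * (i.V.d0⁻¹ * IR2 + i.V.d0⁻¹ * IV2) := by field_simp
    rw [e3, mul_assoc]
    exact mul_le_mul_of_nonneg_left (e.trans e2) hd0.le
  have b2' : (IRe + IVe) / σ3 ≤ i.V.d0 * (max K2 0 * (i.F.N : ℝ) ^ (c0 / 2)) := by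
    rw [div_le_iff₀ s3]
    have e := (le_abs_self _).trans b2
    have e2 : K2 * ((i.F.N : ℝ) ^ (c0 / 2) * σ3) ≤ max K2 0 * ((i.F.N : ℝ) ^ (c0 / 2) * σ3) :=
      mul_le_mul_of_nonneg_right (le_max_left _ _) (mul_pos hNe s3).le
    have e3 : IRe + IVe = i.V.d0 * (i.V.d0⁻¹ * IRe + i.V.d0⁻¹ * IVe) := by field_simp
    rw [e3, mul_assoc, mul_assoc]
    exact mul_le_mul_of_nonneg_left (e.trans e2) hd0.le
  have hmass := bcl_mass hS hv ha1 hb1 hab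
  have hN1' : (1 : ℝ) ≤ i.F.N := by exact_mod_cast hN1
  have hNe1 : 1 ≤ (i.F.N : ℝ) ^ (c0 / 2) := Real.one_le_rpow hN1' (half_pos hc0).le
  have hsum : (∫ r in a..b, clo X W i (i.V.Q.al r)) + (∫ v in (i.V.Q.al a)..(i.V.Q.al b), clo X W i v)
      ≤ E * (i.V.d0 * (((C + 4 + |K.Cb| * C + max K1 0) + max K2 0) * (i.F.N : ℝ) ^ (c0 / 2))) := by
    have e1 : (∫ r in a..b, clo X W i (i.V.Q.al r)) + (∫ v in (i.V.Q.al a)..(i.V.Q.al b), clo X W i v)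
        ≤ E * (((b - a) + (i.V.Q.al b - i.V.Q.al a)) + (IR2 + IV2) / σ2 + (IRe + IVe) / σ3) := by
      have := add_le_add hR hV
      refine this.trans (le_of_eq ?_)
      ring
    refine e1.trans (mul_le_mul_of_nonneg_left ?_ hE0)
    have hCb : |K.Cb| * (b - a) ≤ |K.Cb| * (C * i.V.d0) := mul_le_mul_of_nonneg_left hl2 (abs_nonneg _)
    have hK1 : 0 ≤ max K1 0 := le_max_right _ _
    have hK2 : 0 ≤ max K2 0 := le_max_right _ _
    have hC0 : 0 ≤ C := by linarith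
    have hA : 0 ≤ C + 4 + |K.Cb| * C + max K1 0 := by positivity
    have e4 : i.V.d0 * (C + 4 + |K.Cb| * C + max K1 0) ≤ i.V.d0 * ((C + 4 + |K.Cb| * C + max K1 0) * (i.F.N : ℝ) ^ (c0 / 2)) :=
      mul_le_mul_of_nonneg_left (le_mul_of_one_le_right hA hNe1) hd0.le
    have e5 : i.V.d0 * (C + 4 + |K.Cb| * C + max K1 0) = C * i.V.d0 + 4 * i.V.d0 + |K.Cb| * (C * i.V.d0) + i.V.d0 * max K1 0 := by ring
    have e6 : i.V.d0 * (((C + 4 + |K.Cb| * C + max K1 0) + max K2 0) * (i.F.N : ℝ) ^ (c0 / 2))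
        = i.V.d0 * ((C + 4 + |K.Cb| * C + max K1 0) * (i.F.N : ℝ) ^ (c0 / 2)) + i.V.d0 * (max K2 0 * (i.F.N : ℝ) ^ (c0 / 2)) := by ring
    rw [e6]
    linarith
  have hfin : i.V.d0⁻¹ * (∫ r in a..b, clo X W i (i.V.Q.al r)) + i.V.d0⁻¹ * (∫ v in (i.V.Q.al a)..(i.V.Q.al b), clo X W i v)
      ≤ KK * (i.F.N : ℝ) ^ (-(c0 / 2)) * tol X W i := by
    rw [← mul_add]
    calc i.V.d0⁻¹ * ((∫ r in a..b, clo X W i (i.V.Q.al r)) + (∫ v in (i.V.Q.al a)..(i.V.Q.al b), clo X W i v))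
        ≤ i.V.d0⁻¹ * (E * (i.V.d0 * (((C + 4 + |K.Cb| * C + max K1 0) + max K2 0) * (i.F.N : ℝ) ^ (c0 / 2)))) :=
          mul_le_mul_of_nonneg_left hsum (inv_nonneg.2 hd0.le)
      _ = KK * ((i.F.N : ℝ) ^ (-c0) * (i.F.N : ℝ) ^ (c0 / 2)) * tol X W i := by
          rw [hE, hKK]; field_simp
      _ = KK * (i.F.N : ℝ) ^ (-(c0 / 2)) * tol X W i := by
          rw [← Real.rpow_add hNpos]; congr 3; ring
  refine hfin.trans ?_
  exact mul_le_mul_of_nonneg_right (h4 _ hN4) (hv.tol_pos hX).le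

end BudB

end

end Claimed.Agent.R286
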