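import Claimed.Agent.R286.Bud.C19Defs

/-!
# Row 286, LL sec. 7, node N17 = (C19), `Bud/C19CombA.lean`: PROVED KIT for `Bud/C19Comb.lean`: combinatorics of the signed sums `b19D2`, `b19A2`, `b19A3`      (helper249; chief helper180; prefix `b19c_`)

BLUEPRINT `git show origin/helper180:notes/R286/N17_180.md` sec.3 (DENS) and sec.6.
* sec.1  masses of a step path: `b19c_isMs`, `b19c_gap`, `b19c_gap_sum`
* sec.2  calculus of `trSumK`, `trAbsK` (sums, monotonicity with memory of the old tree), FLAT forms `b19c_A2_flat`, `b19c_A3_flat`, `b19c_D2_flat`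
* sec.3  DENS: the two-slot split density `b19c_dens2` (`tr_split_density_multi` summed against two functions of the levels)
-/

set_option autoImplicit false

namespace Claimed.Agent.R286

open MeasureTheory Set Filter Topology

noncomputable section

/-! ## 1. Masses -/

theorem b19c_ms_mono {a : ℝ} (ha : 0 < a) {P : SkStp} (hP : SkAdm a P) : Monotone (skMs a P) := by
  refine monotone_nat_of_le_succ fun j => ?_
  have h := pin_gap_nonneg ha P hP (j + 1)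
  unfold skGap at h
  rw [if_neg (Nat.succ_ne_zero j), Nat.add_sub_cancel] at h
  linarith

theorem b19c_isMs {a : ℝ} (ha : 0 < a) {P : SkStp} (hP : SkAdm a P) : IsMs P.length (skMs a P) :=
  ⟨fun j => (pin_ms_bd ha P hP j).1, fun _ _ hij _ => b19c_ms_mono ha hP hij⟩

theorem b19c_ms_top (a : ℝ) (P : SkStp) : skMs a P P.length = a := pin_ms_ge a P le_rfl

theorem b19c_gap (a : ℝ) (P : SkStp) (j : ℕ) : skMs a P j - trPm (skMs a P) j = skGap a P j := rfl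

theorem b19c_gap_sum (a : ℝ) (P : SkStp) (M : ℕ) : ∑ j ∈ Finset.range (M + 1), skGap a P j = skMs a P M := by
  induction M with
  | zero => simp [skGap]
  | succ M ih =>
    rw [Finset.sum_range_succ, ih]
    unfold skGap
    rw [if_neg (Nat.succ_ne_zero M), Nat.add_sub_cancel]
    ring

/-! ## 2. Calculus of the sums over attachments -/

theorem b19c_sumK_add (ms : ℕ → ℝ) (N k : ℕ) : ∀ (q : ℕ) (τ : ℕ → ℕ → ℕ) (Φ Ψ : (ℕ → ℕ → ℕ) → ℝ),
    trSumK ms N k q τ (fun τ' => Φ τ' + Ψ τ') = trSumK ms N k q τ Φ + trSumK ms N k q τ Ψ := by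
  induction k with
  | zero => intro q τ Φ Ψ; rfl
  | succ k ih =>
    intro q τ Φ Ψ
    simp only [trSumK, trSum, ih, mul_add, Finset.sum_add_distrib]

theorem b19c_absK_add (ms : ℕ → ℝ) (N k : ℕ) : ∀ (q : ℕ) (τ : ℕ → ℕ → ℕ) (Φ Ψ : (ℕ → ℕ → ℕ) → ℝ),
    trAbsK ms N k q τ (fun τ' => Φ τ' + Ψ τ') = trAbsK ms N k q τ Φ + trAbsK ms N k q τ Ψ := by
  induction k with
  | zero => intro q τ Φ Ψ; rfl
  | succ k ih =>
    intro q τ Φ Ψ
    simp only [trAbsK, trAbs, ih, mul_add, Finset.sum_add_distrib]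

theorem b19c_absK_zero (ms : ℕ → ℝ) (N k q : ℕ) (τ : ℕ → ℕ → ℕ) : trAbsK ms N k q τ (fun _ => 0) = 0 := by
  have h := tra2_absK_const_mul (N := N) (q := q) (τ := τ) (ms := ms) k 0 (fun _ => 0)
  simpa using h

theorem b19c_sumK_zero (ms : ℕ → ℝ) (N k q : ℕ) (τ : ℕ → ℕ → ℕ) : trSumK ms N k q τ (fun _ => 0) = 0 := by
  have h := tr_c3_sumK_const_mul (N := N) (q := q) (τ := τ) (ms := ms) k 0 (fun _ => 0)
  simpa using h

theorem b19c_absK_sum (ms : ℕ → ℝ) (N k q : ℕ) (τ : ℕ → ℕ → ℕ) {κ : Type} (s : Finset κ) (c : κ → ℝ)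
    (Φ : κ → (ℕ → ℕ → ℕ) → ℝ) :
    trAbsK ms N k q τ (fun τ' => ∑ r ∈ s, c r * Φ r τ') = ∑ r ∈ s, c r * trAbsK ms N k q τ (Φ r) := by
  classical
  induction s using Finset.induction_on with
  | empty => simpa using b19c_absK_zero ms N k q τ
  | insert r s hr ih =>
    simp only [Finset.sum_insert hr]
    rw [b19c_absK_add, ih, tra2_absK_const_mul]

/-- monotonicity with memory of the old tree -/
theorem b19c_absK_mono {N q : ℕ} {τ : ℕ → ℕ → ℕ} {ms : ℕ → ℝ} (hτ : IsTr N q τ) (k : ℕ) (Φ Ψ : (ℕ → ℕ → ℕ) → ℝ)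
    (h : ∀ τ', IsTr N (q + k) τ' → (∀ y z, y < q → z < q → τ' y z = τ y z) → Φ τ' ≤ Ψ τ') :
    trAbsK ms N k q τ Φ ≤ trAbsK ms N k q τ Ψ := by
  induction k generalizing q τ with
  | zero => exact h τ hτ fun _ _ _ _ => rfl
  | succ k ih =>
    rw [trAbsK, trAbsK]
    unfold trAbs
    refine Finset.sum_le_sum fun x hx => Finset.sum_le_sum fun j hj => ?_
    have hx' := Finset.mem_range.mp hx
    have hj' := Finset.mem_range.mp hj
    refine mul_le_mul_of_nonneg_left (ih (tr_att_isTr hτ hx' (by omega)) ?_) (abs_nonneg _)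
    intro τ' hτ' hag
    refine h τ' (by rwa [show q + (k + 1) = q + 1 + k by omega]) ?_
    intro y z hy hz
    rw [hag y z (by omega) (by omega), tr_att_old hy hz]

/-- a condition on the old tree can be moved inside -/
theorem b19c_absK_push {N q : ℕ} {τ : ℕ → ℕ → ℕ} {ms : ℕ → ℝ} (hτ : IsTr N q τ) (k : ℕ) {x y : ℕ} (hx : x < q) (hy : y < q)
    (c : ℝ) (Φ : (ℕ → ℕ → ℕ) → ℝ) :
    (if τ x y ≤ N then c * trAbsK ms N k q τ Φ else 0)
      = c * trAbsK ms N k q τ (fun τ' => if τ' x y ≤ N then Φ τ' else 0) := by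
  by_cases h : τ x y ≤ N
  · rw [if_pos h]
    congr 1
    refine tr_absK_congr hτ k _ _ fun τ' _ hag => ?_
    rw [hag x y hx hy, if_pos h]
  · rw [if_neg h]
    have : trAbsK ms N k q τ (fun τ' => if τ' x y ≤ N then Φ τ' else 0) = trAbsK ms N k q τ (fun _ => 0) := by
      refine tr_absK_congr hτ k _ _ fun τ' _ hag => ?_
      rw [hag x y hx hy, if_neg h]
    rw [this, b19c_absK_zero, mul_zero]

theorem b19c_sumK_push {N q : ℕ} {τ : ℕ → ℕ → ℕ} {ms : ℕ → ℝ} (hτ : IsTr N q τ) (k : ℕ) {x y : ℕ} (hx : x < q) (hy : y < q)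
    (c : ℝ) (Φ : (ℕ → ℕ → ℕ) → ℝ) :
    (if τ x y ≤ N then c * trSumK ms N k q τ Φ else 0)
      = c * trSumK ms N k q τ (fun τ' => if τ' x y ≤ N then Φ τ' else 0) := by
  by_cases h : τ x y ≤ N
  · rw [if_pos h]
    congr 1
    refine tr_sumK_congr hτ k _ _ fun τ' _ hag => ?_
    rw [hag x y hx hy, if_pos h]
  · rw [if_neg h]
    have : trSumK ms N k q τ (fun τ' => if τ' x y ≤ N then Φ τ' else 0) = trSumK ms N k q τ (fun _ => 0) := by
      refine tr_sumK_congr hτ k _ _ fun τ' _ hag => ?_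
      rw [hag x y hx hy, if_neg h]
    rw [this, b19c_sumK_zero, mul_zero]

/-- the star is a tree -/
theorem b19c_st_isTr {N i : ℕ} (hi : i ≤ N) (q : ℕ) : IsTr N q (b19St N i) := by
  refine ⟨fun x y _ _ => ?_, fun x _ => ?_, fun x y _ _ => ?_, fun x y z _ _ _ => ?_⟩
  · unfold b19St; split_ifs <;> omega
  · simp [b19St]
  · unfold b19St
    by_cases h : x = y
    · rw [if_pos h, if_pos h.symm]
    · rw [if_neg h, if_neg (Ne.symm h)]
  · unfold b19St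
    split_ifs <;> omega

/-- restriction to two off-diagonal pairs -/
def b19cR2 (N : ℕ) (G : (ℕ → ℕ → ℕ) → ℝ) : (ℕ → ℕ → ℕ) → ℝ := fun τ =>
  if τ 2 3 ≤ N then (if τ 4 5 ≤ N then G τ else 0) else 0

/-- restriction to three off-diagonal pairs -/
def b19cR3 (N : ℕ) (G : (ℕ → ℕ → ℕ) → ℝ) : (ℕ → ℕ → ℕ) → ℝ := fun τ =>
  if τ 2 3 ≤ N then (if τ 4 5 ≤ N then (if τ 6 7 ≤ N then G τ else 0) else 0) else 0

theorem b19c_defs_eqns_cite : True := by
  have := @b19cR2.eq_1; have := @b19cR3.eq_1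
  trivial

theorem b19c_A2_flat (a : ℝ) (P : SkStp) {i : ℕ} (hi : i ≤ P.length) (G : (ℕ → ℕ → ℕ) → ℝ) :
    b19A2 a P i G = 1 / 4 * trAbsK (skMs a P) P.length 4 2 (b19St P.length i) (b19cR2 P.length G) := by
  unfold b19A2 b19A
  have h1 : trAbsK (skMs a P) P.length 2 2 (b19St P.length i) (fun τ' => if τ' 2 (2 + 1) ≤ P.length then
        1 / 2 * trAbsK (skMs a P) P.length 2 4 τ' (fun τ'' => if τ'' 4 (4 + 1) ≤ P.length then G τ'' else 0) else 0)
      = trAbsK (skMs a P) P.length 2 2 (b19St P.length i) (fun τ' =>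
        1 / 2 * trAbsK (skMs a P) P.length 2 (2 + 2) τ' (b19cR2 P.length G)) := by
    refine tr_absK_congr (b19c_st_isTr hi 2) 2 _ _ fun τ' hτ' _ => ?_
    exact b19c_absK_push hτ' 2 (by norm_num) (by norm_num) _ _
  rw [h1, tra2_absK_const_mul, ← tr_absK_add]
  ring

theorem b19c_D2_flat (a : ℝ) (P : SkStp) {i : ℕ} (hi : i ≤ P.length) (G : (ℕ → ℕ → ℕ) → ℝ) :
    b19D2 a P i G = 1 / 4 * trSumK (skMs a P) P.length 4 2 (b19St P.length i) (b19cR2 P.length G) := by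
  unfold b19D2 b19D
  have h1 : trSumK (skMs a P) P.length 2 2 (b19St P.length i) (fun τ' => if τ' 2 (2 + 1) ≤ P.length then
        1 / 2 * trSumK (skMs a P) P.length 2 4 τ' (fun τ'' => if τ'' 4 (4 + 1) ≤ P.length then G τ'' else 0) else 0)
      = trSumK (skMs a P) P.length 2 2 (b19St P.length i) (fun τ' =>
        1 / 2 * trSumK (skMs a P) P.length 2 (2 + 2) τ' (b19cR2 P.length G)) := by
    refine tr_sumK_congr (b19c_st_isTr hi 2) 2 _ _ fun τ' hτ' _ => ?_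
    exact b19c_sumK_push hτ' 2 (by norm_num) (by norm_num) _ _
  rw [h1, tr_c3_sumK_const_mul, ← tr_sumK_add]
  ring

theorem b19c_A3_flat (a : ℝ) (P : SkStp) {i : ℕ} (hi : i ≤ P.length) (G : (ℕ → ℕ → ℕ) → ℝ) :
    b19A3 a P i G = 1 / 8 * trAbsK (skMs a P) P.length 6 2 (b19St P.length i) (b19cR3 P.length G) := by
  unfold b19A3 b19A
  have h2 : ∀ τ', IsTr P.length 4 τ' →
      (if τ' 2 (2 + 1) ≤ P.length then 1 / 2 * trAbsK (skMs a P) P.length 2 4 τ' (fun τ'' => if τ'' 4 (4 + 1) ≤ P.length then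
        1 / 2 * trAbsK (skMs a P) P.length 2 6 τ'' (fun τ₃ => if τ₃ 6 (6 + 1) ≤ P.length then G τ₃ else 0) else 0) else 0)
      = 1 / 4 * trAbsK (skMs a P) P.length 4 (2 + 2) τ' (b19cR3 P.length G) := by
    intro τ' hτ'
    have h3 : trAbsK (skMs a P) P.length 2 4 τ' (fun τ'' => if τ'' 4 (4 + 1) ≤ P.length then
          1 / 2 * trAbsK (skMs a P) P.length 2 6 τ'' (fun τ₃ => if τ₃ 6 (6 + 1) ≤ P.length then G τ₃ else 0) else 0)
        = trAbsK (skMs a P) P.length 2 4 τ' (fun τ'' => 1 / 2 * trAbsK (skMs a P) P.length 2 (4 + 2) τ''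
            (fun τ₃ => if τ₃ 4 5 ≤ P.length then (if τ₃ 6 7 ≤ P.length then G τ₃ else 0) else 0)) := by
      refine tr_absK_congr hτ' 2 _ _ fun τ'' hτ'' _ => ?_
      exact b19c_absK_push hτ'' 2 (by norm_num) (by norm_num) _ _
    rw [h3, tra2_absK_const_mul, ← tr_absK_add, ← mul_assoc, b19c_absK_push hτ' (2 + 2) (by norm_num) (by norm_num)]
    norm_num
    rfl
  have h1 := tr_absK_congr (ms := skMs a P) (b19c_st_isTr hi 2) 2 _ _ fun τ' hτ' _ => h2 τ' hτ'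
  rw [h1, tra2_absK_const_mul, ← tr_absK_add]
  ring

/-! ## 3. DENS: the two-slot split density -/

/-- the weight `1[r = i] + (m_r - m_{r-1})` of the level `r` -/
def b19cE (ms : ℕ → ℝ) (i r : ℕ) : ℝ := (if r = i then 1 else 0) + (ms r - trPm ms r)

theorem b19cE_eqns_cite : True := by
  have := @b19cE.eq_1
  trivial

theorem b19c_E_nonneg {N : ℕ} {ms : ℕ → ℝ} (hms : IsMs N ms) (i : ℕ) {r : ℕ} (hr : r ≤ N) : 0 ≤ b19cE ms i r := by
  unfold b19cE
  have := trw_step_nonneg hms hr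
  split_ifs <;> linarith

/-- joint density of the levels of two pairs; the old tree forks at the level `i` only -/
theorem b19c_pair_density (q k : ℕ) (A : ℝ) : ∃ C : ℝ, 0 ≤ C ∧ ∀ (N : ℕ) (τ : ℕ → ℕ → ℕ) (ms : ℕ → ℝ) (i : ℕ), IsTr N q τ →
    IsMs N ms → ms N ≤ A → (∀ y z, y < q → z < q → τ y z = i ∨ τ y z = N + 1) →
    ∀ a1 b1 a2 b2 : ℕ, a1 < q + k → b1 < q + k → a2 < q + k → b2 < q + k → ∀ r1 r2 : ℕ, r1 ≤ N → r2 ≤ N →
      trAbsK ms N k q τ (fun τ' => if τ' a1 b1 = r1 ∧ τ' a2 b2 = r2 then 1 else 0)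
        ≤ C * (b19cE ms i r1 * b19cE ms i r2 + if r1 = r2 then b19cE ms i r1 else 0) := by
  obtain ⟨C, hC0, hC⟩ := tr_split_density_multi q k 2 A
  refine ⟨C, hC0, fun N τ ms i hτ hms hA hfk a1 b1 a2 b2 ha1 hb1 ha2 hb2 r1 r2 hr1 hr2 => ?_⟩
  have hJ : ∀ j ∈ ({r1, r2} : Finset ℕ).erase i, (j = r1 ∨ j = r2) ∧ j ≠ i := by
    intro j hj
    rw [Finset.mem_erase, Finset.mem_insert, Finset.mem_singleton] at hj
    exact ⟨hj.2, hj.1⟩
  have h1 := hC N τ ms hτ hms hA (({r1, r2} : Finset ℕ).erase i) (fun j => if j = r1 then a1 else a2)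
    (fun j => if j = r1 then b1 else b2) ((Finset.card_erase_le).trans Finset.card_le_two)
    (fun j hj => by
      refine ⟨?_, ?_, ?_⟩
      · rcases (hJ j hj).1 with rfl | rfl <;> assumption
      · split_ifs <;> assumption
      · split_ifs <;> assumption)
    (fun j hj y z hy hz => by
      have hjN : j ≤ N := by rcases (hJ j hj).1 with rfl | rfl <;> assumption
      rcases hfk y z hy hz with h | h
      · rw [h]; exact (hJ j hj).2.symm
      · rw [h]; omega)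
  have h2 : trAbsK ms N k q τ (fun τ' => if τ' a1 b1 = r1 ∧ τ' a2 b2 = r2 then 1 else 0)
      ≤ trAbsK ms N k q τ (Set.indicator {τ' | ∀ j ∈ ({r1, r2} : Finset ℕ).erase i,
          τ' ((fun j => if j = r1 then a1 else a2) j) ((fun j => if j = r1 then b1 else b2) j) = j} fun _ => (1 : ℝ)) := by
    apply trw_absK_mono
    intro τ'
    by_cases hc : τ' a1 b1 = r1 ∧ τ' a2 b2 = r2
    · rw [if_pos hc, Set.indicator_of_mem]
      intro j hj
      beta_reduce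
      by_cases hj1 : j = r1
      · rw [if_pos hj1, if_pos hj1, hj1]; exact hc.1
      · rw [if_neg hj1, if_neg hj1]
        rcases (hJ j hj).1 with h | h
        · exact absurd h hj1
        · rw [h]; exact hc.2
    · rw [if_neg hc]
      exact Set.indicator_nonneg (fun _ _ => zero_le_one) τ'
  refine h2.trans (h1.trans (mul_le_mul_of_nonneg_left ?_ hC0))
  have g1 := trw_step_nonneg hms hr1
  have g2 := trw_step_nonneg hms hr2
  unfold b19cE
  by_cases h12 : r1 = r2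
  · subst h12
    rw [if_pos rfl, Finset.pair_eq_singleton]
    by_cases h1i : r1 = i
    · subst h1i
      rw [Finset.erase_singleton, Finset.prod_empty, if_pos rfl]
      nlinarith
    · rw [Finset.erase_eq_of_notMem (by simpa using Ne.symm h1i), Finset.prod_singleton, if_neg h1i]
      nlinarith
  · rw [if_neg h12, add_zero]
    by_cases h1i : r1 = i
    · subst h1i
      have : ({r1, r2} : Finset ℕ).erase r1 = {r2} := by
        rw [Finset.erase_insert (by simpa using h12)]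
      rw [this, Finset.prod_singleton, if_pos rfl, if_neg (Ne.symm h12)]
      nlinarith
    · by_cases h2i : r2 = i
      · subst h2i
        have : ({r1, r2} : Finset ℕ).erase r2 = {r1} := by
          rw [Finset.pair_comm, Finset.erase_insert (by simpa using Ne.symm h12)]
        rw [this, Finset.prod_singleton, if_pos rfl, if_neg h12]
        nlinarith
      · rw [Finset.erase_eq_of_notMem (by
          simp only [Finset.mem_insert, Finset.mem_singleton, not_or]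
          exact ⟨Ne.symm h1i, Ne.symm h2i⟩), Finset.prod_pair h12, if_neg h1i, if_neg h2i]
        simp

/-- **DENS**: two functions of the levels of two pairs -/
theorem b19c_dens2 (q k : ℕ) (A : ℝ) : ∃ C : ℝ, 0 ≤ C ∧ ∀ (N : ℕ) (τ : ℕ → ℕ → ℕ) (ms : ℕ → ℝ) (i : ℕ), IsTr N q τ →
    IsMs N ms → ms N ≤ A → (∀ y z, y < q → z < q → τ y z = i ∨ τ y z = N + 1) →
    ∀ a1 b1 a2 b2 : ℕ, a1 < q + k → b1 < q + k → a2 < q + k → b2 < q + k →
    ∀ f g : ℕ → ℝ, (∀ j, 0 ≤ f j) → (∀ j, 0 ≤ g j) →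
      trAbsK ms N k q τ (fun τ' => if τ' a1 b1 ≤ N ∧ τ' a2 b2 ≤ N then f (τ' a1 b1) * g (τ' a2 b2) else 0)
        ≤ C * ((∑ r ∈ Finset.range (N + 1), b19cE ms i r * f r) * (∑ r ∈ Finset.range (N + 1), b19cE ms i r * g r)
          + ∑ r ∈ Finset.range (N + 1), b19cE ms i r * (f r * g r)) := by
  obtain ⟨C, hC0, hC⟩ := b19c_pair_density q k A
  refine ⟨C, hC0, fun N τ ms i hτ hms hA hfk a1 b1 a2 b2 ha1 hb1 ha2 hb2 f g hf hg => ?_⟩
  have e1 : (fun τ' : ℕ → ℕ → ℕ => if τ' a1 b1 ≤ N ∧ τ' a2 b2 ≤ N then f (τ' a1 b1) * g (τ' a2 b2) else 0)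
      = fun τ' => ∑ r ∈ Finset.range (N + 1) ×ˢ Finset.range (N + 1), (f r.1 * g r.2) *
          (if τ' a1 b1 = r.1 ∧ τ' a2 b2 = r.2 then 1 else 0) := by
    funext τ'
    by_cases hc : τ' a1 b1 ≤ N ∧ τ' a2 b2 ≤ N
    · rw [if_pos hc, Finset.sum_eq_single (τ' a1 b1, τ' a2 b2)]
      · simp
      · intro r _ hne
        rw [if_neg, mul_zero]
        rintro ⟨h1, h2⟩
        exact hne (Prod.ext h1.symm h2.symm)
      · intro hn
        exact absurd (Finset.mem_product.2 ⟨Finset.mem_range.2 (by omega), Finset.mem_range.2 (by omega)⟩) hn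
    · rw [if_neg hc]
      symm
      refine Finset.sum_eq_zero fun r hr => ?_
      rw [Finset.mem_product, Finset.mem_range, Finset.mem_range] at hr
      rw [if_neg, mul_zero]
      rintro ⟨h1, h2⟩
      exact hc ⟨by omega, by omega⟩
  rw [e1, b19c_absK_sum]
  calc ∑ r ∈ Finset.range (N + 1) ×ˢ Finset.range (N + 1), (f r.1 * g r.2) *
        trAbsK ms N k q τ (fun τ' => if τ' a1 b1 = r.1 ∧ τ' a2 b2 = r.2 then 1 else 0)
      ≤ ∑ r ∈ Finset.range (N + 1) ×ˢ Finset.range (N + 1), (f r.1 * g r.2) *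
        (C * (b19cE ms i r.1 * b19cE ms i r.2 + if r.1 = r.2 then b19cE ms i r.1 else 0)) := by
        refine Finset.sum_le_sum fun r hr => ?_
        rw [Finset.mem_product, Finset.mem_range, Finset.mem_range] at hr
        exact mul_le_mul_of_nonneg_left (hC N τ ms i hτ hms hA hfk a1 b1 a2 b2 ha1 hb1 ha2 hb2 r.1 r.2 (by omega) (by omega))
          (mul_nonneg (hf _) (hg _))
    _ = C * ((∑ r ∈ Finset.range (N + 1), b19cE ms i r * f r) * (∑ r ∈ Finset.range (N + 1), b19cE ms i r * g r)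
          + ∑ r ∈ Finset.range (N + 1), b19cE ms i r * (f r * g r)) := by
        rw [Finset.sum_product, Finset.sum_mul_sum, ← Finset.sum_add_distrib, Finset.mul_sum]
        refine Finset.sum_congr rfl fun r1 hr1 => ?_
        have : ∀ r2, f r1 * g r2 * (C * (b19cE ms i r1 * b19cE ms i r2 + if r1 = r2 then b19cE ms i r1 else 0))
            = C * (b19cE ms i r1 * f r1 * (b19cE ms i r2 * g r2)) + (if r1 = r2 then C * (b19cE ms i r1 * (f r1 * g r2)) else 0) := by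
          intro r2
          split_ifs <;> ring
        simp only [this]
        rw [Finset.sum_add_distrib, Finset.sum_ite_eq, if_pos hr1, ← Finset.mul_sum]
        ring

theorem b19c_E_sum (a : ℝ) (P : SkStp) {i : ℕ} (hi : i ≤ P.length) (f : ℕ → ℝ) :
    ∑ r ∈ Finset.range (P.length + 1), b19cE (skMs a P) i r * f r = b19Mu a P i f := by
  unfold b19cE b19Mu
  simp only [add_mul, Finset.sum_add_distrib, ite_mul, one_mul, zero_mul]
  rw [Finset.sum_ite_eq', if_pos (Finset.mem_range.2 (by omega))]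
  rfl

theorem b19c_st_fork (N i : ℕ) (y z : ℕ) : b19St N i y z = i ∨ b19St N i y z = N + 1 := by
  unfold b19St
  split_ifs
  · right; rfl
  · left; rfl

/-- DENS for two pairs -/
theorem b19c_A2_dens (A0 : ℝ) : ∃ C : ℝ, 0 ≤ C ∧ ∀ (a : ℝ) (P : SkStp) (i : ℕ), 0 < a → a ≤ A0 → SkAdm a P → i ≤ P.length →
    ∀ f g : ℕ → ℝ, (∀ j, 0 ≤ f j) → (∀ j, 0 ≤ g j) →
      b19A2 a P i (fun τ => f (τ 2 3) * g (τ 4 5))
        ≤ C * (b19Mu a P i f * b19Mu a P i g + b19Mu a P i fun r => f r * g r) := by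
  obtain ⟨C, hC0, hC⟩ := b19c_dens2 2 4 A0
  refine ⟨C, hC0, fun a P i ha haA hP hi f g hf hg => ?_⟩
  have h := hC P.length (b19St P.length i) (skMs a P) i (b19c_st_isTr hi 2) (b19c_isMs ha hP)
    (by rw [b19c_ms_top]; exact haA) (fun y z _ _ => b19c_st_fork _ _ y z) 2 3 4 5 (by norm_num) (by norm_num) (by norm_num)
    (by norm_num) f g hf hg
  rw [b19c_E_sum a P hi, b19c_E_sum a P hi, b19c_E_sum a P hi] at h
  rw [b19c_A2_flat a P hi]
  have e : b19cR2 P.length (fun τ => f (τ 2 3) * g (τ 4 5))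
      = fun τ' => if τ' 2 3 ≤ P.length ∧ τ' 4 5 ≤ P.length then f (τ' 2 3) * g (τ' 4 5) else 0 := by
    funext τ'
    unfold b19cR2
    by_cases c1 : τ' 2 3 ≤ P.length
    · by_cases c2 : τ' 4 5 ≤ P.length
      · rw [if_pos c1, if_pos c2, if_pos ⟨c1, c2⟩]
      · rw [if_pos c1, if_neg c2, if_neg fun h => c2 h.2]
    · rw [if_neg c1, if_neg fun h => c1 h.1]
  rw [e]
  have h0 : 0 ≤ trAbsK (skMs a P) P.length 4 2 (b19St P.length i)
      (fun τ' => if τ' 2 3 ≤ P.length ∧ τ' 4 5 ≤ P.length then f (τ' 2 3) * g (τ' 4 5) else 0) :=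
    trw_absK_nonneg _ _ _ _ _ fun τ' => by
      split_ifs
      · exact mul_nonneg (hf _) (hg _)
      · exact le_rfl
  linarith

/-- DENS for two of three pairs -/
theorem b19c_A3_dens (A0 : ℝ) : ∃ C : ℝ, 0 ≤ C ∧ ∀ (a : ℝ) (P : SkStp) (i : ℕ), 0 < a → a ≤ A0 → SkAdm a P → i ≤ P.length →
    ∀ s t : ℕ, s < 3 → t < 3 → ∀ f g : ℕ → ℝ, (∀ j, 0 ≤ f j) → (∀ j, 0 ≤ g j) →
      b19A3 a P i (fun τ => f (τ (2 + 2 * s) (3 + 2 * s)) * g (τ (2 + 2 * t) (3 + 2 * t)))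
        ≤ C * (b19Mu a P i f * b19Mu a P i g + b19Mu a P i fun r => f r * g r) := by
  obtain ⟨C, hC0, hC⟩ := b19c_dens2 2 6 A0
  refine ⟨C, hC0, fun a P i ha haA hP hi s t hs ht f g hf hg => ?_⟩
  have h := hC P.length (b19St P.length i) (skMs a P) i (b19c_st_isTr hi 2) (b19c_isMs ha hP)
    (by rw [b19c_ms_top]; exact haA) (fun y z _ _ => b19c_st_fork _ _ y z) (2 + 2 * s) (3 + 2 * s) (2 + 2 * t) (3 + 2 * t)
    (by omega) (by omega) (by omega) (by omega) f g hf hg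
  rw [b19c_E_sum a P hi, b19c_E_sum a P hi, b19c_E_sum a P hi] at h
  rw [b19c_A3_flat a P hi]
  have h1 : trAbsK (skMs a P) P.length 6 2 (b19St P.length i)
        (b19cR3 P.length fun τ => f (τ (2 + 2 * s) (3 + 2 * s)) * g (τ (2 + 2 * t) (3 + 2 * t)))
      ≤ trAbsK (skMs a P) P.length 6 2 (b19St P.length i) (fun τ' => if τ' (2 + 2 * s) (3 + 2 * s) ≤ P.length ∧
          τ' (2 + 2 * t) (3 + 2 * t) ≤ P.length then f (τ' (2 + 2 * s) (3 + 2 * s)) * g (τ' (2 + 2 * t) (3 + 2 * t)) else 0) := by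
    apply trw_absK_mono
    intro τ'
    have hfg : 0 ≤ f (τ' (2 + 2 * s) (3 + 2 * s)) * g (τ' (2 + 2 * t) (3 + 2 * t)) := mul_nonneg (hf _) (hg _)
    unfold b19cR3
    by_cases c1 : τ' 2 3 ≤ P.length
    · by_cases c2 : τ' 4 5 ≤ P.length
      · by_cases c3 : τ' 6 7 ≤ P.length
        · rw [if_pos c1, if_pos c2, if_pos c3, if_pos]
          constructor
          · interval_cases s <;> assumption
          · interval_cases t <;> assumption
        · rw [if_pos c1, if_pos c2, if_neg c3]; split_ifs <;> linarith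
      · rw [if_pos c1, if_neg c2]; split_ifs <;> linarith
    · rw [if_neg c1]; split_ifs <;> linarith
  have h0 : 0 ≤ trAbsK (skMs a P) P.length 6 2 (b19St P.length i)
        (b19cR3 P.length fun τ => f (τ (2 + 2 * s) (3 + 2 * s)) * g (τ (2 + 2 * t) (3 + 2 * t))) :=
    trw_absK_nonneg _ _ _ _ _ fun τ' => by
      have hfg : 0 ≤ f (τ' (2 + 2 * s) (3 + 2 * s)) * g (τ' (2 + 2 * t) (3 + 2 * t)) := mul_nonneg (hf _) (hg _)
      unfold b19cR3
      split_ifs <;> linarith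
  linarith

/-! ## 4. The numbers of the SK law -/

section numbers
variable {n : ℕ}

theorem b19c_path_nonneg {S ι : Type} [Fintype S] [Fintype ι] {B : GhB S} (hB : B.Ok) :
    ∀ (ls : List (GhLv S ι)) (z : S → ℝ) (T : (ℕ → ι → ℝ) → S → ℝ), (∀ ξ s, 0 ≤ T ξ s) → 0 ≤ ghPath B ls z T
  | [], z, _, h => Finset.sum_nonneg fun s _ => mul_nonneg (gh_b_Gw_nonneg hB z s) (h _ s)
  | l :: ls, z, _, h => integral_nonneg fun ξ =>
      mul_nonneg (gh_b_D_pos B l ls z ξ).le (b19c_path_nonneg hB ls _ _ fun _ s => h _ s)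

theorem b19c_S_nonneg {a : ℝ} (ha : 0 < a) (P : SkStp) (j : ℕ) : 0 ≤ obS n a P 0 j := by
  unfold obS obE
  exact b19c_path_nonneg (pin_base_ok n ha) _ _ _ fun ξ s => Finset.sum_nonneg fun i _ => sq_nonneg _

theorem b19c_cumB_nonneg {a : ℝ} {P : SkStp} (hP : SkAdm a P) (j : ℕ) : 0 ≤ skCumB P j := by
  unfold skCumB
  refine List.sum_nonneg fun x hx => ?_
  obtain ⟨e, he, rfl⟩ := List.mem_map.1 hx
  exact (hP.2 e (List.mem_of_mem_take he)).2.2.1

theorem b19c_cumH_nonneg {a : ℝ} {P : SkStp} (hP : SkAdm a P) (j : ℕ) : 0 ≤ skCumH P j := by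
  unfold skCumH
  refine List.sum_nonneg fun x hx => ?_
  obtain ⟨e, he, rfl⟩ := List.mem_map.1 hx
  exact (hP.2 e (List.mem_of_mem_take he)).2.2.2

theorem b19c_K_nonneg {a : ℝ} (ha : 0 < a) {P : SkStp} (hP : SkAdm a P) (j : ℕ) : 0 ≤ b19K n a P j := by
  unfold b19K
  exact add_nonneg (b19c_cumH_nonneg hP j) (mul_nonneg (b19c_cumB_nonneg hP j) (b19c_S_nonneg ha P j))

theorem b19c_len (n : ℕ) (P : SkStp) : (skLvs n P).length = P.length := by simp [skLvs]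

theorem b19c_Sk_mono {a : ℝ} (ha : 0 < a) {P : SkStp} (hP : SkAdm a P) (q : ℕ) (τ : ℕ → ℕ → ℕ) {f g : (ℕ → SkCfg n) → ℝ}
    (h : ∀ σ, f σ ≤ g σ) : b19Sk n a P q τ f ≤ b19Sk n a P q τ g :=
  tcb_nu_mono (pin_base_ok n ha) (pin_adm n P hP) q τ 0 h

theorem b19c_Sk_const {a : ℝ} (ha : 0 < a) {P : SkStp} (hP : SkAdm a P) (q : ℕ) (τ : ℕ → ℕ → ℕ) (c : ℝ) :
    b19Sk n a P q τ (fun _ => c) = c :=
  tcb_nu_const (pin_base_ok n ha) (pin_adm n P hP) q τ 0 c

theorem b19c_Sk_nonneg {a : ℝ} (ha : 0 < a) {P : SkStp} (hP : SkAdm a P) (q : ℕ) (τ : ℕ → ℕ → ℕ) {f : (ℕ → SkCfg n) → ℝ}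
    (h : ∀ σ, 0 ≤ f σ) : 0 ≤ b19Sk n a P q τ f := by
  have := b19c_Sk_mono ha hP q τ h
  rwa [b19c_Sk_const ha hP] at this

theorem b19c_Sk_add {a : ℝ} (ha : 0 < a) {P : SkStp} (hP : SkAdm a P) (q : ℕ) (τ : ℕ → ℕ → ℕ) (f g : (ℕ → SkCfg n) → ℝ) :
    b19Sk n a P q τ (fun σ => f σ + g σ) = b19Sk n a P q τ f + b19Sk n a P q τ g := by
  classical
  unfold b19Sk
  rw [tr_nu_eq_sum (pin_base_ok n ha) (pin_adm n P hP), tr_nu_eq_sum (pin_base_ok n ha) (pin_adm n P hP) q τ 0 f,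
    tr_nu_eq_sum (pin_base_ok n ha) (pin_adm n P hP) q τ 0 g, ← Finset.sum_add_distrib]
  exact Finset.sum_congr rfl fun _ _ => by ring

theorem b19c_Sk_smul {a : ℝ} (ha : 0 < a) {P : SkStp} (hP : SkAdm a P) (q : ℕ) (τ : ℕ → ℕ → ℕ) (c : ℝ) (f : (ℕ → SkCfg n) → ℝ) :
    b19Sk n a P q τ (fun σ => c * f σ) = c * b19Sk n a P q τ f :=
  tcb_nu_mul_const (pin_base_ok n ha) (pin_adm n P hP) q τ 0 c f

/-- marginals: any map of labels -/
theorem b19c_Sk_comap {a : ℝ} (ha : 0 < a) {P : SkStp} (hP : SkAdm a P) {q p : ℕ} {τ : ℕ → ℕ → ℕ} (hτ : IsTr P.length q τ)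
    (f : ℕ → ℕ) (hf : ∀ x, x < p → f x < q) (F : (ℕ → SkCfg n) → ℝ) (hF : TrUses p F) :
    b19Sk n a P q τ (fun σ => F fun x => σ (f x)) = b19Sk n a P p (fun x y => τ (f x) (f y)) F :=
  tr_nu_comap (pin_base_ok n ha) (pin_adm n P hP) (by rw [b19c_len]; exact hτ) 0 f hf F hF

theorem b19c_Nm_nonneg {a : ℝ} (ha : 0 < a) {P : SkStp} (hP : SkAdm a P) (k0 : Fin n) (p : ℝ) (r : ℕ) : 0 ≤ b19Nm k0 a P p r :=
  Real.rpow_nonneg (b19c_Sk_nonneg ha hP _ _ fun _ => Real.rpow_nonneg (abs_nonneg _) _) _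

theorem b19c_Dm_nonneg {a : ℝ} (ha : 0 < a) {P : SkStp} (hP : SkAdm a P) (k0 : Fin n) (r : ℕ) : 0 ≤ b19Dm k0 a P r :=
  b19c_Nm_nonneg ha hP k0 2 r

theorem b19c_Zm_nonneg (k0 : Fin n) (a : ℝ) (P : SkStp) (i κ : ℕ) : 0 ≤ b19Zm k0 a P i κ := Real.sqrt_nonneg _

/-- `D² = ν[(Qm - S)²]` -/
theorem b19c_Dm_sq {a : ℝ} (ha : 0 < a) {P : SkStp} (hP : SkAdm a P) (k0 : Fin n) (r : ℕ) :
    b19Dm k0 a P r ^ 2 = b19Sk n a P 2 (b19St P.length r) fun σ => b19Dl k0 a P r 0 1 σ ^ 2 := by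
  unfold b19Dm b19Nm
  have h0 : 0 ≤ b19Sk n a P 2 (b19St P.length r) fun σ => |b19Dl k0 a P r 0 1 σ| ^ (2 : ℝ) :=
    b19c_Sk_nonneg ha hP _ _ fun _ => Real.rpow_nonneg (abs_nonneg _) _
  rw [← Real.rpow_natCast, ← Real.rpow_mul h0]
  norm_num

/-- the pair `(x, y)` of a star has the law of the pair `(0, 1)` -/
theorem b19c_star_pair {a : ℝ} (ha : 0 < a) {P : SkStp} (hP : SkAdm a P) {i : ℕ} (hi : i ≤ P.length) {q x y : ℕ} (hx : x < q)
    (hy : y < q) (hxy : x ≠ y) (F : SkCfg n → SkCfg n → ℝ) :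
    b19Sk n a P q (b19St P.length i) (fun σ => F (σ x) (σ y)) = b19Sk n a P 2 (b19St P.length i) fun σ => F (σ 0) (σ 1) := by
  have h := b19c_Sk_comap (n := n) ha hP (b19c_st_isTr hi q) (fun z => if z = 0 then x else y) (p := 2)
    (fun z _ => by split_ifs <;> assumption) (fun σ => F (σ 0) (σ 1))
    (fun σ σ' h => by beta_reduce; rw [h 0 (by norm_num), h 1 (by norm_num)])
  simp only [if_true, one_ne_zero, if_false] at h
  rw [h]
  refine tr_nu_congr _ _ (fun u v hu hv => ?_) _ _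
  unfold b19St
  interval_cases u <;> interval_cases v <;> simp [hxy, hxy.symm]

/-- `2 Het = ν[(Qm_01 - Qm_23)²]` on the star -/
theorem b19c_Het_eq {a : ℝ} (ha : 0 < a) {P : SkStp} (hP : SkAdm a P) (k0 : Fin n) {i : ℕ} (hi : i ≤ P.length) :
    2 * b19Het k0 a P i
      = b19Sk n a P 4 (b19St P.length i) fun σ => (b19Qm k0 (σ 0) (σ 1) - b19Qm k0 (σ 2) (σ 3)) ^ 2 := by
  unfold b19Het b19E4
  rw [b19c_Dm_sq ha hP]
  have e1 := b19c_star_pair (n := n) ha hP hi (q := 4) (x := 0) (y := 1) (by norm_num) (by norm_num) (by norm_num)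
    (fun s t => (b19Qm k0 s t - obS n a P 0 i) ^ 2)
  have e2 := b19c_star_pair (n := n) ha hP hi (q := 4) (x := 2) (y := 3) (by norm_num) (by norm_num) (by norm_num)
    (fun s t => (b19Qm k0 s t - obS n a P 0 i) ^ 2)
  have e3 : (fun σ : ℕ → SkCfg n => (b19Qm k0 (σ 0) (σ 1) - b19Qm k0 (σ 2) (σ 3)) ^ 2)
      = fun σ => ((b19Qm k0 (σ 0) (σ 1) - obS n a P 0 i) ^ 2 + (b19Qm k0 (σ 2) (σ 3) - obS n a P 0 i) ^ 2)
        + (-2) * (b19Dl k0 a P i 0 1 σ * b19Dl k0 a P i 2 3 σ) := by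
    funext σ
    unfold b19Dl
    ring
  rw [e3, b19c_Sk_add ha hP, b19c_Sk_add ha hP, b19c_Sk_smul ha hP, e1, e2]
  unfold b19Dl
  ring

theorem b19c_Het_nonneg {a : ℝ} (ha : 0 < a) {P : SkStp} (hP : SkAdm a P) (k0 : Fin n) {i : ℕ} (hi : i ≤ P.length) :
    0 ≤ b19Het k0 a P i := by
  have h := b19c_Het_eq ha hP k0 hi
  have h2 : 0 ≤ b19Sk n a P 4 (b19St P.length i) fun σ => (b19Qm k0 (σ 0) (σ 1) - b19Qm k0 (σ 2) (σ 3)) ^ 2 :=
    b19c_Sk_nonneg ha hP _ _ fun _ => sq_nonneg _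
  linarith

end numbers

/-! ## 5. Linearity and monotonicity of `b19A2`, `b19A3`, `b19D2` -/

theorem b19c_A2_add (a : ℝ) (P : SkStp) {i : ℕ} (hi : i ≤ P.length) (G G' : (ℕ → ℕ → ℕ) → ℝ) :
    b19A2 a P i (fun τ => G τ + G' τ) = b19A2 a P i G + b19A2 a P i G' := by
  rw [b19c_A2_flat a P hi, b19c_A2_flat a P hi, b19c_A2_flat a P hi, ← mul_add, ← b19c_absK_add]
  congr 2
  funext τ
  unfold b19cR2
  split_ifs <;> simp

theorem b19c_A2_smul (a : ℝ) (P : SkStp) {i : ℕ} (hi : i ≤ P.length) (c : ℝ) (G : (ℕ → ℕ → ℕ) → ℝ) :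
    b19A2 a P i (fun τ => c * G τ) = c * b19A2 a P i G := by
  have e : b19cR2 P.length (fun τ => c * G τ) = fun τ => c * b19cR2 P.length G τ := by
    funext τ
    unfold b19cR2
    split_ifs <;> simp
  rw [b19c_A2_flat a P hi, b19c_A2_flat a P hi, e, tra2_absK_const_mul]
  ring

theorem b19c_A3_add (a : ℝ) (P : SkStp) {i : ℕ} (hi : i ≤ P.length) (G G' : (ℕ → ℕ → ℕ) → ℝ) :
    b19A3 a P i (fun τ => G τ + G' τ) = b19A3 a P i G + b19A3 a P i G' := by
  rw [b19c_A3_flat a P hi, b19c_A3_flat a P hi, b19c_A3_flat a P hi, ← mul_add, ← b19c_absK_add]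
  congr 2
  funext τ
  unfold b19cR3
  split_ifs <;> simp

theorem b19c_A3_smul (a : ℝ) (P : SkStp) {i : ℕ} (hi : i ≤ P.length) (c : ℝ) (G : (ℕ → ℕ → ℕ) → ℝ) :
    b19A3 a P i (fun τ => c * G τ) = c * b19A3 a P i G := by
  have e : b19cR3 P.length (fun τ => c * G τ) = fun τ => c * b19cR3 P.length G τ := by
    funext τ
    unfold b19cR3
    split_ifs <;> simp
  rw [b19c_A3_flat a P hi, b19c_A3_flat a P hi, e, tra2_absK_const_mul]
  ring

theorem b19c_D2_add (a : ℝ) (P : SkStp) {i : ℕ} (hi : i ≤ P.length) (G G' : (ℕ → ℕ → ℕ) → ℝ) :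
    b19D2 a P i (fun τ => G τ + G' τ) = b19D2 a P i G + b19D2 a P i G' := by
  rw [b19c_D2_flat a P hi, b19c_D2_flat a P hi, b19c_D2_flat a P hi, ← mul_add, ← b19c_sumK_add]
  congr 2
  funext τ
  unfold b19cR2
  split_ifs <;> simp

/-- monotonicity on the extensions of the observed tree -/
theorem b19c_A2_mono (a : ℝ) (P : SkStp) {i : ℕ} (hi : i ≤ P.length) (G G' : (ℕ → ℕ → ℕ) → ℝ)
    (h : ∀ τ, B19Tr P.length i 2 τ → G τ ≤ G' τ) : b19A2 a P i G ≤ b19A2 a P i G' := by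
  rw [b19c_A2_flat a P hi, b19c_A2_flat a P hi]
  refine mul_le_mul_of_nonneg_left (b19c_absK_mono (b19c_st_isTr hi 2) 4 _ _ fun τ hτ hag => ?_) (by norm_num)
  unfold b19cR2
  by_cases c1 : τ 2 3 ≤ P.length
  · by_cases c2 : τ 4 5 ≤ P.length
    · rw [if_pos c1, if_pos c2, if_pos c1, if_pos c2]
      refine h τ ⟨hτ, ?_, fun m hm => ?_⟩
      · rw [hag 0 1 (by norm_num) (by norm_num)]; simp [b19St]
      · interval_cases m <;> assumption
    · rw [if_pos c1, if_neg c2, if_pos c1, if_neg c2]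
  · rw [if_neg c1, if_neg c1]

theorem b19c_A3_mono (a : ℝ) (P : SkStp) {i : ℕ} (hi : i ≤ P.length) (G G' : (ℕ → ℕ → ℕ) → ℝ)
    (h : ∀ τ, B19Tr P.length i 3 τ → G τ ≤ G' τ) : b19A3 a P i G ≤ b19A3 a P i G' := by
  rw [b19c_A3_flat a P hi, b19c_A3_flat a P hi]
  refine mul_le_mul_of_nonneg_left (b19c_absK_mono (b19c_st_isTr hi 2) 6 _ _ fun τ hτ hag => ?_) (by norm_num)
  unfold b19cR3
  by_cases c1 : τ 2 3 ≤ P.length
  · by_cases c2 : τ 4 5 ≤ P.length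
    · by_cases c3 : τ 6 7 ≤ P.length
      · rw [if_pos c1, if_pos c2, if_pos c3, if_pos c1, if_pos c2, if_pos c3]
        refine h τ ⟨hτ, ?_, fun m hm => ?_⟩
        · rw [hag 0 1 (by norm_num) (by norm_num)]; simp [b19St]
        · interval_cases m <;> assumption
      · rw [if_pos c1, if_pos c2, if_neg c3, if_pos c1, if_pos c2, if_neg c3]
    · rw [if_pos c1, if_neg c2, if_pos c1, if_neg c2]
  · rw [if_neg c1, if_neg c1]

theorem b19c_D2_abs_le (a : ℝ) (P : SkStp) {i : ℕ} (hi : i ≤ P.length) (G : (ℕ → ℕ → ℕ) → ℝ) :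
    |b19D2 a P i G| ≤ b19A2 a P i fun τ => |G τ| := by
  have e : b19cR2 P.length (fun τ => |G τ|) = fun τ => |b19cR2 P.length G τ| := by
    funext τ
    unfold b19cR2
    split_ifs <;> simp
  rw [b19c_D2_flat a P hi, b19c_A2_flat a P hi, abs_mul, abs_of_nonneg (by norm_num : (0 : ℝ) ≤ 1 / 4), e]
  exact mul_le_mul_of_nonneg_left (tr_sumK_le 4 _) (by norm_num)

theorem b19c_D2_congr (a : ℝ) (P : SkStp) {i : ℕ} (hi : i ≤ P.length) (G G' : (ℕ → ℕ → ℕ) → ℝ)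
    (h : ∀ τ, B19Tr P.length i 2 τ → G τ = G' τ) : b19D2 a P i G = b19D2 a P i G' := by
  rw [b19c_D2_flat a P hi, b19c_D2_flat a P hi]
  refine congrArg (fun x : ℝ => 1 / 4 * x) ?_
  refine tr_sumK_congr (b19c_st_isTr hi 2) 4 _ _ fun τ hτ hag => ?_
  unfold b19cR2
  by_cases c1 : τ 2 3 ≤ P.length
  · by_cases c2 : τ 4 5 ≤ P.length
    · rw [if_pos c1, if_pos c2, if_pos c1, if_pos c2]
      refine h τ ⟨hτ, ?_, fun m hm => ?_⟩
      · rw [hag 0 1 (by norm_num) (by norm_num)]; simp [b19St]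
      · interval_cases m <;> assumption
    · rw [if_pos c1, if_neg c2, if_pos c1, if_neg c2]
  · rw [if_neg c1, if_neg c1]

/-! ## 6. The measure `δ_i + dm` on the levels; bounded forms of DENS -/

theorem b19c_Mu_nonneg {a : ℝ} (ha : 0 < a) {P : SkStp} (hP : SkAdm a P) (i : ℕ) {f : ℕ → ℝ} (hf : ∀ j, 0 ≤ f j) :
    0 ≤ b19Mu a P i f := by
  unfold b19Mu
  exact add_nonneg (hf i) (Finset.sum_nonneg fun j _ => mul_nonneg (pin_gap_nonneg ha P hP j) (hf j))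

theorem b19c_Mu_le_one {a : ℝ} (ha : 0 < a) {P : SkStp} (hP : SkAdm a P) (i : ℕ) {f : ℕ → ℝ} (hf : ∀ j, f j ≤ 1) :
    b19Mu a P i f ≤ 1 + a := by
  unfold b19Mu
  have h1 : ∑ j ∈ Finset.range (P.length + 1), skGap a P j * f j ≤ ∑ j ∈ Finset.range (P.length + 1), skGap a P j :=
    Finset.sum_le_sum fun j _ => by
      have := mul_le_mul_of_nonneg_left (hf j) (pin_gap_nonneg ha P hP j)
      linarith
  rw [b19c_gap_sum, b19c_ms_top] at h1
  linarith [hf i]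

theorem b19c_Mu_zero (a : ℝ) (P : SkStp) (i : ℕ) {f : ℕ → ℝ} (hf : ∀ j, f j = 0) : b19Mu a P i f = 0 := by
  simp [b19Mu, hf]

theorem b19c_Mu_add (a : ℝ) (P : SkStp) (i : ℕ) (f g : ℕ → ℝ) :
    b19Mu a P i (fun j => f j + g j) = b19Mu a P i f + b19Mu a P i g := by
  unfold b19Mu
  simp only [mul_add, Finset.sum_add_distrib]
  ring

/-- functions carried by `[lo, hi)` which vanish at `i` -/
theorem b19c_Mu_le_IG {a : ℝ} (ha : 0 < a) {P : SkStp} (hP : SkAdm a P) {i lo hi : ℕ} (hhi : hi ≤ P.length + 1) (D : ℕ → ℝ) (s : ℝ)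
    {f : ℕ → ℝ} (hfi : f i = 0) (hout : ∀ j, j ≤ P.length → ¬ (lo ≤ j ∧ j < hi) → f j = 0)
    (hle : ∀ j, lo ≤ j → j < hi → f j ≤ D j ^ s) : b19Mu a P i f ≤ b19IG a P D lo hi s := by
  unfold b19Mu b19IG
  rw [hfi, zero_add]
  have e : ∑ j ∈ Finset.range (P.length + 1), skGap a P j * f j = ∑ j ∈ Finset.Ico lo hi, skGap a P j * f j := by
    symm
    refine Finset.sum_subset (fun j hj => ?_) (fun j hj1 hj => ?_)
    · rw [Finset.mem_Ico] at hj
      exact Finset.mem_range.2 (by omega)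
    · rw [Finset.mem_Ico] at hj
      rw [Finset.mem_range] at hj1
      rw [hout j (by omega) hj, mul_zero]
  rw [e]
  refine Finset.sum_le_sum fun j hj => ?_
  rw [Finset.mem_Ico] at hj
  exact mul_le_mul_of_nonneg_left (hle j hj.1 hj.2) (pin_gap_nonneg ha P hP j)

theorem b19c_IG_nonneg {a : ℝ} (ha : 0 < a) {P : SkStp} (hP : SkAdm a P) {D : ℕ → ℝ} (hD : ∀ j, 0 ≤ D j) (lo hi : ℕ) (s : ℝ) :
    0 ≤ b19IG a P D lo hi s :=
  Finset.sum_nonneg fun j _ => mul_nonneg (pin_gap_nonneg ha P hP j) (Real.rpow_nonneg (hD j) s)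

/-- DENS for two pairs, bounded form -/
theorem b19c_A2_bd (A0 : ℝ) : ∃ C : ℝ, 0 ≤ C ∧ ∀ (a : ℝ) (P : SkStp) (i : ℕ), 0 < a → a ≤ A0 → SkAdm a P → i ≤ P.length →
    ∀ f g : ℕ → ℝ, (∀ j, 0 ≤ f j) → (∀ j, 0 ≤ g j) → ∀ X Y Z : ℝ, b19Mu a P i f ≤ X → b19Mu a P i g ≤ Y →
      (b19Mu a P i fun r => f r * g r) ≤ Z → b19A2 a P i (fun τ => f (τ 2 3) * g (τ 4 5)) ≤ C * (X * Y + Z) := by
  obtain ⟨C, hC0, hC⟩ := b19c_A2_dens A0
  refine ⟨C, hC0, fun a P i ha haA hP hi f g hf hg X Y Z hX hY hZ => (hC a P i ha haA hP hi f g hf hg).trans ?_⟩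
  refine mul_le_mul_of_nonneg_left (add_le_add ?_ hZ) hC0
  exact mul_le_mul hX hY (b19c_Mu_nonneg ha hP i hg) ((b19c_Mu_nonneg ha hP i hf).trans hX)

/-- DENS for the symmetrised product of three functions, the third one with values in `[0,1]` -/
theorem b19c_A3_sym (A0 : ℝ) : ∃ C : ℝ, 0 ≤ C ∧ ∀ (a : ℝ) (P : SkStp) (i : ℕ), 0 < a → a ≤ A0 → SkAdm a P → i ≤ P.length →
    ∀ f g h : ℕ → ℝ, (∀ j, 0 ≤ f j) → (∀ j, 0 ≤ g j) → (∀ j, 0 ≤ h j) → (∀ j, h j ≤ 1) →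
    ∀ X Y Z : ℝ, b19Mu a P i f ≤ X → b19Mu a P i g ≤ Y → (b19Mu a P i fun r => f r * g r) ≤ Z →
      b19A3 a P i (fun τ => b19Sym3 f g h (τ 2 3) (τ 4 5) (τ 6 7)) ≤ C * (X * Y + Z) := by
  obtain ⟨C, hC0, hC⟩ := b19c_A3_dens A0
  refine ⟨6 * C, by positivity, fun a P i ha haA hP hi f g h hf hg hh0 hh1 X Y Z hX hY hZ => ?_⟩
  have hb : C * (b19Mu a P i f * b19Mu a P i g + b19Mu a P i fun r => f r * g r) ≤ C * (X * Y + Z) := by
    refine mul_le_mul_of_nonneg_left (add_le_add ?_ hZ) hC0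
    exact mul_le_mul hX hY (b19c_Mu_nonneg ha hP i hg) ((b19c_Mu_nonneg ha hP i hf).trans hX)
  have k := fun s t hs ht => (hC a P i ha haA hP hi s t hs ht f g hf hg).trans hb
  have k01 := k 0 1 (by norm_num) (by norm_num)
  have k02 := k 0 2 (by norm_num) (by norm_num)
  have k10 := k 1 0 (by norm_num) (by norm_num)
  have k12 := k 1 2 (by norm_num) (by norm_num)
  have k20 := k 2 0 (by norm_num) (by norm_num)
  have k21 := k 2 1 (by norm_num) (by norm_num)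
  norm_num at k01 k02 k10 k12 k20 k21
  have hm : b19A3 a P i (fun τ => b19Sym3 f g h (τ 2 3) (τ 4 5) (τ 6 7))
      ≤ b19A3 a P i (fun τ => ((((f (τ 2 3) * g (τ 4 5) + f (τ 2 3) * g (τ 6 7)) + f (τ 4 5) * g (τ 2 3))
          + f (τ 4 5) * g (τ 6 7)) + f (τ 6 7) * g (τ 2 3)) + f (τ 6 7) * g (τ 4 5)) := by
    refine b19c_A3_mono a P hi _ _ fun τ _ => ?_
    unfold b19Sym3
    have q : ∀ x y z : ℕ, f x * g y * h z ≤ f x * g y := fun x y z =>
      mul_le_of_le_one_right (mul_nonneg (hf x) (hg y)) (hh1 z)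
    linarith [q (τ 2 3) (τ 4 5) (τ 6 7), q (τ 2 3) (τ 6 7) (τ 4 5), q (τ 4 5) (τ 2 3) (τ 6 7), q (τ 4 5) (τ 6 7) (τ 2 3),
      q (τ 6 7) (τ 2 3) (τ 4 5), q (τ 6 7) (τ 4 5) (τ 2 3)]
  rw [b19c_A3_add a P hi, b19c_A3_add a P hi, b19c_A3_add a P hi, b19c_A3_add a P hi, b19c_A3_add a P hi] at hm
  linarith

end

end Claimed.Agent.R286
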