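import Claimed.Agent.R286.Bud.C19Row
import Claimed.Agent.R286.Bud.C19CombA

/-!
# Row 286, N17 = (C19), `Bud/C19Comb.lean`: SIGNED SUMS OVER OFF-DIAGONAL PAIRS, SPLIT DENSITIES      (architect helper180; every sorried leaf is FREE: prove IN PLACE)

Pure combinatorics on `Defs/Tr` + `Fd/TrA1-5` (all proved).   No probability.
GROUPS   #A calculus of `b19D`, `b19A` (linearity, absolute value, monotonicity on the trees which really occur, total mass, differentiation under the sum);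
         #B the same for `b19D2`, `b19A2`, `b19A3` on the extensions `B19Tr` of the observed tree;
         #C `b19_zsum`: the signed sum of a function of the LEVEL of the new pair vanishes;
         #D `b19_dens2`, `b19_dens3`: split densities in product form (from `tr_split_density_multi`);
         #E `b19_sum2`, `b19_sum3`: the sums of the majorants `b19Maj2`, `b19Maj3` (exits used by `Bud/C19Ctr.lean`).
-/

set_option autoImplicit false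

namespace Claimed.Agent.R286

open MeasureTheory Set Filter Topology

noncomputable section

/-! ## #A one pair -/

section one
variable {ms : ℕ → ℝ} {N q : ℕ} {τ : ℕ → ℕ → ℕ}

theorem b19_D_abs (G : (ℕ → ℕ → ℕ) → ℝ) : |b19D ms N q τ G| ≤ b19A ms N q τ fun τ' => |G τ'| := by
  unfold b19D b19A
  rw [abs_mul, abs_of_nonneg (by norm_num : (0 : ℝ) ≤ 1 / 2)]
  refine mul_le_mul_of_nonneg_left ((tr_sumK_le 2 _).trans (le_of_eq ?_)) (by norm_num)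
  refine congrArg (trAbsK ms N 2 q τ) ?_
  funext τ'
  split_ifs <;> simp

/-- only the trees which occur matter: extensions of `τ` by an off-diagonal pair -/
theorem b19_D_congr (hτ : IsTr N q τ) {F G : (ℕ → ℕ → ℕ) → ℝ}
    (h : ∀ τ', IsTr N (q + 2) τ' → (∀ y z, y < q → z < q → τ' y z = τ y z) → τ' q (q + 1) ≤ N → F τ' = G τ') :
    b19D ms N q τ F = b19D ms N q τ G := by
  unfold b19D
  refine congrArg (fun x : ℝ => 1 / 2 * x) (tr_sumK_congr hτ 2 _ _ fun τ' hτ' hag => ?_)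
  by_cases c : τ' q (q + 1) ≤ N
  · rw [if_pos c, if_pos c]; exact h τ' hτ' hag c
  · rw [if_neg c, if_neg c]

theorem b19_A_mono (hτ : IsTr N q τ) {F G : (ℕ → ℕ → ℕ) → ℝ}
    (h : ∀ τ', IsTr N (q + 2) τ' → (∀ y z, y < q → z < q → τ' y z = τ y z) → τ' q (q + 1) ≤ N → F τ' ≤ G τ') :
    b19A ms N q τ F ≤ b19A ms N q τ G := by
  unfold b19A
  refine mul_le_mul_of_nonneg_left (b19c_absK_mono hτ 2 _ _ fun τ' hτ' hag => ?_) (by norm_num)
  by_cases c : τ' q (q + 1) ≤ N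
  · rw [if_pos c, if_pos c]; exact h τ' hτ' hag c
  · rw [if_neg c, if_neg c]

/-- monotonicity, pointwise hypothesis on all functions -/
theorem b19_A_mono' {F G : (ℕ → ℕ → ℕ) → ℝ} (h : ∀ τ', F τ' ≤ G τ') : b19A ms N q τ F ≤ b19A ms N q τ G := by
  unfold b19A
  refine mul_le_mul_of_nonneg_left (trw_absK_mono ms N 2 q τ fun τ' => ?_) (by norm_num)
  split_ifs
  · exact h τ'
  · exact le_rfl

theorem b19_D_add (F G : (ℕ → ℕ → ℕ) → ℝ) : b19D ms N q τ (fun τ' => F τ' + G τ') = b19D ms N q τ F + b19D ms N q τ G := by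
  unfold b19D
  rw [← mul_add, ← b19c_sumK_add]
  refine congrArg (fun x : ℝ => 1 / 2 * x) (congrArg (trSumK ms N 2 q τ) ?_)
  funext τ'
  split_ifs <;> simp

theorem b19_D_smul (c : ℝ) (F : (ℕ → ℕ → ℕ) → ℝ) : b19D ms N q τ (fun τ' => c * F τ') = c * b19D ms N q τ F := by
  unfold b19D
  have e : (fun τ' : ℕ → ℕ → ℕ => if τ' q (q + 1) ≤ N then c * F τ' else 0)
      = fun τ' => c * (if τ' q (q + 1) ≤ N then F τ' else 0) := by
    funext τ'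
    split_ifs <;> simp
  rw [e, tr_c3_sumK_const_mul]
  ring

theorem b19_A_add (F G : (ℕ → ℕ → ℕ) → ℝ) : b19A ms N q τ (fun τ' => F τ' + G τ') = b19A ms N q τ F + b19A ms N q τ G := by
  unfold b19A
  rw [← mul_add, ← b19c_absK_add]
  refine congrArg (fun x : ℝ => 1 / 2 * x) (congrArg (trAbsK ms N 2 q τ) ?_)
  funext τ'
  split_ifs <;> simp

theorem b19_A_smul (c : ℝ) (F : (ℕ → ℕ → ℕ) → ℝ) : b19A ms N q τ (fun τ' => c * F τ') = c * b19A ms N q τ F := by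
  unfold b19A
  have e : (fun τ' : ℕ → ℕ → ℕ => if τ' q (q + 1) ≤ N then c * F τ' else 0)
      = fun τ' => c * (if τ' q (q + 1) ≤ N then F τ' else 0) := by
    funext τ'
    split_ifs <;> simp
  rw [e, tra2_absK_const_mul]
  ring

theorem b19_A_nonneg {F : (ℕ → ℕ → ℕ) → ℝ} (h : ∀ τ', 0 ≤ F τ') : 0 ≤ b19A ms N q τ F := by
  unfold b19A
  refine mul_nonneg (by norm_num) (trw_absK_nonneg ms N 2 q τ fun τ' => ?_)
  split_ifs
  · exact h τ'
  · exact le_rfl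

/-- total mass (`tr_absK_le`) -/
theorem b19_A_const (hτ : IsTr N q τ) (hms : IsMs N ms) {c : ℝ} (hc : 0 ≤ c) :
    b19A ms N q τ (fun _ => c) ≤ 2 * ms N ^ 2 * q * (q + 1) * c := by
  unfold b19A
  have h := tr_absK_le hτ hms 2 (fun τ' => if τ' q (q + 1) ≤ N then c else 0) c (fun τ' _ => by
    split_ifs
    · rw [abs_of_nonneg hc]
    · rw [abs_zero]; exact hc)
  have e : (fun τ' : ℕ → ℕ → ℕ => |if τ' q (q + 1) ≤ N then c else 0|) = fun τ' => if τ' q (q + 1) ≤ N then c else 0 := by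
    funext τ'
    split_ifs
    · exact abs_of_nonneg hc
    · exact abs_zero
  rw [e] at h
  simp only [Finset.prod_range_succ, Finset.prod_range_zero, Nat.cast_zero, Nat.cast_one, add_zero, one_mul] at h
  calc 1 / 2 * trAbsK ms N 2 q τ (fun τ' => if τ' q (q + 1) ≤ N then c else 0)
      ≤ 1 / 2 * ((2 * ms N) ^ 2 * ((q : ℝ) * ((q : ℝ) + 1)) * c) := mul_le_mul_of_nonneg_left h (by norm_num)
    _ = 2 * ms N ^ 2 * q * (q + 1) * c := by ring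

/-- differentiation of `trSumK` with memory of the old tree -/
theorem b19_sumK_hasDeriv_mem (hτ : IsTr N q τ) (k : ℕ) (g : ℝ → (ℕ → ℕ → ℕ) → ℝ) (g' : (ℕ → ℕ → ℕ) → ℝ) {s : Set ℝ} {θ : ℝ}
    (h : ∀ τ', IsTr N (q + k) τ' → (∀ y z, y < q → z < q → τ' y z = τ y z) → HasDerivWithinAt (fun θ => g θ τ') (g' τ') s θ) :
    HasDerivWithinAt (fun θ => trSumK ms N k q τ (g θ)) (trSumK ms N k q τ g') s θ := by
  induction k generalizing q τ with
  | zero => exact h τ hτ fun _ _ _ _ => rfl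
  | succ k ih =>
    simp only [trSumK, trSum]
    refine HasDerivWithinAt.fun_sum fun x hx => HasDerivWithinAt.fun_sum fun j hj => ?_
    have hx' := Finset.mem_range.mp hx
    have hj' := Finset.mem_range.mp hj
    refine HasDerivWithinAt.const_mul _ (ih (tr_att_isTr hτ hx' (by omega)) fun τ' hτ' hag => ?_)
    refine h τ' (by rwa [show q + (k + 1) = q + 1 + k by omega]) fun y z hy hz => ?_
    rw [hag y z (by omega) (by omega), tr_att_old hy hz]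

/-- differentiation under the finite sum -/
theorem b19_D_hasDeriv (hτ : IsTr N q τ) {F F' : ℝ → (ℕ → ℕ → ℕ) → ℝ} {s : Set ℝ} {θ : ℝ}
    (h : ∀ τ', IsTr N (q + 2) τ' → (∀ y z, y < q → z < q → τ' y z = τ y z) → τ' q (q + 1) ≤ N →
      HasDerivWithinAt (fun θ => F θ τ') (F' θ τ') s θ) :
    HasDerivWithinAt (fun θ => b19D ms N q τ (F θ)) (b19D ms N q τ (F' θ)) s θ := by
  unfold b19D
  refine HasDerivWithinAt.const_mul _ (b19_sumK_hasDeriv_mem hτ 2 _ _ fun τ' hτ' hag => ?_)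
  by_cases c : τ' q (q + 1) ≤ N
  · simp only [if_pos c]; exact h τ' hτ' hag c
  · simp only [if_neg c]; exact hasDerivWithinAt_const _ _ _

/-- the signed row of a function of the level of the pair (last old label, new label) does not depend on the tree -/
theorem b19_zsum_row (hτ : IsTr N (q + 1) τ) (G : ℕ → ℝ) :
    trSum ms N (q + 1) τ (fun τ₂ => G (τ₂ q (q + 1))) = ∑ j ∈ Finset.range (N + 1), ms j * (G (j + 1) - G j) := by
  rw [tr_sum_abel hτ (fun τ₂ => G (τ₂ q (q + 1))) fun τ₁ τ₂ h => by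
    show G (τ₁ q (q + 1)) = G (τ₂ q (q + 1))
    rw [h q (q + 1) (by omega) (by omega)]]
  refine Finset.sum_congr rfl fun j hj => ?_
  have hj' := Finset.mem_range.mp hj
  have hv : ∀ x k, trAtt N (q + 1) τ x k q (q + 1) = min k (τ q x) := fun x k => trw_att_nr (Nat.lt_succ_self q)
  simp only [hv]
  have h1 := tra2_bl_sum_min hτ (Nat.lt_succ_self q) (show j + 1 ≤ N + 1 by omega) (fun _ => ms j * (G (j + 1) - G j))
  rw [← h1, tra2Bl, Finset.sum_filter, Finset.sum_filter]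
  refine Finset.sum_congr rfl fun x _ => ?_
  by_cases hm : trIsMin τ (j + 1) x
  · rw [if_pos hm, if_pos hm]
    by_cases ht : j + 1 ≤ τ q x
    · rw [if_pos ht, min_eq_left ht, min_eq_left (by omega)]
    · rw [if_neg ht, min_eq_right (by omega), min_eq_right (by omega), sub_self, mul_zero]
  · rw [if_neg hm, if_neg hm]
    split_ifs <;> rfl

/-- **ZSUM**: `∑_d w(d) g(τ(c,d)) = - ∑_{r ≤ N} gap_r g(r) + a g(N+1)` does not depend on the tree (`tr_sum_block`, `tr_row_sum` along the path of `c`), and `∑_c w(c) = 0` (`tr_row_sum`, `j0 = 0`) -/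
theorem b19_zsum (hτ : IsTr N q τ) (_hq : 0 < q) (g : ℕ → ℝ) : b19D ms N q τ (fun τ' => g (τ' q (q + 1))) = 0 := by
  unfold b19D
  obtain ⟨G, hG⟩ : ∃ G : ℕ → ℝ, G = fun r => if r ≤ N then g r else 0 := ⟨_, rfl⟩
  have e : trSumK ms N 2 q τ (fun τ' => if τ' q (q + 1) ≤ N then g (τ' q (q + 1)) else 0)
      = trSum ms N q τ fun τ₁ => trSum ms N (q + 1) τ₁ fun τ₂ => G (τ₂ q (q + 1)) := by
    simp only [trSumK, hG]
  have h0 := tr_sum_const' (ms := ms) hτ (fun τ₁ => trSum ms N (q + 1) τ₁ fun τ₂ => G (τ₂ q (q + 1)))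
    (∑ j ∈ Finset.range (N + 1), ms j * (G (j + 1) - G j)) (fun x j hx hj => b19_zsum_row (tr_att_isTr hτ hx hj) G)
  rw [e, h0, mul_zero]

end one

/-! ## #B the extensions of the observed tree -/

section ext
variable {a : ℝ} {P : SkStp} {i : ℕ}

theorem b19_D2_abs (G : (ℕ → ℕ → ℕ) → ℝ) : |b19D2 a P i G| ≤ b19A2 a P i fun τ => |G τ| := by
  unfold b19D2 b19A2
  exact (b19_D_abs _).trans (b19_A_mono' fun τ₁ => b19_D_abs _)

theorem b19_D2_congr (hi : i ≤ P.length) {F G : (ℕ → ℕ → ℕ) → ℝ} (h : ∀ τ, B19Tr P.length i 2 τ → F τ = G τ) :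
    b19D2 a P i F = b19D2 a P i G :=
  b19c_D2_congr a P hi F G h

theorem b19_D2_add (F G : (ℕ → ℕ → ℕ) → ℝ) : b19D2 a P i (fun τ => F τ + G τ) = b19D2 a P i F + b19D2 a P i G := by
  unfold b19D2
  simp only [b19_D_add]

theorem b19_A2_mono (hi : i ≤ P.length) {F G : (ℕ → ℕ → ℕ) → ℝ} (h : ∀ τ, B19Tr P.length i 2 τ → F τ ≤ G τ) :
    b19A2 a P i F ≤ b19A2 a P i G :=
  b19c_A2_mono a P hi F G h

theorem b19_A2_smul (c : ℝ) (F : (ℕ → ℕ → ℕ) → ℝ) : b19A2 a P i (fun τ => c * F τ) = c * b19A2 a P i F := by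
  unfold b19A2
  simp only [b19_A_smul]

theorem b19_A2_add (F G : (ℕ → ℕ → ℕ) → ℝ) : b19A2 a P i (fun τ => F τ + G τ) = b19A2 a P i F + b19A2 a P i G := by
  unfold b19A2
  simp only [b19_A_add]

theorem b19_A3_mono (hi : i ≤ P.length) {F G : (ℕ → ℕ → ℕ) → ℝ} (h : ∀ τ, B19Tr P.length i 3 τ → F τ ≤ G τ) :
    b19A3 a P i F ≤ b19A3 a P i G :=
  b19c_A3_mono a P hi F G h

theorem b19_A3_smul (c : ℝ) (F : (ℕ → ℕ → ℕ) → ℝ) : b19A3 a P i (fun τ => c * F τ) = c * b19A3 a P i F := by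
  unfold b19A3
  simp only [b19_A_smul]

theorem b19_A3_add (F G : (ℕ → ℕ → ℕ) → ℝ) : b19A3 a P i (fun τ => F τ + G τ) = b19A3 a P i F + b19A3 a P i G := by
  unfold b19A3
  simp only [b19_A_add]

end ext

/-! ## #D split densities in product form -/

/-- **DENS2**.   `off * f1(r1) f2(r2) = ∑_{j1, j2 ≤ N} f1(j1) f2(j2) 1[r1 = j1, r2 = j2]`; linearity of `trAbsK`; `tr_split_density_multi` (`q = 2, k = 4`) with `J = {j1, j2} \ {i}`;
then `∑_{j1,j2} f1 f2 ∏_{J} gap ≤ μ(f1) μ(f2) + μ(f1 f2)`, `μ = δ_i + dm` (`b19Mu`). -/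
theorem b19_dens2 (A0 : ℝ) : ∃ C : ℝ, 0 ≤ C ∧ ∀ (a : ℝ) (P : SkStp) (i : ℕ), 0 < a → a ≤ A0 → SkAdm a P → i ≤ P.length →
    ∀ f1 f2 : ℕ → ℝ, (∀ r, 0 ≤ f1 r) → (∀ r, 0 ≤ f2 r) →
      b19A2 a P i (fun τ => f1 (τ 2 3) * f2 (τ 4 5))
        ≤ C * (b19Mu a P i f1 * b19Mu a P i f2 + b19Mu a P i fun r => f1 r * f2 r) :=
  b19c_A2_dens A0

/-- **DENS3** is not needed: in every term of `b19Maj3` one of the three factors has values in `[0,1]`; `b19c_A3_sym` (`Bud/C19CombA.lean`) = two-slot density for the symmetrised product. -/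
theorem b19_dens3_note : True := trivial

/-! ## #E the sums of the majorants -/

variable {n : ℕ}

/-- nonnegativity of the numbers -/
theorem b19_num_nonneg (_hn : 0 < n) (k0 : Fin n) {a : ℝ} (ha : 0 < a) {P : SkStp} (hP : SkAdm a P) (p : ℝ) (r κ : ℕ) :
    0 ≤ b19Nm k0 a P p r ∧ 0 ≤ b19Dm k0 a P r ∧ 0 ≤ b19NQ k0 a P p r ∧ 0 ≤ b19Zm k0 a P r κ :=
  ⟨b19c_Nm_nonneg ha hP k0 p r, b19c_Dm_nonneg ha hP k0 r,
    Real.rpow_nonneg (b19c_Sk_nonneg ha hP _ _ fun _ => Real.rpow_nonneg (abs_nonneg _) _) _, Real.sqrt_nonneg _⟩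

/-- `D ≤ 2` -/
theorem b19_Dm_le (hn : 0 < n) (k0 : Fin n) {a : ℝ} (ha : 0 < a) {P : SkStp} (hP : SkAdm a P) {p : ℝ} (hp : 1 ≤ p) {r : ℕ}
    (hr : r ≤ P.length) : b19Nm k0 a P p r ≤ 2 := by
  unfold b19Nm
  have hp0 : 0 < p := by linarith
  have h1 : b19Sk n a P 2 (b19St P.length r) (fun σ => |b19Dl k0 a P r 0 1 σ| ^ p) ≤ 2 ^ p := by
    have := b19c_Sk_mono ha hP 2 (b19St P.length r) (f := fun σ => |b19Dl k0 a P r 0 1 σ| ^ p) (g := fun _ => (2 : ℝ) ^ p)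
      (fun σ => by
        refine Real.rpow_le_rpow (abs_nonneg _) ?_ hp0.le
        unfold b19Dl
        have h1 := b19_Qm_abs hn k0 (σ 0) (σ 1)
        have h2 := b19_S_mem hn ha hP hr
        rw [abs_le] at h1 ⊢
        constructor <;> linarith [h2.1, h2.2, h1.1, h1.2])
    rwa [b19c_Sk_const ha hP] at this
  calc _ ≤ ((2 : ℝ) ^ p) ^ (1 / p) :=
        Real.rpow_le_rpow (b19c_Sk_nonneg ha hP _ _ fun _ => Real.rpow_nonneg (abs_nonneg _) _) h1 (by positivity)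
    _ = 2 := by rw [← Real.rpow_mul (by norm_num), mul_one_div_cancel hp0.ne', Real.rpow_one]

/-- `2 Het = ‖Qm_01 - Qm_23‖_2²` on the star; in particular `0 ≤ Het` and `|E4| ≤ D²` -/
theorem b19_Het_eq (_hn : 0 < n) (k0 : Fin n) {a : ℝ} (ha : 0 < a) {P : SkStp} (hP : SkAdm a P) {i : ℕ} (hi : i ≤ P.length) :
    2 * b19Het k0 a P i = b19Sk n a P 4 (b19St P.length i) fun σ => (b19Qm k0 (σ 0) (σ 1) - b19Qm k0 (σ 2) (σ 3)) ^ 2 :=
  b19c_Het_eq ha hP k0 hi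

/-- every term of `b19RhsG` is nonnegative, so each of them is bounded by the whole -/
theorem b19_rhsM_parts (k0 : Fin n) {a : ℝ} {P : SkStp} (p : ℝ) {A0 M0 : ℝ} {i H : ℕ} (R : ℕ) (e κ : ℕ → ℕ) {Prim : ℕ → ℝ} {NQ : ℝ}
    (h : B19Hyp n a P A0 M0 i H) (hPr : ∀ j, j < R → 0 ≤ Prim j) (hNQ : 0 ≤ NQ) :
    0 ≤ b19RhsM k0 a P p i H R e κ Prim NQ ∧
    1 / (n : ℝ) ≤ b19RhsM k0 a P p i H R e κ Prim NQ ∧
    skGap a P i ≤ b19RhsM k0 a P p i H R e κ Prim NQ ∧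
    |b19Cp n a P i| * b19Dm k0 a P i ^ 2 ≤ b19RhsM k0 a P p i H R e κ Prim NQ ∧
    (b19K n a P H + skMs a P i) * b19Het k0 a P i ≤ b19RhsM k0 a P p i H R e κ Prim NQ ∧
    b19Dm k0 a P i * b19IG a P (b19Dm k0 a P) 0 H 1 ≤ b19RhsM k0 a P p i H R e κ Prim NQ ∧
    (∑ j ∈ Finset.range R, (b19Zm k0 a P i (κ j) * b19IG a P (b19Dm k0 a P) (e j) (e (j + 1)) 1 + b19Dm k0 a P i * Prim j))
      ≤ b19RhsM k0 a P p i H R e κ Prim NQ ∧
    b19IG a P (b19Dm k0 a P) 0 H 2 ≤ b19RhsM k0 a P p i H R e κ Prim NQ ∧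
    b19IG a P (b19Dm k0 a P) 0 H 1 ^ 2 ≤ b19RhsM k0 a P p i H R e κ Prim NQ ∧
    b19IG a P (b19Dm k0 a P) 0 H 1 * b19IG a P (b19Dm k0 a P) H (P.length + 1) 1 ≤ b19RhsM k0 a P p i H R e κ Prim NQ ∧
    b19K n a P H * (b19IG a P (b19Dm k0 a P) H (P.length + 1) 1 ^ 2 + b19IG a P (b19Dm k0 a P) H (P.length + 1) 2)
      ≤ b19RhsM k0 a P p i H R e κ Prim NQ ∧
    b19Dm k0 a P i * b19Nm k0 a P 4 i ^ 2 ≤ b19RhsM k0 a P p i H R e κ Prim NQ ∧
    b19Nm k0 a P 4 i ^ 2 * (b19IG a P (b19Dm k0 a P) 0 H 1 + b19IG a P (b19Dm k0 a P) H (P.length + 1) 1)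
      ≤ b19RhsM k0 a P p i H R e κ Prim NQ ∧
    (b19Nm k0 a P p i + NQ + b19K n a P H) * (b19IG a P (b19Dm k0 a P) H (P.length + 1) (1 - 1 / p) ^ 2
        + b19IG a P (b19Dm k0 a P) H (P.length + 1) (2 * (1 - 1 / p))) ≤ b19RhsM k0 a P p i H R e κ Prim NQ := by
  have ha := h.a0
  have hP := h.adm
  have hD : ∀ j, 0 ≤ b19Dm k0 a P j := b19c_Dm_nonneg ha hP k0
  have hIG : ∀ lo hi s, 0 ≤ b19IG a P (b19Dm k0 a P) lo hi s := fun lo hi s => b19c_IG_nonneg ha hP hD lo hi s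
  have hK := b19c_K_nonneg (n := n) ha hP H
  have hi : i ≤ P.length := by have := h.iH; have := h.HN; omega
  have t1 : 0 ≤ 1 / (n : ℝ) := by positivity
  have t2 := pin_gap_nonneg ha P hP i
  have t3 : 0 ≤ |b19Cp n a P i| * b19Dm k0 a P i ^ 2 := by positivity
  have t4 : 0 ≤ (b19K n a P H + skMs a P i) * b19Het k0 a P i :=
    mul_nonneg (add_nonneg hK (pin_ms_bd ha P hP i).1) (b19c_Het_nonneg ha hP k0 hi)
  have t5 : 0 ≤ b19Dm k0 a P i * b19IG a P (b19Dm k0 a P) 0 H 1 := mul_nonneg (hD i) (hIG _ _ _)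
  have t6 : 0 ≤ ∑ j ∈ Finset.range R,
      (b19Zm k0 a P i (κ j) * b19IG a P (b19Dm k0 a P) (e j) (e (j + 1)) 1 + b19Dm k0 a P i * Prim j) :=
    Finset.sum_nonneg fun j hj => add_nonneg (mul_nonneg (Real.sqrt_nonneg _) (hIG _ _ _))
      (mul_nonneg (hD i) (hPr j (Finset.mem_range.1 hj)))
  have t7 := hIG 0 H 2
  have t8 : 0 ≤ b19IG a P (b19Dm k0 a P) 0 H 1 ^ 2 := sq_nonneg _
  have t9 : 0 ≤ b19IG a P (b19Dm k0 a P) 0 H 1 * b19IG a P (b19Dm k0 a P) H (P.length + 1) 1 := mul_nonneg (hIG _ _ _) (hIG _ _ _)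
  have t10 : 0 ≤ b19K n a P H * (b19IG a P (b19Dm k0 a P) H (P.length + 1) 1 ^ 2 + b19IG a P (b19Dm k0 a P) H (P.length + 1) 2) :=
    mul_nonneg hK (add_nonneg (sq_nonneg _) (hIG _ _ _))
  have t11 : 0 ≤ b19Dm k0 a P i * b19Nm k0 a P 4 i ^ 2 := mul_nonneg (hD i) (sq_nonneg _)
  have t12 : 0 ≤ b19Nm k0 a P 4 i ^ 2 * (b19IG a P (b19Dm k0 a P) 0 H 1 + b19IG a P (b19Dm k0 a P) H (P.length + 1) 1) :=
    mul_nonneg (sq_nonneg _) (add_nonneg (hIG _ _ _) (hIG _ _ _))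
  have t13 : 0 ≤ (b19Nm k0 a P p i + NQ + b19K n a P H) * (b19IG a P (b19Dm k0 a P) H (P.length + 1) (1 - 1 / p) ^ 2
        + b19IG a P (b19Dm k0 a P) H (P.length + 1) (2 * (1 - 1 / p))) :=
    mul_nonneg (add_nonneg (add_nonneg (b19c_Nm_nonneg ha hP k0 p i) hNQ) hK) (add_nonneg (sq_nonneg _) (hIG _ _ _))
  unfold b19RhsM b19RhsG
  refine ⟨?_, ?_, ?_, ?_, ?_, ?_, ?_, ?_, ?_, ?_, ?_, ?_, ?_, ?_⟩ <;> linarith

theorem b19_rhsM_nonneg (k0 : Fin n) {a : ℝ} {P : SkStp} {p A0 M0 : ℝ} (_hp : 2 ≤ p) {i H R : ℕ} {e κ : ℕ → ℕ} {Prim : ℕ → ℝ} {NQ : ℝ}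
    (h : B19Hyp n a P A0 M0 i H) (_hD : B19Dy i H P.length R e κ) (hPr : ∀ j, j < R → 0 ≤ Prim j) (hNQ : 0 ≤ NQ) :
    0 ≤ b19RhsM k0 a P p i H R e κ Prim NQ :=
  (b19_rhsM_parts k0 p R e κ h hPr hNQ).1

/-! ### the classes -/

section classes
variable (k0 : Fin n) {a : ℝ} {P : SkStp} {i H : ℕ}

theorem b19_dL_nonneg (ha : 0 < a) (hP : SkAdm a P) (i H r : ℕ) : 0 ≤ b19dL k0 a P i H r := by
  unfold b19dL
  split_ifs
  · exact b19c_Dm_nonneg ha hP k0 r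
  · exact le_rfl

theorem b19_dH_nonneg (ha : 0 < a) (hP : SkAdm a P) (H : ℕ) (s : ℝ) (r : ℕ) : 0 ≤ b19dH k0 a P H s r := by
  unfold b19dH
  split_ifs
  · exact Real.rpow_nonneg (b19c_Dm_nonneg ha hP k0 r) s
  · exact le_rfl

theorem b19_dp_nonneg (i r : ℕ) : 0 ≤ b19dp i r := by
  unfold b19dp
  split_ifs <;> norm_num

theorem b19_dp_le (i r : ℕ) : b19dp i r ≤ 1 := by
  unfold b19dp
  split_ifs <;> norm_num

theorem b19_dH0_le (a : ℝ) (P : SkStp) (H r : ℕ) : b19dH k0 a P H 0 r ≤ 1 := by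
  unfold b19dH
  split_ifs
  · rw [Real.rpow_zero]
  · norm_num

theorem b19_Mu_dL (ha : 0 < a) (hP : SkAdm a P) (hH : H ≤ P.length) :
    b19Mu a P i (b19dL k0 a P i H) ≤ b19IG a P (b19Dm k0 a P) 0 H 1 := by
  refine b19c_Mu_le_IG ha hP (by omega) _ _ (by simp [b19dL]) (fun j _ hj => ?_) (fun j _ _ => ?_)
  · unfold b19dL
    rw [if_neg fun h => hj ⟨Nat.zero_le j, h.1⟩]
  · rw [Real.rpow_one]
    unfold b19dL
    split_ifs
    · exact le_rfl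
    · exact b19c_Dm_nonneg ha hP k0 j

theorem b19_Mu_dLdL (ha : 0 < a) (hP : SkAdm a P) (hH : H ≤ P.length) :
    (b19Mu a P i fun r => b19dL k0 a P i H r * b19dL k0 a P i H r) ≤ b19IG a P (b19Dm k0 a P) 0 H 2 := by
  refine b19c_Mu_le_IG ha hP (by omega) _ _ (by simp [b19dL]) (fun j _ hj => ?_) (fun j _ _ => ?_)
  · unfold b19dL
    rw [if_neg fun h => hj ⟨Nat.zero_le j, h.1⟩, mul_zero]
  · rw [Real.rpow_two]
    unfold b19dL
    split_ifs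
    · exact le_of_eq (sq _).symm
    · rw [mul_zero]; exact sq_nonneg _

theorem b19_Mu_dH (ha : 0 < a) (hP : SkAdm a P) (hi : i < H) (s : ℝ) :
    b19Mu a P i (b19dH k0 a P H s) ≤ b19IG a P (b19Dm k0 a P) H (P.length + 1) s := by
  refine b19c_Mu_le_IG ha hP le_rfl _ _ (by unfold b19dH; rw [if_neg (by omega)]) (fun j hj1 hj => ?_) (fun j hj _ => ?_)
  · unfold b19dH
    rw [if_neg fun h => hj ⟨h, by omega⟩]
  · unfold b19dH
    rw [if_pos hj]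

theorem b19_Mu_dHdH (ha : 0 < a) (hP : SkAdm a P) (hi : i < H) {s : ℝ} (hs : 0 ≤ s) :
    (b19Mu a P i fun r => b19dH k0 a P H s r * b19dH k0 a P H s r) ≤ b19IG a P (b19Dm k0 a P) H (P.length + 1) (2 * s) := by
  refine b19c_Mu_le_IG ha hP le_rfl _ _ (by unfold b19dH; rw [if_neg (by omega), mul_zero]) (fun j hj1 hj => ?_)
    (fun j hj _ => ?_)
  · unfold b19dH
    rw [if_neg fun h => hj ⟨h, by omega⟩, mul_zero]
  · unfold b19dH
    rw [if_pos hj, two_mul, Real.rpow_add_of_nonneg (b19c_Dm_nonneg ha hP k0 j) hs hs]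

theorem b19_dLdH (a : ℝ) (P : SkStp) (i H : ℕ) (s : ℝ) (r : ℕ) : b19dL k0 a P i H r * b19dH k0 a P H s r = 0 := by
  unfold b19dL b19dH
  by_cases h : H ≤ r
  · rw [if_neg fun h' => by omega, zero_mul]
  · rw [if_neg h, mul_zero]

theorem b19_dpdL (a : ℝ) (P : SkStp) (i H r : ℕ) : b19dp i r * b19dL k0 a P i H r = 0 := by
  unfold b19dL b19dp
  by_cases h : r = i
  · have h2 : ¬ (r < H ∧ r ≠ i) := fun h' => h'.2 h
    rw [if_neg h2, mul_zero]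
  · rw [if_neg h, zero_mul]

theorem b19_dpdH (a : ℝ) (P : SkStp) (hi : i < H) (s : ℝ) (r : ℕ) : b19dp i r * b19dH k0 a P H s r = 0 := by
  unfold b19dH b19dp
  by_cases h : r = i
  · have h2 : ¬ (H ≤ r) := by omega
    rw [if_neg h2, mul_zero]
  · rw [if_neg h, zero_mul]

end classes

/-- **sum of the degree two majorant** (`b19_dens2` termwise + algebra:   `μ(dL) ≤ IG 0 H 1`, `μ(dL²) ≤ IG 0 H 2`, `μ(dH s) = IG H (N+1) s`, `μ(dp) ≤ 1 + A0`, products with disjoint supports vanish) -/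
theorem b19_sum2 (p A0 M0 : ℝ) (_hp : 2 ≤ p) : ∃ C : ℝ, 0 ≤ C ∧ ∀ (n : ℕ) (k0 : Fin n) (a : ℝ) (P : SkStp) (i H R : ℕ) (e κ : ℕ → ℕ)
    (Prim : ℕ → ℝ) (NQ : ℝ), B19Hyp n a P A0 M0 i H → B19Dy i H P.length R e κ → (∀ j, j < R → 0 ≤ Prim j) → 0 ≤ NQ →
    b19A2 a P i (fun τ => b19Maj2 k0 a P i H (τ 2 3) (τ 4 5)) ≤ C * b19RhsM k0 a P p i H R e κ Prim NQ := by
  obtain ⟨C, hC0, hC⟩ := b19c_A2_bd A0
  refine ⟨C * (7 + 2 * |A0|), by positivity, fun n k0 a P i H R e κ Prim NQ h _ hPr hNQ => ?_⟩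
  have ha := h.a0
  have hP := h.adm
  have hi : i ≤ P.length := by have := h.iH; have := h.HN; omega
  obtain ⟨pX, -, -, -, -, p5, -, p7, p8, p9, p10, -, -, -⟩ := b19_rhsM_parts k0 p R e κ h hPr hNQ
  have hK := b19c_K_nonneg (n := n) ha hP H
  have hDi := b19c_Dm_nonneg ha hP k0 i
  have nL := b19_dL_nonneg k0 ha hP i H
  have nH := b19_dH_nonneg k0 ha hP H 1
  have mL := b19_Mu_dL k0 (i := i) ha hP h.HN
  have mLL := b19_Mu_dLdL k0 (i := i) ha hP h.HN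
  have mH := b19_Mu_dH k0 ha hP h.iH 1
  have mHH := b19_Mu_dHdH k0 ha hP h.iH (s := 1) zero_le_one
  rw [show (2 : ℝ) * 1 = 2 by norm_num] at mHH
  have mp := b19c_Mu_le_one ha hP i (b19_dp_le i)
  have k := hC a P i ha h.aA hP hi
  have k1 := k _ _ nL nL _ _ _ mL mL mLL
  have k2 := k _ _ nL nH _ _ 0 mL mH (le_of_eq (b19c_Mu_zero a P i fun r => b19_dLdH k0 a P i H 1 r))
  have k3 := k _ _ nH nL _ _ 0 mH mL (le_of_eq (b19c_Mu_zero a P i fun r => by rw [mul_comm]; exact b19_dLdH k0 a P i H 1 r))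
  have k4 := k _ _ nH nH _ _ _ mH mH mHH
  have k5 := k _ _ (b19_dp_nonneg i) nL _ _ 0 mp mL (le_of_eq (b19c_Mu_zero a P i fun r => b19_dpdL k0 a P i H r))
  have k6 := k _ _ nL (b19_dp_nonneg i) _ _ 0 mL mp
    (le_of_eq (b19c_Mu_zero a P i fun r => by rw [mul_comm]; exact b19_dpdL k0 a P i H r))
  have k4' := mul_le_mul_of_nonneg_left k4 hK
  have k56 := mul_le_mul_of_nonneg_left (add_le_add k5 k6) hDi
  unfold b19Maj2
  rw [b19_A2_add, b19_A2_add, b19_A2_add, b19_A2_add, b19_A2_smul, b19_A2_smul, b19_A2_add]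
  set X := b19RhsM k0 a P p i H R e κ Prim NQ with hX
  set I1L := b19IG a P (b19Dm k0 a P) 0 H 1 with hI1L
  set I2L := b19IG a P (b19Dm k0 a P) 0 H 2 with hI2L
  set I1H := b19IG a P (b19Dm k0 a P) H (P.length + 1) 1 with hI1H
  set I2H := b19IG a P (b19Dm k0 a P) H (P.length + 1) 2 with hI2H
  set Di := b19Dm k0 a P i with hDi'
  set K := b19K n a P H with hK'
  have haA : 1 + a ≤ 1 + |A0| := by linarith [h.aA, le_abs_self A0]
  have q5 : (1 + a) * (Di * I1L) ≤ (1 + |A0|) * X :=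
    mul_le_mul haA p5 (mul_nonneg hDi (b19c_IG_nonneg ha hP (b19c_Dm_nonneg ha hP k0) _ _ _)) (by positivity)
  have fin : I1L ^ 2 + I2L + 2 * (I1L * I1H) + K * (I1H ^ 2 + I2H) + 2 * ((1 + a) * (Di * I1L)) ≤ (7 + 2 * |A0|) * X := by
    linarith
  have fin' := mul_le_mul_of_nonneg_left fin hC0
  calc _ ≤ C * (I1L * I1L + I2L) + C * (I1L * I1H + 0) + C * (I1H * I1L + 0) + K * (C * (I1H * I1H + I2H))
        + Di * (C * ((1 + a) * I1L + 0) + C * (I1L * (1 + a) + 0)) := by linarith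
    _ = C * (I1L ^ 2 + I2L + 2 * (I1L * I1H) + K * (I1H ^ 2 + I2H) + 2 * ((1 + a) * (Di * I1L))) := by ring
    _ ≤ C * ((7 + 2 * |A0|) * X) := fin'
    _ = C * (7 + 2 * |A0|) * X := by ring

/-- the arithmetic of `b19_sum3` -/
theorem b19_sum3_arith {C a A0 X I1L I2L I1H IT I2T Di N4 Np NQ K T1 T2 T3 T4 T5 T6 : ℝ} (hC0 : 0 ≤ C) (ha : 0 ≤ a) (haA0 : a ≤ A0)
    (hDi : 0 ≤ Di) (hNp : 0 ≤ Np) (hNQ : 0 ≤ NQ) (hK : 0 ≤ K) (hL : 0 ≤ I1L) (hH : 0 ≤ I1H)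
    (p7 : I2L ≤ X) (p8 : I1L ^ 2 ≤ X) (p9 : I1L * I1H ≤ X) (p11 : Di * N4 ^ 2 ≤ X) (p12 : N4 ^ 2 * (I1L + I1H) ≤ X)
    (p13 : (Np + NQ + K) * (IT ^ 2 + I2T) ≤ X)
    (s1 : T1 ≤ C * (I1L * I1L + I2L)) (s2 : T2 ≤ C * (I1L * I1H + 0)) (s3 : T3 ≤ C * ((1 + a) * (1 + a) + (1 + a)))
    (s4 : T4 ≤ C * ((I1L + I1H) * (1 + a) + 0)) (s5 : T5 ≤ C * (IT * IT + I2T)) (s6 : T6 ≤ C * (IT * IT + I2T)) :
    T1 + T2 + Di * N4 ^ 2 * T3 + N4 ^ 2 * T4 + Np * T5 + (NQ + K) * T6 ≤ C * (4 + (1 + |A0|) ^ 2 + 2 * (1 + |A0|)) * X := by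
  have s3' := mul_le_mul_of_nonneg_left s3 (mul_nonneg hDi (sq_nonneg N4))
  have s4' := mul_le_mul_of_nonneg_left s4 (sq_nonneg N4)
  have s5' := mul_le_mul_of_nonneg_left s5 hNp
  have s6' := mul_le_mul_of_nonneg_left s6 (add_nonneg hNQ hK)
  have haA : 1 + a ≤ 1 + |A0| := by linarith [le_abs_self A0]
  have ha1 : 0 ≤ 1 + a := by linarith
  have hsq : (1 + a) * (1 + a) ≤ (1 + |A0|) ^ 2 := by
    rw [sq]; exact mul_le_mul haA haA ha1 (by positivity)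
  have q3 : ((1 + a) * (1 + a) + (1 + a)) * (Di * N4 ^ 2) ≤ ((1 + |A0|) ^ 2 + (1 + |A0|)) * X :=
    mul_le_mul (add_le_add hsq haA) p11 (mul_nonneg hDi (sq_nonneg _)) (by positivity)
  have q4 : (1 + a) * (N4 ^ 2 * (I1L + I1H)) ≤ (1 + |A0|) * X :=
    mul_le_mul haA p12 (mul_nonneg (sq_nonneg _) (add_nonneg hL hH)) (by positivity)
  have fin : I1L ^ 2 + I2L + I1L * I1H + ((1 + a) * (1 + a) + (1 + a)) * (Di * N4 ^ 2) + (1 + a) * (N4 ^ 2 * (I1L + I1H))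
      + (Np + NQ + K) * (IT ^ 2 + I2T) ≤ (4 + (1 + |A0|) ^ 2 + 2 * (1 + |A0|)) * X := by
    linarith
  have fin' := mul_le_mul_of_nonneg_left fin hC0
  calc _ ≤ C * (I1L * I1L + I2L) + C * (I1L * I1H + 0) + Di * N4 ^ 2 * (C * ((1 + a) * (1 + a) + (1 + a)))
        + N4 ^ 2 * (C * ((I1L + I1H) * (1 + a) + 0)) + Np * (C * (IT * IT + I2T)) + (NQ + K) * (C * (IT * IT + I2T)) := by
        linarith
    _ = C * (I1L ^ 2 + I2L + I1L * I1H + ((1 + a) * (1 + a) + (1 + a)) * (Di * N4 ^ 2) + (1 + a) * (N4 ^ 2 * (I1L + I1H))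
      + (Np + NQ + K) * (IT ^ 2 + I2T)) := by ring
    _ ≤ C * ((4 + (1 + |A0|) ^ 2 + 2 * (1 + |A0|)) * X) := fin'
    _ = C * (4 + (1 + |A0|) ^ 2 + 2 * (1 + |A0|)) * X := by ring

/-- **sum of the degree three majorant** (`b19_dens3` termwise + algebra) -/
theorem b19_sum3 (p A0 M0 : ℝ) (hp : 2 ≤ p) : ∃ C : ℝ, 0 ≤ C ∧ ∀ (n : ℕ) (k0 : Fin n) (a : ℝ) (P : SkStp) (i H R : ℕ) (e κ : ℕ → ℕ)
    (Prim : ℕ → ℝ) (NQ : ℝ), B19Hyp n a P A0 M0 i H → B19Dy i H P.length R e κ → (∀ j, j < R → 0 ≤ Prim j) → 0 ≤ NQ →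
    b19A3 a P i (fun τ => b19Maj3 k0 a P p i H NQ (τ 2 3) (τ 4 5) (τ 6 7)) ≤ C * b19RhsM k0 a P p i H R e κ Prim NQ := by
  obtain ⟨C, hC0, hC⟩ := b19c_A3_sym A0
  refine ⟨C * (4 + (1 + |A0|) ^ 2 + 2 * (1 + |A0|)), by positivity, fun n k0 a P i H R e κ Prim NQ h _ hPr hNQ => ?_⟩
  have ha := h.a0
  have hP := h.adm
  have hi : i ≤ P.length := by have := h.iH; have := h.HN; omega
  have hθ : 0 ≤ 1 - 1 / p := by
    have : 1 / p ≤ 1 := by rw [div_le_one (by linarith)]; linarith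
    linarith
  obtain ⟨pX, -, -, -, -, -, -, p7, p8, p9, -, p11, p12, p13⟩ := b19_rhsM_parts k0 p R e κ h hPr hNQ
  have hK := b19c_K_nonneg (n := n) ha hP H
  have hDi := b19c_Dm_nonneg ha hP k0 i
  have hNp := b19c_Nm_nonneg ha hP k0 p i
  have nL := b19_dL_nonneg k0 ha hP i H
  have nH := b19_dH_nonneg k0 ha hP H 1
  have nT := b19_dH_nonneg k0 ha hP H (1 - 1 / p)
  have n0 := b19_dH_nonneg k0 ha hP H 0
  have np := b19_dp_nonneg i
  have mL := b19_Mu_dL k0 (i := i) ha hP h.HN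
  have mLL := b19_Mu_dLdL k0 (i := i) ha hP h.HN
  have mH := b19_Mu_dH k0 ha hP h.iH 1
  have mT := b19_Mu_dH k0 ha hP h.iH (1 - 1 / p)
  have mTT := b19_Mu_dHdH k0 ha hP h.iH hθ
  have mp := b19c_Mu_le_one ha hP i (b19_dp_le i)
  have mpp : (b19Mu a P i fun r => b19dp i r * b19dp i r) ≤ 1 + a :=
    b19c_Mu_le_one ha hP i fun r => mul_le_one₀ (b19_dp_le i r) (np r) (b19_dp_le i r)
  have mF : b19Mu a P i (fun r => b19dL k0 a P i H r + b19dH k0 a P H 1 r)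
      ≤ b19IG a P (b19Dm k0 a P) 0 H 1 + b19IG a P (b19Dm k0 a P) H (P.length + 1) 1 := by
    rw [b19c_Mu_add]; exact add_le_add mL mH
  have k := hC a P i ha h.aA hP hi
  have s1 := k _ _ (fun _ => 1) nL nL (fun _ => zero_le_one) (fun _ => le_rfl) _ _ _ mL mL mLL
  have s2 := k _ _ (fun _ => 1) nL nH (fun _ => zero_le_one) (fun _ => le_rfl) _ _ 0 mL mH
    (le_of_eq (b19c_Mu_zero a P i fun r => b19_dLdH k0 a P i H 1 r))
  have s3 := k _ _ _ np np np (b19_dp_le i) _ _ _ mp mp mpp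
  have s4 := k _ _ _ (fun r => add_nonneg (nL r) (nH r)) np np (b19_dp_le i) _ _ 0 mF mp
    (le_of_eq (b19c_Mu_zero a P i fun r => by
      rw [mul_comm, mul_add, b19_dpdL, b19_dpdH k0 a P h.iH, add_zero]))
  have s5 := k _ _ _ nT nT np (b19_dp_le i) _ _ _ mT mT mTT
  have s6 := k _ _ _ nT nT n0 (b19_dH0_le k0 a P H) _ _ _ mT mT mTT
  -- the third and fourth and fifth terms in the form of `b19c_A3_sym`
  have hm : b19A3 a P i (fun τ => b19Maj3 k0 a P p i H NQ (τ 2 3) (τ 4 5) (τ 6 7))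
      ≤ b19A3 a P i (fun τ => ((((b19Sym3 (b19dL k0 a P i H) (b19dL k0 a P i H) (fun _ => 1) (τ 2 3) (τ 4 5) (τ 6 7)
          + b19Sym3 (b19dL k0 a P i H) (b19dH k0 a P H 1) (fun _ => 1) (τ 2 3) (τ 4 5) (τ 6 7))
          + (b19Dm k0 a P i * b19Nm k0 a P 4 i ^ 2) * b19Sym3 (b19dp i) (b19dp i) (b19dp i) (τ 2 3) (τ 4 5) (τ 6 7))
          + b19Nm k0 a P 4 i ^ 2 * b19Sym3 (fun r => b19dL k0 a P i H r + b19dH k0 a P H 1 r) (b19dp i) (b19dp i) (τ 2 3) (τ 4 5) (τ 6 7))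
          + b19Nm k0 a P p i * b19Sym3 (b19dH k0 a P H (1 - 1 / p)) (b19dH k0 a P H (1 - 1 / p)) (b19dp i) (τ 2 3) (τ 4 5) (τ 6 7))
          + (NQ + b19K n a P H) * b19Sym3 (b19dH k0 a P H (1 - 1 / p)) (b19dH k0 a P H (1 - 1 / p)) (b19dH k0 a P H 0)
              (τ 2 3) (τ 4 5) (τ 6 7)) := by
    refine b19_A3_mono hi fun τ _ => ?_
    unfold b19Maj3
    have e3 : b19dp i (τ 2 3) * b19dp i (τ 4 5) * b19dp i (τ 6 7)
        ≤ b19Sym3 (b19dp i) (b19dp i) (b19dp i) (τ 2 3) (τ 4 5) (τ 6 7) := by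
      unfold b19Sym3
      have := mul_nonneg (mul_nonneg (np (τ 2 3)) (np (τ 4 5))) (np (τ 6 7))
      nlinarith
    have e3' := mul_le_mul_of_nonneg_left e3 (mul_nonneg hDi (sq_nonneg (b19Nm k0 a P 4 i)))
    have e4 : b19Sym3 (b19dp i) (b19dp i) (fun r => b19dL k0 a P i H r + b19dH k0 a P H 1 r) (τ 2 3) (τ 4 5) (τ 6 7)
        = b19Sym3 (fun r => b19dL k0 a P i H r + b19dH k0 a P H 1 r) (b19dp i) (b19dp i) (τ 2 3) (τ 4 5) (τ 6 7) := by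
      unfold b19Sym3; ring
    have e5 : b19Sym3 (b19dp i) (b19dH k0 a P H (1 - 1 / p)) (b19dH k0 a P H (1 - 1 / p)) (τ 2 3) (τ 4 5) (τ 6 7)
        = b19Sym3 (b19dH k0 a P H (1 - 1 / p)) (b19dH k0 a P H (1 - 1 / p)) (b19dp i) (τ 2 3) (τ 4 5) (τ 6 7) := by
      unfold b19Sym3; ring
    rw [e4, e5]
    linarith
  rw [b19_A3_add, b19_A3_add, b19_A3_add, b19_A3_add, b19_A3_add, b19_A3_smul, b19_A3_smul, b19_A3_smul, b19_A3_smul] at hm
  exact hm.trans (b19_sum3_arith hC0 ha.le h.aA hDi hNp hNQ hK (b19c_IG_nonneg ha hP (b19c_Dm_nonneg ha hP k0) _ _ _)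
    (b19c_IG_nonneg ha hP (b19c_Dm_nonneg ha hP k0) _ _ _) p7 p8 p9 p11 p12 p13 s1 s2 s3 s4 s5 s6)

end

end Claimed.Agent.R286
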