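import Claimed.Agent.R286.Bud.C19H

/-!
# Row 286, N17 = (C19), `Bud/C19Hb.lean`: THE CLASSES pH, Hp, part 2: weights, PSUM, exit `b19h_pH`      (owner helper15; chief helper180)

Blueprint sec.5 (d) (`git show origin/helper180:notes/R286/N17_180.md`).   TEX[LL:bud:closure].   Part 1 = `Bud/C19H.lean`.   EXIT **`b19h_pH`** = the statement of `b19_pH` (`Bud/C19Ctr.lean`).   NO sorry in this file.
PROOF (labels `(x,y)` = pinned pair, `(u,w)` = high pair; `B19hLb` = the two choices).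
* `b19h_core`: on the extensions of the observed tree the class is the disjoint union of the dyads (`b19h_dy_part`); `b19h_dyad` for each of them; `∑_j ∑_{v ∈ Dy_j} gap_v ≤ a` (`b19h_dy_sum`).
* `b19h_dyad`: `χ_τ = b_i b_v ν_τ[δ_xy δ_uw]` (`b19h_lb_chi`) `= b_i b_v Nf(i, r2(τ), r3(τ), v) + error`, `|error| ≤ M0² (Zm(i,κ) Dm(v) + 2/n)` (`b19h_proj`), summed with the split density of `v` (`b19h_d1`).
* `b19h_main` (PSUM + PHB): the signed sum is grouped by `(r2, r3, v)` (`b19h_psum_id`, `b19h_D2_sum`);   the total weight `W(r2,r3,v) = D²[1[data] c]` vanishes for inadmissible data (`b19h_W_zero`) and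
  `|W| ≤ C ω(r2,r3) gap_v` (`b19h_W_le`, from `tr_split_density_multi` with `J = {r, v}`: `b19h_dens`, `b19h_w1`), `∑ ω ≤ 3 (2 + a)` (`b19h_Om_sum`);   PHB (`b19h_phbW`) for every fixed `(r2, r3)`.
-/

set_option autoImplicit false

namespace Claimed.Agent.R286

open MeasureTheory Set Filter Topology

noncomputable section

/-! ## A. linearity over finite sums, split densities -/

section lin
variable {a : ℝ} {P : SkStp} {i : ℕ}

theorem b19h_D2_zero : b19D2 a P i (fun _ => 0) = 0 := by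
  have := b19p_D2_smul a P i 0 fun _ => 0
  simpa using this

theorem b19h_D2_sum {α : Type} (s : Finset α) (F : α → (ℕ → ℕ → ℕ) → ℝ) :
    b19D2 a P i (fun τ => ∑ x ∈ s, F x τ) = ∑ x ∈ s, b19D2 a P i (F x) := by
  classical
  induction s using Finset.induction_on with
  | empty => simpa using b19h_D2_zero
  | insert x s hx ih =>
    simp only [Finset.sum_insert hx]
    rw [b19_D2_add, ih]

theorem b19h_A2_zero : b19A2 a P i (fun _ => 0) = 0 := by
  have := b19_A2_smul (a := a) (P := P) (i := i) 0 fun _ => 0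
  simpa using this

theorem b19h_A2_sum {α : Type} (s : Finset α) (F : α → (ℕ → ℕ → ℕ) → ℝ) :
    b19A2 a P i (fun τ => ∑ x ∈ s, F x τ) = ∑ x ∈ s, b19A2 a P i (F x) := by
  classical
  induction s using Finset.induction_on with
  | empty => simpa using b19h_A2_zero
  | insert x s hx ih =>
    simp only [Finset.sum_insert hx]
    rw [b19_A2_add, ih]

end lin

/-- **split density** of the pairs with prescribed levels `j ∈ J` (none of them `i`), for ANY pairs of labels -/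
theorem b19h_dens (A0 : ℝ) : ∃ C : ℝ, 0 ≤ C ∧ ∀ (a : ℝ) (P : SkStp) (i : ℕ), 0 < a → a ≤ A0 → SkAdm a P → i ≤ P.length →
    ∀ (J : Finset ℕ) (x y : ℕ → ℕ), J.card ≤ 2 → (∀ j ∈ J, j ≤ P.length ∧ j ≠ i ∧ x j < 6 ∧ y j < 6) →
      b19A2 a P i (fun τ => if ∀ j ∈ J, τ (x j) (y j) = j then 1 else 0) ≤ C * ∏ j ∈ J, skGap a P j := by
  obtain ⟨C, hC, h⟩ := tr_split_density_multi 2 4 2 A0
  refine ⟨C, hC, fun a P i ha haA hP hi J x y hJ hxy => ?_⟩
  obtain ⟨hms, hN⟩ := b19_isMs ha hP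
  have h1 := h P.length (b19St P.length i) (skMs a P) (b19_st_isTr (by omega) 2) hms (hN.le.trans haA) J x y hJ
    (fun j hj => ⟨(hxy j hj).1, by have := (hxy j hj).2.2.1; omega, by have := (hxy j hj).2.2.2; omega⟩)
    (fun j hj y z _ _ => by
      have h1 := (hxy j hj).1
      have h2 := (hxy j hj).2.1
      unfold b19St
      split_ifs <;> omega)
  have h2 : ∏ j ∈ J, (skMs a P j - trPm (skMs a P) j) = ∏ j ∈ J, skGap a P j := Finset.prod_congr rfl fun j _ => b19_gap a P j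
  rw [h2] at h1
  have h0 : 0 ≤ ∏ j ∈ J, skGap a P j := Finset.prod_nonneg fun j _ => b19_gap_nonneg ha hP j
  refine (b19p_A2_le fun _ => by split_ifs <;> norm_num).trans ?_
  have h3 : trAbsK (skMs a P) P.length 4 2 (b19St P.length i) (fun τ => if ∀ j ∈ J, τ (x j) (y j) = j then (1 : ℝ) else 0)
      ≤ trAbsK (skMs a P) P.length 4 2 (b19St P.length i)
        (Set.indicator {τ' | ∀ j ∈ J, τ' (x j) (y j) = j} fun _ => (1 : ℝ)) := by
    refine trw_absK_mono _ _ 4 2 _ fun τ => ?_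
    by_cases hτ : ∀ j ∈ J, τ (x j) (y j) = j
    · rw [if_pos hτ, Set.indicator_of_mem (show τ ∈ {τ' : ℕ → ℕ → ℕ | ∀ j ∈ J, τ' (x j) (y j) = j} from hτ)]
    · rw [if_neg hτ, Set.indicator_of_notMem (show τ ∉ {τ' : ℕ → ℕ → ℕ | ∀ j ∈ J, τ' (x j) (y j) = j} from hτ)]
  have h4 := h3.trans h1
  have h5 : 0 ≤ C * ∏ j ∈ J, skGap a P j := mul_nonneg hC h0
  linarith

/-- the density of the truncated level `r = min (τ p u) κ`: an atom at `i` and at `κ`, `dm` elsewhere -/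
def b19hGa (a : ℝ) (P : SkStp) (i κ r : ℕ) : ℝ := if r = i ∨ r = κ then 1 else skGap a P r

theorem b19hb_eqns_cite : True := by
  have := @b19hGa.eq_1
  trivial

theorem b19h_Ga_nonneg {a : ℝ} (ha : 0 < a) {P : SkStp} (hP : SkAdm a P) (i κ r : ℕ) : 0 ≤ b19hGa a P i κ r := by
  unfold b19hGa
  split_ifs
  · norm_num
  · exact b19_gap_nonneg ha hP r

/-- `∑_r γ(r) ≤ 2 + a` -/
theorem b19h_Ga_sum {a : ℝ} (ha : 0 < a) {P : SkStp} (hP : SkAdm a P) (i κ : ℕ) :
    ∑ r ∈ Finset.range (P.length + 1), b19hGa a P i κ r ≤ 2 + a := by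
  have h1 : ∀ r ∈ Finset.range (P.length + 1), b19hGa a P i κ r
      ≤ ((if r = i then (1 : ℝ) else 0) + (if r = κ then (1 : ℝ) else 0)) + skGap a P r := by
    intro r _
    have hg := b19_gap_nonneg ha hP r
    unfold b19hGa
    by_cases c1 : r = i
    · rw [if_pos (Or.inl c1), if_pos c1]
      split_ifs <;> linarith
    · by_cases c2 : r = κ
      · rw [if_pos (Or.inr c2), if_neg c1, if_pos c2]; linarith
      · rw [if_neg (by tauto), if_neg c1, if_neg c2]; linarith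
  refine (Finset.sum_le_sum h1).trans ?_
  rw [Finset.sum_add_distrib, Finset.sum_add_distrib, b19_gap_sum, Finset.sum_ite_eq', Finset.sum_ite_eq']
  split_ifs <;> linarith

/-- **the joint weight** of a truncated level and of the level of the high pair -/
theorem b19h_w1 (A0 : ℝ) : ∃ C : ℝ, 0 ≤ C ∧ ∀ (a : ℝ) (P : SkStp) (i : ℕ), 0 < a → a ≤ A0 → SkAdm a P → i ≤ P.length →
    ∀ κ r v p u w : ℕ, p < 6 → u < 6 → w < 6 → κ ≤ v → v ≤ P.length → v ≠ i →
      b19A2 a P i (fun τ => if min (τ p u) κ = r ∧ τ u w = v then 1 else 0) ≤ C * (b19hGa a P i κ r * skGap a P v) := by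
  obtain ⟨C, hC, h⟩ := b19h_dens A0
  refine ⟨C, hC, fun a P i ha haA hP hi κ r v p u w hp hu hw hκv hv hvi => ?_⟩
  have hgv := b19_gap_nonneg ha hP v
  by_cases c1 : r = i ∨ r = κ
  · have h1 := h a P i ha haA hP hi {v} (fun _ => u) (fun _ => w) (by simp) (fun j hj => by
      rw [Finset.mem_singleton] at hj; subst hj; exact ⟨hv, hvi, hu, hw⟩)
    rw [Finset.prod_singleton] at h1
    unfold b19hGa
    rw [if_pos c1, one_mul]
    refine le_trans (b19_A2_mono hi fun τ _ => ?_) h1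
    by_cases c2 : min (τ p u) κ = r ∧ τ u w = v
    · rw [if_pos c2, if_pos (fun j hj => by rw [Finset.mem_singleton] at hj; rw [hj]; exact c2.2)]
    · rw [if_neg c2]; split_ifs <;> norm_num
  · have hri : r ≠ i := fun e => c1 (Or.inl e)
    have hrκ : r ≠ κ := fun e => c1 (Or.inr e)
    unfold b19hGa
    rw [if_neg c1]
    have hgr := b19_gap_nonneg ha hP r
    rcases Nat.lt_or_ge r κ with hlt | hge
    · have hrv : r ≠ v := by omega
      have h1 := h a P i ha haA hP hi {r, v} (fun j => if j = r then p else u) (fun j => if j = r then u else w)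
        (Finset.card_le_two) (fun j hj => by
          rw [Finset.mem_insert, Finset.mem_singleton] at hj
          rcases hj with rfl | rfl
          · exact ⟨by omega, hri, by rw [if_pos rfl]; exact hp, by rw [if_pos rfl]; exact hu⟩
          · exact ⟨hv, hvi, by rw [if_neg (Ne.symm hrv)]; exact hu, by rw [if_neg (Ne.symm hrv)]; exact hw⟩)
      rw [Finset.prod_pair hrv] at h1
      refine le_trans (b19_A2_mono hi fun τ _ => ?_) h1
      by_cases c2 : min (τ p u) κ = r ∧ τ u w = v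
      · rw [if_pos c2, if_pos]
        intro j hj
        rw [Finset.mem_insert, Finset.mem_singleton] at hj
        rcases hj with rfl | rfl
        · rw [if_pos rfl, if_pos rfl]
          have := c2.1
          omega
        · rw [if_neg (Ne.symm hrv), if_neg (Ne.symm hrv)]
          exact c2.2
      · rw [if_neg c2]; split_ifs <;> norm_num
    · have h1 : b19A2 a P i (fun τ => if min (τ p u) κ = r ∧ τ u w = v then (1 : ℝ) else 0) ≤ b19A2 a P i fun _ => 0 := by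
        refine b19_A2_mono hi fun τ _ => ?_
        rw [if_neg]
        intro c2
        have := c2.1
        omega
      rw [b19h_A2_zero] at h1
      exact h1.trans (by positivity)

/-! ## B. PSUM: the signed sum grouped by `(r2, r3, v)` -/

/-- the coefficient `c` on the trees with the data `(r2, r3, v)` -/
def b19hInd (i κ x y u w : ℕ) (c : (ℕ → ℕ → ℕ) → ℝ) (r2 r3 v : ℕ) (τ : ℕ → ℕ → ℕ) : ℝ :=
  if min (τ x u) κ = r2 then (if min (τ y u) κ = r3 then (if τ u w = v then (if τ x y = i then c τ else 0) else 0) else 0) else 0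

/-- the density of the pair `(r2, r3)` -/
def b19hOm (a : ℝ) (P : SkStp) (i κ r2 r3 : ℕ) : ℝ :=
  ((if r2 = r3 then b19hGa a P i κ r2 else 0) + (if r3 = i then b19hGa a P i κ r2 else 0)) + (if r2 = i then b19hGa a P i κ r3 else 0)

theorem b19hb_eqns_cite2 : True := by
  have := @b19hInd.eq_1
  have := @b19hOm.eq_1
  trivial

theorem b19h_Om_nonneg {a : ℝ} (ha : 0 < a) {P : SkStp} (hP : SkAdm a P) (i κ r2 r3 : ℕ) : 0 ≤ b19hOm a P i κ r2 r3 := by
  have h2 := b19h_Ga_nonneg ha hP i κ r2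
  have h3 := b19h_Ga_nonneg ha hP i κ r3
  unfold b19hOm
  split_ifs <;> linarith

/-- `∑ ω ≤ 3 (2 + a)` -/
theorem b19h_Om_sum {a : ℝ} (ha : 0 < a) {P : SkStp} (hP : SkAdm a P) (i κ : ℕ) :
    ∑ r2 ∈ Finset.range (P.length + 1), ∑ r3 ∈ Finset.range (P.length + 1), b19hOm a P i κ r2 r3 ≤ 3 * (2 + a) := by
  have hS := b19h_Ga_sum ha hP i κ
  have hS0 : 0 ≤ ∑ r ∈ Finset.range (P.length + 1), b19hGa a P i κ r := Finset.sum_nonneg fun r _ => b19h_Ga_nonneg ha hP i κ r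
  unfold b19hOm
  simp only [Finset.sum_add_distrib]
  have t1 : ∑ r2 ∈ Finset.range (P.length + 1), ∑ r3 ∈ Finset.range (P.length + 1), (if r2 = r3 then b19hGa a P i κ r2 else 0)
      = ∑ r ∈ Finset.range (P.length + 1), b19hGa a P i κ r := by
    refine Finset.sum_congr rfl fun r2 h2 => ?_
    rw [Finset.sum_ite_eq, if_pos h2]
  have t2 : ∑ r2 ∈ Finset.range (P.length + 1), ∑ r3 ∈ Finset.range (P.length + 1), (if r3 = i then b19hGa a P i κ r2 else 0)
      ≤ ∑ r ∈ Finset.range (P.length + 1), b19hGa a P i κ r := by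
    refine Finset.sum_le_sum fun r2 _ => ?_
    rw [Finset.sum_ite_eq']
    split_ifs
    · exact le_rfl
    · exact b19h_Ga_nonneg ha hP i κ r2
  have t3 : ∑ r2 ∈ Finset.range (P.length + 1), ∑ r3 ∈ Finset.range (P.length + 1), (if r2 = i then b19hGa a P i κ r3 else 0)
      ≤ ∑ r ∈ Finset.range (P.length + 1), b19hGa a P i κ r := by
    have : ∀ r2 ∈ Finset.range (P.length + 1), ∑ r3 ∈ Finset.range (P.length + 1), (if r2 = i then b19hGa a P i κ r3 else 0)
        = if r2 = i then ∑ r ∈ Finset.range (P.length + 1), b19hGa a P i κ r else 0 := by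
      intro r2 _
      split_ifs
      · rfl
      · exact Finset.sum_const_zero
    rw [Finset.sum_congr rfl this, Finset.sum_ite_eq']
    split_ifs
    · exact le_rfl
    · exact hS0
  linarith

/-- **PSUM, the identity**: a function of `(r2(τ), r3(τ), v(τ))` times `c τ` is a combination of the indicators -/
theorem b19h_psum_id {N i κ x y u w e0 e1 : ℕ} (hκ : κ ≤ N) (c : (ℕ → ℕ → ℕ) → ℝ) (Cf : ℕ → ℕ → ℕ → ℝ) (τ : ℕ → ℕ → ℕ) :
    (if τ x y = i ∧ e0 ≤ τ u w ∧ τ u w < e1 then c τ * Cf (min (τ x u) κ) (min (τ y u) κ) (τ u w) else 0)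
      = ∑ r2 ∈ Finset.range (N + 1), ∑ r3 ∈ Finset.range (N + 1), ∑ v ∈ Finset.Ico e0 e1,
          Cf r2 r3 v * b19hInd i κ x y u w c r2 r3 v τ := by
  rw [Finset.sum_eq_single (min (τ x u) κ)]
  rotate_left
  · intro r2 _ hne
    refine Finset.sum_eq_zero fun r3 _ => Finset.sum_eq_zero fun v _ => ?_
    unfold b19hInd
    rw [if_neg (Ne.symm hne), mul_zero]
  · intro h
    exact absurd (Finset.mem_range.2 (by omega)) h
  rw [Finset.sum_eq_single (min (τ y u) κ)]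
  rotate_left
  · intro r3 _ hne
    refine Finset.sum_eq_zero fun v _ => ?_
    unfold b19hInd
    rw [if_pos rfl, if_neg (Ne.symm hne), mul_zero]
  · intro h
    exact absurd (Finset.mem_range.2 (by omega)) h
  unfold b19hInd
  simp only [if_true]
  by_cases hV : τ u w ∈ Finset.Ico e0 e1
  · rw [Finset.sum_eq_single (τ u w)]
    rotate_left
    · intro v _ hne
      rw [if_neg (Ne.symm hne), mul_zero]
    · intro h
      exact absurd hV h
    rw [if_pos rfl]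
    rw [Finset.mem_Ico] at hV
    by_cases hxy : τ x y = i
    · rw [if_pos ⟨hxy, hV.1, hV.2⟩, if_pos hxy]; ring
    · rw [if_neg (fun h => hxy h.1), if_neg hxy, mul_zero]
  · rw [Finset.sum_eq_zero fun v hv => by
      have hne : τ u w ≠ v := fun e => hV (by rw [e]; exact hv)
      rw [if_neg hne, mul_zero]]
    rw [Finset.mem_Ico] at hV
    rw [if_neg fun h => hV h.2]

theorem b19h_Ind_abs {i κ x y u w : ℕ} {c : (ℕ → ℕ → ℕ) → ℝ} (hc : ∀ τ, |c τ| ≤ 2) (r2 r3 v : ℕ) (τ : ℕ → ℕ → ℕ) :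
    |b19hInd i κ x y u w c r2 r3 v τ| ≤ 2 * if (min (τ x u) κ = r2 ∧ min (τ y u) κ = r3) ∧ τ u w = v then (1 : ℝ) else 0 := by
  unfold b19hInd
  by_cases e1 : min (τ x u) κ = r2
  · rw [if_pos e1]
    by_cases e2 : min (τ y u) κ = r3
    · rw [if_pos e2]
      by_cases e3 : τ u w = v
      · have e4 : (min (τ x u) κ = r2 ∧ min (τ y u) κ = r3) ∧ τ u w = v := ⟨⟨e1, e2⟩, e3⟩
        rw [if_pos e3, if_pos e4, mul_one]
        split_ifs
        · exact hc τ
        · simp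
      · rw [if_neg e3, if_neg (fun h => e3 h.2)]; simp
    · rw [if_neg e2, if_neg (fun h => e2 h.1.2)]; simp
  · rw [if_neg e1, if_neg (fun h => e1 h.1.1)]; simp

/-- **PSUM, the weights**: the total signed weight of the data `(r2, r3, v)` has the density `C ω(r2,r3)` with respect to `dm(v)` -/
theorem b19h_W_le (A0 : ℝ) : ∃ C : ℝ, 0 ≤ C ∧ ∀ (a : ℝ) (P : SkStp) (i : ℕ), 0 < a → a ≤ A0 → SkAdm a P → i ≤ P.length →
    ∀ κ x y u w : ℕ, x < 6 → y < 6 → u < 6 → w < 6 → ∀ c : (ℕ → ℕ → ℕ) → ℝ, (∀ τ, |c τ| ≤ 2) →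
    ∀ r2 r3 v : ℕ, B19R i κ r2 r3 → κ ≤ v → v ≤ P.length → v ≠ i →
      |b19D2 a P i (b19hInd i κ x y u w c r2 r3 v)| ≤ C * (b19hOm a P i κ r2 r3 * skGap a P v) := by
  obtain ⟨C1, hC1, h1⟩ := b19h_w1 A0
  refine ⟨2 * C1, by positivity, fun a P i ha haA hP hi κ x y u w hx hy hu hw c hc r2 r3 v hR hκv hv hvi => ?_⟩
  have hgv := b19_gap_nonneg ha hP v
  have g2 := b19h_Ga_nonneg ha hP i κ r2
  have g3 := b19h_Ga_nonneg ha hP i κ r3
  have hA := b19_D2_abs (a := a) (P := P) (i := i) (b19hInd i κ x y u w c r2 r3 v)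
  have b2 : b19A2 a P i (fun τ => |b19hInd i κ x y u w c r2 r3 v τ|) ≤ 2 * (C1 * (b19hGa a P i κ r2 * skGap a P v)) := by
    refine le_trans (b19_A2_mono hi (G := fun τ => 2 * if min (τ x u) κ = r2 ∧ τ u w = v then (1 : ℝ) else 0) fun τ _ => ?_) ?_
    · refine (b19h_Ind_abs hc r2 r3 v τ).trans (mul_le_mul_of_nonneg_left ?_ (by norm_num))
      by_cases e : (min (τ x u) κ = r2 ∧ min (τ y u) κ = r3) ∧ τ u w = v
      · rw [if_pos e, if_pos ⟨e.1.1, e.2⟩]
      · rw [if_neg e]; split_ifs <;> norm_num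
    · rw [b19_A2_smul]
      exact mul_le_mul_of_nonneg_left (h1 a P i ha haA hP hi κ r2 v x u w hx hu hw hκv hv hvi) (by norm_num)
  have b3 : b19A2 a P i (fun τ => |b19hInd i κ x y u w c r2 r3 v τ|) ≤ 2 * (C1 * (b19hGa a P i κ r3 * skGap a P v)) := by
    refine le_trans (b19_A2_mono hi (G := fun τ => 2 * if min (τ y u) κ = r3 ∧ τ u w = v then (1 : ℝ) else 0) fun τ _ => ?_) ?_
    · refine (b19h_Ind_abs hc r2 r3 v τ).trans (mul_le_mul_of_nonneg_left ?_ (by norm_num))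
      by_cases e : (min (τ x u) κ = r2 ∧ min (τ y u) κ = r3) ∧ τ u w = v
      · rw [if_pos e, if_pos ⟨e.1.2, e.2⟩]
      · rw [if_neg e]; split_ifs <;> norm_num
    · rw [b19_A2_smul]
      exact mul_le_mul_of_nonneg_left (h1 a P i ha haA hP hi κ r3 v y u w hy hu hw hκv hv hvi) (by norm_num)
  have key : b19hGa a P i κ r2 ≤ b19hOm a P i κ r2 r3 ∨ b19hGa a P i κ r3 ≤ b19hOm a P i κ r2 r3 := by
    unfold B19R at hR
    unfold b19hOm
    rcases hR with ⟨_, _, e⟩ | ⟨_, _, e⟩ | ⟨e, _⟩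
    · left
      rw [if_pos e]
      split_ifs <;> linarith
    · right
      rw [if_pos e]
      split_ifs <;> linarith
    · left
      rw [if_pos e]
      split_ifs <;> linarith
  rcases key with hk | hk
  · have : C1 * (b19hGa a P i κ r2 * skGap a P v) ≤ C1 * (b19hOm a P i κ r2 r3 * skGap a P v) :=
      mul_le_mul_of_nonneg_left (mul_le_mul_of_nonneg_right hk hgv) hC1
    linarith
  · have : C1 * (b19hGa a P i κ r3 * skGap a P v) ≤ C1 * (b19hOm a P i κ r2 r3 * skGap a P v) :=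
      mul_le_mul_of_nonneg_left (mul_le_mul_of_nonneg_right hk hgv) hC1
    linarith

/-- no tree has inadmissible data -/
theorem b19h_W_zero {a : ℝ} {P : SkStp} {i : ℕ} (hi : i ≤ P.length) {κ x y u w : ℕ} (hiκ : i < κ) (hx : x < 6) (hy : y < 6) (hu : u < 6)
    (c : (ℕ → ℕ → ℕ) → ℝ) {r2 r3 : ℕ} (hR : ¬ B19R i κ r2 r3) (v : ℕ) : b19D2 a P i (b19hInd i κ x y u w c r2 r3 v) = 0 := by
  rw [← b19h_D2_zero (a := a) (P := P) (i := i)]
  refine b19_D2_congr hi fun τ hτ => ?_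
  have hT : IsTr P.length 6 τ := hτ.1
  unfold b19hInd
  by_cases e1 : min (τ x u) κ = r2
  · by_cases e2 : min (τ y u) κ = r3
    · by_cases e3 : τ x y = i
      · exact absurd (e1 ▸ e2 ▸ b19h_R hT hiκ hx hy hu e3) hR
      · rw [if_pos e1, if_pos e2, if_neg e3]
        split_ifs <;> rfl
    · rw [if_pos e1, if_neg e2]
  · rw [if_neg e1]

variable {n : ℕ}

/-- **the main part of one dyad** (PSUM + PHB) -/
theorem b19h_main (A0 M0 : ℝ) : ∃ C : ℝ, 0 ≤ C ∧ ∀ (n : ℕ) (k0 : Fin n) (a : ℝ) (P : SkStp) (i H : ℕ), B19Hyp n a P A0 M0 i H →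
    ∀ κ e0 e1 x y u w : ℕ, x < 6 → y < 6 → u < 6 → w < 6 → i < κ → κ ≤ e0 → e0 < e1 → e1 ≤ P.length + 1 →
    ∀ Pr : ℝ, 0 ≤ Pr → (∀ k : ℕ → ℝ, (∀ v, |k v| ≤ 1) → (∀ v, v ∉ Finset.Ico e0 e1 → k v = 0) → b19Pr2 n a P k ≤ Pr ^ 2) →
    ∀ c : (ℕ → ℕ → ℕ) → ℝ, (∀ τ, |c τ| ≤ 2) →
      |b19D2 a P i (fun τ => if τ x y = i ∧ e0 ≤ τ u w ∧ τ u w < e1 then
          c τ * (skCumB P i * skCumB P (τ u w) * b19hNf k0 a P i (min (τ x u) κ) (min (τ y u) κ) (τ u w)) else 0)|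
        ≤ C * (b19Dm k0 a P i * Pr) := by
  obtain ⟨CW, hCW, hW⟩ := b19h_W_le A0
  refine ⟨M0 ^ 2 * CW * (6 * (2 + |A0|)), by positivity, ?_⟩
  intro n k0 a P i H h κ e0 e1 x y u w hx hy hu hw hiκ hκ he01 he1 Pr hPr0 hPr c hc
  have hn : 0 < n := by have := h.n2; omega
  have ha := h.a0
  have hP := h.adm
  have hi : i ≤ P.length := by omega
  have hM0 := b19_M0_nonneg h
  have hD0 := (b19_num_nonneg hn k0 ha hP 2 i κ).2.1
  have hbM : ∀ j, 0 ≤ skCumB P j ∧ skCumB P j ≤ M0 := by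
    intro j
    refine ⟨(b19_cum_nonneg hP j).1, ?_⟩
    rcases Nat.le_total j P.length with hj | hj
    · exact ((b19_cumB_mono hP hj).1).trans h.bM
    · have : skCumB P j = skCumB P P.length := by
        unfold skCumB
        rw [List.take_of_length_le hj, List.take_length]
      rw [this]; exact h.bM
  set W : ℕ → ℕ → ℕ → ℝ := fun r2 r3 v => b19D2 a P i (b19hInd i κ x y u w c r2 r3 v) with hWd
  have eq1 : b19D2 a P i (fun τ => if τ x y = i ∧ e0 ≤ τ u w ∧ τ u w < e1 then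
        c τ * (skCumB P i * skCumB P (τ u w) * b19hNf k0 a P i (min (τ x u) κ) (min (τ y u) κ) (τ u w)) else 0)
      = ∑ r2 ∈ Finset.range (P.length + 1), ∑ r3 ∈ Finset.range (P.length + 1), ∑ v ∈ Finset.Ico e0 e1,
          (skCumB P i * skCumB P v * W r2 r3 v) * b19hNf k0 a P i r2 r3 v := by
    have e2 : (fun τ : ℕ → ℕ → ℕ => if τ x y = i ∧ e0 ≤ τ u w ∧ τ u w < e1 then
        c τ * (skCumB P i * skCumB P (τ u w) * b19hNf k0 a P i (min (τ x u) κ) (min (τ y u) κ) (τ u w)) else 0)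
        = fun τ => ∑ r2 ∈ Finset.range (P.length + 1), ∑ r3 ∈ Finset.range (P.length + 1), ∑ v ∈ Finset.Ico e0 e1,
          (skCumB P i * skCumB P v * b19hNf k0 a P i r2 r3 v) * b19hInd i κ x y u w c r2 r3 v τ := by
      funext τ
      exact b19h_psum_id (by omega : κ ≤ P.length) c (fun r2 r3 v => skCumB P i * skCumB P v * b19hNf k0 a P i r2 r3 v) τ
    rw [e2, b19h_D2_sum]
    refine Finset.sum_congr rfl fun r2 _ => ?_
    rw [b19h_D2_sum]
    refine Finset.sum_congr rfl fun r3 _ => ?_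
    rw [b19h_D2_sum]
    refine Finset.sum_congr rfl fun v _ => ?_
    rw [b19p_D2_smul]
    ring
  rw [eq1]
  have e3 : ∀ r2 r3 : ℕ, |∑ v ∈ Finset.Ico e0 e1, (skCumB P i * skCumB P v * W r2 r3 v) * b19hNf k0 a P i r2 r3 v|
      ≤ M0 ^ 2 * CW * b19hOm a P i κ r2 r3 * (2 * b19Dm k0 a P i * Pr) := by
    intro r2 r3
    have hO := b19h_Om_nonneg ha hP i κ r2 r3
    by_cases hR : B19R i κ r2 r3
    · refine b19h_phbW hn k0 ha hP hiκ hκ he1 hR hPr0 hPr (fun v => skCumB P i * skCumB P v * W r2 r3 v) (by positivity) ?_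
      intro v hv
      rw [Finset.mem_Ico] at hv
      have hw1 := hW a P i ha h.aA hP hi κ x y u w hx hy hu hw c hc r2 r3 v hR (by omega) (by omega) (by omega)
      rw [abs_mul, abs_mul, abs_of_nonneg (hbM i).1, abs_of_nonneg (hbM v).1]
      have t1 : skCumB P i * skCumB P v ≤ M0 * M0 := mul_le_mul (hbM i).2 (hbM v).2 (hbM v).1 hM0
      calc skCumB P i * skCumB P v * |W r2 r3 v| ≤ M0 * M0 * (CW * (b19hOm a P i κ r2 r3 * skGap a P v)) :=
            mul_le_mul t1 hw1 (abs_nonneg _) (by positivity)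
        _ = M0 ^ 2 * CW * b19hOm a P i κ r2 r3 * skGap a P v := by ring
    · rw [Finset.sum_eq_zero fun v _ => by
        rw [hWd]
        simp only
        rw [b19h_W_zero hi hiκ hx hy hu c hR v]; ring]
      rw [abs_zero]
      positivity
  calc |∑ r2 ∈ Finset.range (P.length + 1), ∑ r3 ∈ Finset.range (P.length + 1), ∑ v ∈ Finset.Ico e0 e1,
          (skCumB P i * skCumB P v * W r2 r3 v) * b19hNf k0 a P i r2 r3 v|
      ≤ ∑ r2 ∈ Finset.range (P.length + 1), ∑ r3 ∈ Finset.range (P.length + 1),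
          M0 ^ 2 * CW * b19hOm a P i κ r2 r3 * (2 * b19Dm k0 a P i * Pr) := by
        refine (Finset.abs_sum_le_sum_abs _ _).trans (Finset.sum_le_sum fun r2 _ => ?_)
        exact (Finset.abs_sum_le_sum_abs _ _).trans (Finset.sum_le_sum fun r3 _ => e3 r2 r3)
    _ = M0 ^ 2 * CW * (2 * b19Dm k0 a P i * Pr)
          * ∑ r2 ∈ Finset.range (P.length + 1), ∑ r3 ∈ Finset.range (P.length + 1), b19hOm a P i κ r2 r3 := by
        rw [Finset.mul_sum]
        refine Finset.sum_congr rfl fun r2 _ => ?_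
        rw [Finset.mul_sum]
        exact Finset.sum_congr rfl fun r3 _ => by ring
    _ ≤ M0 ^ 2 * CW * (2 * b19Dm k0 a P i * Pr) * (3 * (2 + |A0|)) := by
        refine mul_le_mul_of_nonneg_left ?_ (by positivity)
        have := b19h_Om_sum ha hP i κ
        have := h.aA.trans (le_abs_self A0)
        linarith
    _ = M0 ^ 2 * CW * (6 * (2 + |A0|)) * (b19Dm k0 a P i * Pr) := by ring

/-! ## C. one dyad -/

/-- the two choices of (pinned pair, high pair) -/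
def B19hLb (x y u w : ℕ) : Prop := (x = 2 ∧ y = 3 ∧ u = 4 ∧ w = 5) ∨ (x = 4 ∧ y = 5 ∧ u = 2 ∧ w = 3)

theorem b19hb_eqns_cite3 : True := by
  have := @B19hLb.eq_1
  trivial

theorem b19h_lb_chi (k0 : Fin n) {a : ℝ} (ha : 0 < a) {P : SkStp} (hP : SkAdm a P) {x y u w : ℕ} (hL : B19hLb x y u w) {i : ℕ}
    {τ : ℕ → ℕ → ℕ} (hxy : τ x y = i) :
    b19Chi k0 a P τ = skCumB P i * skCumB P (τ u w)
      * b19Sk n a P 6 τ fun σ => b19Dl k0 a P i x y σ * b19Dl k0 a P (τ u w) u w σ := by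
  rw [b19h_chi k0 ha hP]
  rcases hL with ⟨rfl, rfl, rfl, rfl⟩ | ⟨rfl, rfl, rfl, rfl⟩
  · rw [hxy]
  · rw [hxy, mul_comm (skCumB P (τ 2 3))]
    congr 2
    funext σ
    ring

/-- split density of the level of one pair -/
theorem b19h_d1 (A0 : ℝ) : ∃ C : ℝ, 0 ≤ C ∧ ∀ (a : ℝ) (P : SkStp) (i : ℕ), 0 < a → a ≤ A0 → SkAdm a P → i ≤ P.length →
    ∀ v u w : ℕ, u < 6 → w < 6 → v ≤ P.length → v ≠ i →
      b19A2 a P i (fun τ => if τ u w = v then 1 else 0) ≤ C * skGap a P v := by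
  obtain ⟨C, hC, h⟩ := b19h_dens A0
  refine ⟨C, hC, fun a P i ha haA hP hi v u w hu hw hv hvi => ?_⟩
  have h1 := h a P i ha haA hP hi {v} (fun _ => u) (fun _ => w) (by simp) (fun j hj => by
    rw [Finset.mem_singleton] at hj; subst hj; exact ⟨hv, hvi, hu, hw⟩)
  rw [Finset.prod_singleton] at h1
  refine le_trans (b19_A2_mono hi fun τ _ => ?_) h1
  by_cases c2 : τ u w = v
  · rw [if_pos c2, if_pos (fun j hj => by rw [Finset.mem_singleton] at hj; rw [hj]; exact c2)]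
  · rw [if_neg c2]; split_ifs <;> norm_num

/-- **one dyad** -/
theorem b19h_dyad (A0 M0 : ℝ) : ∃ C : ℝ, 0 ≤ C ∧ ∀ (n : ℕ) (k0 : Fin n) (a : ℝ) (P : SkStp) (i H : ℕ), B19Hyp n a P A0 M0 i H →
    ∀ κ e0 e1 x y u w : ℕ, B19hLb x y u w → i < κ → κ ≤ e0 → e0 < e1 → e1 ≤ P.length + 1 →
    ∀ Pr : ℝ, 0 ≤ Pr → (∀ k : ℕ → ℝ, (∀ v, |k v| ≤ 1) → (∀ v, v ∉ Finset.Ico e0 e1 → k v = 0) → b19Pr2 n a P k ≤ Pr ^ 2) →
    ∀ c : (ℕ → ℕ → ℕ) → ℝ, (∀ τ, |c τ| ≤ 2) →
      |b19D2 a P i (fun τ => if τ x y = i ∧ e0 ≤ τ u w ∧ τ u w < e1 then c τ * b19Chi k0 a P τ else 0)|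
        ≤ C * ((b19Zm k0 a P i κ * b19IG a P (b19Dm k0 a P) e0 e1 1 + b19Dm k0 a P i * Pr)
          + 1 / n * ∑ v ∈ Finset.Ico e0 e1, skGap a P v) := by
  obtain ⟨C1, hC1, h1⟩ := b19h_main A0 M0
  obtain ⟨C2, hC2, h2⟩ := b19h_d1 A0
  refine ⟨C1 + 4 * M0 ^ 2 * C2, by positivity, ?_⟩
  intro n k0 a P i H h κ e0 e1 x y u w hL hiκ hκ he01 he1 Pr hPr0 hPr c hc
  have hn : 0 < n := by have := h.n2; omega
  have hnr : (0 : ℝ) < n := by exact_mod_cast hn
  have ha := h.a0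
  have hP := h.adm
  have hi : i ≤ P.length := by omega
  have hM0 := b19_M0_nonneg h
  have hlab : x < 6 ∧ y < 6 ∧ u < 6 ∧ w < 6 ∧ u ≠ w := by
    rcases hL with ⟨rfl, rfl, rfl, rfl⟩ | ⟨rfl, rfl, rfl, rfl⟩ <;> omega
  obtain ⟨hx, hy, hu, hw, huw⟩ := hlab
  have hD0 : ∀ v, 0 ≤ b19Dm k0 a P v := fun v => (b19_num_nonneg hn k0 ha hP 2 v κ).2.1
  have hZ0 := (b19_num_nonneg hn k0 ha hP 2 i κ).2.2.2
  have hbM : ∀ j, j ≤ P.length → 0 ≤ skCumB P j ∧ skCumB P j ≤ M0 := fun j hj =>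
    ⟨(b19_cum_nonneg hP j).1, ((b19_cumB_mono hP hj).1).trans h.bM⟩
  set Z : ℝ := b19Zm k0 a P i κ with hZ
  set Mn : (ℕ → ℕ → ℕ) → ℝ := fun τ => if τ x y = i ∧ e0 ≤ τ u w ∧ τ u w < e1 then
      c τ * (skCumB P i * skCumB P (τ u w) * b19hNf k0 a P i (min (τ x u) κ) (min (τ y u) κ) (τ u w)) else 0 with hMn
  set Er : (ℕ → ℕ → ℕ) → ℝ := fun τ => if τ x y = i ∧ e0 ≤ τ u w ∧ τ u w < e1 then
      c τ * (b19Chi k0 a P τ - skCumB P i * skCumB P (τ u w) * b19hNf k0 a P i (min (τ x u) κ) (min (τ y u) κ) (τ u w)) else 0 with hEr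
  have hsplit : (fun τ : ℕ → ℕ → ℕ => if τ x y = i ∧ e0 ≤ τ u w ∧ τ u w < e1 then c τ * b19Chi k0 a P τ else 0)
      = fun τ => Mn τ + Er τ := by
    funext τ
    rw [hMn, hEr]
    simp only
    split_ifs <;> ring
  rw [hsplit, b19_D2_add]
  have hm := h1 n k0 a P i H h κ e0 e1 x y u w hx hy hu hw hiκ hκ he01 he1 Pr hPr0 hPr c hc
  -- the error
  have he : |b19D2 a P i Er| ≤ 2 * M0 ^ 2 * C2 * (Z * b19IG a P (b19Dm k0 a P) e0 e1 1 + 2 / n * ∑ v ∈ Finset.Ico e0 e1, skGap a P v) := by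
    refine (b19_D2_abs _).trans ?_
    have hmaj : b19A2 a P i (fun τ => |Er τ|) ≤ b19A2 a P i (fun τ => ∑ v ∈ Finset.Ico e0 e1,
        (2 * M0 ^ 2 * (Z * b19Dm k0 a P v + 2 / n)) * (if τ u w = v then (1 : ℝ) else 0)) := by
      refine b19_A2_mono hi fun τ hτ => ?_
      have hT : IsTr P.length 6 τ := hτ.1
      have hnn : ∀ v ∈ Finset.Ico e0 e1, 0 ≤ (2 * M0 ^ 2 * (Z * b19Dm k0 a P v + 2 / n)) * (if τ u w = v then (1 : ℝ) else 0) := by
        intro v _
        have := hD0 v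
        split_ifs <;> positivity
      rw [hEr]
      simp only
      by_cases hcond : τ x y = i ∧ e0 ≤ τ u w ∧ τ u w < e1
      · rw [if_pos hcond]
        obtain ⟨hxy, hv0, hv1⟩ := hcond
        have hVm : τ u w ∈ Finset.Ico e0 e1 := Finset.mem_Ico.2 ⟨hv0, hv1⟩
        refine le_trans ?_ (Finset.single_le_sum hnn hVm)
        rw [if_pos rfl, mul_one, b19h_lb_chi k0 ha hP hL hxy, ← mul_sub, abs_mul, abs_mul, abs_mul]
        have hpr := b19h_proj hn k0 ha hP hiκ (by omega : κ ≤ τ u w) (by omega : τ u w ≤ P.length) hT hx hy hu hw huw hxy rfl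
        have b1 := hbM i hi
        have b2 := hbM (τ u w) (by omega)
        rw [abs_of_nonneg b1.1, abs_of_nonneg b2.1]
        have t1 : skCumB P i * skCumB P (τ u w) ≤ M0 * M0 := mul_le_mul b1.2 b2.2 b2.1 hM0
        have t2 : skCumB P i * skCumB P (τ u w) * |(b19Sk n a P 6 τ fun σ => b19Dl k0 a P i x y σ * b19Dl k0 a P (τ u w) u w σ)
            - b19hNf k0 a P i (min (τ x u) κ) (min (τ y u) κ) (τ u w)| ≤ M0 * M0 * (Z * b19Dm k0 a P (τ u w) + 2 / n) :=
          mul_le_mul t1 hpr (abs_nonneg _) (by positivity)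
        have t3 := mul_le_mul (hc τ) t2 (mul_nonneg (mul_nonneg b1.1 b2.1) (abs_nonneg _)) (by norm_num : (0 : ℝ) ≤ 2)
        calc _ ≤ 2 * (M0 * M0 * (Z * b19Dm k0 a P (τ u w) + 2 / n)) := t3
          _ = _ := by ring
      · rw [if_neg hcond, abs_zero]
        exact Finset.sum_nonneg hnn
    refine hmaj.trans ?_
    rw [b19h_A2_sum]
    have hterm : ∀ v ∈ Finset.Ico e0 e1, b19A2 a P i (fun τ => (2 * M0 ^ 2 * (Z * b19Dm k0 a P v + 2 / n)) * (if τ u w = v then (1 : ℝ) else 0))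
        ≤ 2 * M0 ^ 2 * C2 * (Z * (skGap a P v * b19Dm k0 a P v ^ (1 : ℝ)) + 2 / n * skGap a P v) := by
      intro v hv
      rw [Finset.mem_Ico] at hv
      rw [b19_A2_smul, Real.rpow_one]
      have hd := h2 a P i ha h.aA hP hi v u w hu hw (by omega) (by omega)
      have := hD0 v
      calc 2 * M0 ^ 2 * (Z * b19Dm k0 a P v + 2 / n) * b19A2 a P i (fun τ => if τ u w = v then (1 : ℝ) else 0)
          ≤ 2 * M0 ^ 2 * (Z * b19Dm k0 a P v + 2 / n) * (C2 * skGap a P v) := mul_le_mul_of_nonneg_left hd (by positivity)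
        _ = _ := by ring
    refine (Finset.sum_le_sum hterm).trans (le_of_eq ?_)
    unfold b19IG
    rw [← Finset.mul_sum, Finset.sum_add_distrib, ← Finset.mul_sum, ← Finset.mul_sum]
  refine (abs_add_le _ _).trans ((add_le_add hm he).trans ?_)
  have p1 : 0 ≤ Z * b19IG a P (b19Dm k0 a P) e0 e1 1 := by
    refine mul_nonneg hZ0 (Finset.sum_nonneg fun v _ => mul_nonneg (b19_gap_nonneg ha hP v) ?_)
    rw [Real.rpow_one]; exact hD0 v
  have p2 : 0 ≤ b19Dm k0 a P i * Pr := mul_nonneg (hD0 i) hPr0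
  have p3 : 0 ≤ 1 / (n : ℝ) * ∑ v ∈ Finset.Ico e0 e1, skGap a P v :=
    mul_nonneg (by positivity) (Finset.sum_nonneg fun v _ => b19_gap_nonneg ha hP v)
  have e : 2 / (n : ℝ) * ∑ v ∈ Finset.Ico e0 e1, skGap a P v = 2 * (1 / (n : ℝ) * ∑ v ∈ Finset.Ico e0 e1, skGap a P v) := by ring
  rw [e]
  have q0 : 0 ≤ M0 ^ 2 * C2 := by positivity
  nlinarith [mul_nonneg hC1 p1, mul_nonneg hC1 p3, mul_nonneg q0 p1, mul_nonneg q0 p2, mul_nonneg q0 p3]

/-! ## D. the dyads, the exit -/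

/-- the dyads `[e j, e (j+1))`, `j < r`, are a partition of `[e 0, e r)` -/
theorem b19h_dy_part (e : ℕ → ℕ) (v : ℕ) (A : ℝ) : ∀ r : ℕ, (∀ j, j < r → e j < e (j + 1)) →
    e 0 ≤ e r ∧ ∑ j ∈ Finset.range r, (if e j ≤ v ∧ v < e (j + 1) then A else 0) = if e 0 ≤ v ∧ v < e r then A else 0 := by
  intro r
  induction r with
  | zero =>
    intro _
    refine ⟨le_rfl, ?_⟩
    rw [Finset.sum_range_zero, if_neg (by omega)]
  | succ r ih =>
    intro hm
    obtain ⟨h1, h2⟩ := ih fun j hj => hm j (by omega)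
    have h3 := hm r (by omega)
    refine ⟨by omega, ?_⟩
    rw [Finset.sum_range_succ, h2]
    by_cases c1 : v < e r
    · rw [if_neg (by omega : ¬ (e r ≤ v ∧ v < e (r + 1))), add_zero]
      by_cases c2 : e 0 ≤ v
      · rw [if_pos ⟨c2, c1⟩, if_pos ⟨c2, by omega⟩]
      · rw [if_neg (fun h => c2 h.1), if_neg (fun h => c2 h.1)]
    · rw [if_neg (fun h => c1 h.2), zero_add]
      by_cases c2 : v < e (r + 1)
      · rw [if_pos ⟨by omega, c2⟩, if_pos ⟨by omega, c2⟩]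
      · rw [if_neg (fun h => c2 h.2), if_neg (fun h => c2 h.2)]

theorem b19h_dy_sum (e : ℕ → ℕ) (f : ℕ → ℝ) : ∀ r : ℕ, (∀ j, j < r → e j < e (j + 1)) →
    ∑ j ∈ Finset.range r, ∑ v ∈ Finset.Ico (e j) (e (j + 1)), f v = ∑ v ∈ Finset.Ico (e 0) (e r), f v := by
  intro r
  induction r with
  | zero => intro _; simp
  | succ r ih =>
    intro hm
    have h1 := (b19h_dy_part e 0 0 r fun j hj => hm j (by omega)).1
    have h3 := hm r (by omega)
    rw [Finset.sum_range_succ, ih fun j hj => hm j (by omega), Finset.sum_Ico_consecutive f h1 h3.le]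

/-- **classes pH, Hp for a choice of the labels** -/
theorem b19h_core (A0 M0 : ℝ) : ∃ C : ℝ, 0 ≤ C ∧ ∀ (n : ℕ) (k0 : Fin n) (a : ℝ) (P : SkStp) (i H R : ℕ) (e κ : ℕ → ℕ) (Prim : ℕ → ℝ),
    B19Hyp n a P A0 M0 i H → B19Dy i H P.length R e κ → B19Prim n a P R e Prim →
    ∀ c : (ℕ → ℕ → ℕ) → ℝ, (∀ τ, |c τ| ≤ 2) → ∀ x y u w : ℕ, B19hLb x y u w →
      |b19D2 a P i (fun τ => if τ x y = i ∧ H ≤ τ u w then c τ * b19Chi k0 a P τ else 0)|
          ≤ C * (1 / n + skGap a P i + ∑ j ∈ Finset.range R,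
            (b19Zm k0 a P i (κ j) * b19IG a P (b19Dm k0 a P) (e j) (e (j + 1)) 1 + b19Dm k0 a P i * Prim j)) := by
  obtain ⟨C1, hC1, h1⟩ := b19h_dyad A0 M0
  refine ⟨C1 * (1 + |A0|), by positivity, ?_⟩
  intro n k0 a P i H R e κ Prim h hD hPr c hc x y u w hL
  have hn : 0 < n := by have := h.n2; omega
  have hnr : (0 : ℝ) < n := by exact_mod_cast hn
  have ha := h.a0
  have hP := h.adm
  have hi : i ≤ P.length := by have := h.iH; have := h.HN; omega
  have hmono : ∀ j, j < R → e j < e (j + 1) := hD.mono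
  -- `e (j+1) ≤ N + 1`
  have hle : ∀ j, j ≤ R → e j ≤ P.length + 1 := by
    intro j hj
    have := (b19h_dy_part (fun t => e (j + t)) 0 0 (R - j) fun t ht => by
      have := hmono (j + t) (by omega)
      simpa [Nat.add_assoc] using this).1
    simp only [Nat.add_zero] at this
    rw [show j + (R - j) = R by omega, hD.eR] at this
    exact this
  have hsplit : b19D2 a P i (fun τ => if τ x y = i ∧ H ≤ τ u w then c τ * b19Chi k0 a P τ else 0)
      = ∑ j ∈ Finset.range R, b19D2 a P i (fun τ => if τ x y = i ∧ e j ≤ τ u w ∧ τ u w < e (j + 1) then c τ * b19Chi k0 a P τ else 0) := by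
    rw [← b19h_D2_sum]
    refine b19_D2_congr hi fun τ hτ => ?_
    have hoff : τ u w < P.length + 1 := by
      have h23 := hτ.2.2 0 (by omega)
      have h45 := hτ.2.2 1 (by omega)
      simp only [Nat.mul_zero, Nat.mul_one, Nat.add_zero, Nat.reduceAdd] at h23 h45
      rcases hL with ⟨rfl, rfl, rfl, rfl⟩ | ⟨rfl, rfl, rfl, rfl⟩ <;> omega
    have hp := (b19h_dy_part e (τ u w) (c τ * b19Chi k0 a P τ) R hmono).2
    rw [hD.e0, hD.eR] at hp
    by_cases hxy : τ x y = i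
    · have e1 : ∀ j ∈ Finset.range R, (if τ x y = i ∧ e j ≤ τ u w ∧ τ u w < e (j + 1) then c τ * b19Chi k0 a P τ else 0)
          = if e j ≤ τ u w ∧ τ u w < e (j + 1) then c τ * b19Chi k0 a P τ else 0 := by
        intro j _
        simp only [hxy, true_and]
      rw [Finset.sum_congr rfl e1, hp]
      simp only [hxy, true_and, hoff, and_true]
    · rw [if_neg (fun hh => hxy hh.1)]
      exact (Finset.sum_eq_zero fun j _ => by rw [if_neg (fun hh => hxy hh.1)]).symm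
  rw [hsplit]
  have hterm : ∀ j ∈ Finset.range R,
      |b19D2 a P i (fun τ => if τ x y = i ∧ e j ≤ τ u w ∧ τ u w < e (j + 1) then c τ * b19Chi k0 a P τ else 0)|
        ≤ C1 * ((b19Zm k0 a P i (κ j) * b19IG a P (b19Dm k0 a P) (e j) (e (j + 1)) 1 + b19Dm k0 a P i * Prim j)
          + 1 / n * ∑ v ∈ Finset.Ico (e j) (e (j + 1)), skGap a P v) := by
    intro j hj
    have hj' := Finset.mem_range.1 hj
    exact h1 n k0 a P i H h (κ j) (e j) (e (j + 1)) x y u w hL (hD.lo j hj') (hD.hi j hj') (hmono j hj') (hle (j + 1) (by omega))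
      (Prim j) (hPr j hj').1 (hPr j hj').2 c hc
  refine (Finset.abs_sum_le_sum_abs _ _).trans ((Finset.sum_le_sum hterm).trans ?_)
  rw [← Finset.mul_sum, Finset.sum_add_distrib, ← Finset.mul_sum, b19h_dy_sum e _ R hmono, hD.e0, hD.eR]
  have hgs : ∑ v ∈ Finset.Ico H (P.length + 1), skGap a P v ≤ |A0| := by
    have h2 : ∑ v ∈ Finset.Ico H (P.length + 1), skGap a P v ≤ ∑ v ∈ Finset.range (P.length + 1), skGap a P v := by
      refine Finset.sum_le_sum_of_subset_of_nonneg (fun v hv => ?_) fun v _ _ => b19_gap_nonneg ha hP v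
      rw [Finset.mem_Ico] at hv
      exact Finset.mem_range.2 hv.2
    rw [b19_gap_sum] at h2
    exact h2.trans (h.aA.trans (le_abs_self _))
  have hg0 : 0 ≤ ∑ v ∈ Finset.Ico H (P.length + 1), skGap a P v := Finset.sum_nonneg fun v _ => b19_gap_nonneg ha hP v
  set Sg1 : ℝ := ∑ j ∈ Finset.range R,
    (b19Zm k0 a P i (κ j) * b19IG a P (b19Dm k0 a P) (e j) (e (j + 1)) 1 + b19Dm k0 a P i * Prim j) with hSg1
  have hSg0 : 0 ≤ Sg1 := by
    refine Finset.sum_nonneg fun j hj => ?_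
    have hj' := Finset.mem_range.1 hj
    have z0 := (b19_num_nonneg hn k0 ha hP 2 i (κ j)).2.2.2
    have d0 := (b19_num_nonneg hn k0 ha hP 2 i (κ j)).2.1
    have g0 : 0 ≤ b19IG a P (b19Dm k0 a P) (e j) (e (j + 1)) 1 := by
      refine Finset.sum_nonneg fun v _ => mul_nonneg (b19_gap_nonneg ha hP v) ?_
      rw [Real.rpow_one]; exact (b19_num_nonneg hn k0 ha hP 2 v (κ j)).2.1
    have := (hPr j hj').1
    positivity
  have hgi := b19_gap_nonneg ha hP i
  have hn1 : 0 ≤ 1 / (n : ℝ) := by positivity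
  have t1 : 1 / (n : ℝ) * ∑ v ∈ Finset.Ico H (P.length + 1), skGap a P v ≤ 1 / (n : ℝ) * |A0| := mul_le_mul_of_nonneg_left hgs hn1
  have hA := abs_nonneg A0
  rw [mul_assoc]
  refine mul_le_mul_of_nonneg_left ?_ hC1
  nlinarith [mul_nonneg hA hSg0, mul_nonneg hA hgi, mul_nonneg hA hn1]

/-- **classes pH, Hp** (blueprint sec.5) = `b19_pH` of `Bud/C19Ctr.lean` -/
theorem b19h_pH (A0 M0 : ℝ) : ∃ C : ℝ, 0 ≤ C ∧ ∀ (n : ℕ) (k0 : Fin n) (a : ℝ) (P : SkStp) (i H R : ℕ) (e κ : ℕ → ℕ) (Prim : ℕ → ℝ),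
    B19Hyp n a P A0 M0 i H → B19Dy i H P.length R e κ → B19Prim n a P R e Prim →
    ∀ c : (ℕ → ℕ → ℕ) → ℝ, (∀ τ, |c τ| ≤ 2) →
      |b19D2 a P i (fun τ => if τ 2 3 = i ∧ H ≤ τ 4 5 then c τ * b19Chi k0 a P τ else 0)|
          ≤ C * (1 / n + skGap a P i + ∑ j ∈ Finset.range R,
            (b19Zm k0 a P i (κ j) * b19IG a P (b19Dm k0 a P) (e j) (e (j + 1)) 1 + b19Dm k0 a P i * Prim j)) ∧
      |b19D2 a P i (fun τ => if H ≤ τ 2 3 ∧ τ 4 5 = i then c τ * b19Chi k0 a P τ else 0)|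
          ≤ C * (1 / n + skGap a P i + ∑ j ∈ Finset.range R,
            (b19Zm k0 a P i (κ j) * b19IG a P (b19Dm k0 a P) (e j) (e (j + 1)) 1 + b19Dm k0 a P i * Prim j)) := by
  obtain ⟨C, hC, h⟩ := b19h_core A0 M0
  refine ⟨C, hC, fun n k0 a P i H R e κ Prim hh hD hPr c hc => ⟨?_, ?_⟩⟩
  · exact h n k0 a P i H R e κ Prim hh hD hPr c hc 2 3 4 5 (Or.inl ⟨rfl, rfl, rfl, rfl⟩)
  · have := h n k0 a P i H R e κ Prim hh hD hPr c hc 4 5 2 3 (Or.inr ⟨rfl, rfl, rfl, rfl⟩)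
    have e1 : (fun τ : ℕ → ℕ → ℕ => if H ≤ τ 2 3 ∧ τ 4 5 = i then c τ * b19Chi k0 a P τ else 0)
        = fun τ => if τ 4 5 = i ∧ H ≤ τ 2 3 then c τ * b19Chi k0 a P τ else 0 := by
      funext τ
      simp only [and_comm]
    rw [e1]
    exact this

end

end Claimed.Agent.R286
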