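import Claimed.Agent.R286.Bud.C19Tree

/-!
# Row 286, N17 = (C19), `Bud/C19P.lean`: THE CLASS pp (both inserted pairs at the LEVEL of the observed fork)      (owner helper15; chief helper180)

Blueprint sec.4 (`git show origin/helper180:notes/R286/N17_180.md`).   TEX[LL:bud:closure].   EXIT **`b19p_pp`** = the statement of `b19_pp` (`Bud/C19Ctr.lean`).   NO sorry in this file;
it cites the leaves of `Bud/C19Row`, `C19Comb`, `C19Tree`: `b19_isMs b19_gap b19_gap_nonneg b19_st_isTr b19_A2_mono b19_A2_add b19_A2_smul b19_D2_abs b19_D2_add b19_D_congr b19_D_smul b19_zsum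
b19_Het_eq b19_tr_cs b19_hold2 b19_Dl_abs b19_sign b19_Sc_abs b19_Sc_prune b19_Sc_congr b19_c6_abs b19_K_mono b19_KP_adm b19_cumB_mono`.

PROOF.   On the class `χ_τ = b_i² X_τ`, `X_τ = ν_τ[δ_23 δ_45]` (`b19p_chi`);   `X_τ = E4 + (X_τ - E4)`.
* coefficient of `E4`: `D²[1_pp c6] = b19Cp` EXACTLY (`b19p_coef`: `sc[45] = Γ_i` is constant on the class, `sc[0123]` does not see the second pair, ZSUM);   `|E4| ≤ D_i²` (`b19p_E4_le`).
* remainder, tree by tree:
  - the two pairs fork at two DIFFERENT nodes of depth `i` (`τ 2 4 < i`): `|c6 (X - E4)| ≤ 12`, total weight `≤ 128 A0³ gap_i` (`b19p_w_fresh`: a second child of a node which contains ONE label costs `gap_i`);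
  - same node: `|X - E4| ≤ 2 Het` (`b19p_het`: four fresh children, comap, Cauchy-Schwarz), and
      either some inserted label is in neither child of the observed fork: weight `≤ 960 A0³ m_i` (`b19p_w_low`: an attachment at a depth `≤ i` costs `q m_i`, `tk9_abs_below`),
      or each of the two children contains three labels and one of `4, 5`: `|c6| ≤ C K_{i+1} ≤ C K_H` (`b19p_c6`, SIGN), total weight `≤ 480 A0⁴` (`b19p_w_one`).
GENERIC TOOLS (reused by `Bud/C19H.lean`): `b19p_tv`, `b19p_gw` (an event decided at the attachment of ONE label), `b19p_A2_le` (`b19A2 ≤ trAbsK 4 / 4`), `b19p_comap`, `b19p_comap4` (marginals of the SK law), `b19p_D2_smul`.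
-/

set_option autoImplicit false

namespace Claimed.Agent.R286

open MeasureTheory Set Filter Topology

noncomputable section

/-! ## A. weights of the attachments (pure combinatorics, `Defs/Tr`) -/

section weights
variable {N : ℕ} {ms : ℕ → ℝ}

/-- total variation of `k` attachments -/
theorem b19p_tv (hms : IsMs N ms) {A : ℝ} (hA : ms N ≤ A) (k : ℕ) {q : ℕ} {τ : ℕ → ℕ → ℕ} (hτ : IsTr N q τ) {c : ℝ} (hc : 0 ≤ c) :
    trAbsK ms N k q τ (fun _ => c) ≤ (2 * A) ^ k * (∏ i ∈ Finset.range k, ((q : ℝ) + i)) * c := by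
  have h := tr_absK_le hτ hms k (fun _ => c) c (fun _ _ => by rw [abs_of_nonneg hc])
  simp only [abs_of_nonneg hc] at h
  refine h.trans ?_
  have h0 : 0 ≤ ms N := hms.nonneg N
  have h1 : (2 * ms N) ^ k ≤ (2 * A) ^ k := pow_le_pow_left₀ (by positivity) (by linarith) k
  have h2 : (0 : ℝ) ≤ ∏ i ∈ Finset.range k, ((q : ℝ) + i) := Finset.prod_nonneg fun i _ => by positivity
  exact mul_le_mul_of_nonneg_right (mul_le_mul_of_nonneg_right h1 h2) hc

/-- **an event decided at the attachment of the label `q + k1`**: its total variation is at most `C *` (the variation of that single attachment) -/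
theorem b19p_gw (hms : IsMs N ms) {A : ℝ} (hA : ms N ≤ A) (k1 k2 : ℕ) {q : ℕ} {τ : ℕ → ℕ → ℕ} (hτ : IsTr N q τ)
    (E : (ℕ → ℕ → ℕ) → Prop) [DecidablePred E]
    (hE : ∀ τ₁ τ₂ : ℕ → ℕ → ℕ, (∀ y z, y < q + k1 + 1 → z < q + k1 + 1 → τ₁ y z = τ₂ y z) → (E τ₁ ↔ E τ₂)) {w : ℝ} (hw0 : 0 ≤ w)
    (hw : ∀ T, IsTr N (q + k1) T → trAbs ms N (q + k1) T (fun τ' => if E τ' then 1 else 0) ≤ w) :
    trAbsK ms N (k1 + (1 + k2)) q τ (fun τ' => if E τ' then 1 else 0)
      ≤ (2 * A) ^ k1 * (∏ i ∈ Finset.range k1, ((q : ℝ) + i))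
        * (((2 * A) ^ k2 * ∏ i ∈ Finset.range k2, (((q + k1 + 1 : ℕ) : ℝ) + i)) * w) := by
  have hA0 : 0 ≤ A := (hms.nonneg N).trans hA
  set C2 : ℝ := (2 * A) ^ k2 * ∏ i ∈ Finset.range k2, (((q + k1 + 1 : ℕ) : ℝ) + i) with hC2
  have hC20 : 0 ≤ C2 := mul_nonneg (by positivity) (Finset.prod_nonneg fun i _ => by positivity)
  rw [tr_absK_add]
  refine le_trans (tr_absK_mono hτ k1 _ (fun _ => C2 * w) fun T hT => ?_) (b19p_tv hms hA k1 hτ (mul_nonneg hC20 hw0))
  rw [tr_absK_add]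
  show trAbs ms N (q + k1) T (fun τ' => trAbsK ms N k2 (q + k1 + 1) τ' fun τ'' => if E τ'' then 1 else 0) ≤ C2 * w
  have h1 : trAbs ms N (q + k1) T (fun τ' => trAbsK ms N k2 (q + k1 + 1) τ' fun τ'' => if E τ'' then 1 else 0)
      ≤ trAbs ms N (q + k1) T (fun τ' => C2 * if E τ' then 1 else 0) := by
    unfold trAbs
    refine Finset.sum_le_sum fun x hx => Finset.sum_le_sum fun j hj => mul_le_mul_of_nonneg_left ?_ (abs_nonneg _)
    have hT' : IsTr N (q + k1 + 1) (trAtt N (q + k1) T x j) :=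
      tr_att_isTr hT (Finset.mem_range.1 hx) (by have := Finset.mem_range.1 hj; omega)
    show trAbsK ms N k2 (q + k1 + 1) (trAtt N (q + k1) T x j) (fun τ'' => if E τ'' then 1 else 0)
      ≤ C2 * if E (trAtt N (q + k1) T x j) then 1 else 0
    rw [tr_absK_congr hT' k2 _ (fun _ => if E (trAtt N (q + k1) T x j) then (1 : ℝ) else 0) fun τ'' _ hag => by
      by_cases h : E (trAtt N (q + k1) T x j)
      · rw [if_pos h, if_pos ((hE τ'' _ hag).2 h)]
      · rw [if_neg h, if_neg fun h' => h ((hE τ'' _ hag).1 h')]]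
    have h2 := b19p_tv hms hA k2 hT' (c := if E (trAtt N (q + k1) T x j) then (1 : ℝ) else 0) (by split_ifs <;> norm_num)
    exact h2
  refine h1.trans ?_
  have h3 : trAbs ms N (q + k1) T (fun τ' => C2 * if E τ' then 1 else 0) = C2 * trAbs ms N (q + k1) T (fun τ' => if E τ' then 1 else 0) := by
    unfold trAbs
    rw [Finset.mul_sum]
    refine Finset.sum_congr rfl fun x _ => ?_
    rw [Finset.mul_sum]
    exact Finset.sum_congr rfl fun j _ => by ring
  rw [h3]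
  exact mul_le_mul_of_nonneg_left (hw T hT) hC20

/-- **LOW**: one attachment at a depth `≤ i` costs at most `q m_i` -/
theorem b19p_low1 (hms : IsMs N ms) {q : ℕ} {T : ℕ → ℕ → ℕ} (hT : IsTr N q T) {i : ℕ} (hi : i ≤ N) :
    trAbs ms N q T (fun τ' => if ∀ z, z < q → τ' q z ≤ i then 1 else 0) ≤ q * ms i := by
  have h1 : trAbs ms N q T (fun τ' => if ∀ z, z < q → τ' q z ≤ i then 1 else 0)
      ≤ ∑ x ∈ Finset.range q, ∑ j ∈ Finset.range (i + 1), |trWt ms N q T x j| := by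
    unfold trAbs
    refine Finset.sum_le_sum fun x hx => ?_
    have hx' := Finset.mem_range.1 hx
    have h2 : ∀ j ∈ Finset.range (N + 2), |trWt ms N q T x j| * (if ∀ z, z < q → trAtt N q T x j q z ≤ i then (1 : ℝ) else 0)
        ≤ if j < i + 1 then |trWt ms N q T x j| else 0 := by
      intro j hj
      have hj' := Finset.mem_range.1 hj
      by_cases hji : j < i + 1
      · rw [if_pos hji]
        split_ifs
        · rw [mul_one]
        · rw [mul_zero]; exact abs_nonneg _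
      · rw [if_neg hji, if_neg, mul_zero]
        intro h
        have := h x hx'
        rw [trw_att_nl hx', hT.diag x hx'] at this
        omega
    refine (Finset.sum_le_sum h2).trans (le_of_eq ?_)
    rw [← Finset.sum_filter]
    refine Finset.sum_congr ?_ fun _ _ => rfl
    ext j
    simp only [Finset.mem_filter, Finset.mem_range]
    omega
  refine h1.trans ?_
  rw [tk9_abs_below hT hms (by omega : i + 1 ≤ N + 1), tra2_pm_succ]
  refine mul_le_mul_of_nonneg_right ?_ (hms.nonneg i)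
  have := Finset.card_filter_le (Finset.range q) fun x => trIsMin T (i + 1) x
  rw [Finset.card_range] at this
  exact_mod_cast this

/-- **FRESH**: the attachment of a second child to a node of depth `i` which contains one label only costs `m_i - m_{i-1}` -/
theorem b19p_fresh1 (hms : IsMs N ms) {q : ℕ} {T : ℕ → ℕ → ℕ} (hT : IsTr N q T) {i y0 : ℕ} (hi : i ≤ N) (hy0 : y0 < q) :
    trAbs ms N q T (fun τ' => if τ' q y0 = i ∧ ∀ z, z < q → z ≠ y0 → τ' y0 z < i then 1 else 0) ≤ ms i - trPm ms i := by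
  have hg := trw_step_nonneg hms hi
  have h2 : ∀ x ∈ Finset.range q, ∀ j ∈ Finset.range (N + 2), |trWt ms N q T x j|
        * (if trAtt N q T x j q y0 = i ∧ ∀ z, z < q → z ≠ y0 → trAtt N q T x j y0 z < i then (1 : ℝ) else 0)
      ≤ if x = y0 then (if j = i then ms i - trPm ms i else 0) else 0 := by
    intro x hx j hj
    have hx' := Finset.mem_range.1 hx
    have hj' := Finset.mem_range.1 hj
    by_cases hE : trAtt N q T x j q y0 = i ∧ ∀ z, z < q → z ≠ y0 → trAtt N q T x j y0 z < i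
    · rw [if_pos hE, mul_one]
      obtain ⟨e1, e2⟩ := hE
      rw [trw_att_nl hy0] at e1
      have e3 : ∀ z, z < q → z ≠ y0 → T y0 z < i := fun z hz hzy => by
        have := e2 z hz hzy
        rwa [trw_att_old hy0 hz] at this
      have hxy : x = y0 := by
        by_contra hne
        have := e3 x hx' hne
        rw [hT.symm y0 x hy0 hx'] at this
        omega
      subst hxy
      rw [hT.diag x hx'] at e1
      have hji : j = i := by omega
      subst hji
      rw [if_pos rfl, if_pos rfl]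
      have hmin : trIsMin T j x := fun y hy => e3 y (by omega) (by omega)
      have hdeg : trDeg q T j x = 1 := by
        unfold trDeg
        have : ((Finset.range q).filter fun y => j ≤ T x y ∧ trIsMin T (j + 1) y) = {x} := by
          ext y
          simp only [Finset.mem_filter, Finset.mem_range, Finset.mem_singleton]
          constructor
          · rintro ⟨hy, h1, _⟩
            by_contra hne
            have := e3 y hy hne
            omega
          · rintro rfl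
            refine ⟨hx', ?_, fun z hz => ?_⟩
            · rw [hT.diag y hx']; omega
            · have := e3 z (by omega) (by omega)
              omega
        rw [this, Finset.card_singleton]
      unfold trWt
      rw [if_pos hmin, if_neg (by omega), hdeg, Nat.cast_one, one_mul, abs_sub_comm, abs_of_nonneg hg]
    · rw [if_neg hE, mul_zero]
      split_ifs <;> first | exact hg | exact le_rfl
  unfold trAbs
  refine (Finset.sum_le_sum fun x hx => Finset.sum_le_sum fun j hj => h2 x hx j hj).trans ?_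
  have h3 : ∀ x ∈ Finset.range q, ∑ j ∈ Finset.range (N + 2), (if x = y0 then (if j = i then ms i - trPm ms i else 0) else 0)
      = if x = y0 then ms i - trPm ms i else 0 := by
    intro x _
    by_cases hxy : x = y0
    · simp only [if_pos hxy]
      rw [Finset.sum_ite_eq' (Finset.range (N + 2)) i, if_pos (Finset.mem_range.2 (by omega))]
    · simp only [if_neg hxy, Finset.sum_const_zero]
  rw [Finset.sum_congr rfl h3, Finset.sum_ite_eq' (Finset.range q) y0, if_pos (Finset.mem_range.2 hy0)]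

end weights

/-! ## B. the three weights of the class pp -/

section a2
variable {a : ℝ} {P : SkStp} {i : ℕ}

/-- the off-diagonal restrictions are dropped -/
theorem b19p_A2_le {G : (ℕ → ℕ → ℕ) → ℝ} (hG : ∀ τ, 0 ≤ G τ) :
    b19A2 a P i G ≤ 1 / 4 * trAbsK (skMs a P) P.length 4 2 (b19St P.length i) G := by
  have h1 : ∀ τ₁ : ℕ → ℕ → ℕ, (if τ₁ 2 (2 + 1) ≤ P.length then
        1 / 2 * trAbsK (skMs a P) P.length 2 4 τ₁ (fun τ₂ => if τ₂ 4 (4 + 1) ≤ P.length then G τ₂ else 0) else 0)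
      ≤ 1 / 2 * trAbsK (skMs a P) P.length 2 4 τ₁ G := by
    intro τ₁
    have h2 : trAbsK (skMs a P) P.length 2 4 τ₁ (fun τ₂ => if τ₂ 4 (4 + 1) ≤ P.length then G τ₂ else 0)
        ≤ trAbsK (skMs a P) P.length 2 4 τ₁ G :=
      trw_absK_mono _ _ 2 4 τ₁ fun τ₂ => by split_ifs <;> first | exact le_rfl | exact hG τ₂
    have h3 : 0 ≤ trAbsK (skMs a P) P.length 2 4 τ₁ G := trw_absK_nonneg _ _ 2 4 τ₁ hG
    split_ifs <;> linarith
  have h4 := trw_absK_mono (skMs a P) P.length 2 2 (b19St P.length i) h1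
  rw [tra2_absK_const_mul] at h4
  have h5 : trAbsK (skMs a P) P.length 4 2 (b19St P.length i) G
      = trAbsK (skMs a P) P.length 2 2 (b19St P.length i) fun τ₁ => trAbsK (skMs a P) P.length 2 4 τ₁ G :=
    tr_absK_add 2 2 G
  rw [h5]
  unfold b19A2 b19A
  linarith

/-- total mass -/
theorem b19p_w_one {A0 : ℝ} (ha : 0 < a) (haA : a ≤ A0) (hP : SkAdm a P) (hi : i ≤ P.length) :
    b19A2 a P i (fun _ => 1) ≤ 480 * A0 ^ 4 := by
  obtain ⟨hms, hN⟩ := b19_isMs ha hP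
  refine (b19p_A2_le fun _ => zero_le_one).trans ?_
  have h := b19p_tv hms (hN.le.trans haA) 4 (b19_st_isTr (by omega : i ≤ P.length + 1) 2) (zero_le_one' ℝ)
  simp only [Finset.prod_range_succ, Finset.prod_range_zero] at h
  norm_num at h
  nlinarith

/-- the label `2 + k1` is attached at a depth `≤ i` -/
theorem b19p_low4 {A0 : ℝ} (ha : 0 < a) (haA : a ≤ A0) (hP : SkAdm a P) (hi : i ≤ P.length) (k1 k2 : ℕ) (hk : k1 + (1 + k2) = 4) :
    b19A2 a P i (fun τ => if ∀ z, z < 2 + k1 → τ (2 + k1) z ≤ i then 1 else 0)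
      ≤ 1 / 4 * ((2 * A0) ^ k1 * (∏ j ∈ Finset.range k1, (((2 : ℕ) : ℝ) + j))
        * (((2 * A0) ^ k2 * ∏ j ∈ Finset.range k2, (((2 + k1 + 1 : ℕ) : ℝ) + j)) * (((2 + k1 : ℕ) : ℝ) * skMs a P i))) := by
  obtain ⟨hms, hN⟩ := b19_isMs ha hP
  refine (b19p_A2_le fun _ => by split_ifs <;> norm_num).trans ?_
  refine mul_le_mul_of_nonneg_left ?_ (by norm_num)
  rw [← hk]
  refine b19p_gw hms (hN.le.trans haA) k1 k2 (b19_st_isTr (by omega : i ≤ P.length + 1) 2)
    (fun τ => ∀ z, z < 2 + k1 → τ (2 + k1) z ≤ i) ?_ (mul_nonneg (Nat.cast_nonneg _) (hms.nonneg i))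
    (fun T hT => b19p_low1 hms hT hi)
  intro τ₁ τ₂ h
  constructor
  · intro H z hz
    rw [← h _ _ (by omega) (by omega)]; exact H z hz
  · intro H z hz
    rw [h _ _ (by omega) (by omega)]; exact H z hz

/-- the label `2 + k1` is the second child of a node of depth `i` which contained the label `y0` only -/
theorem b19p_fresh4 {A0 : ℝ} (ha : 0 < a) (haA : a ≤ A0) (hP : SkAdm a P) (hi : i ≤ P.length) (k1 k2 : ℕ) (hk : k1 + (1 + k2) = 4)
    {y0 : ℕ} (hy0 : y0 < 2 + k1) :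
    b19A2 a P i (fun τ => if τ (2 + k1) y0 = i ∧ ∀ z, z < 2 + k1 → z ≠ y0 → τ y0 z < i then 1 else 0)
      ≤ 1 / 4 * ((2 * A0) ^ k1 * (∏ j ∈ Finset.range k1, (((2 : ℕ) : ℝ) + j))
        * (((2 * A0) ^ k2 * ∏ j ∈ Finset.range k2, (((2 + k1 + 1 : ℕ) : ℝ) + j)) * skGap a P i)) := by
  obtain ⟨hms, hN⟩ := b19_isMs ha hP
  refine (b19p_A2_le fun _ => by split_ifs <;> norm_num).trans ?_
  refine mul_le_mul_of_nonneg_left ?_ (by norm_num)
  rw [← hk, ← b19_gap]
  refine b19p_gw hms (hN.le.trans haA) k1 k2 (b19_st_isTr (by omega : i ≤ P.length + 1) 2)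
    (fun τ => τ (2 + k1) y0 = i ∧ ∀ z, z < 2 + k1 → z ≠ y0 → τ y0 z < i) ?_ (trw_step_nonneg hms hi)
    (fun T hT => b19p_fresh1 hms hT hi hy0)
  intro τ₁ τ₂ h
  constructor
  · rintro ⟨H1, H2⟩
    refine ⟨by rw [← h _ _ (by omega) (by omega)]; exact H1, fun z hz hzy => ?_⟩
    rw [← h _ _ (by omega) (by omega)]; exact H2 z hz hzy
  · rintro ⟨H1, H2⟩
    refine ⟨by rw [h _ _ (by omega) (by omega)]; exact H1, fun z hz hzy => ?_⟩
    rw [h _ _ (by omega) (by omega)]; exact H2 z hz hzy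

/-- **weight LOW**: some inserted label is attached at a depth `≤ i` -/
theorem b19p_w_low {A0 : ℝ} (ha : 0 < a) (haA : a ≤ A0) (hP : SkAdm a P) (hi : i ≤ P.length) :
    b19A2 a P i (fun τ => if (i < τ 0 2 ∨ i < τ 1 2) ∧ (i < τ 0 3 ∨ i < τ 1 3) ∧ (i < τ 0 4 ∨ i < τ 1 4) ∧ (i < τ 0 5 ∨ i < τ 1 5)
      then 0 else 1) ≤ 960 * A0 ^ 3 * skMs a P i := by
  have h2 := (b19p_low4 ha haA hP hi 0 3 rfl).trans (le_of_eq (b := 240 * A0 ^ 3 * skMs a P i) (by
    simp only [Finset.prod_range_succ, Finset.prod_range_zero]; push_cast; ring))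
  have h3 := (b19p_low4 ha haA hP hi 1 2 rfl).trans (le_of_eq (b := 240 * A0 ^ 3 * skMs a P i) (by
    simp only [Finset.prod_range_succ, Finset.prod_range_zero]; push_cast; ring))
  have h4 := (b19p_low4 ha haA hP hi 2 1 rfl).trans (le_of_eq (b := 240 * A0 ^ 3 * skMs a P i) (by
    simp only [Finset.prod_range_succ, Finset.prod_range_zero]; push_cast; ring))
  have h5 := (b19p_low4 ha haA hP hi 3 0 rfl).trans (le_of_eq (b := 240 * A0 ^ 3 * skMs a P i) (by
    simp only [Finset.prod_range_succ, Finset.prod_range_zero]; push_cast; ring))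
  have hm : b19A2 a P i (fun τ => if (i < τ 0 2 ∨ i < τ 1 2) ∧ (i < τ 0 3 ∨ i < τ 1 3) ∧ (i < τ 0 4 ∨ i < τ 1 4) ∧ (i < τ 0 5 ∨ i < τ 1 5)
      then 0 else 1) ≤ b19A2 a P i (fun τ => (((if ∀ z, z < 2 + 0 → τ (2 + 0) z ≤ i then (1 : ℝ) else 0)
        + (if ∀ z, z < 2 + 1 → τ (2 + 1) z ≤ i then (1 : ℝ) else 0)) + (if ∀ z, z < 2 + 2 → τ (2 + 2) z ≤ i then (1 : ℝ) else 0))
        + (if ∀ z, z < 2 + 3 → τ (2 + 3) z ≤ i then (1 : ℝ) else 0)) := by
    refine b19_A2_mono hi fun τ hτ => ?_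
    obtain ⟨hT, h01, -⟩ := hτ
    have n2 : (0 : ℝ) ≤ if ∀ z, z < 2 + 0 → τ (2 + 0) z ≤ i then (1 : ℝ) else 0 := by split_ifs <;> norm_num
    have n3 : (0 : ℝ) ≤ if ∀ z, z < 2 + 1 → τ (2 + 1) z ≤ i then (1 : ℝ) else 0 := by split_ifs <;> norm_num
    have n4 : (0 : ℝ) ≤ if ∀ z, z < 2 + 2 → τ (2 + 2) z ≤ i then (1 : ℝ) else 0 := by split_ifs <;> norm_num
    have n5 : (0 : ℝ) ≤ if ∀ z, z < 2 + 3 → τ (2 + 3) z ≤ i then (1 : ℝ) else 0 := by split_ifs <;> norm_num
    by_cases hI : (i < τ 0 2 ∨ i < τ 1 2) ∧ (i < τ 0 3 ∨ i < τ 1 3) ∧ (i < τ 0 4 ∨ i < τ 1 4) ∧ (i < τ 0 5 ∨ i < τ 1 5)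
    · rw [if_pos hI]; linarith
    · rw [if_neg hI]
      -- the least label which is in neither child
      have key : ∀ x, 2 ≤ x → x < 6 → (∀ y, 2 ≤ y → y < x → i < τ 0 y ∨ i < τ 1 y) → ¬ (i < τ 0 x ∨ i < τ 1 x) →
          ∀ z, z < x → τ x z ≤ i := by
        intro x hx2 hx6 hlow hx z hz
        rw [not_or, not_lt, not_lt] at hx
        by_contra hc
        rw [not_le] at hc
        have s0 := hT.symm 0 x (by omega) (by omega)
        have s1 := hT.symm 1 x (by omega) (by omega)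
        rcases (by omega : z = 0 ∨ z = 1 ∨ 2 ≤ z) with rfl | rfl | hz2
        · omega
        · omega
        · have u0 := hT.ultra 0 z x (by omega) (by omega) (by omega)
          have u1 := hT.ultra 1 z x (by omega) (by omega) (by omega)
          have sz := hT.symm x z (by omega) (by omega)
          rcases hlow z hz2 hz with h | h <;> omega
      by_cases c2 : i < τ 0 2 ∨ i < τ 1 2
      · by_cases c3 : i < τ 0 3 ∨ i < τ 1 3
        · by_cases c4 : i < τ 0 4 ∨ i < τ 1 4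
          · have c5 : ¬ (i < τ 0 5 ∨ i < τ 1 5) := fun c5 => hI ⟨c2, c3, c4, c5⟩
            have := key 5 (by omega) (by omega) (fun y hy1 hy2 => by
              rcases (by omega : y = 2 ∨ y = 3 ∨ y = 4) with rfl | rfl | rfl <;> assumption) c5
            rw [if_pos (show ∀ z, z < 2 + 3 → τ (2 + 3) z ≤ i from this)]
            linarith
          · have := key 4 (by omega) (by omega) (fun y hy1 hy2 => by
              rcases (by omega : y = 2 ∨ y = 3) with rfl | rfl <;> assumption) c4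
            rw [if_pos (show ∀ z, z < 2 + 2 → τ (2 + 2) z ≤ i from this)]
            linarith
        · have := key 3 (by omega) (by omega) (fun y hy1 hy2 => by
              rcases (by omega : y = 2) with rfl; assumption) c3
          rw [if_pos (show ∀ z, z < 2 + 1 → τ (2 + 1) z ≤ i from this)]
          linarith
      · have := key 2 (by omega) (by omega) (fun y hy1 hy2 => by omega) c2
        rw [if_pos (show ∀ z, z < 2 + 0 → τ (2 + 0) z ≤ i from this)]
        linarith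
  refine hm.trans ?_
  rw [b19_A2_add, b19_A2_add, b19_A2_add]
  linarith

/-- **weight FRESH** (leaf NP): the two pairs fork at two DIFFERENT nodes of depth `i` -/
theorem b19p_w_fresh {A0 : ℝ} (ha : 0 < a) (haA : a ≤ A0) (hP : SkAdm a P) (hi : i ≤ P.length) :
    b19A2 a P i (fun τ => if τ 2 3 = i ∧ τ 4 5 = i ∧ τ 2 4 < i then 1 else 0) ≤ 128 * A0 ^ 3 * skGap a P i := by
  have h3 := (b19p_fresh4 ha haA hP hi 1 2 rfl (y0 := 2) (by omega)).trans (le_of_eq (b := 80 * A0 ^ 3 * skGap a P i) (by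
    simp only [Finset.prod_range_succ, Finset.prod_range_zero]; push_cast; ring))
  have h5 := (b19p_fresh4 ha haA hP hi 3 0 rfl (y0 := 4) (by omega)).trans (le_of_eq (b := 48 * A0 ^ 3 * skGap a P i) (by
    simp only [Finset.prod_range_succ, Finset.prod_range_zero]; push_cast; ring))
  have hm : b19A2 a P i (fun τ => if τ 2 3 = i ∧ τ 4 5 = i ∧ τ 2 4 < i then 1 else 0)
      ≤ b19A2 a P i (fun τ => (if τ (2 + 1) 2 = i ∧ ∀ z, z < 2 + 1 → z ≠ 2 → τ 2 z < i then (1 : ℝ) else 0)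
        + (if τ (2 + 3) 4 = i ∧ ∀ z, z < 2 + 3 → z ≠ 4 → τ 4 z < i then (1 : ℝ) else 0)) := by
    refine b19_A2_mono hi fun τ hτ => ?_
    obtain ⟨hT, h01, -⟩ := hτ
    have n3 : (0 : ℝ) ≤ if τ (2 + 1) 2 = i ∧ ∀ z, z < 2 + 1 → z ≠ 2 → τ 2 z < i then (1 : ℝ) else 0 := by split_ifs <;> norm_num
    have n5 : (0 : ℝ) ≤ if τ (2 + 3) 4 = i ∧ ∀ z, z < 2 + 3 → z ≠ 4 → τ 4 z < i then (1 : ℝ) else 0 := by split_ifs <;> norm_num
    by_cases hI : τ 2 3 = i ∧ τ 4 5 = i ∧ τ 2 4 < i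
    · rw [if_pos hI]
      obtain ⟨h23, h45, h24⟩ := hI
      have S : ∀ x y, x < 6 → y < 6 → τ x y = τ y x := fun x y hx hy => hT.symm x y (by omega) (by omega)
      have U : ∀ x y z, x < 6 → y < 6 → z < 6 → min (τ x y) (τ y z) ≤ τ x z := fun x y z hx hy hz =>
        hT.ultra x y z (by omega) (by omega) (by omega)
      by_cases c : τ 2 0 < i
      · have e : τ (2 + 1) 2 = i ∧ ∀ z, z < 2 + 1 → z ≠ 2 → τ 2 z < i := by
          refine ⟨by rw [S _ _ (by omega) (by omega)]; exact h23, fun z hz hz2 => ?_⟩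
          rcases (by omega : z = 0 ∨ z = 1) with rfl | rfl
          · exact c
          · have := U 2 1 0 (by omega) (by omega) (by omega)
            have := S 1 0 (by omega) (by omega)
            omega
        rw [if_pos e]; linarith
      · have e : τ (2 + 3) 4 = i ∧ ∀ z, z < 2 + 3 → z ≠ 4 → τ 4 z < i := by
          refine ⟨by rw [S _ _ (by omega) (by omega)]; exact h45, fun z hz hz2 => ?_⟩
          have a1 := U 2 0 4 (by omega) (by omega) (by omega)
          have a2 := S 4 0 (by omega) (by omega)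
          have a3 := U 4 1 0 (by omega) (by omega) (by omega)
          have a4 := S 1 0 (by omega) (by omega)
          have a5 := S 4 2 (by omega) (by omega)
          have a6 := U 4 3 2 (by omega) (by omega) (by omega)
          have a7 := S 3 2 (by omega) (by omega)
          rcases (by omega : z = 0 ∨ z = 1 ∨ z = 2 ∨ z = 3) with rfl | rfl | rfl | rfl <;> omega
        rw [if_pos e]; linarith
    · rw [if_neg hI]; linarith
  refine hm.trans ?_
  rw [b19_A2_add]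
  linarith

end a2

/-! ## C. one tree: the product of the two pinned factors -/

variable {n : ℕ}

/-- two centred deleted overlaps at the level `i` under the SK law -/
def b19pX (k0 : Fin n) (a : ℝ) (P : SkStp) (i : ℕ) (τ : ℕ → ℕ → ℕ) : ℝ :=
  b19Sk n a P 6 τ fun σ => b19Dl k0 a P i 2 3 σ * b19Dl k0 a P i 4 5 σ

theorem b19p_eqns_cite : True := by
  have := @b19pX.eq_1
  trivial

/-- MARGINALS of the SK law (`tr_nu_comap` + `tr_nu_congr`) -/
theorem b19p_comap {a : ℝ} (ha : 0 < a) {P : SkStp} (hP : SkAdm a P) {q p : ℕ} {T : ℕ → ℕ → ℕ} (hT : IsTr P.length q T) (f : ℕ → ℕ)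
    (hf : ∀ x, x < p → f x < q) {T' : ℕ → ℕ → ℕ} (hT' : ∀ x y, x < p → y < p → T (f x) (f y) = T' x y)
    (g : (ℕ → SkCfg n) → ℝ) (hg : TrUses p g) :
    b19Sk n a P q T (fun σ => g fun x => σ (f x)) = b19Sk n a P p T' g := by
  unfold b19Sk
  have hT2 : IsTr (skLvs n P).length q T := by rw [obu_lvs_length]; exact hT
  rw [tr_nu_comap (sk_sy_base_ok n ha) (sk_sy_adm hP) hT2 0 f hf g hg]
  exact tr_nu_congr _ _ hT' 0 g

theorem b19p_uses4 (g : SkCfg n → SkCfg n → SkCfg n → SkCfg n → ℝ) : TrUses 4 fun σ : ℕ → SkCfg n => g (σ 0) (σ 1) (σ 2) (σ 3) := by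
  intro σ σ' h
  show g (σ 0) (σ 1) (σ 2) (σ 3) = g (σ' 0) (σ' 1) (σ' 2) (σ' 3)
  rw [h 0 (by omega), h 1 (by omega), h 2 (by omega), h 3 (by omega)]

/-- marginal of four labels `x0 x1 x2 x3` -/
theorem b19p_comap4 {a : ℝ} (ha : 0 < a) {P : SkStp} (hP : SkAdm a P) {q : ℕ} {T : ℕ → ℕ → ℕ} (hT : IsTr P.length q T)
    {x0 x1 x2 x3 : ℕ} (h0 : x0 < q) (h1 : x1 < q) (h2 : x2 < q) (h3 : x3 < q) {T' : ℕ → ℕ → ℕ} (hT4 : IsTr P.length 4 T')
    (e01 : T x0 x1 = T' 0 1) (e02 : T x0 x2 = T' 0 2) (e03 : T x0 x3 = T' 0 3) (e12 : T x1 x2 = T' 1 2) (e13 : T x1 x3 = T' 1 3)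
    (e23 : T x2 x3 = T' 2 3) (g : SkCfg n → SkCfg n → SkCfg n → SkCfg n → ℝ) :
    b19Sk n a P q T (fun σ => g (σ x0) (σ x1) (σ x2) (σ x3)) = b19Sk n a P 4 T' fun σ => g (σ 0) (σ 1) (σ 2) (σ 3) := by
  refine b19p_comap ha hP hT (fun x => [x0, x1, x2, x3].getD x 0) (fun x hx => ?_) (fun x y hx hy => ?_) _ (b19p_uses4 g)
  · rcases (by omega : x = 0 ∨ x = 1 ∨ x = 2 ∨ x = 3) with rfl | rfl | rfl | rfl <;> simpa
  rcases (by omega : x = 0 ∨ x = 1 ∨ x = 2 ∨ x = 3) with rfl | rfl | rfl | rfl <;>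
    rcases (by omega : y = 0 ∨ y = 1 ∨ y = 2 ∨ y = 3) with rfl | rfl | rfl | rfl
  · show T x0 x0 = T' 0 0
    rw [hT.diag _ h0, hT4.diag 0 (by omega)]
  · exact e01
  · exact e02
  · exact e03
  · show T x1 x0 = T' 1 0
    rw [hT.symm _ _ h1 h0, hT4.symm 1 0 (by omega) (by omega)]; exact e01
  · show T x1 x1 = T' 1 1
    rw [hT.diag _ h1, hT4.diag 1 (by omega)]
  · exact e12
  · exact e13
  · show T x2 x0 = T' 2 0
    rw [hT.symm _ _ h2 h0, hT4.symm 2 0 (by omega) (by omega)]; exact e02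
  · show T x2 x1 = T' 2 1
    rw [hT.symm _ _ h2 h1, hT4.symm 2 1 (by omega) (by omega)]; exact e12
  · show T x2 x2 = T' 2 2
    rw [hT.diag _ h2, hT4.diag 2 (by omega)]
  · exact e23
  · show T x3 x0 = T' 3 0
    rw [hT.symm _ _ h3 h0, hT4.symm 3 0 (by omega) (by omega)]; exact e03
  · show T x3 x1 = T' 3 1
    rw [hT.symm _ _ h3 h1, hT4.symm 3 1 (by omega) (by omega)]; exact e13
  · show T x3 x2 = T' 3 2
    rw [hT.symm _ _ h3 h2, hT4.symm 3 2 (by omega) (by omega)]; exact e23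
  · show T x3 x3 = T' 3 3
    rw [hT.diag _ h3, hT4.diag 3 (by omega)]

/-- the four labels `2 3 4 5` and four fresh children of their common node of depth `i` -/
def b19pT8 (N i : ℕ) (τ : ℕ → ℕ → ℕ) : ℕ → ℕ → ℕ := fun x y =>
  if x = y then N + 1 else if x < 4 ∧ y < 4 then τ (x + 2) (y + 2) else i

theorem b19p_T8_isTr {N i : ℕ} (hi : i ≤ N) {τ : ℕ → ℕ → ℕ} (hτ : IsTr N 6 τ)
    (hge : ∀ x y, x < 4 → y < 4 → i ≤ τ (x + 2) (y + 2)) : IsTr N 8 (b19pT8 N i τ) := by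
  have hle : ∀ x y, b19pT8 N i τ x y ≤ N + 1 := by
    intro x y
    unfold b19pT8
    split_ifs with h1 h2
    · exact le_rfl
    · exact hτ.le _ _ (by omega) (by omega)
    · omega
  refine ⟨fun x y _ _ => hle x y, ?_, ?_, ?_⟩
  · intro x _
    unfold b19pT8
    rw [if_pos rfl]
  · intro x y _ _
    unfold b19pT8
    by_cases h1 : x = y
    · rw [if_pos h1, if_pos h1.symm]
    · rw [if_neg h1, if_neg (Ne.symm h1)]
      by_cases h2 : x < 4 ∧ y < 4
      · rw [if_pos h2, if_pos ⟨h2.2, h2.1⟩]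
        exact hτ.symm _ _ (by omega) (by omega)
      · rw [if_neg h2, if_neg fun h => h2 ⟨h.2, h.1⟩]
  · intro x y z _ _ _
    by_cases hxz : x = z
    · subst hxz
      refine le_trans (min_le_left _ _) ((hle x y).trans (le_of_eq ?_))
      unfold b19pT8
      rw [if_pos rfl]
    · unfold b19pT8
      rw [if_neg hxz]
      by_cases hxy : x = y
      · subst hxy
        rw [if_pos rfl, if_neg hxz]
        exact min_le_right _ _
      · by_cases hyz : y = z
        · subst hyz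
          rw [if_neg hxy]
          exact min_le_left _ _
        · rw [if_neg hxy, if_neg hyz]
          by_cases h1 : x < 4 ∧ z < 4
          · rw [if_pos h1]
            by_cases h2 : y < 4
            · rw [if_pos ⟨h1.1, h2⟩, if_pos ⟨h2, h1.2⟩]
              exact hτ.ultra _ _ _ (by omega) (by omega) (by omega)
            · rw [if_neg fun h => h2 h.2, if_neg fun h => h2 h.1, min_self]
              exact hge x z h1.1 h1.2
          · rw [if_neg h1]
            by_cases h2 : x < 4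
            · rw [if_neg (fun h => h1 ⟨h2, h.2⟩ : ¬ (y < 4 ∧ z < 4))]
              exact min_le_right _ _
            · rw [if_neg (fun h => h2 h.1 : ¬ (x < 4 ∧ y < 4))]
              exact min_le_left _ _

theorem b19p_T8_eqns_cite : True := by
  have := @b19pT8.eq_1
  trivial

/-- **(a) of the blueprint**: if the two pairs fork at the SAME node of depth `i`, then `|ν_τ[δ_23 δ_45] - E4| ≤ 2 Het` -/
theorem b19p_het (hn : 0 < n) (k0 : Fin n) {a : ℝ} (ha : 0 < a) {P : SkStp} (hP : SkAdm a P) {i : ℕ} (hi : i ≤ P.length)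
    {τ : ℕ → ℕ → ℕ} (hτ : IsTr P.length 6 τ) (h23 : τ 2 3 = i) (h45 : τ 4 5 = i) (h24 : i ≤ τ 2 4) :
    |b19pX k0 a P i τ - b19E4 k0 a P i| ≤ 2 * b19Het k0 a P i := by
  have hB := sk_sy_base_ok n ha
  have hls : GhAdm (skBase n a) 0 (skLvs n P) := sk_sy_adm hP
  have S : ∀ x y, x < 6 → y < 6 → τ x y = τ y x := fun x y hx hy => hτ.symm x y hx hy
  have U : ∀ x y z, x < 6 → y < 6 → z < 6 → min (τ x y) (τ y z) ≤ τ x z := fun x y z hx hy hz => hτ.ultra x y z hx hy hz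
  have h25 : i ≤ τ 2 5 := by have := U 2 4 5 (by omega) (by omega) (by omega); omega
  have h34 : i ≤ τ 3 4 := by
    have := U 3 2 4 (by omega) (by omega) (by omega); have := S 3 2 (by omega) (by omega); omega
  have h35 : i ≤ τ 3 5 := by have := U 3 4 5 (by omega) (by omega) (by omega); omega
  have hge : ∀ x y, x < 4 → y < 4 → i ≤ τ (x + 2) (y + 2) := by
    intro x y hx hy
    have d2 := hτ.diag 2 (by omega); have d3 := hτ.diag 3 (by omega); have d4 := hτ.diag 4 (by omega)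
    have d5 := hτ.diag 5 (by omega)
    have s1 := S 3 2 (by omega) (by omega); have s2 := S 4 2 (by omega) (by omega); have s3 := S 5 2 (by omega) (by omega)
    have s4 := S 4 3 (by omega) (by omega); have s5 := S 5 3 (by omega) (by omega); have s6 := S 5 4 (by omega) (by omega)
    rcases (by omega : x = 0 ∨ x = 1 ∨ x = 2 ∨ x = 3) with rfl | rfl | rfl | rfl <;>
      rcases (by omega : y = 0 ∨ y = 1 ∨ y = 2 ∨ y = 3) with rfl | rfl | rfl | rfl <;> simp only [Nat.reduceAdd] <;> omega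
  have hT := b19p_T8_isTr hi hτ hge
  set T := b19pT8 P.length i τ with hTdef
  -- the marginals
  have star : ∀ x0 x1 x2 x3 : ℕ, x0 < 8 → x1 < 8 → x2 < 8 → x3 < 8 → T x0 x1 = i → T x0 x2 = i → T x0 x3 = i → T x1 x2 = i →
      T x1 x3 = i → T x2 x3 = i → ∀ g : SkCfg n → SkCfg n → SkCfg n → SkCfg n → ℝ,
      b19Sk n a P 8 T (fun σ => g (σ x0) (σ x1) (σ x2) (σ x3)) = b19Sk n a P 4 (b19St P.length i) fun σ => g (σ 0) (σ 1) (σ 2) (σ 3) := by
    intro x0 x1 x2 x3 b0 b1 b2 b3 e01 e02 e03 e12 e13 e23 g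
    have hs : ∀ x y : ℕ, x ≠ y → b19St P.length i x y = i := fun x y h => by unfold b19St; rw [if_neg h]
    exact b19p_comap4 ha hP hT b0 b1 b2 b3 (b19_st_isTr (by omega) 4) (by rw [e01, hs _ _ (by omega)]) (by rw [e02, hs _ _ (by omega)])
      (by rw [e03, hs _ _ (by omega)]) (by rw [e12, hs _ _ (by omega)]) (by rw [e13, hs _ _ (by omega)])
      (by rw [e23, hs _ _ (by omega)]) g
  have hTi : ∀ x y, x ≠ y → (4 ≤ x ∨ 4 ≤ y) → T x y = i := by
    intro x y h1 h2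
    rw [hTdef]; unfold b19pT8
    rw [if_neg h1, if_neg (by omega)]
  have hTl : ∀ x y, x ≠ y → x < 4 → y < 4 → T x y = τ (x + 2) (y + 2) := by
    intro x y h1 h2 h3
    rw [hTdef]; unfold b19pT8
    rw [if_neg h1, if_pos ⟨h2, h3⟩]
  have hT01 : T 0 1 = i := by rw [hTl 0 1 (by omega) (by omega) (by omega)]; exact h23
  have hT23 : T 2 3 = i := by rw [hTl 2 3 (by omega) (by omega) (by omega)]; exact h45
  set S0 : ℝ := obS n a P 0 i with hS0
  have hT4 : IsTr P.length 4 fun x y => τ (x + 2) (y + 2) := tr_comap_isTr hτ (fun x => x + 2) fun x hx => by omega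
  have e1 : b19Sk n a P 8 T (fun σ => b19Dl k0 a P i 0 1 σ * b19Dl k0 a P i 2 3 σ) = b19pX k0 a P i τ := by
    have l := b19p_comap4 ha hP hT (x0 := 0) (x1 := 1) (x2 := 2) (x3 := 3) (by omega) (by omega) (by omega) (by omega) hT4
      (hTl 0 1 (by omega) (by omega) (by omega)) (hTl 0 2 (by omega) (by omega) (by omega)) (hTl 0 3 (by omega) (by omega) (by omega))
      (hTl 1 2 (by omega) (by omega) (by omega)) (hTl 1 3 (by omega) (by omega) (by omega)) (hTl 2 3 (by omega) (by omega) (by omega))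
      (fun s0 s1 s2 s3 => (b19Qm k0 s0 s1 - S0) * (b19Qm k0 s2 s3 - S0))
    have r := b19p_comap4 ha hP hτ (x0 := 2) (x1 := 3) (x2 := 4) (x3 := 5) (by omega) (by omega) (by omega) (by omega) hT4
      rfl rfl rfl rfl rfl rfl (fun s0 s1 s2 s3 => (b19Qm k0 s0 s1 - S0) * (b19Qm k0 s2 s3 - S0))
    exact l.trans r.symm
  have e2 : b19Sk n a P 8 T (fun σ => b19Dl k0 a P i 0 1 σ * b19Dl k0 a P i 6 7 σ) = b19E4 k0 a P i :=
    star 0 1 6 7 (by omega) (by omega) (by omega) (by omega) hT01 (hTi _ _ (by omega) (by omega)) (hTi _ _ (by omega) (by omega))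
      (hTi _ _ (by omega) (by omega)) (hTi _ _ (by omega) (by omega)) (hTi _ _ (by omega) (by omega))
      (fun s0 s1 s2 s3 => (b19Qm k0 s0 s1 - S0) * (b19Qm k0 s2 s3 - S0))
  have e3 : b19Sk n a P 8 T (fun σ => b19Dl k0 a P i 4 5 σ * b19Dl k0 a P i 2 3 σ) = b19E4 k0 a P i :=
    star 4 5 2 3 (by omega) (by omega) (by omega) (by omega) (hTi _ _ (by omega) (by omega)) (hTi _ _ (by omega) (by omega))
      (hTi _ _ (by omega) (by omega)) (hTi _ _ (by omega) (by omega)) (hTi _ _ (by omega) (by omega)) hT23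
      (fun s0 s1 s2 s3 => (b19Qm k0 s0 s1 - S0) * (b19Qm k0 s2 s3 - S0))
  have e4 : b19Sk n a P 8 T (fun σ => b19Dl k0 a P i 4 5 σ * b19Dl k0 a P i 6 7 σ) = b19E4 k0 a P i :=
    star 4 5 6 7 (by omega) (by omega) (by omega) (by omega) (hTi _ _ (by omega) (by omega)) (hTi _ _ (by omega) (by omega))
      (hTi _ _ (by omega) (by omega)) (hTi _ _ (by omega) (by omega)) (hTi _ _ (by omega) (by omega)) (hTi _ _ (by omega) (by omega))
      (fun s0 s1 s2 s3 => (b19Qm k0 s0 s1 - S0) * (b19Qm k0 s2 s3 - S0))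
  have hH := b19_Het_eq hn k0 ha hP hi
  have q1 : b19Sk n a P 8 T (fun σ => (b19Dl k0 a P i 0 1 σ - b19Dl k0 a P i 4 5 σ) ^ 2) = 2 * b19Het k0 a P i := by
    rw [hH]
    have := star 0 1 4 5 (by omega) (by omega) (by omega) (by omega) hT01 (hTi _ _ (by omega) (by omega)) (hTi _ _ (by omega) (by omega))
      (hTi _ _ (by omega) (by omega)) (hTi _ _ (by omega) (by omega)) (hTi _ _ (by omega) (by omega))
      (fun s0 s1 s2 s3 => (b19Qm k0 s0 s1 - b19Qm k0 s2 s3) ^ 2)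
    rw [← this]
    congr 1
    funext σ
    unfold b19Dl
    ring
  have q2 : b19Sk n a P 8 T (fun σ => (b19Dl k0 a P i 2 3 σ - b19Dl k0 a P i 6 7 σ) ^ 2) = 2 * b19Het k0 a P i := by
    rw [hH]
    have := star 2 3 6 7 (by omega) (by omega) (by omega) (by omega) hT23 (hTi _ _ (by omega) (by omega)) (hTi _ _ (by omega) (by omega))
      (hTi _ _ (by omega) (by omega)) (hTi _ _ (by omega) (by omega)) (hTi _ _ (by omega) (by omega))
      (fun s0 s1 s2 s3 => (b19Qm k0 s0 s1 - b19Qm k0 s2 s3) ^ 2)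
    rw [← this]
    congr 1
    funext σ
    unfold b19Dl
    ring
  have hexp : b19Sk n a P 8 T (fun σ => (b19Dl k0 a P i 0 1 σ - b19Dl k0 a P i 4 5 σ) * (b19Dl k0 a P i 2 3 σ - b19Dl k0 a P i 6 7 σ))
      = b19pX k0 a P i τ - b19E4 k0 a P i := by
    have : (fun σ : ℕ → SkCfg n => (b19Dl k0 a P i 0 1 σ - b19Dl k0 a P i 4 5 σ) * (b19Dl k0 a P i 2 3 σ - b19Dl k0 a P i 6 7 σ))
        = fun σ => ((b19Dl k0 a P i 0 1 σ * b19Dl k0 a P i 2 3 σ - b19Dl k0 a P i 0 1 σ * b19Dl k0 a P i 6 7 σ)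
          - b19Dl k0 a P i 4 5 σ * b19Dl k0 a P i 2 3 σ) + b19Dl k0 a P i 4 5 σ * b19Dl k0 a P i 6 7 σ := by
      funext σ; ring
    rw [this]
    unfold b19Sk at e1 e2 e3 e4 ⊢
    rw [b19_tr_add hB hls, b19_tr_sub hB hls, b19_tr_sub hB hls, e1, e2, e3, e4]
    ring
  have hcs := b19_tr_cs hB hls 8 T 0 (fun σ => b19Dl k0 a P i 0 1 σ - b19Dl k0 a P i 4 5 σ)
    (fun σ => b19Dl k0 a P i 2 3 σ - b19Dl k0 a P i 6 7 σ)
  unfold b19Sk at hexp q1 q2
  rw [hexp, q1, q2] at hcs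
  have h0 : 0 ≤ 2 * b19Het k0 a P i := by
    rw [← q1]
    exact b19_tr_nonneg hB hls 8 T 0 fun σ => sq_nonneg _
  rwa [Real.mul_self_sqrt h0] at hcs

/-- on the class pp: `χ_τ = b_i² ν_τ[δ_23 δ_45]` -/
theorem b19p_chi (k0 : Fin n) {a : ℝ} (ha : 0 < a) {P : SkStp} (hP : SkAdm a P) {i : ℕ} {τ : ℕ → ℕ → ℕ} (h23 : τ 2 3 = i)
    (h45 : τ 4 5 = i) : b19Chi k0 a P τ = skCumB P i ^ 2 * b19pX k0 a P i τ := by
  unfold b19Chi b19pX b19Sk
  rw [← b19_tr_smul (sk_sy_base_ok n ha) (sk_sy_adm hP)]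
  congr 1
  funext σ
  unfold b19JJ b19J
  simp only [Finset.prod_range_succ, Finset.prod_range_zero, Nat.mul_zero, Nat.mul_one, Nat.add_zero, Nat.reduceAdd, h23, h45]
  ring

/-- crude bound -/
theorem b19p_bdd (hn : 0 < n) (k0 : Fin n) {a : ℝ} (ha : 0 < a) {P : SkStp} (hP : SkAdm a P) {i : ℕ} (hi : i ≤ P.length)
    (τ : ℕ → ℕ → ℕ) : |b19pX k0 a P i τ - b19E4 k0 a P i| ≤ 8 := by
  have hB := sk_sy_base_ok n ha
  have hls : GhAdm (skBase n a) 0 (skLvs n P) := sk_sy_adm hP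
  have hb : ∀ (c d c' d' : ℕ) (σ : ℕ → SkCfg n), |b19Dl k0 a P i c d σ * b19Dl k0 a P i c' d' σ| ≤ 4 := by
    intro c d c' d' σ
    rw [abs_mul]
    have h1 := b19_Dl_abs hn k0 ha hP hi c d σ
    have h2 := b19_Dl_abs hn k0 ha hP hi c' d' σ
    nlinarith [abs_nonneg (b19Dl k0 a P i c d σ), abs_nonneg (b19Dl k0 a P i c' d' σ)]
  have h1 : |b19pX k0 a P i τ| ≤ 4 := b19_tr_le_const hB hls 6 τ 0 (hb 2 3 4 5)
  have h2 : |b19E4 k0 a P i| ≤ 4 := b19_tr_le_const hB hls 4 _ 0 (hb 0 1 2 3)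
  have := abs_sub (b19pX k0 a P i τ) (b19E4 k0 a P i)
  linarith

/-- `|E4| ≤ D_i²` -/
theorem b19p_E4_le (hn : 0 < n) (k0 : Fin n) {a : ℝ} (ha : 0 < a) {P : SkStp} (hP : SkAdm a P) {i : ℕ} (hi : i ≤ P.length) :
    |b19E4 k0 a P i| ≤ b19Dm k0 a P i ^ 2 := by
  have hB := sk_sy_base_ok n ha
  have hls : GhAdm (skBase n a) 0 (skLvs n P) := sk_sy_adm hP
  have h1 := b19_hold2 hn k0 ha hP (b19_st_isTr (by omega : i ≤ P.length + 1) 4) (c1 := 0) (d1 := 1) (c2 := 2) (d2 := 3)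
    ⟨by omega, by omega, by omega⟩ ⟨by omega, by omega, by omega⟩
  have hs : ∀ x y : ℕ, x ≠ y → b19St P.length i x y = i := fun x y h => by unfold b19St; rw [if_neg h]
  rw [hs 0 1 (by omega), hs 2 3 (by omega)] at h1
  have h2 : |b19E4 k0 a P i| ≤ b19Sk n a P 4 (b19St P.length i) fun σ => |b19Dl k0 a P i 0 1 σ| * |b19Dl k0 a P i 2 3 σ| := by
    have := b19_tr_abs hB hls 4 (b19St P.length i) 0 fun σ => b19Dl k0 a P i 0 1 σ * b19Dl k0 a P i 2 3 σ
    simp only [abs_mul] at this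
    exact this
  rw [sq]
  exact h2.trans h1

/-- **SIGN in the class pp**: if every inserted label lies in the child of `0` or in the child of `1`, each of the two children contains three labels (and one of `4, 5`) -/
theorem b19p_c6 (A0 M0 : ℝ) : ∃ C : ℝ, 0 ≤ C ∧ ∀ (n : ℕ) (a : ℝ) (P : SkStp) (i H : ℕ), B19Hyp n a P A0 M0 i H →
    ∀ τ, IsTr P.length 6 τ → τ 0 1 = i → τ 2 3 = i → τ 4 5 = i →
      ((i < τ 0 2 ∨ i < τ 1 2) ∧ (i < τ 0 3 ∨ i < τ 1 3) ∧ (i < τ 0 4 ∨ i < τ 1 4) ∧ (i < τ 0 5 ∨ i < τ 1 5)) →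
      |b19c6 n a P τ| ≤ C * b19K n a P H := by
  obtain ⟨C, hC, hs⟩ := b19_sign 6 A0
  refine ⟨2 * C, by positivity, fun n a P i H h τ hτ h01 h23 h45 hI => ?_⟩
  have hn : 0 < n := by have := h.n2; omega
  have hiN : i + 1 ≤ P.length := by have := h.iH; have := h.HN; omega
  have S : ∀ x y, x < 6 → y < 6 → τ x y = τ y x := fun x y hx hy => hτ.symm x y hx hy
  have U : ∀ x y z, x < 6 → y < 6 → z < 6 → min (τ x y) (τ y z) ≤ τ x z := fun x y z hx hy hz => hτ.ultra x y z hx hy hz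
  have p0 : i + 1 ≤ τ 0 0 := by rw [hτ.diag 0 (by omega)]; omega
  have p1 : ¬ (i + 1 ≤ τ 0 1) := by omega
  obtain ⟨c2, c3, c4, c5⟩ := hI
  have x23 : (i + 1 ≤ τ 0 2 ∧ ¬ (i + 1 ≤ τ 0 3)) ∨ (¬ (i + 1 ≤ τ 0 2) ∧ i + 1 ≤ τ 0 3) := by
    have a1 := U 2 0 3 (by omega) (by omega) (by omega)
    have a2 := S 2 0 (by omega) (by omega)
    have a3 := U 2 1 3 (by omega) (by omega) (by omega)
    have a4 := S 2 1 (by omega) (by omega)
    omega
  have x45 : (i + 1 ≤ τ 0 4 ∧ ¬ (i + 1 ≤ τ 0 5)) ∨ (¬ (i + 1 ≤ τ 0 4) ∧ i + 1 ≤ τ 0 5) := by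
    have a1 := U 4 0 5 (by omega) (by omega) (by omega)
    have a2 := S 4 0 (by omega) (by omega)
    have a3 := U 4 1 5 (by omega) (by omega) (by omega)
    have a4 := S 4 1 (by omega) (by omega)
    omega
  have o6 : Odd ((Finset.range 6).filter fun y => i + 1 ≤ τ 0 y).card := by
    rw [Finset.card_filter]
    simp only [Finset.sum_range_succ, Finset.sum_range_zero]
    rcases x23 with ⟨q2, q3⟩ | ⟨q2, q3⟩ <;> rcases x45 with ⟨q4, q5⟩ | ⟨q4, q5⟩ <;>
      simp only [p0, p1, q2, q3, q4, q5, if_true, if_false] <;> decide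
  have o2 : Odd (({4, 5} : Finset ℕ).filter fun y => i + 1 ≤ τ 0 y).card := by
    rw [Finset.card_filter, Finset.sum_pair (by norm_num)]
    rcases x45 with ⟨q4, q5⟩ | ⟨q4, q5⟩ <;> simp only [q4, q5, if_true, if_false] <;> decide
  have b6 := hs n a P hn h.a0 h.aA h.adm τ hτ (Finset.range 6) (fun x hx => Finset.mem_range.1 hx) (i + 1) hiN 0 (by omega) o6
  have b2 := hs n a P hn h.a0 h.aA h.adm τ hτ {4, 5} (fun x hx => by
    simp only [Finset.mem_insert, Finset.mem_singleton] at hx; omega) (i + 1) hiN 0 (by omega) o2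
  have b4 := b19_Sc_abs hn h.a0 h.adm 6 τ (Finset.range 4)
  have hK : b19K n a P (i + 1) ≤ b19K n a P H := b19_K_mono hn h.a0 h.adm h.iH h.HN
  have hK0 : 0 ≤ b19K n a P (i + 1) := by
    have := b19_K_mono hn h.a0 h.adm (Nat.zero_le (i + 1)) hiN
    rwa [b19_K_zero] at this
  unfold b19c6
  have t1 : |b19Sc n a P 6 τ (Finset.range 6) / 2 - b19Sc n a P 6 τ (Finset.range 4) * b19Sc n a P 6 τ {4, 5}|
      ≤ |b19Sc n a P 6 τ (Finset.range 6)| / 2 + |b19Sc n a P 6 τ (Finset.range 4)| * |b19Sc n a P 6 τ {4, 5}| := by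
    refine (abs_sub _ _).trans ?_
    rw [abs_div, abs_mul, abs_of_pos (by norm_num : (0 : ℝ) < 2)]
  have t2 : |b19Sc n a P 6 τ (Finset.range 4)| * |b19Sc n a P 6 τ {4, 5}| ≤ 1 * (C * b19K n a P (i + 1)) :=
    mul_le_mul b4 b2 (abs_nonneg _) zero_le_one
  have t3 : C * b19K n a P (i + 1) ≤ C * b19K n a P H := mul_le_mul_of_nonneg_left hK hC
  have t4 : 0 ≤ C * b19K n a P (i + 1) := mul_nonneg hC hK0
  linarith

/-! ## D. the coefficient of `E4` -/

/-- the scalar moment of a pair depends on its level only -/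
theorem b19p_sc45 (hn : 0 < n) {a : ℝ} (ha : 0 < a) {P : SkStp} (hP : SkAdm a P) {i : ℕ} {τ : ℕ → ℕ → ℕ}
    (hτ : IsTr P.length 6 τ) (h45 : τ 4 5 = i) : b19Sc n a P 6 τ {4, 5} = b19Sc n a P 2 (b19St P.length i) {0, 1} := by
  obtain ⟨hadm, hlen, -⟩ := b19_KP_adm hn ha hP
  have hT2 : IsTr (skLvs 1 (b19KP n a P)).length 6 τ := by rw [obu_lvs_length, hlen]; exact hτ
  have hu : TrUses 2 fun σ : ℕ → SkCfg 1 => ∏ x ∈ ({0, 1} : Finset ℕ), skSp (σ x) 0 := by
    intro σ σ' h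
    refine Finset.prod_congr rfl fun x hx => ?_
    simp only [Finset.mem_insert, Finset.mem_singleton] at hx
    rw [h x (by omega)]
  have h1 := tr_nu_comap (sk_sy_base_ok 1 ha) (sk_sy_adm hadm) hT2 0 (fun x => x + 4) (fun x hx => by omega) _ hu
  unfold b19Sc
  have h2 : (fun σ : ℕ → SkCfg 1 => ∏ x ∈ ({4, 5} : Finset ℕ), skSp (σ x) 0)
      = fun σ => (fun σ : ℕ → SkCfg 1 => ∏ x ∈ ({0, 1} : Finset ℕ), skSp (σ x) 0) fun x => σ (x + 4) := by
    funext σ
    show _ = ∏ x ∈ ({0, 1} : Finset ℕ), skSp (σ (x + 4)) 0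
    rw [Finset.prod_pair (by norm_num), Finset.prod_pair (by norm_num)]
  rw [h2, h1]
  refine tr_nu_congr _ _ (fun x y hx hy => ?_) 0 _
  have d4 := hτ.diag 4 (by omega)
  have d5 := hτ.diag 5 (by omega)
  have s45 := hτ.symm 5 4 (by omega) (by omega)
  rcases (by omega : x = 0 ∨ x = 1) with rfl | rfl <;> rcases (by omega : y = 0 ∨ y = 1) with rfl | rfl <;>
    simp only [b19St, Nat.reduceAdd] <;> simp <;> omega

theorem b19p_D2_smul (a : ℝ) (P : SkStp) (i : ℕ) (c : ℝ) (F : (ℕ → ℕ → ℕ) → ℝ) :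
    b19D2 a P i (fun τ => c * F τ) = c * b19D2 a P i F := by
  unfold b19D2
  simp only [b19_D_smul]

/-- **the coefficient of `E4` is EXACTLY `b19Cp`**: `sc[45] = Γ_i` is constant on the class and ZSUM kills the product term -/
theorem b19p_coef (hn : 0 < n) {a : ℝ} (ha : 0 < a) {P : SkStp} (hP : SkAdm a P) {i : ℕ} (hi : i ≤ P.length) :
    b19D2 a P i (fun τ => if τ 2 3 = i ∧ τ 4 5 = i then b19c6 n a P τ else 0) = b19Cp n a P i := by
  have hSt : IsTr P.length 2 (b19St P.length i) := b19_st_isTr (by omega) 2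
  set Γ : ℝ := b19Sc n a P 2 (b19St P.length i) {0, 1} with hΓ
  have h1 : (fun τ : ℕ → ℕ → ℕ => if τ 2 3 = i ∧ τ 4 5 = i then b19c6 n a P τ else 0)
      = fun τ => (if τ 2 3 = i ∧ τ 4 5 = i then b19Sc n a P 6 τ (Finset.range 6) / 2 else 0)
        + (-1) * (if τ 2 3 = i ∧ τ 4 5 = i then b19Sc n a P 6 τ (Finset.range 4) * b19Sc n a P 6 τ {4, 5} else 0) := by
    funext τ
    unfold b19c6
    split_ifs <;> ring
  rw [h1, b19_D2_add, b19p_D2_smul]
  have h2 : b19D2 a P i (fun τ => if τ 2 3 = i ∧ τ 4 5 = i then b19Sc n a P 6 τ (Finset.range 4) * b19Sc n a P 6 τ {4, 5} else 0) = 0 := by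
    unfold b19D2
    have h3 : b19D (skMs a P) P.length 2 (b19St P.length i) (fun τ₁ => b19D (skMs a P) P.length 4 τ₁ fun τ =>
          if τ 2 3 = i ∧ τ 4 5 = i then b19Sc n a P 6 τ (Finset.range 4) * b19Sc n a P 6 τ {4, 5} else 0)
        = b19D (skMs a P) P.length 2 (b19St P.length i) fun _ => 0 * 0 := by
      refine b19_D_congr hSt fun τ₁ hτ₁ _ _ => ?_
      have h4 : b19D (skMs a P) P.length 4 τ₁ (fun τ =>
            if τ 2 3 = i ∧ τ 4 5 = i then b19Sc n a P 6 τ (Finset.range 4) * b19Sc n a P 6 τ {4, 5} else 0)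
          = b19D (skMs a P) P.length 4 τ₁ fun τ => ((if τ₁ 2 3 = i then b19Sc n a P 4 τ₁ (Finset.range 4) else 0) * Γ)
            * (fun r => if r = i then (1 : ℝ) else 0) (τ 4 (4 + 1)) := by
        refine b19_D_congr hτ₁ fun τ hτ hag _ => ?_
        have e23 : τ 2 3 = τ₁ 2 3 := hag 2 3 (by omega) (by omega)
        have e4 : b19Sc n a P 6 τ (Finset.range 4) = b19Sc n a P 4 τ₁ (Finset.range 4) := by
          rw [b19_Sc_prune hn ha hP (by omega : 4 ≤ 6) hτ fun x hx => Finset.mem_range.1 hx]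
          exact b19_Sc_congr a P hag _
        show _ = _ * (if τ 4 5 = i then (1 : ℝ) else 0)
        rw [e23]
        by_cases c45 : τ 4 5 = i
        · rw [b19p_sc45 hn ha hP hτ c45, e4, if_pos c45]
          by_cases c23 : τ₁ 2 3 = i
          · rw [if_pos ⟨c23, c45⟩, if_pos c23, mul_one]
          · rw [if_neg (fun h => c23 h.1), if_neg c23]; ring
        · rw [if_neg (fun h => c45 h.2), if_neg c45, mul_zero]
      have hτ₁' : IsTr P.length 4 τ₁ := hτ₁
      rw [h4, b19_D_smul, b19_zsum hτ₁' (by omega) fun r => if r = i then (1 : ℝ) else 0, mul_zero, mul_zero]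
    rw [h3, b19_D_smul, zero_mul]
  rw [h2, mul_zero, add_zero]
  rfl

/-! ## E. the exit -/

/-- **class pp** (blueprint sec.4) = `b19_pp` of `Bud/C19Ctr.lean` -/
theorem b19p_pp (A0 M0 : ℝ) : ∃ C : ℝ, 0 ≤ C ∧ ∀ (n : ℕ) (k0 : Fin n) (a : ℝ) (P : SkStp) (i H : ℕ), B19Hyp n a P A0 M0 i H →
    |b19D2 a P i (fun τ => if τ 2 3 = i ∧ τ 4 5 = i then b19c6 n a P τ * b19Chi k0 a P τ else 0)|
      ≤ C * (skGap a P i + |b19Cp n a P i| * b19Dm k0 a P i ^ 2 + (b19K n a P H + skMs a P i) * b19Het k0 a P i) := by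
  obtain ⟨C5, hC5, h5⟩ := b19p_c6 A0 M0
  set A1 : ℝ := |A0| with hA1
  have hA10 : 0 ≤ A1 := abs_nonneg _
  refine ⟨M0 ^ 2 * (1 + 1536 * A1 ^ 3 + (2880 * A1 ^ 3 + 960 * C5 * A1 ^ 4)), by positivity, ?_⟩
  intro n k0 a P i H h
  have hn : 0 < n := by have := h.n2; omega
  have ha := h.a0
  have hP := h.adm
  have haA : a ≤ A1 := h.aA.trans (le_abs_self _)
  have hi : i ≤ P.length := by have := h.iH; have := h.HN; omega
  obtain ⟨hms, -⟩ := b19_isMs ha hP
  set b : ℝ := skCumB P i with hb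
  set E4 : ℝ := b19E4 k0 a P i with hE4
  set Het : ℝ := b19Het k0 a P i with hHet
  set KH : ℝ := b19K n a P H with hKH
  set X : (ℕ → ℕ → ℕ) → ℝ := b19pX k0 a P i with hX
  have hb0 : 0 ≤ b := by
    have := (b19_cumB_mono hP (Nat.zero_le i)).1
    rwa [(b19_cum_zero P).1] at this
  have hbM : b ≤ M0 := ((b19_cumB_mono hP hi).1).trans h.bM
  have hb2 : b ^ 2 ≤ M0 ^ 2 := pow_le_pow_left₀ hb0 hbM 2
  have hHet0 : 0 ≤ Het := by
    have h1 := b19_Het_eq hn k0 ha hP hi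
    have h2 : 0 ≤ b19Sk n a P 4 (b19St P.length i) fun σ => (b19Qm k0 (σ 0) (σ 1) - b19Qm k0 (σ 2) (σ 3)) ^ 2 :=
      b19_tr_nonneg (sk_sy_base_ok n ha) (sk_sy_adm hP) 4 _ 0 fun σ => sq_nonneg _
    rw [← h1] at h2
    linarith
  have hKH0 : 0 ≤ KH := by
    have := b19_K_mono hn ha hP (Nat.zero_le H) h.HN
    rwa [b19_K_zero] at this
  have hm0 : 0 ≤ skMs a P i := hms.nonneg i
  have hg0 : 0 ≤ skGap a P i := b19_gap_nonneg ha hP i
  -- decomposition
  have hdec : b19D2 a P i (fun τ => if τ 2 3 = i ∧ τ 4 5 = i then b19c6 n a P τ * b19Chi k0 a P τ else 0)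
      = b ^ 2 * E4 * b19Cp n a P i
        + b ^ 2 * b19D2 a P i (fun τ => if τ 2 3 = i ∧ τ 4 5 = i then b19c6 n a P τ * (X τ - E4) else 0) := by
    rw [← b19p_coef hn ha hP hi, ← b19p_D2_smul, ← b19p_D2_smul, ← b19_D2_add]
    congr 1
    funext τ
    by_cases hpp : τ 2 3 = i ∧ τ 4 5 = i
    · rw [if_pos hpp, if_pos hpp, if_pos hpp, b19p_chi k0 ha hP hpp.1 hpp.2]
      ring
    · rw [if_neg hpp, if_neg hpp, if_neg hpp]
      ring
  -- the remainder
  have hrem : |b19D2 a P i (fun τ => if τ 2 3 = i ∧ τ 4 5 = i then b19c6 n a P τ * (X τ - E4) else 0)|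
      ≤ 12 * (128 * A1 ^ 3 * skGap a P i) + 3 * Het * (960 * A1 ^ 3 * skMs a P i) + 2 * C5 * KH * Het * (480 * A1 ^ 4) := by
    refine (b19_D2_abs _).trans ?_
    have hmaj : b19A2 a P i (fun τ => |if τ 2 3 = i ∧ τ 4 5 = i then b19c6 n a P τ * (X τ - E4) else 0|)
        ≤ b19A2 a P i (fun τ => (12 * (if τ 2 3 = i ∧ τ 4 5 = i ∧ τ 2 4 < i then (1 : ℝ) else 0)
          + 3 * Het * (if (i < τ 0 2 ∨ i < τ 1 2) ∧ (i < τ 0 3 ∨ i < τ 1 3) ∧ (i < τ 0 4 ∨ i < τ 1 4) ∧ (i < τ 0 5 ∨ i < τ 1 5)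
              then (0 : ℝ) else 1)) + 2 * C5 * KH * Het * 1) := by
      refine b19_A2_mono hi fun τ hτ => ?_
      obtain ⟨hT, h01, -⟩ := hτ
      have hT6 : IsTr P.length 6 τ := hT
      have n1 : (0 : ℝ) ≤ 12 * (if τ 2 3 = i ∧ τ 4 5 = i ∧ τ 2 4 < i then (1 : ℝ) else 0) := by split_ifs <;> norm_num
      have n2 : (0 : ℝ) ≤ 3 * Het * (if (i < τ 0 2 ∨ i < τ 1 2) ∧ (i < τ 0 3 ∨ i < τ 1 3) ∧ (i < τ 0 4 ∨ i < τ 1 4) ∧ (i < τ 0 5 ∨ i < τ 1 5)
              then (0 : ℝ) else 1) := by split_ifs <;> positivity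
      have n3 : (0 : ℝ) ≤ 2 * C5 * KH * Het * 1 := by positivity
      by_cases hpp : τ 2 3 = i ∧ τ 4 5 = i
      · rw [if_pos hpp, abs_mul]
        have c6a := b19_c6_abs hn ha hP τ
        by_cases h24 : τ 2 4 < i
        · rw [if_pos ⟨hpp.1, hpp.2, h24⟩] at n1 ⊢
          have := b19p_bdd hn k0 ha hP hi τ
          have : |b19c6 n a P τ| * |X τ - E4| ≤ 3 / 2 * 8 := mul_le_mul c6a this (abs_nonneg _) (by norm_num)
          linarith
        · have hh := b19p_het hn k0 ha hP hi hT6 hpp.1 hpp.2 (not_lt.1 h24)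
          by_cases hI : (i < τ 0 2 ∨ i < τ 1 2) ∧ (i < τ 0 3 ∨ i < τ 1 3) ∧ (i < τ 0 4 ∨ i < τ 1 4) ∧ (i < τ 0 5 ∨ i < τ 1 5)
          · have c6s := h5 n a P i H h τ hT6 h01 hpp.1 hpp.2 hI
            have : |b19c6 n a P τ| * |X τ - E4| ≤ C5 * KH * (2 * Het) := mul_le_mul c6s hh (abs_nonneg _) (by positivity)
            linarith
          · rw [if_neg hI] at n2 ⊢
            have : |b19c6 n a P τ| * |X τ - E4| ≤ 3 / 2 * (2 * Het) := mul_le_mul c6a hh (abs_nonneg _) (by norm_num)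
            linarith
      · rw [if_neg hpp, abs_zero]
        linarith
    refine hmaj.trans ?_
    rw [b19_A2_add, b19_A2_add, b19_A2_smul, b19_A2_smul, b19_A2_smul]
    have w1 := b19p_w_fresh ha haA hP hi
    have w2 := b19p_w_low ha haA hP hi
    have w3 := b19p_w_one ha haA hP hi
    have v1 := mul_le_mul_of_nonneg_left w1 (by norm_num : (0 : ℝ) ≤ 12)
    have v2 := mul_le_mul_of_nonneg_left w2 (by positivity : (0 : ℝ) ≤ 3 * Het)
    have v3 := mul_le_mul_of_nonneg_left w3 (by positivity : (0 : ℝ) ≤ 2 * C5 * KH * Het)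
    linarith
  rw [hdec]
  have hE := b19p_E4_le hn k0 ha hP hi
  set Dm2 : ℝ := b19Dm k0 a P i ^ 2 with hDm2
  set Cp : ℝ := b19Cp n a P i with hCp
  set Rm : ℝ := b19D2 a P i (fun τ => if τ 2 3 = i ∧ τ 4 5 = i then b19c6 n a P τ * (X τ - E4) else 0) with hRm
  have hD0 : 0 ≤ Dm2 := sq_nonneg _
  have t1 : |b ^ 2 * E4 * Cp| ≤ M0 ^ 2 * (|Cp| * Dm2) := by
    rw [abs_mul, abs_mul, abs_of_nonneg (sq_nonneg b)]
    have : b ^ 2 * |E4| ≤ M0 ^ 2 * Dm2 := mul_le_mul hb2 hE (abs_nonneg _) (sq_nonneg _)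
    calc b ^ 2 * |E4| * |Cp| ≤ M0 ^ 2 * Dm2 * |Cp| := mul_le_mul_of_nonneg_right this (abs_nonneg _)
      _ = M0 ^ 2 * (|Cp| * Dm2) := by ring
  have t2 : |b ^ 2 * Rm| ≤ M0 ^ 2 * (12 * (128 * A1 ^ 3 * skGap a P i) + 3 * Het * (960 * A1 ^ 3 * skMs a P i)
      + 2 * C5 * KH * Het * (480 * A1 ^ 4)) := by
    rw [abs_mul, abs_of_nonneg (sq_nonneg b)]
    exact mul_le_mul hb2 hrem (abs_nonneg _) (sq_nonneg _)
  refine (abs_add_le _ _).trans ((add_le_add t1 t2).trans ?_)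
  have hM : 0 ≤ M0 ^ 2 := sq_nonneg _
  rw [← mul_add, mul_assoc (M0 ^ 2)]
  refine mul_le_mul_of_nonneg_left ?_ hM
  have p1 : 0 ≤ |Cp| * Dm2 := mul_nonneg (abs_nonneg _) hD0
  have p2 : 0 ≤ KH * Het := mul_nonneg hKH0 hHet0
  have p3 : 0 ≤ skMs a P i * Het := mul_nonneg hm0 hHet0
  have a3 : 0 ≤ A1 ^ 3 := by positivity
  have a4 : 0 ≤ C5 * A1 ^ 4 := by positivity
  nlinarith [mul_nonneg a3 hg0, mul_nonneg a3 p1, mul_nonneg a3 p2, mul_nonneg a3 p3, mul_nonneg a4 hg0, mul_nonneg a4 p1,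
    mul_nonneg a4 p2, mul_nonneg a4 p3]

end

end Claimed.Agent.R286
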