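import Claimed.Agent.R286.Bud.C19Tree
import Claimed.Agent.R286.Bud.C19P
import Claimed.Agent.R286.Bud.C19Hb

/-!
# Row 286, LL sec. 7, node N17 = (C19): THE STEP LEVEL MASTER INEQUALITY, first level of the cut      (chief helper180; head helper184; ADV helper143)

BLUEPRINT `git show origin/helper180:notes/R286/N17_180.md`.   Definitions `Bud/C19Defs.lean`.   Consumer: `Bud/C19Box.lean` (helper61: MASTER ⟹ `BudB.c19`).
`b19_master` : for EVERY admissible step path `P`, cut `i < H ≤ N`, dyads `[e j, e (j+1))` of the high cuts with projection cuts `κ j`:   `|S_i - Γ_K(K_i)| ≤ C * b19Rhs`,   `C = C(p, A0, M0)`.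

FIRST LEVEL (the assembly `b19_master_m`, `b19_master` is proved from them):
| leaf          | content                                                                                  | blueprint | owner |
| `b19_expand`  | exact expansion `S_i - Γ_i = E_n + D²[c6 χ(1)] + Rem`, Taylor inequalities               | sec.2     | 184, PROVED from the row API |
| `b19_tree3`   | per-tree majorant of the three degree-three remainders (Hoelder, Gronwall, SIGN, FLIP)   | sec.3     | `Bud/C19Tree.lean` |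
| `b19_sum3`    | sum of the majorant over the trees (split densities)                                     | sec.3     | `Bud/C19Comb.lean` |
| `b19_tree2`   | per-tree majorant of degree two outside pp, pH, Hp                                       | sec.3     | `Bud/C19Tree.lean` |
| `b19_sum2`    | its sum                                                                                  | sec.3     | `Bud/C19Comb.lean` |
| `b19_pp`      | both pairs at the level of the observed fork                                             | sec.4     | `Bud/C19P.lean` (15) |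
| `b19_pH`      | one pair at the level `i`, one high pair                                                 | sec.5     | `Bud/C19H.lean` (15) |
| `b19_conv`    | deleted overlaps -> full overlaps (monotonicity of `b19RhsG`)                            | sec.6     | free |
-/

set_option autoImplicit false

namespace Claimed.Agent.R286

open MeasureTheory Set Filter Topology

noncomputable section

/-! ### auxiliary lemmas of `b19_expand` (helper184; prefix `b19x_`) -/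

section expand
variable {n : ℕ}

/-- `k` mismatch factors and the site spins of `A` under the row law at `t`, on a tree with `2 + 2 k` labels -/
def b19T (k0 : Fin n) (a : ℝ) (P : SkStp) (k : ℕ) (A : Finset ℕ) (t : ℝ) (τ : ℕ → ℕ → ℕ) : ℝ :=
  b19Nu k0 a P (b19Ct n a P t) (2 + 2 * k) τ fun σ => b19Sp k0 A σ * b19JJ k0 a P τ k σ

theorem b19T_eqns_cite : True := by
  have := @b19T.eq_1
  trivial

theorem b19x_JJ_uses (k0 : Fin n) (a : ℝ) (P : SkStp) (τ : ℕ → ℕ → ℕ) (k : ℕ) : TrUses (2 + 2 * k) (b19JJ k0 a P τ k) := by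
  intro σ σ' h
  unfold b19JJ
  refine Finset.prod_congr rfl fun m hm => ?_
  have hm' := Finset.mem_range.mp hm
  unfold b19J b19Dl
  rw [h (2 + 2 * m) (by omega), h (3 + 2 * m) (by omega)]

theorem b19x_Sp_uses (k0 : Fin n) {q : ℕ} {A : Finset ℕ} (hA : ∀ x ∈ A, x < q) : TrUses q (b19Sp k0 A) := by
  intro σ σ' h
  unfold b19Sp
  exact Finset.prod_congr rfl fun x hx => by rw [h x (hA x hx)]

theorem b19x_JJ_rest (k0 : Fin n) (a : ℝ) (P : SkStp) (τ : ℕ → ℕ → ℕ) (k : ℕ) : B19Rest k0 (b19JJ k0 a P τ k) := by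
  intro σ σ' h
  unfold b19JJ
  refine Finset.prod_congr rfl fun m _ => ?_
  unfold b19J b19Dl
  rw [b19_Qm_eq, b19_Qm_eq]
  congr 3
  refine Finset.sum_congr rfl fun j hj => ?_
  have hj' : j ≠ k0 := (Finset.mem_erase.mp hj).1
  unfold skSp
  rw [h _ j hj', h _ j hj']

theorem b19x_JJ_congr (k0 : Fin n) (a : ℝ) (P : SkStp) {τ τ' : ℕ → ℕ → ℕ} (k : ℕ)
    (h : ∀ y z, y < 2 + 2 * k → z < 2 + 2 * k → τ' y z = τ y z) (σ : ℕ → SkCfg n) : b19JJ k0 a P τ' k σ = b19JJ k0 a P τ k σ := by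
  unfold b19JJ
  refine Finset.prod_congr rfl fun m hm => ?_
  have hm' := Finset.mem_range.mp hm
  unfold b19J
  rw [h (2 + 2 * m) (3 + 2 * m) (by omega) (by omega)]

/-- **the derivative of `b19T`** -/
theorem b19x_der (hn : 0 < n) (k0 : Fin n) {a : ℝ} (ha : 0 < a) {P : SkStp} (hP : SkAdm a P) (k : ℕ) {τ : ℕ → ℕ → ℕ}
    (hτ : IsTr P.length (2 + 2 * k) τ) {A A' : Finset ℕ} (hA : ∀ x ∈ A, x < 2 + 2 * k) (hA' : A' = A ∪ {2 + 2 * k, 3 + 2 * k})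
    {t : ℝ} (ht : t ∈ Icc (0 : ℝ) 1) :
    HasDerivWithinAt (fun t => b19T k0 a P k A t τ)
      (b19D (skMs a P) P.length (2 + 2 * k) τ fun τ' => b19T k0 a P (k + 1) A' t τ') (Icc 0 1) t := by
  have h0 := (b19_C_mono hn ha hP 0 (s := 0) (t := 0) ⟨le_rfl, zero_le_one⟩ ⟨le_rfl, zero_le_one⟩).2
  have h1 := (b19_C_mono hn ha hP 0 (s := 0) (t := 1) ⟨le_rfl, zero_le_one⟩ ⟨zero_le_one, le_rfl⟩).2
  have hu : TrUses (2 + 2 * k) fun σ => b19Sp k0 A σ * b19JJ k0 a P τ k σ := by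
    intro σ σ' h
    simp only
    rw [b19x_Sp_uses k0 hA σ σ' h, b19x_JJ_uses k0 a P τ k σ σ' h]
  have h := b19_deriv hn k0 ha hP h0 h1 hτ _ hu ht
  simp only [← b19_Ct_seg] at h
  have e : (b19D (skMs a P) P.length (2 + 2 * k) τ fun τ' => b19T k0 a P (k + 1) A' t τ')
      = b19D (skMs a P) P.length (2 + 2 * k) τ fun τ' => b19Nu k0 a P (b19Ct n a P t) (2 + 2 * k + 2) τ' fun σ =>
        b19Sp k0 A σ * b19JJ k0 a P τ k σ * b19V k0 (fun j r => b19Ct n a P 1 j r - b19Ct n a P 0 j r) P.length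
          (τ' (2 + 2 * k) (2 + 2 * k + 1)) (σ (2 + 2 * k)) (σ (2 + 2 * k + 1)) := by
    refine b19_D_congr hτ fun τ' _ hag hoff => ?_
    unfold b19T
    have e2 : 2 + 2 * (k + 1) = 2 + 2 * k + 2 := by ring
    rw [e2]
    congr 1
    funext σ
    rw [b19_V_t k0 a P hoff, hA']
    have e3 : 3 + 2 * k = 2 + 2 * k + 1 := by ring
    have hd : Disjoint A {2 + 2 * k, 3 + 2 * k} := by
      rw [Finset.disjoint_left]
      intro x hx hx'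
      have := hA x hx
      simp only [Finset.mem_insert, Finset.mem_singleton] at hx'
      omega
    unfold b19Sp
    rw [Finset.prod_union hd, Finset.prod_pair (by omega)]
    unfold b19JJ
    rw [Finset.prod_range_succ]
    have := b19x_JJ_congr k0 a P k hag σ
    unfold b19JJ at this
    rw [this]
    unfold b19J b19Dl
    rw [e3]
    ring
  rw [e]
  exact h


theorem b19x_T_empty (k0 : Fin n) (a : ℝ) (P : SkStp) (k : ℕ) (t : ℝ) (τ : ℕ → ℕ → ℕ) :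
    b19T k0 a P k ∅ t τ = b19Nu k0 a P (b19Ct n a P t) (2 + 2 * k) τ (b19JJ k0 a P τ k) := by
  unfold b19T
  congr 1
  funext σ
  simp [b19Sp]

/-- factorisation at `t = 0` -/
theorem b19x_fact (hn : 0 < n) (k0 : Fin n) {a : ℝ} (ha : 0 < a) {P : SkStp} (hP : SkAdm a P) (k : ℕ) {τ : ℕ → ℕ → ℕ}
    (hτ : IsTr P.length (2 + 2 * k) τ) {A : Finset ℕ} (hA : ∀ x ∈ A, x < 2 + 2 * k) :
    b19T k0 a P k A 0 τ = b19Sc n a P (2 + 2 * k) τ A * b19T k0 a P k ∅ 0 τ := by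
  rw [b19x_T_empty]
  exact b19_fact0 hn k0 ha hP hτ A hA _ (b19x_JJ_uses k0 a P τ k) (b19x_JJ_rest k0 a P τ k)

/-- the endpoint `t = 1` -/
theorem b19x_end (hn : 0 < n) (k0 : Fin n) {a : ℝ} (ha : 0 < a) {P : SkStp} (hP : SkAdm a P) (k : ℕ) (τ : ℕ → ℕ → ℕ) :
    b19T k0 a P k ∅ 1 τ = b19Sk n a P (2 + 2 * k) τ (b19JJ k0 a P τ k) := by
  rw [b19x_T_empty]
  exact b19_end1 hn k0 ha hP _ τ _

/-- `ψ_τ(1) = - b_r S_r / n` -/
theorem b19x_psi1 (hn : 0 < n) (k0 : Fin n) {a : ℝ} (ha : 0 < a) {P : SkStp} (hP : SkAdm a P) {τ : ℕ → ℕ → ℕ}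
    (hτ : IsTr P.length 4 τ) (hr : τ 2 3 ≤ P.length) :
    b19T k0 a P 1 ∅ 1 τ = -(skCumB P (τ 2 3) * obS n a P 0 (τ 2 3) / n) := by
  rw [b19x_end hn k0 ha hP]
  have hB := b19_base_ok n ha
  have hls : GhAdm (skBase n a) 0 (skLvs n P) := sk_sy_adm hP
  have e1 : b19JJ k0 a P τ 1 = fun σ => (fun s s' : SkCfg n => skCumB P (τ 2 3) * (b19Qm k0 s s' - obS n a P 0 (τ 2 3))) (σ 2) (σ 3) := by
    funext σ
    simp [b19JJ, b19J, b19Dl]
  rw [e1]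
  have e2 := b19_marg (n := n) ha hP (q := 4) hτ (c := 2) (d := 3) (by norm_num) (by norm_num) (by norm_num)
    (fun s s' : SkCfg n => skCumB P (τ 2 3) * (b19Qm k0 s s' - obS n a P 0 (τ 2 3)))
  rw [show 2 + 2 * 1 = 4 from rfl, e2]
  unfold b19Sk
  rw [b19_tr_smul hB hls, b19_tr_sub hB hls, b19_tr_const hB hls]
  have e3 := (b19_site hn k0 ha hP hr).2
  unfold b19Sk at e3
  rw [e3]
  have : (n : ℝ) ≠ 0 := by positivity
  field_simp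
  ring

theorem b19x_Sc_abs (hn : 0 < n) {a : ℝ} (ha : 0 < a) {P : SkStp} (hP : SkAdm a P) (q : ℕ) (τ : ℕ → ℕ → ℕ) (A : Finset ℕ) :
    |b19Sc n a P q τ A| ≤ 1 := by
  unfold b19Sc
  refine b19_tr_le_const (b19_base_ok 1 ha) (sk_sy_adm (b19_KP_adm hn ha hP).1) q τ 0 fun σ => ?_
  rw [Finset.abs_prod]
  exact le_of_eq (Finset.prod_eq_one fun x _ => b19_sp_abs _ _)

theorem b19x_Sc_congr (a : ℝ) (P : SkStp) {q : ℕ} {τ τ' : ℕ → ℕ → ℕ} (h : ∀ x y, x < q → y < q → τ x y = τ' x y) (A : Finset ℕ) :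
    b19Sc n a P q τ A = b19Sc n a P q τ' A := by
  unfold b19Sc
  exact tr_nu_congr _ _ h 0 _

theorem b19x_Sc_prune (hn : 0 < n) {a : ℝ} (ha : 0 < a) {P : SkStp} (hP : SkAdm a P) {q : ℕ} {τ : ℕ → ℕ → ℕ}
    (hτ : IsTr P.length (q + 2) τ) {A : Finset ℕ} (hA : ∀ x ∈ A, x < q) : b19Sc n a P (q + 2) τ A = b19Sc n a P q τ A := by
  unfold b19Sc
  have hB := b19_base_ok 1 ha
  have hK := b19_KP_adm hn ha hP
  have hls : GhAdm (skBase 1 a) 0 (skLvs 1 (b19KP n a P)) := sk_sy_adm hK.1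
  have hlen : (skLvs 1 (b19KP n a P)).length = P.length := by simp [skLvs, hK.2.1]
  have hu : ∀ q', q ≤ q' → TrUses q' fun σ : ℕ → SkCfg 1 => ∏ x ∈ A, skSp (σ x) 0 := by
    intro q' hq' σ σ' h
    exact Finset.prod_congr rfl fun x hx => by rw [h x (lt_of_lt_of_le (hA x hx) hq')]
  rw [tr_nu_prune hB hls (q := q + 1) (by rw [hlen]; exact hτ) 0 (hu (q + 1) (by omega)),
    tr_nu_prune hB hls (q := q) (by rw [hlen]; exact tr_isTr_mono hτ (by omega)) 0 (hu q le_rfl)]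


theorem b19x_tr3 {N i : ℕ} {τ₁ τ₂ τ₃ : ℕ → ℕ → ℕ}
    (h1 : ∀ y z, y < 2 → z < 2 → τ₁ y z = b19St N i y z) (o1 : τ₁ 2 3 ≤ N)
    (h2 : ∀ y z, y < 4 → z < 4 → τ₂ y z = τ₁ y z) (o2 : τ₂ 4 5 ≤ N)
    (t3 : IsTr N 8 τ₃) (h3 : ∀ y z, y < 6 → z < 6 → τ₃ y z = τ₂ y z) (o3 : τ₃ 6 7 ≤ N) : B19Tr N i 3 τ₃ := by
  refine ⟨t3, ?_, fun m hm => ?_⟩
  · rw [h3 0 1 (by norm_num) (by norm_num), h2 0 1 (by norm_num) (by norm_num), h1 0 1 (by norm_num) (by norm_num)]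
    simp [b19St]
  · interval_cases m
    · show τ₃ 2 3 ≤ N
      rw [h3 2 3 (by norm_num) (by norm_num), h2 2 3 (by norm_num) (by norm_num)]
      exact o1
    · show τ₃ 4 5 ≤ N
      rw [h3 4 5 (by norm_num) (by norm_num)]
      exact o2
    · exact o3

/-- one level of the majorisation -/
theorem b19x_lv {ms : ℕ → ℝ} {N q : ℕ} {τ : ℕ → ℕ → ℕ} (hτ : IsTr N q τ) (c : ℝ) (G B : (ℕ → ℕ → ℕ) → ℝ)
    (h : ∀ τ', IsTr N (q + 2) τ' → (∀ y z, y < q → z < q → τ' y z = τ y z) → τ' q (q + 1) ≤ N → |c| * |G τ'| ≤ B τ') :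
    |c| * |b19D ms N q τ G| ≤ b19A ms N q τ B := by
  calc |c| * |b19D ms N q τ G| ≤ |c| * b19A ms N q τ (fun τ' => |G τ'|) :=
        mul_le_mul_of_nonneg_left (b19_D_abs G) (abs_nonneg c)
    _ = b19A ms N q τ (fun τ' => |c| * |G τ'|) := (b19_A_smul _ _).symm
    _ ≤ b19A ms N q τ B := b19_A_mono hτ h

theorem b19x_lv1 {ms : ℕ → ℝ} {N q : ℕ} {τ : ℕ → ℕ → ℕ} (hτ : IsTr N q τ) (G B : (ℕ → ℕ → ℕ) → ℝ)
    (h : ∀ τ', IsTr N (q + 2) τ' → (∀ y z, y < q → z < q → τ' y z = τ y z) → τ' q (q + 1) ≤ N → |G τ'| ≤ B τ') :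
    |b19D ms N q τ G| ≤ b19A ms N q τ B :=
  (b19_D_abs G).trans (b19_A_mono hτ h)

/-- the endpoints of `φ` -/
theorem b19x_phi (hn : 0 < n) (k0 : Fin n) {a : ℝ} (ha : 0 < a) {P : SkStp} (hP : SkAdm a P) {i : ℕ} (hi : i ≤ P.length) :
    b19T k0 a P 0 {0, 1} 1 (b19St P.length i) = obS n a P 0 i ∧ b19T k0 a P 0 {0, 1} 0 (b19St P.length i) = b19Gam n a P i := by
  have hSt : IsTr P.length 2 (b19St P.length i) := b19_st_isTr (by omega) 2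
  constructor
  · unfold b19T
    rw [b19_end1 hn k0 ha hP, ← (b19_site hn k0 ha hP hi).1]
    show b19Sk n a P 2 _ _ = _
    congr 1
    funext σ
    simp [b19Sp, b19JJ]
  · rw [b19x_fact hn k0 ha hP 0 hSt (by intro x hx; simp at hx; omega), b19x_T_empty, b19_Gam_eq hn ha hP hi]
    have e : b19JJ k0 a P (b19St P.length i) 0 = fun _ => 1 := by
      funext σ
      simp [b19JJ]
    rw [e]
    unfold b19Nu
    rw [b19_tr_const (b19_base_ok n ha) (b19_adm k0 ha hP _).1, mul_one]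


theorem b19x_T3 (k0 : Fin n) (a : ℝ) (P : SkStp) (A : Finset ℕ) (t : ℝ) (τ : ℕ → ℕ → ℕ) :
    b19T3 k0 a P A t τ = b19T k0 a P 3 A t τ := rfl

theorem b19x_c6_congr (a : ℝ) (P : SkStp) {τ τ' : ℕ → ℕ → ℕ} (h : ∀ x y, x < 6 → y < 6 → τ x y = τ' x y) :
    b19c6 n a P τ = b19c6 n a P τ' := by
  unfold b19c6
  rw [b19x_Sc_congr a P h, b19x_Sc_congr a P h, b19x_Sc_congr a P h]

/-- the pointwise bound at a tree with one pair -/
theorem b19x_X {A0 M0 : ℝ} (k0 : Fin n) {a : ℝ} {P : SkStp} {i H : ℕ} {B : (ℕ → ℕ → ℕ) → ℝ} (h : B19Hyp n a P A0 M0 i H)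
    (hB : ∀ t ∈ Icc (0 : ℝ) 1, ∀ τ, B19Tr P.length i 3 τ →
      |b19T3 k0 a P (Finset.range 8) t τ| ≤ B τ ∧
      |b19Sc n a P 4 τ (Finset.range 4)| * |b19T3 k0 a P {4, 5, 6, 7} t τ| ≤ B τ ∧
      |b19c6 n a P τ| * |b19T3 k0 a P {6, 7} t τ| ≤ B τ)
    {τ₁ : ℕ → ℕ → ℕ} (t1 : IsTr P.length 4 τ₁) (g1 : ∀ y z, y < 2 → z < 2 → τ₁ y z = b19St P.length i y z) (o1 : τ₁ 2 3 ≤ P.length) :
    |b19T k0 a P 1 (Finset.range 4) 0 τ₁ + (1 / 2 * (b19D (skMs a P) P.length 4 τ₁ fun τ₂ => b19T k0 a P 2 (Finset.range 6) 0 τ₂)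
        + (-1) * (b19D (skMs a P) P.length 4 τ₁ fun τ₂ => b19c6 n a P τ₂ * b19Chi k0 a P τ₂))|
      ≤ 3 / 2 * (b19A (skMs a P) P.length 4 τ₁ fun τ₂ => b19A (skMs a P) P.length 6 τ₂ B) + |M0| / n := by
  have hn : 0 < n := by have := h.n2; omega
  have ha := h.a0
  have hP := h.adm
  obtain ⟨sc4, hsc4⟩ : ∃ x, x = b19Sc n a P 4 τ₁ (Finset.range 4) := ⟨_, rfl⟩
  obtain ⟨AA, hAA⟩ : ∃ x, x = b19A (skMs a P) P.length 4 τ₁ fun τ₂ => b19A (skMs a P) P.length 6 τ₂ B := ⟨_, rfl⟩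
  rw [← hAA]
  -- Taylor for `ψ`
  have T2 : |sc4 * b19T k0 a P 1 ∅ 1 τ₁ - sc4 * b19T k0 a P 1 ∅ 0 τ₁
      - sc4 * (b19D (skMs a P) P.length 4 τ₁ fun τ₂ => b19T k0 a P 2 {4, 5} 0 τ₂)| ≤ AA / 2 := by
    refine b19_taylor2 (f0 := fun t => sc4 * b19T k0 a P 1 ∅ t τ₁)
      (f1 := fun t => sc4 * (b19D (skMs a P) P.length 4 τ₁ fun τ₂ => b19T k0 a P 2 {4, 5} t τ₂))
      (f2 := fun t => sc4 * (b19D (skMs a P) P.length 4 τ₁ fun τ₂ => b19D (skMs a P) P.length 6 τ₂ fun τ₃ =>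
        b19T k0 a P 3 {4, 5, 6, 7} t τ₃))
      (fun t ht => (b19x_der hn k0 ha hP 1 t1 (A := ∅) (A' := {4, 5}) (by simp) (by decide) ht).const_mul sc4)
      (fun t ht => (b19_D_hasDeriv t1 (F := fun t τ₂ => b19T k0 a P 2 {4, 5} t τ₂)
          (F' := fun t τ₂ => b19D (skMs a P) P.length 6 τ₂ fun τ₃ => b19T k0 a P 3 {4, 5, 6, 7} t τ₃)
          fun τ₂ t2 _ _ => b19x_der hn k0 ha hP 2 t2 (A := {4, 5}) (A' := {4, 5, 6, 7})
            (by intro x hx; simp at hx; omega) (by decide) ht).const_mul sc4)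
      (fun t ht => ?_)
    rw [abs_mul, hAA]
    refine b19x_lv t1 sc4 _ _ fun τ₂ t2 g2 o2 => b19x_lv t2 sc4 _ _ fun τ₃ t3 g3 o3 => ?_
    have := (hB t ht τ₃ (b19x_tr3 g1 o1 g2 o2 t3 g3 o3)).2.1
    rw [b19x_Sc_congr a P (τ' := τ₁) (fun x y hx hy => by rw [g3 x y (by omega) (by omega), g2 x y hx hy]), ← hsc4,
      b19x_T3] at this
    exact this
  -- Taylor for `χ`
  have T1 : ∀ τ₂, IsTr P.length 6 τ₂ → (∀ y z, y < 4 → z < 4 → τ₂ y z = τ₁ y z) → τ₂ 4 5 ≤ P.length →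
      |b19c6 n a P τ₂ * b19T k0 a P 2 ∅ 1 τ₂ - b19c6 n a P τ₂ * b19T k0 a P 2 ∅ 0 τ₂| ≤ b19A (skMs a P) P.length 6 τ₂ B := by
    intro τ₂ t2 g2 o2
    refine b19_taylor1 (f0 := fun t => b19c6 n a P τ₂ * b19T k0 a P 2 ∅ t τ₂)
      (f1 := fun t => b19c6 n a P τ₂ * (b19D (skMs a P) P.length 6 τ₂ fun τ₃ => b19T k0 a P 3 {6, 7} t τ₃))
      (fun t ht => (b19x_der hn k0 ha hP 2 t2 (A := ∅) (A' := {6, 7}) (by simp) (by decide) ht).const_mul _) (fun t ht => ?_)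
    rw [abs_mul]
    refine b19x_lv t2 _ _ _ fun τ₃ t3 g3 o3 => ?_
    have := (hB t ht τ₃ (b19x_tr3 g1 o1 g2 o2 t3 g3 o3)).2.2
    rw [b19x_c6_congr a P g3, b19x_T3] at this
    exact this
  -- the algebraic identity
  have I1 : sc4 * (b19D (skMs a P) P.length 4 τ₁ fun τ₂ => b19T k0 a P 2 {4, 5} 0 τ₂)
      - 1 / 2 * (b19D (skMs a P) P.length 4 τ₁ fun τ₂ => b19T k0 a P 2 (Finset.range 6) 0 τ₂)
      + (b19D (skMs a P) P.length 4 τ₁ fun τ₂ => b19c6 n a P τ₂ * b19Chi k0 a P τ₂)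
      = b19D (skMs a P) P.length 4 τ₁ fun τ₂ => b19c6 n a P τ₂ * b19T k0 a P 2 ∅ 1 τ₂ - b19c6 n a P τ₂ * b19T k0 a P 2 ∅ 0 τ₂ := by
    have e : (b19D (skMs a P) P.length 4 τ₁ fun τ₂ => b19c6 n a P τ₂ * b19T k0 a P 2 ∅ 1 τ₂ - b19c6 n a P τ₂ * b19T k0 a P 2 ∅ 0 τ₂)
        = b19D (skMs a P) P.length 4 τ₁ fun τ₂ => sc4 * b19T k0 a P 2 {4, 5} 0 τ₂
          + ((-(1 / 2)) * b19T k0 a P 2 (Finset.range 6) 0 τ₂ + b19c6 n a P τ₂ * b19Chi k0 a P τ₂) := by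
      refine b19_D_congr t1 fun τ₂ t2 g2 o2 => ?_
      have f1 : b19T k0 a P 2 {4, 5} 0 τ₂ = b19Sc n a P 6 τ₂ {4, 5} * b19T k0 a P 2 ∅ 0 τ₂ :=
        b19x_fact hn k0 ha hP 2 t2 (by intro x hx; simp at hx; omega)
      have f2 : b19T k0 a P 2 (Finset.range 6) 0 τ₂ = b19Sc n a P 6 τ₂ (Finset.range 6) * b19T k0 a P 2 ∅ 0 τ₂ :=
        b19x_fact hn k0 ha hP 2 t2 (by intro x hx; simp at hx; omega)
      have f3 : b19T k0 a P 2 ∅ 1 τ₂ = b19Chi k0 a P τ₂ := b19x_end hn k0 ha hP 2 τ₂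
      have e4 : b19Sc n a P 6 τ₂ (Finset.range 4) = sc4 := by
        rw [hsc4, b19x_Sc_prune hn ha hP (q := 4) t2 (by intro x hx; simpa using hx)]
        exact b19x_Sc_congr a P g2 _
      rw [f1, f2, f3]
      unfold b19c6
      rw [e4]
      ring
    rw [e, b19_D_add, b19_D_add, b19_D_smul, b19_D_smul]
    ring
  have e1 : b19T k0 a P 1 (Finset.range 4) 0 τ₁ = sc4 * b19T k0 a P 1 ∅ 0 τ₁ := by
    rw [hsc4]
    exact b19x_fact hn k0 ha hP 1 t1 (by intro x hx; simp at hx; omega)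
  have D1 : |b19D (skMs a P) P.length 4 τ₁ fun τ₂ => b19c6 n a P τ₂ * b19T k0 a P 2 ∅ 1 τ₂ - b19c6 n a P τ₂ * b19T k0 a P 2 ∅ 0 τ₂|
      ≤ AA := by
    rw [hAA]
    exact b19x_lv1 t1 _ _ T1
  have P1 : |sc4 * b19T k0 a P 1 ∅ 1 τ₁| ≤ |M0| / n := by
    have hb0 : 0 ≤ skCumB P (τ₁ 2 3) := by
      have := (b19_cumB_mono hP (Nat.zero_le (τ₁ 2 3))).1
      rwa [(b19_cum_zero P).1] at this
    have hb1 : skCumB P (τ₁ 2 3) ≤ |M0| := (((b19_cumB_mono hP o1).1).trans h.bM).trans (le_abs_self _)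
    have hS := b19_S_mem hn ha hP o1
    have hs4 : |sc4| ≤ 1 := by rw [hsc4]; exact b19x_Sc_abs hn ha hP _ _ _
    have hnR : (0 : ℝ) < n := by exact_mod_cast hn
    rw [b19x_psi1 hn k0 ha hP t1 o1, abs_mul, abs_neg, abs_of_nonneg (div_nonneg (mul_nonneg hb0 hS.1) hnR.le)]
    calc |sc4| * (skCumB P (τ₁ 2 3) * obS n a P 0 (τ₁ 2 3) / n) ≤ 1 * (|M0| * 1 / n) := by
          refine mul_le_mul hs4 ?_ (div_nonneg (mul_nonneg hb0 hS.1) hnR.le) zero_le_one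
          exact div_le_div_of_nonneg_right (mul_le_mul hb1 hS.2 hS.1 (abs_nonneg _)) hnR.le
      _ = |M0| / n := by ring
  have hX : b19T k0 a P 1 (Finset.range 4) 0 τ₁ + (1 / 2 * (b19D (skMs a P) P.length 4 τ₁ fun τ₂ => b19T k0 a P 2 (Finset.range 6) 0 τ₂)
        + (-1) * (b19D (skMs a P) P.length 4 τ₁ fun τ₂ => b19c6 n a P τ₂ * b19Chi k0 a P τ₂))
      = -(sc4 * b19T k0 a P 1 ∅ 1 τ₁ - sc4 * b19T k0 a P 1 ∅ 0 τ₁
          - sc4 * (b19D (skMs a P) P.length 4 τ₁ fun τ₂ => b19T k0 a P 2 {4, 5} 0 τ₂))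
        + sc4 * b19T k0 a P 1 ∅ 1 τ₁
        - (b19D (skMs a P) P.length 4 τ₁ fun τ₂ => b19c6 n a P τ₂ * b19T k0 a P 2 ∅ 1 τ₂ - b19c6 n a P τ₂ * b19T k0 a P 2 ∅ 0 τ₂) := by
    rw [← I1, e1]
    ring
  rw [hX]
  obtain ⟨a1, a2⟩ := abs_le.mp T2
  obtain ⟨a3, a4⟩ := abs_le.mp D1
  obtain ⟨a5, a6⟩ := abs_le.mp P1
  rw [abs_le]
  constructor <;> linarith


end expand

/-- **EXPANSION** (blueprint sec.2).   `φ(t) = ν_t[s_0 s_1]` on the observed tree, `ψ_τ(t) = ν_t[J_23]`, `χ_τ(t) = ν_t[J_23 J_45]` (`ν_t` = row law `b19Ct n a P t`).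
`φ(1) = S_i` (`b19_end1`, `sk_sy_site`), `φ(0) = Γ_i` (`b19_fact0`);   `φ(1) = φ(0) + φ'(0) + φ''(0)/2 + r3`, `ψ(0) = ψ(1) - ψ'(0) - r2`, `χ(0) = χ(1) - r1` (`b19_deriv`, `b19_taylor`);
at `t = 0` site and rest factor;   `ψ_τ(1) = - b_r S_r / n`.   `B` = ANY majorant of the three remainders, uniform in `t`. -/
theorem b19_expand (A0 M0 : ℝ) : ∃ C : ℝ, 0 ≤ C ∧ ∀ (n : ℕ) (k0 : Fin n) (a : ℝ) (P : SkStp) (i H : ℕ) (B : (ℕ → ℕ → ℕ) → ℝ),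
    B19Hyp n a P A0 M0 i H →
    (∀ t ∈ Icc (0 : ℝ) 1, ∀ τ, B19Tr P.length i 3 τ →
      |b19T3 k0 a P (Finset.range 8) t τ| ≤ B τ ∧
      |b19Sc n a P 4 τ (Finset.range 4)| * |b19T3 k0 a P {4, 5, 6, 7} t τ| ≤ B τ ∧
      |b19c6 n a P τ| * |b19T3 k0 a P {6, 7} t τ| ≤ B τ) →
    |obS n a P 0 i - b19Gam n a P i - b19D2 a P i (fun τ => b19c6 n a P τ * b19Chi k0 a P τ)| ≤ C / n + 2 * b19A3 a P i B := by
  refine ⟨12 * A0 ^ 2 * |M0|, by positivity, fun n k0 a P i H B h hB => ?_⟩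
  have hn : 0 < n := by have := h.n2; omega
  have ha := h.a0
  have hP := h.adm
  have hi : i ≤ P.length := by have := h.iH; have := h.HN; omega
  have hnR : (0 : ℝ) < n := by exact_mod_cast hn
  have hSt : IsTr P.length 2 (b19St P.length i) := b19_st_isTr (by omega) 2
  obtain ⟨p1, p0⟩ := b19x_phi hn k0 ha hP hi
  -- Taylor for `φ`
  have T3 : |b19T k0 a P 0 {0, 1} 1 (b19St P.length i) - b19T k0 a P 0 {0, 1} 0 (b19St P.length i)
      - (b19D (skMs a P) P.length 2 (b19St P.length i) fun τ₁ => b19T k0 a P 1 (Finset.range 4) 0 τ₁)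
      - (b19D (skMs a P) P.length 2 (b19St P.length i) fun τ₁ => b19D (skMs a P) P.length 4 τ₁ fun τ₂ =>
          b19T k0 a P 2 (Finset.range 6) 0 τ₂) / 2| ≤ b19A3 a P i B / 6 := by
    refine b19_taylor3 (f0 := fun t => b19T k0 a P 0 {0, 1} t (b19St P.length i))
      (f1 := fun t => b19D (skMs a P) P.length 2 (b19St P.length i) fun τ₁ => b19T k0 a P 1 (Finset.range 4) t τ₁)
      (f2 := fun t => b19D (skMs a P) P.length 2 (b19St P.length i) fun τ₁ => b19D (skMs a P) P.length 4 τ₁ fun τ₂ =>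
          b19T k0 a P 2 (Finset.range 6) t τ₂)
      (f3 := fun t => b19D (skMs a P) P.length 2 (b19St P.length i) fun τ₁ => b19D (skMs a P) P.length 4 τ₁ fun τ₂ =>
          b19D (skMs a P) P.length 6 τ₂ fun τ₃ => b19T k0 a P 3 (Finset.range 8) t τ₃)
      (fun t ht => b19x_der hn k0 ha hP 0 hSt (A := {0, 1}) (A' := Finset.range 4) (by intro x hx; simp at hx; omega) (by decide) ht)
      (fun t ht => b19_D_hasDeriv hSt (F := fun t τ₁ => b19T k0 a P 1 (Finset.range 4) t τ₁)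
          (F' := fun t τ₁ => b19D (skMs a P) P.length 4 τ₁ fun τ₂ => b19T k0 a P 2 (Finset.range 6) t τ₂)
          fun τ₁ t1 _ _ => b19x_der hn k0 ha hP 1 t1 (A := Finset.range 4) (A' := Finset.range 6)
            (by intro x hx; simp at hx; omega) (by decide) ht)
      (fun t ht => b19_D_hasDeriv hSt
          (F := fun t τ₁ => b19D (skMs a P) P.length 4 τ₁ fun τ₂ => b19T k0 a P 2 (Finset.range 6) t τ₂)
          (F' := fun t τ₁ => b19D (skMs a P) P.length 4 τ₁ fun τ₂ => b19D (skMs a P) P.length 6 τ₂ fun τ₃ =>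
            b19T k0 a P 3 (Finset.range 8) t τ₃)
          fun τ₁ t1 _ _ => b19_D_hasDeriv t1 (F := fun t τ₂ => b19T k0 a P 2 (Finset.range 6) t τ₂)
            (F' := fun t τ₂ => b19D (skMs a P) P.length 6 τ₂ fun τ₃ => b19T k0 a P 3 (Finset.range 8) t τ₃)
            fun τ₂ t2 _ _ => b19x_der hn k0 ha hP 2 t2 (A := Finset.range 6) (A' := Finset.range 8)
              (by intro x hx; simp at hx; omega) (by decide) ht)
      (fun t ht => ?_)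
    unfold b19A3
    refine b19x_lv1 hSt _ _ fun τ₁ t1 g1 o1 => b19x_lv1 t1 _ _ fun τ₂ t2 g2 o2 => b19x_lv1 t2 _ _ fun τ₃ t3 g3 o3 => ?_
    exact (hB t ht τ₃ (b19x_tr3 g1 o1 g2 o2 t3 g3 o3)).1
  rw [p1, p0] at T3
  -- the terms at `t = 0`
  have L : (b19D (skMs a P) P.length 2 (b19St P.length i) fun τ₁ => b19T k0 a P 1 (Finset.range 4) 0 τ₁)
      + (b19D (skMs a P) P.length 2 (b19St P.length i) fun τ₁ => b19D (skMs a P) P.length 4 τ₁ fun τ₂ =>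
          b19T k0 a P 2 (Finset.range 6) 0 τ₂) / 2 - b19D2 a P i (fun τ => b19c6 n a P τ * b19Chi k0 a P τ)
      = b19D (skMs a P) P.length 2 (b19St P.length i) fun τ₁ =>
        b19T k0 a P 1 (Finset.range 4) 0 τ₁ + (1 / 2 * (b19D (skMs a P) P.length 4 τ₁ fun τ₂ => b19T k0 a P 2 (Finset.range 6) 0 τ₂)
        + (-1) * (b19D (skMs a P) P.length 4 τ₁ fun τ₂ => b19c6 n a P τ₂ * b19Chi k0 a P τ₂)) := by
    rw [b19_D_add, b19_D_add, b19_D_smul, b19_D_smul]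
    unfold b19D2
    ring
  have hms := b19_isMs ha hP
  have R : |b19D (skMs a P) P.length 2 (b19St P.length i) fun τ₁ =>
        b19T k0 a P 1 (Finset.range 4) 0 τ₁ + (1 / 2 * (b19D (skMs a P) P.length 4 τ₁ fun τ₂ => b19T k0 a P 2 (Finset.range 6) 0 τ₂)
        + (-1) * (b19D (skMs a P) P.length 4 τ₁ fun τ₂ => b19c6 n a P τ₂ * b19Chi k0 a P τ₂))|
      ≤ 3 / 2 * b19A3 a P i B + 12 * a ^ 2 * (|M0| / n) := by
    refine (b19x_lv1 hSt _ _ fun τ₁ t1 g1 o1 => b19x_X k0 h hB t1 g1 o1).trans ?_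
    rw [b19_A_add, b19_A_smul]
    have := b19_A_const hSt hms.1 (c := |M0| / n) (by positivity)
    rw [hms.2] at this
    unfold b19A3
    push_cast at this
    linarith
  have hA3 : 0 ≤ b19A3 a P i B := by
    have h0 : b19A3 a P i (fun _ => 0) = 0 := by
      have := b19_A3_smul (a := a) (P := P) (i := i) 0 (fun _ => 0)
      simpa using this
    rw [← h0]
    refine b19_A3_mono hi fun τ hτ => ?_
    exact (abs_nonneg _).trans (hB 0 ⟨le_rfl, zero_le_one⟩ τ hτ).1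
  have ha2 : 12 * a ^ 2 * (|M0| / n) ≤ 12 * A0 ^ 2 * |M0| / n := by
    have : a ^ 2 ≤ A0 ^ 2 := pow_le_pow_left₀ ha.le h.aA 2
    have h2 : 0 ≤ |M0| / n := by positivity
    calc 12 * a ^ 2 * (|M0| / n) ≤ 12 * A0 ^ 2 * (|M0| / n) := by nlinarith
      _ = 12 * A0 ^ 2 * |M0| / n := by ring
  obtain ⟨a1, a2⟩ := abs_le.mp T3
  rw [← L] at R
  obtain ⟨a3, a4⟩ := abs_le.mp R
  rw [abs_le]
  constructor <;> linarith

/-- **class pp** (blueprint sec.4) -/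
theorem b19_pp (A0 M0 : ℝ) : ∃ C : ℝ, 0 ≤ C ∧ ∀ (n : ℕ) (k0 : Fin n) (a : ℝ) (P : SkStp) (i H : ℕ), B19Hyp n a P A0 M0 i H →
    |b19D2 a P i (fun τ => if τ 2 3 = i ∧ τ 4 5 = i then b19c6 n a P τ * b19Chi k0 a P τ else 0)|
      ≤ C * (skGap a P i + |b19Cp n a P i| * b19Dm k0 a P i ^ 2 + (b19K n a P H + skMs a P i) * b19Het k0 a P i) :=
  b19p_pp A0 M0

/-- **classes pH, Hp** (blueprint sec.5); only the boundedness of the scalar coefficient `c` is used -/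
theorem b19_pH (A0 M0 : ℝ) : ∃ C : ℝ, 0 ≤ C ∧ ∀ (n : ℕ) (k0 : Fin n) (a : ℝ) (P : SkStp) (i H R : ℕ) (e κ : ℕ → ℕ) (Prim : ℕ → ℝ),
    B19Hyp n a P A0 M0 i H → B19Dy i H P.length R e κ → B19Prim n a P R e Prim →
    ∀ c : (ℕ → ℕ → ℕ) → ℝ, (∀ τ, |c τ| ≤ 2) →
      |b19D2 a P i (fun τ => if τ 2 3 = i ∧ H ≤ τ 4 5 then c τ * b19Chi k0 a P τ else 0)|
          ≤ C * (1 / n + skGap a P i + ∑ j ∈ Finset.range R,
            (b19Zm k0 a P i (κ j) * b19IG a P (b19Dm k0 a P) (e j) (e (j + 1)) 1 + b19Dm k0 a P i * Prim j)) ∧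
      |b19D2 a P i (fun τ => if H ≤ τ 2 3 ∧ τ 4 5 = i then c τ * b19Chi k0 a P τ else 0)|
          ≤ C * (1 / n + skGap a P i + ∑ j ∈ Finset.range R,
            (b19Zm k0 a P i (κ j) * b19IG a P (b19Dm k0 a P) (e j) (e (j + 1)) 1 + b19Dm k0 a P i * Prim j)) :=
  b19h_pH A0 M0

/-- arithmetic of the assembly -/
theorem b19_master_arith {C1 C2 C3 C4 C5 C6 C7 X L D Dpp DpH DHp Do A3 A2 ε g c1 c2 s : ℝ}
    (h1 : 0 ≤ C1) (h2 : 0 ≤ C2) (h4 : 0 ≤ C4) (h6 : 0 ≤ C6) (h7 : 0 ≤ C7)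
    (hE : |L - D| ≤ C1 * ε + 2 * (C2 * A3)) (hD : D = Dpp + DpH + DHp + Do)
    (hA3 : A3 ≤ C3 * X) (hDo : |Do| ≤ C4 * A2) (hA2 : A2 ≤ C5 * X)
    (hpp : |Dpp| ≤ C6 * (g + c1 + c2)) (hpH : |DpH| ≤ C7 * (ε + g + s)) (hHp : |DHp| ≤ C7 * (ε + g + s))
    (eX : ε ≤ X) (gX : g ≤ X) (c1X : c1 ≤ X) (c2X : c2 ≤ X) (sX : s ≤ X) :
    |L| ≤ (C1 + 2 * C2 * C3 + C4 * C5 + 3 * C6 + 6 * C7) * X := by
  have e1 : C1 * ε ≤ C1 * X := mul_le_mul_of_nonneg_left eX h1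
  have e2 : C2 * A3 ≤ C2 * (C3 * X) := mul_le_mul_of_nonneg_left hA3 h2
  have e3 : C4 * A2 ≤ C4 * (C5 * X) := mul_le_mul_of_nonneg_left hA2 h4
  have e4 : C6 * (g + c1 + c2) ≤ C6 * (3 * X) := mul_le_mul_of_nonneg_left (by linarith) h6
  have e5 : C7 * (ε + g + s) ≤ C7 * (3 * X) := mul_le_mul_of_nonneg_left (by linarith) h7
  have t : |L| ≤ |L - D| + (|Dpp| + |DpH| + |DHp| + |Do|) := by
    have : L = (L - D) + (Dpp + DpH + DHp + Do) := by rw [← hD]; ring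
    calc |L| = |(L - D) + (Dpp + DpH + DHp + Do)| := by rw [← this]
      _ ≤ |L - D| + |Dpp + DpH + DHp + Do| := abs_add_le _ _
      _ ≤ |L - D| + (|Dpp| + |DpH| + |DHp| + |Do|) := by
          have a1 := abs_add_le (Dpp + DpH + DHp) Do
          have a2 := abs_add_le (Dpp + DpH) DHp
          have a3 := abs_add_le Dpp DpH
          linarith
  nlinarith [t]

/-- **MASTER, deleted overlaps** -/
theorem b19_master_m (p A0 M0 : ℝ) (hp : 2 ≤ p) : ∃ C : ℝ, 0 ≤ C ∧ ∀ (n : ℕ) (k0 : Fin n) (a : ℝ) (P : SkStp) (i H R : ℕ) (e κ : ℕ → ℕ)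
    (Prim : ℕ → ℝ) (NQ : ℝ), B19Hyp n a P A0 M0 i H → B19Dy i H P.length R e κ → B19Prim n a P R e Prim →
    (∀ r, r < H → b19NQ k0 a P p r ≤ NQ) →
    |obS n a P 0 i - b19Gam n a P i| ≤ C * b19RhsM k0 a P p i H R e κ Prim NQ := by
  obtain ⟨C1, h1, E⟩ := b19_expand A0 M0
  obtain ⟨C2, h2, T3⟩ := b19_tree3 p A0 M0 hp
  obtain ⟨C3, h3, S3⟩ := b19_sum3 p A0 M0 hp
  obtain ⟨C4, h4, T2⟩ := b19_tree2 A0 M0
  obtain ⟨C5, h5, S2⟩ := b19_sum2 p A0 M0 hp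
  obtain ⟨C6, h6, PP⟩ := b19_pp A0 M0
  obtain ⟨C7, h7, PH⟩ := b19_pH A0 M0
  refine ⟨C1 + 2 * C2 * C3 + C4 * C5 + 3 * C6 + 6 * C7, by positivity, fun n k0 a P i H R e κ Prim NQ h hD hPr hNQ => ?_⟩
  have hn : 0 < n := by have := h.n2; omega
  have ha := h.a0
  have hP := h.adm
  have hi : i ≤ P.length := by have := h.iH; have := h.HN; omega
  have hPr0 : ∀ j, j < R → 0 ≤ Prim j := fun j hj => (hPr j hj).1
  have hNQ0 : 0 ≤ NQ := ((b19_num_nonneg hn k0 ha hP p i 0).2.2.1).trans (hNQ i h.iH)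
  obtain ⟨-, p1, p2, p3, p4, -, p6, -, -, -, -, -, -, -⟩ := b19_rhsM_parts k0 p R e κ h hPr0 hNQ0
  have hE := E n k0 a P i H (fun τ => C2 * b19Maj3 k0 a P p i H NQ (τ 2 3) (τ 4 5) (τ 6 7)) h
    (fun t ht τ hτ => T3 n k0 a P i H NQ h hNQ t ht τ hτ)
  rw [b19_A3_smul] at hE
  obtain ⟨hpH, hHp⟩ := PH n k0 a P i H R e κ Prim h hD hPr (b19c6 n a P)
    (fun τ => (b19_c6_abs hn ha hP τ).trans (by norm_num))
  -- the remaining class
  have hsplit : b19D2 a P i (fun τ => b19c6 n a P τ * b19Chi k0 a P τ)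
      = b19D2 a P i (fun τ => if τ 2 3 = i ∧ τ 4 5 = i then b19c6 n a P τ * b19Chi k0 a P τ else 0)
        + b19D2 a P i (fun τ => if τ 2 3 = i ∧ H ≤ τ 4 5 then b19c6 n a P τ * b19Chi k0 a P τ else 0)
        + b19D2 a P i (fun τ => if H ≤ τ 2 3 ∧ τ 4 5 = i then b19c6 n a P τ * b19Chi k0 a P τ else 0)
        + b19D2 a P i (fun τ => if (τ 2 3 = i ∧ τ 4 5 = i) ∨ (τ 2 3 = i ∧ H ≤ τ 4 5) ∨ (H ≤ τ 2 3 ∧ τ 4 5 = i) then 0
            else b19c6 n a P τ * b19Chi k0 a P τ) := by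
    rw [← b19_D2_add, ← b19_D2_add, ← b19_D2_add]
    congr 1
    funext τ
    have hiH := h.iH
    split_ifs <;> first | (exfalso; omega) | ring
  have hDo : |b19D2 a P i (fun τ => if (τ 2 3 = i ∧ τ 4 5 = i) ∨ (τ 2 3 = i ∧ H ≤ τ 4 5) ∨ (H ≤ τ 2 3 ∧ τ 4 5 = i) then 0
            else b19c6 n a P τ * b19Chi k0 a P τ)| ≤ C4 * b19A2 a P i (fun τ => b19Maj2 k0 a P i H (τ 2 3) (τ 4 5)) := by
    refine (b19_D2_abs _).trans ?_
    rw [← b19_A2_smul]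
    refine b19_A2_mono hi fun τ hτ => ?_
    split_ifs with hc
    · rw [abs_zero]
      have hL := b19_dL_nonneg k0 ha hP i H
      have hH := b19_dH_nonneg k0 ha hP H 1
      have hp' := b19_dp_nonneg i
      have hK := b19c_K_nonneg (n := n) ha hP H
      have hDi := b19c_Dm_nonneg ha hP k0 i
      refine mul_nonneg h4 ?_
      unfold b19Maj2
      have := hL (τ 2 3); have := hL (τ 4 5); have := hH (τ 2 3); have := hH (τ 4 5); have := hp' (τ 2 3); have := hp' (τ 4 5)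
      positivity
    · exact T2 n k0 a P i H h τ hτ (fun c => hc (Or.inl c)) (fun c => hc (Or.inr (Or.inl c))) (fun c => hc (Or.inr (Or.inr c)))
  have hE' : |obS n a P 0 i - b19Gam n a P i - b19D2 a P i (fun τ => b19c6 n a P τ * b19Chi k0 a P τ)|
      ≤ C1 * (1 / (n : ℝ)) + 2 * (C2 * b19A3 a P i fun τ => b19Maj3 k0 a P p i H NQ (τ 2 3) (τ 4 5) (τ 6 7)) := by
    rw [mul_one_div]; exact hE
  exact b19_master_arith h1 h2 h4 h6 h7 hE' hsplit (S3 n k0 a P i H R e κ Prim NQ h hD hPr0 hNQ0) hDo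
    (S2 n k0 a P i H R e κ Prim NQ h hD hPr0 hNQ0) (PP n k0 a P i H h) hpH hHp p1 p2 p3 p4 p6

/-! ### auxiliary lemmas of `b19_conv` (helper249; prefix `b19v_`) -/

section conv
variable {n : ℕ}

/-- Minkowski with a constant shift under the SK law -/
theorem b19v_shift {a : ℝ} (ha : 0 < a) {P : SkStp} (hP : SkAdm a P) (q : ℕ) (τ : ℕ → ℕ → ℕ) {p : ℝ} (hp : 1 ≤ p)
    (F G : (ℕ → SkCfg n) → ℝ) {c : ℝ} (hc : 0 ≤ c) (h : ∀ σ, |F σ| ≤ |G σ| + c) :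
    (b19Sk n a P q τ fun σ => |F σ| ^ p) ^ (1 / p) ≤ (b19Sk n a P q τ fun σ => |G σ| ^ p) ^ (1 / p) + c := by
  classical
  have hB := pin_base_ok n ha
  have hls := pin_adm n P hP
  have hp0 : 0 < p := by linarith
  unfold b19Sk
  rw [tr_nu_eq_sum hB hls q τ 0 fun σ => |F σ| ^ p, tr_nu_eq_sum hB hls q τ 0 fun σ => |G σ| ^ p]
  set w : (Fin q → SkCfg n) → ℝ := fun σ₀ => trPr (skBase n a) (skLvs n P) q τ 0 σ₀ with hw
  have hw0 : ∀ σ₀, 0 ≤ w σ₀ := fun σ₀ => tr_pr_nonneg hB hls q τ 0 σ₀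
  have hw1 : ∑ σ₀, w σ₀ = 1 := tr_pr_sum hB hls q τ 0
  have key := Real.Lp_add_le (Finset.univ : Finset (Fin q → SkCfg n))
    (fun σ₀ => w σ₀ ^ (1 / p) * |G (trExt σ₀)|) (fun σ₀ => w σ₀ ^ (1 / p) * c) hp
  have e0 : ∀ (σ₀ : Fin q → SkCfg n) (x : ℝ), 0 ≤ x → abs (w σ₀ ^ (1 / p) * x) ^ p = w σ₀ * x ^ p := by
    intro σ₀ x hx
    rw [abs_of_nonneg (mul_nonneg (Real.rpow_nonneg (hw0 σ₀) _) hx),
      Real.mul_rpow (Real.rpow_nonneg (hw0 σ₀) _) hx, ← Real.rpow_mul (hw0 σ₀),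
      one_div, inv_mul_cancel₀ hp0.ne', Real.rpow_one]
  have e1 : ∀ σ₀, abs (w σ₀ ^ (1 / p) * |G (trExt σ₀)| + w σ₀ ^ (1 / p) * c) ^ p = w σ₀ * (|G (trExt σ₀)| + c) ^ p := by
    intro σ₀
    rw [← mul_add]
    exact e0 σ₀ _ (add_nonneg (abs_nonneg _) hc)
  have e2 : ∀ σ₀, abs (w σ₀ ^ (1 / p) * |G (trExt σ₀)|) ^ p = w σ₀ * |G (trExt σ₀)| ^ p := fun σ₀ => e0 σ₀ _ (abs_nonneg _)
  have e3 : ∀ σ₀, abs (w σ₀ ^ (1 / p) * c) ^ p = w σ₀ * c ^ p := fun σ₀ => e0 σ₀ _ hc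
  simp only [e1, e2, e3] at key
  rw [← Finset.sum_mul, hw1, one_mul, ← Real.rpow_mul hc, mul_one_div_cancel hp0.ne', Real.rpow_one] at key
  refine le_trans ?_ key
  refine Real.rpow_le_rpow (Finset.sum_nonneg fun σ₀ _ => mul_nonneg (hw0 σ₀) (Real.rpow_nonneg (abs_nonneg _) _)) ?_ (by positivity)
  exact Finset.sum_le_sum fun σ₀ _ => mul_le_mul_of_nonneg_left (Real.rpow_le_rpow (abs_nonneg _) (h _) hp0.le) (hw0 σ₀)

/-- the same for `√(ν[F²])` -/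
theorem b19v_shift2 {a : ℝ} (ha : 0 < a) {P : SkStp} (hP : SkAdm a P) (q : ℕ) (τ : ℕ → ℕ → ℕ)
    (F G : (ℕ → SkCfg n) → ℝ) {c : ℝ} (hc : 0 ≤ c) (h : ∀ σ, |F σ| ≤ |G σ| + c) :
    Real.sqrt (b19Sk n a P q τ fun σ => F σ ^ 2) ≤ Real.sqrt (b19Sk n a P q τ fun σ => G σ ^ 2) + c := by
  have := b19v_shift ha hP q τ (p := 2) (by norm_num) F G hc h
  have e : ∀ F : (ℕ → SkCfg n) → ℝ, (fun σ => |F σ| ^ (2 : ℝ)) = fun σ => F σ ^ 2 := fun F => by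
    funext σ
    rw [Real.rpow_two, sq_abs]
  rw [e F, e G, ← Real.sqrt_eq_rpow, ← Real.sqrt_eq_rpow] at this
  exact this

theorem b19v_Qm_le (hn : 0 < n) (k0 : Fin n) (σ τ : SkCfg n) (c : ℝ) : |b19Qm k0 σ τ - c| ≤ |skOv σ τ - c| + 1 / n := by
  have h := b19_Qm_sub hn k0 σ τ
  have : b19Qm k0 σ τ - c = (skOv σ τ - c) + (b19Qm k0 σ τ - skOv σ τ) := by ring
  rw [this]
  exact (abs_add_le _ _).trans (by linarith)

theorem b19v_NQ (hn : 0 < n) (k0 : Fin n) {a : ℝ} (ha : 0 < a) {P : SkStp} (hP : SkAdm a P) {p : ℝ} (hp : 1 ≤ p) (r : ℕ) :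
    b19NQ k0 a P p r ≤ b19Nf n a P p r 0 + 1 / n := by
  unfold b19NQ b19Nf
  refine b19v_shift ha hP 2 _ hp _ _ (by positivity) fun σ => ?_
  have := b19v_Qm_le hn k0 (σ 0) (σ 1) 0
  simpa using this

theorem b19v_Nm (hn : 0 < n) (k0 : Fin n) {a : ℝ} (ha : 0 < a) {P : SkStp} (hP : SkAdm a P) {p : ℝ} (hp : 1 ≤ p) (r : ℕ) :
    b19Nm k0 a P p r ≤ b19Nf n a P p r (obS n a P 0 r) + 1 / n := by
  unfold b19Nm b19Nf
  exact b19v_shift ha hP 2 _ hp _ _ (by positivity) fun σ => b19v_Qm_le hn k0 (σ 0) (σ 1) _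

/-- `‖Q - S_r‖_2 = D_r` -/
theorem b19v_Nf_two (hn : 0 < n) {a : ℝ} (ha : 0 < a) {P : SkStp} (hP : SkAdm a P) {r : ℕ} (hr : r ≤ P.length) :
    b19Nf n a P 2 r (obS n a P 0 r) = bmD n a P r := by
  unfold b19Nf bmD obD2
  obtain ⟨h1, h2⟩ := b19_S_eq hn ha hP hr
  rw [← Real.sqrt_eq_rpow]
  congr 1
  have e : (fun σ : ℕ → SkCfg n => |skOv (σ 0) (σ 1) - obS n a P 0 r| ^ (2 : ℝ))
      = fun σ => skOv (σ 0) (σ 1) ^ 2 + ((-2 * obS n a P 0 r) * skOv (σ 0) (σ 1) + obS n a P 0 r ^ 2) := by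
    funext σ
    rw [Real.rpow_two, sq_abs]
    ring
  rw [e, b19c_Sk_add ha hP, b19c_Sk_add ha hP, b19c_Sk_smul ha hP, b19c_Sk_const ha hP, h1, h2]
  ring

theorem b19v_Dm (hn : 0 < n) (k0 : Fin n) {a : ℝ} (ha : 0 < a) {P : SkStp} (hP : SkAdm a P) {r : ℕ} (hr : r ≤ P.length) :
    b19Dm k0 a P r ≤ bmD n a P r + 1 / n := by
  rw [← b19v_Nf_two hn ha hP hr]
  exact b19v_Nm hn k0 ha hP (by norm_num) r

theorem b19v_QQ (hn : 0 < n) (k0 : Fin n) (σ : ℕ → SkCfg n) :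
    |(b19Qm k0 (σ 0) (σ 1) - b19Qm k0 (σ 2) (σ 3)) - (skOv (σ 0) (σ 1) - skOv (σ 2) (σ 3))| ≤ 2 / n := by
  have h1 := b19_Qm_sub hn k0 (σ 0) (σ 1)
  have h2 := b19_Qm_sub hn k0 (σ 2) (σ 3)
  have : (b19Qm k0 (σ 0) (σ 1) - b19Qm k0 (σ 2) (σ 3)) - (skOv (σ 0) (σ 1) - skOv (σ 2) (σ 3))
      = (b19Qm k0 (σ 0) (σ 1) - skOv (σ 0) (σ 1)) - (b19Qm k0 (σ 2) (σ 3) - skOv (σ 2) (σ 3)) := by ring
  rw [this]
  refine (abs_sub _ _).trans ?_
  have : (2 : ℝ) / n = 1 / n + 1 / n := by ring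
  linarith

theorem b19v_Zm (hn : 0 < n) (k0 : Fin n) {a : ℝ} (ha : 0 < a) {P : SkStp} (hP : SkAdm a P) (i κ : ℕ) :
    b19Zm k0 a P i κ ≤ b19Zf n a P i κ + 2 / n := by
  unfold b19Zm b19Zf
  refine b19v_shift2 ha hP 4 _ _ _ (by positivity) fun σ => ?_
  have h := b19v_QQ hn k0 σ
  have : b19Qm k0 (σ 0) (σ 1) - b19Qm k0 (σ 2) (σ 3) = (skOv (σ 0) (σ 1) - skOv (σ 2) (σ 3))
      + ((b19Qm k0 (σ 0) (σ 1) - b19Qm k0 (σ 2) (σ 3)) - (skOv (σ 0) (σ 1) - skOv (σ 2) (σ 3))) := by ring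
  rw [this]
  exact (abs_add_le _ _).trans (by linarith)

/-- `2 Al = ‖Q_01 - Q_23‖_2²` on the star -/
theorem b19v_Al_eq (hn : 0 < n) {a : ℝ} (ha : 0 < a) {P : SkStp} (hP : SkAdm a P) {i : ℕ} (hi : i ≤ P.length) :
    2 * b19Al n a P i = b19Sk n a P 4 (b19St P.length i) fun σ => (skOv (σ 0) (σ 1) - skOv (σ 2) (σ 3)) ^ 2 := by
  unfold b19Al
  obtain ⟨-, h2⟩ := b19_S_eq hn ha hP hi
  have e : (fun σ : ℕ → SkCfg n => (skOv (σ 0) (σ 1) - skOv (σ 2) (σ 3)) ^ 2)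
      = fun σ => skOv (σ 0) (σ 1) ^ 2 + (skOv (σ 2) (σ 3) ^ 2 + (-2) * (skOv (σ 0) (σ 1) * skOv (σ 2) (σ 3))) := by
    funext σ; ring
  rw [e, b19c_Sk_add ha hP, b19c_Sk_add ha hP, b19c_Sk_smul ha hP,
    b19c_star_pair ha hP hi (q := 4) (x := 0) (y := 1) (by norm_num) (by norm_num) (by norm_num) (fun s t => skOv s t ^ 2),
    b19c_star_pair ha hP hi (q := 4) (x := 2) (y := 3) (by norm_num) (by norm_num) (by norm_num) (fun s t => skOv s t ^ 2), h2]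
  ring

theorem b19v_Het (hn : 0 < n) (k0 : Fin n) {a : ℝ} (ha : 0 < a) {P : SkStp} (hP : SkAdm a P) {i : ℕ} (hi : i ≤ P.length) :
    b19Het k0 a P i ≤ 2 * b19Al n a P i + 4 / (n : ℝ) ^ 2 := by
  have h1 := b19c_Het_eq ha hP k0 hi
  have h2 := b19v_Al_eq hn ha hP hi
  have h3 : b19Sk n a P 4 (b19St P.length i) (fun σ => (b19Qm k0 (σ 0) (σ 1) - b19Qm k0 (σ 2) (σ 3)) ^ 2)
      ≤ b19Sk n a P 4 (b19St P.length i) fun σ => 2 * (skOv (σ 0) (σ 1) - skOv (σ 2) (σ 3)) ^ 2 + 8 / (n : ℝ) ^ 2 := by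
    refine b19c_Sk_mono ha hP _ _ fun σ => ?_
    have h := b19v_QQ hn k0 σ
    set x := b19Qm k0 (σ 0) (σ 1) - b19Qm k0 (σ 2) (σ 3)
    set y := skOv (σ 0) (σ 1) - skOv (σ 2) (σ 3)
    have hs : (x - y) ^ 2 ≤ (2 / (n : ℝ)) ^ 2 := sq_le_sq' (by linarith [(abs_le.mp h).1]) (abs_le.mp h).2
    have e : (2 / (n : ℝ)) ^ 2 = 4 / (n : ℝ) ^ 2 := by rw [div_pow]; norm_num
    have e8 : 8 / (n : ℝ) ^ 2 = 2 * (4 / (n : ℝ) ^ 2) := by ring
    rw [e] at hs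
    rw [e8]
    nlinarith [sq_nonneg (x - 2 * y)]
  rw [b19c_Sk_add ha hP, b19c_Sk_smul ha hP, b19c_Sk_const ha hP, ← h1, ← h2] at h3
  have e8 : 8 / (n : ℝ) ^ 2 = 2 * (4 / (n : ℝ) ^ 2) := by ring
  rw [e8] at h3
  linarith

theorem b19v_IG_mono {a : ℝ} (ha : 0 < a) {P : SkStp} (hP : SkAdm a P) {D D' : ℕ → ℝ} (hD : ∀ j, 0 ≤ D j)
    (hDD : ∀ j, j ≤ P.length → D j ≤ D' j) (lo : ℕ) {hi : ℕ} (hhi : hi ≤ P.length + 1) {s : ℝ} (hs : 0 ≤ s) :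
    b19IG a P D lo hi s ≤ b19IG a P D' lo hi s :=
  Finset.sum_le_sum fun j hj => mul_le_mul_of_nonneg_left
    (Real.rpow_le_rpow (hD j) (hDD j (by have := (Finset.mem_Ico.1 hj).2; omega)) hs) (pin_gap_nonneg ha P hP j)

theorem b19v_e_le {i H N R : ℕ} {e κ : ℕ → ℕ} (hD : B19Dy i H N R e κ) : ∀ d j, j + d = R → e j ≤ N + 1
  | 0, j, h => by
    have : j = R := by omega
    rw [this, hD.eR]
  | d + 1, j, h => ((hD.mono j (by omega)).le).trans (b19v_e_le hD d (j + 1) (by omega))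

theorem b19v_arith {ε g cp KH ms Al Al' Di Di' L1 L1' L2 L2' H1 H1' H2 H2' T1 T1' T2 T2' N4 N4' Np Np' NQ S S' : ℝ}
    (hKH : 0 ≤ KH) (hms : 0 ≤ ms) (hAl : Al ≤ Al') (hDi : 0 ≤ Di) (hDi' : Di ≤ Di') (hL1 : 0 ≤ L1) (hL1' : L1 ≤ L1') (hL2' : L2 ≤ L2')
    (hH1 : 0 ≤ H1) (hH1' : H1 ≤ H1') (hH2' : H2 ≤ H2') (hT1 : 0 ≤ T1) (hT1' : T1 ≤ T1') (hT2 : 0 ≤ T2) (hT2' : T2 ≤ T2')
    (hN4 : 0 ≤ N4) (hN4' : N4 ≤ N4') (hNp : 0 ≤ Np) (hNp' : Np ≤ Np') (hNQ : 0 ≤ NQ) (hS : S ≤ S') :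
    ε + g + |cp| * Di ^ 2 + (KH + ms) * Al + Di * L1 + S + L2 + L1 ^ 2 + L1 * H1 + KH * (H1 ^ 2 + H2) + Di * N4 ^ 2
        + N4 ^ 2 * (L1 + H1) + (Np + NQ + KH) * (T1 ^ 2 + T2)
      ≤ ε + g + |cp| * Di' ^ 2 + (KH + ms) * Al' + Di' * L1' + S' + L2' + L1' ^ 2 + L1' * H1' + KH * (H1' ^ 2 + H2') + Di' * N4' ^ 2
        + N4' ^ 2 * (L1' + H1') + (Np' + NQ + KH) * (T1' ^ 2 + T2') := by
  have hDi0 : 0 ≤ Di' := hDi.trans hDi'
  have hL10 : 0 ≤ L1' := hL1.trans hL1'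
  have hN40 : 0 ≤ N4' := hN4.trans hN4'
  have hNp0 : 0 ≤ Np' := hNp.trans hNp'
  gcongr

/-- `b19RhsG` is monotone in its nonnegative numbers -/
theorem b19v_rhsG_mono {a : ℝ} (ha : 0 < a) {P : SkStp} (hP : SkAdm a P) {i H R : ℕ} {e κ : ℕ → ℕ} (hDy : B19Dy i H P.length R e κ)
    (hiH : i < H) (hHN : H ≤ P.length) (ε cp : ℝ) {KH Al Al' N4 N4' Np Np' NQ θ : ℝ} {D D' Z Z' Prim : ℕ → ℝ}
    (hKH : 0 ≤ KH) (hAl : Al ≤ Al') (hN4 : 0 ≤ N4) (hN4' : N4 ≤ N4') (hNp : 0 ≤ Np) (hNp' : Np ≤ Np') (hNQ : 0 ≤ NQ) (hθ : 0 ≤ θ)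
    (hD : ∀ j, 0 ≤ D j) (hDD : ∀ j, j ≤ P.length → D j ≤ D' j) (hZ : ∀ k, 0 ≤ Z k) (hZZ : ∀ k, Z k ≤ Z' k)
    (hPr : ∀ j, j < R → 0 ≤ Prim j) :
    b19RhsG a P i H R e κ ε cp KH Al N4 Np NQ θ D Z Prim ≤ b19RhsG a P i H R e κ ε cp KH Al' N4' Np' NQ θ D' Z' Prim := by
  have hi : i ≤ P.length := by omega
  have hIG : ∀ lo hi s, 0 ≤ b19IG a P D lo hi s := fun lo hi s => b19c_IG_nonneg ha hP hD lo hi s
  have hm : ∀ lo hi s, hi ≤ P.length + 1 → 0 ≤ s → b19IG a P D lo hi s ≤ b19IG a P D' lo hi s :=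
    fun lo hi s h1 h2 => b19v_IG_mono ha hP hD hDD lo h1 h2
  unfold b19RhsG
  refine b19v_arith hKH (pin_ms_bd ha P hP i).1 hAl (hD i) (hDD i hi) (hIG _ _ _) (hm _ _ _ (by omega) (by norm_num))
    (hm _ _ _ (by omega) (by norm_num)) (hIG _ _ _) (hm _ _ _ le_rfl (by norm_num)) (hm _ _ _ le_rfl (by norm_num))
    (hIG _ _ _) (hm _ _ _ le_rfl hθ) (hIG _ _ _) (hm _ _ _ le_rfl (by positivity)) hN4 hN4' hNp hNp' hNQ ?_
  refine Finset.sum_le_sum fun j hj => ?_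
  have hj' := Finset.mem_range.1 hj
  have he : e (j + 1) ≤ P.length + 1 := b19v_e_le hDy (R - (j + 1)) (j + 1) (by omega)
  exact add_le_add (mul_le_mul (hZZ _) (hm _ _ _ he (by norm_num)) (hIG _ _ _) ((hZ _).trans (hZZ _)))
    (mul_le_mul_of_nonneg_right (hDD i hi) (hPr j hj'))

end conv

/-- **deleted -> full overlaps**: `|Qm - Q| ≤ 1/n` pointwise, so `b19Dm ≤ bmD + 1/n`, `b19Nm ≤ b19Nf + 1/n`, `b19NQ ≤ b19Nf .. 0 + 1/n`, `b19Zm ≤ b19Zf + 2/n`, `b19Het ≤ 2 b19Al + 4/n²`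
(`2 Het = ‖Qm_01 - Qm_23‖_2²` on the star, `2 Al = ‖Q_01 - Q_23‖_2²`); then `b19RhsG` is monotone in its nonnegative arguments -/
theorem b19_conv (n : ℕ) (k0 : Fin n) (a : ℝ) (P : SkStp) (p A0 M0 : ℝ) (hp : 2 ≤ p) (i H R : ℕ) (e κ : ℕ → ℕ) (Prim : ℕ → ℝ) (NQ : ℝ)
    (h : B19Hyp n a P A0 M0 i H) (hD : B19Dy i H P.length R e κ) (hPr : ∀ j, j < R → 0 ≤ Prim j)
    (hNQ : ∀ r, r < H → b19Nf n a P p r 0 ≤ NQ) :
    (∀ r, r < H → b19NQ k0 a P p r ≤ NQ + 1 / n) ∧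
      b19RhsM k0 a P p i H R e κ Prim (NQ + 1 / n) ≤ b19Rhs n a P p i H R e κ Prim NQ := by
  have hn : 0 < n := by have := h.n2; omega
  have ha := h.a0
  have hP := h.adm
  have hi : i ≤ P.length := by have := h.iH; have := h.HN; omega
  have h1 : ∀ r, r < H → b19NQ k0 a P p r ≤ NQ + 1 / n := fun r hr =>
    (b19v_NQ hn k0 ha hP (by linarith) r).trans (by linarith [hNQ r hr])
  refine ⟨h1, ?_⟩
  have hNQ0 : 0 ≤ NQ + 1 / n := ((b19_num_nonneg hn k0 ha hP p i 0).2.2.1).trans (h1 i h.iH)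
  have hθ : 0 ≤ 1 - 1 / p := by
    have : 1 / p ≤ 1 := by rw [div_le_one (by linarith)]; linarith
    linarith
  unfold b19RhsM b19Rhs
  exact b19v_rhsG_mono ha hP hD h.iH h.HN _ _ (b19c_K_nonneg ha hP H) (b19v_Het hn k0 ha hP hi)
    (b19c_Nm_nonneg ha hP k0 4 i) (b19v_Nm hn k0 ha hP (by norm_num) i) (b19c_Nm_nonneg ha hP k0 p i)
    (b19v_Nm hn k0 ha hP (by linarith) i) hNQ0 hθ (b19c_Dm_nonneg ha hP k0) (fun j hj => b19v_Dm hn k0 ha hP hj)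
    (fun k => b19c_Zm_nonneg k0 a P i k) (fun k => b19v_Zm hn k0 ha hP i k) hPr

/-- **MASTER** (blueprint sec.6): the buffered one-row closure for an arbitrary admissible step path -/
theorem b19_master (p A0 M0 : ℝ) (hp : 2 ≤ p) : ∃ C : ℝ, 0 ≤ C ∧ ∀ (n : ℕ) (a : ℝ) (P : SkStp) (i H R : ℕ) (e κ : ℕ → ℕ)
    (Prim : ℕ → ℝ) (NQ : ℝ), B19Hyp n a P A0 M0 i H → B19Dy i H P.length R e κ → B19Prim n a P R e Prim →
    (∀ r, r < H → b19Nf n a P p r 0 ≤ NQ) →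
    |obS n a P 0 i - b19Gam n a P i| ≤ C * b19Rhs n a P p i H R e κ Prim NQ := by
  obtain ⟨C, hC, hm⟩ := b19_master_m p A0 M0 hp
  refine ⟨C, hC, fun n a P i H R e κ Prim NQ h hD hPr hNQ => ?_⟩
  have hn : 0 < n := by have := h.n2; omega
  obtain ⟨h1, h2⟩ := b19_conv n ⟨0, hn⟩ a P p A0 M0 hp i H R e κ Prim NQ h hD (fun j hj => (hPr j hj).1) hNQ
  exact (hm n ⟨0, hn⟩ a P i H R e κ Prim (NQ + 1 / n) h hD hPr h1).trans (mul_le_mul_of_nonneg_left h2 hC)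

/-! ## MASTER with CLEAN numbers (no `O(1/n)` inside the numbers): the form consumed by the PATH floor `Bud/C19Path.lean` -/

/-- the right-hand side with the numbers of the FULL overlaps, nothing added -/
def b19RhsC (n : ℕ) (a : ℝ) (P : SkStp) (p : ℝ) (i H R : ℕ) (e κ : ℕ → ℕ) (Prim : ℕ → ℝ) (NQ : ℝ) : ℝ :=
  b19RhsG a P i H R e κ (1 / n) (b19Cp n a P i) (b19K n a P H) (b19Al n a P i)
    (b19Nf n a P 4 i (obS n a P 0 i)) (b19Nf n a P p i (obS n a P 0 i)) NQ (1 - 1 / p)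
    (bmD n a P) (b19Zf n a P i) Prim

theorem b19_ctr_eqns_cite : True := by
  have := @b19RhsC.eq_1
  trivial

/-- a priori bound of the pinned coefficient: `|sc| ≤ 1`, total variation of two pairs `≤ C(A0)` (`b19_D_abs`, `b19_A_const` of `C19Comb`) -/
theorem b19_Cp_abs (A0 : ℝ) : ∃ C : ℝ, 0 ≤ C ∧ ∀ (n : ℕ) (a : ℝ) (P : SkStp) (i : ℕ), 0 < n → 0 < a → a ≤ A0 → SkAdm a P → i ≤ P.length →
    |b19Cp n a P i| ≤ C := by
  obtain ⟨C, hC, h⟩ := b19c_A2_bd A0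
  refine ⟨C * ((1 + |A0|) * (1 + |A0|) + (1 + |A0|)), by positivity, fun n a P i hn ha haA hP hi => ?_⟩
  have hA : 1 + a ≤ 1 + |A0| := by linarith [le_abs_self A0]
  have e : b19Cp n a P i = b19D2 a P i fun τ₂ => if τ₂ 2 3 = i ∧ τ₂ 4 5 = i then b19Sc n a P 6 τ₂ (Finset.range 6) / 2 else 0 := rfl
  rw [e]
  refine (b19_D2_abs _).trans ?_
  refine le_trans (b19_A2_mono hi (G := fun τ => (fun _ => (1 : ℝ)) (τ 2 3) * (fun _ => (1 : ℝ)) (τ 4 5)) fun τ _ => ?_) ?_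
  · have h1 := b19_Sc_abs hn ha hP 6 τ (Finset.range 6)
    beta_reduce
    split_ifs
    · rw [abs_div, abs_two]; linarith
    · rw [abs_zero]; norm_num
  · exact h a P i ha haA hP hi (fun _ => 1) (fun _ => 1) (fun _ => zero_le_one) (fun _ => zero_le_one) _ _ _
      ((b19c_Mu_le_one ha hP i fun _ => le_rfl).trans hA) ((b19c_Mu_le_one ha hP i fun _ => le_rfl).trans hA)
      ((b19c_Mu_le_one ha hP i fun _ => by norm_num).trans hA)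

/-- a priori bound of the primitives: each tree number is `≤ (3/2)²` in absolute value, `S_v S_w / 4 ≤ 1/4` -/
theorem b19_pr2_le {n : ℕ} (hn : 0 < n) {a : ℝ} (ha : 0 < a) {P : SkStp} (hP : SkAdm a P) (k : ℕ → ℝ) (hk : ∀ v, |k v| ≤ 1) (lo hi : ℕ)
    (hs : ∀ v, v ∉ Finset.Ico lo hi → k v = 0) : b19Pr2 n a P k ≤ (3 * ∑ v ∈ Finset.Ico lo hi, skGap a P v) ^ 2 := by
  have hg := pin_gap_nonneg ha P hP
  set G := ∑ v ∈ Finset.Ico lo hi, skGap a P v with hG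
  have hG0 : 0 ≤ G := Finset.sum_nonneg fun v _ => hg v
  set c : ℕ → ℝ := fun v => skGap a P v * |k v| with hc
  have hc0 : ∀ v, 0 ≤ c v := fun v => mul_nonneg (hg v) (abs_nonneg _)
  have hcs : ∑ v ∈ Finset.range (P.length + 1), c v ≤ G := by
    calc ∑ v ∈ Finset.range (P.length + 1), c v
        ≤ ∑ v ∈ Finset.range (P.length + 1), (if v ∈ Finset.Ico lo hi then skGap a P v else 0) := by
          refine Finset.sum_le_sum fun v _ => ?_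
          split_ifs with hv
          · have := mul_le_mul_of_nonneg_left (hk v) (hg v)
            simpa [hc] using this
          · simp [hc, hs v hv]
      _ = ∑ v ∈ (Finset.range (P.length + 1)).filter (fun v => v ∈ Finset.Ico lo hi), skGap a P v := by
          rw [Finset.sum_filter]
      _ ≤ G := Finset.sum_le_sum_of_subset_of_nonneg (fun v hv => (Finset.mem_filter.1 hv).2) fun v _ _ => hg v
  have hcs0 : 0 ≤ ∑ v ∈ Finset.range (P.length + 1), c v := Finset.sum_nonneg fun v _ => hc0 v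
  have hterm : ∀ v ∈ Finset.range (P.length + 1), ∀ w ∈ Finset.range (P.length + 1),
      skGap a P v * skGap a P w * (k v * k w) *
        (b19Sk n a P 5 (b19T5 P.length v w)
          (fun σ => (skOv (σ 0) (σ 1) - skOv (σ 1) (σ 2) / 2) * (skOv (σ 0) (σ 3) - skOv (σ 3) (σ 4) / 2))
        - obS n a P 0 v * obS n a P 0 w / 4) ≤ c v * c w * (5 / 2) := by
    intro v hv w hw
    have hv' : v ≤ P.length := by have := Finset.mem_range.1 hv; omega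
    have hw' : w ≤ P.length := by have := Finset.mem_range.1 hw; omega
    have h1 : |b19Sk n a P 5 (b19T5 P.length v w)
          (fun σ => (skOv (σ 0) (σ 1) - skOv (σ 1) (σ 2) / 2) * (skOv (σ 0) (σ 3) - skOv (σ 3) (σ 4) / 2))| ≤ 9 / 4 := by
      refine b19_tr_le_const (b19_base_ok n ha) (sk_sy_adm hP) 5 _ 0 fun σ => ?_
      have a1 := abs_le.1 (brg_s_ov_abs (σ 0) (σ 1))
      have a2 := abs_le.1 (brg_s_ov_abs (σ 1) (σ 2))
      have a3 := abs_le.1 (brg_s_ov_abs (σ 0) (σ 3))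
      have a4 := abs_le.1 (brg_s_ov_abs (σ 3) (σ 4))
      rw [abs_mul]
      have b1 : |skOv (σ 0) (σ 1) - skOv (σ 1) (σ 2) / 2| ≤ 3 / 2 := by
        rw [abs_le]; constructor <;> linarith [a1.1, a1.2, a2.1, a2.2]
      have b2 : |skOv (σ 0) (σ 3) - skOv (σ 3) (σ 4) / 2| ≤ 3 / 2 := by
        rw [abs_le]; constructor <;> linarith [a3.1, a3.2, a4.1, a4.2]
      calc _ ≤ (3 / 2 : ℝ) * (3 / 2) := mul_le_mul b1 b2 (abs_nonneg _) (by norm_num)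
        _ = 9 / 4 := by norm_num
    have s1 := b19_S_mem hn ha hP hv'
    have s2 := b19_S_mem hn ha hP hw'
    have s3 : obS n a P 0 v * obS n a P 0 w ≤ 1 := by nlinarith [s1.1, s1.2, s2.1, s2.2]
    have s4 : 0 ≤ obS n a P 0 v * obS n a P 0 w := mul_nonneg s1.1 s2.1
    have h2 : |b19Sk n a P 5 (b19T5 P.length v w)
          (fun σ => (skOv (σ 0) (σ 1) - skOv (σ 1) (σ 2) / 2) * (skOv (σ 0) (σ 3) - skOv (σ 3) (σ 4) / 2))
        - obS n a P 0 v * obS n a P 0 w / 4| ≤ 5 / 2 := by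
      rw [abs_le] at h1 ⊢
      constructor <;> linarith [h1.1, h1.2]
    refine (le_abs_self _).trans ?_
    rw [abs_mul, abs_mul, abs_mul, abs_mul, abs_of_nonneg (hg v), abs_of_nonneg (hg w)]
    have e : skGap a P v * skGap a P w * (|k v| * |k w|) = c v * c w := by simp only [hc]; ring
    rw [e]
    exact mul_le_mul_of_nonneg_left h2 (mul_nonneg (hc0 v) (hc0 w))
  unfold b19Pr2
  calc _ ≤ ∑ v ∈ Finset.range (P.length + 1), ∑ w ∈ Finset.range (P.length + 1), c v * c w * (5 / 2) :=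
        Finset.sum_le_sum fun v hv => Finset.sum_le_sum fun w hw => hterm v hv w hw
    _ = (∑ v ∈ Finset.range (P.length + 1), c v) * (∑ v ∈ Finset.range (P.length + 1), c v) * (5 / 2) := by
        rw [Finset.sum_mul_sum, Finset.sum_mul]
        refine Finset.sum_congr rfl fun v _ => ?_
        rw [Finset.sum_mul]
    _ ≤ (3 * G) ^ 2 := by nlinarith

/-- `‖Q‖_p ≤ 1` -/
theorem b19_Nf_le_one {n : ℕ} (_hn : 0 < n) {a : ℝ} (ha : 0 < a) {P : SkStp} (hP : SkAdm a P) {p : ℝ} (hp : 1 ≤ p) {r : ℕ} (_hr : r ≤ P.length) :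
    0 ≤ b19Nf n a P p r 0 ∧ b19Nf n a P p r 0 ≤ 1 := by
  unfold b19Nf
  have h0 : 0 ≤ b19Sk n a P 2 (b19St P.length r) fun σ => |skOv (σ 0) (σ 1) - 0| ^ p :=
    b19c_Sk_nonneg ha hP _ _ fun _ => Real.rpow_nonneg (abs_nonneg _) _
  refine ⟨Real.rpow_nonneg h0 _, Real.rpow_le_one h0 ?_ (by positivity)⟩
  have hle : ∀ σ : ℕ → SkCfg n, |skOv (σ 0) (σ 1) - 0| ^ p ≤ 1 := fun σ => by
    rw [sub_zero]
    exact Real.rpow_le_one (abs_nonneg _) (brg_s_ov_abs _ _) (by linarith)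
  have := b19c_Sk_mono ha hP 2 (b19St P.length r) (f := fun σ => |skOv (σ 0) (σ 1) - 0| ^ p) (g := fun _ => (1 : ℝ)) hle
  rwa [b19c_Sk_const ha hP] at this

/-- the constant of `b19_clean` -/
def b19kC (A M Cc : ℝ) : ℝ :=
  2 + (2 * Cc + 4 * (M + A) + 3 * A + 9 * A + 2 * A + 2 * A ^ 2 + 3 * A ^ 2 + M * (2 * A ^ 2 + 2 * A) + 12 + 24 * A
    + (3 + M) * (2 * (A ^ 2 + A)) + 8 * (A ^ 2 + A))

theorem b19k_arith {A M Cc ε gi c K mi Al Al' Di L1 L2 H1 H2 Ht H2t N4 Np NQ NQm S5 L1' L2' H1' H2' Ht' H2t' S5' : ℝ}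
    (hA : 0 ≤ A) (hε0 : 0 ≤ ε) (hε1 : ε ≤ 1) (hgi : 0 ≤ gi) (hc0 : 0 ≤ c) (hc1 : c ≤ Cc) (hK0 : 0 ≤ K) (hK1 : K ≤ M)
    (hm0 : 0 ≤ mi) (hm1 : mi ≤ A) (hAl : 0 ≤ Al) (hAl' : Al' ≤ 2 * Al + 4 * ε) (hD0 : 0 ≤ Di) (hD1 : Di ≤ 1)
    (hL1 : 0 ≤ L1) (hL1A : L1 ≤ A) (hL2 : 0 ≤ L2) (hH1 : 0 ≤ H1) (hH1A : H1 ≤ A) (hH2 : 0 ≤ H2) (hHt : 0 ≤ Ht) (hHtA : Ht ≤ A)
    (hH2t : 0 ≤ H2t) (hH2tA : H2t ≤ A) (hN40 : 0 ≤ N4) (hN41 : N4 ≤ 2) (hNp0 : 0 ≤ Np) (hNp1 : Np ≤ 2)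
    (hQ0 : 0 ≤ NQm) (hQ1 : NQm ≤ 1) (hQ : NQm ≤ NQ) (hS5 : 0 ≤ S5)
    (hL1'0 : 0 ≤ L1') (hL1' : L1' ≤ L1 + ε * A) (hL2' : L2' ≤ 2 * L2 + 2 * ε * A)
    (hH1'0 : 0 ≤ H1') (hH1' : H1' ≤ H1 + ε * A) (hH2' : H2' ≤ 2 * H2 + 2 * ε * A)
    (hHt' : Ht' ^ 2 ≤ 2 * Ht ^ 2 + 2 * ε * A ^ 2) (hH2t'0 : 0 ≤ H2t') (hH2t' : H2t' ≤ 2 * H2t + 2 * ε * A) (hS5' : S5' ≤ S5 + 9 * ε * A) :
    ε + gi + c * (Di + ε) ^ 2 + (K + mi) * Al' + (Di + ε) * L1' + S5' + L2' + L1' ^ 2 + L1' * H1' + K * (H1' ^ 2 + H2')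
        + (Di + ε) * (N4 + ε) ^ 2 + (N4 + ε) ^ 2 * (L1' + H1') + (Np + ε + (NQm + ε) + K) * (Ht' ^ 2 + H2t')
      ≤ b19kC A M Cc * (ε + gi + c * Di ^ 2 + (K + mi) * Al + Di * L1 + S5 + L2 + L1 ^ 2 + L1 * H1 + K * (H1 ^ 2 + H2)
        + Di * N4 ^ 2 + N4 ^ 2 * (L1 + H1) + (Np + NQ + K) * (Ht ^ 2 + H2t)) := by
  have hM : 0 ≤ M := hK0.trans hK1
  have hCc : 0 ≤ Cc := hc0.trans hc1
  have hee : ε ^ 2 ≤ ε := by
    have := mul_le_mul_of_nonneg_left hε1 hε0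
    linarith
  have hεA : 0 ≤ ε * A := mul_nonneg hε0 hA
  have sq2 : ∀ x y : ℝ, (x + y) ^ 2 ≤ 2 * x ^ 2 + 2 * y ^ 2 := fun x y => by linarith [sq_nonneg (x - y)]
  -- P2
  have q2 : (Di + ε) ^ 2 ≤ 2 * Di ^ 2 + 2 * ε := by linarith [sq2 Di ε]
  have P2 : c * (Di + ε) ^ 2 ≤ 2 * (c * Di ^ 2) + 2 * Cc * ε := by
    have h1 := mul_le_mul_of_nonneg_left q2 hc0
    have h2 := mul_le_mul_of_nonneg_right hc1 hε0
    linarith
  -- P3
  have P3 : (K + mi) * Al' ≤ 2 * ((K + mi) * Al) + 4 * (M + A) * ε := by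
    have h1 := mul_le_mul_of_nonneg_left hAl' (add_nonneg hK0 hm0)
    have h2 : (K + mi) * ε ≤ (M + A) * ε := mul_le_mul_of_nonneg_right (by linarith) hε0
    linarith
  -- P4
  have hDe0 : 0 ≤ Di + ε := add_nonneg hD0 hε0
  have P4 : (Di + ε) * L1' ≤ Di * L1 + 3 * A * ε := by
    have h1 := mul_le_mul_of_nonneg_left hL1' hDe0
    have h2 : Di * (ε * A) ≤ 1 * (ε * A) := mul_le_mul_of_nonneg_right hD1 hεA
    have h3 : ε * L1 ≤ ε * A := mul_le_mul_of_nonneg_left hL1A hε0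
    have h4 : ε * (ε * A) ≤ 1 * (ε * A) := mul_le_mul_of_nonneg_right hε1 hεA
    linarith
  -- P7
  have hA2 : 0 ≤ A ^ 2 := sq_nonneg A
  have heA2 : (ε * A) ^ 2 ≤ ε * A ^ 2 := by
    have := mul_le_mul_of_nonneg_right hee hA2
    linarith
  have P7 : L1' ^ 2 ≤ 2 * L1 ^ 2 + 2 * A ^ 2 * ε := by
    have h1 : L1' ^ 2 ≤ (L1 + ε * A) ^ 2 := pow_le_pow_left₀ hL1'0 hL1' 2
    linarith [sq2 L1 (ε * A)]
  have P7H : H1' ^ 2 ≤ 2 * H1 ^ 2 + 2 * A ^ 2 * ε := by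
    have h1 : H1' ^ 2 ≤ (H1 + ε * A) ^ 2 := pow_le_pow_left₀ hH1'0 hH1' 2
    linarith [sq2 H1 (ε * A)]
  -- P8
  have P8 : L1' * H1' ≤ L1 * H1 + 3 * A ^ 2 * ε := by
    have h1 : L1' * H1' ≤ (L1 + ε * A) * (H1 + ε * A) := mul_le_mul hL1' hH1' hH1'0 (by linarith)
    have h2 : L1 * (ε * A) ≤ A * (ε * A) := mul_le_mul_of_nonneg_right hL1A hεA
    have h3 : (ε * A) * H1 ≤ (ε * A) * A := mul_le_mul_of_nonneg_left hH1A hεA
    linarith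
  -- P9
  have P9 : K * (H1' ^ 2 + H2') ≤ 2 * (K * (H1 ^ 2 + H2)) + M * (2 * A ^ 2 + 2 * A) * ε := by
    have h1 : K * (H1' ^ 2 + H2') ≤ K * (2 * H1 ^ 2 + 2 * A ^ 2 * ε + (2 * H2 + 2 * ε * A)) :=
      mul_le_mul_of_nonneg_left (by linarith) hK0
    have h2 : K * ((2 * A ^ 2 + 2 * A) * ε) ≤ M * ((2 * A ^ 2 + 2 * A) * ε) :=
      mul_le_mul_of_nonneg_right hK1 (by positivity)
    linarith
  -- P10
  have q4 : (N4 + ε) ^ 2 ≤ 2 * N4 ^ 2 + 2 * ε := by linarith [sq2 N4 ε]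
  have hN42 : N4 ^ 2 ≤ 4 := by
    have := pow_le_pow_left₀ hN40 hN41 2
    linarith
  have P10 : (Di + ε) * (N4 + ε) ^ 2 ≤ 2 * (Di * N4 ^ 2) + 12 * ε := by
    have h1 := mul_le_mul_of_nonneg_left q4 hDe0
    have h2 : Di * ε ≤ 1 * ε := mul_le_mul_of_nonneg_right hD1 hε0
    have h3 : ε * N4 ^ 2 ≤ ε * 4 := mul_le_mul_of_nonneg_left hN42 hε0
    linarith
  -- P11
  have P11 : (N4 + ε) ^ 2 * (L1' + H1') ≤ 2 * (N4 ^ 2 * (L1 + H1)) + 24 * A * ε := by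
    have h1 : (N4 + ε) ^ 2 * (L1' + H1') ≤ (2 * N4 ^ 2 + 2 * ε) * (L1 + H1 + 2 * (ε * A)) :=
      mul_le_mul q4 (by linarith) (by linarith) (by positivity)
    have h2 : N4 ^ 2 * (ε * A) ≤ 4 * (ε * A) := mul_le_mul_of_nonneg_right hN42 hεA
    have h3 : ε * (L1 + H1) ≤ ε * (2 * A) := mul_le_mul_of_nonneg_left (by linarith) hε0
    have h4 : ε * (ε * A) ≤ 1 * (ε * A) := mul_le_mul_of_nonneg_right hε1 hεA
    linarith
  -- P12
  have hHt2 : Ht ^ 2 ≤ A ^ 2 := pow_le_pow_left₀ hHt hHtA 2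
  have P12 : (Np + ε + (NQm + ε) + K) * (Ht' ^ 2 + H2t')
      ≤ 2 * ((Np + NQ + K) * (Ht ^ 2 + H2t)) + ((3 + M) * (2 * (A ^ 2 + A)) + 8 * (A ^ 2 + A)) * ε := by
    have hW : 0 ≤ Ht ^ 2 + H2t := by positivity
    have hW' : 0 ≤ Ht' ^ 2 + H2t' := by positivity
    have hAA : 0 ≤ (A ^ 2 + A) * ε := by positivity
    have h1 : (Np + ε + (NQm + ε) + K) * (Ht' ^ 2 + H2t') ≤ (Np + NQm + K + 2 * ε) * (2 * (Ht ^ 2 + H2t) + 2 * ((A ^ 2 + A) * ε)) :=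
      mul_le_mul (by linarith) (by linarith) hW' (by positivity)
    have h2 : (Np + NQm + K) * (Ht ^ 2 + H2t) ≤ (Np + NQ + K) * (Ht ^ 2 + H2t) := mul_le_mul_of_nonneg_right (by linarith) hW
    have h3 : (Np + NQm + K) * ((A ^ 2 + A) * ε) ≤ (3 + M) * ((A ^ 2 + A) * ε) := mul_le_mul_of_nonneg_right (by linarith) hAA
    have h4 : ε * (Ht ^ 2 + H2t) ≤ ε * (A ^ 2 + A) := mul_le_mul_of_nonneg_left (by linarith) hε0
    have h5 : ε * ((A ^ 2 + A) * ε) ≤ 1 * ((A ^ 2 + A) * ε) := mul_le_mul_of_nonneg_right hε1 hAA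
    linarith
  set X := ε + gi + c * Di ^ 2 + (K + mi) * Al + Di * L1 + S5 + L2 + L1 ^ 2 + L1 * H1 + K * (H1 ^ 2 + H2)
        + Di * N4 ^ 2 + N4 ^ 2 * (L1 + H1) + (Np + NQ + K) * (Ht ^ 2 + H2t) with hX
  have t1 : 0 ≤ c * Di ^ 2 := by positivity
  have t2 : 0 ≤ (K + mi) * Al := by positivity
  have t3 : 0 ≤ Di * L1 := by positivity
  have t4 : 0 ≤ L1 ^ 2 := by positivity
  have t5 : 0 ≤ L1 * H1 := by positivity
  have t6 : 0 ≤ K * (H1 ^ 2 + H2) := by positivity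
  have t7 : 0 ≤ Di * N4 ^ 2 := by positivity
  have t8 : 0 ≤ N4 ^ 2 * (L1 + H1) := by positivity
  have t9 : 0 ≤ (Np + NQ + K) * (Ht ^ 2 + H2t) := mul_nonneg (by linarith) (by positivity)
  have hXε : ε ≤ X := by
    rw [hX]; linarith
  have hKst : 0 ≤ b19kC A M Cc - 2 := by
    have : 0 ≤ 2 * Cc + 4 * (M + A) + 3 * A + 9 * A + 2 * A + 2 * A ^ 2 + 3 * A ^ 2 + M * (2 * A ^ 2 + 2 * A) + 12 + 24 * A
        + (3 + M) * (2 * (A ^ 2 + A)) + 8 * (A ^ 2 + A) := by positivity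
    unfold b19kC; linarith
  have hfin := mul_le_mul_of_nonneg_left hXε hKst
  have e : b19kC A M Cc * X = 2 * X + (b19kC A M Cc - 2) * X := by ring
  rw [e]
  have e2 : (b19kC A M Cc - 2) * ε = 2 * Cc * ε + 4 * (M + A) * ε + 3 * A * ε + 9 * ε * A + 2 * ε * A + 2 * A ^ 2 * ε + 3 * A ^ 2 * ε
      + M * (2 * A ^ 2 + 2 * A) * ε + 12 * ε + 24 * A * ε + ((3 + M) * (2 * (A ^ 2 + A)) + 8 * (A ^ 2 + A)) * ε := by
    unfold b19kC; ring
  rw [e2] at hfin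
  rw [hX] at hfin ⊢
  linarith


/-- sums of gaps over an interval of cuts -/
theorem b19k_gap_Ico {a : ℝ} (ha : 0 < a) {P : SkStp} (hP : SkAdm a P) {A0 : ℝ} (haA : a ≤ A0) {lo hi : ℕ} (hhi : hi ≤ P.length + 1) :
    0 ≤ ∑ v ∈ Finset.Ico lo hi, skGap a P v ∧ ∑ v ∈ Finset.Ico lo hi, skGap a P v ≤ A0 := by
  have hg := pin_gap_nonneg ha P hP
  refine ⟨Finset.sum_nonneg fun v _ => hg v, ?_⟩
  have h1 : ∑ v ∈ Finset.Ico lo hi, skGap a P v ≤ ∑ v ∈ Finset.range (P.length + 1), skGap a P v :=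
    Finset.sum_le_sum_of_subset_of_nonneg (fun v hv => by
      rw [Finset.mem_Ico] at hv
      exact Finset.mem_range.2 (by omega)) fun v _ _ => hg v
  rw [b19c_gap_sum, b19c_ms_top] at h1
  linarith

/-- the effect of `D ↦ D + ε` on the integrals `b19IG` -/
theorem b19k_IG {a : ℝ} (ha : 0 < a) {P : SkStp} (hP : SkAdm a P) {D : ℕ → ℝ} (hD0 : ∀ j, 0 ≤ D j) (hD1 : ∀ j, j ≤ P.length → D j ≤ 1)
    {ε : ℝ} (hε0 : 0 < ε) (hε1 : ε ≤ 1) {θ : ℝ} (hθ0 : 1 / 2 ≤ θ) (hθ1 : θ ≤ 1) {lo hi : ℕ} (hhi : hi ≤ P.length + 1) :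
    b19IG a P (fun j => D j + ε) lo hi 1 = b19IG a P D lo hi 1 + ε * ∑ v ∈ Finset.Ico lo hi, skGap a P v ∧
    b19IG a P (fun j => D j + ε) lo hi 2 ≤ 2 * b19IG a P D lo hi 2 + 2 * ε * ∑ v ∈ Finset.Ico lo hi, skGap a P v ∧
    b19IG a P (fun j => D j + ε) lo hi θ ≤ b19IG a P D lo hi θ + ε ^ θ * ∑ v ∈ Finset.Ico lo hi, skGap a P v ∧
    b19IG a P (fun j => D j + ε) lo hi (2 * θ) ≤ 2 * b19IG a P D lo hi (2 * θ) + 2 * ε * ∑ v ∈ Finset.Ico lo hi, skGap a P v ∧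
    (∀ s : ℝ, 0 ≤ s → b19IG a P D lo hi s ≤ ∑ v ∈ Finset.Ico lo hi, skGap a P v) ∧ (ε ^ θ) ^ 2 ≤ ε := by
  have hg := pin_gap_nonneg ha P hP
  have hee : ε ^ 2 ≤ ε := by
    have := mul_le_mul_of_nonneg_left hε1 hε0.le
    linarith
  have hη : (ε ^ θ) ^ 2 ≤ ε := by
    rw [← Real.rpow_natCast, ← Real.rpow_mul hε0.le]
    calc ε ^ (θ * ((2 : ℕ) : ℝ)) ≤ ε ^ (1 : ℝ) := Real.rpow_le_rpow_of_exponent_ge hε0 hε1 (by push_cast; linarith)
      _ = ε := Real.rpow_one ε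
  refine ⟨?_, ?_, ?_, ?_, ?_, hη⟩
  · unfold b19IG
    simp only [Real.rpow_one]
    rw [Finset.mul_sum, ← Finset.sum_add_distrib]
    exact Finset.sum_congr rfl fun j _ => by ring
  · unfold b19IG
    rw [Finset.mul_sum, Finset.mul_sum, ← Finset.sum_add_distrib]
    refine Finset.sum_le_sum fun j _ => ?_
    rw [Real.rpow_two, Real.rpow_two]
    have h1 : (D j + ε) ^ 2 ≤ 2 * D j ^ 2 + 2 * ε := by linarith [sq_nonneg (D j - ε)]
    have := mul_le_mul_of_nonneg_left h1 (hg j)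
    linarith
  · unfold b19IG
    rw [Finset.mul_sum, ← Finset.sum_add_distrib]
    refine Finset.sum_le_sum fun j _ => ?_
    have h1 : (D j + ε) ^ θ ≤ D j ^ θ + ε ^ θ := Real.rpow_add_le_add_rpow (hD0 j) hε0.le (by linarith) hθ1
    have := mul_le_mul_of_nonneg_left h1 (hg j)
    linarith
  · unfold b19IG
    rw [Finset.mul_sum, Finset.mul_sum, ← Finset.sum_add_distrib]
    refine Finset.sum_le_sum fun j _ => ?_
    have h1 : (D j + ε) ^ θ ≤ D j ^ θ + ε ^ θ := Real.rpow_add_le_add_rpow (hD0 j) hε0.le (by linarith) hθ1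
    have e1 : ∀ x : ℝ, 0 ≤ x → x ^ (2 * θ) = (x ^ θ) ^ 2 := fun x hx => by
      rw [← Real.rpow_natCast, ← Real.rpow_mul hx]
      congr 1
      push_cast; ring
    have h2 : (D j + ε) ^ (2 * θ) ≤ 2 * D j ^ (2 * θ) + 2 * ε := by
      rw [e1 _ (by linarith [hD0 j]), e1 _ (hD0 j)]
      have h3 : ((D j + ε) ^ θ) ^ 2 ≤ (D j ^ θ + ε ^ θ) ^ 2 := pow_le_pow_left₀ (Real.rpow_nonneg (by linarith [hD0 j]) _) h1 2
      linarith [sq_nonneg (D j ^ θ - ε ^ θ)]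
    have := mul_le_mul_of_nonneg_left h2 (hg j)
    linarith
  · intro s hs
    unfold b19IG
    refine Finset.sum_le_sum fun j hj => ?_
    rw [Finset.mem_Ico] at hj
    have h1 : D j ^ s ≤ 1 := Real.rpow_le_one (hD0 j) (hD1 j (by omega)) hs
    have := mul_le_mul_of_nonneg_left h1 (hg j)
    linarith

/-- the dyads are ordered -/
theorem b19k_dy_le {e : ℕ → ℕ} {R : ℕ} (hm : ∀ j, j < R → e j < e (j + 1)) : ∀ k, k ≤ R → ∀ j, j ≤ k → e j ≤ e k := by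
  intro k
  induction k with
  | zero => intro _ j hj; rw [Nat.le_zero.1 hj]
  | succ k ih =>
    intro hk j hj
    rcases Nat.lt_or_ge j (k + 1) with h | h
    · exact (ih (by omega) j (by omega)).trans (hm k (by omega)).le
    · rw [le_antisymm hj h]

/-- the dyads tile `[e 0, e R)` -/
theorem b19k_dy_sum (f : ℕ → ℝ) {e : ℕ → ℕ} {R : ℕ} (hm : ∀ j, j < R → e j < e (j + 1)) :
    ∑ j ∈ Finset.range R, ∑ v ∈ Finset.Ico (e j) (e (j + 1)), f v = ∑ v ∈ Finset.Ico (e 0) (e R), f v := by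
  induction R with
  | zero => simp
  | succ R ih =>
    have hm' : ∀ j, j < R → e j < e (j + 1) := fun j hj => hm j (by omega)
    rw [Finset.sum_range_succ, ih hm', Finset.sum_Ico_consecutive _ (b19k_dy_le hm' R le_rfl 0 (Nat.zero_le _)) (hm R (by omega)).le]

/-- a priori bounds of the numbers of the full overlaps -/
theorem b19k_num {n : ℕ} (hn : 0 < n) {a : ℝ} (ha : 0 < a) {P : SkStp} (hP : SkAdm a P) {i : ℕ} (hi : i ≤ P.length) :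
    (∀ j, 0 ≤ bmD n a P j) ∧ (∀ j, j ≤ P.length → bmD n a P j ≤ 1) ∧ 0 ≤ b19Al n a P i ∧
    (∀ κ, 0 ≤ b19Zf n a P i κ ∧ b19Zf n a P i κ ≤ 2) ∧
    ∀ p : ℝ, 1 ≤ p → 0 ≤ b19Nf n a P p i (obS n a P 0 i) ∧ b19Nf n a P p i (obS n a P 0 i) ≤ 2 := by
  refine ⟨fun j => Real.sqrt_nonneg _, fun j hj => ?_, ?_, fun κ => ⟨Real.sqrt_nonneg _, ?_⟩, fun p hp => ?_⟩
  · unfold bmD obD2
    rw [Real.sqrt_le_left zero_le_one]
    have h1 : obB n a P 0 j ≤ 1 := by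
      rw [← (b19_S_eq hn ha hP hj).2]
      have hle : ∀ σ : ℕ → SkCfg n, skOv (σ 0) (σ 1) ^ 2 ≤ 1 := fun σ => (le_abs_self _).trans (brg_s_ovsq_abs _ _)
      have := b19c_Sk_mono ha hP 2 (b19St P.length j) (f := fun σ => skOv (σ 0) (σ 1) ^ 2) (g := fun _ => (1 : ℝ)) hle
      rwa [b19c_Sk_const ha hP] at this
    linarith [sq_nonneg (obS n a P 0 j)]
  · unfold b19Al
    rw [← (b19_S_eq hn ha hP hi).2]
    have e1 := b19c_star_pair (n := n) ha hP hi (q := 4) (x := 0) (y := 1) (by norm_num) (by norm_num) (by norm_num)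
      (fun s t => skOv s t ^ 2)
    have e2 := b19c_star_pair (n := n) ha hP hi (q := 4) (x := 2) (y := 3) (by norm_num) (by norm_num) (by norm_num)
      (fun s t => skOv s t ^ 2)
    have e3 : (fun σ : ℕ → SkCfg n => (skOv (σ 0) (σ 1) - skOv (σ 2) (σ 3)) ^ 2)
        = fun σ => (skOv (σ 0) (σ 1) ^ 2 + skOv (σ 2) (σ 3) ^ 2) + (-2) * (skOv (σ 0) (σ 1) * skOv (σ 2) (σ 3)) := by
      funext σ
      ring
    have h2 : 0 ≤ b19Sk n a P 4 (b19St P.length i) fun σ => (skOv (σ 0) (σ 1) - skOv (σ 2) (σ 3)) ^ 2 :=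
      b19c_Sk_nonneg ha hP _ _ fun _ => sq_nonneg _
    rw [e3, b19c_Sk_add ha hP, b19c_Sk_add ha hP, b19c_Sk_smul ha hP, e1, e2] at h2
    linarith
  · unfold b19Zf
    have hle : ∀ σ : ℕ → SkCfg n, (skOv (σ 0) (σ 1) - skOv (σ 2) (σ 3)) ^ 2 ≤ 2 ^ 2 := fun σ => by
      have a1 := abs_le.1 (brg_s_ov_abs (σ 0) (σ 1))
      have a2 := abs_le.1 (brg_s_ov_abs (σ 2) (σ 3))
      exact sq_le_sq' (by linarith [a1.1, a2.2]) (by linarith [a1.2, a2.1])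
    have := b19c_Sk_mono ha hP 4 (b19TZ P.length i κ) (f := fun σ => (skOv (σ 0) (σ 1) - skOv (σ 2) (σ 3)) ^ 2)
      (g := fun _ => (2 : ℝ) ^ 2) hle
    rw [b19c_Sk_const ha hP] at this
    calc _ ≤ Real.sqrt (2 ^ 2) := Real.sqrt_le_sqrt this
      _ = 2 := Real.sqrt_sq (by norm_num)
  · unfold b19Nf
    have hp0 : 0 < p := by linarith
    have h0 : 0 ≤ b19Sk n a P 2 (b19St P.length i) fun σ => |skOv (σ 0) (σ 1) - obS n a P 0 i| ^ p :=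
      b19c_Sk_nonneg ha hP _ _ fun _ => Real.rpow_nonneg (abs_nonneg _) _
    refine ⟨Real.rpow_nonneg h0 _, ?_⟩
    have hle : ∀ σ : ℕ → SkCfg n, |skOv (σ 0) (σ 1) - obS n a P 0 i| ^ p ≤ 2 ^ p := fun σ => by
      refine Real.rpow_le_rpow (abs_nonneg _) ?_ hp0.le
      have h1 := brg_s_ov_abs (σ 0) (σ 1)
      have h2 := b19_S_mem hn ha hP hi
      rw [abs_le] at h1 ⊢
      constructor <;> linarith [h2.1, h2.2, h1.1, h1.2]
    have h1 := b19c_Sk_mono ha hP 2 (b19St P.length i) (f := fun σ => |skOv (σ 0) (σ 1) - obS n a P 0 i| ^ p)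
      (g := fun _ => (2 : ℝ) ^ p) hle
    rw [b19c_Sk_const ha hP] at h1
    calc _ ≤ ((2 : ℝ) ^ p) ^ (1 / p) := Real.rpow_le_rpow h0 h1 (by positivity)
      _ = 2 := by rw [← Real.rpow_mul (by norm_num), mul_one_div_cancel hp0.ne', Real.rpow_one]

theorem b19k_eqns_cite : True := by
  have := @b19kC.eq_1
  trivial

/-- **cleaning** (pure algebra + a priori bounds `0 ≤ bmD ≤ 1`, `0 ≤ b19Nf ≤ 2`, `0 ≤ b19Zf ≤ 2`, `0 ≤ b19Al`, `∑ gap ≤ a ≤ A0`, `K_H ≤ M0`, `|cp| ≤ C(A0)`, `1/n ≤ 1`):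
with `ε = 1/n`: `(x+ε)² ≤ 2x² + 2ε²`, `(x+ε)^θ ≤ x^θ + ε^θ` (`θ ≤ 1`), `(x+ε)^{2θ} ≤ 2(x^{2θ} + ε^{2θ})`, `ε^{2θ} ≤ ε` (`2θ ≥ 1`); every product which contains a factor `ε` is `≤ C ε`
because the other factors are bounded: this is why `Prim` and `NQ` are truncated on the left. -/
theorem b19_clean (p A0 M0 : ℝ) (hp : 2 ≤ p) : ∃ C : ℝ, 0 ≤ C ∧ ∀ (n : ℕ) (a : ℝ) (P : SkStp) (i H R : ℕ) (e κ : ℕ → ℕ) (Prim : ℕ → ℝ) (NQ : ℝ),
    B19Hyp n a P A0 M0 i H → B19Dy i H P.length R e κ → (∀ j, j < R → 0 ≤ Prim j) → 0 ≤ NQ →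
    b19Rhs n a P p i H R e κ (fun j => min (Prim j) (3 * ∑ v ∈ Finset.Ico (e j) (e (j + 1)), skGap a P v)) (min NQ 1)
      ≤ C * b19RhsC n a P p i H R e κ Prim NQ := by
  obtain ⟨Cc, hCc, hcp⟩ := b19_Cp_abs A0
  refine ⟨|b19kC A0 M0 Cc|, abs_nonneg _, fun n a P i H R e κ Prim NQ h hD hPr hNQ => ?_⟩
  have hn : 0 < n := by have := h.n2; omega
  have ha := h.a0
  have hP := h.adm
  have hi : i ≤ P.length := by have := h.iH; have := h.HN; omega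
  have hA0 : 0 ≤ A0 := ha.le.trans h.aA
  obtain ⟨hD0, hD1, hAl, hZ, hNf⟩ := b19k_num hn ha hP hi
  have hg := pin_gap_nonneg ha P hP
  set ε : ℝ := 1 / n with hε
  have hn' : (1 : ℝ) ≤ n := by exact_mod_cast hn
  have hε0 : 0 < ε := by rw [hε]; positivity
  have hε1 : ε ≤ 1 := by rw [hε, div_le_one (by linarith)]; exact hn'
  have hee : ε ^ 2 ≤ ε := by
    have := mul_le_mul_of_nonneg_left hε1 hε0.le
    linarith
  set θ : ℝ := 1 - 1 / p with hθ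
  have hp0 : 0 < p := by linarith
  have hθ0 : 1 / 2 ≤ θ := by
    have : 1 / p ≤ 1 / 2 := one_div_le_one_div_of_le (by norm_num) hp
    rw [hθ]; linarith
  have hθ1 : θ ≤ 1 := by
    have : 0 ≤ 1 / p := by positivity
    rw [hθ]; linarith
  have hHN : H ≤ P.length + 1 := by have := h.HN; omega
  -- the low and the high block
  obtain ⟨l1, l2, -, -, l5, -⟩ := b19k_IG ha hP hD0 hD1 hε0 hε1 hθ0 hθ1 (lo := 0) (hi := H) hHN
  obtain ⟨g1, g2, g3, g4, g5, hη⟩ := b19k_IG ha hP hD0 hD1 hε0 hε1 hθ0 hθ1 (lo := H) (hi := P.length + 1) le_rfl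
  obtain ⟨gL0, gL1⟩ := b19k_gap_Ico ha hP h.aA (lo := 0) (hi := H) hHN
  obtain ⟨gH0, gH1⟩ := b19k_gap_Ico ha hP h.aA (lo := H) (hi := P.length + 1) le_rfl
  have hIG : ∀ lo hi s, 0 ≤ b19IG a P (bmD n a P) lo hi s := fun lo hi s => b19c_IG_nonneg ha hP hD0 lo hi s
  have hIG' : ∀ lo hi s, 0 ≤ b19IG a P (fun j => bmD n a P j + ε) lo hi s := fun lo hi s =>
    b19c_IG_nonneg ha hP (fun j => add_nonneg (hD0 j) hε0.le) lo hi s
  have mε : ∀ {x : ℝ}, x ≤ A0 → ε * x ≤ ε * A0 := fun hx => mul_le_mul_of_nonneg_left hx hε0.le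
  -- the sum over the dyads
  have hS5 : ∑ j ∈ Finset.range R, ((b19Zf n a P i (κ j) + 2 / n) * b19IG a P (fun j => bmD n a P j + ε) (e j) (e (j + 1)) 1
        + (bmD n a P i + ε) * min (Prim j) (3 * ∑ v ∈ Finset.Ico (e j) (e (j + 1)), skGap a P v))
      ≤ ∑ j ∈ Finset.range R, (b19Zf n a P i (κ j) * b19IG a P (bmD n a P) (e j) (e (j + 1)) 1 + bmD n a P i * Prim j)
        + 9 * ε * A0 := by
    have hs : ∑ j ∈ Finset.range R, ∑ v ∈ Finset.Ico (e j) (e (j + 1)), skGap a P v ≤ A0 := by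
      rw [b19k_dy_sum _ hD.mono, hD.e0, hD.eR]
      exact gH1
    have : ∑ j ∈ Finset.range R, (b19Zf n a P i (κ j) * b19IG a P (bmD n a P) (e j) (e (j + 1)) 1 + bmD n a P i * Prim j)
        + 9 * ε * ∑ j ∈ Finset.range R, ∑ v ∈ Finset.Ico (e j) (e (j + 1)), skGap a P v
        ≤ ∑ j ∈ Finset.range R, (b19Zf n a P i (κ j) * b19IG a P (bmD n a P) (e j) (e (j + 1)) 1 + bmD n a P i * Prim j)
        + 9 * ε * A0 := by
      have := mul_le_mul_of_nonneg_left hs (by positivity : 0 ≤ 9 * ε)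
      linarith
    refine le_trans ?_ this
    rw [Finset.mul_sum, ← Finset.sum_add_distrib]
    refine Finset.sum_le_sum fun j hj => ?_
    have hj' := Finset.mem_range.1 hj
    have hej : e (j + 1) ≤ P.length + 1 := by
      rw [← hD.eR]; exact b19k_dy_le hD.mono R le_rfl (j + 1) (by omega)
    obtain ⟨d1, -, -, -, d5, -⟩ := b19k_IG ha hP hD0 hD1 hε0 hε1 hθ0 hθ1 (lo := e j) (hi := e (j + 1)) hej
    obtain ⟨gj0, -⟩ := b19k_gap_Ico ha hP h.aA (lo := e j) (hi := e (j + 1)) hej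
    rw [d1]
    set G := ∑ v ∈ Finset.Ico (e j) (e (j + 1)), skGap a P v with hG
    set I := b19IG a P (bmD n a P) (e j) (e (j + 1)) 1 with hI
    have hI0 : 0 ≤ I := hIG _ _ _
    have hI1 : I ≤ G := d5 1 zero_le_one
    have e2 : (2 : ℝ) / n = 2 * ε := by rw [hε]; ring
    rw [e2]
    have hεG : 0 ≤ ε * G := mul_nonneg hε0.le gj0
    have z1 : b19Zf n a P i (κ j) * (ε * G) ≤ 2 * (ε * G) := mul_le_mul_of_nonneg_right (hZ (κ j)).2 hεG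
    have z2 : ε * I ≤ ε * G := mul_le_mul_of_nonneg_left hI1 hε0.le
    have z3 : ε * (ε * G) ≤ 1 * (ε * G) := mul_le_mul_of_nonneg_right hε1 hεG
    have z4 : bmD n a P i * min (Prim j) (3 * G) ≤ bmD n a P i * Prim j := mul_le_mul_of_nonneg_left (min_le_left _ _) (hD0 i)
    have z5 : ε * min (Prim j) (3 * G) ≤ ε * (3 * G) := mul_le_mul_of_nonneg_left (min_le_right _ _) hε0.le
    linarith
  have hS50 : 0 ≤ ∑ j ∈ Finset.range R, (b19Zf n a P i (κ j) * b19IG a P (bmD n a P) (e j) (e (j + 1)) 1 + bmD n a P i * Prim j) :=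
    Finset.sum_nonneg fun j hj => add_nonneg (mul_nonneg (hZ _).1 (hIG _ _ _)) (mul_nonneg (hD0 i) (hPr j (Finset.mem_range.1 hj)))
  have hAl' : 2 * b19Al n a P i + 4 / (n : ℝ) ^ 2 ≤ 2 * b19Al n a P i + 4 * ε := by
    have : 4 / (n : ℝ) ^ 2 = 4 * ε ^ 2 := by rw [hε]; ring
    rw [this]; linarith
  have hHt' : b19IG a P (fun j => bmD n a P j + ε) H (P.length + 1) θ ^ 2
      ≤ 2 * b19IG a P (bmD n a P) H (P.length + 1) θ ^ 2 + 2 * ε * A0 ^ 2 := by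
    set G := ∑ v ∈ Finset.Ico H (P.length + 1), skGap a P v with hG
    have h1 := pow_le_pow_left₀ (hIG' H (P.length + 1) θ) g3 2
    have h2 : (ε ^ θ * G) ^ 2 ≤ ε * A0 ^ 2 := by
      rw [mul_pow]
      exact mul_le_mul hη (pow_le_pow_left₀ gH0 gH1 2) (sq_nonneg _) hε0.le
    linarith [sq_nonneg (b19IG a P (bmD n a P) H (P.length + 1) θ - ε ^ θ * G)]
  have key := b19k_arith (A := A0) (M := M0) (Cc := Cc) (ε := ε) (gi := skGap a P i) (c := |b19Cp n a P i|) (K := b19K n a P H)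
    (mi := skMs a P i) (Al := b19Al n a P i) (Al' := 2 * b19Al n a P i + 4 / (n : ℝ) ^ 2) (Di := bmD n a P i)
    (L1 := b19IG a P (bmD n a P) 0 H 1) (L2 := b19IG a P (bmD n a P) 0 H 2)
    (H1 := b19IG a P (bmD n a P) H (P.length + 1) 1) (H2 := b19IG a P (bmD n a P) H (P.length + 1) 2)
    (Ht := b19IG a P (bmD n a P) H (P.length + 1) θ) (H2t := b19IG a P (bmD n a P) H (P.length + 1) (2 * θ))
    (N4 := b19Nf n a P 4 i (obS n a P 0 i)) (Np := b19Nf n a P p i (obS n a P 0 i)) (NQ := NQ) (NQm := min NQ 1)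
    (S5 := ∑ j ∈ Finset.range R, (b19Zf n a P i (κ j) * b19IG a P (bmD n a P) (e j) (e (j + 1)) 1 + bmD n a P i * Prim j))
    (L1' := b19IG a P (fun j => bmD n a P j + ε) 0 H 1) (L2' := b19IG a P (fun j => bmD n a P j + ε) 0 H 2)
    (H1' := b19IG a P (fun j => bmD n a P j + ε) H (P.length + 1) 1) (H2' := b19IG a P (fun j => bmD n a P j + ε) H (P.length + 1) 2)
    (Ht' := b19IG a P (fun j => bmD n a P j + ε) H (P.length + 1) θ)
    (H2t' := b19IG a P (fun j => bmD n a P j + ε) H (P.length + 1) (2 * θ))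
    (S5' := ∑ j ∈ Finset.range R, ((b19Zf n a P i (κ j) + 2 / n) * b19IG a P (fun j => bmD n a P j + ε) (e j) (e (j + 1)) 1
        + (bmD n a P i + ε) * min (Prim j) (3 * ∑ v ∈ Finset.Ico (e j) (e (j + 1)), skGap a P v)))
    hA0 hε0.le hε1 (hg i) (abs_nonneg _) (hcp n a P i hn ha h.aA hP hi) (b19c_K_nonneg ha hP H) h.KM
    (pin_ms_bd ha P hP i).1 ((pin_ms_bd ha P hP i).2.trans h.aA) hAl hAl' (hD0 i) (hD1 i hi)
    (hIG _ _ _) ((l5 1 zero_le_one).trans gL1) (hIG _ _ _) (hIG _ _ _) ((g5 1 zero_le_one).trans gH1) (hIG _ _ _)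
    (hIG _ _ _) ((g5 θ (by linarith)).trans gH1) (hIG _ _ _) ((g5 (2 * θ) (by linarith)).trans gH1)
    (hNf 4 (by norm_num)).1 (hNf 4 (by norm_num)).2 (hNf p (by linarith)).1 (hNf p (by linarith)).2
    (le_min hNQ zero_le_one) (min_le_right _ _) (min_le_left _ _) hS50
    (hIG' _ _ _) (by rw [l1]; linarith [mε gL1]) (by linarith [mε gL1])
    (hIG' _ _ _) (by rw [g1]; linarith [mε gH1]) (by linarith [mε gH1])
    hHt' (hIG' _ _ _) (by linarith [mε gH1]) hS5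
  have hX : 0 ≤ b19RhsC n a P p i H R e κ Prim NQ := by
    unfold b19RhsC b19RhsG
    have t1 : 0 ≤ |b19Cp n a P i| * bmD n a P i ^ 2 := by positivity
    have hK := b19c_K_nonneg (n := n) ha hP H
    have t2 : 0 ≤ (b19K n a P H + skMs a P i) * b19Al n a P i := mul_nonneg (add_nonneg hK (pin_ms_bd ha P hP i).1) hAl
    have t3 : 0 ≤ bmD n a P i * b19IG a P (bmD n a P) 0 H 1 := mul_nonneg (hD0 i) (hIG _ _ _)
    have t4 := hIG 0 H 2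
    have t5 : 0 ≤ b19IG a P (bmD n a P) 0 H 1 ^ 2 := sq_nonneg _
    have t6 : 0 ≤ b19IG a P (bmD n a P) 0 H 1 * b19IG a P (bmD n a P) H (P.length + 1) 1 := mul_nonneg (hIG _ _ _) (hIG _ _ _)
    have t7 : 0 ≤ b19K n a P H * (b19IG a P (bmD n a P) H (P.length + 1) 1 ^ 2 + b19IG a P (bmD n a P) H (P.length + 1) 2) :=
      mul_nonneg hK (add_nonneg (sq_nonneg _) (hIG _ _ _))
    have t8 : 0 ≤ bmD n a P i * b19Nf n a P 4 i (obS n a P 0 i) ^ 2 := mul_nonneg (hD0 i) (sq_nonneg _)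
    have t9 : 0 ≤ b19Nf n a P 4 i (obS n a P 0 i) ^ 2 * (b19IG a P (bmD n a P) 0 H 1 + b19IG a P (bmD n a P) H (P.length + 1) 1) :=
      mul_nonneg (sq_nonneg _) (add_nonneg (hIG _ _ _) (hIG _ _ _))
    have t10 : 0 ≤ (b19Nf n a P p i (obS n a P 0 i) + NQ + b19K n a P H) * (b19IG a P (bmD n a P) H (P.length + 1) (1 - 1 / p) ^ 2
        + b19IG a P (bmD n a P) H (P.length + 1) (2 * (1 - 1 / p))) :=
      mul_nonneg (add_nonneg (add_nonneg (hNf p (by linarith)).1 hNQ) hK) (add_nonneg (sq_nonneg _) (hIG _ _ _))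
    have t11 := hg i
    linarith [hε0.le]
  refine le_trans ?_ (mul_le_mul_of_nonneg_right (le_abs_self (b19kC A0 M0 Cc)) hX)
  exact key

/-- **MASTER, clean form** -/
theorem b19_master_c (p A0 M0 : ℝ) (hp : 2 ≤ p) : ∃ C : ℝ, 0 ≤ C ∧ ∀ (n : ℕ) (a : ℝ) (P : SkStp) (i H R : ℕ) (e κ : ℕ → ℕ)
    (Prim : ℕ → ℝ) (NQ : ℝ), B19Hyp n a P A0 M0 i H → B19Dy i H P.length R e κ → B19Prim n a P R e Prim →
    (∀ r, r < H → b19Nf n a P p r 0 ≤ NQ) →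
    |obS n a P 0 i - b19Gam n a P i| ≤ C * b19RhsC n a P p i H R e κ Prim NQ := by
  obtain ⟨C, hC, hm⟩ := b19_master p A0 M0 hp
  obtain ⟨C', hC', hc⟩ := b19_clean p A0 M0 hp
  refine ⟨C * C', mul_nonneg hC hC', fun n a P i H R e κ Prim NQ h hD hPr hNQ => ?_⟩
  have hn : 0 < n := by have := h.n2; omega
  have hH : 0 < H := by have := h.iH; omega
  have hNQ0 : 0 ≤ NQ := (b19_Nf_le_one hn h.a0 h.adm (by linarith) (hH.le.trans h.HN)).1.trans (hNQ 0 hH)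
  have hPr' : B19Prim n a P R e fun j => min (Prim j) (3 * ∑ v ∈ Finset.Ico (e j) (e (j + 1)), skGap a P v) := by
    intro j hj
    have hs : 0 ≤ 3 * ∑ v ∈ Finset.Ico (e j) (e (j + 1)), skGap a P v :=
      mul_nonneg (by norm_num) (Finset.sum_nonneg fun v _ => b19_gap_nonneg h.a0 h.adm v)
    refine ⟨le_min (hPr j hj).1 hs, fun k hk hk0 => ?_⟩
    beta_reduce
    rcases le_total (Prim j) (3 * ∑ v ∈ Finset.Ico (e j) (e (j + 1)), skGap a P v) with hle | hle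
    · rw [min_eq_left hle]; exact (hPr j hj).2 k hk hk0
    · rw [min_eq_right hle]; exact b19_pr2_le hn h.a0 h.adm k hk _ _ hk0
  have hNQ' : ∀ r, r < H → b19Nf n a P p r 0 ≤ min NQ 1 := fun r hr =>
    le_min (hNQ r hr) (b19_Nf_le_one hn h.a0 h.adm (by linarith) (hr.le.trans h.HN)).2
  calc |obS n a P 0 i - b19Gam n a P i| ≤ C * b19Rhs n a P p i H R e κ _ (min NQ 1) := hm n a P i H R e κ _ _ h hD hPr' hNQ'
    _ ≤ C * (C' * b19RhsC n a P p i H R e κ Prim NQ) :=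
        mul_le_mul_of_nonneg_left (hc n a P i H R e κ Prim NQ h hD (fun j hj => (hPr j hj).1) hNQ0) hC
    _ = C * C' * b19RhsC n a P p i H R e κ Prim NQ := by ring

end

end Claimed.Agent.R286
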