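import Claimed.Agent.R286.Bud.Defs
import Claimed.Agent.R286.Defs.Clk
import Claimed.Agent.R286.Fd.Obs

/-!
# Row 286, LL sec. 7 (budgets): THE VOCABULARY OF THE PROBABILISTIC NODES (layer L5)      (owner helper198; defs `bm*`, types `Bm*`, lemmas `bm_*`)

PROTOCOL (207, HUB_207 sec. 2).   Nodes N5-N8, N13-N15, N17 ((C8)-(C10), star cut, closure, (C15)-(C17), (C19)) are L-STEP lemmas: ARBITRARY admissible step path
`P : SkStp`, mesh-free constants, genuine random variables; shape (S): clock hypotheses in increment form, number hypotheses with an additive slack.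
This file: (A) the step-level vocabulary (norms, branches, sums over cuts in MASS and in RADIUS); (B) the sampled changed path of a feasible `Q : BdQ F X` and
"for all sufficiently fine chains" (`BmEv`); (C) `BdWorld.IsHub`: the placeholder world of `Bud/Defs.lean` IS `Defs/Clk.lean`.

(A) * `bmN1 n a P p f`        `‖f‖_p` under the planted law of ONE path (`f` sees drivers and spin);   `bmE2, bmN2 n a P j`: TWO branches sharing exactly `j` revelations; `bmET, bmNT`: any `GhTree`;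
    * `bmDot bmSq`, `bmX` (`X_k`), `bmDX` (`X_k - X_j`), `bmRes` (`y - X_j`), `bmXb` (`X` of the branch of a label), `bmQ` (overlap of two labels), `bmLc` (centred `L`), `bmD`;
    * `bmMs a P j`            lower mass of the CUT `j` (= after `j` revelations; its length in mass is `skGap a P j`);
    * `bmSV a P κ G`          `∑_j skGap_j κ_j G_j = ∫ κ G dv`;
    * `bmLen ρ r1 r2 j`, `bmSR P ρ r1 r2 G`        a RADIUS LABELLING `ρ : ℕ → ℝ` (nondecreasing; the cut `j` occupies the radii `[ρ j, ρ (j+1)]`); `∑_j |[ρ_j,ρ_{j+1}] ∩ [r1,r2]| G_j = ∫_{r1}^{r2} G_{α(r)} dr`.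
(B) * `bmExt c`               a clock of `Bud/PSys.lean` (values on `(0,1)`) as a clock of `Defs/Clk.lean`;   `Q.stp g ps`, `Q.rho ps`, `Q.ixV ps v`, `Q.ixR ps r`;
    * `BmEv a Φ`              `∀ᶠ F in atTop, Φ (ghPs a F)` (the net of `ghLim`); `.and .mono .of_forall .of_superset`.
-/

set_option autoImplicit false

namespace Claimed.Agent.R286

open MeasureTheory Set Filter Topology

noncomputable section

/-! ## A. Step level: expectations, norms, sums over cuts (ARBITRARY step path `P`) -/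

section norms
variable {n : ℕ}

/-- `‖f‖_p` under the planted law of ONE path (zero root field) -/
def bmN1 (n : ℕ) (a : ℝ) (P : SkStp) (p : ℝ) (f : (ℕ → SkDr n → ℝ) → SkCfg n → ℝ) : ℝ :=
  (obE n a P 0 fun ξ σ => |f ξ σ| ^ p) ^ (1 / p)

/-- expectation under the positive law of the tree `T` (zero root field); the test sees the effective drivers `η t c` and the spins `σ c` -/
def bmET (n : ℕ) (a : ℝ) (P : SkStp) {q : ℕ} (T : GhTree q) (f : (ℕ → Fin q → SkDr n → ℝ) → (Fin q → SkCfg n) → ℝ) : ℝ :=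
  T.nu (skBase n a) (skLvs n P) 0 f

/-- `‖f‖_p` under the positive law of the tree `T` -/
def bmNT (n : ℕ) (a : ℝ) (P : SkStp) {q : ℕ} (T : GhTree q) (p : ℝ)
    (f : (ℕ → Fin q → SkDr n → ℝ) → (Fin q → SkCfg n) → ℝ) : ℝ :=
  (bmET n a P T fun η σ => |f η σ| ^ p) ^ (1 / p)

/-- expectation under the law of TWO branches which share exactly the first `j` revelations -/
def bmE2 (n : ℕ) (a : ℝ) (P : SkStp) (j : ℕ) (f : (ℕ → Fin 2 → SkDr n → ℝ) → (Fin 2 → SkCfg n) → ℝ) : ℝ :=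
  bmET n a P (obT2 j) f

/-- `‖f‖_p` under the law of two branches which share exactly the first `j` revelations -/
def bmN2 (n : ℕ) (a : ℝ) (P : SkStp) (j : ℕ) (p : ℝ) (f : (ℕ → Fin 2 → SkDr n → ℝ) → (Fin 2 → SkCfg n) → ℝ) : ℝ :=
  bmNT n a P (obT2 j) p f

/-- Euclidean inner product in `ℝⁿ` -/
def bmDot (x y : Fin n → ℝ) : ℝ := ∑ i, x i * y i

/-- `|x|²` -/
def bmSq (x : Fin n → ℝ) : ℝ := ∑ i, x i ^ 2

/-- `X` at the cut `k` on one path -/
def bmX (n : ℕ) (a : ℝ) (P : SkStp) (k : ℕ) (ξ : ℕ → SkDr n → ℝ) : Fin n → ℝ := obXp n a P 0 k ξ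

/-- the martingale increment `X_k - X_j` on one path -/
def bmDX (n : ℕ) (a : ℝ) (P : SkStp) (j k : ℕ) (ξ : ℕ → SkDr n → ℝ) : Fin n → ℝ :=
  fun i => obXp n a P 0 k ξ i - obXp n a P 0 j ξ i

/-- the residual `y - X_j` on one path -/
def bmRes (n : ℕ) (a : ℝ) (P : SkStp) (j : ℕ) (ξ : ℕ → SkDr n → ℝ) (σ : SkCfg n) : Fin n → ℝ :=
  fun i => skY σ i - obXp n a P 0 j ξ i

/-- `X` of the branch of the label `c` at the cut `k`, on a tree -/
def bmXb (n : ℕ) (a : ℝ) (P : SkStp) {q : ℕ} (k : ℕ) (c : Fin q) (η : ℕ → Fin q → SkDr n → ℝ) : Fin n → ℝ :=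
  obXp n a P 0 k fun t => η t c

/-- the overlap of the labels `c, d` -/
def bmQ {q : ℕ} (c d : Fin q) (σ : Fin q → SkCfg n) : ℝ := skOv (σ c) (σ d)

/-- centred `L` at the cut `j` -/
def bmLc (n : ℕ) (a : ℝ) (P : SkStp) (j : ℕ) (ξ : ℕ → SkDr n → ℝ) (σ : SkCfg n) : ℝ :=
  obL n a P 0 j ξ σ - obE n a P 0 (obL n a P 0 j)

/-- `D = √(B - S²)` at the cut `j` -/
def bmD (n : ℕ) (a : ℝ) (P : SkStp) (j : ℕ) : ℝ := Real.sqrt (obD2 n a P 0 j)

end norms

/-- lower mass of the cut `j` (`0` for the cut before the first revelation) -/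
def bmMs (a : ℝ) (P : SkStp) (j : ℕ) : ℝ := if j = 0 then 0 else skMs a P (j - 1)

/-- `∫_0^a κ G dv = ∑_j skGap_j κ_j G_j` for quantities indexed by the cuts -/
def bmSV (a : ℝ) (P : SkStp) (κ G : ℕ → ℝ) : ℝ := ∑ j ∈ Finset.range (P.length + 1), skGap a P j * κ j * G j

/-- length of `[ρ j, ρ (j+1)] ∩ [r1, r2]`: the part of the radius window `[r1,r2]` which belongs to the cut `j` -/
def bmLen (ρ : ℕ → ℝ) (r1 r2 : ℝ) (j : ℕ) : ℝ := max 0 (min r2 (ρ (j + 1)) - max r1 (ρ j))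

/-- `∫_{r1}^{r2} G_{α(r)} dr = ∑_j |[ρ_j,ρ_{j+1}] ∩ [r1,r2]| G_j` -/
def bmSR (P : SkStp) (ρ : ℕ → ℝ) (r1 r2 : ℝ) (G : ℕ → ℝ) : ℝ := ∑ j ∈ Finset.range (P.length + 1), bmLen ρ r1 r2 j * G j

/-- field clock revealed between the cuts `j ≤ k` -/
def bmDh (P : SkStp) (j k : ℕ) : ℝ := skCumH P k - skCumH P j

/-! ## B. Sampling the clocks of `Bud` -/

/-- **"for all sufficiently fine chains"**: eventually along the net of `ghLim` -/
def BmEv (a : ℝ) (Φ : List GhPos → Prop) : Prop := ∀ᶠ F : Finset GhPos in atTop, Φ (ghPs a F)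

theorem BmEv.and {a : ℝ} {Φ Ψ : List GhPos → Prop} (h1 : BmEv a Φ) (h2 : BmEv a Ψ) : BmEv a fun ps => Φ ps ∧ Ψ ps :=
  Filter.Eventually.and h1 h2

theorem BmEv.mono {a : ℝ} {Φ Ψ : List GhPos → Prop} (h1 : BmEv a Φ) (h : ∀ ps, Φ ps → Ψ ps) : BmEv a Ψ :=
  Filter.Eventually.mono h1 fun F => h (ghPs a F)

theorem BmEv.of_forall {a : ℝ} {Φ : List GhPos → Prop} (h : ∀ ps, Φ ps) : BmEv a Φ :=
  Filter.Eventually.of_forall fun F => h (ghPs a F)

/-- the chain may be assumed to contain any prescribed finite set of positions -/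
theorem BmEv.of_superset {a : ℝ} {Φ : List GhPos → Prop} (F0 : Finset GhPos) (h : ∀ F, F0 ⊆ F → Φ (ghPs a F)) : BmEv a Φ := by
  filter_upwards [Filter.eventually_ge_atTop F0] with F hF
  exact h F hF

theorem BmEv.exists_base {a : ℝ} {Φ : List GhPos → Prop} (h : BmEv a Φ) : ∃ F0 : Finset GhPos, ∀ F, F0 ⊆ F → Φ (ghPs a F) :=
  Filter.eventually_atTop.1 h

/-- a limit along the net inherits a closed bound which holds on all fine chains -/
theorem BmEv.lim_le {a : ℝ} {Qf : List GhPos → ℝ} {c : ℝ} (hex : GhLimEx a Qf) (h : BmEv a fun ps => Qf ps ≤ c) : ghLim a Qf ≤ c :=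
  le_of_tendsto hex h

theorem BmEv.le_lim {a : ℝ} {Qf : List GhPos → ℝ} {c : ℝ} (hex : GhLimEx a Qf) (h : BmEv a fun ps => c ≤ Qf ps) : c ≤ ghLim a Qf :=
  ge_of_tendsto hex h

/-- a strict bound at the limit holds on all fine chains -/
theorem BmEv.of_lim_lt {a : ℝ} {Qf : List GhPos → ℝ} {c : ℝ} (hex : GhLimEx a Qf) (h : ghLim a Qf < c) : BmEv a fun ps => Qf ps < c :=
  hex.eventually (gt_mem_nhds h)

theorem BmEv.of_lt_lim {a : ℝ} {Qf : List GhPos → ℝ} {c : ℝ} (hex : GhLimEx a Qf) (h : c < ghLim a Qf) : BmEv a fun ps => c < Qf ps :=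
  hex.eventually (lt_mem_nhds h)

/-- a clock of `Bud/PSys.lean` (only its values on `(0,1)` matter) as a clock of `Defs/Clk.lean` on `[0,1]`:
value `0` at the mass `0` (so `c(0+)` is revealed at the mass `0`), value `c(1-)` at the mass `1` (no jump at the terminal mass) -/
def bmExt (c : ℝ → ℝ) (u : ℝ) : ℝ := if u ≤ 0 then 0 else if u < 1 then c u else sSup (c '' Ioo 0 1)

namespace BdQ

variable {F : BdFr} {X : BdFix} (Q : BdQ F X) (g : ℝ)

/-- the changed clocks as clocks of `Defs/Clk.lean` -/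
def bE : ℝ → ℝ := bmExt (Q.bq g)
def hE : ℝ → ℝ := bmExt (Q.hq g)

/-- the CHANGED path sampled on the chain `ps` -/
def stp (ps : List GhPos) : SkStp := skCStp 1 (Q.bE g) (Q.hE g) 0 0 ps

/-- the radius labelling of the cuts of the chain: `ρ_j = r(lower mass of the cut j)`, `ρ = 1` after the last cut -/
def rho (ps : List GhPos) (j : ℕ) : ℝ := if j = 0 then 0 else if h : j - 1 < ps.length then Q.r (ps[j - 1]).u else 1

/-- the cut at the mass `v` -/
def ixV (ps : List GhPos) (v : ℝ) : ℕ := ghIdx ps ((ghPosA v : GhPos) : WithTop GhPos)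

/-- the cut at the radius `r` -/
def ixR (ps : List GhPos) (r : ℝ) : ℕ := ghIdx ps ((ghPosA (Q.al r) : GhPos) : WithTop GhPos)

end BdQ

/-! ## C. The placeholder world is the Hub -/

/-- the real tree with the fork MASSES `cut` (positions after the jumps; diagonal = coincide) -/
def bmTree (cut : ℕ → ℕ → ℝ) : ℕ → ℕ → WithTop GhPos := fun x y => if x = y then ⊤ else ((ghPosA (cut x y) : GhPos) : WithTop GhPos)

/-- an overlap test as a spin test -/
def bmTest (n q : ℕ) (P : (ℕ → ℕ → ℝ) → ℝ) (σ : Fin q → SkCfg n) : ℝ :=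
  P fun i j => if h : i < q ∧ j < q then skOv (σ ⟨i, h.1⟩) (σ ⟨j, h.2⟩) else 0

/-- the scalar clock `K` on `(0,1)`, extended at the terminal mass `1` (annealed extension) up to the time `t` -/
def bmExtT (K : ℝ → ℝ) (t : ℝ) (u : ℝ) : ℝ := if u < 1 then bmExt K u else max (bmExt K 1) t

/-- the position at which the clock `K` on `[0,1]` reaches the time `t` -/
def bmPosT (K : ℝ → ℝ) (t : ℝ) : GhPos :=
  let v := sInf {v : ℝ | 0 ≤ v ∧ t ≤ ghAt 1 K (ghPosA v)}
  ghPosF v (if ghAt 1 K (ghPosA v) = ghAt 1 K (ghPosB v) then 1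
    else (t - ghAt 1 K (ghPosB v)) / (ghAt 1 K (ghPosA v) - ghAt 1 K (ghPosB v)))

/-- `Γ_K(t)`: the `S`-statistic of the ONE-SITE system with the field clock `K`, at the time `t` -/
def bmGam (K : ℝ → ℝ) (t : ℝ) : ℝ := skCS 1 1 0 (bmExtT K t) (bmPosT (bmExtT K t) t)

/-- **the world of `Bud/Defs.lean` is the Hub**.      INSTANCE: `skWorld`, `skWorld_isHub`, `exit_bud_world : ∃ W : BdWorld, W.IsHub` (file `Exit/BudWorld.lean`, helper162; PROVED over `Exit/PSysInst`).   `f, S, B` only for `0 < m`.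
`nLc, nWw, trC2` = upper limits along the net of chains of the quantities of the finite hierarchies. -/
structure BdWorld.IsHub (W : BdWorld) : Prop where
  a1 : ∀ m, (W.ps m).a = 1
  f : ∀ m, 0 < m → ∀ b h, IsClock 1 b → IsClock 1 h → (W.ps m).f b h = skCPr m 1 (bmExt b) (bmExt h)
  S : ∀ m, 0 < m → ∀ b h, IsClock 1 b → IsClock 1 h → ∀ v ∈ Ioo (0 : ℝ) 1, (W.ps m).S b h v = skCS m 1 (bmExt b) (bmExt h) (ghPosA v)
  B : ∀ m, 0 < m → ∀ b h, IsClock 1 b → IsClock 1 h → ∀ v ∈ Ioo (0 : ℝ) 1, (W.ps m).B b h v = skCB m 1 (bmExt b) (bmExt h) (ghPosA v)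
  Gam : ∀ K, IsClock 1 K → ∀ t, 0 ≤ t → W.Gam K t = bmGam K t
  fsp : ∀ K, IsClock 1 K → W.fsp K = skCPr 1 1 0 (bmExt K)
  nu : ∀ m b h, IsClock 1 b → IsClock 1 h → ∀ q cut P,
    W.nu m b h q cut P = skCNu m 1 (bmExt b) (bmExt h) q (bmTree cut) (bmTest m q P)
  nLc : ∀ m b h, IsClock 1 b → IsClock 1 h → ∀ p κ,
    W.nLc m b h p κ = limsup (fun F : Finset GhPos => bmN1 m 1 (skCStp 1 (bmExt b) (bmExt h) 0 0 (ghPs 1 F)) p fun ξ σ =>
      ∫ v in (0 : ℝ)..1, κ v * bmLc m 1 (skCStp 1 (bmExt b) (bmExt h) 0 0 (ghPs 1 F))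
        (ghIdx (ghPs 1 F) ((ghPosA v : GhPos) : WithTop GhPos)) ξ σ) atTop
  nWw : ∀ m b h, IsClock 1 b → IsClock 1 h → ∀ p κ,
    W.nWw m b h p κ = limsup (fun F : Finset GhPos => bmN1 m 1 (skCStp 1 (bmExt b) (bmExt h) 0 0 (ghPs 1 F)) p fun ξ σ =>
      ∫ v in (0 : ℝ)..1, κ v * obW m 1 (skCStp 1 (bmExt b) (bmExt h) 0 0 (ghPs 1 F)) 0
        (ghIdx (ghPs 1 F) ((ghPosA v : GhPos) : WithTop GhPos)) ξ σ) atTop
  trC2 : ∀ m b h, IsClock 1 b → IsClock 1 h → ∀ v ∈ Ioo (0 : ℝ) 1,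
    W.trC2 m b h v = limsup (fun F : Finset GhPos => obTrC2 m 1 (skCStp 1 (bmExt b) (bmExt h) 0 0 (ghPs 1 F)) 0
      (ghIdx (ghPs 1 F) ((ghPosA v : GhPos) : WithTop GhPos))) atTop

theorem bm_defs_eqns_cite : True := by
  have := @bmN1.eq_1; have := @bmET.eq_1; have := @bmNT.eq_1; have := @bmE2.eq_1; have := @bmN2.eq_1; have := @bmDot.eq_1
  have := @bmSq.eq_1; have := @bmX.eq_1; have := @bmDX.eq_1; have := @bmRes.eq_1; have := @bmXb.eq_1; have := @bmQ.eq_1
  have := @bmLc.eq_1; have := @bmD.eq_1; have := @bmMs.eq_1; have := @bmSV.eq_1; have := @bmLen.eq_1; have := @bmSR.eq_1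
  have := @bmDh.eq_1; have := @BmEv.eq_1; have := @bmExt.eq_1; have := @BdQ.bE.eq_1; have := @BdQ.hE.eq_1; have := @BdQ.stp.eq_1
  have := @BdQ.rho.eq_1; have := @BdQ.ixV.eq_1; have := @BdQ.ixR.eq_1; have := @bmTree.eq_1; have := @bmTest.eq_1
  have := @bmExtT.eq_1; have := @bmPosT.eq_1; have := @bmGam.eq_1
  trivial

end

end Claimed.Agent.R286
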