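import Claimed.Agent.R286.Fd.CTr
import Claimed.Agent.R286.Fd.CSym
import Claimed.Agent.R286.Fd.TrBs
import Claimed.Agent.R286.Fd.ObsC
import Claimed.Agent.R286.Bud.Mom

/-!
# Row 286, LL sec. 7, node N17 = (C19) `bud:closure` (07-budgets l.1850-2023): DEFINITIONS of the step level MASTER inequality      (owner helper180; prefix `b19`)

BLUEPRINT: `git show origin/helper180:notes/R286/N17_180.md`.      (C19) = [MASTER: ONE inequality for an ARBITRARY admissible step path `P` and a cut `i`] + [fine chains, box average, inputs].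
No jets, no quotient, no (A7): only formula (2) (`tr_cov_deriv`), Taylor INEQUALITIES, Gronwall, `tr_nu_comap`, Hoelder, split densities, block flips, the product structure at `t = 0`.

CONVENTIONS.   `N = P.length`; cut `j` = after `j` revelations (`0 ≤ j ≤ N`); `ms = skMs a P` (`ms N = a`); trees = `Defs/Tr` (`τ x y` = number of shared stages, `N + 1` = coincident).
Site `k0 : Fin n`.   `R = Qm + s s'/n`, so the SK kernel of one revelation is `db (n Qm²/2) + dh (n Qm) + s s' (dh + db Qm) + db/(2n)`.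
* `b19Qm`, `b19Feat`, `b19Ker`      the FIVE feature blocks: kernels `n Qm²/2 ; n Qm ; s s' ; s s' Qm ; 1`.
* a CLOCK SYSTEM `c : ℕ → Fin 5 → ℝ` = cumulative clocks of the five blocks at the cuts; `b19Hs`, `b19Aff`, `b19Seg`; `b19Nu k0 a P c q τ f` = tree number of the hierarchy with the masses of `P`.
* `b19K` (`K_j = h_j + b_j S_j`), `b19Lam H s`, **`b19C n a P lam t`** = the ROW LAW `(b ; h ; lam ((1-t) K + t h) ; lam t b ; b/(2n))`:   `lam = 1, t = 1`: the SK law;   `t = 0`: (one site, clock `lam K`) x (rest).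
* `b19V`      the insertion of a segment of clock systems;   `b19J` the mismatch `b_r (Qm - S_r)`, `r` = level of the pair;   `b19Sp` product of site spins.
* `b19KP`, `b19Sc`, `b19Gam`      the ONE-SITE system with the field clock `K`; `b19Gam = Γ_K(K_i)`.
* `b19D`, `b19A`      half the signed / absolute sum over the attachments of an OFF-DIAGONAL pair `(q, q+1)`.
* trees `b19St` (star), `b19TZ`, `b19TN`, `b19T5`;   numbers `b19Dm`, `b19Nm`, `b19E4`, `b19Het`, `b19Zm`, `b19NN`, `b19Cp`, `b19c6`, `b19Mu` (deleted overlaps), `b19Nf`, `b19Al`, `b19Zf`, `b19Pr2` (full overlaps).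
* `b19RhsG`, `b19Rhs`, `b19RhsM`, `B19Dy`, `B19Prim`      the right-hand side and the hypotheses of MASTER (`Bud/C19Ctr.lean`).
-/

set_option autoImplicit false

namespace Claimed.Agent.R286

open MeasureTheory Set Filter Topology

noncomputable section

variable {n : ℕ}

/-! ## 1. The five feature blocks -/

/-- the overlap without the site `k0` (denominator `n`) -/
def b19Qm (k0 : Fin n) (σ τ : SkCfg n) : ℝ := skOv σ τ - skSp σ k0 * skSp τ k0 / n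

/-- features of the five blocks -/
def b19Feat (k0 : Fin n) (r : Fin 5) (σ : SkCfg n) : SkDr n → ℝ :=
  ![Sum.elim (fun p : Fin n × Fin n => if p.1 = k0 ∨ p.2 = k0 then 0 else skSp σ p.1 * skSp σ p.2 / Real.sqrt (2 * n)) (fun _ => 0),
    Sum.elim (fun _ => 0) (fun i => if i = k0 then 0 else skSp σ i),
    Sum.elim (fun _ => 0) (fun i => if i = k0 then skSp σ k0 else 0),
    Sum.elim (fun _ => 0) (fun i => if i = k0 then 0 else skSp σ k0 * skSp σ i / Real.sqrt n),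
    Sum.elim (fun _ => 0) (fun i => if i = k0 then 1 else 0)] r

/-- kernels of the five blocks (closed form) -/
def b19Ker (k0 : Fin n) (r : Fin 5) (σ τ : SkCfg n) : ℝ :=
  ![n * b19Qm k0 σ τ ^ 2 / 2, n * b19Qm k0 σ τ, skSp σ k0 * skSp τ k0, skSp σ k0 * skSp τ k0 * b19Qm k0 σ τ, 1] r

/-! ## 2. Clock systems and their tree numbers -/

/-- the hierarchy (mass, increments of the five blocks) of the clock system `c` with the masses of `P` -/
def b19Hs (a : ℝ) (P : SkStp) (c : ℕ → Fin 5 → ℝ) : List (ℝ × (Fin 5 → ℝ)) :=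
  (List.range P.length).map fun j => (skMs a P j, fun r => c (j + 1) r - c j r)

/-- the affine family from `c0` to `c1` -/
def b19Aff (a : ℝ) (P : SkStp) (c0 c1 : ℕ → Fin 5 → ℝ) : List (ℝ × (Fin 5 → ℝ) × (Fin 5 → ℝ)) :=
  (List.range P.length).map fun j =>
    (skMs a P j, (fun r => c0 (j + 1) r - c0 j r), fun r => (c1 (j + 1) r - c1 j r) - (c0 (j + 1) r - c0 j r))

/-- the segment of clock systems -/
def b19Seg (c0 c1 : ℕ → Fin 5 → ℝ) (θ : ℝ) : ℕ → Fin 5 → ℝ := fun j r => c0 j r + θ * (c1 j r - c0 j r)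

/-- nondecreasing clocks -/
def B19Mono (N : ℕ) (c : ℕ → Fin 5 → ℝ) : Prop := ∀ j, j < N → ∀ r, c j r ≤ c (j + 1) r

/-- **tree number of a clock system** (zero root field, spin tests) -/
def b19Nu (k0 : Fin n) (a : ℝ) (P : SkStp) (c : ℕ → Fin 5 → ℝ) (q : ℕ) (τ : ℕ → ℕ → ℕ) (f : (ℕ → SkCfg n) → ℝ) : ℝ :=
  trNu (skBase n a) (gcLs (b19Feat k0) (b19Hs a P c)) q τ 0 f

/-- tree number of the SK law itself -/
def b19Sk (n : ℕ) (a : ℝ) (P : SkStp) (q : ℕ) (τ : ℕ → ℕ → ℕ) (f : (ℕ → SkCfg n) → ℝ) : ℝ :=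
  trNu (skBase n a) (skLvs n P) q τ 0 f

/-- the insertion of the direction `dc` for a pair which shares `t` stages -/
def b19V (k0 : Fin n) (dc : ℕ → Fin 5 → ℝ) (N t : ℕ) (σ σ' : SkCfg n) : ℝ :=
  ∑ r, (dc (min t N) r - dc 0 r) * b19Ker k0 r σ σ'

/-! ## 3. The row law -/

/-- `K_j = h_j + b_j S_j` -/
def b19K (n : ℕ) (a : ℝ) (P : SkStp) (j : ℕ) : ℝ := skCumH P j + skCumB P j * obS n a P 0 j

/-- `s` below the cut `H`, `1` from `H` on -/
def b19Lam (H : ℕ) (s : ℝ) (j : ℕ) : ℝ := if j < H then s else 1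

/-- **the row law** -/
def b19C (n : ℕ) (a : ℝ) (P : SkStp) (lam : ℕ → ℝ) (t : ℝ) : ℕ → Fin 5 → ℝ := fun j =>
  ![skCumB P j, skCumH P j, lam j * ((1 - t) * b19K n a P j + t * skCumH P j), lam j * (t * skCumB P j), skCumB P j / (2 * n)]

/-- the row law with `lam = 1` -/
def b19Ct (n : ℕ) (a : ℝ) (P : SkStp) (t : ℝ) : ℕ → Fin 5 → ℝ := b19C n a P (fun _ => 1) t

/-- product of the spins at the site `k0` of the labels of `A` -/
def b19Sp (k0 : Fin n) (A : Finset ℕ) (σ : ℕ → SkCfg n) : ℝ := ∏ x ∈ A, skSp (σ x) k0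

/-- centred deleted overlap of the pair `(c,d)` at the level `r` -/
def b19Dl (k0 : Fin n) (a : ℝ) (P : SkStp) (r c d : ℕ) (σ : ℕ → SkCfg n) : ℝ := b19Qm k0 (σ c) (σ d) - obS n a P 0 r

/-- the mismatch `J_cd = b_r (Qm_cd - S_r)`, `r = τ c d` -/
def b19J (k0 : Fin n) (a : ℝ) (P : SkStp) (τ : ℕ → ℕ → ℕ) (c d : ℕ) (σ : ℕ → SkCfg n) : ℝ :=
  skCumB P (τ c d) * b19Dl k0 a P (τ c d) c d σ

/-! ## 4. The one-site system -/

/-- the scalar step path: masses of `P`, field clock `K` -/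
def b19KP (n : ℕ) (a : ℝ) (P : SkStp) : SkStp :=
  (List.range P.length).map fun j => ⟨skMs a P j, 0, b19K n a P (j + 1) - b19K n a P j⟩

/-- scalar moment of the spins of the labels of `A` on the tree `τ` -/
def b19Sc (n : ℕ) (a : ℝ) (P : SkStp) (q : ℕ) (τ : ℕ → ℕ → ℕ) (A : Finset ℕ) : ℝ :=
  trNu (skBase 1 a) (skLvs 1 (b19KP n a P)) q τ 0 fun σ => ∏ x ∈ A, skSp (σ x) 0

/-- `Γ_K(K_i)` -/
def b19Gam (n : ℕ) (a : ℝ) (P : SkStp) (i : ℕ) : ℝ := obS 1 a (b19KP n a P) 0 i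

/-! ## 5. Signed sums over off-diagonal pairs -/

/-- half the signed sum over the attachments of the pair `(q, q+1)`, diagonal omitted -/
def b19D (ms : ℕ → ℝ) (N q : ℕ) (τ : ℕ → ℕ → ℕ) (G : (ℕ → ℕ → ℕ) → ℝ) : ℝ :=
  1 / 2 * trSumK ms N 2 q τ fun τ' => if τ' q (q + 1) ≤ N then G τ' else 0

/-- the same with absolute weights -/
def b19A (ms : ℕ → ℝ) (N q : ℕ) (τ : ℕ → ℕ → ℕ) (G : (ℕ → ℕ → ℕ) → ℝ) : ℝ :=
  1 / 2 * trAbsK ms N 2 q τ fun τ' => if τ' q (q + 1) ≤ N then G τ' else 0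

/-- the measure `δ_i + dm` on the levels -/
def b19Mu (a : ℝ) (P : SkStp) (i : ℕ) (f : ℕ → ℝ) : ℝ := f i + ∑ j ∈ Finset.range (P.length + 1), skGap a P j * f j

/-! ## 6. Trees -/

/-- the star: all distinct labels share exactly `i` stages (`q = 2`: the observed tree) -/
def b19St (N i : ℕ) : ℕ → ℕ → ℕ := fun x y => if x = y then N + 1 else i

/-- `0, 1` split at `i`; `2` follows `0` and `3` follows `1` up to `κ` -/
def b19TZ (N i κ : ℕ) : ℕ → ℕ → ℕ := fun x y => if x = y then N + 1 else if x % 2 = y % 2 then κ else i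

/-- `0, 1` split at `i`; `2, 3` split at `v`; `2, 3` leave `0` at `r2` and `1` at `r3` -/
def b19TN (N i r2 r3 v : ℕ) : ℕ → ℕ → ℕ := fun x y =>
  if x = y then N + 1 else if x ≤ 1 ∧ y ≤ 1 then i else if 2 ≤ x ∧ 2 ≤ y then v else if min x y = 0 then r2 else r3

/-- the admissible pairs `(r2, r3)` for the projection cut `κ` -/
def B19R (i κ r2 r3 : ℕ) : Prop :=
  (i < r2 ∧ r2 ≤ κ ∧ r3 = i) ∨ (i < r3 ∧ r3 ≤ κ ∧ r2 = i) ∨ (r2 = r3 ∧ r2 ≤ i)

/-! ## 7. Numbers of the SK law (deleted overlaps) -/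

/-- `‖Qm - S_r‖_p` for a pair at the level `r` -/
def b19Nm (k0 : Fin n) (a : ℝ) (P : SkStp) (p : ℝ) (r : ℕ) : ℝ :=
  (b19Sk n a P 2 (b19St P.length r) fun σ => |b19Dl k0 a P r 0 1 σ| ^ p) ^ (1 / p)

/-- `‖Qm - S_r‖_2` -/
def b19Dm (k0 : Fin n) (a : ℝ) (P : SkStp) (r : ℕ) : ℝ := b19Nm k0 a P 2 r

/-- `‖Qm‖_p` for a pair at the level `r` -/
def b19NQ (k0 : Fin n) (a : ℝ) (P : SkStp) (p : ℝ) (r : ℕ) : ℝ :=
  (b19Sk n a P 2 (b19St P.length r) fun σ => |b19Qm k0 (σ 0) (σ 1)| ^ p) ^ (1 / p)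

/-- `E m_i²`: four children of one vertex of depth `i` -/
def b19E4 (k0 : Fin n) (a : ℝ) (P : SkStp) (i : ℕ) : ℝ :=
  b19Sk n a P 4 (b19St P.length i) fun σ => b19Dl k0 a P i 0 1 σ * b19Dl k0 a P i 2 3 σ

/-- `E η²` (alias error) -/
def b19Het (k0 : Fin n) (a : ℝ) (P : SkStp) (i : ℕ) : ℝ := b19Dm k0 a P i ^ 2 - b19E4 k0 a P i

/-- `‖Qm_01 - Qm_23‖_2` on `b19TZ`: the pinned overlap against its projection to the cut `κ` -/
def b19Zm (k0 : Fin n) (a : ℝ) (P : SkStp) (i κ : ℕ) : ℝ :=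
  Real.sqrt (b19Sk n a P 4 (b19TZ P.length i κ) fun σ => (b19Qm k0 (σ 0) (σ 1) - b19Qm k0 (σ 2) (σ 3)) ^ 2)

/-- the projected pinned factor against a high pair -/
def b19NN (k0 : Fin n) (a : ℝ) (P : SkStp) (i r2 r3 v : ℕ) : ℝ :=
  b19Sk n a P 4 (b19TN P.length i r2 r3 v) fun σ => b19Dl k0 a P i 0 1 σ * b19Dl k0 a P v 2 3 σ

/-! ## 8. Scalar coefficients -/

/-- `c6 = sc[012345]/2 - sc[0123] sc[45]` (to be used with `b19D ∘ b19D`) -/
def b19c6 (n : ℕ) (a : ℝ) (P : SkStp) (τ : ℕ → ℕ → ℕ) : ℝ :=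
  b19Sc n a P 6 τ (Finset.range 6) / 2 - b19Sc n a P 6 τ (Finset.range 4) * b19Sc n a P 6 τ {4, 5}

/-- **the pinned coefficient** `= Γ''/2` (see `b19_cp_eval`) -/
def b19Cp (n : ℕ) (a : ℝ) (P : SkStp) (i : ℕ) : ℝ :=
  b19D (skMs a P) P.length 2 (b19St P.length i) fun τ₁ => b19D (skMs a P) P.length 4 τ₁ fun τ₂ =>
    if τ₂ 2 3 = i ∧ τ₂ 4 5 = i then b19Sc n a P 6 τ₂ (Finset.range 6) / 2 else 0

/-! ## 9. The right-hand side of MASTER -/

/-- `‖Q - c‖_p` (FULL overlap) for a pair at the level `r` -/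
def b19Nf (n : ℕ) (a : ℝ) (P : SkStp) (p : ℝ) (r : ℕ) (c : ℝ) : ℝ :=
  (b19Sk n a P 2 (b19St P.length r) fun σ => |skOv (σ 0) (σ 1) - c| ^ p) ^ (1 / p)

/-- the alias error `B_i - E|X_i|⁴` (full overlaps) -/
def b19Al (n : ℕ) (a : ℝ) (P : SkStp) (i : ℕ) : ℝ :=
  obB n a P 0 i - b19Sk n a P 4 (b19St P.length i) fun σ => skOv (σ 0) (σ 1) * skOv (σ 2) (σ 3)

/-- `‖Q_01 - Q_23‖_2` on `b19TZ` (full overlaps); its square is `2 E (Q_i - X¹_κ · X²_κ)²` -/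
def b19Zf (n : ℕ) (a : ℝ) (P : SkStp) (i κ : ℕ) : ℝ :=
  Real.sqrt (b19Sk n a P 4 (b19TZ P.length i κ) fun σ => (skOv (σ 0) (σ 1) - skOv (σ 2) (σ 3)) ^ 2)

/-- `0` = the path; `1, 2` leave it at `v`; `3, 4` leave it at `w` (step form of `bdCut5`) -/
def b19T5 (N v w : ℕ) : ℕ → ℕ → ℕ := fun x y => if x = y then N + 1 else
  min (if x = 0 then N + 1 else if x ≤ 2 then v else w) (if y = 0 then N + 1 else if y ≤ 2 then v else w)

/-- `‖∑_v gap_v k_v (L_v - E L_v)‖_2²` as a double sum of tree numbers (step form of `BdQ.pr2`) -/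
def b19Pr2 (n : ℕ) (a : ℝ) (P : SkStp) (k : ℕ → ℝ) : ℝ :=
  ∑ v ∈ Finset.range (P.length + 1), ∑ w ∈ Finset.range (P.length + 1), skGap a P v * skGap a P w * (k v * k w) *
    (b19Sk n a P 5 (b19T5 P.length v w)
        (fun σ => (skOv (σ 0) (σ 1) - skOv (σ 1) (σ 2) / 2) * (skOv (σ 0) (σ 3) - skOv (σ 3) (σ 4) / 2))
      - obS n a P 0 v * obS n a P 0 w / 4)

/-- `∑_{lo ≤ j < hi} gap_j D_j^s` -/
def b19IG (a : ℝ) (P : SkStp) (D : ℕ → ℝ) (lo hi : ℕ) (s : ℝ) : ℝ := ∑ j ∈ Finset.Ico lo hi, skGap a P j * D j ^ s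

/-- the dyads `[e j, e (j+1))`, `j < R`, cover the high cuts `[H, N]`; `κ j` = projection cut of the dyad -/
structure B19Dy (i H N R : ℕ) (e κ : ℕ → ℕ) : Prop where
  e0 : e 0 = H
  eR : e R = N + 1
  mono : ∀ j, j < R → e j < e (j + 1)
  lo : ∀ j, j < R → i < κ j
  hi : ∀ j, j < R → κ j ≤ e j

/-- **the right-hand side of MASTER** as a function of its numbers: `ε` (`= 1/n`), `cp` pinned coefficient, `KH = K_H`, `Al` alias error at `i`, `N4, Np` = `‖Q_i - S_i‖_4, _p`,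
`NQ ≥ ‖Q_r‖_p` (`r < H`), `θ = 1 - 1/p`, `D j` = `‖Q_j - S_j‖_2`, `Z κ` = projection error of the pinned overlap, `Prim j` = centred primitive over the dyad `j` -/
def b19RhsG (a : ℝ) (P : SkStp) (i H R : ℕ) (e κ : ℕ → ℕ) (ε cp KH Al N4 Np NQ θ : ℝ) (D Z Prim : ℕ → ℝ) : ℝ :=
  ε + skGap a P i + |cp| * D i ^ 2 + (KH + skMs a P i) * Al + D i * b19IG a P D 0 H 1
    + ∑ j ∈ Finset.range R, (Z (κ j) * b19IG a P D (e j) (e (j + 1)) 1 + D i * Prim j)
    + b19IG a P D 0 H 2 + b19IG a P D 0 H 1 ^ 2 + b19IG a P D 0 H 1 * b19IG a P D H (P.length + 1) 1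
    + KH * (b19IG a P D H (P.length + 1) 1 ^ 2 + b19IG a P D H (P.length + 1) 2)
    + D i * N4 ^ 2 + N4 ^ 2 * (b19IG a P D 0 H 1 + b19IG a P D H (P.length + 1) 1)
    + (Np + NQ + KH) * (b19IG a P D H (P.length + 1) θ ^ 2 + b19IG a P D H (P.length + 1) (2 * θ))

/-- the right-hand side with the numbers of the FULL overlaps (each enlarged by the cost `O(1/n)` of the deleted site) -/
def b19Rhs (n : ℕ) (a : ℝ) (P : SkStp) (p : ℝ) (i H R : ℕ) (e κ : ℕ → ℕ) (Prim : ℕ → ℝ) (NQ : ℝ) : ℝ :=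
  b19RhsG a P i H R e κ (1 / n) (b19Cp n a P i) (b19K n a P H) (2 * b19Al n a P i + 4 / (n : ℝ) ^ 2)
    (b19Nf n a P 4 i (obS n a P 0 i) + 1 / n) (b19Nf n a P p i (obS n a P 0 i) + 1 / n) (NQ + 1 / n) (1 - 1 / p)
    (fun j => bmD n a P j + 1 / n) (fun κ => b19Zf n a P i κ + 2 / n) Prim

/-- the right-hand side with the numbers of the DELETED overlaps -/
def b19RhsM (k0 : Fin n) (a : ℝ) (P : SkStp) (p : ℝ) (i H R : ℕ) (e κ : ℕ → ℕ) (Prim : ℕ → ℝ) (NQ : ℝ) : ℝ :=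
  b19RhsG a P i H R e κ (1 / n) (b19Cp n a P i) (b19K n a P H) (b19Het k0 a P i) (b19Nm k0 a P 4 i)
    (b19Nm k0 a P p i) NQ (1 - 1 / p) (b19Dm k0 a P) (b19Zm k0 a P i) Prim

/-- the hypothesis on the primitives -/
def B19Prim (n : ℕ) (a : ℝ) (P : SkStp) (R : ℕ) (e : ℕ → ℕ) (Prim : ℕ → ℝ) : Prop :=
  ∀ j, j < R → 0 ≤ Prim j ∧ ∀ k : ℕ → ℝ, (∀ v, |k v| ≤ 1) → (∀ v, v ∉ Finset.Ico (e j) (e (j + 1)) → k v = 0) →
    b19Pr2 n a P k ≤ Prim j ^ 2

/-! ## 10. Sums over the extensions of the observed tree, tests, majorants -/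

/-- an extension of the observed tree `{0,1}` (split at `i`) by `k` OFF-DIAGONAL pairs `(2,3), (4,5), ..` -/
def B19Tr (N i k : ℕ) (τ : ℕ → ℕ → ℕ) : Prop :=
  IsTr N (2 + 2 * k) τ ∧ τ 0 1 = i ∧ ∀ m, m < k → τ (2 + 2 * m) (3 + 2 * m) ≤ N

/-- signed sum over two pairs attached to the observed tree (factor `1/4` included) -/
def b19D2 (a : ℝ) (P : SkStp) (i : ℕ) (G : (ℕ → ℕ → ℕ) → ℝ) : ℝ :=
  b19D (skMs a P) P.length 2 (b19St P.length i) fun τ₁ => b19D (skMs a P) P.length 4 τ₁ G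

/-- absolute sum over two pairs (factor `1/4` included) -/
def b19A2 (a : ℝ) (P : SkStp) (i : ℕ) (G : (ℕ → ℕ → ℕ) → ℝ) : ℝ :=
  b19A (skMs a P) P.length 2 (b19St P.length i) fun τ₁ => b19A (skMs a P) P.length 4 τ₁ G

/-- absolute sum over three pairs (factor `1/8` included) -/
def b19A3 (a : ℝ) (P : SkStp) (i : ℕ) (G : (ℕ → ℕ → ℕ) → ℝ) : ℝ :=
  b19A (skMs a P) P.length 2 (b19St P.length i) fun τ₁ => b19A (skMs a P) P.length 4 τ₁ fun τ₂ =>
    b19A (skMs a P) P.length 6 τ₂ G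

/-- the product of the mismatch factors of the pairs `(2,3), .., (2k, 2k+1)` -/
def b19JJ (k0 : Fin n) (a : ℝ) (P : SkStp) (τ : ℕ → ℕ → ℕ) (k : ℕ) (σ : ℕ → SkCfg n) : ℝ :=
  ∏ m ∈ Finset.range k, b19J k0 a P τ (2 + 2 * m) (3 + 2 * m) σ

/-- `χ_τ(1)`: two mismatch factors under the SK law -/
def b19Chi (k0 : Fin n) (a : ℝ) (P : SkStp) (τ : ℕ → ℕ → ℕ) : ℝ := b19Sk n a P 6 τ (b19JJ k0 a P τ 2)

/-- three mismatch factors and the site spins of `A` under the row law at `t` -/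
def b19T3 (k0 : Fin n) (a : ℝ) (P : SkStp) (A : Finset ℕ) (t : ℝ) (τ : ℕ → ℕ → ℕ) : ℝ :=
  b19Nu k0 a P (b19Ct n a P t) 8 τ fun σ => b19Sp k0 A σ * b19JJ k0 a P τ 3 σ

/-- class L: `D` at the low levels `r < H`, `r ≠ i` -/
def b19dL (k0 : Fin n) (a : ℝ) (P : SkStp) (i H r : ℕ) : ℝ := if r < H ∧ r ≠ i then b19Dm k0 a P r else 0

/-- class H: `D^s` at the high levels `H ≤ r` (`s = 0`: the indicator) -/
def b19dH (k0 : Fin n) (a : ℝ) (P : SkStp) (H : ℕ) (s : ℝ) (r : ℕ) : ℝ := if H ≤ r then b19Dm k0 a P r ^ s else 0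

/-- class p: the indicator of the level `i` -/
def b19dp (i r : ℕ) : ℝ := if r = i then 1 else 0

/-- symmetrisation over the three slots -/
def b19Sym3 (f g h : ℕ → ℝ) (r1 r2 r3 : ℕ) : ℝ :=
  f r1 * g r2 * h r3 + f r1 * g r3 * h r2 + f r2 * g r1 * h r3 + f r2 * g r3 * h r1 + f r3 * g r1 * h r2 + f r3 * g r2 * h r1

/-- majorant of the degree three terms, as a function of the levels of the three pairs -/
def b19Maj3 (k0 : Fin n) (a : ℝ) (P : SkStp) (p : ℝ) (i H : ℕ) (NQ : ℝ) (r1 r2 r3 : ℕ) : ℝ :=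
  b19Sym3 (b19dL k0 a P i H) (b19dL k0 a P i H) (fun _ => 1) r1 r2 r3
    + b19Sym3 (b19dL k0 a P i H) (b19dH k0 a P H 1) (fun _ => 1) r1 r2 r3
    + b19Dm k0 a P i * b19Nm k0 a P 4 i ^ 2 * (b19dp i r1 * b19dp i r2 * b19dp i r3)
    + b19Nm k0 a P 4 i ^ 2 * b19Sym3 (b19dp i) (b19dp i) (fun r => b19dL k0 a P i H r + b19dH k0 a P H 1 r) r1 r2 r3
    + b19Nm k0 a P p i * b19Sym3 (b19dp i) (b19dH k0 a P H (1 - 1 / p)) (b19dH k0 a P H (1 - 1 / p)) r1 r2 r3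
    + (NQ + b19K n a P H) * b19Sym3 (b19dH k0 a P H (1 - 1 / p)) (b19dH k0 a P H (1 - 1 / p)) (b19dH k0 a P H 0) r1 r2 r3

/-- majorant of the degree two terms outside the classes pp, pH, Hp -/
def b19Maj2 (k0 : Fin n) (a : ℝ) (P : SkStp) (i H : ℕ) (r1 r2 : ℕ) : ℝ :=
  b19dL k0 a P i H r1 * b19dL k0 a P i H r2 + b19dL k0 a P i H r1 * b19dH k0 a P H 1 r2
    + b19dH k0 a P H 1 r1 * b19dL k0 a P i H r2 + b19K n a P H * (b19dH k0 a P H 1 r1 * b19dH k0 a P H 1 r2)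
    + b19Dm k0 a P i * (b19dp i r1 * b19dL k0 a P i H r2 + b19dL k0 a P i H r1 * b19dp i r2)

/-- **the standing hypotheses of MASTER**: `n ≥ 2` sites, terminal mass `a ≤ A0`, admissible step path, `b_N ≤ M0`, `K_H ≤ M0`, observed cut `i < H ≤ N` -/
structure B19Hyp (n : ℕ) (a : ℝ) (P : SkStp) (A0 M0 : ℝ) (i H : ℕ) : Prop where
  n2 : 2 ≤ n
  a0 : 0 < a
  aA : a ≤ A0
  adm : SkAdm a P
  bM : skCumB P P.length ≤ M0
  KM : b19K n a P H ≤ M0
  iH : i < H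
  HN : H ≤ P.length

theorem b19_defs_eqns_cite : True := by
  have := @b19Qm.eq_1; have := @b19Feat.eq_1; have := @b19Ker.eq_1; have := @b19Hs.eq_1; have := @b19Aff.eq_1
  have := @b19Seg.eq_1; have := @B19Mono.eq_1; have := @b19Nu.eq_1; have := @b19Sk.eq_1; have := @b19V.eq_1
  have := @b19K.eq_1; have := @b19Lam.eq_1; have := @b19C.eq_1; have := @b19Ct.eq_1; have := @b19Sp.eq_1
  have := @b19Dl.eq_1; have := @b19J.eq_1; have := @b19KP.eq_1; have := @b19Sc.eq_1; have := @b19Gam.eq_1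
  have := @b19D.eq_1; have := @b19A.eq_1; have := @b19Mu.eq_1; have := @b19St.eq_1; have := @b19TZ.eq_1
  have := @b19TN.eq_1; have := @B19R.eq_1; have := @b19Nm.eq_1; have := @b19Dm.eq_1; have := @b19NQ.eq_1
  have := @b19E4.eq_1; have := @b19Het.eq_1; have := @b19Zm.eq_1; have := @b19NN.eq_1; have := @b19c6.eq_1
  have := @b19Cp.eq_1; have := @b19Nf.eq_1; have := @b19Al.eq_1; have := @b19Zf.eq_1; have := @b19T5.eq_1
  have := @b19Pr2.eq_1; have := @b19IG.eq_1; have := @b19RhsG.eq_1; have := @b19Rhs.eq_1; have := @b19RhsM.eq_1; have := @B19Prim.eq_1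
  have := @B19Tr.eq_1; have := @b19D2.eq_1; have := @b19A2.eq_1; have := @b19A3.eq_1; have := @b19JJ.eq_1; have := @b19Chi.eq_1
  have := @b19T3.eq_1; have := @b19dL.eq_1; have := @b19dH.eq_1; have := @b19dp.eq_1; have := @b19Sym3.eq_1; have := @b19Maj3.eq_1
  have := @b19Maj2.eq_1
  trivial

end

end Claimed.Agent.R286
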