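import Claimed.Agent.R286.Bud.C19Pt

/-!
# Row 286, LL sec. 7, node N17 = Prop. `bud:closure` (C19): THE POINTWISE FORM FROM THE MASTER INEQUALITY, PART 2; (C19)      (owner helper61; names `bcl_*`, `BudB.PtC`, `BudB.ptL`)

 §3f  the 12 terms of `BdQ.cloR` (asymptotic calculus of 19/298 along `bdU` on the instances (violation, mass)): `bcl_cloR : cloR ≪ u³ P₁ · yv`
 §3   `bcl_point : CloMI + (C8) + (C15a) + (C16) + (C17) + Drift + ... ⟹ CloPt`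
 §4   `bcl_c19` = the statement of `BudB.c19` (HubB) with the extra predecessors.        ALL PROVED (0 sorry in `C19Box`, `C19Pt`, `C19Fin`).
-/

set_option autoImplicit false

namespace Claimed.Agent.R286

open MeasureTheory Set Filter Topology Asymptotics

noncomputable section

namespace BudB

variable {X : BdFix} {W : BdWorld} {Fam : BdFr → Prop} {K : BdCst}

/-! ### 3f. the twelve terms -/

section gen

variable {ι : Type} {l : Filter ι} {sN coef B σ Xv TOL Y : ι → ℝ}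

theorem bcl_mulY (h : AqPoly l sN (fun j => coef j * σ j) TOL) (h3 : ∀ᶠ j in l, |Xv j| ≤ σ j * Y j) :
    AqPoly l sN (fun j => coef j * Xv j) (fun j => TOL j * Y j) := by
  obtain ⟨c, hc, hO⟩ := h
  refine ⟨c, hc, ?_⟩
  have h1 : (fun j => coef j * σ j * Y j) =O[l] fun j => sN j ^ (-c) * TOL j * Y j := hO.mul (isBigO_refl Y l)
  have h2 : (fun j => coef j * Xv j) =O[l] fun j => coef j * σ j * Y j := by
    refine IsBigO.of_bound 1 (h3.mono fun j hj => ?_)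
    rw [one_mul, Real.norm_eq_abs, Real.norm_eq_abs, abs_mul, mul_assoc, abs_mul]
    exact mul_le_mul_of_nonneg_left (hj.trans (le_abs_self _)) (abs_nonneg _)
  exact (h2.trans h1).congr_right fun j => by ring

/-- `coef ≲_∘ B`, `B σ ≪ TOL`, `|Xv| ≤ σ Y`  ⟹  `coef Xv ≪ TOL Y` -/
theorem bcl_term (hs : Tendsto sN l atTop) (h1 : AqSub l sN coef B) (h2 : AqPoly l sN (fun j => B j * σ j) TOL)
    (h3 : ∀ᶠ j in l, |Xv j| ≤ σ j * Y j) : AqPoly l sN (fun j => coef j * Xv j) (fun j => TOL j * Y j) :=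
  bcl_mulY (AqPoly.sub_trans (h1.mul (aq_sub_refl hs σ) hs) h2 hs) h3

/-- the same without a factor -/
theorem bcl_term1 (hs : Tendsto sN l atTop) (h1 : AqSub l sN coef B) (h2 : AqPoly l sN B TOL)
    (h3 : ∀ᶠ j in l, 1 ≤ Y j) : AqPoly l sN coef (fun j => TOL j * Y j) := by
  have := bcl_term (σ := fun _ => 1) (Xv := fun _ => 1) (Y := Y) hs h1 (by simpa using h2)
    (h3.mono fun j hj => by simpa using hj)
  simpa using this

end gen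

variable (X W Fam) in
/-- the class of the pointwise form -/
def PtC (n : ℕ) (s : ℝ) (j : BdVI X W × ℝ) : Prop :=
  VSt X W Fam n j.1 ∧ j.2 ∈ Ioo (0 : ℝ) 1 ∧ j.1.V.Q.r j.2 ∈ Ioo (j.1.V.r0 - s * j.1.V.bbuf) (j.1.V.r0 + s * j.1.V.bbuf) ∧
    ContinuousAt (j.1.V.Q.bq j.1.V.g) j.2 ∧ ContinuousAt (j.1.V.Q.hq j.1.V.g) j.2 ∧ ContinuousAt (j.1.V.Q.Sq W j.1.V.g) j.2

variable (X W Fam) in
/-- "size `→ ∞`" on the class of the pointwise form -/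
def ptL (n : ℕ) (s : ℝ) : Filter (BdVI X W × ℝ) := bdU (fun j : BdVI X W × ℝ => j.1.F.N) (PtC X W Fam n s)

theorem bcl_ptc_eqns_cite : True := by
  have := @PtC.eq_1; have := @ptL.eq_1
  trivial

section cal

variable {n : ℕ} {s : ℝ}

theorem bcl_pt_scale : Tendsto (fun j : BdVI X W × ℝ => (j.1.F.N : ℝ)) (ptL X W Fam n s) atTop := bcl_U_scale _ _

theorem bcl_pt_ev {Φ : BdVI X W × ℝ → Prop} (h : ∃ N0 : ℕ, ∀ j, PtC X W Fam n s j → N0 ≤ j.1.F.N → Φ j) :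
    ∀ᶠ j in ptL X W Fam n s, Φ j := bd_ev_iff.2 h

/-- eventually: the elementary facts and the class -/
theorem bcl_pt_vf (hS : BdStd X W Fam K) (hn : n ≤ X.J + 1) (hZ : BudZ X W Fam n) :
    ∀ᶠ j in ptL X W Fam n s, VF Fam j.1 ∧ PtC X W Fam n s j := by
  obtain ⟨N0, h⟩ := bcl_vf hS hn hZ
  exact bcl_pt_ev ⟨N0, fun j hj hN => ⟨h j.1 hj.1 hN, hj⟩⟩

/-- a margin `≤ K λ^e · tol` is a power saving -/
theorem bcl_num (hS : BdStd X W Fam K) (hn : n ≤ X.J + 1) (hZ : BudZ X W Fam n) {A : BdVI X W × ℝ → ℝ} {e Kc : ℝ} (he : 0 < e) (hK : 0 ≤ Kc)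
    (h : ∀ j : BdVI X W × ℝ, VF Fam j.1 → |A j| ≤ Kc * (j.1.F.lam ^ e * tol X W j.1)) :
    AqPoly (ptL X W Fam n s) (fun j => (j.1.F.N : ℝ)) A (fun j => tol X W j.1) := by
  have hX := hS.fix
  have hc : 0 < e * X.pS / 6 := by have := hX.pS_pos; positivity
  refine AqPoly.of_le (K := Kc) hc ((bcl_pt_vf hS hn hZ).mono fun j hj => (h j hj.1).trans ?_)
  refine mul_le_mul_of_nonneg_left ?_ hK
  exact mul_le_mul_of_nonneg_right (BdFr.bpf_lam_le_N hj.1.ok he.le) (hj.1.tol_pos hX).le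

/-- the four factors against `yv` -/
theorem bcl_Y (hS : BdStd X W Fam K) (hx4 : CloX4 X W) {i : BdVI X W} (hv : VF Fam i) {v : ℝ} (hv01 : v ∈ Ioo (0 : ℝ) 1) :
    1 ≤ yv X W i v ∧ |i.V.Q.Dq W i.V.g v| ≤ i.V.d0 * i.F.lam ^ (0.07 : ℝ) * yv X W i v ∧
    |i.V.Q.Dq2 W i.V.g v| ≤ i.V.d0 ^ 2 * i.F.lam ^ (0.14 : ℝ) * yv X W i v ∧
    |i.V.Q.alErr W i.V.g v| ≤ i.F.lam ^ (-X.rho) * i.F.u ^ 2 * i.F.A ^ 3 * yv X W i v := by
  have hX := hS.fix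
  obtain ⟨hbq, hhq⟩ := hS.clk i.F hv.fam i.V.g hv.g0 i.V.Q
  have he0 := (hx4 ⟨i.F, i.V.g, i.V.Q⟩ hv.m2 hbq hhq).2 v hv01
  have hD0 := bcl_D2_nonneg hS hv.fam hv.g0 i.V.Q hv01
  have s2 := hv.s2_pos hX
  have s3 := hv.s3_pos hX
  have hl := hv.hyp.lam0
  have hd0 := hv.d0_pos hX
  set σ1 := i.V.d0 * i.F.lam ^ (0.07 : ℝ) with hσ1
  have s1 : 0 < σ1 := mul_pos hd0 (Real.rpow_pos_of_pos hl _)
  have e12 : σ1 ^ 2 = i.V.d0 ^ 2 * i.F.lam ^ (0.14 : ℝ) := by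
    have : (i.F.lam ^ (0.07 : ℝ)) ^ 2 = i.F.lam ^ (0.14 : ℝ) := by
      rw [← Real.rpow_natCast, ← Real.rpow_mul hl.le]; norm_num
    rw [hσ1, mul_pow, this]
  set σ2 := i.V.d0 ^ 2 * i.F.lam ^ (0.14 : ℝ) with hσ2
  set σ3 := i.F.lam ^ (-X.rho) * i.F.u ^ 2 * i.F.A ^ 3 with hσ3
  have a2 : 0 ≤ i.V.Q.Dq2 W i.V.g v / σ2 := div_nonneg hD0 s2.le
  have a3 : 0 ≤ i.V.Q.alErr W i.V.g v / σ3 := div_nonneg he0 s3.le
  have hy : yv X W i v = 1 + i.V.Q.Dq2 W i.V.g v / σ2 + i.V.Q.alErr W i.V.g v / σ3 := rfl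
  refine ⟨by rw [hy]; linarith, ?_, ?_, ?_⟩
  · have hq0 : 0 ≤ i.V.Q.Dq W i.V.g v := Real.sqrt_nonneg _
    have hq2 : i.V.Q.Dq W i.V.g v ^ 2 = i.V.Q.Dq2 W i.V.g v := Real.sq_sqrt hD0
    rw [abs_of_nonneg hq0, hy]
    have e : σ1 * (i.V.Q.Dq2 W i.V.g v / σ2) = i.V.Q.Dq W i.V.g v ^ 2 / σ1 := by
      rw [← e12, hq2]; field_simp
    have h1 : i.V.Q.Dq W i.V.g v ≤ σ1 + i.V.Q.Dq W i.V.g v ^ 2 / σ1 := by
      rw [← sub_nonneg]
      have : σ1 + i.V.Q.Dq W i.V.g v ^ 2 / σ1 - i.V.Q.Dq W i.V.g v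
          = (σ1 ^ 2 + i.V.Q.Dq W i.V.g v ^ 2 - σ1 * i.V.Q.Dq W i.V.g v) / σ1 := by field_simp
      rw [this]
      exact div_nonneg (by nlinarith [sq_nonneg (σ1 - i.V.Q.Dq W i.V.g v)]) s1.le
    have h2 : 0 ≤ σ1 * (i.V.Q.alErr W i.V.g v / σ3) := mul_nonneg s1.le a3
    nlinarith
  · rw [abs_of_nonneg hD0, hy]
    have e : σ2 * (i.V.Q.Dq2 W i.V.g v / σ2) = i.V.Q.Dq2 W i.V.g v := by field_simp
    have h2 : 0 ≤ σ2 * (i.V.Q.alErr W i.V.g v / σ3) := mul_nonneg s2.le a3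
    nlinarith
  · rw [abs_of_nonneg he0, hy]
    have e : σ3 * (i.V.Q.alErr W i.V.g v / σ3) = i.V.Q.alErr W i.V.g v := by field_simp
    have h2 : 0 ≤ σ3 * (i.V.Q.Dq2 W i.V.g v / σ2) := mul_nonneg s3.le a2
    nlinarith

theorem bcl_pt_toI (hS : BdStd X W Fam K) (hn : n ≤ X.J + 1) :
    Tendsto (fun j : BdVI X W × ℝ => toI j.1) (ptL X W Fam n s) (bdU (fun i : BdI X => i.F.N) (fun i => i.OkSt W Fam)) :=
  bcl_U_tendsto _ (fun _ => rfl) fun _ hj => bcl_toI_st hS hn hj.1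

theorem bcl_R_I1L (hS : BdStd X W Fam K) (hn : n ≤ X.J + 1) (h : BudC16a X W Fam) :
    AqSub (ptL X W Fam n s) (fun j => (j.1.F.N : ℝ)) (fun j => j.1.V.Q.i1 W j.1.V.g 0 (X.cH * j.1.F.u))
      (fun j => j.1.F.u ^ 2 * j.1.F.T1 X) := AqSub.comp h (bcl_pt_toI hS hn)

theorem bcl_R_I2L (hS : BdStd X W Fam K) (hn : n ≤ X.J + 1) (h : BudC16b X W Fam) :
    AqSub (ptL X W Fam n s) (fun j => (j.1.F.N : ℝ)) (fun j => j.1.V.Q.i2 W j.1.V.g 0 (X.cH * j.1.F.u))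
      (fun j => j.1.F.u ^ 3 * j.1.F.T2 X) := AqSub.comp h (bcl_pt_toI hS hn)

theorem bcl_R_ITH (hS : BdStd X W Fam K) (hn : n ≤ X.J + 1) (hZ : BudZ X W Fam n) (h : BudC16c X W Fam) {θ : ℝ} (hθ : 0 < θ) (hθ2 : θ ≤ 2) :
    AqSub (ptL X W Fam n s) (fun j => (j.1.F.N : ℝ)) (fun j => j.1.V.Q.iT W j.1.V.g θ (X.cH * j.1.F.u) 1)
      (fun j => (j.1.F.u * j.1.F.A) ^ θ) := by
  have hX := hS.fix
  refine AqSub.of_le fun ε hε => ?_
  obtain ⟨C, hC, N0, hh⟩ := bcl_c16c hS hn h (ε := ε / θ) (div_pos hε hθ)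
  refine ⟨3 * C ^ θ, ?_⟩
  filter_upwards [bcl_pt_vf hS hn hZ, bcl_pt_ev (Fam := Fam) (n := n) (s := s) ⟨N0, fun j hj hN => hh j.1 hj.1 hN⟩] with j hj hM
  have hv := hj.1
  have h0 := mul_pos hX.cH_pos (hv.u_pos hX)
  have hNp := hv.N_pos hX
  have huA := mul_pos (hv.u_pos hX) (hv.A_pos hX)
  rw [abs_of_nonneg (bcl_iT_nonneg hS hv.fam hv.g0 j.1.V.Q θ (by linarith [hv.cHu]))]
  refine (hM.iTH hS hv hθ hθ2).trans (le_of_eq ?_)
  rw [Real.mul_rpow hC.le (mul_pos (Real.rpow_pos_of_pos hNp _) huA).le, Real.mul_rpow (Real.rpow_pos_of_pos hNp _).le huA.le,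
    ← Real.rpow_mul hNp.le, div_mul_cancel₀ _ hθ.ne']
  ring

theorem bcl_R_I1H (hS : BdStd X W Fam K) (hn : n ≤ X.J + 1) (hZ : BudZ X W Fam n) (h : BudC16c X W Fam) :
    AqSub (ptL X W Fam n s) (fun j => (j.1.F.N : ℝ)) (fun j => j.1.V.Q.i1 W j.1.V.g (X.cH * j.1.F.u) 1)
      (fun j => j.1.F.u * j.1.F.A) := by
  have := bcl_R_ITH (s := s) hS hn hZ h (θ := 1) one_pos (by norm_num)
  simpa [BdQ.iT, BdQ.i1] using this

theorem bcl_R_I2H (hS : BdStd X W Fam K) (hn : n ≤ X.J + 1) (hZ : BudZ X W Fam n) (h : BudC16c X W Fam) :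
    AqSub (ptL X W Fam n s) (fun j => (j.1.F.N : ℝ)) (fun j => j.1.V.Q.i2 W j.1.V.g (X.cH * j.1.F.u) 1)
      (fun j => (j.1.F.u * j.1.F.A) ^ 2) := by
  have hX := hS.fix
  refine AqSub.of_le fun ε hε => ?_
  obtain ⟨C, hC, N0, hh⟩ := bcl_c16c hS hn h (ε := ε / 2) (half_pos hε)
  refine ⟨2 * C ^ 2, ?_⟩
  filter_upwards [bcl_pt_vf hS hn hZ, bcl_pt_ev (Fam := Fam) (n := n) (s := s) ⟨N0, fun j hj hN => hh j.1 hj.1 hN⟩] with j hj hM
  have hv := hj.1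
  have h0 := mul_pos hX.cH_pos (hv.u_pos hX)
  have hNp := hv.N_pos hX
  rw [abs_of_nonneg (bcl_i2_nonneg hS hv.fam hv.g0 j.1.V.Q h0.le (by linarith [hv.cHu]) le_rfl)]
  refine (hM.i2H hS hv).trans (le_of_eq ?_)
  have e : (j.1.F.N : ℝ) ^ ε = ((j.1.F.N : ℝ) ^ (ε / 2)) ^ 2 := by
    rw [← Real.rpow_natCast, ← Real.rpow_mul hNp.le]; congr 1; push_cast; ring
  rw [e]
  ring

theorem bcl_R_nd (hS : BdStd X W Fam K) (hn : n ≤ X.J + 1) (hZ : BudZ X W Fam n) :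
    AqSub (ptL X W Fam n s) (fun j => (j.1.F.N : ℝ)) (fun j => (j.1.F.ndy X : ℝ)) (fun _ => 1) := by
  have hX := hS.fix
  refine AqSub.of_le fun ε hε => ?_
  obtain ⟨Kc, _, hK⟩ := bcl_ndy_le hX hε
  refine ⟨Kc, (bcl_pt_vf hS hn hZ).mono fun j hj => ?_⟩
  have hv := hj.1
  rw [abs_of_nonneg (Nat.cast_nonneg _), mul_one]
  exact hK j.1.F hv.ok (by linarith [hv.cHu, mul_pos hX.cH_pos (hv.u_pos hX)])

theorem bcl_bbuf_nonneg (hS : BdStd X W Fam K) {i : BdVI X W} (hi : VSt X W Fam n i) : 0 ≤ i.V.bbuf := by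
  have hF := hS.ok _ hi.1
  unfold BdViol.bbuf
  exact mul_nonneg (BdFr.bds_u_pos hF hS.fix).le (add_nonneg (Real.sqrt_nonneg _) (Real.rpow_nonneg (BdFr.bds_lam_pos hF).le _))

theorem bcl_pt_buf (hS : BdStd X W Fam K) {s' : ℝ} (hss : s ≤ s') {j : BdVI X W × ℝ} (hj : PtC X W Fam n s j) :
    j.1.V.Q.r j.2 ∈ j.1.V.Buf s' := by
  have := mul_le_mul_of_nonneg_right hss (bcl_bbuf_nonneg hS hj.1)
  exact ⟨by linarith [hj.2.2.1.1], by linarith [hj.2.2.1.2]⟩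

theorem bcl_R_nQ (hS : BdStd X W Fam K) {s15 : ℝ} (hs15 : s ≤ s15) (h15a : BudC15a X W Fam n 2 s15) {l : ℕ} (hl : 1 ≤ l) :
    (fun j : BdVI X W × ℝ => j.1.V.Q.nQ W j.1.V.g (2 * (l : ℝ)) j.2 (j.1.V.Q.Sq W j.1.V.g j.2)) =O[ptL X W Fam n s] (fun j => j.1.V.d0) :=
  (h15a l hl).mono (bcl_U_mono fun _ hj => ⟨hj.1, ⟨hj.2.1.1.le, hj.2.1.2.le⟩, bcl_pt_buf hS hs15 hj⟩)

theorem bcl_zw_nonneg {F : BdFr} (hF : F.Ok X) {w : ℝ} (hw : 0 ≤ w) : 0 ≤ F.zw X w := by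
  unfold BdFr.zw
  refine mul_nonneg (Real.rpow_nonneg (BdFr.bds_x_pos hF).le _) (le_min ?_ ?_)
  · exact inv_nonneg.2 (mul_nonneg hw (Real.sqrt_nonneg _))
  · exact mul_nonneg (Real.rpow_nonneg (BdFr.bds_lam_pos hF).le _) (Real.rpow_nonneg hw _)

theorem bcl_R_PH1 (hS : BdStd X W Fam K) (hn : n ≤ X.J + 1) (hZ : BudZ X W Fam n) (hs1 : s ≤ 1) (h16c : BudC16c X W Fam)
    (h17a : BudC17a X W Fam n 2 1) (hzw : CloZw X) :
    AqSub (ptL X W Fam n s) (fun j => (j.1.F.N : ℝ))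
      (fun j => ∑ k ∈ Finset.range (j.1.F.ndy X), j.1.V.Q.mPr W j.1.V.g 1 j.2 (X.cH * j.1.F.u * 2 ^ k / 2) ^ (1 / (2 * ((1 : ℕ) : ℝ)))
        * j.1.V.Q.i1 W j.1.V.g (X.cH * j.1.F.u * 2 ^ k) (min (2 * (X.cH * j.1.F.u * 2 ^ k)) 1))
      (fun j => j.1.F.u ^ 2 * j.1.F.Xr ^ 3 * j.1.F.Lam ^ (-(1 / 3) : ℝ) * j.1.F.lam ^ (-(1 / 6) : ℝ) * (j.1.F.u * j.1.F.A)) := by
  have hX := hS.fix
  refine AqSub.of_le fun ε hε => ?_
  have hε3 : 0 < ε / 3 := by positivity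
  obtain ⟨C1, hC1, N1, h1⟩ := bcl_sub_le (h17a 1 le_rfl) (fun i hi => by
    have hF := hS.ok _ hi.1.1
    exact bcl_zw_nonneg hF ((mul_pos hX.cH_pos (BdFr.bds_u_pos hF hX)).le.trans hi.2.2.2.1)) hε3
  obtain ⟨C2, hC2, N2, h2⟩ := bcl_c16c hS hn h16c hε3
  obtain ⟨Cz, Nz, hz⟩ := hzw
  obtain ⟨Kn, hKn, hnd⟩ := bcl_ndy_le hX hε3
  refine ⟨Kn * (2 * C1 * C2 * max Cz 0), ?_⟩
  filter_upwards [bcl_pt_vf hS hn hZ, bcl_pt_ev (Fam := Fam) (n := n) (s := s) ⟨max (max N1 N2) Nz, fun j _ hN => hN⟩] with j hj hN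
  obtain ⟨hv, hc⟩ := hj
  have hN1 : N1 ≤ j.1.F.N := le_trans (le_trans (le_max_left _ _) (le_max_left _ _)) hN
  have hN2 : N2 ≤ j.1.F.N := le_trans (le_trans (le_max_right _ _) (le_max_left _ _)) hN
  have hNz : Nz ≤ j.1.F.N := le_trans (le_max_right _ _) hN
  have hM := h2 j.1 hc.1 hN2
  have hNp := hv.N_pos hX
  have h0 := mul_pos hX.cH_pos (hv.u_pos hX)
  set Ne := (j.1.F.N : ℝ) ^ (ε / 3) with hNe
  have hNe0 : 0 < Ne := Real.rpow_pos_of_pos hNp _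
  set hp := j.1.F.u ^ 2 * j.1.F.Xr ^ 3 * j.1.F.Lam ^ (-(1 / 3) : ℝ) * j.1.F.lam ^ (-(1 / 6) : ℝ) with hhp
  have hhp0 : 0 ≤ hp := by
    have := hv.u_pos hX; have := hv.hyp.X0; have := hv.hyp.lam0
    rw [hhp]; unfold BdFr.Lam; positivity
  set uA := j.1.F.u * j.1.F.A with huA
  have huA0 : 0 < uA := mul_pos (hv.u_pos hX) (hv.A_pos hX)
  have hterm : ∀ k ∈ Finset.range (j.1.F.ndy X),
      |j.1.V.Q.mPr W j.1.V.g 1 j.2 (X.cH * j.1.F.u * 2 ^ k / 2) ^ (1 / (2 * ((1 : ℕ) : ℝ)))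
        * j.1.V.Q.i1 W j.1.V.g (X.cH * j.1.F.u * 2 ^ k) (min (2 * (X.cH * j.1.F.u * 2 ^ k)) 1)|
      ≤ 2 * C1 * C2 * max Cz 0 * (Ne * Ne * (hp * uA)) := by
    intro k hk
    obtain ⟨w1, w2⟩ := hv.wk_le hX (Finset.mem_range.1 hk)
    set w := X.cH * j.1.F.u * 2 ^ k with hw
    have hw0 : 0 < w := lt_of_lt_of_le h0 w1
    have a1 := h1 (j.1, j.2, w, w / 2) ⟨hc.1, ⟨hc.2.1.1.le, hc.2.1.2.le⟩, bcl_pt_buf hS hs1 hc, w1, w2, ⟨le_rfl, by linarith⟩⟩ hN1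
    have a2 := hM.i1dy hS hv w1 w2
    have a3 := hz j.1.F hv.ok hNz w w1 w2
    have a4 : 0 ≤ j.1.V.Q.i1 W j.1.V.g w (min (2 * w) 1) :=
      bcl_i1_nonneg hS hv.fam hv.g0 j.1.V.Q (le_min (by linarith) w2)
    have a5 : w * j.1.F.zw X w ≤ max Cz 0 * hp := a3.trans (mul_le_mul_of_nonneg_right (le_max_left _ _) hhp0)
    have hzw0 := bcl_zw_nonneg hv.ok hw0.le
    rw [abs_mul, abs_of_nonneg a4]
    calc |j.1.V.Q.mPr W j.1.V.g 1 j.2 (w / 2) ^ (1 / (2 * ((1 : ℕ) : ℝ)))| * j.1.V.Q.i1 W j.1.V.g w (min (2 * w) 1)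
        ≤ (C1 * (Ne * j.1.F.zw X w)) * (2 * w * (C2 * (Ne * uA))) :=
          mul_le_mul a1 a2 a4 (mul_nonneg hC1 (mul_nonneg hNe0.le hzw0))
      _ = 2 * C1 * C2 * (Ne * Ne * uA) * (w * j.1.F.zw X w) := by ring
      _ ≤ 2 * C1 * C2 * (Ne * Ne * uA) * (max Cz 0 * hp) :=
          mul_le_mul_of_nonneg_left a5 (by positivity)
      _ = _ := by ring
  have hcard : (j.1.F.ndy X : ℝ) ≤ Kn * Ne := hnd j.1.F hv.ok (by linarith [hv.cHu])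
  have hB0 : 0 ≤ 2 * C1 * C2 * max Cz 0 * (Ne * Ne * (hp * uA)) := by
    have : 0 ≤ max Cz 0 := le_max_right _ _
    positivity
  calc |∑ k ∈ Finset.range (j.1.F.ndy X), j.1.V.Q.mPr W j.1.V.g 1 j.2 (X.cH * j.1.F.u * 2 ^ k / 2) ^ (1 / (2 * ((1 : ℕ) : ℝ)))
        * j.1.V.Q.i1 W j.1.V.g (X.cH * j.1.F.u * 2 ^ k) (min (2 * (X.cH * j.1.F.u * 2 ^ k)) 1)|
      ≤ ∑ _k ∈ Finset.range (j.1.F.ndy X), 2 * C1 * C2 * max Cz 0 * (Ne * Ne * (hp * uA)) :=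
        (Finset.abs_sum_le_sum_abs _ _).trans (Finset.sum_le_sum hterm)
    _ = (j.1.F.ndy X : ℝ) * (2 * C1 * C2 * max Cz 0 * (Ne * Ne * (hp * uA))) := by
        rw [Finset.sum_const, Finset.card_range, nsmul_eq_mul]
    _ ≤ Kn * Ne * (2 * C1 * C2 * max Cz 0 * (Ne * Ne * (hp * uA))) := mul_le_mul_of_nonneg_right hcard hB0
    _ = Kn * (2 * C1 * C2 * max Cz 0) * ((j.1.F.N : ℝ) ^ ε * (hp * uA)) := by
        have e : (j.1.F.N : ℝ) ^ ε = Ne * Ne * Ne := by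
          rw [hNe, ← Real.rpow_add hNp, ← Real.rpow_add hNp]; congr 1; ring
        rw [e]; ring

/-- Cauchy-Schwarz by Young -/
theorem bcl_i1_sq_le (hS : BdStd X W Fam K) {i : BdVI X W} (hv : VF Fam i) {a b : ℝ} (ha : 0 ≤ a) (hab : a ≤ b) (hb1 : b ≤ 1) :
    i.V.Q.i1 W i.V.g a b ^ 2 ≤ 4 * (b - a) * i.V.Q.i2 W i.V.g a b := by
  have h1 := bcl_i1_nonneg hS hv.fam hv.g0 i.V.Q hab
  have h2 := bcl_i2_nonneg hS hv.fam hv.g0 i.V.Q ha hab hb1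
  have hY : ∀ M : ℝ, 0 < M → i.V.Q.i1 W i.V.g a b ≤ M * ((b - a) + i.V.Q.i2 W i.V.g a b / M ^ 2) :=
    fun M hM => bcl_i1_le hS hv.fam hv.g0 i.V.Q hM ha hab hb1
  set I1 := i.V.Q.i1 W i.V.g a b
  set I2 := i.V.Q.i2 W i.V.g a b
  rcases eq_or_lt_of_le hab with h | h
  · have := hY 1 one_pos
    have e : I2 = 0 := by
      simp only [I2, BdQ.i2, h, intervalIntegral.integral_same]
    have e1 : I1 = 0 := by
      simp only [I1, BdQ.i1, h, intervalIntegral.integral_same]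
    rw [e, e1]; simp
  have hl : 0 < b - a := by linarith
  rcases eq_or_lt_of_le h2 with h0 | h0
  · -- `I2 = 0`
    have e1 : I1 ≤ 0 := by
      by_contra hc
      have hc : 0 < I1 := not_le.1 hc
      have := hY (I1 / (2 * (b - a))) (by positivity)
      rw [← h0, zero_div, add_zero] at this
      have e : I1 / (2 * (b - a)) * (b - a) = I1 / 2 := by field_simp
      rw [e] at this
      linarith
    have : I1 = 0 := le_antisymm e1 h1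
    rw [this, ← h0]; simp
  · set M := Real.sqrt (I2 / (b - a)) with hM
    have hM0 : 0 < M := Real.sqrt_pos.2 (div_pos h0 hl)
    have hM2 : M ^ 2 = I2 / (b - a) := Real.sq_sqrt (div_pos h0 hl).le
    have := hY M hM0
    have e : I2 / M ^ 2 = b - a := by rw [hM2]; field_simp
    rw [e] at this
    have h3 : I1 ^ 2 ≤ (M * ((b - a) + (b - a))) ^ 2 := pow_le_pow_left₀ h1 this 2
    refine h3.trans (le_of_eq ?_)
    rw [mul_pow, hM2]; field_simp; ring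

/-- **the right side of the master inequality is `≪ u³ P₁ · yv`** -/
theorem bcl_cloR (hS : BdStd X W Fam K) (hn : n ≤ X.J + 1) (hZ : BudZ X W Fam n) {s15 : ℝ} (hs15 : s ≤ s15) (hs1 : s ≤ 1)
    (hx4 : CloX4 X W) (hzw : CloZw X) (h15a : BudC15a X W Fam n 2 s15)
    (h16 : BudC16a X W Fam ∧ BudC16b X W Fam ∧ BudC16c X W Fam) (h17a : BudC17a X W Fam n 2 1)
    {l : ℕ} (hl2 : 2 ≤ l) (hl : 1 / (3 * (l : ℝ)) ≤ 2 / 100 * X.pS / 6) {c17 : ℝ} (hc17 : 0 < c17) (C17 C8 CK CD : ℝ) :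
    AqPoly (ptL X W Fam n s) (fun j => (j.1.F.N : ℝ)) (fun j => j.1.V.Q.cloR W j.1.V.g (par l c17 C17 C8 CK CD j.1 j.2))
      (fun j => tol X W j.1 * yv X W j.1 j.2) := by
  have hX := hS.fix
  have hs := bcl_pt_scale (X := X) (W := W) (Fam := Fam) (n := n) (s := s)
  have hvf := bcl_pt_vf (s := s) hS hn hZ
  have hY1 : ∀ᶠ j in ptL X W Fam n s, 1 ≤ yv X W j.1 j.2 := hvf.mono fun j hj => (bcl_Y hS hx4 hj.1 hj.2.2.1).1
  have hYD : ∀ᶠ j in ptL X W Fam n s, |j.1.V.Q.Dq W j.1.V.g j.2| ≤ j.1.V.d0 * j.1.F.lam ^ (0.07 : ℝ) * yv X W j.1 j.2 :=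
    hvf.mono fun j hj => (bcl_Y hS hx4 hj.1 hj.2.2.1).2.1
  have hYD2 : ∀ᶠ j in ptL X W Fam n s, |j.1.V.Q.Dq2 W j.1.V.g j.2| ≤ j.1.V.d0 ^ 2 * j.1.F.lam ^ (0.14 : ℝ) * yv X W j.1 j.2 :=
    hvf.mono fun j hj => (bcl_Y hS hx4 hj.1 hj.2.2.1).2.2.1
  have hYA : ∀ᶠ j in ptL X W Fam n s, |j.1.V.Q.alErr W j.1.V.g j.2| ≤ j.1.F.lam ^ (-X.rho) * j.1.F.u ^ 2 * j.1.F.A ^ 3 * yv X W j.1 j.2 :=
    hvf.mono fun j hj => (bcl_Y hS hx4 hj.1 hj.2.2.1).2.2.2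
  have R1L := bcl_R_I1L (s := s) hS hn h16.1
  have R2L := bcl_R_I2L (s := s) hS hn h16.2.1
  have R1H := bcl_R_I1H (s := s) hS hn hZ h16.2.2
  have R2H := bcl_R_I2H (s := s) hS hn hZ h16.2.2
  have hl0 : (0 : ℝ) < l := by exact_mod_cast (by omega : 0 < l)
  have hl2' : (2 : ℝ) ≤ l := by exact_mod_cast hl2
  have hth0 : 0 < 1 - 1 / (2 * (l : ℝ)) := by
    have : 1 / (2 * (l : ℝ)) ≤ 1 / 4 := by
      rw [div_le_div_iff₀ (by positivity) (by norm_num)]; linarith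
    linarith
  have hth1 : 1 - 1 / (2 * (l : ℝ)) ≤ 1 := by
    have : 0 ≤ 1 / (2 * (l : ℝ)) := by positivity
    linarith
  -- t1
  have t1 : AqPoly (ptL X W Fam n s) (fun j => (j.1.F.N : ℝ)) (fun j => 1 / (j.1.F.m : ℝ)) (fun j => tol X W j.1 * yv X W j.1 j.2) := by
    refine bcl_term1 hs (aq_sub_refl hs _) (AqPoly.of_le (c := 1 / 3) (K := 2) (by norm_num) (hvf.mono fun j hj => ?_)) hY1
    rw [abs_of_nonneg (by positivity)]
    exact hj.1.n_m hX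
  -- t2
  have t2 : AqPoly (ptL X W Fam n s) (fun j => (j.1.F.N : ℝ)) (fun j => CD * (j.1.V.d0 + j.1.F.lam * j.1.F.u) * j.1.V.Q.Dq2 W j.1.V.g j.2)
      (fun j => tol X W j.1 * yv X W j.1 j.2) := by
    refine bcl_term hs ((aq_sub_refl hs fun j : BdVI X W × ℝ => j.1.V.d0 + j.1.F.lam * j.1.F.u).const_mul CD)
      (bcl_num hS hn hZ (e := 11 / 100) (Kc := 2) (by norm_num) (by norm_num) fun j hv => ?_) hYD2
    rw [abs_of_nonneg (mul_nonneg (add_nonneg (hv.d0_pos hX).le (mul_nonneg hv.hyp.lam0.le (hv.u_pos hX).le)) (hv.s2_pos hX).le)]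
    exact hv.n_mm hX
  -- t3
  have t3 : AqPoly (ptL X W Fam n s) (fun j => (j.1.F.N : ℝ)) (fun j => (CK * j.1.F.u + j.2) * j.1.V.Q.alErr W j.1.V.g j.2)
      (fun j => tol X W j.1 * yv X W j.1 j.2) := by
    refine bcl_term (B := fun j => j.1.F.u) hs (aq_sub_of_O (aq_O_of_le (|CK| + (|K.Cb| * X.cI + 2)) (hvf.mono fun j hj => ?_)) hs)
      (bcl_num hS hn hZ (e := 4 / 100) (Kc := 16) (by norm_num) (by norm_num) fun j hv => ?_) hYA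
    · have hu := hj.1.u_pos hX
      have h1 := bcl_v_le hS hj.1 ⟨hj.2.2.1.1.le, hj.2.2.1.2.le⟩ (bcl_pt_buf hS hs1 hj.2)
      calc |CK * j.1.F.u + j.2| ≤ |CK * j.1.F.u| + |j.2| := abs_add_le _ _
        _ = |CK| * j.1.F.u + j.2 := by rw [abs_mul, abs_of_pos hu, abs_of_pos hj.2.2.1.1]
        _ ≤ _ := by linarith
    · rw [abs_of_nonneg (mul_nonneg (hv.u_pos hX).le (hv.s3_pos hX).le)]
      exact hv.n_eta hX
  -- t4
  have t4 : AqPoly (ptL X W Fam n s) (fun j => (j.1.F.N : ℝ)) (fun j => j.1.V.Q.i1 W j.1.V.g 0 (X.cH * j.1.F.u) * j.1.V.Q.Dq W j.1.V.g j.2)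
      (fun j => tol X W j.1 * yv X W j.1 j.2) := by
    refine bcl_term hs R1L (bcl_num hS hn hZ (e := 4 / 100) (Kc := 16) (by norm_num) (by norm_num) fun j hv => ?_) hYD
    rw [abs_of_nonneg (mul_nonneg (mul_nonneg (sq_nonneg _) (hv.T1_nonneg hX).1)
      (mul_nonneg (hv.d0_pos hX).le (Real.rpow_nonneg hv.hyp.lam0.le _)))]
    exact hv.n_pL hX
  -- t5
  have t5 := bcl_term1 hs (bcl_R_PH1 (s := s) hS hn hZ hs1 h16.2.2 h17a hzw)
    (bcl_num hS hn hZ (e := 4 / 100) (Kc := 16) (by norm_num) (by norm_num) fun j hv => by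
      rw [abs_of_nonneg (by
        have := hv.u_pos hX; have := hv.hyp.X0; have := hv.hyp.lam0; have := hv.A_pos hX
        unfold BdFr.Lam; positivity)]
      exact hv.n_pH1 hX) hY1
  -- t6
  have t6 : AqPoly (ptL X W Fam n s) (fun j => (j.1.F.N : ℝ))
      (fun j => (j.1.F.ndy X : ℝ) * (C17 * ((j.1.F.N : ℝ) ^ (-c17) * (j.1.F.u ^ 2 * j.1.V.G1))) * j.1.V.Q.Dq W j.1.V.g j.2)
      (fun j => tol X W j.1 * yv X W j.1 j.2) := by
    refine bcl_mulY ?_ hYD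
    have hP : AqPoly (ptL X W Fam n s) (fun j => (j.1.F.N : ℝ))
        (fun j => C17 * ((j.1.F.N : ℝ) ^ (-c17) * (j.1.F.u ^ 2 * j.1.V.G1)) * (j.1.V.d0 * j.1.F.lam ^ (0.07 : ℝ))) (fun j => tol X W j.1) := by
      refine AqPoly.of_le (K := |C17|) hc17 (hvf.mono fun j hj => ?_)
      have hv := hj.1
      have hNp := Real.rpow_pos_of_pos (hv.N_pos hX) (-c17)
      have h0 : 0 ≤ j.1.F.u ^ 2 * j.1.V.G1 * (j.1.V.d0 * j.1.F.lam ^ (0.07 : ℝ)) :=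
        mul_nonneg (mul_nonneg (sq_nonneg _) hv.G1_pos.le) (mul_nonneg (hv.d0_pos hX).le (Real.rpow_nonneg hv.hyp.lam0.le _))
      have e : C17 * ((j.1.F.N : ℝ) ^ (-c17) * (j.1.F.u ^ 2 * j.1.V.G1)) * (j.1.V.d0 * j.1.F.lam ^ (0.07 : ℝ))
          = C17 * ((j.1.F.N : ℝ) ^ (-c17) * (j.1.F.u ^ 2 * j.1.V.G1 * (j.1.V.d0 * j.1.F.lam ^ (0.07 : ℝ)))) := by ring
      rw [e, abs_mul, abs_of_nonneg (mul_nonneg hNp.le h0)]
      exact mul_le_mul_of_nonneg_left (mul_le_mul_of_nonneg_left (hv.n_pH2 hX) hNp.le) (abs_nonneg _)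
    exact (AqPoly.sub_mul (bcl_R_nd (s := s) hS hn hZ) hP hs).congr (Eventually.of_forall fun j => by ring)
      (Eventually.of_forall fun j => by ring)
  -- t7
  have t7 : AqPoly (ptL X W Fam n s) (fun j => (j.1.F.N : ℝ))
      (fun j => j.1.V.Q.i2 W j.1.V.g 0 (X.cH * j.1.F.u) + j.1.V.Q.i1 W j.1.V.g 0 (X.cH * j.1.F.u) ^ 2) (fun j => tol X W j.1 * yv X W j.1 j.2) := by
    refine bcl_term1 hs (AqSub.O_trans (aq_O_of_le 5 (hvf.mono fun j hj => ?_)) R2L)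
      (bcl_num hS hn hZ (e := 4 / 100) (Kc := 16) (by norm_num) (by norm_num) fun j hv => ?_) hY1
    · have hv := hj.1
      have h0 := mul_pos hX.cH_pos (hv.u_pos hX)
      have a1 := bcl_i1_sq_le hS hv le_rfl h0.le (by linarith [hv.cHu])
      have a2 := bcl_i2_nonneg hS hv.fam hv.g0 j.1.V.Q le_rfl h0.le (by linarith [hv.cHu])
      rw [abs_of_nonneg (add_nonneg a2 (sq_nonneg _))]
      have : 4 * (X.cH * j.1.F.u - 0) * j.1.V.Q.i2 W j.1.V.g 0 (X.cH * j.1.F.u) ≤ 4 * j.1.V.Q.i2 W j.1.V.g 0 (X.cH * j.1.F.u) := by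
        have : 4 * (X.cH * j.1.F.u - 0) ≤ 4 := by linarith [hv.cHu]
        exact mul_le_mul_of_nonneg_right this a2
      linarith
    · have hT2 : 0 ≤ j.1.F.T2 X := (sq_nonneg _).trans (hv.A2_le_T2 hX)
      rw [abs_of_nonneg (mul_nonneg (pow_pos (hv.u_pos hX) 3).le hT2)]
      exact hv.n_T2 hX
  -- t8
  have t8 := bcl_term1 hs (R1L.mul R1H hs)
    (bcl_num hS hn hZ (e := 4 / 100) (Kc := 16) (by norm_num) (by norm_num) fun j hv => by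
      rw [abs_of_nonneg (mul_nonneg (mul_nonneg (sq_nonneg _) (hv.T1_nonneg hX).1) (mul_pos (hv.u_pos hX) (hv.A_pos hX)).le)]
      exact hv.n_LH hX) hY1
  -- t9
  have t9 := bcl_term1 hs (((aq_sub_refl hs fun j : BdVI X W × ℝ => j.1.F.u).const_mul CK).mul ((R1H.pow hs 2).add R2H) hs)
    (bcl_num hS hn hZ (e := 4 / 100) (Kc := 16) (by norm_num) (by norm_num) fun j hv => by
      rw [abs_of_nonneg (mul_nonneg (hv.u_pos hX).le (sq_nonneg _))]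
      exact hv.n_HH hX) hY1
  -- t10, t11
  have RQ4 := (aq_sub_of_O (bcl_R_nQ (s := s) hS hs15 h15a (l := 2) (by norm_num)) hs).pow hs 2
  have t10 := bcl_term hs RQ4
    (bcl_num hS hn hZ (e := 4 / 100) (Kc := 2) (by norm_num) (by norm_num) fun j hv => by
      rw [abs_of_nonneg (mul_nonneg (sq_nonneg _) (mul_nonneg (hv.d0_pos hX).le (Real.rpow_nonneg hv.hyp.lam0.le _)))]
      exact hv.n_ppp hX) hYD
  have RLH : AqSub (ptL X W Fam n s) (fun j => (j.1.F.N : ℝ))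
      (fun j => j.1.V.Q.i1 W j.1.V.g 0 (X.cH * j.1.F.u) + j.1.V.Q.i1 W j.1.V.g (X.cH * j.1.F.u) 1)
      (fun j => j.1.F.u ^ 2 * j.1.F.T1 X + j.1.F.u * j.1.F.A) := by
    refine (R1L.trans_O (aq_O_of_le 1 (hvf.mono fun j hj => ?_))).add (R1H.trans_O (aq_O_of_le 1 (hvf.mono fun j hj => ?_)))
    · have a1 := mul_nonneg (sq_nonneg j.1.F.u) (hj.1.T1_nonneg hX).1
      have a2 := (mul_pos (hj.1.u_pos hX) (hj.1.A_pos hX)).le
      rw [abs_of_nonneg a1]; linarith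
    · have a1 := mul_nonneg (sq_nonneg j.1.F.u) (hj.1.T1_nonneg hX).1
      have a2 := (mul_pos (hj.1.u_pos hX) (hj.1.A_pos hX)).le
      rw [abs_of_nonneg a2]; linarith
  have t11 := bcl_term1 hs (RQ4.mul RLH hs)
    (bcl_num hS hn hZ (e := 4 / 100) (Kc := 32) (by norm_num) (by norm_num) fun j hv => by
      rw [abs_of_nonneg (mul_nonneg (sq_nonneg _) (add_nonneg (mul_nonneg (sq_nonneg _) (hv.T1_nonneg hX).1)
        (mul_pos (hv.u_pos hX) (hv.A_pos hX)).le))]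
      exact hv.n_ppf hX) hY1
  -- t12
  have RC : AqSub (ptL X W Fam n s) (fun j => (j.1.F.N : ℝ))
      (fun j => j.1.V.Q.nQ W j.1.V.g (2 * (l : ℝ)) j.2 (j.1.V.Q.Sq W j.1.V.g j.2) + C8 * j.1.F.u + CK * j.1.F.u) (fun j => j.1.F.u) := by
    have b1 : (fun j : BdVI X W × ℝ => j.1.V.d0) =O[ptL X W Fam n s] (fun j => j.1.F.u) := by
      refine aq_O_of_le 1 (hvf.mono fun j hj => ?_)
      rw [abs_of_pos (hj.1.d0_pos hX), one_mul]
      exact mul_le_of_le_one_right (hj.1.u_pos hX).le hj.1.L1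
    have b2 := (bcl_R_nQ (s := s) hS hs15 h15a (l := l) (by omega)).trans b1
    have b3 : ∀ c : ℝ, (fun j : BdVI X W × ℝ => c * j.1.F.u) =O[ptL X W Fam n s] (fun j => j.1.F.u) :=
      fun c => (isBigO_refl _ _).const_mul_left c
    exact aq_sub_of_O ((b2.add (b3 C8)).add (b3 CK)) hs
  have RT : AqSub (ptL X W Fam n s) (fun j => (j.1.F.N : ℝ))
      (fun j => j.1.V.Q.iT W j.1.V.g (1 - 1 / (2 * (l : ℝ))) (X.cH * j.1.F.u) 1 ^ 2
        + j.1.V.Q.iT W j.1.V.g (2 * (1 - 1 / (2 * (l : ℝ)))) (X.cH * j.1.F.u) 1)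
      (fun j => (j.1.F.u * j.1.F.A) ^ (2 * (1 - 1 / (2 * (l : ℝ))))) := by
    have a1 := (bcl_R_ITH (s := s) hS hn hZ h16.2.2 hth0 (by linarith)).pow hs 2
    have a2 := bcl_R_ITH (s := s) hS hn hZ h16.2.2 (θ := 2 * (1 - 1 / (2 * (l : ℝ)))) (by linarith) (by linarith)
    refine (a1.congr EventuallyEq.rfl (hvf.mono fun j hj => ?_)).add a2
    have huA := mul_pos (hj.1.u_pos hX) (hj.1.A_pos hX)
    show ((j.1.F.u * j.1.F.A) ^ (1 - 1 / (2 * (l : ℝ)))) ^ 2 = _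
    rw [← Real.rpow_natCast, ← Real.rpow_mul huA.le]
    congr 1
    push_cast
    ring
  have NT : AqPoly (ptL X W Fam n s) (fun j => (j.1.F.N : ℝ)) (fun j => j.1.F.u * (j.1.F.u * j.1.F.A) ^ (2 * (1 - 1 / (2 * (l : ℝ)))))
      (fun j => tol X W j.1) := by
    have hc : 0 < 2 / 100 * X.pS / 6 := by have := hX.pS_pos; positivity
    refine AqPoly.of_le (K := 16) hc (hvf.mono fun j hj => ?_)
    have hv := hj.1
    have hNp := hv.N_pos hX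
    have hN1 : (1 : ℝ) ≤ j.1.F.N := by
      have := hv.ok.N2
      exact_mod_cast (by omega : 1 ≤ j.1.F.N)
    rw [abs_of_nonneg (mul_nonneg (hv.u_pos hX).le (Real.rpow_nonneg (mul_pos (hv.u_pos hX) (hv.A_pos hX)).le _))]
    refine (hv.n_th hX (l := l) (by omega)).trans ?_
    refine mul_le_mul_of_nonneg_left ?_ (by norm_num)
    rw [← mul_assoc]
    refine mul_le_mul_of_nonneg_right ?_ (hv.tol_pos hX).le
    calc (j.1.F.N : ℝ) ^ (1 / (3 * (l : ℝ))) * j.1.F.lam ^ (4 / 100 : ℝ)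
        ≤ (j.1.F.N : ℝ) ^ (2 / 100 * X.pS / 6) * (j.1.F.N : ℝ) ^ (-(4 / 100 * X.pS / 6)) :=
          mul_le_mul (Real.rpow_le_rpow_of_exponent_le hN1 hl) (BdFr.bpf_lam_le_N hv.ok (by norm_num))
            (Real.rpow_nonneg hv.hyp.lam0.le _) (Real.rpow_nonneg hNp.le _)
      _ = (j.1.F.N : ℝ) ^ (-(2 / 100 * X.pS / 6)) := by
          rw [← Real.rpow_add hNp]; congr 1; ring
  have t12 := bcl_term1 hs (RC.mul RT hs) NT hY1
  -- the sum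
  have hsum := ((((((((((t1.add t2 hs).add t3 hs).add t4 hs).add t5 hs).add t6 hs).add t7 hs).add t8 hs).add t9 hs).add t10 hs).add t11 hs).add t12 hs
  refine hsum.congr (Eventually.of_forall fun j => ?_) EventuallyEq.rfl
  simp only [BdQ.cloR, par, BclP.w, BclP.th]
  ring

/-! ## 3. The pointwise form from the master inequality -/

/-- **POINT**: the master inequality + the inputs ⟹ the pointwise form -/
theorem bcl_point (hS : BdStd X W Fam K) (hn : n ≤ X.J + 1) (hZ : BudZ X W Fam n) {Q0 s15 s14 : ℝ}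
    (hcH : 4 * (|K.Cb| * X.cI + 2) ≤ X.cH)
    (hmi : CloMI X W Q0) (hx4 : CloX4 X W) (h8 : C8low X W Fam n) (hbd : CloBd X W Fam n Q0) (hks : CloKs X W Fam n) (hzw : CloZw X)
    (h15a : BudC15a X W Fam n 2 s15) (h16 : BudC16a X W Fam ∧ BudC16b X W Fam ∧ BudC16c X W Fam)
    (h17a : BudC17a X W Fam n 2 1) (h17b : BudC17b X W Fam n 2) (hdr : Drift X W Fam n s14) :
    CloPt X W Fam n (min (min s15 s14) 1) := by
  have hX := hS.fix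
  obtain ⟨s, hs⟩ : ∃ s : ℝ, s = min (min s15 s14) 1 := ⟨_, rfl⟩
  rw [← hs]
  have hs15' : s ≤ s15 := by rw [hs]; exact (min_le_left _ _).trans (min_le_left _ _)
  have hs14' : s ≤ s14 := by rw [hs]; exact (min_le_left _ _).trans (min_le_right _ _)
  have hs1 : s ≤ 1 := by rw [hs]; exact min_le_right _ _
  -- the moment order
  have hpS := hX.pS_pos
  obtain ⟨l, hl⟩ : ∃ l : ℕ, l = max 2 ⌈100 / X.pS⌉₊ := ⟨_, rfl⟩
  have hl2 : 2 ≤ l := by rw [hl]; exact le_max_left _ _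
  have hl1 : 1 ≤ l := by omega
  have hlR : 100 / X.pS ≤ (l : ℝ) := (Nat.le_ceil _).trans (by rw [hl]; exact_mod_cast le_max_right _ _)
  have hl0 : (0 : ℝ) < l := by positivity
  have hlq : 1 / (3 * (l : ℝ)) ≤ 2 / 100 * X.pS / 6 := by
    rw [div_le_iff₀ hpS] at hlR
    rw [div_le_iff₀ (by positivity)]
    nlinarith
  -- the constants of the inputs
  obtain ⟨Cmi, hCmi, hmi⟩ := hmi l hl2
  obtain ⟨C8, N8, h8⟩ := h8 l hl1
  obtain ⟨Nb, hbd⟩ := hbd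
  obtain ⟨CK, NK, hks⟩ := hks
  obtain ⟨CD, ND, hdr⟩ := hdr
  obtain ⟨c17, hc17, C17, hC17, N17, h17⟩ := bcl_pow_le h17b (fun i hi => by
    have hl := BdFr.bds_lam_pos (hS.ok _ hi.1.1)
    refine mul_nonneg (sq_nonneg _) ?_
    unfold BdViol.G1 BdFr.Lam
    exact (lt_min (lt_max_of_lt_right hl) (Real.rpow_pos_of_pos hl _)).le)
  obtain ⟨Nv, hvf⟩ := bcl_vf hS hn hZ
  have main := bcl_cloR (s := s) hS hn hZ hs15' hs1 hx4 hzw h15a h16 h17a hl2 hlq hc17 C17 (max C8 0) CK CD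
  obtain ⟨c, Kc, hc, hKc, hev⟩ := main.bound bcl_pt_scale ((bcl_pt_vf hS hn hZ).mono fun j hj =>
    mul_nonneg (hj.1.tol_pos hX).le (zero_le_one.trans (bcl_Y hS hx4 hj.1 hj.2.2.1).1))
  obtain ⟨N0, hN0⟩ := bd_ev_iff.1 hev
  refine ⟨c, hc, Cmi * Kc, max (max (max N8 Nb) (max NK ND)) (max (max N17 Nv) N0), fun i hi hN v hv01 hr cb ch cS => ?_⟩
  have n8 : N8 ≤ i.F.N := le_trans (le_trans (le_trans (le_max_left _ _) (le_max_left _ _)) (le_max_left _ _)) hN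
  have nb : Nb ≤ i.F.N := le_trans (le_trans (le_trans (le_max_right _ _) (le_max_left _ _)) (le_max_left _ _)) hN
  have nK : NK ≤ i.F.N := le_trans (le_trans (le_trans (le_max_left _ _) (le_max_right _ _)) (le_max_left _ _)) hN
  have nD : ND ≤ i.F.N := le_trans (le_trans (le_trans (le_max_right _ _) (le_max_right _ _)) (le_max_left _ _)) hN
  have n17 : N17 ≤ i.F.N := le_trans (le_trans (le_trans (le_max_left _ _) (le_max_left _ _)) (le_max_right _ _)) hN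
  have nv : Nv ≤ i.F.N := le_trans (le_trans (le_trans (le_max_right _ _) (le_max_left _ _)) (le_max_right _ _)) hN
  have n0 : N0 ≤ i.F.N := le_trans (le_trans (le_max_right _ _) (le_max_right _ _)) hN
  have hv := hvf i hi nv
  have hu := hv.u_pos hX
  have hok : i.V.Q.CloOk W i.V.g (par l c17 C17 (max C8 0) CK CD i v) :=
    bcl_par_ok hS hv hl2 hs14' hs1 hcH hC17 (le_max_right _ _)
      (fun w w1 w2 => (le_abs_self _).trans (h17 (i, w) ⟨hi, w1, w2⟩ n17))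
      ((h8 i hi n8).trans (mul_le_mul_of_nonneg_right (le_max_left _ _) hu.le))
      (hks i hi nK) (hdr i hi nD) hv01 hr cb ch cS
  obtain ⟨kb, kh⟩ := hS.clk i.F hv.fam i.V.g hv.g0 i.V.Q
  have h1 := hmi (toI i) (par l c17 C17 (max C8 0) CK CD i v) rfl hv.m2 kb kh (hbd i hi nb) hok
  have h2 := hN0 (i, v) ⟨hi, hv01, hr, cb, ch, cS⟩ n0
  have h3 : i.V.Q.cloR W i.V.g (par l c17 C17 (max C8 0) CK CD i v) ≤ Kc * ((i.F.N : ℝ) ^ (-c) * (tol X W i * yv X W i v)) :=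
    (le_abs_self _).trans h2
  calc clo X W i v ≤ Cmi * i.V.Q.cloR W i.V.g (par l c17 C17 (max C8 0) CK CD i v) := h1
    _ ≤ Cmi * (Kc * ((i.F.N : ℝ) ^ (-c) * (tol X W i * yv X W i v))) := mul_le_mul_of_nonneg_left h3 hCmi
    _ = Cmi * Kc * (i.F.N : ℝ) ^ (-c) * tol X W i * yv X W i v := by ring

end cal

/-! ## 4. (C19) -/

/-- **N17 = Prop. bud:closure, frame level** = `BudB.c19` of `Bud/HubB.lean` with the extra predecessors
`BudZ` (available in `c12_all`), `hcH` (choice of `c_H`, l.1603), `CloMI`, `CloX4` (world laws: `Bud/C19Path.lean`), `C8low` (N5), `CloBd` (LL03/frames), `CloKs` (N11), `CloZw` (N15/N16). -/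
theorem bcl_c19 (hS : BdStd X W Fam K) {n : ℕ} (hn : n ≤ X.J + 1) (hZ : BudZ X W Fam n) {Q0 s15 s14 : ℝ}
    (hs15 : 0 < s15) (hs14 : 0 < s14) (hcH : 4 * (|K.Cb| * X.cI + 2) ≤ X.cH)
    (hmi : CloMI X W Q0) (hx4 : CloX4 X W) (h8 : C8low X W Fam n) (hbd : CloBd X W Fam n Q0) (hks : CloKs X W Fam n) (hzw : CloZw X)
    (h15a : BudC15a X W Fam n 2 s15) (h15bc : ∀ c C : ℝ, 0 < c → BudC15b X W Fam n 2 s15 c C ∧ BudC15c X W Fam n 2 s15 c C)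
    (h16 : BudC16a X W Fam ∧ BudC16b X W Fam ∧ BudC16c X W Fam) (h17a : BudC17a X W Fam n 2 1) (h17b : BudC17b X W Fam n 2)
    (hdr : Drift X W Fam n s14) : ∃ s : ℝ, 0 < s ∧ s ≤ 1 ∧ C19 X W Fam n s := by
  have hpt := bcl_point hS hn hZ hcH hmi hx4 h8 hbd hks hzw h15a h16 h17a h17b hdr
  have hs : 0 < min (min s15 s14) 1 := lt_min (lt_min hs15 hs14) one_pos
  exact ⟨_, lt_min (lt_min (half_pos hs) hs15) one_pos, min_le_right _ _, bcl_box hS hn hZ hs hpt hx4 h15bc⟩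

end BudB

end

end Claimed.Agent.R286
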