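import Claimed.Agent.R286.Bud.C19P

/-!
# Row 286, N17 = (C19), `Bud/C19H.lean`: THE CLASSES pH, Hp, part 1: one tree (projection of the pinned factor) and the primitive bound PHB      (owner helper15; chief helper180)

Blueprint sec.5 (`git show origin/helper180:notes/R286/N17_180.md`).   TEX[LL:bud:closure].   Part 2 (weights, PSUM, exit `b19h_pH`) = `Bud/C19Hb.lean`.   NO sorry in this file.
* `b19h_chi`      `χ_τ = b_{τ23} b_{τ45} ν_τ[δ_23 δ_45]`
* `b19h_R`        the pair `(min (τ x u) κ, min (τ y u) κ)` is admissible (`B19R`)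
* **`b19h_proj`** (a)+(b): `|ν_τ[δ_xy δ_uw] - Nf(i, r2, r3, v)| ≤ Zm(i,κ) Dm(v) + 2/n`;   two labels `6, 7` follow `x, y` up to `κ` (`trAtt`), comap to `b19TZ`, `b19TN`, Cauchy-Schwarz;
                  `b19hNf` = `b19NN` with the FULL overlap in the high factor
* **`b19h_phbW`** (c) PHB: `|∑_{v ∈ [e0,e1)} x_v Nf(i,r2,r3,v)| ≤ Ω 2 Dm(i) Prim` if `|x_v| ≤ Ω gap_v`.
  NO driver level: `Nf(v) = 2 ν[δ_01 L_v]`, `L_v = Q(2,l) - Q(l,l+1)/2 - S_v/2` for a pair `l, l+1` which leaves the path of the label `2` at `v` (`b19h_cross`, comap only);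
  on the caterpillar `b19hTB` carrying `M` copies of the pair of EVERY level (`b19hLab c v = 3 + 2 pair c v`), Cauchy-Schwarz for `F = ∑_c ∑_v g_v L_v^c`:
  `ν[F_c F_c'] = ∑ g_v g_w Π(v,w) = b19Pr2` for `c ≠ c'` (`b19h_pair`, comap to `b19T5`), `≤ 4 G²` for `c = c'`;   `M → ∞` (`b19h_phbM`, `b19h_phb`).
-/

set_option autoImplicit false

namespace Claimed.Agent.R286

open MeasureTheory Set Filter Topology

noncomputable section

variable {n : ℕ}

/-! ## A. tools -/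

/-- marginal of four labels; the target `T'` only has to be symmetric with the right diagonal -/
theorem b19h_comap4 {a : ℝ} (ha : 0 < a) {P : SkStp} (hP : SkAdm a P) {q : ℕ} {T : ℕ → ℕ → ℕ} (hT : IsTr P.length q T)
    {x0 x1 x2 x3 : ℕ} (h0 : x0 < q) (h1 : x1 < q) (h2 : x2 < q) (h3 : x3 < q) {T' : ℕ → ℕ → ℕ}
    (hd : ∀ x, x < 4 → T' x x = P.length + 1) (hs : ∀ x y, x < 4 → y < 4 → T' x y = T' y x)
    (e01 : T x0 x1 = T' 0 1) (e02 : T x0 x2 = T' 0 2) (e03 : T x0 x3 = T' 0 3) (e12 : T x1 x2 = T' 1 2) (e13 : T x1 x3 = T' 1 3)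
    (e23 : T x2 x3 = T' 2 3) (g : SkCfg n → SkCfg n → SkCfg n → SkCfg n → ℝ) :
    b19Sk n a P q T (fun σ => g (σ x0) (σ x1) (σ x2) (σ x3)) = b19Sk n a P 4 T' fun σ => g (σ 0) (σ 1) (σ 2) (σ 3) := by
  refine b19p_comap ha hP hT (fun x => [x0, x1, x2, x3].getD x 0) (fun x hx => ?_) (fun x y hx hy => ?_) _ (b19p_uses4 g)
  · rcases (by omega : x = 0 ∨ x = 1 ∨ x = 2 ∨ x = 3) with rfl | rfl | rfl | rfl <;> simpa
  rcases (by omega : x = 0 ∨ x = 1 ∨ x = 2 ∨ x = 3) with rfl | rfl | rfl | rfl <;>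
    rcases (by omega : y = 0 ∨ y = 1 ∨ y = 2 ∨ y = 3) with rfl | rfl | rfl | rfl
  · show T x0 x0 = T' 0 0
    rw [hT.diag _ h0, hd 0 (by omega)]
  · exact e01
  · exact e02
  · exact e03
  · show T x1 x0 = T' 1 0
    rw [hT.symm _ _ h1 h0, hs 1 0 (by omega) (by omega)]; exact e01
  · show T x1 x1 = T' 1 1
    rw [hT.diag _ h1, hd 1 (by omega)]
  · exact e12
  · exact e13
  · show T x2 x0 = T' 2 0
    rw [hT.symm _ _ h2 h0, hs 2 0 (by omega) (by omega)]; exact e02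
  · show T x2 x1 = T' 2 1
    rw [hT.symm _ _ h2 h1, hs 2 1 (by omega) (by omega)]; exact e12
  · show T x2 x2 = T' 2 2
    rw [hT.diag _ h2, hd 2 (by omega)]
  · exact e23
  · show T x3 x0 = T' 3 0
    rw [hT.symm _ _ h3 h0, hs 3 0 (by omega) (by omega)]; exact e03
  · show T x3 x1 = T' 3 1
    rw [hT.symm _ _ h3 h1, hs 3 1 (by omega) (by omega)]; exact e13
  · show T x3 x2 = T' 3 2
    rw [hT.symm _ _ h3 h2, hs 3 2 (by omega) (by omega)]; exact e23
  · show T x3 x3 = T' 3 3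
    rw [hT.diag _ h3, hd 3 (by omega)]

theorem b19h_TN_diag (N i r2 r3 v x : ℕ) : b19TN N i r2 r3 v x x = N + 1 := by
  unfold b19TN; rw [if_pos rfl]

theorem b19h_TN_symm (N i r2 r3 v x y : ℕ) : b19TN N i r2 r3 v x y = b19TN N i r2 r3 v y x := by
  unfold b19TN
  by_cases h : x = y
  · rw [if_pos h, if_pos h.symm]
  · rw [if_neg h, if_neg (Ne.symm h), min_comm x y]
    simp only [and_comm]

theorem b19h_TZ_diag (N i κ x : ℕ) : b19TZ N i κ x x = N + 1 := by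
  unfold b19TZ; rw [if_pos rfl]

theorem b19h_TZ_symm (N i κ x y : ℕ) : b19TZ N i κ x y = b19TZ N i κ y x := by
  unfold b19TZ
  by_cases h : x = y
  · rw [if_pos h, if_pos h.symm]
  · rw [if_neg h, if_neg (Ne.symm h)]
    simp only [eq_comm]

/-- the projected pinned factor against a high pair, FULL overlap in the high factor -/
def b19hNf (k0 : Fin n) (a : ℝ) (P : SkStp) (i r2 r3 v : ℕ) : ℝ :=
  b19Sk n a P 4 (b19TN P.length i r2 r3 v) fun σ => b19Dl k0 a P i 0 1 σ * (skOv (σ 2) (σ 3) - obS n a P 0 v)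

theorem b19h_eqns_cite : True := by
  have := @b19hNf.eq_1
  trivial

/-! ## B. one tree: projection of the pinned factor to the cut `κ` -/

/-- `χ_τ` in terms of the centred overlaps -/
theorem b19h_chi (k0 : Fin n) {a : ℝ} (ha : 0 < a) {P : SkStp} (hP : SkAdm a P) (τ : ℕ → ℕ → ℕ) :
    b19Chi k0 a P τ = skCumB P (τ 2 3) * skCumB P (τ 4 5)
      * b19Sk n a P 6 τ fun σ => b19Dl k0 a P (τ 2 3) 2 3 σ * b19Dl k0 a P (τ 4 5) 4 5 σ := by
  unfold b19Chi b19Sk
  rw [← b19_tr_smul (sk_sy_base_ok n ha) (sk_sy_adm hP)]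
  congr 1
  funext σ
  rw [b19_JJ_two]
  unfold b19J
  ring

/-- the admissible pairs -/
theorem b19h_R {N : ℕ} {τ : ℕ → ℕ → ℕ} (hτ : IsTr N 6 τ) {i κ x y u : ℕ} (hiκ : i < κ) (hx : x < 6) (hy : y < 6) (hu : u < 6)
    (hxy : τ x y = i) : B19R i κ (min (τ x u) κ) (min (τ y u) κ) := by
  have a1 := hτ.ultra x u y hx hu hy
  have a2 := hτ.ultra x y u hx hy hu
  have a3 := hτ.ultra y x u hy hx hu
  have a4 := hτ.symm u y hu hy
  have a5 := hτ.symm y x hy hx
  unfold B19R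
  omega

/-- **(a) + (b) of the blueprint**: the pinned factor is replaced by its projection to the cut `κ`; the result is a number on a tree with four labels -/
theorem b19h_proj (hn : 0 < n) (k0 : Fin n) {a : ℝ} (ha : 0 < a) {P : SkStp} (hP : SkAdm a P) {i κ v : ℕ} (hiκ : i < κ) (hκv : κ ≤ v)
    (hv : v ≤ P.length) {τ : ℕ → ℕ → ℕ} (hτ : IsTr P.length 6 τ) {x y u w : ℕ} (hx : x < 6) (hy : y < 6) (hu : u < 6) (hw : w < 6)
    (huw' : u ≠ w) (hxy : τ x y = i) (huw : τ u w = v) :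
    |b19Sk n a P 6 τ (fun σ => b19Dl k0 a P i x y σ * b19Dl k0 a P v u w σ) - b19hNf k0 a P i (min (τ x u) κ) (min (τ y u) κ) v|
      ≤ b19Zm k0 a P i κ * b19Dm k0 a P v + 2 / n := by
  have hB := sk_sy_base_ok n ha
  have hls : GhAdm (skBase n a) 0 (skLvs n P) := sk_sy_adm hP
  have hi : i ≤ P.length := by omega
  set N := P.length with hN
  set T6 := trAtt N 6 τ x κ with hT6d
  set T := trAtt N 7 T6 y κ with hTd
  have hT6 : IsTr N 7 T6 := tr_att_isTr hτ hx (by omega)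
  have hT : IsTr N 8 T := tr_att_isTr hT6 (by omega) (by omega)
  have old : ∀ c d, c < 6 → d < 6 → T c d = τ c d := fun c d hc hd => by
    rw [hTd, trw_att_old (by omega) (by omega), hT6d, trw_att_old hc hd]
  have v6l : ∀ d, d < 6 → T 6 d = min κ (τ x d) := fun d hd => by
    rw [hTd, trw_att_old (by omega) (by omega), hT6d, trw_att_nl hd]
  have v6r : ∀ c, c < 6 → T c 6 = min κ (τ c x) := fun c hc => by
    rw [hTd, trw_att_old (by omega) (by omega), hT6d, trw_att_nr hc]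
  have v7l : ∀ d, d < 6 → T 7 d = min κ (τ y d) := fun d hd => by
    rw [hTd, trw_att_nl (by omega), hT6d, trw_att_old hy hd]
  have v7r : ∀ c, c < 6 → T c 7 = min κ (τ c y) := fun c hc => by
    rw [hTd, trw_att_nr (by omega), hT6d, trw_att_old hc hy]
  have v67 : T 6 7 = i := by
    rw [hTd, trw_att_nr (by omega), hT6d, trw_att_nl hy, hxy]; omega
  have dx := hτ.diag x hx
  have dy := hτ.diag y hy
  have syx := hτ.symm y x hy hx
  set S0 : ℝ := obS n a P 0 i with hS0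
  set Sv : ℝ := obS n a P 0 v with hSv
  -- the three numbers on `T`
  have eA : b19Sk n a P 8 T (fun σ => b19Dl k0 a P i x y σ * b19Dl k0 a P v u w σ)
      = b19Sk n a P 6 τ (fun σ => b19Dl k0 a P i x y σ * b19Dl k0 a P v u w σ) := by
    refine b19p_comap ha hP hT (fun c => c) (fun c hc => by omega) (fun c d hc hd => old c d hc hd)
      (fun σ => b19Dl k0 a P i x y σ * b19Dl k0 a P v u w σ) ?_
    intro σ σ' h
    show b19Dl k0 a P i x y σ * b19Dl k0 a P v u w σ = b19Dl k0 a P i x y σ' * b19Dl k0 a P v u w σ'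
    unfold b19Dl
    rw [h x hx, h y hy, h u hu, h w hw]
  have hxw : min κ (τ x w) = min κ (τ x u) := by
    have a1 := hτ.ultra x u w hx hu hw
    have a2 := hτ.ultra x w u hx hw hu
    have a3 := hτ.symm w u hw hu
    omega
  have hyw : min κ (τ y w) = min κ (τ y u) := by
    have a1 := hτ.ultra y u w hy hu hw
    have a2 := hτ.ultra y w u hy hw hu
    have a3 := hτ.symm w u hw hu
    omega
  have eB : b19Sk n a P 8 T (fun σ => b19Dl k0 a P i 6 7 σ * b19Dl k0 a P v u w σ)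
      = b19NN k0 a P i (min (τ x u) κ) (min (τ y u) κ) v := by
    refine b19h_comap4 ha hP hT (x0 := 6) (x1 := 7) (x2 := u) (x3 := w) (by omega) (by omega) (by omega) (by omega)
      (fun c _ => b19h_TN_diag _ _ _ _ _ c) (fun c d _ _ => b19h_TN_symm _ _ _ _ _ c d) ?_ ?_ ?_ ?_ ?_ ?_
      (fun s0 s1 s2 s3 => (b19Qm k0 s0 s1 - S0) * (b19Qm k0 s2 s3 - Sv))
    · rw [v67]; simp [b19TN]
    · rw [v6l u hu, min_comm]; simp [b19TN]
    · rw [v6l w hw, hxw, min_comm]; simp [b19TN]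
    · rw [v7l u hu, min_comm]; simp [b19TN]
    · rw [v7l w hw, hyw, min_comm]; simp [b19TN]
    · rw [old u w hu hw, huw]; simp [b19TN]
  have eZ : b19Sk n a P 8 T (fun σ => (b19Dl k0 a P i x y σ - b19Dl k0 a P i 6 7 σ) ^ 2) = b19Zm k0 a P i κ ^ 2 := by
    unfold b19Zm
    have h0 : 0 ≤ b19Sk n a P 4 (b19TZ P.length i κ) fun σ => (b19Qm k0 (σ 0) (σ 1) - b19Qm k0 (σ 2) (σ 3)) ^ 2 :=
      b19_tr_nonneg hB hls 4 _ 0 fun σ => sq_nonneg _
    rw [Real.sq_sqrt h0]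
    have := b19h_comap4 ha hP hT (x0 := x) (x1 := y) (x2 := 6) (x3 := 7) (by omega) (by omega) (by omega) (by omega)
      (T' := b19TZ N i κ) (fun c _ => b19h_TZ_diag _ _ _ c) (fun c d _ _ => b19h_TZ_symm _ _ _ c d)
      (by rw [old x y hx hy, hxy]; simp [b19TZ]) (by rw [v6r x hx, dx]; simp [b19TZ]; omega)
      (by rw [v7r x hx, hxy]; simp [b19TZ]; omega) (by rw [v6r y hy, syx, hxy]; simp [b19TZ]; omega)
      (by rw [v7r y hy, dy]; simp [b19TZ]; omega) (by rw [v67]; simp [b19TZ])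
      (fun s0 s1 s2 s3 => (b19Qm k0 s0 s1 - b19Qm k0 s2 s3) ^ 2)
    rw [← this]
    congr 1
    funext σ
    unfold b19Dl
    ring
  have hDm0 := (b19_num_nonneg hn k0 ha hP 2 v κ).2.1
  have hZ0 := (b19_num_nonneg hn k0 ha hP 2 i κ).2.2.2
  have eD : b19Sk n a P 8 T (fun σ => b19Dl k0 a P v u w σ ^ 2) ≤ b19Dm k0 a P v ^ 2 := by
    have h1 := b19_hold2 hn k0 ha hP hT (c1 := u) (d1 := w) (c2 := u) (d2 := w) ⟨by omega, by omega, huw'⟩ ⟨by omega, by omega, huw'⟩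
    rw [old u w hu hw, huw] at h1
    rw [sq (b19Dm k0 a P v)]
    refine le_trans (le_of_eq ?_) h1
    congr 1
    funext σ
    rw [← abs_mul, ← sq, abs_of_nonneg (sq_nonneg _)]
  have hcs := b19_tr_cs hB hls 8 T 0 (fun σ => b19Dl k0 a P i x y σ - b19Dl k0 a P i 6 7 σ) (fun σ => b19Dl k0 a P v u w σ)
  have hdiff : trNu (skBase n a) (skLvs n P) 8 T 0 (fun σ => (b19Dl k0 a P i x y σ - b19Dl k0 a P i 6 7 σ) * b19Dl k0 a P v u w σ)
      = b19Sk n a P 6 τ (fun σ => b19Dl k0 a P i x y σ * b19Dl k0 a P v u w σ) - b19NN k0 a P i (min (τ x u) κ) (min (τ y u) κ) v := by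
    rw [← eA, ← eB]
    unfold b19Sk
    rw [← b19_tr_sub hB hls]
    congr 1
    funext σ
    ring
  unfold b19Sk at eZ eD
  rw [hdiff, eZ, Real.sqrt_sq hZ0] at hcs
  have hsD : Real.sqrt (trNu (skBase n a) (skLvs n P) 8 T 0 fun σ => b19Dl k0 a P v u w σ ^ 2) ≤ b19Dm k0 a P v := by
    rw [← Real.sqrt_sq hDm0]
    exact Real.sqrt_le_sqrt eD
  have h1 := hcs.trans (mul_le_mul_of_nonneg_left hsD hZ0)
  -- deleted -> full overlap in the high factor
  have h2 : |b19NN k0 a P i (min (τ x u) κ) (min (τ y u) κ) v - b19hNf k0 a P i (min (τ x u) κ) (min (τ y u) κ) v| ≤ 2 / n := by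
    unfold b19NN b19hNf b19Sk
    rw [← b19_tr_sub hB hls]
    refine b19_tr_le_const hB hls _ _ _ fun σ => ?_
    have e : b19Dl k0 a P i 0 1 σ * b19Dl k0 a P v 2 3 σ - b19Dl k0 a P i 0 1 σ * (skOv (σ 2) (σ 3) - obS n a P 0 v)
        = b19Dl k0 a P i 0 1 σ * (b19Qm k0 (σ 2) (σ 3) - skOv (σ 2) (σ 3)) := by
      unfold b19Dl; ring
    rw [e, abs_mul]
    have b1 := b19_Dl_abs hn k0 ha hP hi 0 1 σ
    have b2 := b19_Qm_sub hn k0 (σ 2) (σ 3)
    calc |b19Dl k0 a P i 0 1 σ| * |b19Qm k0 (σ 2) (σ 3) - skOv (σ 2) (σ 3)| ≤ 2 * (1 / n) :=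
          mul_le_mul b1 b2 (abs_nonneg _) (by norm_num)
      _ = 2 / n := by ring
  have h3 := abs_sub_le (b19Sk n a P 6 τ (fun σ => b19Dl k0 a P i x y σ * b19Dl k0 a P v u w σ))
    (b19NN k0 a P i (min (τ x u) κ) (min (τ y u) κ) v) (b19hNf k0 a P i (min (τ x u) κ) (min (τ y u) κ) v)
  linarith

/-! ## C. the primitive bound PHB -/

/-- the caterpillar: the label `x` leaves the path of the label `2` at the depth `lv x`, except that `0, 1` split at `i` -/
def b19hTB (N i : ℕ) (lv : ℕ → ℕ) : ℕ → ℕ → ℕ := fun x y =>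
  if x = y then N + 1 else if x ≤ 1 ∧ y ≤ 1 then i else min (lv x) (lv y)

theorem b19h_TB_isTr {N i : ℕ} (hi : i ≤ N) {lv : ℕ → ℕ} (hlv : ∀ x, lv x ≤ N + 1) (c1 : min i (lv 1) ≤ lv 0) (c2 : min i (lv 0) ≤ lv 1)
    (c3 : min (lv 0) (lv 1) ≤ i) (q : ℕ) : IsTr N q (b19hTB N i lv) := by
  refine ⟨?_, ?_, ?_, ?_⟩
  · intro x y _ _
    have hx := hlv x
    unfold b19hTB
    split_ifs <;> omega
  · intro x _
    unfold b19hTB
    rw [if_pos rfl]
  · intro x y _ _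
    unfold b19hTB
    split_ifs <;> omega
  · intro x y z _ _ _
    have hx := hlv x
    have hy := hlv y
    have hz := hlv z
    have e0 : ∀ t, t ≤ 1 → t = 0 ∨ t = 1 := fun t ht => by omega
    unfold b19hTB
    by_cases hxz : x = z
    · subst hxz
      rw [if_pos rfl]
      split_ifs <;> omega
    by_cases hxy : x = y
    · subst hxy
      rw [if_pos rfl]
      exact min_le_right _ _
    by_cases hyz : y = z
    · subst hyz
      rw [if_pos rfl (c := y = y)]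
      exact min_le_left _ _
    rw [if_neg hxz, if_neg hxy, if_neg hyz]
    by_cases h1 : x ≤ 1 <;> by_cases h2 : y ≤ 1 <;> by_cases h3 : z ≤ 1
    · omega
    · rw [if_pos ⟨h1, h2⟩, if_neg (fun h => h3 h.2), if_neg (fun h => h3 h.2)]
      rcases e0 x h1 with rfl | rfl <;> rcases e0 y h2 with rfl | rfl <;> omega
    · rw [if_neg (fun h => h2 h.2), if_neg (fun h => h2 h.1), if_pos ⟨h1, h3⟩]
      rcases e0 x h1 with rfl | rfl <;> rcases e0 z h3 with rfl | rfl <;> omega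
    · rw [if_neg (fun h => h2 h.2), if_neg (fun h => h2 h.1), if_neg (fun h => h3 h.2)]
      omega
    · rw [if_neg (fun h => h1 h.1), if_pos ⟨h2, h3⟩, if_neg (fun h => h1 h.1)]
      rcases e0 y h2 with rfl | rfl <;> rcases e0 z h3 with rfl | rfl <;> omega
    · rw [if_neg (fun h => h1 h.1), if_neg (fun h => h3 h.2), if_neg (fun h => h1 h.1)]
      omega
    · rw [if_neg (fun h => h1 h.1), if_neg (fun h => h2 h.1), if_neg (fun h => h1 h.1)]
      omega
    · rw [if_neg (fun h => h1 h.1), if_neg (fun h => h2 h.1), if_neg (fun h => h1 h.1)]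
      omega

/-- `L_v` of the path of the label `2`, sampled by the pair of labels `l, l + 1`, centred -/
def b19hL (n : ℕ) (a : ℝ) (P : SkStp) (v l : ℕ) (σ : ℕ → SkCfg n) : ℝ :=
  skOv (σ 2) (σ l) - skOv (σ l) (σ (l + 1)) / 2 - obS n a P 0 v / 2

/-- the covariance of `L_v`, `L_w` as in `b19Pr2` -/
def b19hPi (n : ℕ) (a : ℝ) (P : SkStp) (v w : ℕ) : ℝ :=
  b19Sk n a P 5 (b19T5 P.length v w)
      (fun σ => (skOv (σ 0) (σ 1) - skOv (σ 1) (σ 2) / 2) * (skOv (σ 0) (σ 3) - skOv (σ 3) (σ 4) / 2))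
    - obS n a P 0 v * obS n a P 0 w / 4

theorem b19h_TB_eqns_cite : True := by
  have := @b19hTB.eq_1
  have := @b19hL.eq_1
  have := @b19hPi.eq_1
  trivial

theorem b19h_TB_val {N i : ℕ} {lv : ℕ → ℕ} {x y : ℕ} (hxy : x ≠ y) (h : 2 ≤ x ∨ 2 ≤ y) : b19hTB N i lv x y = min (lv x) (lv y) := by
  unfold b19hTB
  rw [if_neg hxy, if_neg (by omega)]

theorem b19h_TB_01 {N i : ℕ} {lv : ℕ → ℕ} : b19hTB N i lv 0 1 = i := by
  unfold b19hTB
  rw [if_neg (by omega), if_pos (by omega)]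

/-- the pinned factor against one sample of `L_v` -/
theorem b19h_cross (k0 : Fin n) {a : ℝ} (ha : 0 < a) {P : SkStp} (hP : SkAdm a P) {i r2 r3 v q l : ℕ} {lv : ℕ → ℕ}
    (hT : IsTr P.length q (b19hTB P.length i lv)) (h0 : lv 0 = r2) (h1 : lv 1 = r3) (h2 : lv 2 = P.length + 1) (hl : lv l = v)
    (hl' : lv (l + 1) = v) (hl3 : 3 ≤ l) (hlq : l + 1 < q) (hr2 : r2 ≤ v) (hr3 : r3 ≤ v) (hv : v ≤ P.length) :
    b19Sk n a P q (b19hTB P.length i lv) (fun σ => b19Dl k0 a P i 0 1 σ * b19hL n a P v l σ) = b19hNf k0 a P i r2 r3 v / 2 := by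
  have hB := sk_sy_base_ok n ha
  have hls : GhAdm (skBase n a) 0 (skLvs n P) := sk_sy_adm hP
  set S0 : ℝ := obS n a P 0 i with hS0
  set Sv : ℝ := obS n a P 0 v with hSv
  have e1 : b19Sk n a P q (b19hTB P.length i lv) (fun σ => b19Dl k0 a P i 0 1 σ * (skOv (σ 2) (σ l) - Sv)) = b19hNf k0 a P i r2 r3 v := by
    refine b19h_comap4 ha hP hT (x0 := 0) (x1 := 1) (x2 := 2) (x3 := l) (by omega) (by omega) (by omega) (by omega)
      (fun c _ => b19h_TN_diag _ _ _ _ _ c) (fun c d _ _ => b19h_TN_symm _ _ _ _ _ c d) ?_ ?_ ?_ ?_ ?_ ?_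
      (fun s0 s1 s2 s3 => (b19Qm k0 s0 s1 - S0) * (skOv s2 s3 - Sv))
    · rw [b19h_TB_01]; simp [b19TN]
    · rw [b19h_TB_val (by omega) (by omega), h0, h2]; simp [b19TN]; omega
    · rw [b19h_TB_val (by omega) (by omega), h0, hl]; simp [b19TN]; omega
    · rw [b19h_TB_val (by omega) (by omega), h1, h2]; simp [b19TN]; omega
    · rw [b19h_TB_val (by omega) (by omega), h1, hl]; simp [b19TN]; omega
    · rw [b19h_TB_val (by omega) (by omega), h2, hl]; simp [b19TN]; omega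
  have e2 : b19Sk n a P q (b19hTB P.length i lv) (fun σ => b19Dl k0 a P i 0 1 σ * (skOv (σ l) (σ (l + 1)) - Sv))
      = b19hNf k0 a P i r2 r3 v := by
    refine b19h_comap4 ha hP hT (x0 := 0) (x1 := 1) (x2 := l) (x3 := l + 1) (by omega) (by omega) (by omega) (by omega)
      (fun c _ => b19h_TN_diag _ _ _ _ _ c) (fun c d _ _ => b19h_TN_symm _ _ _ _ _ c d) ?_ ?_ ?_ ?_ ?_ ?_
      (fun s0 s1 s2 s3 => (b19Qm k0 s0 s1 - S0) * (skOv s2 s3 - Sv))
    · rw [b19h_TB_01]; simp [b19TN]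
    · rw [b19h_TB_val (by omega) (by omega), h0, hl]; simp [b19TN]; omega
    · rw [b19h_TB_val (by omega) (by omega), h0, hl']; simp [b19TN]; omega
    · rw [b19h_TB_val (by omega) (by omega), h1, hl]; simp [b19TN]; omega
    · rw [b19h_TB_val (by omega) (by omega), h1, hl']; simp [b19TN]; omega
    · rw [b19h_TB_val (by omega) (by omega), hl, hl']; simp [b19TN]
  have e3 : (fun σ : ℕ → SkCfg n => b19Dl k0 a P i 0 1 σ * b19hL n a P v l σ)
      = fun σ => b19Dl k0 a P i 0 1 σ * (skOv (σ 2) (σ l) - Sv) - 1 / 2 * (b19Dl k0 a P i 0 1 σ * (skOv (σ l) (σ (l + 1)) - Sv)) := by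
    funext σ
    unfold b19hL
    ring
  rw [e3]
  unfold b19Sk at e1 e2 ⊢
  rw [b19_tr_sub hB hls, b19_tr_smul hB hls, e1, e2]
  ring

/-- expectation of one sample of `L_v` -/
theorem b19h_L_mean (hn : 0 < n) {a : ℝ} (ha : 0 < a) {P : SkStp} (hP : SkAdm a P) {i v q l : ℕ} {lv : ℕ → ℕ}
    (hT : IsTr P.length q (b19hTB P.length i lv)) (h2 : lv 2 = P.length + 1) (hl : lv l = v) (hl1 : lv (l + 1) = v) (hl3 : 3 ≤ l)
    (hlq : l + 1 < q) (hv : v ≤ P.length) :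
    b19Sk n a P q (b19hTB P.length i lv) (fun σ => skOv (σ 2) (σ l) - skOv (σ l) (σ (l + 1)) / 2) = obS n a P 0 v / 2 := by
  have hB := sk_sy_base_ok n ha
  have hls : GhAdm (skBase n a) 0 (skLvs n P) := sk_sy_adm hP
  have e1 := b19_marg ha hP hT (c := 2) (d := l) (by omega) (by omega) (by omega) fun s s' : SkCfg n => skOv s s'
  have e2 := b19_marg ha hP hT (c := l) (d := l + 1) (by omega) (by omega) (by omega) fun s s' : SkCfg n => skOv s s'
  rw [b19h_TB_val (by omega) (by omega), h2, hl, min_eq_right (by omega), (b19_S_eq hn ha hP hv).1] at e1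
  rw [b19h_TB_val (by omega) (by omega), hl, hl1, min_self, (b19_S_eq hn ha hP hv).1] at e2
  have e3 : (fun σ : ℕ → SkCfg n => skOv (σ 2) (σ l) - skOv (σ l) (σ (l + 1)) / 2)
      = fun σ => skOv (σ 2) (σ l) - 1 / 2 * skOv (σ l) (σ (l + 1)) := by
    funext σ; ring
  rw [e3]
  unfold b19Sk at e1 e2 ⊢
  rw [b19_tr_sub hB hls, b19_tr_smul hB hls, e1, e2]
  ring

/-- two samples of `L_v`, `L_w` by disjoint pairs of labels: the number of `b19Pr2` -/
theorem b19h_pair (hn : 0 < n) {a : ℝ} (ha : 0 < a) {P : SkStp} (hP : SkAdm a P) {i v w q l l' : ℕ} {lv : ℕ → ℕ}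
    (hT : IsTr P.length q (b19hTB P.length i lv)) (h2 : lv 2 = P.length + 1) (hl : lv l = v) (hl1 : lv (l + 1) = v) (hm : lv l' = w)
    (hm1 : lv (l' + 1) = w) (hl3 : 3 ≤ l) (hm3 : 3 ≤ l') (hlq : l + 1 < q) (hmq : l' + 1 < q) (hdis : l + 1 < l' ∨ l' + 1 < l)
    (hv : v ≤ P.length) (hw : w ≤ P.length) :
    b19Sk n a P q (b19hTB P.length i lv) (fun σ => b19hL n a P v l σ * b19hL n a P w l' σ) = b19hPi n a P v w := by
  have hB := sk_sy_base_ok n ha
  have hls : GhAdm (skBase n a) 0 (skLvs n P) := sk_sy_adm hP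
  have e1 : b19Sk n a P q (b19hTB P.length i lv) (fun σ => (skOv (σ 2) (σ l) - skOv (σ l) (σ (l + 1)) / 2)
        * (skOv (σ 2) (σ l') - skOv (σ l') (σ (l' + 1)) / 2))
      = b19Sk n a P 5 (b19T5 P.length v w)
        (fun σ => (skOv (σ 0) (σ 1) - skOv (σ 1) (σ 2) / 2) * (skOv (σ 0) (σ 3) - skOv (σ 3) (σ 4) / 2)) := by
    refine b19p_comap ha hP hT (fun x => [2, l, l + 1, l', l' + 1].getD x 0) (fun x hx => ?_) (fun x y hx hy => ?_)
      (fun σ => (skOv (σ 0) (σ 1) - skOv (σ 1) (σ 2) / 2) * (skOv (σ 0) (σ 3) - skOv (σ 3) (σ 4) / 2)) ?_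
    · rcases (by omega : x = 0 ∨ x = 1 ∨ x = 2 ∨ x = 3 ∨ x = 4) with rfl | rfl | rfl | rfl | rfl <;> simp <;> omega
    rcases (by omega : x = 0 ∨ x = 1 ∨ x = 2 ∨ x = 3 ∨ x = 4) with rfl | rfl | rfl | rfl | rfl <;>
      rcases (by omega : y = 0 ∨ y = 1 ∨ y = 2 ∨ y = 3 ∨ y = 4) with rfl | rfl | rfl | rfl | rfl
    · show b19hTB P.length i lv 2 2 = b19T5 P.length v w 0 0
      rw [hT.diag _ (by omega)]; simp [b19T5]
    · show b19hTB P.length i lv 2 l = b19T5 P.length v w 0 1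
      rw [b19h_TB_val (by omega) (by omega), h2, hl]; simp [b19T5]
    · show b19hTB P.length i lv 2 (l + 1) = b19T5 P.length v w 0 2
      rw [b19h_TB_val (by omega) (by omega), h2, hl1]; simp [b19T5]
    · show b19hTB P.length i lv 2 l' = b19T5 P.length v w 0 3
      rw [b19h_TB_val (by omega) (by omega), h2, hm]; simp [b19T5]
    · show b19hTB P.length i lv 2 (l' + 1) = b19T5 P.length v w 0 4
      rw [b19h_TB_val (by omega) (by omega), h2, hm1]; simp [b19T5]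
    · show b19hTB P.length i lv l 2 = b19T5 P.length v w 1 0
      rw [b19h_TB_val (by omega) (by omega), hl, h2]; simp [b19T5]
    · show b19hTB P.length i lv l l = b19T5 P.length v w 1 1
      rw [hT.diag _ (by omega)]; simp [b19T5]
    · show b19hTB P.length i lv l (l + 1) = b19T5 P.length v w 1 2
      rw [b19h_TB_val (by omega) (by omega), hl, hl1]; simp [b19T5]
    · show b19hTB P.length i lv l l' = b19T5 P.length v w 1 3
      rw [b19h_TB_val (by omega) (by omega), hl, hm]; simp [b19T5]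
    · show b19hTB P.length i lv l (l' + 1) = b19T5 P.length v w 1 4
      rw [b19h_TB_val (by omega) (by omega), hl, hm1]; simp [b19T5]
    · show b19hTB P.length i lv (l + 1) 2 = b19T5 P.length v w 2 0
      rw [b19h_TB_val (by omega) (by omega), hl1, h2]; simp [b19T5]
    · show b19hTB P.length i lv (l + 1) l = b19T5 P.length v w 2 1
      rw [b19h_TB_val (by omega) (by omega), hl1, hl]; simp [b19T5]
    · show b19hTB P.length i lv (l + 1) (l + 1) = b19T5 P.length v w 2 2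
      rw [hT.diag _ (by omega)]; simp [b19T5]
    · show b19hTB P.length i lv (l + 1) l' = b19T5 P.length v w 2 3
      rw [b19h_TB_val (by omega) (by omega), hl1, hm]; simp [b19T5]
    · show b19hTB P.length i lv (l + 1) (l' + 1) = b19T5 P.length v w 2 4
      rw [b19h_TB_val (by omega) (by omega), hl1, hm1]; simp [b19T5]
    · show b19hTB P.length i lv l' 2 = b19T5 P.length v w 3 0
      rw [b19h_TB_val (by omega) (by omega), hm, h2]; simp [b19T5]
    · show b19hTB P.length i lv l' l = b19T5 P.length v w 3 1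
      rw [b19h_TB_val (by omega) (by omega), hm, hl]; simp [b19T5]
    · show b19hTB P.length i lv l' (l + 1) = b19T5 P.length v w 3 2
      rw [b19h_TB_val (by omega) (by omega), hm, hl1]; simp [b19T5]
    · show b19hTB P.length i lv l' l' = b19T5 P.length v w 3 3
      rw [hT.diag _ (by omega)]; simp [b19T5]
    · show b19hTB P.length i lv l' (l' + 1) = b19T5 P.length v w 3 4
      rw [b19h_TB_val (by omega) (by omega), hm, hm1]; simp [b19T5]
    · show b19hTB P.length i lv (l' + 1) 2 = b19T5 P.length v w 4 0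
      rw [b19h_TB_val (by omega) (by omega), hm1, h2]; simp [b19T5]
    · show b19hTB P.length i lv (l' + 1) l = b19T5 P.length v w 4 1
      rw [b19h_TB_val (by omega) (by omega), hm1, hl]; simp [b19T5]
    · show b19hTB P.length i lv (l' + 1) (l + 1) = b19T5 P.length v w 4 2
      rw [b19h_TB_val (by omega) (by omega), hm1, hl1]; simp [b19T5]
    · show b19hTB P.length i lv (l' + 1) l' = b19T5 P.length v w 4 3
      rw [b19h_TB_val (by omega) (by omega), hm1, hm]; simp [b19T5]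
    · show b19hTB P.length i lv (l' + 1) (l' + 1) = b19T5 P.length v w 4 4
      rw [hT.diag _ (by omega)]; simp [b19T5]
    · intro σ σ' h
      show (skOv (σ 0) (σ 1) - skOv (σ 1) (σ 2) / 2) * (skOv (σ 0) (σ 3) - skOv (σ 3) (σ 4) / 2)
        = (skOv (σ' 0) (σ' 1) - skOv (σ' 1) (σ' 2) / 2) * (skOv (σ' 0) (σ' 3) - skOv (σ' 3) (σ' 4) / 2)
      rw [h 0 (by omega), h 1 (by omega), h 2 (by omega), h 3 (by omega), h 4 (by omega)]
  have m1 := b19h_L_mean hn ha hP hT h2 hl hl1 hl3 hlq hv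
  have m2 := b19h_L_mean hn ha hP hT h2 hm hm1 hm3 hmq hw
  set Sv : ℝ := obS n a P 0 v with hSv
  set Sw : ℝ := obS n a P 0 w with hSw
  have e3 : (fun σ : ℕ → SkCfg n => b19hL n a P v l σ * b19hL n a P w l' σ)
      = fun σ => (((skOv (σ 2) (σ l) - skOv (σ l) (σ (l + 1)) / 2) * (skOv (σ 2) (σ l') - skOv (σ l') (σ (l' + 1)) / 2)
        - Sw / 2 * (skOv (σ 2) (σ l) - skOv (σ l) (σ (l + 1)) / 2))
        - Sv / 2 * (skOv (σ 2) (σ l') - skOv (σ l') (σ (l' + 1)) / 2)) + Sv * Sw / 4 := by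
    funext σ
    unfold b19hL
    ring
  rw [e3]
  unfold b19hPi
  unfold b19Sk at e1 m1 m2 ⊢
  rw [b19_tr_add hB hls, b19_tr_sub hB hls, b19_tr_sub hB hls, b19_tr_smul hB hls, b19_tr_smul hB hls, b19_tr_const hB hls, e1, m1, m2]
  ring

theorem b19h_ov_abs (hn : 0 < n) (σ τ : SkCfg n) : |skOv σ τ| ≤ 1 := by
  unfold skOv
  rw [abs_div, Nat.abs_cast]
  have hn' : (0 : ℝ) < n := by exact_mod_cast hn
  rw [div_le_one hn']
  refine (Finset.abs_sum_le_sum_abs _ _).trans ?_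
  have : ∀ k ∈ (Finset.univ : Finset (Fin n)), |skSp σ k * skSp τ k| ≤ 1 := fun k _ => by
    rw [abs_mul, b19_sp_abs, b19_sp_abs]; norm_num
  refine (Finset.sum_le_card_nsmul _ _ 1 this).trans ?_
  simp

theorem b19h_L_abs (hn : 0 < n) {a : ℝ} (ha : 0 < a) {P : SkStp} (hP : SkAdm a P) {v : ℕ} (hv : v ≤ P.length) (l : ℕ)
    (σ : ℕ → SkCfg n) : |b19hL n a P v l σ| ≤ 2 := by
  have h1 := abs_le.1 (b19h_ov_abs hn (σ 2) (σ l))
  have h2 := abs_le.1 (b19h_ov_abs hn (σ l) (σ (l + 1)))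
  have h3 := b19_S_mem hn ha hP hv
  unfold b19hL
  rw [abs_le]
  constructor <;> linarith [h1.1, h1.2, h2.1, h2.2, h3.1, h3.2]

/-- Cauchy-Schwarz, squared -/
theorem b19h_cs_sq {S ι : Type} [Fintype S] [Fintype ι] [Inhabited S] {B : GhB S} (hB : B.Ok) {ls : List (GhLv S ι)}
    (hls : GhAdm B 0 ls) (q : ℕ) (τ : ℕ → ℕ → ℕ) (z : S → ℝ) (f g : (ℕ → S) → ℝ) :
    (trNu B ls q τ z fun σ => f σ * g σ) ^ 2 ≤ (trNu B ls q τ z fun σ => f σ ^ 2) * trNu B ls q τ z fun σ => g σ ^ 2 := by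
  have h := b19_tr_cs hB hls q τ z f g
  have h1 : 0 ≤ trNu B ls q τ z fun σ => f σ ^ 2 := b19_tr_nonneg hB hls q τ z fun σ => sq_nonneg _
  have h2 : 0 ≤ trNu B ls q τ z fun σ => g σ ^ 2 := b19_tr_nonneg hB hls q τ z fun σ => sq_nonneg _
  have h3 := pow_le_pow_left₀ (abs_nonneg _) h 2
  rwa [sq_abs, mul_pow, Real.sq_sqrt h1, Real.sq_sqrt h2] at h3

/-- the labels of the copy `c` of the pair at the level `v` are `b19hLab c v`, `b19hLab c v + 1` -/
def b19hLab (c v : ℕ) : ℕ := 3 + 2 * Nat.pair c v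

/-- the levels of the labels -/
def b19hLv (N r2 r3 : ℕ) (x : ℕ) : ℕ :=
  if x = 0 then r2 else if x = 1 then r3 else if x = 2 then N + 1 else min (N + 1) (Nat.unpair ((x - 3) / 2)).2

theorem b19h_lab_eqns_cite : True := by
  have := @b19hLab.eq_1
  have := @b19hLv.eq_1
  trivial

theorem b19h_lv_lab (N r2 r3 c : ℕ) {v : ℕ} (hv : v ≤ N + 1) :
    b19hLv N r2 r3 (b19hLab c v) = v ∧ b19hLv N r2 r3 (b19hLab c v + 1) = v := by
  unfold b19hLv b19hLab
  constructor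
  · rw [if_neg (by omega), if_neg (by omega), if_neg (by omega), show (3 + 2 * Nat.pair c v - 3) / 2 = Nat.pair c v by omega,
      Nat.unpair_pair]
    exact min_eq_right hv
  · rw [if_neg (by omega), if_neg (by omega), if_neg (by omega), show (3 + 2 * Nat.pair c v + 1 - 3) / 2 = Nat.pair c v by omega,
      Nat.unpair_pair]
    exact min_eq_right hv

theorem b19h_lab_dis {c c' : ℕ} (h : c ≠ c') (v w : ℕ) : b19hLab c v + 1 < b19hLab c' w ∨ b19hLab c' w + 1 < b19hLab c v := by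
  have : Nat.pair c v ≠ Nat.pair c' w := fun e => h (Nat.pair_eq_pair.1 e).1
  unfold b19hLab
  omega

theorem b19h_lab_lt {M N c v : ℕ} (hc : c < M) (hv : v ≤ N + 1) : b19hLab c v + 1 < 5 + 2 * (max M (N + 2) + 1) ^ 2 := by
  have h1 := Nat.pair_lt_max_add_one_sq c v
  have h2 : (max c v + 1) ^ 2 ≤ (max M (N + 2) + 1) ^ 2 := Nat.pow_le_pow_left (by omega) 2
  unfold b19hLab
  omega

/-- **PHB with `M` copies**: Cauchy-Schwarz on the caterpillar which carries `M` conditionally independent samples of every `L_v` -/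
theorem b19h_phbM (hn : 0 < n) (k0 : Fin n) {a : ℝ} (ha : 0 < a) {P : SkStp} (hP : SkAdm a P) {i κ e0 e1 r2 r3 : ℕ} (hiκ : i < κ)
    (hκ : κ ≤ e0) (he : e1 ≤ P.length + 1) (hR : B19R i κ r2 r3) (g : ℕ → ℝ) {B : ℝ} (hB0 : 0 ≤ B)
    (hQ : ∑ v ∈ Finset.Ico e0 e1, ∑ w ∈ Finset.Ico e0 e1, g v * g w * b19hPi n a P v w ≤ B) {M : ℕ} (hM : 0 < M) :
    (∑ v ∈ Finset.Ico e0 e1, g v * b19hNf k0 a P i r2 r3 v) ^ 2
      ≤ 4 * b19Dm k0 a P i ^ 2 * (B + 4 * (∑ v ∈ Finset.Ico e0 e1, |g v|) ^ 2 / M) := by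
  have hMr : (0 : ℝ) < M := by exact_mod_cast hM
  rcases Nat.lt_or_ge e0 e1 with hne | hemp
  swap
  · rw [Finset.Ico_eq_empty (by omega)]
    simp only [Finset.sum_empty]
    have : 0 ≤ 4 * b19Dm k0 a P i ^ 2 * (B + 4 * (0 : ℝ) ^ 2 / M) := by positivity
    simpa using this
  have hB := sk_sy_base_ok n ha
  have hls : GhAdm (skBase n a) 0 (skLvs n P) := sk_sy_adm hP
  set N := P.length with hN
  have hi : i ≤ N := by omega
  set Dy := Finset.Ico e0 e1 with hDy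
  set lv := b19hLv N r2 r3 with hlvd
  have l0 : lv 0 = r2 := by simp [hlvd, b19hLv]
  have l1 : lv 1 = r3 := by simp [hlvd, b19hLv]
  have l2 : lv 2 = N + 1 := by simp [hlvd, b19hLv]
  have hR' := hR
  unfold B19R at hR'
  have hlv : ∀ x, lv x ≤ N + 1 := by
    intro x
    rw [hlvd]; unfold b19hLv
    split_ifs <;> omega
  set q := 5 + 2 * (max M (N + 2) + 1) ^ 2 with hq
  have hT : IsTr N q (b19hTB N i lv) := b19h_TB_isTr hi hlv (by rw [l0, l1]; omega) (by rw [l0, l1]; omega) (by rw [l0, l1]; omega) q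
  set T := b19hTB N i lv with hTd
  have hDyv : ∀ v ∈ Dy, κ ≤ v ∧ v ≤ N := fun v hv => by
    rw [hDy, Finset.mem_Ico] at hv; omega
  set X : ℝ := ∑ v ∈ Dy, g v * b19hNf k0 a P i r2 r3 v with hX
  set G : ℝ := ∑ v ∈ Dy, |g v| with hG
  have hG0 : 0 ≤ G := Finset.sum_nonneg fun v _ => abs_nonneg _
  set Fc : ℕ → (ℕ → SkCfg n) → ℝ := fun c σ => ∑ v ∈ Dy, g v * b19hL n a P v (b19hLab c v) σ with hFc
  set F : (ℕ → SkCfg n) → ℝ := fun σ => ∑ c ∈ Finset.range M, Fc c σ with hF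
  -- (i) the cross term
  have h1 : trNu (skBase n a) (skLvs n P) q T 0 (fun σ => b19Dl k0 a P i 0 1 σ * F σ) = M / 2 * X := by
    have e : (fun σ : ℕ → SkCfg n => b19Dl k0 a P i 0 1 σ * F σ)
        = fun σ => ∑ c ∈ Finset.range M, ∑ v ∈ Dy, g v * (b19Dl k0 a P i 0 1 σ * b19hL n a P v (b19hLab c v) σ) := by
      funext σ
      simp only [hF, hFc, Finset.mul_sum]
      exact Finset.sum_congr rfl fun c _ => Finset.sum_congr rfl fun v _ => by ring
    rw [e, b19_tr_sum hB hls]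
    have e2 : ∀ c ∈ Finset.range M, trNu (skBase n a) (skLvs n P) q T 0
        (fun σ => ∑ v ∈ Dy, g v * (b19Dl k0 a P i 0 1 σ * b19hL n a P v (b19hLab c v) σ)) = X / 2 := by
      intro c hc
      rw [b19_tr_sum hB hls, hX, Finset.sum_div]
      refine Finset.sum_congr rfl fun v hv => ?_
      obtain ⟨hv1, hv2⟩ := hDyv v hv
      obtain ⟨a1, a2⟩ := b19h_lv_lab N r2 r3 c (by omega : v ≤ N + 1)
      have := b19h_cross k0 ha hP hT l0 l1 l2 a1 a2 (by unfold b19hLab; omega)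
        (b19h_lab_lt (Finset.mem_range.1 hc) (by omega)) (by omega) (by omega) hv2
      unfold b19Sk at this
      rw [b19_tr_smul hB hls, this]
      ring
    rw [Finset.sum_congr rfl e2, Finset.sum_const, Finset.card_range, nsmul_eq_mul]
    ring
  -- (ii) the square
  have hFcb : ∀ c σ, |Fc c σ| ≤ 2 * G := by
    intro c σ
    rw [hG, Finset.mul_sum]
    refine (Finset.abs_sum_le_sum_abs _ _).trans (Finset.sum_le_sum fun v hv => ?_)
    rw [abs_mul]
    have := b19h_L_abs hn ha hP (hDyv v hv).2 (b19hLab c v) σ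
    nlinarith [abs_nonneg (g v)]
  have h2 : trNu (skBase n a) (skLvs n P) q T 0 (fun σ => F σ ^ 2) ≤ (M : ℝ) ^ 2 * B + M * (4 * G ^ 2) := by
    have e : (fun σ : ℕ → SkCfg n => F σ ^ 2) = fun σ => ∑ c ∈ Finset.range M, ∑ c' ∈ Finset.range M, Fc c σ * Fc c' σ := by
      funext σ
      rw [sq, hF]
      exact Finset.sum_mul_sum _ _ _ _
    rw [e, b19_tr_sum hB hls]
    have e2 : ∀ c ∈ Finset.range M, ∀ c' ∈ Finset.range M,
        trNu (skBase n a) (skLvs n P) q T 0 (fun σ => Fc c σ * Fc c' σ) ≤ B + if c = c' then 4 * G ^ 2 else 0 := by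
      intro c hc c' hc'
      by_cases hcc : c = c'
      · rw [if_pos hcc]
        have : trNu (skBase n a) (skLvs n P) q T 0 (fun σ => Fc c σ * Fc c' σ) ≤ 4 * G ^ 2 := by
          refine (le_abs_self _).trans (b19_tr_le_const hB hls q T 0 fun σ => ?_)
          rw [abs_mul]
          have a1 := hFcb c σ
          have a2 := hFcb c' σ
          nlinarith [abs_nonneg (Fc c σ), abs_nonneg (Fc c' σ)]
        linarith
      · rw [if_neg hcc, add_zero]
        refine le_trans (le_of_eq ?_) hQ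
        have e3 : (fun σ : ℕ → SkCfg n => Fc c σ * Fc c' σ) = fun σ => ∑ v ∈ Dy, ∑ w ∈ Dy,
            (g v * g w) * (b19hL n a P v (b19hLab c v) σ * b19hL n a P w (b19hLab c' w) σ) := by
          funext σ
          rw [hFc]
          simp only
          rw [Finset.sum_mul_sum]
          exact Finset.sum_congr rfl fun v _ => Finset.sum_congr rfl fun w _ => by ring
        rw [e3, b19_tr_sum hB hls]
        refine Finset.sum_congr rfl fun v hv => ?_
        rw [b19_tr_sum hB hls]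
        refine Finset.sum_congr rfl fun w hw => ?_
        obtain ⟨hv1, hv2⟩ := hDyv v hv
        obtain ⟨hw1, hw2⟩ := hDyv w hw
        obtain ⟨a1, a2⟩ := b19h_lv_lab N r2 r3 c (by omega : v ≤ N + 1)
        obtain ⟨b1, b2⟩ := b19h_lv_lab N r2 r3 c' (by omega : w ≤ N + 1)
        have := b19h_pair hn ha hP hT l2 a1 a2 b1 b2 (by unfold b19hLab; omega) (by unfold b19hLab; omega)
          (b19h_lab_lt (Finset.mem_range.1 hc) (by omega)) (b19h_lab_lt (Finset.mem_range.1 hc') (by omega))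
          (b19h_lab_dis hcc v w) hv2 hw2
        unfold b19Sk at this
        rw [b19_tr_smul hB hls, this]
    calc ∑ c ∈ Finset.range M, trNu (skBase n a) (skLvs n P) q T 0 (fun σ => ∑ c' ∈ Finset.range M, Fc c σ * Fc c' σ)
        = ∑ c ∈ Finset.range M, ∑ c' ∈ Finset.range M, trNu (skBase n a) (skLvs n P) q T 0 (fun σ => Fc c σ * Fc c' σ) :=
          Finset.sum_congr rfl fun c _ => b19_tr_sum hB hls q T 0 _ _
      _ ≤ ∑ c ∈ Finset.range M, ∑ c' ∈ Finset.range M, (B + if c = c' then 4 * G ^ 2 else 0) :=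
          Finset.sum_le_sum fun c hc => Finset.sum_le_sum fun c' hc' => e2 c hc c' hc'
      _ = (M : ℝ) ^ 2 * B + M * (4 * G ^ 2) := by
          have : ∀ c ∈ Finset.range M, ∑ c' ∈ Finset.range M, (B + if c = c' then 4 * G ^ 2 else 0) = M * B + 4 * G ^ 2 := by
            intro c hc
            rw [Finset.sum_add_distrib, Finset.sum_const, Finset.card_range, nsmul_eq_mul, Finset.sum_ite_eq, if_pos hc]
          rw [Finset.sum_congr rfl this, Finset.sum_const, Finset.card_range, nsmul_eq_mul]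
          ring
  -- (iii) the pinned factor
  have h3 : trNu (skBase n a) (skLvs n P) q T 0 (fun σ => b19Dl k0 a P i 0 1 σ ^ 2) ≤ b19Dm k0 a P i ^ 2 := by
    have hq2 : 1 < q := by rw [hq]; omega
    have h := b19_hold2 hn k0 ha hP hT (c1 := 0) (d1 := 1) (c2 := 0) (d2 := 1) ⟨by omega, hq2, by omega⟩ ⟨by omega, hq2, by omega⟩
    rw [hTd, b19h_TB_01] at h
    rw [sq (b19Dm k0 a P i)]
    refine le_trans (le_of_eq ?_) h
    unfold b19Sk
    congr 1
    funext σ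
    rw [← abs_mul, ← sq, abs_of_nonneg (sq_nonneg _)]
  have hcs := b19h_cs_sq hB hls q T 0 (fun σ => b19Dl k0 a P i 0 1 σ) F
  rw [h1] at hcs
  have hF0 : 0 ≤ trNu (skBase n a) (skLvs n P) q T 0 (fun σ => F σ ^ 2) := b19_tr_nonneg hB hls q T 0 fun σ => sq_nonneg _
  have h4 : ((M : ℝ) / 2 * X) ^ 2 ≤ b19Dm k0 a P i ^ 2 * ((M : ℝ) ^ 2 * B + M * (4 * G ^ 2)) :=
    hcs.trans (mul_le_mul h3 h2 hF0 (sq_nonneg _))
  have h5 : (M : ℝ) ^ 2 * X ^ 2 ≤ (M : ℝ) ^ 2 * (4 * b19Dm k0 a P i ^ 2 * (B + 4 * G ^ 2 / M)) := by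
    have e : (M : ℝ) ^ 2 * (4 * b19Dm k0 a P i ^ 2 * (B + 4 * G ^ 2 / M))
        = 4 * (b19Dm k0 a P i ^ 2 * ((M : ℝ) ^ 2 * B + M * (4 * G ^ 2))) := by
      field_simp
    rw [e]
    nlinarith [h4]
  exact le_of_mul_le_mul_left h5 (by positivity)

/-- **PHB** (`M → ∞`) -/
theorem b19h_phb (hn : 0 < n) (k0 : Fin n) {a : ℝ} (ha : 0 < a) {P : SkStp} (hP : SkAdm a P) {i κ e0 e1 r2 r3 : ℕ} (hiκ : i < κ)
    (hκ : κ ≤ e0) (he : e1 ≤ P.length + 1) (hR : B19R i κ r2 r3) (g : ℕ → ℝ) {Pr : ℝ} (hPr0 : 0 ≤ Pr)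
    (hQ : ∑ v ∈ Finset.Ico e0 e1, ∑ w ∈ Finset.Ico e0 e1, g v * g w * b19hPi n a P v w ≤ Pr ^ 2) :
    |∑ v ∈ Finset.Ico e0 e1, g v * b19hNf k0 a P i r2 r3 v| ≤ 2 * b19Dm k0 a P i * Pr := by
  have hD0 := (b19_num_nonneg hn k0 ha hP 2 i κ).2.1
  set X : ℝ := ∑ v ∈ Finset.Ico e0 e1, g v * b19hNf k0 a P i r2 r3 v with hX
  set G : ℝ := ∑ v ∈ Finset.Ico e0 e1, |g v| with hG
  set D : ℝ := b19Dm k0 a P i with hD
  have key : ∀ M : ℕ, 0 < M → X ^ 2 ≤ 4 * D ^ 2 * (Pr ^ 2 + 4 * G ^ 2 / M) := fun M hM =>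
    b19h_phbM hn k0 ha hP hiκ hκ he hR g (sq_nonneg Pr) hQ hM
  have hsq : X ^ 2 ≤ (2 * D * Pr) ^ 2 := by
    by_contra hc
    rw [not_le] at hc
    set ε : ℝ := X ^ 2 - (2 * D * Pr) ^ 2 with hε
    have hε0 : 0 < ε := by linarith
    obtain ⟨M, hM⟩ := exists_nat_gt (16 * D ^ 2 * G ^ 2 / ε)
    have hc0 : 0 ≤ 16 * D ^ 2 * G ^ 2 / ε := by positivity
    have hMr : (0 : ℝ) < M := lt_of_le_of_lt hc0 hM
    have hM0 : 0 < M := by exact_mod_cast hMr
    have h1 := key M hM0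
    have h2 : 16 * D ^ 2 * G ^ 2 / M < ε := by
      rw [div_lt_iff₀ hMr]
      rw [div_lt_iff₀ hε0] at hM
      linarith
    have h3 : 4 * D ^ 2 * (Pr ^ 2 + 4 * G ^ 2 / M) = (2 * D * Pr) ^ 2 + 16 * D ^ 2 * G ^ 2 / M := by ring
    linarith
  have := Real.abs_le_sqrt hsq
  rwa [Real.sqrt_sq (by positivity)] at this

/-- PHB for the weights `gap_v k_v`, in the form of `B19Prim` -/
theorem b19h_phbK (hn : 0 < n) (k0 : Fin n) {a : ℝ} (ha : 0 < a) {P : SkStp} (hP : SkAdm a P) {i κ e0 e1 r2 r3 : ℕ} (hiκ : i < κ)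
    (hκ : κ ≤ e0) (he : e1 ≤ P.length + 1) (hR : B19R i κ r2 r3) (k : ℕ → ℝ) (hk0 : ∀ v, v ∉ Finset.Ico e0 e1 → k v = 0) {Pr : ℝ}
    (hPr0 : 0 ≤ Pr) (hPr : b19Pr2 n a P k ≤ Pr ^ 2) :
    |∑ v ∈ Finset.Ico e0 e1, skGap a P v * k v * b19hNf k0 a P i r2 r3 v| ≤ 2 * b19Dm k0 a P i * Pr := by
  refine b19h_phb hn k0 ha hP hiκ hκ he hR (fun v => skGap a P v * k v) hPr0 (le_trans (le_of_eq ?_) hPr)
  have hsub : Finset.Ico e0 e1 ⊆ Finset.range (P.length + 1) := fun v hv => by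
    rw [Finset.mem_Ico] at hv
    rw [Finset.mem_range]; omega
  unfold b19Pr2
  rw [← Finset.sum_subset hsub fun v _ hv => by
    refine Finset.sum_eq_zero fun w _ => ?_
    rw [hk0 v hv]; ring]
  refine Finset.sum_congr rfl fun v _ => ?_
  rw [← Finset.sum_subset hsub fun w _ hw => by rw [hk0 w hw]; ring]
  refine Finset.sum_congr rfl fun w _ => ?_
  unfold b19hPi
  ring

/-- **PHB for arbitrary weights with a density `≤ Ω` with respect to `dm`** -/
theorem b19h_phbW (hn : 0 < n) (k0 : Fin n) {a : ℝ} (ha : 0 < a) {P : SkStp} (hP : SkAdm a P) {i κ e0 e1 r2 r3 : ℕ} (hiκ : i < κ)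
    (hκ : κ ≤ e0) (he : e1 ≤ P.length + 1) (hR : B19R i κ r2 r3) {Pr : ℝ} (hPr0 : 0 ≤ Pr)
    (hPr : ∀ k : ℕ → ℝ, (∀ v, |k v| ≤ 1) → (∀ v, v ∉ Finset.Ico e0 e1 → k v = 0) → b19Pr2 n a P k ≤ Pr ^ 2)
    (x : ℕ → ℝ) {Ω : ℝ} (hΩ : 0 ≤ Ω) (hx : ∀ v ∈ Finset.Ico e0 e1, |x v| ≤ Ω * skGap a P v) :
    |∑ v ∈ Finset.Ico e0 e1, x v * b19hNf k0 a P i r2 r3 v| ≤ Ω * (2 * b19Dm k0 a P i * Pr) := by
  set k : ℕ → ℝ := fun v => if v ∈ Finset.Ico e0 e1 then x v / (Ω * skGap a P v) else 0 with hk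
  have hk1 : ∀ v, |k v| ≤ 1 := by
    intro v
    rw [hk]
    simp only
    split_ifs with hv
    · have h0 : 0 ≤ Ω * skGap a P v := mul_nonneg hΩ (b19_gap_nonneg ha hP v)
      rw [abs_div, abs_of_nonneg h0]
      exact div_le_one_of_le₀ (hx v hv) h0
    · simp
  have hk0 : ∀ v, v ∉ Finset.Ico e0 e1 → k v = 0 := fun v hv => by rw [hk]; simp only; rw [if_neg hv]
  have h1 := b19h_phbK hn k0 ha hP hiκ hκ he hR k hk0 hPr0 (hPr k hk1 hk0)
  have h2 : ∑ v ∈ Finset.Ico e0 e1, x v * b19hNf k0 a P i r2 r3 v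
      = Ω * ∑ v ∈ Finset.Ico e0 e1, skGap a P v * k v * b19hNf k0 a P i r2 r3 v := by
    rw [Finset.mul_sum]
    refine Finset.sum_congr rfl fun v hv => ?_
    have e : x v = Ω * (skGap a P v * k v) := by
      rw [hk]
      simp only
      rw [if_pos hv]
      by_cases h0 : Ω * skGap a P v = 0
      · have := hx v hv
        rw [h0] at this
        have hx0 : x v = 0 := abs_eq_zero.1 (le_antisymm this (abs_nonneg _))
        rw [hx0]; simp
      · rw [← mul_assoc, mul_div_cancel₀ _ h0]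
    rw [e]; ring
  rw [h2, abs_mul, abs_of_nonneg hΩ]
  exact mul_le_mul_of_nonneg_left h1 hΩ

end

end Claimed.Agent.R286
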