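import Claimed.Agent.R286.Bud.L07S
import Claimed.Agent.R286.Bud.GeoBr

/-!
# Row 286, LL sec. 7, node N7 = LEMMA 7.6 "A common calibration cut"      (owner helper190; prefix `bcs_`, types `Bcs*`; proofs: helper86, 0 sorry)
TEX[LL:bud:common-star]  = LL `07-budgets.tex` l.441-547.      LEVEL: L-PATH (numbers of the changed path of a fixed optimiser); only `BcsLp` has an L-STEP proof.

SETTING (l.217-233 + l.441-449).  An INSTANCE `I : BcsIn X` = an instance `Bd7I X` of helper12 (frame `F`, parameter `g`, optimiser `Q`, scale `w`) + the normalisation `c0` of the potential.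
CLASS `I.Cls W Fam K` = `Bd7I.Str W Fam K.c K.C K.cs` (12: family, optimiser, `w_c ≤ w ≤ 1`, outer regularity above `2w`, STRONG removal `cs w² ≤ C(w)`) + geometry N4 (109) + admissibility.
`w = o(u)`, `C(w) = C0`, `W ≍ u √Λ` are then AUTOMATIC: `bcs_num_scale`.      LIFT `Bd7I.Str → Cls`: `bcs_cls_of_str`.      EXPORT to 12: `bd7_band_of_star : … → Bd7Band`.
All constants are chosen BEFORE the instance (closed forms of `BdO/Bdo/BdPow`); power savings are written in `x = N^(-1/6)`.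

INPUTS (named Props over an arbitrary class `P`; the INSTANCE theorem of each is owed by the named owner, for `P = Cls W Fam K`):
* `BcsRaw`   (C8), p = 2: `B_v ≤ (Cr (v+w))²`                                            owner helper7   TEX[LL:bud:outer-moments]
* `BcsC10`   (C10) on the regular mass dyads `Kr w ≤ v ≤ u`                              owner helper111 TEX[LL:bud:outer-second]
* `BcsSW`    two-sided sliding estimate (l.377-431) at the scale `w`, floor `k(O(w))`    owner helper111 (general scale form of SW)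
* `BcsNF`    PE (20)-(21) on caps and contacts of a target band, raw scale `O(w)`        owner helper190/111 (file `Bud/StarNF.lean`, on 294's `cm_br_abs`, `cm_ut_cap_abs`)
* `BcsLp`    `‖Q_v - S_v‖_p ≤ C_p x^c W` at EVERY nonfloor cut of a band of scale `W`    owner helper190 (file `Bud/StarLp.lean`, on `Bud/Mom` + `LL06/MartBB` + (A1),(A3),(C8),(C9))
EXITS: `bud_star_S1` (`∫D²dv`), `bud_star_S2` (`∫D²dr`), `bud_star_S3` (`∫_0^{C'W} D dv`), `bud_star_cut` (the cut `*`), all together `bud_star`.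
REMARK (used by the cut): only dyads `v ≤ C'W` enter, where `C = C0` and the indicator of (C10) vanishes; the high-dyad bound `u B_f W/w_c² ≲ λ^(s0/2+k_c/12-0.24)` of l.473 is exported as `bcs_num_high` for N8.
The `L^p` bound does NOT use the smallness of `D_*`: it holds at every nonfloor cut of the band, so the cut is chosen from `D` and the geometry only (l.463-464).
-/

set_option autoImplicit false

namespace Claimed.Agent.R286

open MeasureTheory Set Filter Topology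

noncomputable section

/-! ## 0. Instances, class, statistics -/

/-- the fixed constants of the strong-removal setting -/
structure BcsK where
  /-- `c v ≤ r(v)` -/
  c : ℝ
  /-- `r(v) ≤ C v` (both above `2w`) -/
  C : ℝ
  /-- `cs w² ≤ C(w)` -/
  cs : ℝ
  /-- the enhanced-floor patch lies above `i0 u` ("`I/u` is a FIXED closed subinterval of `(0,c_I)`", l.152) -/
  i0 : ℝ

structure BcsK.Ok (K : BcsK) : Prop where
  c0 : 0 < K.c
  c1 : K.c ≤ 1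
  C1 : 1 ≤ K.C
  cs0 : 0 < K.cs
  i00 : 0 < K.i0

/-- an instance of the conditional analysis: an instance of `Bud/L07` (frame, global parameter, optimiser, scale) + the normalisation of the potential -/
structure BcsIn (X : BdFix) extends Bd7I X where
  c0 : ℝ

namespace BcsIn

variable {X : BdFix} (I : BcsIn X) (W : BdWorld)

/-- the geometry datum of 109 -/
def geo : BudGeo := budGeoQ I.Q W I.g I.c0
/-- the normalised potential (radius coordinate) -/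
def H (r : ℝ) : ℝ := (I.geo W).H r
def S (v : ℝ) : ℝ := I.Q.Sq W I.g v
def B (v : ℝ) : ℝ := I.Q.Bq W I.g v
def D2 (v : ℝ) : ℝ := I.Q.Dq2 W I.g v
def D (v : ℝ) : ℝ := I.Q.Dq W I.g v
/-- the calibration scale `W = max(w, √C(w))` -/
def Ws : ℝ := I.F.Wsc X I.w
/-- `x⁶/(C0 w⁴) ≍ (m C0 w⁴)⁻¹` -/
def a3 : ℝ := I.F.x ^ 6 / (I.F.C0 * I.w ^ 4)
/-- the floor set in MASS coordinates -/
def Fl : Set ℝ := {v | 0 < I.H W (I.Q.r v)}

/-- **the class of Lemma 7.6** -/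
structure Cls (Fam : BdFr → Prop) (K : BcsK) : Prop extends I.toBd7I.Str W Fam K.c K.C K.cs where
  base : I.F.Base X W I.g
  clkb : IsClock 1 (I.Q.bq I.g)
  clkh : IsClock 1 (I.Q.hq I.g)
  geo : (I.geo W).Ok
  pot : I.Q.IsPot W I.g (I.H W)
  ilo : K.i0 ≤ I.F.Ilo

end BcsIn

/-- the right side of (C10) at the mass dyad `v`; `[clo u, chi u]` = the fixed band covering the enhanced floor -/
def bcsR10 (F : BdFr) (X : BdFix) (clo chi v : ℝ) : ℝ :=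
  (F.x ^ 6 / (F.C X v * v)) ^ (1 / 3 : ℝ) + F.x ^ 3 / (v * Real.sqrt (F.C X v)) + (F.m : ℝ) ^ (X.dPEexp / 2) * F.vs X
    + if clo * F.u ≤ v ∧ v ≤ chi * F.u then F.u * F.Bf X else 0

/-! ## 1. Inputs -/

section inputs
variable {X : BdFix} (W : BdWorld) (P : BcsIn X → Prop)

/-- **(C8)** for `p = 2`.      INSTANCE: owner helper7, TEX[LL:bud:outer-moments] -/
def BcsRaw : Prop :=
  ∃ (Cr : ℝ) (N0 : ℕ), 0 < Cr ∧ ∀ I, P I → N0 ≤ I.F.N → ∀ v ∈ Ioo (0 : ℝ) 1, I.B W v ≤ (Cr * (v + I.w)) ^ 2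

/-- **(C10)** on the regular dyads `Kr w ≤ v ≤ u`; `Kr`, the band of the indicator do not depend on the subpower loss `ε`.      INSTANCE: owner helper111, TEX[LL:bud:outer-second] -/
def BcsC10 : Prop :=
  ∃ Kr clo chi : ℝ, 1 ≤ Kr ∧ 0 < clo ∧ clo ≤ chi ∧ ∀ ε : ℝ, 0 < ε → ∃ (Cc : ℝ) (N0 : ℕ), 0 < Cc ∧ ∀ I, P I → N0 ≤ I.F.N →
    ∀ v : ℝ, Kr * I.w ≤ v → v ≤ I.F.u → 2 * v ≤ 1 →
      ∫ t in v..(2 * v), I.D2 W t ≤ v * (Cc * I.F.x ^ (-ε) * bcsR10 I.F X clo chi v) ^ 2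

/-- **the two-sided sliding estimate** (l.377-431) on the radius window of the mass band `[c1 w, C1 w]`: scale `w`, slope `C0`, floor `≥ k(Cb w)`;
the term `t` (oscillation of `S`, boundary strips, narrow domains: (C8)) carries NO subpower loss.      INSTANCE: owner helper111 (SW at a general scale) -/
def BcsSW (K : BcsK) : Prop :=
  ∀ c1 C1 : ℝ, 0 < c1 → c1 < C1 → ∃ Ca t0 : ℝ, 0 < Ca ∧ 0 < t0 ∧ ∀ ε : ℝ, 0 < ε → ∃ (Cc : ℝ) (N0 : ℕ), 0 < Cc ∧ ∀ I, P I → N0 ≤ I.F.N →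
    ∀ t : ℝ, 0 < t → t ≤ t0 →
      ∫ r in (I.Q.r (c1 * I.w))..(I.Q.r (C1 * I.w)), I.D2 W (I.Q.al r)
        ≤ (Ca * t + Cc * I.F.x ^ (-ε) * (I.a3 / (I.F.k X (K.C * max C1 2 * I.w) * t) + I.a3)) * I.w ^ 3

/-- **PE (20)-(21) on the caps and contacts of a target band** (l.489-499), raw scale `O(w)`, lower mass cutoff `c1 w` (a cap crossing the cutoff is used above `c1 w/2`).
INSTANCE: owner helper190 with helper111 (`Bud/StarNF.lean`) -/
def BcsNF : Prop :=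
  ∀ c1 C1 : ℝ, 0 < c1 → c1 < C1 → ∀ ε : ℝ, 0 < ε → ∃ (Cc : ℝ) (N0 : ℕ), 0 < Cc ∧ ∀ I, P I → N0 ≤ I.F.N →
    ∫ v in Ioc (c1 * I.w) (C1 * I.w) ∩ {v | I.H W (I.Q.r v) ≤ 0}, I.D2 W v
      ≤ Cc * I.F.x ^ (-ε) * (I.a3 ^ (2 / 3 : ℝ) + I.a3) * I.w ^ 3

/-- **the `L^p` calibration** (l.511-541) at EVERY nonfloor cut of the band `[Ka W, 2 Ka W]`; the exponent does not depend on `p`, `Ka`.
INSTANCE: owner helper190 (`Bud/StarLp.lean`) -/
def BcsLp : Prop :=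
  ∃ cq : ℝ, 0 < cq ∧ ∃ Kr : ℝ, 1 ≤ Kr ∧ ∀ Ka : ℝ, Kr ≤ Ka → ∃ (Cp : ℝ → ℝ) (N0 : ℕ), ∀ I, P I → N0 ≤ I.F.N →
    ∀ v : ℝ, Ka * I.Ws ≤ v → v ≤ 2 * Ka * I.Ws → I.H W (I.Q.r v) ≤ 0 →
      ∀ p : ℝ, 2 ≤ p → I.Q.nQ W I.g p v (I.S W v) ≤ Cp p * I.F.x ^ cq * I.Ws

/-! ## 2. Exits (as Props) -/

/-- `∫ D² dv = o(w³)` on compact target bands -/
def BcsS1 : Prop :=
  ∀ c1 C1 : ℝ, 0 < c1 → c1 < C1 → ∀ ε : ℝ, 0 < ε → ∃ N0 : ℕ, ∀ I, P I → N0 ≤ I.F.N →
    ∫ v in (c1 * I.w)..(C1 * I.w), I.D2 W v ≤ ε * I.w ^ 3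

/-- `∫ D² dr = o(w³)` on compact target bands -/
def BcsS2 : Prop :=
  ∀ c1 C1 : ℝ, 0 < c1 → c1 < C1 → ∀ ε : ℝ, 0 < ε → ∃ N0 : ℕ, ∀ I, P I → N0 ≤ I.F.N →
    ∫ r in (I.Q.r (c1 * I.w))..(I.Q.r (C1 * I.w)), I.D2 W (I.Q.al r) ≤ ε * I.w ^ 3

/-- `∫_0^{C'W} D dv = o(w²)` -/
def BcsS3 : Prop :=
  ∀ C' : ℝ, 0 < C' → ∀ ε : ℝ, 0 < ε → ∃ N0 : ℕ, ∀ I, P I → N0 ≤ I.F.N → ∫ v in (0 : ℝ)..(C' * I.Ws), I.D W v ≤ ε * I.w ^ 2

/-- **the common calibration cut**: `c_*` first, then the prescribed multiple `Km`, then `C_p`, `N0`; ONE cut for all `p` -/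
def BcsCut (K : BcsK) : Prop :=
  ∃ cst : ℝ, 0 < cst ∧ ∀ Km : ℝ, 1 ≤ Km → ∃ (Kup : ℝ) (Cp : ℝ → ℝ) (N0 : ℕ), ∀ I, P I → N0 ≤ I.F.N →
    ∃ vst : ℝ, Km * I.Ws ≤ vst ∧ vst ≤ Kup * I.Ws ∧ vst < 1 ∧ I.H W (I.Q.r vst) ≤ 0 ∧
      |I.S W vst - I.Q.r vst| ≤ 2 / I.F.Mj ∧ K.c / 2 * vst ≤ I.S W vst ∧ I.S W vst ≤ 2 * K.C * vst ∧
      I.D W vst ≤ I.F.x ^ cst * I.w ^ 2 / I.Ws ∧
      ∀ p : ℝ, 2 ≤ p → I.Q.nQ W I.g p vst (I.S W vst) ≤ Cp p * I.F.x ^ cst * I.Ws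

end inputs

theorem bcs_defs_eqns_cite : True := by
  have := @BcsIn.geo.eq_1; have := @BcsIn.H.eq_1; have := @BcsIn.S.eq_1; have := @BcsIn.B.eq_1; have := @BcsIn.D2.eq_1
  have := @BcsIn.D.eq_1; have := @BcsIn.Ws.eq_1; have := @BcsIn.a3.eq_1; have := @BcsIn.Fl.eq_1; have := @bcsR10.eq_1; have := @BcsRaw.eq_1
  have := @BcsC10.eq_1; have := @BcsSW.eq_1; have := @BcsNF.eq_1; have := @BcsLp.eq_1; have := @BcsS1.eq_1
  have := @BcsS2.eq_1; have := @BcsS3.eq_1; have := @BcsCut.eq_1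
  trivial

/-! ## 3. LEAVES A: pure exponent arithmetic on a frame (no world).      `x = N^(-1/6)`, `x^12 ≤ λ ≤ x^pS`, `X = x/u ≤ CU λ^(s_*/2)`, `Λ = λ^0.03`, `m ∈ [N/2, 3N]`,
`w ≥ w_c ≥ x^(1-10ζ) Λ^(-1/6)` and `w_c² ≥ x^(-20ζ) u² X^(3/2) λ^0.24`, `v_* = 1/(mE) ≤ (2/c_d) x^(2+ζ)/(u Λ^(1/3))`, `δ = m_PE/10000 ≤ ζ/10⁶`.
Every saving below is at least `x^(18ζ)` up to constants; the statements keep `x^(12ζ)`. -/

/-- the automatic scale facts of the strong-removal setting, with the room `Kb` -/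
structure BcsScale (F : BdFr) (X : BdFix) (cs i0 Kb w : ℝ) : Prop where
  x0 : 0 < F.x
  x1 : F.x < 1
  u0 : 0 < F.u
  w0 : 0 < w
  C00 : 0 < F.C0
  wW : w ≤ F.Wsc X w
  W_lo : F.C0 ≤ F.Wsc X w ^ 2
  W_hi : F.Wsc X w ^ 2 ≤ max 1 (1 / cs) * F.C0
  /-- constant removal far beyond the scale `W` -/
  flat : ∀ r : ℝ, r ≤ Kb * F.Wsc X w → F.C X r = F.C0
  room : Kb * F.Wsc X w + Kb / F.Mj ≤ min (X.cd ^ 3 * F.u) 1
  /-- the enhanced-floor patch is far above the scale `W` -/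
  patch : Kb * F.Wsc X w < i0 * F.u
  Wu : Kb * F.Wsc X w ≤ F.u
  W1 : Kb * F.Wsc X w ≤ 1 / 4
  /-- caps are negligible -/
  Mj0 : 0 < F.Mj
  Mj : Kb / F.Mj ≤ w

/-! ### log toolkit (helper86) -/

/-- largeness: `-log x → ∞` -/
theorem bcs_ha_big (c R : ℝ) (hc : 0 < c) : ∃ N0 : ℕ, ∀ F : BdFr, N0 ≤ F.N → R ≤ c * (-Real.log F.x) := by
  refine ⟨max 1 ⌈Real.exp (6 * R / c)⌉₊, fun F hN => ?_⟩
  have hN1 : (1:ℝ) ≤ F.N := by exact_mod_cast (le_max_left _ _).trans hN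
  have hN2 : Real.exp (6 * R / c) ≤ F.N :=
    (Nat.le_ceil _).trans (by exact_mod_cast (le_max_right _ _).trans hN)
  have h1 : 6 * R / c ≤ Real.log F.N := (Real.le_log_iff_exp_le (by linarith)).2 hN2
  have h2 : Real.log F.x = -(1/6) * Real.log F.N := by
    unfold BdFr.x; rw [Real.log_rpow (by linarith)]
  rw [h2]
  rw [div_le_iff₀ hc] at h1
  nlinarith

theorem bcs_ha_le {a b : ℝ} (ha : 0 < a) (hb : 0 < b) (h : Real.log a ≤ Real.log b) : a ≤ b :=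
  (Real.log_le_log_iff ha hb).1 h

theorem bcs_ha_x {F : BdFr} (hN : 2 ≤ F.N) : 0 < F.x ∧ F.x < 1 ∧ Real.log F.x < 0 ∧ Real.log F.N = -6 * Real.log F.x := by
  have h2 : (2:ℝ) ≤ F.N := by exact_mod_cast hN
  have h0 : 0 < F.x := by unfold BdFr.x; exact Real.rpow_pos_of_pos (by linarith) _
  have h1 : F.x < 1 := by unfold BdFr.x; exact Real.rpow_lt_one_of_one_lt_of_neg (by linarith) (by norm_num)
  refine ⟨h0, h1, Real.log_neg h0 h1, ?_⟩
  unfold BdFr.x; rw [Real.log_rpow (by linarith)]; ring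

/-- the frame in logarithms -/
theorem bcs_ha_base {X : BdFix} (hX : X.Ok) {F : BdFr} (hF : F.Ok X) :
    Real.log F.x < 0 ∧ 12 * Real.log F.x ≤ Real.log F.lam ∧ Real.log F.lam ≤ X.pS * Real.log F.x ∧
    Real.log F.x - X.sS / 2 * Real.log F.lam ≤ Real.log X.CU + Real.log F.u ∧ Real.log F.u ≤ X.bl * Real.log F.lam ∧
    -6 * Real.log F.x - Real.log 2 ≤ Real.log F.m ∧ Real.log F.m ≤ Real.log 3 - 6 * Real.log F.x := by
  obtain ⟨hx0, hx1, hlx, hN⟩ := bcs_ha_x hF.N2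
  have hl0 := BdFr.bds_lam_pos hF
  have hu0 := BdFr.bds_u_pos hF hX
  have hN0 : (0:ℝ) < F.N := by have := hF.N2; positivity
  have hm0 : (0:ℝ) < F.m := lt_of_lt_of_le one_pos (bud_gb_m_ge hF)
  refine ⟨hlx, ?_, ?_, ?_, ?_, ?_, ?_⟩
  · have := Real.log_le_log (Real.rpow_pos_of_pos hx0 _) hF.lam_lo
    rwa [Real.log_rpow hx0] at this
  · have := Real.log_le_log hl0 hF.lam_hi
    rwa [Real.log_rpow hx0] at this
  · have := Real.log_le_log (BdFr.bds_U_pos hF) hF.u_lo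
    unfold BdFr.U at this
    rw [Real.log_mul hx0.ne' (Real.rpow_pos_of_pos hl0 _).ne', Real.log_rpow hl0,
      Real.log_mul hX.CU_pos.ne' hu0.ne'] at this
    linarith
  · have := Real.log_le_log hu0 hF.u_hi
    rwa [Real.log_rpow hl0] at this
  · have := Real.log_le_log (by positivity) hF.m_lo
    rw [Real.log_div hN0.ne' (by norm_num), hN] at this
    linarith
  · have := Real.log_le_log hm0 hF.m_hi
    rw [Real.log_mul (by norm_num) hN0.ne', hN] at this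
    linarith

/-- products of the small parameters with the logarithms -/
theorem bcs_ha_prod {X : BdFix} (hX : X.Ok) {F : BdFr} (hF : F.Ok X) (h1 : 1 ≤ -Real.log F.x) :
    X.sS * Real.log F.lam ≤ 0.49 * Real.log F.lam ∧ X.s0 * Real.log F.lam ≤ 0.49 * Real.log F.lam ∧
    0 ≤ X.dPEexp * Real.log F.m ∧ X.dPEexp * Real.log F.m ≤ -(X.zeta * Real.log F.x) / 1000 ∧
    Real.log F.lam ≤ 1000 * (X.zeta * Real.log F.x) ∧ Real.log F.lam < 0 ∧ 0 ≤ Real.log F.m := by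
  obtain ⟨b1, b2, b3, b4, b5, b6, b7⟩ := bcs_ha_base hX hF
  have hs0 := BdFr.bds_s0_ge hX
  have hsS : (0.49 : ℝ) ≤ X.sS := by
    have : X.s0 = X.sS - X.tau0 := rfl
    linarith [hX.tau0_pos]
  have hll : Real.log F.lam < 0 := Real.log_neg (BdFr.bds_lam_pos hF) (BdFr.bds_lam_lt_one hF hX)
  have hlm : 0 ≤ Real.log F.m := Real.log_nonneg (bud_gb_m_ge hF)
  have hd0 : 0 < X.dPEexp := by unfold BdFix.dPEexp; linarith [hX.mPE_pos]
  have hd1 : X.dPEexp ≤ X.zeta / 1000000 := by unfold BdFix.dPEexp; linarith [hX.mPE_le]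
  have hz := hX.zeta_pos
  have hl3 : Real.log 3 ≤ 2 := by
    have : Real.log 3 ≤ 3 - 1 := Real.log_le_sub_one_of_pos (by norm_num)
    linarith
  have hzp : 1000 * X.zeta ≤ X.pS := by
    have h1 : X.tau0 ≤ 1 := by linarith [hX.tau0_le, hX.eta_le, hX.tau_le]
    have h2 : X.bl ≤ 1 := by linarith [hX.bl_le, hX.bs_le, hX.eta_le, hX.tau_le]
    have h3 : X.pS * X.tau0 * X.bl ≤ X.pS := by
      have : X.pS * X.tau0 ≤ X.pS := by nlinarith [hX.pS_pos]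
      nlinarith [hX.pS_pos, hX.tau0_pos, hX.bl_pos, mul_pos hX.pS_pos hX.tau0_pos]
    linarith [hX.zeta_le]
  refine ⟨by nlinarith, by nlinarith, mul_nonneg hd0.le hlm, ?_, ?_, hll, hlm⟩
  · have e1 : X.dPEexp * Real.log F.m ≤ X.zeta / 1000000 * (8 * (-Real.log F.x)) :=
      mul_le_mul hd1 (by linarith) hlm (by positivity)
    nlinarith
  · nlinarith

/-- positivity of the scales -/
theorem bcs_ha_pos {X : BdFix} (hX : X.Ok) {F : BdFr} (hF : F.Ok X) :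
    0 < F.x ∧ 0 < F.lam ∧ 0 < F.u ∧ (0:ℝ) < F.m ∧ 0 < F.Lam ∧ 0 < F.C0 ∧ 0 < F.vs X ∧ 0 < F.wc X ∧ 0 < F.Mj ∧ 0 < F.Bf X := by
  have hx0 := BdFr.bds_x_pos hF
  have hl0 := BdFr.bds_lam_pos hF
  have hu0 := BdFr.bds_u_pos hF hX
  have hL0 := bud_gb_Lam_pos hF
  have hXr := BdFr.bds_Xr_pos hF hX
  refine ⟨hx0, hl0, hu0, lt_of_lt_of_le one_pos (bud_gb_m_ge hF), hL0, bud_gb_C0_pos hX hF, bud_gb_us_pos hX hF, ?_, ?_, ?_⟩
  · unfold BdFr.wc BdFr.yc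
    have h1 := Real.rpow_pos_of_pos hx0 (-(10 * X.zeta))
    have h2 := Real.rpow_pos_of_pos hL0 (-(1 / 6) : ℝ)
    have h3 := Real.rpow_pos_of_pos hXr (3 / 4 : ℝ)
    have h4 := Real.rpow_pos_of_pos hl0 (0.12 : ℝ)
    positivity
  · unfold BdFr.Mj
    have h1 := Real.rpow_pos_of_pos hx0 (-(100 : ℝ))
    positivity
  · unfold BdFr.Bf
    have h1 := Real.rpow_pos_of_pos hXr (3 / 2 : ℝ)
    have h2 := Real.rpow_pos_of_pos hl0 (X.s0 / 2)
    have h3 := Real.rpow_pos_of_pos hL0 (-(5 / 12) : ℝ)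
    positivity

/-- the scales in logarithms -/
theorem bcs_ha_logs {X : BdFix} (hX : X.Ok) {F : BdFr} (hF : F.Ok X) :
    Real.log F.Lam = 0.03 * Real.log F.lam ∧ Real.log F.C0 = 2 * Real.log F.u + 0.03 * Real.log F.lam ∧
    Real.log (F.vs X) = -(Real.log F.m + (4 - X.zeta) * Real.log F.x + Real.log X.cd + Real.log F.u + 0.01 * Real.log F.lam) ∧
    (1 - 10 * X.zeta) * Real.log F.x - 0.005 * Real.log F.lam ≤ Real.log (F.wc X) ∧
    -(10 * X.zeta) * Real.log F.x + Real.log F.u + 0.75 * (Real.log F.x - Real.log F.u) + 0.12 * Real.log F.lam ≤ Real.log (F.wc X) ∧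
    -100 * Real.log F.x ≤ Real.log F.Mj ∧
    Real.log (F.Bf X) = 1.5 * (Real.log F.x - Real.log F.u) + X.s0 / 2 * Real.log F.lam - 0.0125 * Real.log F.lam := by
  obtain ⟨hx0, hl0, hu0, hm0, hL0, hC0, hvs, hwc, hMj, hBf⟩ := bcs_ha_pos hX hF
  have hXr := BdFr.bds_Xr_pos hF hX
  have eL : Real.log F.Lam = 0.03 * Real.log F.lam := by unfold BdFr.Lam; rw [Real.log_rpow hl0]
  have eXr : Real.log F.Xr = Real.log F.x - Real.log F.u := by unfold BdFr.Xr; rw [Real.log_div hx0.ne' hu0.ne']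
  refine ⟨eL, ?_, ?_, ?_, ?_, ?_, ?_⟩
  · unfold BdFr.C0
    rw [Real.log_mul (by positivity) hL0.ne', Real.log_pow, eL]; norm_num
  · have e1 : F.vs X = 1 / ((F.m : ℝ) * (F.x ^ (4 - X.zeta) * (X.cd * F.u * F.Lam ^ (1 / 3 : ℝ)))) := rfl
    have h1 := Real.rpow_pos_of_pos hx0 (4 - X.zeta)
    have h2 := Real.rpow_pos_of_pos hL0 (1 / 3 : ℝ)
    have hcd := hX.cd_pos
    rw [e1, one_div, Real.log_inv, Real.log_mul hm0.ne' (by positivity), Real.log_mul h1.ne' (by positivity),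
      Real.log_mul (by positivity) h2.ne', Real.log_mul hcd.ne' hu0.ne', Real.log_rpow hx0, Real.log_rpow hL0, eL]
    ring
  · have h1 := Real.rpow_pos_of_pos hx0 (-(10 * X.zeta))
    have h2 := Real.rpow_pos_of_pos hL0 (-(1 / 6) : ℝ)
    have h3 := Real.rpow_pos_of_pos hXr (3 / 4 : ℝ)
    have h4 := Real.rpow_pos_of_pos hl0 (0.12 : ℝ)
    have hle : F.x ^ (-(10 * X.zeta)) * (F.Xr * F.Lam ^ (-(1 / 6) : ℝ)) * F.u ≤ F.wc X := by
      unfold BdFr.wc BdFr.yc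
      refine mul_le_mul_of_nonneg_right (mul_le_mul_of_nonneg_left ?_ h1.le) hu0.le
      linarith [mul_pos h3 h4]
    have := Real.log_le_log (by positivity) hle
    rw [Real.log_mul (by positivity) hu0.ne', Real.log_mul h1.ne' (by positivity), Real.log_mul hXr.ne' h2.ne',
      Real.log_rpow hx0, Real.log_rpow hL0, eL, eXr] at this
    linarith
  · have h1 := Real.rpow_pos_of_pos hx0 (-(10 * X.zeta))
    have h2 := Real.rpow_pos_of_pos hL0 (-(1 / 6) : ℝ)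
    have h3 := Real.rpow_pos_of_pos hXr (3 / 4 : ℝ)
    have h4 := Real.rpow_pos_of_pos hl0 (0.12 : ℝ)
    have hle : F.x ^ (-(10 * X.zeta)) * (F.Xr ^ (3 / 4 : ℝ) * F.lam ^ (0.12 : ℝ)) * F.u ≤ F.wc X := by
      unfold BdFr.wc BdFr.yc
      refine mul_le_mul_of_nonneg_right (mul_le_mul_of_nonneg_left ?_ h1.le) hu0.le
      linarith [mul_pos hXr h2]
    have := Real.log_le_log (by positivity) hle
    rw [Real.log_mul (by positivity) hu0.ne', Real.log_mul h1.ne' (by positivity), Real.log_mul h3.ne' h4.ne',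
      Real.log_rpow hx0, Real.log_rpow hXr, Real.log_rpow hl0, eXr] at this
    linarith
  · have h1 := Real.rpow_pos_of_pos hx0 (-(100 : ℝ))
    unfold BdFr.Mj
    rw [Real.log_mul (by positivity) h1.ne', Real.log_pow, Real.log_rpow hx0]
    have : 0 ≤ (F.st : ℝ) * Real.log 2 := mul_nonneg (Nat.cast_nonneg _) (Real.log_nonneg (by norm_num))
    linarith
  · have h1 := Real.rpow_pos_of_pos hXr (3 / 2 : ℝ)
    have h2 := Real.rpow_pos_of_pos hl0 (X.s0 / 2)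
    have h3 := Real.rpow_pos_of_pos hL0 (-(5 / 12) : ℝ)
    unfold BdFr.Bf
    rw [Real.log_mul (by positivity) h3.ne', Real.log_mul h1.ne' h2.ne', Real.log_rpow hXr, Real.log_rpow hl0,
      Real.log_rpow hL0, eL, eXr]
    ring

/-- everything at once -/
theorem bcs_ha_all (X : BdFix) (hX : X.Ok) (R : ℝ) : ∃ N0 : ℕ, ∀ F : BdFr, N0 ≤ F.N →
    R ≤ X.zeta * (-Real.log F.x) ∧ 1 ≤ -Real.log F.x ∧ X.zeta * (-Real.log F.x) ≤ -Real.log F.x / 1000 := by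
  obtain ⟨N1, h1⟩ := bcs_ha_big X.zeta R hX.zeta_pos
  obtain ⟨N2, h2⟩ := bcs_ha_big 1 1 one_pos
  refine ⟨max N1 N2, fun F hN => ?_⟩
  have a1 := h1 F ((le_max_left _ _).trans hN)
  have a2 := h2 F ((le_max_right _ _).trans hN)
  rw [one_mul] at a2
  refine ⟨a1, a2, ?_⟩
  have hz : X.zeta ≤ 1 / 1000 := by
    have h1 : X.tau0 ≤ 1 := by linarith [hX.tau0_le, hX.eta_le, hX.tau_le]
    have h2 : X.bl ≤ 1 := by linarith [hX.bl_le, hX.bs_le, hX.eta_le, hX.tau_le]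
    have h4 : X.pS ≤ 1 := by linarith [hX.pS_le, hX.he_le]
    have h3 : X.pS * X.tau0 * X.bl ≤ 1 := by
      have : X.pS * X.tau0 ≤ 1 := by nlinarith [hX.pS_pos, hX.tau0_pos]
      nlinarith [hX.pS_pos, hX.tau0_pos, hX.bl_pos, mul_pos hX.pS_pos hX.tau0_pos]
    linarith [hX.zeta_le]
  nlinarith

/-- the calibration scale in logarithms -/
theorem bcs_ha_W {F : BdFr} {X : BdFix} {cs i0 Kb w : ℝ} (hcs : 0 < cs) (h : BcsScale F X cs i0 Kb w) :
    0 < F.Wsc X w ∧ Real.log F.C0 ≤ 2 * Real.log (F.Wsc X w) ∧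
      2 * Real.log (F.Wsc X w) ≤ Real.log (max 1 (1 / cs)) + Real.log F.C0 ∧ Real.log w ≤ Real.log (F.Wsc X w) := by
  have hW0 : 0 < F.Wsc X w := h.w0.trans_le h.wW
  have hc2 : 0 < max 1 (1 / cs) := lt_of_lt_of_le one_pos (le_max_left _ _)
  refine ⟨hW0, ?_, ?_, Real.log_le_log h.w0 h.wW⟩
  · have := Real.log_le_log h.C00 h.W_lo
    rw [Real.log_pow] at this
    norm_num at this
    linarith
  · have := Real.log_le_log (by positivity) h.W_hi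
    rw [Real.log_mul hc2.ne' h.C00.ne', Real.log_pow, Nat.cast_ofNat] at this
    exact this

/-- LEAF A0 (l.441-446, l.201-203): `cs w² ≤ C(w) ≤ C0 = u²Λ` forces `w ≤ u √(Λ/cs) = o(u)`, hence `C(w) = C0` and `W ≍ u√Λ`.      TEX[LL:bud:common-star] -/
theorem bcs_num_scale (X : BdFix) (hX : X.Ok) (cs i0 Kb : ℝ) (hcs : 0 < cs) (hi0 : 0 < i0) (hKb : 1 ≤ Kb) :
    ∃ N0 : ℕ, ∀ F : BdFr, F.Ok X → N0 ≤ F.N → ∀ w : ℝ, F.wc X ≤ w → F.Strong X w cs → BcsScale F X cs i0 Kb w := by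
  obtain ⟨c2, hc2⟩ : ∃ c2, c2 = max 1 (1 / cs) := ⟨_, rfl⟩
  obtain ⟨cm, hcm⟩ : ∃ cm, cm = min (min (X.cd ^ 3 / 2) (i0 / 2)) (1 / 4) := ⟨_, rfl⟩
  have hc20 : 0 < c2 := by rw [hc2]; exact lt_of_lt_of_le one_pos (le_max_left _ _)
  have hcd := hX.cd_pos
  have hcm0 : 0 < cm := by rw [hcm]; refine lt_min (lt_min ?_ ?_) ?_ <;> positivity
  have hKb0 : 0 < Kb := by linarith
  obtain ⟨N0, h0⟩ := bcs_ha_all X hX (|Real.log Kb| + |Real.log c2| + |Real.log cm| + |Real.log X.CU| + |Real.log cs|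
    + 3 * |Real.log X.cd| + 1)
  refine ⟨N0, fun F hF hN w hw hs => ?_⟩
  obtain ⟨hR, h1, hz⟩ := h0 F hN
  obtain ⟨b1, b2, b3, b4, b5, b6, b7⟩ := bcs_ha_base hX hF
  obtain ⟨p1, p2, p3, p4, p5, p6, p7⟩ := bcs_ha_prod hX hF h1
  obtain ⟨hx0, hl0, hu0, hm0, hL0, hC0, hvs, hwc, hMj, hBf⟩ := bcs_ha_pos hX hF
  obtain ⟨l1, l2, l3, l4, l5, l6, l7⟩ := bcs_ha_logs hX hF
  have a1 := le_abs_self (Real.log Kb); have a1' := neg_abs_le (Real.log Kb)
  have a2 := le_abs_self (Real.log c2); have a2' := neg_abs_le (Real.log c2)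
  have a3 := le_abs_self (Real.log cm); have a3' := neg_abs_le (Real.log cm)
  have a4 := le_abs_self (Real.log X.CU); have a4' := neg_abs_le (Real.log X.CU)
  have a5 := le_abs_self (Real.log cs); have a5' := neg_abs_le (Real.log cs)
  have a6 := le_abs_self (Real.log X.cd); have a6' := neg_abs_le (Real.log X.cd)
  have hw0 : 0 < w := hwc.trans_le hw
  have hlw : Real.log (F.wc X) ≤ Real.log w := Real.log_le_log hwc hw
  have hCle : F.C X w ≤ F.C0 := cm_e_le (F.call X) hC0.le w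
  have hs' : cs * w ^ 2 ≤ F.C0 := le_trans hs hCle
  have hls : Real.log cs + 2 * Real.log w ≤ Real.log F.C0 := by
    have := Real.log_le_log (by positivity) hs'
    rw [Real.log_mul hcs.ne' (by positivity), Real.log_pow] at this
    norm_num at this
    linarith
  have hwflat : w ≤ X.cd ^ 3 * F.u := by
    refine bcs_ha_le hw0 (by positivity) ?_
    rw [Real.log_mul (by positivity) hu0.ne', Real.log_pow]
    norm_num
    linarith
  have hCw : F.C X w = F.C0 := bud_gb_C_flat hX hF hwflat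
  obtain ⟨Ws, hWs⟩ : ∃ Ws, Ws = F.Wsc X w := ⟨_, rfl⟩
  have hWdef : Ws = max w (Real.sqrt F.C0) := by rw [hWs]; unfold BdFr.Wsc; rw [hCw]
  have hwW : w ≤ Ws := by rw [hWdef]; exact le_max_left _ _
  have hW0 : 0 < Ws := hw0.trans_le hwW
  have hWlo : F.C0 ≤ Ws ^ 2 := by
    have h2 : Real.sqrt F.C0 ≤ Ws := by rw [hWdef]; exact le_max_right _ _
    calc F.C0 = Real.sqrt F.C0 ^ 2 := (Real.sq_sqrt hC0.le).symm
      _ ≤ Ws ^ 2 := pow_le_pow_left₀ (Real.sqrt_nonneg _) h2 2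
  have hWhi : Ws ^ 2 ≤ c2 * F.C0 := by
    rcases le_total w (Real.sqrt F.C0) with h | h
    · rw [hWdef, max_eq_right h, Real.sq_sqrt hC0.le, hc2]
      exact le_mul_of_one_le_left hC0.le (le_max_left _ _)
    · rw [hWdef, max_eq_left h, hc2]
      have h3 : w ^ 2 ≤ 1 / cs * F.C0 := by
        rw [div_mul_eq_mul_div, one_mul, le_div_iff₀ hcs]; linarith
      exact h3.trans (mul_le_mul_of_nonneg_right (le_max_right _ _) hC0.le)
  have hlW : 2 * Real.log Ws ≤ Real.log c2 + Real.log F.C0 := by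
    have := Real.log_le_log (by positivity) hWhi
    rw [Real.log_mul hc20.ne' hC0.ne', Real.log_pow] at this
    norm_num at this
    linarith
  have hKW : Kb * Ws ≤ cm * F.u := by
    refine bcs_ha_le (by positivity) (by positivity) ?_
    rw [Real.log_mul hKb0.ne' hW0.ne', Real.log_mul hcm0.ne' hu0.ne']
    linarith
  have hKM : Kb / F.Mj ≤ cm * F.u := by
    refine bcs_ha_le (by positivity) (by positivity) ?_
    rw [Real.log_div hKb0.ne' hMj.ne', Real.log_mul hcm0.ne' hu0.ne']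
    linarith
  have hKMw : Kb / F.Mj ≤ w := by
    refine bcs_ha_le (by positivity) hw0 ?_
    rw [Real.log_div hKb0.ne' hMj.ne']
    linarith
  have hu1 := BdFr.bds_u_le_one hF hX
  have c1 : cm ≤ X.cd ^ 3 / 2 := by rw [hcm]; exact (min_le_left _ _).trans (min_le_left _ _)
  have c2' : cm ≤ i0 / 2 := by rw [hcm]; exact (min_le_left _ _).trans (min_le_right _ _)
  have c3 : cm ≤ 1 / 4 := by rw [hcm]; exact min_le_right _ _
  have d1 : cm * F.u ≤ X.cd ^ 3 / 2 * F.u := mul_le_mul_of_nonneg_right c1 hu0.le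
  have d2 : cm * F.u ≤ i0 / 2 * F.u := mul_le_mul_of_nonneg_right c2' hu0.le
  have d3 : cm * F.u ≤ 1 / 4 * F.u := mul_le_mul_of_nonneg_right c3 hu0.le
  rw [hWs] at hwW hWlo hWhi hKW
  rw [hc2] at hWhi
  have e0 : 0 < X.cd ^ 3 * F.u := by positivity
  have e1 : 0 < i0 * F.u := by positivity
  exact
    { x0 := hx0
      x1 := BdFr.bds_x_lt_one hF
      u0 := hu0
      w0 := hw0
      C00 := hC0
      wW := hwW
      W_lo := hWlo
      W_hi := hWhi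
      flat := fun r hr => bud_gb_C_flat hX hF (by linarith)
      room := le_min (by linarith) (by linarith)
      patch := by linarith
      Wu := by linarith
      W1 := by linarith
      Mj0 := hMj
      Mj := hKMw }

/-- LEAF A1 (l.476-478): on `w ≤ v ≤ C'W` the right side of (C10) saves a power relative to `w²/(W²v)^(1/3)`; the indicator vanishes.      TEX[LL:bud:common-star] -/
theorem bcs_num_mid (X : BdFix) (hX : X.Ok) (cs clo chi C' : ℝ) (hcs : 0 < cs) (hclo : 0 < clo) (hchi : clo ≤ chi) (hC' : 1 ≤ C') :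
    ∃ N0 : ℕ, ∀ F : BdFr, F.Ok X → N0 ≤ F.N → ∀ w : ℝ, F.wc X ≤ w → F.Strong X w cs →
      ∀ v : ℝ, w ≤ v → v ≤ C' * F.Wsc X w →
        bcsR10 F X clo chi v ≤ F.x ^ (12 * X.zeta) * (w ^ 2 / (F.Wsc X w ^ 2 * v) ^ (1 / 3 : ℝ)) := by
  have hC'0 : 0 < C' := by linarith
  obtain ⟨N1, hsc⟩ := bcs_num_scale X hX cs clo C' hcs hclo hC'
  obtain ⟨N0, h0⟩ := bcs_ha_all X hX (|Real.log (max 1 (1 / cs))| + |Real.log C'| + |Real.log X.cd| + |Real.log X.CU| + 5)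
  refine ⟨max N0 N1, fun F hF hN w hw hs v hwv hvW => ?_⟩
  obtain ⟨hR, h1, hz⟩ := h0 F ((le_max_left _ _).trans hN)
  have sc := hsc F hF ((le_max_right _ _).trans hN) w hw hs
  obtain ⟨b1, b2, b3, b4, b5, b6, b7⟩ := bcs_ha_base hX hF
  obtain ⟨p1, p2, p3, p4, p5, p6, p7⟩ := bcs_ha_prod hX hF h1
  obtain ⟨hx0, hl0, hu0, hm0, hL0, hC0, hvs, hwc, hMj, hBf⟩ := bcs_ha_pos hX hF
  obtain ⟨l1, l2, l3, l4, l5, l6, l7⟩ := bcs_ha_logs hX hF
  obtain ⟨hW0, w1, w2, w3⟩ := bcs_ha_W hcs sc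
  have a1 := le_abs_self (Real.log (max 1 (1 / cs))); have a1' := neg_abs_le (Real.log (max 1 (1 / cs)))
  have a2 := le_abs_self (Real.log C'); have a2' := neg_abs_le (Real.log C')
  have a4 := le_abs_self (Real.log X.CU); have a4' := neg_abs_le (Real.log X.CU)
  have a6 := le_abs_self (Real.log X.cd); have a6' := neg_abs_le (Real.log X.cd)
  have hl2 : Real.log 2 ≤ 1 := by
    have : Real.log 2 ≤ 2 - 1 := Real.log_le_sub_one_of_pos (by norm_num)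
    linarith
  have hl3 : Real.log 3 ≤ 2 := by
    have : Real.log 3 ≤ 3 - 1 := Real.log_le_sub_one_of_pos (by norm_num)
    linarith
  have hw0 : 0 < w := sc.w0
  have hv0 : 0 < v := hw0.trans_le hwv
  have hlw : Real.log (F.wc X) ≤ Real.log w := Real.log_le_log hwc hw
  have hlv1 : Real.log w ≤ Real.log v := Real.log_le_log hw0 hwv
  have hlv2 : Real.log v ≤ Real.log C' + Real.log (F.Wsc X w) := by
    have := Real.log_le_log hv0 hvW
    rwa [Real.log_mul hC'0.ne' hW0.ne'] at this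
  have hCv : F.C X v = F.C0 := sc.flat v hvW
  have hite : ¬ (clo * F.u ≤ v ∧ v ≤ chi * F.u) := fun h => by linarith [h.1, sc.patch]
  obtain ⟨Ws, hWs⟩ : ∃ Ws, Ws = F.Wsc X w := ⟨_, rfl⟩
  rw [← hWs] at hW0 w1 w2 w3 hlv2 ⊢
  obtain ⟨T, hT⟩ : ∃ T, T = F.x ^ (12 * X.zeta) * (w ^ 2 / (Ws ^ 2 * v) ^ (1 / 3 : ℝ)) := ⟨_, rfl⟩
  have q3 := Real.rpow_pos_of_pos hx0 (12 * X.zeta)
  have q4 : 0 < (Ws ^ 2 * v) ^ (1 / 3 : ℝ) := Real.rpow_pos_of_pos (by positivity) _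
  have hT0 : 0 < T := by rw [hT]; positivity
  have eT : Real.log (T / 3) = 12 * X.zeta * Real.log F.x + (2 * Real.log w - 1 / 3 * (2 * Real.log Ws + Real.log v)) - Real.log 3 := by
    rw [Real.log_div hT0.ne' (by norm_num), hT, Real.log_mul q3.ne' (by positivity), Real.log_div (by positivity) q4.ne',
      Real.log_rpow hx0, Real.log_rpow (by positivity), Real.log_mul (by positivity) hv0.ne']
    simp only [Real.log_pow, Nat.cast_ofNat]
  have t1 : (F.x ^ 6 / (F.C0 * v)) ^ (1 / 3 : ℝ) ≤ T / 3 := by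
    refine bcs_ha_le (Real.rpow_pos_of_pos (by positivity) _) (by positivity) ?_
    rw [eT, Real.log_rpow (by positivity), Real.log_div (by positivity) (by positivity), Real.log_mul hC0.ne' hv0.ne']
    simp only [Real.log_pow, Nat.cast_ofNat]
    linarith
  have t2 : F.x ^ 3 / (v * Real.sqrt F.C0) ≤ T / 3 := by
    have hsq : 0 < Real.sqrt F.C0 := Real.sqrt_pos.2 hC0
    refine bcs_ha_le (by positivity) (by positivity) ?_
    rw [eT, Real.log_div (by positivity) (by positivity), Real.log_mul hv0.ne' hsq.ne', Real.log_sqrt hC0.le]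
    simp only [Real.log_pow, Nat.cast_ofNat]
    linarith
  have t3 : (F.m : ℝ) ^ (X.dPEexp / 2) * F.vs X ≤ T / 3 := by
    have q5 := Real.rpow_pos_of_pos hm0 (X.dPEexp / 2)
    refine bcs_ha_le (by positivity) (by positivity) ?_
    rw [eT, Real.log_mul q5.ne' hvs.ne', Real.log_rpow hm0, l3]
    linarith
  unfold bcsR10
  rw [hCv, if_neg hite, ← hT]
  linarith

/-- LEAF A2 (l.469-475), EXPORT for N8 (not used below): for `v ≥ c'W` the right side of (C10) saves a power relative to `w²/W`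
(`v C(v)` is nondecreasing, so `v C(v) ≳ W³`; extra floor: `u B_f W/w_c² ≲ x^(20ζ) λ^(s0/2+k_c/12-0.24)`).      TEX[LL:bud:common-star] -/
theorem bcs_num_high (X : BdFix) (hX : X.Ok) (cs clo chi c' : ℝ) (hcs : 0 < cs) (hclo : 0 < clo) (hchi : clo ≤ chi) (hc' : 0 < c') :
    ∃ N0 : ℕ, ∀ F : BdFr, F.Ok X → N0 ≤ F.N → ∀ w : ℝ, F.wc X ≤ w → F.Strong X w cs →
      ∀ v : ℝ, c' * F.Wsc X w ≤ v → v ≤ 1 → bcsR10 F X clo chi v ≤ F.x ^ (12 * X.zeta) * (w ^ 2 / F.Wsc X w) := by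
  obtain ⟨N1, hsc⟩ := bcs_num_scale X hX cs 1 (max 1 c') hcs one_pos (le_max_left _ _)
  obtain ⟨N0, h0⟩ := bcs_ha_all X hX (|Real.log (max 1 (1 / cs))| + |Real.log c'| + |Real.log X.cd| + |Real.log X.CU| + 5)
  refine ⟨max N0 N1, fun F hF hN w hw hs v hvW hv1 => ?_⟩
  obtain ⟨hR, h1, hz⟩ := h0 F ((le_max_left _ _).trans hN)
  have sc := hsc F hF ((le_max_right _ _).trans hN) w hw hs
  obtain ⟨b1, b2, b3, b4, b5, b6, b7⟩ := bcs_ha_base hX hF
  obtain ⟨p1, p2, p3, p4, p5, p6, p7⟩ := bcs_ha_prod hX hF h1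
  obtain ⟨hx0, hl0, hu0, hm0, hL0, hC0, hvs, hwc, hMj, hBf⟩ := bcs_ha_pos hX hF
  obtain ⟨l1, l2, l3, l4, l5, l6, l7⟩ := bcs_ha_logs hX hF
  obtain ⟨hW0, w1, w2, w3⟩ := bcs_ha_W hcs sc
  have a1 := le_abs_self (Real.log (max 1 (1 / cs))); have a1' := neg_abs_le (Real.log (max 1 (1 / cs)))
  have a2 := le_abs_self (Real.log c'); have a2' := neg_abs_le (Real.log c')
  have a4 := le_abs_self (Real.log X.CU); have a4' := neg_abs_le (Real.log X.CU)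
  have a6 := le_abs_self (Real.log X.cd); have a6' := neg_abs_le (Real.log X.cd)
  have hl2 : Real.log 2 ≤ 1 := by
    have : Real.log 2 ≤ 2 - 1 := Real.log_le_sub_one_of_pos (by norm_num)
    linarith
  have hl4 : Real.log 4 ≤ 3 := by
    have : Real.log 4 ≤ 4 - 1 := Real.log_le_sub_one_of_pos (by norm_num)
    linarith
  have hw0 : 0 < w := sc.w0
  have hlw : Real.log (F.wc X) ≤ Real.log w := Real.log_le_log hwc hw
  have hflat : F.C X (c' * F.Wsc X w) = F.C0 :=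
    sc.flat _ (mul_le_mul_of_nonneg_right (le_max_right _ _) hW0.le)
  obtain ⟨Ws, hWs⟩ : ∃ Ws, Ws = F.Wsc X w := ⟨_, rfl⟩
  rw [← hWs] at hW0 w1 w2 w3 hvW hflat ⊢
  have hv00 : 0 < c' * Ws := by positivity
  have hv0 : 0 < v := hv00.trans_le hvW
  have hCv0 : 0 < F.C X v := bud_gb_C_pos hX hF v
  have hmono : c' * Ws * F.C0 ≤ v * F.C X v := by
    have := cm_re_mono (F.call X) (bud_gb_d_pos hX hF) hC0.le (show c' * Ws ∈ Ici (0:ℝ) from hv00.le)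
      (show v ∈ Ici (0:ℝ) from hv0.le) hvW
    have e : (fun r => r * (F.call X).e F.C0 r) (c' * Ws) = c' * Ws * F.C0 := by
      show c' * Ws * F.C X (c' * Ws) = _
      rw [hflat]
    rw [e] at this
    exact this
  obtain ⟨T, hT⟩ : ∃ T, T = F.x ^ (12 * X.zeta) * (w ^ 2 / Ws) := ⟨_, rfl⟩
  have q3 := Real.rpow_pos_of_pos hx0 (12 * X.zeta)
  have hT0 : 0 < T := by rw [hT]; positivity
  have eT : Real.log (T / 4) = 12 * X.zeta * Real.log F.x + (2 * Real.log w - Real.log Ws) - Real.log 4 := by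
    rw [Real.log_div hT0.ne' (by norm_num), hT, Real.log_mul q3.ne' (by positivity), Real.log_div (by positivity) hW0.ne',
      Real.log_rpow hx0]
    simp only [Real.log_pow, Nat.cast_ofNat]
  have t1 : (F.x ^ 6 / (F.C X v * v)) ^ (1 / 3 : ℝ) ≤ T / 4 := by
    have h2 : (F.x ^ 6 / (F.C X v * v)) ^ (1 / 3 : ℝ) ≤ (F.x ^ 6 / (c' * Ws * F.C0)) ^ (1 / 3 : ℝ) := by
      refine Real.rpow_le_rpow (by positivity) ?_ (by norm_num)
      refine div_le_div_of_nonneg_left (by positivity) (by positivity) ?_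
      linarith
    refine h2.trans ?_
    refine bcs_ha_le (Real.rpow_pos_of_pos (by positivity) _) (by positivity) ?_
    rw [eT, Real.log_rpow (by positivity), Real.log_div (by positivity) (by positivity), Real.log_mul (by positivity) hC0.ne',
      Real.log_mul hc'.ne' hW0.ne']
    simp only [Real.log_pow, Nat.cast_ofNat]
    linarith
  have t2 : F.x ^ 3 / (v * Real.sqrt (F.C X v)) ≤ T / 4 := by
    have hsq : 0 < Real.sqrt F.C0 := Real.sqrt_pos.2 hC0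
    have hsq' : 0 < Real.sqrt (F.C X v) := Real.sqrt_pos.2 hCv0
    have h2 : c' * Ws * Real.sqrt F.C0 ≤ v * Real.sqrt (F.C X v) := by
      refine (pow_le_pow_iff_left₀ (by positivity) (by positivity) (two_ne_zero)).1 ?_
      rw [mul_pow, mul_pow v, Real.sq_sqrt hC0.le, Real.sq_sqrt hCv0.le]
      calc (c' * Ws) ^ 2 * F.C0 = (c' * Ws) * (c' * Ws * F.C0) := by ring
        _ ≤ v * (v * F.C X v) := mul_le_mul hvW hmono (by positivity) hv0.le
        _ = v ^ 2 * F.C X v := by ring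
    refine (div_le_div_of_nonneg_left (by positivity) (by positivity) h2).trans ?_
    refine bcs_ha_le (by positivity) (by positivity) ?_
    rw [eT, Real.log_div (by positivity) (by positivity), Real.log_mul (by positivity) hsq.ne', Real.log_mul hc'.ne' hW0.ne',
      Real.log_sqrt hC0.le]
    simp only [Real.log_pow, Nat.cast_ofNat]
    linarith
  have t3 : (F.m : ℝ) ^ (X.dPEexp / 2) * F.vs X ≤ T / 4 := by
    have q5 := Real.rpow_pos_of_pos hm0 (X.dPEexp / 2)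
    refine bcs_ha_le (by positivity) (by positivity) ?_
    rw [eT, Real.log_mul q5.ne' hvs.ne', Real.log_rpow hm0, l3]
    linarith
  have t4 : (if clo * F.u ≤ v ∧ v ≤ chi * F.u then F.u * F.Bf X else 0) ≤ T / 4 := by
    split_ifs
    · refine bcs_ha_le (by positivity) (by positivity) ?_
      rw [eT, Real.log_mul hu0.ne' hBf.ne', l7]
      linarith
    · positivity
  unfold bcsR10
  rw [← hT]
  linarith

/-- LEAF A3 (l.484-486, l.498): `m C0 k(O(w)) w⁴ ≫ 1` and `m C0 w⁴ ≫ 1` (`C0 w_c² ≳ x^(-18ζ) m E²`, l.203).      TEX[LL:bud:common-star] -/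
theorem bcs_num_sw (X : BdFix) (hX : X.Ok) (cs Cb : ℝ) (hcs : 0 < cs) (hCb : 1 ≤ Cb) :
    ∃ N0 : ℕ, ∀ F : BdFr, F.Ok X → N0 ≤ F.N → ∀ w : ℝ, F.wc X ≤ w → F.Strong X w cs →
      0 < F.k X (Cb * w) ∧ F.x ^ 6 / (F.C0 * w ^ 4) / F.k X (Cb * w) ≤ F.x ^ (12 * X.zeta) ∧
        F.x ^ 6 / (F.C0 * w ^ 4) ≤ F.x ^ (12 * X.zeta) := by
  have hCb1 : 0 < Cb + 1 := by linarith
  obtain ⟨N0, h0⟩ := bcs_ha_all X hX (|Real.log (Cb + 1)| + |Real.log X.cd| + |Real.log X.CU| + 3)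
  refine ⟨N0, fun F hF hN w hw _ => ?_⟩
  obtain ⟨hR, h1, hz⟩ := h0 F hN
  obtain ⟨b1, b2, b3, b4, b5, b6, b7⟩ := bcs_ha_base hX hF
  obtain ⟨p1, p2, p3, p4, p5, p6, p7⟩ := bcs_ha_prod hX hF h1
  obtain ⟨hx0, hl0, hu0, hm0, hL0, hC0, hvs, hwc, hMj, hBf⟩ := bcs_ha_pos hX hF
  obtain ⟨l1, l2, l3, l4, l5, l6, l7⟩ := bcs_ha_logs hX hF
  have a1 := le_abs_self (Real.log (Cb + 1)); have a1' := neg_abs_le (Real.log (Cb + 1))
  have a4 := le_abs_self (Real.log X.CU); have a4' := neg_abs_le (Real.log X.CU)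
  have a6 := le_abs_self (Real.log X.cd); have a6' := neg_abs_le (Real.log X.cd)
  have hl2 : Real.log 2 ≤ 1 := by
    have : Real.log 2 ≤ 2 - 1 := Real.log_le_sub_one_of_pos (by norm_num)
    linarith
  have hl3 : Real.log 3 ≤ 2 := by
    have : Real.log 3 ≤ 3 - 1 := Real.log_le_sub_one_of_pos (by norm_num)
    linarith
  have hw0 : 0 < w := hwc.trans_le hw
  have hlw : Real.log (F.wc X) ≤ Real.log w := Real.log_le_log hwc hw
  have hk0 : 0 < F.k X (Cb * w) := bud_gb_k_pos (F.call X) (bud_gb_N_pos hF) (bud_gb_us_pos hX hF) (by positivity)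
  have hk1 : F.k X (Cb * w) ≤ 1 := by
    refine (bud_gb_k_le (F.call X) (bud_gb_N_pos hF) (bud_gb_us_pos hX hF) (by positivity)).trans ?_
    refine Real.rpow_le_one_of_one_le_of_nonpos (bud_gb_m_ge hF) ?_
    have : 0 < (F.call X).dl := by
      show 0 < X.mPE / 10000
      linarith [hX.mPE_pos]
    linarith
  have q1 := Real.rpow_pos_of_pos hm0 X.dPEexp
  have q2 := Real.rpow_pos_of_pos hm0 (2 * X.dPEexp)
  have q3 := Real.rpow_pos_of_pos hx0 (12 * X.zeta)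
  have ek : F.k X (Cb * w) = (F.m : ℝ) ^ X.dPEexp * F.vs X ^ 2 / (Cb * w + (F.m : ℝ) ^ (2 * X.dPEexp) * F.vs X) ^ 2 := rfl
  have h2 : (F.m : ℝ) ^ (2 * X.dPEexp) * F.vs X ≤ w := by
    refine bcs_ha_le (by positivity) hw0 ?_
    rw [Real.log_mul q2.ne' hvs.ne', Real.log_rpow hm0, l3]
    linarith
  have hk' : (F.m : ℝ) ^ X.dPEexp * F.vs X ^ 2 / ((Cb + 1) * w) ^ 2 ≤ F.k X (Cb * w) := by
    rw [ek]
    refine div_le_div_of_nonneg_left (by positivity) (by positivity) ?_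
    refine pow_le_pow_left₀ (by positivity) ?_ 2
    linarith
  have ha3 : 0 < F.x ^ 6 / (F.C0 * w ^ 4) := by positivity
  have hmain : F.x ^ 6 / (F.C0 * w ^ 4) / F.k X (Cb * w) ≤ F.x ^ (12 * X.zeta) := by
    refine (div_le_div_of_nonneg_left ha3.le (by positivity) hk').trans ?_
    refine bcs_ha_le (by positivity) q3 ?_
    rw [Real.log_div ha3.ne' (by positivity), Real.log_div (by positivity) (by positivity),
      Real.log_div (by positivity) (by positivity), Real.log_mul hC0.ne' (by positivity),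
      Real.log_mul q1.ne' (by positivity), Real.log_rpow hm0, Real.log_rpow hx0]
    simp only [Real.log_pow, Nat.cast_ofNat]
    rw [Real.log_mul hCb1.ne' hw0.ne', l2, l3]
    linarith
  refine ⟨hk0, hmain, le_trans ?_ hmain⟩
  rw [le_div_iff₀ hk0]
  exact mul_le_of_le_one_right ha3.le hk1

/-- LEAF A4: the TOTAL mass of the PE floor, `∫_s^t k ≤ m^(-δ) v_*` (`∫ a/(r+b)² dr ≤ a/b`).      TEX[LL:bud:common-star] (l.488) -/
theorem bcs_floor_int (X : BdFix) (hX : X.Ok) (F : BdFr) (hF : F.Ok X) {s t : ℝ} (hs : 0 ≤ s) (hst : s ≤ t) :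
    ∫ r in s..t, F.k X r ≤ (F.m : ℝ) ^ (-X.dPEexp) * F.vs X :=
  bud_gb_k_integral (F.call X) (bud_gb_N_pos hF) (bud_gb_us_pos hX hF) hs hst

/-- LEAF A5: `m^(-δ) v_* ≪ w` (floor mass `o(w)`).      TEX[LL:bud:common-star] (l.488) -/
theorem bcs_num_floor (X : BdFix) (hX : X.Ok) :
    ∃ N0 : ℕ, ∀ F : BdFr, F.Ok X → N0 ≤ F.N → ∀ w : ℝ, F.wc X ≤ w → (F.m : ℝ) ^ (-X.dPEexp) * F.vs X ≤ F.x ^ (6 * X.zeta) * w := by
  obtain ⟨N0, h0⟩ := bcs_ha_all X hX (Real.log 2 - Real.log X.cd + Real.log X.CU)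
  refine ⟨N0, fun F hF hN w hw => ?_⟩
  obtain ⟨hR, h1, hz⟩ := h0 F hN
  obtain ⟨b1, b2, b3, b4, b5, b6, b7⟩ := bcs_ha_base hX hF
  obtain ⟨p1, p2, p3, p4, p5, p6, p7⟩ := bcs_ha_prod hX hF h1
  obtain ⟨hx0, hl0, hu0, hm0, hL0, hC0, hvs, hwc, hMj, hBf⟩ := bcs_ha_pos hX hF
  obtain ⟨l1, l2, l3, l4, l5, l6, l7⟩ := bcs_ha_logs hX hF
  have q1 := Real.rpow_pos_of_pos hm0 (-X.dPEexp)
  have q2 := Real.rpow_pos_of_pos hx0 (6 * X.zeta)
  refine le_trans ?_ (mul_le_mul_of_nonneg_left hw q2.le)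
  refine bcs_ha_le (by positivity) (by positivity) ?_
  rw [Real.log_mul q1.ne' hvs.ne', Real.log_mul q2.ne' hwc.ne', Real.log_rpow hm0, Real.log_rpow hx0, l3]
  linarith

/-- LEAF A6: absorbing a constant and a subpower loss: `C x^(-a) x^b ≤ x^c` for `a + c < b` and large sizes -/
theorem bcs_num_absorb (C a b c : ℝ) (h : a + c < b) :
    ∃ N0 : ℕ, ∀ F : BdFr, N0 ≤ F.N → 0 < F.x ∧ F.x < 1 ∧ C * F.x ^ (-a) * F.x ^ b ≤ F.x ^ c := by
  obtain ⟨N1, h1⟩ := bcs_ha_big (b - a - c) (Real.log (max C 1)) (by linarith)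
  refine ⟨max 2 N1, fun F hN => ?_⟩
  obtain ⟨hx0, hx1, hlx, _⟩ := bcs_ha_x ((le_max_left _ _).trans hN)
  have h2 := h1 F ((le_max_right _ _).trans hN)
  refine ⟨hx0, hx1, ?_⟩
  have hC : 0 < max C 1 := lt_of_lt_of_le one_pos (le_max_right _ _)
  have p1 := Real.rpow_pos_of_pos hx0 (-a)
  have p2 := Real.rpow_pos_of_pos hx0 b
  have p3 := Real.rpow_pos_of_pos hx0 c
  calc C * F.x ^ (-a) * F.x ^ b ≤ max C 1 * F.x ^ (-a) * F.x ^ b := by
        have := le_max_left C 1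
        gcongr
    _ ≤ F.x ^ c := by
        refine bcs_ha_le (by positivity) p3 ?_
        rw [Real.log_mul (by positivity) p2.ne', Real.log_mul hC.ne' p1.ne', Real.log_rpow hx0, Real.log_rpow hx0,
          Real.log_rpow hx0]
        nlinarith

/-- LEAF A7: `x^c → 0` -/
theorem bcs_num_small (c ε : ℝ) (hc : 0 < c) (hε : 0 < ε) : ∃ N0 : ℕ, ∀ F : BdFr, N0 ≤ F.N → F.x ^ c ≤ ε := by
  obtain ⟨N1, h1⟩ := bcs_ha_big c (-Real.log ε) hc
  refine ⟨max 2 N1, fun F hN => ?_⟩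
  obtain ⟨hx0, hx1, hlx, _⟩ := bcs_ha_x ((le_max_left _ _).trans hN)
  have h2 := h1 F ((le_max_right _ _).trans hN)
  refine bcs_ha_le (Real.rpow_pos_of_pos hx0 _) hε ?_
  rw [Real.log_rpow hx0]
  linarith

/-! ## 4. LEAVES B: deterministic integration lemmas (Mathlib only) -/

/-- Cauchy-Schwarz on an interval -/
theorem bcs_hb_cs {f : ℝ → ℝ} {a b : ℝ} (hab : a < b) (hfi : IntervalIntegrable f volume a b)
    (hf2 : IntervalIntegrable (fun v => f v ^ 2) volume a b) :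
    (∫ v in a..b, f v) ^ 2 ≤ (b - a) * ∫ v in a..b, f v ^ 2 := by
  obtain ⟨J, hJ⟩ : ∃ J, J = ∫ v in a..b, f v := ⟨_, rfl⟩
  obtain ⟨m, hm⟩ : ∃ m, m = J / (b - a) := ⟨_, rfl⟩
  have hba : 0 < b - a := sub_pos.2 hab
  have h0 : 0 ≤ ∫ v in a..b, (f v - m) ^ 2 := intervalIntegral.integral_nonneg hab.le (fun v _ => sq_nonneg _)
  have h1 : ∫ v in a..b, (f v - m) ^ 2 = (∫ v in a..b, f v ^ 2) - 2 * m * J + m ^ 2 * (b - a) := by
    have e : (fun v => (f v - m) ^ 2) = fun v => (f v ^ 2 - 2 * m * f v) + m ^ 2 := by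
      funext v; ring
    rw [e, intervalIntegral.integral_add (hf2.sub (hfi.const_mul _)) (by simp),
      intervalIntegral.integral_sub hf2 (hfi.const_mul _), intervalIntegral.integral_const_mul, ← hJ]
    simp
    ring
  rw [h1] at h0
  rw [← hJ]
  have hJm : J = m * (b - a) := by rw [hm]; field_simp
  have : (b - a) * ((∫ v in a..b, f v ^ 2) - 2 * m * J + m ^ 2 * (b - a)) = (b - a) * (∫ v in a..b, f v ^ 2) - J ^ 2 := by
    rw [hJm]; ring
  have h2 := mul_nonneg hba.le h0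
  rw [this] at h2
  linarith

/-- one dyad -/
theorem bcs_hb_one {f : ℝ → ℝ} {v A : ℝ} (hv : 0 < v) (hA : 0 ≤ A)
    (hfi : IntervalIntegrable f volume v (2 * v)) (hf2 : IntervalIntegrable (fun v => f v ^ 2) volume v (2 * v))
    (hdy : ∫ t in v..(2 * v), f t ^ 2 ≤ v * (A / v ^ (1 / 3 : ℝ)) ^ 2) :
    ∫ t in v..(2 * v), f t ≤ A * v ^ (2 / 3 : ℝ) := by
  have h := bcs_hb_cs (by linarith : v < 2 * v) hfi hf2
  have h3 : 0 < v ^ (1 / 3 : ℝ) := Real.rpow_pos_of_pos hv _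
  have e : v = v ^ (1 / 3 : ℝ) * v ^ (2 / 3 : ℝ) := by
    rw [← Real.rpow_add hv]; norm_num
  have h4 : (2 * v - v) * (∫ t in v..(2 * v), f t ^ 2) ≤ (A * v ^ (2 / 3 : ℝ)) ^ 2 := by
    have : (2 * v - v) = v := by ring
    rw [this]
    calc v * (∫ t in v..(2 * v), f t ^ 2) ≤ v * (v * (A / v ^ (1 / 3 : ℝ)) ^ 2) := mul_le_mul_of_nonneg_left hdy hv.le
      _ = (v * (A / v ^ (1 / 3 : ℝ))) ^ 2 := by ring
      _ = (A * v ^ (2 / 3 : ℝ)) ^ 2 := by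
          congr 1
          have e' : v * (A / v ^ (1 / 3 : ℝ)) = (v ^ (1 / 3 : ℝ) * v ^ (2 / 3 : ℝ)) * (A / v ^ (1 / 3 : ℝ)) := by rw [← e]
          rw [e']
          field_simp
  exact abs_le_of_sq_le_sq' (h.trans h4) (mul_nonneg hA (Real.rpow_nonneg hv.le _)) |>.2

theorem bcs_hb_num : (4 : ℝ) * (1 / 2) ^ (2 / 3 : ℝ) ≤ 3 := by
  have h : ((1 / 2 : ℝ) ^ (2 / 3 : ℝ)) ^ (3 : ℕ) = 1 / 4 := by
    rw [← Real.rpow_natCast, ← Real.rpow_mul (by norm_num)]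
    norm_num
  have h0 : 0 ≤ (1 / 2 : ℝ) ^ (2 / 3 : ℝ) := Real.rpow_nonneg (by norm_num) _
  by_contra hc
  push Not at hc
  have : (3 / 4 : ℝ) < (1 / 2 : ℝ) ^ (2 / 3 : ℝ) := by linarith
  have h2 : (3 / 4 : ℝ) ^ 3 < ((1 / 2 : ℝ) ^ (2 / 3 : ℝ)) ^ 3 := pow_lt_pow_left₀ this (by norm_num) (by norm_num)
  rw [h] at h2
  norm_num at h2

/-- LEAF B1 (dyadic summation).  `∫_v^{2v} f² ≤ v (A v^(-1/3))²` on `a ≤ v ≤ b` gives `∫_a^b f ≤ 3 A b^(2/3)`.
Proof: Cauchy-Schwarz on a dyad gives `∫_v^{2v} f ≤ A v^(2/3)`; induction on `n` with `b ≤ 2^n a`: `(3 + 1) 2^(-2/3) ≤ 3`. -/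
theorem bcs_abs_dyad {f : ℝ → ℝ} {a b A : ℝ} (ha : 0 < a) (hab : a ≤ b) (hA : 0 ≤ A) (hf0 : ∀ v ∈ Icc a (2 * b), 0 ≤ f v)
    (hfi : IntervalIntegrable f volume a (2 * b)) (hf2 : IntervalIntegrable (fun v => f v ^ 2) volume a (2 * b))
    (hdy : ∀ v : ℝ, a ≤ v → v ≤ b → ∫ t in v..(2 * v), f t ^ 2 ≤ v * (A / v ^ (1 / 3 : ℝ)) ^ 2) :
    ∫ v in a..b, f v ≤ 3 * A * b ^ (2 / 3 : ℝ) := by
  have sub : ∀ {g : ℝ → ℝ}, IntervalIntegrable g volume a (2 * b) → ∀ s t : ℝ, a ≤ s → s ≤ t → t ≤ 2 * b →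
      IntervalIntegrable g volume s t := by
    intro g hg s t hs hst ht
    refine hg.mono_set ?_
    rw [uIcc_of_le hst, uIcc_of_le (by linarith)]
    exact Icc_subset_Icc hs ht
  have key : ∀ n : ℕ, ∀ c : ℝ, a ≤ c → c ≤ b → c ≤ 2 ^ n * a → ∫ v in a..c, f v ≤ 3 * A * c ^ (2 / 3 : ℝ) := by
    intro n
    induction n with
    | zero =>
      intro c hac hcb hc
      have : c = a := le_antisymm (by simpa using hc) hac
      rw [this, intervalIntegral.integral_same]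
      exact mul_nonneg (by positivity) (Real.rpow_nonneg ha.le _)
    | succ n ih =>
      intro c hac hcb hc
      have hc0 : 0 < c := ha.trans_le hac
      by_cases h2 : c / 2 < a
      · have h1 : ∫ v in a..c, f v ≤ ∫ v in a..(2 * a), f v := by
          refine intervalIntegral.integral_mono_interval le_rfl hac (by linarith) ?_ (sub hfi a (2 * a) le_rfl (by linarith) (by linarith))
          rw [Filter.EventuallyLE, ae_restrict_iff' measurableSet_Ioc]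
          exact Filter.Eventually.of_forall (fun v hv => hf0 v ⟨hv.1.le, by linarith [hv.2]⟩)
        have h3 := bcs_hb_one ha hA (sub hfi a (2 * a) le_rfl (by linarith) (by linarith))
          (sub hf2 a (2 * a) le_rfl (by linarith) (by linarith)) (hdy a le_rfl hab)
        have h4 : a ^ (2 / 3 : ℝ) ≤ c ^ (2 / 3 : ℝ) := Real.rpow_le_rpow ha.le hac (by norm_num)
        have h5 : 0 ≤ c ^ (2 / 3 : ℝ) := Real.rpow_nonneg hc0.le _
        nlinarith [mul_le_mul_of_nonneg_left h4 hA, mul_nonneg hA h5]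
      · push Not at h2
        have h1 := ih (c / 2) h2 (by linarith) (by rw [pow_succ] at hc; linarith)
        have hh : 0 < c / 2 := by linarith
        have e2 : 2 * (c / 2) = c := by ring
        have h3 := bcs_hb_one hh hA (sub hfi (c / 2) (2 * (c / 2)) h2 (by linarith) (by linarith))
          (sub hf2 (c / 2) (2 * (c / 2)) h2 (by linarith) (by linarith)) (hdy (c / 2) h2 (by linarith))
        rw [e2] at h3
        have h4 : ∫ v in a..c, f v = (∫ v in a..(c / 2), f v) + ∫ v in (c / 2)..c, f v :=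
          (intervalIntegral.integral_add_adjacent_intervals (sub hfi a (c / 2) le_rfl h2 (by linarith))
            (sub hfi (c / 2) c h2 (by linarith) (by linarith))).symm
        have e3 : (c / 2) ^ (2 / 3 : ℝ) = c ^ (2 / 3 : ℝ) * (1 / 2) ^ (2 / 3 : ℝ) := by
          rw [← Real.mul_rpow hc0.le (by norm_num)]; congr 1; ring
        rw [e3] at h1 h3
        have h5 : 0 ≤ A * c ^ (2 / 3 : ℝ) := mul_nonneg hA (Real.rpow_nonneg hc0.le _)
        have h6 := mul_le_mul_of_nonneg_left bcs_hb_num h5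
        rw [h4]
        nlinarith
  obtain ⟨n, hn⟩ := pow_unbounded_of_one_lt (b / a) (by norm_num : (1 : ℝ) < 2)
  exact key n b hab le_rfl (by rw [div_lt_iff₀ ha] at hn; exact hn.le)

/-- LEAF B2 (the low integral, l.499-502): raw part below `c w`, target band `[c w, Kr w]` by Cauchy-Schwarz, dyads above. -/
theorem bcs_abs_low {f : ℝ → ℝ} {w c Kr b Cr e1 A : ℝ} (hw : 0 < w) (hc : 0 < c) (hcK : c < Kr) (hKb : Kr * w ≤ b) (hCr : 0 ≤ Cr)
    (he1 : 0 ≤ e1) (hA : 0 ≤ A) (hf0 : ∀ v ∈ Ioc 0 (2 * b), 0 ≤ f v)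
    (hfi : IntervalIntegrable f volume 0 (2 * b)) (hf2 : IntervalIntegrable (fun v => f v ^ 2) volume 0 (2 * b))
    (hraw : ∀ v ∈ Ioc 0 (c * w), f v ≤ Cr * (v + w))
    (hband : ∫ v in (c * w)..(Kr * w), f v ^ 2 ≤ e1 * w ^ 3)
    (hdy : ∀ v : ℝ, Kr * w ≤ v → v ≤ b → ∫ t in v..(2 * v), f t ^ 2 ≤ v * (A / v ^ (1 / 3 : ℝ)) ^ 2) :
    ∫ v in (0 : ℝ)..b, f v ≤ Cr * (c + c ^ 2 / 2) * w ^ 2 + Real.sqrt (Kr * e1) * w ^ 2 + 3 * A * b ^ (2 / 3 : ℝ) := by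
  have hcw : 0 < c * w := mul_pos hc hw
  have hcK' : c * w < Kr * w := mul_lt_mul_of_pos_right hcK hw
  have hK0 : 0 < Kr := hc.trans hcK
  have hb0 : 0 < b := (hcw.trans hcK').trans_le hKb
  have sub : ∀ {g : ℝ → ℝ}, IntervalIntegrable g volume 0 (2 * b) → ∀ s t : ℝ, 0 ≤ s → s ≤ t → t ≤ 2 * b →
      IntervalIntegrable g volume s t := by
    intro g hg s t hs hst ht
    refine hg.mono_set ?_
    rw [uIcc_of_le hst, uIcc_of_le (by linarith)]
    exact Icc_subset_Icc hs ht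
  have i1 := sub hfi 0 (c * w) le_rfl hcw.le (by linarith)
  have i2 := sub hfi (c * w) (Kr * w) hcw.le hcK'.le (by linarith)
  have i3 := sub hfi (Kr * w) b (by linarith) hKb (by linarith)
  have e : ∫ v in (0 : ℝ)..b, f v = (∫ v in (0 : ℝ)..(c * w), f v) + (∫ v in (c * w)..(Kr * w), f v) + ∫ v in (Kr * w)..b, f v := by
    rw [intervalIntegral.integral_add_adjacent_intervals i1 i2, intervalIntegral.integral_add_adjacent_intervals (i1.trans i2) i3]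
  have p1 : ∫ v in (0 : ℝ)..(c * w), f v ≤ Cr * (c + c ^ 2 / 2) * w ^ 2 := by
    have hi : IntervalIntegrable (fun v : ℝ => Cr * (v + w)) volume 0 (c * w) := by
      apply Continuous.intervalIntegrable; fun_prop
    have h1 : ∫ v in (0 : ℝ)..(c * w), f v ≤ ∫ v in (0 : ℝ)..(c * w), Cr * (v + w) := by
      refine intervalIntegral.integral_mono_ae_restrict hcw.le i1 hi ?_
      have : (volume.restrict (Icc 0 (c * w))) = volume.restrict (Ioc 0 (c * w)) := (restrict_Ioc_eq_restrict_Icc).symm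
      rw [this, Filter.EventuallyLE, ae_restrict_iff' measurableSet_Ioc]
      exact Filter.Eventually.of_forall (fun v hv => hraw v hv)
    have h2 : ∫ v in (0 : ℝ)..(c * w), Cr * (v + w) = Cr * (c + c ^ 2 / 2) * w ^ 2 := by
      rw [intervalIntegral.integral_const_mul, intervalIntegral.integral_add (by apply Continuous.intervalIntegrable; fun_prop) (by simp)]
      simp
      ring
    linarith
  have p2 : ∫ v in (c * w)..(Kr * w), f v ≤ Real.sqrt (Kr * e1) * w ^ 2 := by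
    have h := bcs_hb_cs hcK' i2 (sub hf2 (c * w) (Kr * w) hcw.le hcK'.le (by linarith))
    have h1 : (Kr * w - c * w) * (∫ v in (c * w)..(Kr * w), f v ^ 2) ≤ (Real.sqrt (Kr * e1) * w ^ 2) ^ 2 := by
      rw [mul_pow, Real.sq_sqrt (mul_nonneg hK0.le he1)]
      have h2 : Kr * w - c * w ≤ Kr * w := by linarith
      have h3 : 0 ≤ ∫ v in (c * w)..(Kr * w), f v ^ 2 := intervalIntegral.integral_nonneg hcK'.le (fun _ _ => sq_nonneg _)
      calc (Kr * w - c * w) * (∫ v in (c * w)..(Kr * w), f v ^ 2) ≤ (Kr * w) * (e1 * w ^ 3) :=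
            mul_le_mul h2 hband h3 (by positivity)
        _ = Kr * e1 * (w ^ 2) ^ 2 := by ring
    exact (abs_le_of_sq_le_sq' (h.trans h1) (by positivity)).2
  have p3 : ∫ v in (Kr * w)..b, f v ≤ 3 * A * b ^ (2 / 3 : ℝ) := by
    refine bcs_abs_dyad (by positivity) hKb hA (fun v hv => hf0 v ⟨by linarith [hv.1], hv.2⟩)
      (sub hfi _ _ (by linarith) (by linarith) le_rfl) (sub hf2 _ _ (by linarith) (by linarith) le_rfl) hdy
  rw [e]
  linarith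

/-- LEAF B3 (Chebyshev choice outside a set of at most half the length; no measurability of `Fl`). -/
theorem bcs_abs_pick {f : ℝ → ℝ} {Fl : Set ℝ} {a b η : ℝ} (hab : a < b) (hη : 0 < η) (hf0 : ∀ v ∈ Ioc a b, 0 ≤ f v)
    (hfi : IntegrableOn f (Ioc a b)) (hint : ∫ v in a..b, f v ≤ (b - a) * η ^ 2)
    (hFl : volume (Ioc a b ∩ Fl) ≤ ENNReal.ofReal ((b - a) / 2)) :
    ∃ v ∈ Ioc a b, v ∉ Fl ∧ f v ≤ 4 * η ^ 2 := by
  by_contra hcon
  push Not at hcon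
  have hba : 0 < b - a := sub_pos.2 hab
  have hm := mul_meas_ge_le_integral_of_nonneg (μ := volume.restrict (Ioc a b)) (f := f)
    (by rw [Filter.EventuallyLE, ae_restrict_iff' measurableSet_Ioc]; exact Filter.Eventually.of_forall hf0) hfi (4 * η ^ 2)
  rw [← intervalIntegral.integral_of_le hab.le] at hm
  have h1 : (volume.restrict (Ioc a b)).real {x | 4 * η ^ 2 ≤ f x} ≤ (b - a) / 4 := by
    have : 4 * η ^ 2 * (volume.restrict (Ioc a b)).real {x | 4 * η ^ 2 ≤ f x} ≤ (b - a) * η ^ 2 := hm.trans hint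
    have h2 : 0 < η ^ 2 := by positivity
    nlinarith
  have h2 : volume ({x | 4 * η ^ 2 ≤ f x} ∩ Ioc a b) ≤ ENNReal.ofReal ((b - a) / 4) := by
    rw [← Measure.restrict_apply' measurableSet_Ioc]
    rw [Measure.real] at h1
    exact (ENNReal.le_ofReal_iff_toReal_le (measure_ne_top _ _) (by positivity)).2 h1
  have h3 : Ioc a b ⊆ (Ioc a b ∩ Fl) ∪ ({x | 4 * η ^ 2 ≤ f x} ∩ Ioc a b) := by
    intro v hv
    by_cases hvF : v ∈ Fl
    · exact Or.inl ⟨hv, hvF⟩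
    · exact Or.inr ⟨(hcon v hv hvF).le, hv⟩
  have h4 : volume (Ioc a b) ≤ ENNReal.ofReal ((b - a) / 2) + ENNReal.ofReal ((b - a) / 4) :=
    (measure_mono h3).trans ((measure_union_le _ _).trans (add_le_add hFl h2))
  rw [Real.volume_Ioc, ← ENNReal.ofReal_add (by positivity) (by positivity), ENNReal.ofReal_le_ofReal_iff (by positivity)] at h4
  linarith

/-- LEAF B4 (splitting off a small set on which `f ≤ M`). -/
theorem bcs_abs_split {f : ℝ → ℝ} {Fl : Set ℝ} {a b M μ0 : ℝ} (hab : a ≤ b) (hM : 0 ≤ M) (hμ : 0 ≤ μ0)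
    (hmeas : MeasurableSet (Ioc a b ∩ Fl)) (hfi : IntegrableOn f (Ioc a b)) (hfM : ∀ v ∈ Ioc a b ∩ Fl, f v ≤ M)
    (hFl : volume (Ioc a b ∩ Fl) ≤ ENNReal.ofReal μ0) :
    ∫ v in a..b, f v ≤ (∫ v in Ioc a b ∩ Flᶜ, f v) + M * μ0 := by
  rw [intervalIntegral.integral_of_le hab, ← integral_inter_add_sdiff hmeas hfi]
  have e1 : Ioc a b ∩ (Ioc a b ∩ Fl) = Ioc a b ∩ Fl := by
    ext v; simp only [mem_inter_iff]; tauto
  have e2 : Ioc a b \ (Ioc a b ∩ Fl) = Ioc a b ∩ Flᶜ := by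
    ext v; simp only [mem_inter_iff, Set.mem_sdiff, mem_compl_iff]; tauto
  rw [e1, e2]
  have hfin : volume (Ioc a b ∩ Fl) ≠ ⊤ := (hFl.trans_lt ENNReal.ofReal_lt_top).ne
  have h1 : ∫ v in Ioc a b ∩ Fl, f v ≤ ∫ _v in Ioc a b ∩ Fl, M :=
    setIntegral_mono_on (hfi.mono_set inter_subset_left) (integrableOn_const hfin) hmeas hfM
  rw [setIntegral_const, smul_eq_mul] at h1
  have h2 : volume.real (Ioc a b ∩ Fl) ≤ μ0 := by
    rw [Measure.real]
    exact ENNReal.toReal_le_of_le_ofReal hμ hFl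
  nlinarith [mul_le_mul_of_nonneg_right h2 hM]

/-! ## 5. LEAVES C: dictionary between mass coordinates and the geometry N4 of 109 -/

section bridge
variable {X : BdFix} {W : BdWorld} {Fam : BdFr → Prop} {K : BcsK} {I : BcsIn X}

theorem bcs_hc_meas {f : ℝ → ℝ} (hf : ContinuousOn f (Icc 0 1)) {s t : ℝ} (hs : 0 ≤ s) (ht : t ≤ 1) :
    MeasurableSet (Ioc s t ∩ {r | 0 < f r}) := by
  obtain ⟨U, hU, hUeq⟩ := (continuousOn_iff'.1 hf) (Ioi 0) isOpen_Ioi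
  have hsub : Ioc s t ⊆ Icc (0:ℝ) 1 := fun x hx => ⟨hs.trans hx.1.le, hx.2.trans ht⟩
  have hset : Ioc s t ∩ {r | 0 < f r} = Ioc s t ∩ U := by
    ext x
    constructor
    · rintro ⟨hx1, hx2⟩
      have : x ∈ f ⁻¹' Ioi 0 ∩ Icc 0 1 := ⟨hx2, hsub hx1⟩
      rw [hUeq] at this
      exact ⟨hx1, this.1⟩
    · rintro ⟨hx1, hx2⟩
      have : x ∈ U ∩ Icc 0 1 := ⟨hx2, hsub hx1⟩
      rw [← hUeq] at this
      exact ⟨hx1, this.1⟩
  rw [hset]
  exact measurableSet_Ioc.inter hU.measurableSet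

theorem bcs_hc_r (hX : X.Ok) {F : BdFr} (hF : F.Ok X) (Q : BdQ F X) :
    MonotoneOn Q.r (Icc 0 1) ∧ ContinuousOn Q.r (Icc 0 1) := by
  obtain ⟨h1, _, h3⟩ := bud_dens_of_bdq X hX F hF Q
  have hbox := bud_gb_box hX hF
  constructor
  · intro v hv w hw hvw
    rw [← h3 v hv, ← h3 w hw]
    exact budQ_mono hbox h1 hv hw hvw
  · have hl : LipschitzOnWith (Real.toNNReal (1 / F.k X 1)) Q.r (Icc 0 1) := by
      refine LipschitzOnWith.of_dist_le_mul fun v hv w hw => ?_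
      rw [Real.dist_eq, Real.dist_eq, ← h3 v hv, ← h3 w hw, Real.coe_toNNReal _ (by have := hbox.kmin0; positivity)]
      have := budQ_lip hbox h1 hv hw
      rw [div_eq_mul_one_div, mul_comm] at this
      exact this
    exact hl.continuousOn

theorem bcs_hc_r_pos {F : BdFr} (Q : BdQ F X) {v : ℝ} (hv : v ∈ Ioo (0 : ℝ) 1) : Q.r v ∈ Ioo (0 : ℝ) 1 := by
  have hv' := Ioo_subset_Icc_self hv
  have hr := Q.r_mem v hv'
  constructor
  · rcases hr.1.eq_or_lt with h | h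
    · exfalso; have := Q.al_r v hv'; rw [← h, Q.al_zero] at this; linarith [hv.1]
    · exact h
  · rcases hr.2.eq_or_lt with h | h
    · exfalso; have := Q.al_r v hv'; rw [h, Q.al_one] at this; linarith [hv.2]
    · exact h

/-- LEAF C1: the statistics in mass coordinates (`PSys.S_mono`, `B_mono`, `S_nonneg`, `S_sq_le`, `B_le` at the changed clocks) -/
theorem bcs_stat (hI : I.Cls W Fam K) :
    MonotoneOn (I.S W) (Ioo 0 1) ∧ MonotoneOn (I.B W) (Ioo 0 1) ∧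
      ∀ v ∈ Ioo (0 : ℝ) 1, 0 ≤ I.S W v ∧ 0 ≤ I.D2 W v ∧ I.D2 W v ≤ I.B W v ∧ I.B W v ≤ 1 ∧ I.D W v ^ 2 = I.D2 W v ∧ 0 ≤ I.D W v := by
  have ha := hI.base.a1
  refine ⟨bfv_S_mono ha hI.clkb hI.clkh, bfv_B_mono ha hI.clkb hI.clkh, fun v hv => ?_⟩
  have hv' : v ∈ Ioo 0 (W.ps I.F.m).a := by rw [ha]; exact hv
  have h1 : 0 ≤ I.S W v := (W.ps I.F.m).S_nonneg _ _ (ha ▸ hI.clkb) (ha ▸ hI.clkh) v hv'
  have h2 : I.S W v ^ 2 ≤ I.B W v := (W.ps I.F.m).S_sq_le _ _ (ha ▸ hI.clkb) (ha ▸ hI.clkh) v hv'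
  have h3 : I.B W v ≤ 1 := (W.ps I.F.m).B_le _ _ (ha ▸ hI.clkb) (ha ▸ hI.clkh) v hv'
  have e : I.D2 W v = I.B W v - I.S W v ^ 2 := rfl
  have hD2 : 0 ≤ I.D2 W v := by rw [e]; linarith
  exact ⟨h1, hD2, by rw [e]; nlinarith [sq_nonneg (I.S W v)], h3, Real.sq_sqrt hD2, Real.sqrt_nonneg _⟩

theorem bcs_hc_int (hI : I.Cls W Fam K) : IntegrableOn (I.D2 W) (Ioo 0 1) ∧ IntegrableOn (I.D W) (Ioo 0 1) := by
  have ha := hI.base.a1
  have hs := bcs_stat hI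
  have iB : IntegrableOn (I.B W) (Ioo 0 1) := bfv_B_int ha hI.clkb hI.clkh
  have iS : IntegrableOn (I.S W) (Ioo 0 1) := bfv_S_int ha hI.clkb hI.clkh
  have m2 : AEStronglyMeasurable (I.D2 W) (volume.restrict (Ioo 0 1)) :=
    iB.aestronglyMeasurable.sub (iS.aestronglyMeasurable.pow 2)
  have mD : AEStronglyMeasurable (I.D W) (volume.restrict (Ioo 0 1)) :=
    Real.continuous_sqrt.comp_aestronglyMeasurable m2
  constructor
  · refine (integrableOn_const (by simp) : IntegrableOn (fun _ => (1:ℝ)) (Ioo (0:ℝ) 1)).mono' m2 ?_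
    rw [ae_restrict_iff' measurableSet_Ioo]
    refine Eventually.of_forall fun v hv => ?_
    obtain ⟨_, h2, h3, h4, _, _⟩ := hs.2.2 v hv
    rw [Real.norm_eq_abs, abs_of_nonneg h2]
    linarith
  · refine (integrableOn_const (by simp) : IntegrableOn (fun _ => (1:ℝ)) (Ioo (0:ℝ) 1)).mono' mD ?_
    rw [ae_restrict_iff' measurableSet_Ioo]
    refine Eventually.of_forall fun v hv => ?_
    obtain ⟨_, h2, h3, h4, h5, h6⟩ := hs.2.2 v hv
    rw [Real.norm_eq_abs, abs_of_nonneg h6]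
    nlinarith

/-- LEAF C2: integrability (differences of bounded monotone functions) -/
theorem bcs_int (hI : I.Cls W Fam K) {a b : ℝ} (ha : 0 ≤ a) (hab : a ≤ b) (hb : b ≤ 1) :
    IntervalIntegrable (I.D2 W) volume a b ∧ IntervalIntegrable (I.D W) volume a b :=
  ⟨bud_F_intervalIntegrable (bcs_hc_int hI).1 ⟨ha, hab.trans hb⟩ ⟨ha.trans hab, hb⟩,
    bud_F_intervalIntegrable (bcs_hc_int hI).2 ⟨ha, hab.trans hb⟩ ⟨ha.trans hab, hb⟩⟩

/-- LEAF C3: the quantile is monotone, and `r(v) ≤ C max(v, 2w)` (l.221: `r(v) = O(v+w)` everywhere) -/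
theorem bcs_r (hX : X.Ok) (hK : K.Ok) (hI : I.Cls W Fam K) (hw : 2 * I.w ≤ 1) :
    MonotoneOn I.Q.r (Icc 0 1) ∧ ContinuousOn I.Q.r (Icc 0 1) ∧ ∀ v ∈ Icc (0 : ℝ) 1, I.Q.r v ≤ K.C * max v (2 * I.w) := by
  obtain ⟨h1, h2⟩ := bcs_hc_r hX hI.ok I.Q
  refine ⟨h1, h2, fun v hv => ?_⟩
  have hm : max v (2 * I.w) ∈ Icc (0 : ℝ) 1 := ⟨hv.1.trans (le_max_left _ _), max_le hv.2 hw⟩
  exact (h1 hv hm (le_max_left _ _)).trans (hI.reg _ (le_max_right _ _) hm.2).2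

theorem bcs_hc_Hr (hX : X.Ok) (hI : I.Cls W Fam K) : ContinuousOn (fun v => I.H W (I.Q.r v)) (Icc 0 1) :=
  (BudGeo.H_cont hI.geo).comp (bcs_hc_r hX hI.ok I.Q).2 (fun v hv => I.Q.r_mem v hv)

/-- LEAF C4: the floor set is measurable in mass coordinates (`H` continuous on `[0,1]`: `BudGeo.H_cont`; `r` continuous) -/
theorem bcs_fl_meas (hX : X.Ok) (hI : I.Cls W Fam K) {a b : ℝ} (ha : 0 ≤ a) (hb : b ≤ 1) : MeasurableSet (Ioc a b ∩ I.Fl W) :=
  bcs_hc_meas (bcs_hc_Hr hX hI) ha hb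

/-- LEAF C5: the floor mass of a band = `∫ ρ` over its floor radii `≤ ∫ kbar` (`BudGeo.floor_mass` + change of variables `bud_map`) -/
theorem bcs_fl_vol (hX : X.Ok) (hI : I.Cls W Fam K) {a b : ℝ} (ha : 0 ≤ a) (hab : a ≤ b) (hb : b ≤ 1) :
    volume (Ioc a b ∩ I.Fl W) ≤ ENNReal.ofReal (∫ r in (I.Q.r a)..(I.Q.r b), I.F.kbar X r) := by
  obtain ⟨hd, hal, hq⟩ := bud_dens_of_bdq X hX I.F hI.ok I.Q
  have hbox := bud_gb_box hX hI.ok
  have hsm := budAl_strictMonoOn hbox hd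
  obtain ⟨hrm, hrc⟩ := bcs_hc_r hX hI.ok I.Q
  have ha' : a ∈ Icc (0 : ℝ) 1 := ⟨ha, hab.trans hb⟩
  have hb' : b ∈ Icc (0 : ℝ) 1 := ⟨ha.trans hab, hb⟩
  have hra := I.Q.r_mem a ha'
  have hrb := I.Q.r_mem b hb'
  have hrab : I.Q.r a ≤ I.Q.r b := hrm ha' hb' hab
  obtain ⟨A, hA⟩ : ∃ A, A = Ioc a b ∩ I.Fl W := ⟨_, rfl⟩
  obtain ⟨T, hT⟩ : ∃ T, T = Ioc (I.Q.r a) (I.Q.r b) ∩ {r | 0 < (I.geo W).H r} := ⟨_, rfl⟩
  have mA : MeasurableSet A := hA ▸ bcs_fl_meas hX hI ha hb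
  have mT : MeasurableSet T := hT ▸ bcs_hc_meas (BudGeo.H_cont hI.geo) hra.1 hrb.2
  have hfm : ∫ r in T, deriv I.Q.al r ≤ ∫ r in (I.Q.r a)..(I.Q.r b), I.F.kbar X r := by
    rw [hT, ← bud_gb_int_Kb I.F X hra.1 hrab hrb.2]
    exact BudGeo.floor_mass hI.geo hra.1 hrab hrb.2
  have hcov := bud_cov hbox hd (A.indicator 1) ((integrableOn_const (by simp)).indicator mA)
  have e1 : ∫ v in Ioo (0:ℝ) 1, A.indicator (1 : ℝ → ℝ) v = volume.real (Ioo 0 1 ∩ A) := by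
    rw [setIntegral_indicator mA]
    simp
  have e2 : ∫ r in Ioo (0:ℝ) 1, A.indicator (1 : ℝ → ℝ) (budAl (deriv I.Q.al) r) * deriv I.Q.al r
      = ∫ r in Ioo (0:ℝ) 1 ∩ T, deriv I.Q.al r := by
    rw [← setIntegral_indicator mT]
    refine setIntegral_congr_fun measurableSet_Ioo fun r hr => ?_
    have hr' := Ioo_subset_Icc_self hr
    have hmem : budAl (deriv I.Q.al) r ∈ A ↔ r ∈ T := by
      rw [hal r hr', hA, hT]
      have hav : I.Q.al r ∈ Icc (0 : ℝ) 1 := by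
        rw [← hal r hr']; exact budAl_mem_Icc hbox hd hr'
      have hH : I.Q.al r ∈ I.Fl W ↔ 0 < (I.geo W).H r := by
        show 0 < I.H W (I.Q.r (I.Q.al r)) ↔ _
        rw [I.Q.r_al r hr']; rfl
      have h1 : a < I.Q.al r ↔ I.Q.r a < r := by
        have := hsm.lt_iff_lt hra hr'
        rwa [hal _ hra, hal _ hr', I.Q.al_r a ha'] at this
      have h2 : I.Q.al r ≤ b ↔ r ≤ I.Q.r b := by
        have := hsm.le_iff_le hr' hrb
        rwa [hal _ hrb, hal _ hr', I.Q.al_r b hb'] at this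
      simp only [mem_inter_iff, mem_Ioc, hH, h1, h2, Set.mem_ofPred_eq]
    by_cases hrT : r ∈ T
    · simp [indicator_of_mem hrT, indicator_of_mem (hmem.2 hrT)]
    · simp [indicator_of_notMem hrT, indicator_of_notMem (fun h => hrT (hmem.1 h))]
  have hTsub : T ⊆ Icc (0 : ℝ) 1 := by
    rw [hT]; exact fun r hr => ⟨hra.1.trans hr.1.1.le, hr.1.2.trans hrb.2⟩
  have iT : IntegrableOn (deriv I.Q.al) T := by
    have := hd.intervalIntegrable hbox (left_mem_Icc.2 zero_le_one) (right_mem_Icc.2 zero_le_one)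
    rw [intervalIntegrable_iff_integrableOn_Icc_of_le zero_le_one] at this
    exact this.mono_set hTsub
  have e3 : ∫ r in Ioo (0:ℝ) 1 ∩ T, deriv I.Q.al r ≤ ∫ r in T, deriv I.Q.al r := by
    refine setIntegral_mono_set iT ?_ (Eventually.of_forall fun r hr => hr.2)
    rw [EventuallyLE, ae_restrict_iff' mT]
    filter_upwards [hd.ae_bounds hbox] with r hr hrT
    exact hbox.kmin0.le.trans ((hbox.kb_ge r).trans (hr (hTsub hrT)).1)
  have e4 : volume.real (Ioo 0 1 ∩ A) ≤ ∫ r in (I.Q.r a)..(I.Q.r b), I.F.kbar X r := by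
    rw [← e1, hcov.2, e2]
    exact e3.trans hfm
  have hsubA : A ⊆ (Ioo 0 1 ∩ A) ∪ {1} := by
    intro v hv
    have hv2 : v ∈ Ioc a b := by rw [hA] at hv; exact hv.1
    rcases (hv2.2.trans hb).eq_or_lt with h | h
    · exact Or.inr h
    · exact Or.inl ⟨⟨ha.trans_lt hv2.1, h⟩, hv⟩
  rw [← hA]
  calc volume A ≤ volume (Ioo 0 1 ∩ A) + volume {(1 : ℝ)} := (measure_mono hsubA).trans (measure_union_le _ _)
    _ = volume (Ioo 0 1 ∩ A) := by simp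
    _ = ENNReal.ofReal (volume.real (Ioo 0 1 ∩ A)) := by
        rw [Measure.real, ENNReal.ofReal_toReal]
        exact ((measure_mono inter_subset_left).trans_lt (by simp)).ne
    _ ≤ _ := ENNReal.ofReal_le_ofReal e4

/-- LEAF C6: at a nonfloor cut in the constant part of the removal, `|S - r| ≤ 2/M_j` (`BudGeo.flat_nonfloor`, `bud_n4_S`, `bud_n4_flat`) -/
theorem bcs_nonfloor (hX : X.Ok) (hI : I.Cls W Fam K) {v : ℝ} (hv : v ∈ Ioo (0 : ℝ) 1)
    (hroom : I.Q.r v + 1 / I.F.Mj ≤ min (X.cd ^ 3 * I.F.u) 1) (hH : I.H W (I.Q.r v) ≤ 0) :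
    |I.S W v - I.Q.r v| ≤ 2 / I.F.Mj := by
  have hv' := Ioo_subset_Icc_self hv
  have hr := bcs_hc_r_pos I.Q hv
  have h := BudGeo.flat_nonfloor hI.geo (bud_n4_flat X hX I.F hI.ok I.Q W I.g I.c0) hr.1.le hroom hH
  have e : (I.geo W).S (I.Q.r v) = I.S W v := by
    have := bud_n4_S X hX I.F hI.ok I.Q W I.g I.c0 hI.base hr
    rw [I.Q.al_r v hv'] at this
    exact this
  rw [e] at h
  exact h

end bridge

/-! ## 6. EXITS -/

section exits
variable {X : BdFix} {W : BdWorld} {Fam : BdFr → Prop} {K : BcsK}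

theorem bcs_he_Flc (I : BcsIn X) : (I.Fl W)ᶜ = {v | I.H W (I.Q.r v) ≤ 0} := by
  ext v
  simp only [BcsIn.Fl, mem_compl_iff, Set.mem_ofPred_eq, not_lt]

theorem bcs_he_R10_nonneg (hX : X.Ok) {F : BdFr} (hF : F.Ok X) (clo chi : ℝ) {v : ℝ} (hv : 0 ≤ v) :
    0 ≤ bcsR10 F X clo chi v := by
  obtain ⟨hx0, hl0, hu0, hm0, hL0, hC0, hvs, hwc, hMj, hBf⟩ := bcs_ha_pos hX hF
  unfold bcsR10
  have h1 : 0 ≤ (F.x ^ 6 / (F.C X v * v)) ^ (1 / 3 : ℝ) :=
    Real.rpow_nonneg (div_nonneg (by positivity) (mul_nonneg (bud_gb_C_pos hX hF v).le hv)) _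
  have h2 : 0 ≤ F.x ^ 3 / (v * Real.sqrt (F.C X v)) := by positivity
  have h3 : 0 ≤ (F.m : ℝ) ^ (X.dPEexp / 2) * F.vs X := mul_nonneg (Real.rpow_nonneg hm0.le _) hvs.le
  have h4 : 0 ≤ (if clo * F.u ≤ v ∧ v ≤ chi * F.u then F.u * F.Bf X else 0) := by split_ifs <;> positivity
  linarith

/-- `D² = D2` under the integral -/
theorem bcs_he_sq_int {I : BcsIn X} (hI : I.Cls W Fam K) {a b : ℝ} (ha : 0 < a) (hab : a ≤ b) (hb : b < 1) :
    ∫ t in a..b, I.D W t ^ 2 = ∫ t in a..b, I.D2 W t := by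
  refine intervalIntegral.integral_congr fun t ht => ?_
  rw [uIcc_of_le hab] at ht
  exact ((bcs_stat hI).2.2 t ⟨ha.trans_le ht.1, ht.2.trans_lt hb⟩).2.2.2.2.1

/-- integrability and sign of `D²` in the radius coordinate -/
theorem bcs_he_rad (hX : X.Ok) {I : BcsIn X} (hI : I.Cls W Fam K) :
    IntegrableOn (fun ρ => I.D2 W (I.Q.al ρ)) (Ioo 0 1) ∧ ∀ ρ ∈ Ioo (0:ℝ) 1, 0 ≤ I.D2 W (I.Q.al ρ) := by
  obtain ⟨hd, hal, _⟩ := bud_dens_of_bdq X hX I.F hI.ok I.Q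
  have hbox := bud_gb_box hX hI.ok
  constructor
  · refine (bud_cov_le hbox hd (I.D2 W) (bcs_hc_int hI).1).1.congr_fun (fun ρ hρ => ?_) measurableSet_Ioo
    show I.D2 W (budAl (deriv I.Q.al) ρ) = _
    rw [hal ρ (Ioo_subset_Icc_self hρ)]
  · intro ρ hρ
    have := budAl_mem hbox hd hρ
    rw [hal ρ (Ioo_subset_Icc_self hρ)] at this
    exact ((bcs_stat hI).2.2 _ this).2.1

/-- the floor mass of a band below `Kb W` is `≤ x^(6ζ) w` (C5 + A4 + A5; the patch is absent by `BcsScale.patch`) -/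
theorem bcs_fl_small (hX : X.Ok) (hK : K.Ok) (Kb : ℝ) (hKb : 1 ≤ Kb) :
    ∃ N0 : ℕ, ∀ I : BcsIn X, I.Cls W Fam K → N0 ≤ I.F.N → ∀ a b : ℝ, 0 ≤ a → a ≤ b → b ≤ Kb * I.Ws →
      volume (Ioc a b ∩ I.Fl W) ≤ ENNReal.ofReal (I.F.x ^ (6 * X.zeta) * I.w) := by
  have hm2 : (2:ℝ) ≤ max Kb 2 := le_max_right _ _
  have hC1 := hK.C1
  have hKb' : 1 ≤ K.C * max Kb 2 := by nlinarith
  obtain ⟨N1, hsc⟩ := bcs_num_scale X hX K.cs K.i0 (K.C * max Kb 2) hK.cs0 hK.i00 hKb'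
  obtain ⟨N2, hfl⟩ := bcs_num_floor X hX
  refine ⟨max N1 N2, fun I hI hN a b ha hab hb => ?_⟩
  have sc := hsc I.F hI.ok ((le_max_left _ _).trans hN) I.w hI.w_lo hI.strong
  have hfl' := hfl I.F hI.ok ((le_max_right _ _).trans hN) I.w hI.w_lo
  obtain ⟨Ws, hWs⟩ : ∃ Ws, Ws = I.F.Wsc X I.w := ⟨_, rfl⟩
  have hb' : b ≤ Kb * Ws := by rw [hWs]; exact hb
  have hW0 : 0 < Ws := by rw [hWs]; exact sc.w0.trans_le sc.wW
  have hwW : I.w ≤ Ws := by rw [hWs]; exact sc.wW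
  have hW1 : K.C * max Kb 2 * Ws ≤ 1 / 4 := by rw [hWs]; exact sc.W1
  have hpatch : K.C * max Kb 2 * Ws < K.i0 * I.F.u := by rw [hWs]; exact sc.patch
  have e1 : max Kb 2 * Ws ≤ K.C * max Kb 2 * Ws := by
    have : 0 ≤ max Kb 2 * Ws := by positivity
    nlinarith
  have e2 : Kb * Ws ≤ max Kb 2 * Ws := mul_le_mul_of_nonneg_right (le_max_left _ _) hW0.le
  have e3 : 2 * Ws ≤ max Kb 2 * Ws := mul_le_mul_of_nonneg_right hm2 hW0.le
  have hb1 : b ≤ 1 := by linarith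
  have hw2 : 2 * I.w ≤ 1 := by linarith
  have ha' : a ∈ Icc (0 : ℝ) 1 := ⟨ha, hab.trans hb1⟩
  have hbm : b ∈ Icc (0 : ℝ) 1 := ⟨ha.trans hab, hb1⟩
  obtain ⟨hrm, _, hrle⟩ := bcs_r hX hK hI hw2
  have hra := I.Q.r_mem a ha'
  have hrab : I.Q.r a ≤ I.Q.r b := hrm ha' hbm hab
  have hrb : I.Q.r b < I.F.Ilo * I.F.u := by
    have h1 := hrle b hbm
    have h2 : max b (2 * I.w) ≤ max Kb 2 * Ws := max_le (by linarith) (by linarith)
    have h3 : K.C * max b (2 * I.w) ≤ K.C * (max Kb 2 * Ws) := mul_le_mul_of_nonneg_left h2 (by linarith)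
    have h4 : K.i0 * I.F.u ≤ I.F.Ilo * I.F.u := mul_le_mul_of_nonneg_right hI.ilo sc.u0.le
    linarith
  refine (bcs_fl_vol hX hI ha hab hb1).trans (ENNReal.ofReal_le_ofReal ?_)
  have e4 : ∫ r in (I.Q.r a)..(I.Q.r b), I.F.kbar X r = ∫ r in (I.Q.r a)..(I.Q.r b), I.F.k X r := by
    refine intervalIntegral.integral_congr fun r hr => ?_
    rw [uIcc_of_le hrab] at hr
    show I.F.k X r + (if r ∈ Icc (I.F.Ilo * I.F.u) (I.F.Ihi * I.F.u) then I.F.kap else 0) = I.F.k X r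
    rw [if_neg (fun h => by linarith [h.1, hr.2]), add_zero]
  rw [e4]
  exact (bcs_floor_int X hX I.F hI.ok hra.1 hrab).trans hfl'

/-- **EXIT S1**: `∫ D² dv = o(w³)` on compact target bands.      TEX[LL:bud:common-star] (l.488-499) -/
theorem bud_star_S1 (hX : X.Ok) (hK : K.Ok) (h8 : BcsRaw W (BcsIn.Cls (X := X) · W Fam K)) (hnf : BcsNF W (BcsIn.Cls (X := X) · W Fam K)) :
    BcsS1 W (BcsIn.Cls (X := X) · W Fam K) := by
  intro c1 C1 hc1 hcC ε hε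
  obtain ⟨Cr, N8, hCr, h8⟩ := h8
  obtain ⟨Cc, Nnf, hCc, hnf⟩ := hnf c1 C1 hc1 hcC X.zeta hX.zeta_pos
  have hz := hX.zeta_pos
  have hC10 : 0 < C1 := hc1.trans hcC
  obtain ⟨M, hM⟩ : ∃ M, M = (Cr * (C1 + 1)) ^ 2 := ⟨_, rfl⟩
  have hM0 : 0 < M := by rw [hM]; positivity
  obtain ⟨N1, hsc⟩ := bcs_num_scale X hX K.cs K.i0 (max C1 1) hK.cs0 hK.i00 (le_max_right _ _)
  obtain ⟨N2, hfl⟩ := bcs_fl_small (W := W) (Fam := Fam) hX hK (max C1 1) (le_max_right _ _)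
  obtain ⟨N3, hsw⟩ := bcs_num_sw X hX K.cs 1 hK.cs0 le_rfl
  obtain ⟨N4, hab⟩ := bcs_num_absorb (2 * Cc) X.zeta (8 * X.zeta) (6 * X.zeta) (by linarith)
  obtain ⟨N5, hsm⟩ := bcs_num_small (6 * X.zeta) (ε / (2 * (M + 1))) (by positivity) (by positivity)
  refine ⟨max N8 (max Nnf (max N1 (max N2 (max N3 (max N4 N5))))), fun I hI hN => ?_⟩
  have n8 : N8 ≤ I.F.N := (le_max_left _ _).trans hN
  have hN := (le_max_right _ _).trans hN
  have nnf : Nnf ≤ I.F.N := (le_max_left _ _).trans hN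
  have hN := (le_max_right _ _).trans hN
  have n1 : N1 ≤ I.F.N := (le_max_left _ _).trans hN
  have hN := (le_max_right _ _).trans hN
  have n2 : N2 ≤ I.F.N := (le_max_left _ _).trans hN
  have hN := (le_max_right _ _).trans hN
  have n3 : N3 ≤ I.F.N := (le_max_left _ _).trans hN
  have hN := (le_max_right _ _).trans hN
  have n4 : N4 ≤ I.F.N := (le_max_left _ _).trans hN
  have n5 : N5 ≤ I.F.N := (le_max_right _ _).trans hN
  have sc := hsc I.F hI.ok n1 I.w hI.w_lo hI.strong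
  obtain ⟨_, _, ha3⟩ := hsw I.F hI.ok n3 I.w hI.w_lo hI.strong
  obtain ⟨hx0, hx1, hab⟩ := hab I.F n4
  have hsm := hsm I.F n5
  have hw0 := sc.w0
  have hW0 : 0 < I.F.Wsc X I.w := hw0.trans_le sc.wW
  have hCw : C1 * I.w ≤ max C1 1 * I.Ws :=
    mul_le_mul (le_max_left _ _) sc.wW hw0.le (by positivity)
  have hCw1 : C1 * I.w ≤ 1 / 4 := hCw.trans sc.W1
  have hcw0 : 0 < c1 * I.w := by positivity
  have hcCw : c1 * I.w ≤ C1 * I.w := mul_le_mul_of_nonneg_right hcC.le hw0.le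
  have hst := bcs_stat hI
  have hsub : ∀ v ∈ Ioc (c1 * I.w) (C1 * I.w), v ∈ Ioo (0:ℝ) 1 := fun v hv => ⟨hcw0.trans hv.1, by linarith [hv.2]⟩
  have hint : IntegrableOn (I.D2 W) (Ioc (c1 * I.w) (C1 * I.w)) :=
    (intervalIntegrable_iff_integrableOn_Ioc_of_le hcCw).1 (bcs_int hI hcw0.le hcCw (by linarith)).1
  have q6 := Real.rpow_pos_of_pos hx0 (6 * X.zeta)
  have hsplit := bcs_abs_split (f := I.D2 W) (Fl := I.Fl W) (M := M * I.w ^ 2) (μ0 := I.F.x ^ (6 * X.zeta) * I.w) hcCw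
    (by positivity) (by positivity) (bcs_fl_meas hX hI hcw0.le (by linarith)) hint
    (fun v hv => by
      have hv' := hsub v hv.1
      obtain ⟨_, _, h3, _⟩ := hst.2.2 v hv'
      have h4 := h8 I hI n8 v hv'
      have h5 : (Cr * (v + I.w)) ^ 2 ≤ (Cr * ((C1 + 1) * I.w)) ^ 2 := by
        refine pow_le_pow_left₀ (by have := hv'.1; positivity) ?_ 2
        refine mul_le_mul_of_nonneg_left ?_ hCr.le
        linarith [hv.1.2]
      calc I.D2 W v ≤ (Cr * ((C1 + 1) * I.w)) ^ 2 := h3.trans (h4.trans h5)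
        _ = M * I.w ^ 2 := by rw [hM]; ring)
    (hfl I hI n2 _ _ hcw0.le hcCw hCw)
  rw [bcs_he_Flc] at hsplit
  have hnf' := hnf I hI nnf
  have ha30 : 0 ≤ I.a3 := by
    have := sc.C00
    unfold BcsIn.a3; positivity
  have ha3' : I.a3 ≤ I.F.x ^ (12 * X.zeta) := ha3
  have hp1 : I.a3 ^ (2 / 3 : ℝ) ≤ I.F.x ^ (8 * X.zeta) := by
    calc I.a3 ^ (2 / 3 : ℝ) ≤ (I.F.x ^ (12 * X.zeta)) ^ (2 / 3 : ℝ) := Real.rpow_le_rpow ha30 ha3' (by norm_num)
      _ = I.F.x ^ (8 * X.zeta) := by rw [← Real.rpow_mul hx0.le]; congr 1; ring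
  have hp2 : I.a3 ≤ I.F.x ^ (8 * X.zeta) :=
    ha3'.trans (Real.rpow_le_rpow_of_exponent_ge hx0 hx1.le (by linarith))
  have qm := Real.rpow_pos_of_pos hx0 (-X.zeta)
  have hA : Cc * I.F.x ^ (-X.zeta) * (I.a3 ^ (2 / 3 : ℝ) + I.a3) ≤ I.F.x ^ (6 * X.zeta) := by
    refine le_trans ?_ hab
    calc Cc * I.F.x ^ (-X.zeta) * (I.a3 ^ (2 / 3 : ℝ) + I.a3)
        ≤ Cc * I.F.x ^ (-X.zeta) * (I.F.x ^ (8 * X.zeta) + I.F.x ^ (8 * X.zeta)) :=
          mul_le_mul_of_nonneg_left (add_le_add hp1 hp2) (by positivity)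
      _ = 2 * Cc * I.F.x ^ (-X.zeta) * I.F.x ^ (8 * X.zeta) := by ring
  have hw3 : 0 < I.w ^ 3 := by positivity
  have hfin : I.F.x ^ (6 * X.zeta) * (M + 1) ≤ ε / 2 := by
    have : ε / (2 * (M + 1)) * (M + 1) = ε / 2 := by field_simp
    rw [← this]
    exact mul_le_mul_of_nonneg_right hsm (by positivity)
  calc ∫ v in (c1 * I.w)..(C1 * I.w), I.D2 W v
      ≤ Cc * I.F.x ^ (-X.zeta) * (I.a3 ^ (2 / 3 : ℝ) + I.a3) * I.w ^ 3 + M * I.w ^ 2 * (I.F.x ^ (6 * X.zeta) * I.w) :=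
        hsplit.trans (add_le_add hnf' le_rfl)
    _ ≤ I.F.x ^ (6 * X.zeta) * I.w ^ 3 + M * I.w ^ 2 * (I.F.x ^ (6 * X.zeta) * I.w) :=
        add_le_add (mul_le_mul_of_nonneg_right hA hw3.le) le_rfl
    _ = I.F.x ^ (6 * X.zeta) * (M + 1) * I.w ^ 3 := by ring
    _ ≤ ε / 2 * I.w ^ 3 := mul_le_mul_of_nonneg_right hfin hw3.le
    _ ≤ ε * I.w ^ 3 := mul_le_mul_of_nonneg_right (by linarith) hw3.le

/-- **EXIT S2**: `∫ D² dr = o(w³)` on compact target bands.      TEX[LL:bud:common-star] (l.479-487) -/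
theorem bud_star_S2 (hX : X.Ok) (hK : K.Ok) (hsw : BcsSW W (BcsIn.Cls (X := X) · W Fam K) K) :
    BcsS2 W (BcsIn.Cls (X := X) · W Fam K) := by
  intro c1 C1 hc1 hcC ε hε
  obtain ⟨Ca, t0, hCa, ht0, hsw⟩ := hsw c1 C1 hc1 hcC
  obtain ⟨Cc, N1, hCc, hsw⟩ := hsw X.zeta hX.zeta_pos
  have hz := hX.zeta_pos
  obtain ⟨t, ht⟩ : ∃ t, t = min t0 (ε / (2 * Ca)) := ⟨_, rfl⟩
  have htpos : 0 < t := by rw [ht]; exact lt_min ht0 (by positivity)
  have htt0 : t ≤ t0 := by rw [ht]; exact min_le_left _ _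
  have hCat : Ca * t ≤ ε / 2 := by
    have : t ≤ ε / (2 * Ca) := by rw [ht]; exact min_le_right _ _
    calc Ca * t ≤ Ca * (ε / (2 * Ca)) := mul_le_mul_of_nonneg_left this hCa.le
      _ = ε / 2 := by field_simp
  have hC1 := hK.C1
  have hm2 : (2:ℝ) ≤ max C1 2 := le_max_right _ _
  have hCb : 1 ≤ K.C * max C1 2 := by nlinarith
  obtain ⟨N2, hnum⟩ := bcs_num_sw X hX K.cs (K.C * max C1 2) hK.cs0 hCb
  obtain ⟨N3, hab⟩ := bcs_num_absorb (Cc * (1 / t + 1)) X.zeta (12 * X.zeta) (10 * X.zeta) (by linarith)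
  obtain ⟨N4, hsm⟩ := bcs_num_small (10 * X.zeta) (ε / 2) (by positivity) (by positivity)
  refine ⟨max N1 (max N2 (max N3 N4)), fun I hI hN => ?_⟩
  have n1 : N1 ≤ I.F.N := (le_max_left _ _).trans hN
  have hN := (le_max_right _ _).trans hN
  have n2 : N2 ≤ I.F.N := (le_max_left _ _).trans hN
  have hN := (le_max_right _ _).trans hN
  have n3 : N3 ≤ I.F.N := (le_max_left _ _).trans hN
  have n4 : N4 ≤ I.F.N := (le_max_right _ _).trans hN
  obtain ⟨hk0, ha3k, ha3⟩ := hnum I.F hI.ok n2 I.w hI.w_lo hI.strong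
  obtain ⟨hx0, hx1, hab⟩ := hab I.F n3
  have hsm := hsm I.F n4
  have hw0 : 0 < I.w := (bcs_ha_pos hX hI.ok).2.2.2.2.2.2.2.1.trans_le hI.w_lo
  have hw3 : 0 < I.w ^ 3 := by positivity
  have h := hsw I hI n1 t htpos htt0
  have qm := Real.rpow_pos_of_pos hx0 (-X.zeta)
  have q12 := Real.rpow_pos_of_pos hx0 (12 * X.zeta)
  have e1 : I.a3 / (I.F.k X (K.C * max C1 2 * I.w) * t) + I.a3 ≤ I.F.x ^ (12 * X.zeta) * (1 / t + 1) := by
    have e2 : I.a3 / (I.F.k X (K.C * max C1 2 * I.w) * t) = I.a3 / I.F.k X (K.C * max C1 2 * I.w) * (1 / t) := by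
      rw [div_mul_eq_div_div]; ring
    have e3 : I.a3 / I.F.k X (K.C * max C1 2 * I.w) * (1 / t) ≤ I.F.x ^ (12 * X.zeta) * (1 / t) :=
      mul_le_mul_of_nonneg_right ha3k (by positivity)
    have e4 : I.a3 ≤ I.F.x ^ (12 * X.zeta) := ha3
    rw [e2]; linarith
  have e5 : Cc * I.F.x ^ (-X.zeta) * (I.a3 / (I.F.k X (K.C * max C1 2 * I.w) * t) + I.a3) ≤ ε / 2 := by
    calc Cc * I.F.x ^ (-X.zeta) * (I.a3 / (I.F.k X (K.C * max C1 2 * I.w) * t) + I.a3)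
        ≤ Cc * I.F.x ^ (-X.zeta) * (I.F.x ^ (12 * X.zeta) * (1 / t + 1)) := mul_le_mul_of_nonneg_left e1 (by positivity)
      _ = Cc * (1 / t + 1) * I.F.x ^ (-X.zeta) * I.F.x ^ (12 * X.zeta) := by ring
      _ ≤ ε / 2 := hab.trans hsm
  refine h.trans (mul_le_mul_of_nonneg_right ?_ hw3.le)
  linarith

/-- **EXIT S3**: `∫_0^{C'W} D dv = o(w²)`.      TEX[LL:bud:common-star] (l.499-502) -/
theorem bud_star_S3 (hX : X.Ok) (hK : K.Ok) (h8 : BcsRaw W (BcsIn.Cls (X := X) · W Fam K)) (h10 : BcsC10 W (BcsIn.Cls (X := X) · W Fam K))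
    (h1 : BcsS1 W (BcsIn.Cls (X := X) · W Fam K)) : BcsS3 W (BcsIn.Cls (X := X) · W Fam K) := by
  intro C' hC' ε hε
  obtain ⟨Cr, N8, hCr, h8⟩ := h8
  obtain ⟨Kr, clo, chi, hKr, hclo, hchi, h10⟩ := h10
  obtain ⟨Cc, N10, hCc, h10⟩ := h10 X.zeta hX.zeta_pos
  have hz := hX.zeta_pos
  have hKr0 : 0 < Kr := by linarith
  obtain ⟨C2, hC2⟩ : ∃ C2, C2 = max C' Kr := ⟨_, rfl⟩
  have hC2K : Kr ≤ C2 := by rw [hC2]; exact le_max_right _ _
  have hC2C : C' ≤ C2 := by rw [hC2]; exact le_max_left _ _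
  have hC21 : 1 ≤ C2 := hKr.trans hC2K
  have hC20 : 0 < C2 := by linarith
  obtain ⟨c, hc⟩ : ∃ c, c = min (1 / 2) (ε / (6 * Cr)) := ⟨_, rfl⟩
  have hc0 : 0 < c := by rw [hc]; exact lt_min (by norm_num) (by positivity)
  have hc12 : c ≤ 1 / 2 := by rw [hc]; exact min_le_left _ _
  have hcK : c < Kr := by linarith
  have hcε : Cr * (c + c ^ 2 / 2) ≤ ε / 3 := by
    have h2 : c ≤ ε / (6 * Cr) := by rw [hc]; exact min_le_right _ _
    have h3 : c + c ^ 2 / 2 ≤ 2 * c := by nlinarith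
    calc Cr * (c + c ^ 2 / 2) ≤ Cr * (2 * (ε / (6 * Cr))) := mul_le_mul_of_nonneg_left (by linarith) hCr.le
      _ = ε / 3 := by field_simp; ring
  obtain ⟨e1, he1⟩ : ∃ e1, e1 = (ε / 3) ^ 2 / Kr := ⟨_, rfl⟩
  have he10 : 0 < e1 := by rw [he1]; positivity
  have hsq : Real.sqrt (Kr * e1) = ε / 3 := by
    rw [he1, mul_div_cancel₀ _ hKr0.ne', Real.sqrt_sq (by positivity)]
  obtain ⟨N1, hs1⟩ := h1 c Kr hc0 hcK e1 he10
  obtain ⟨N2, hsc⟩ := bcs_num_scale X hX K.cs K.i0 (2 * C2) hK.cs0 hK.i00 (by linarith)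
  obtain ⟨N3, hmid⟩ := bcs_num_mid X hX K.cs clo chi C2 hK.cs0 hclo hchi hC21
  obtain ⟨N4, hab⟩ := bcs_num_absorb (3 * Cc * C2 ^ (2 / 3 : ℝ)) X.zeta (12 * X.zeta) (10 * X.zeta) (by linarith)
  obtain ⟨N5, hsm⟩ := bcs_num_small (10 * X.zeta) (ε / 3) (by positivity) (by positivity)
  refine ⟨max N8 (max N10 (max N1 (max N2 (max N3 (max N4 N5))))), fun I hI hN => ?_⟩
  have n8 : N8 ≤ I.F.N := (le_max_left _ _).trans hN
  have hN := (le_max_right _ _).trans hN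
  have n10 : N10 ≤ I.F.N := (le_max_left _ _).trans hN
  have hN := (le_max_right _ _).trans hN
  have n1 : N1 ≤ I.F.N := (le_max_left _ _).trans hN
  have hN := (le_max_right _ _).trans hN
  have n2 : N2 ≤ I.F.N := (le_max_left _ _).trans hN
  have hN := (le_max_right _ _).trans hN
  have n3 : N3 ≤ I.F.N := (le_max_left _ _).trans hN
  have hN := (le_max_right _ _).trans hN
  have n4 : N4 ≤ I.F.N := (le_max_left _ _).trans hN
  have n5 : N5 ≤ I.F.N := (le_max_right _ _).trans hN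
  have sc := hsc I.F hI.ok n2 I.w hI.w_lo hI.strong
  have hmid := hmid I.F hI.ok n3 I.w hI.w_lo hI.strong
  obtain ⟨hx0, hx1, hab⟩ := hab I.F n4
  have hsm := hsm I.F n5
  have hw0 := sc.w0
  have hst := bcs_stat hI
  obtain ⟨Ws, hWs⟩ : ∃ Ws, Ws = I.F.Wsc X I.w := ⟨_, rfl⟩
  have hWs' : I.Ws = Ws := hWs.symm
  have hwW : I.w ≤ Ws := by rw [hWs]; exact sc.wW
  have hW0 : 0 < Ws := hw0.trans_le hwW
  have hW1 : 2 * C2 * Ws ≤ 1 / 4 := by rw [hWs]; exact sc.W1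
  have hWu : 2 * C2 * Ws ≤ I.F.u := by rw [hWs]; exact sc.Wu
  rw [← hWs] at hmid
  obtain ⟨b, hb⟩ : ∃ b, b = C2 * Ws := ⟨_, rfl⟩
  have hb0 : 0 < b := by rw [hb]; positivity
  have h2b : 2 * b ≤ 1 / 4 := by rw [hb]; linarith
  have hbu : b ≤ I.F.u := by rw [hb]; nlinarith
  have hKb : Kr * I.w ≤ b := by rw [hb]; exact mul_le_mul hC2K hwW hw0.le hC20.le
  have qm := Real.rpow_pos_of_pos hx0 (-X.zeta)
  have q12 := Real.rpow_pos_of_pos hx0 (12 * X.zeta)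
  have qW := Real.rpow_pos_of_pos hW0 (2 / 3 : ℝ)
  obtain ⟨A, hA⟩ : ∃ A, A = Cc * I.F.x ^ (-X.zeta) * I.F.x ^ (12 * X.zeta) * (I.w ^ 2 / Ws ^ (2 / 3 : ℝ)) := ⟨_, rfl⟩
  have hA0 : 0 < A := by rw [hA]; positivity
  have hcw0 : 0 < c * I.w := by positivity
  have hfi := (bcs_int hI le_rfl (by linarith : (0:ℝ) ≤ 2 * b) (by linarith)).2
  have hf2 : IntervalIntegrable (fun v => I.D W v ^ 2) volume 0 (2 * b) := by
    have h2 := (bcs_int hI le_rfl (by linarith : (0:ℝ) ≤ 2 * b) (by linarith)).1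
    rw [intervalIntegrable_iff_integrableOn_Ioc_of_le (by linarith)] at h2 ⊢
    refine h2.congr_fun (fun v hv => ?_) measurableSet_Ioc
    exact ((hst.2.2 v ⟨hv.1, by linarith [hv.2]⟩).2.2.2.2.1).symm
  have key := bcs_abs_low (f := I.D W) (w := I.w) (c := c) (Kr := Kr) (b := b) (Cr := Cr) (e1 := e1) (A := A)
    hw0 hc0 hcK hKb hCr.le he10.le hA0.le (fun v _ => Real.sqrt_nonneg _) hfi hf2
    (fun v hv => by
      have hcw : c * I.w ≤ b := (mul_le_mul_of_nonneg_right hcK.le hw0.le).trans hKb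
      have hv' : v ∈ Ioo (0:ℝ) 1 := ⟨hv.1, by linarith [hv.2]⟩
      obtain ⟨_, _, h3, _, h5, h6⟩ := hst.2.2 v hv'
      have h4 := h8 I hI n8 v hv'
      have h7 : I.D W v ^ 2 ≤ (Cr * (v + I.w)) ^ 2 := by rw [h5]; exact h3.trans h4
      exact (abs_le_of_sq_le_sq' h7 (by have := hv.1; positivity)).2)
    (by
      rw [bcs_he_sq_int hI hcw0 (mul_le_mul_of_nonneg_right hcK.le hw0.le) (by linarith)]
      exact hs1 I hI n1)
    (fun v hv1 hv2 => by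
      have hwv : I.w ≤ v := by nlinarith
      have hv0 : 0 < v := hw0.trans_le hwv
      rw [bcs_he_sq_int hI hv0 (by linarith) (by linarith)]
      refine (h10 I hI n10 v hv1 (hv2.trans hbu) (by linarith)).trans ?_
      refine mul_le_mul_of_nonneg_left ?_ hv0.le
      refine pow_le_pow_left₀ (mul_nonneg (by positivity) (bcs_he_R10_nonneg hX hI.ok clo chi hv0.le)) ?_ 2
      have h2 := hmid v hwv (by rw [← hb]; exact hv2)
      have e1 : (Ws ^ 2 * v) ^ (1 / 3 : ℝ) = Ws ^ (2 / 3 : ℝ) * v ^ (1 / 3 : ℝ) := by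
        rw [Real.mul_rpow (by positivity) hv0.le, ← Real.rpow_natCast Ws 2, ← Real.rpow_mul hW0.le]
        norm_num
      rw [e1] at h2
      have qv := Real.rpow_pos_of_pos hv0 (1 / 3 : ℝ)
      calc Cc * I.F.x ^ (-X.zeta) * bcsR10 I.F X clo chi v
          ≤ Cc * I.F.x ^ (-X.zeta) * (I.F.x ^ (12 * X.zeta) * (I.w ^ 2 / (Ws ^ (2 / 3 : ℝ) * v ^ (1 / 3 : ℝ)))) :=
            mul_le_mul_of_nonneg_left h2 (by positivity)
        _ = A / v ^ (1 / 3 : ℝ) := by rw [hA]; field_simp)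
  have hlast : 3 * A * b ^ (2 / 3 : ℝ) ≤ ε / 3 * I.w ^ 2 := by
    have e2 : b ^ (2 / 3 : ℝ) = C2 ^ (2 / 3 : ℝ) * Ws ^ (2 / 3 : ℝ) := by rw [hb, Real.mul_rpow hC20.le hW0.le]
    have e3 : 3 * A * b ^ (2 / 3 : ℝ) = 3 * Cc * C2 ^ (2 / 3 : ℝ) * I.F.x ^ (-X.zeta) * I.F.x ^ (12 * X.zeta) * I.w ^ 2 := by
      rw [e2, hA]; field_simp
    rw [e3]
    exact mul_le_mul_of_nonneg_right (hab.trans hsm) (by positivity)
  have hmono : ∫ v in (0 : ℝ)..(C' * I.Ws), I.D W v ≤ ∫ v in (0 : ℝ)..b, I.D W v := by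
    rw [hWs']
    refine intervalIntegral.integral_mono_interval le_rfl (by positivity) (by rw [hb]; exact mul_le_mul_of_nonneg_right hC2C hW0.le)
      (Eventually.of_forall fun v => Real.sqrt_nonneg _) ?_
    exact (bcs_int hI le_rfl hb0.le (by linarith)).2
  have hw2 : 0 < I.w ^ 2 := by positivity
  rw [hsq] at key
  have h3 : Cr * (c + c ^ 2 / 2) * I.w ^ 2 ≤ ε / 3 * I.w ^ 2 := mul_le_mul_of_nonneg_right hcε hw2.le
  calc ∫ v in (0 : ℝ)..(C' * I.Ws), I.D W v ≤ _ := hmono.trans key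
    _ ≤ ε / 3 * I.w ^ 2 + ε / 3 * I.w ^ 2 + ε / 3 * I.w ^ 2 := by linarith
    _ = ε * I.w ^ 2 := by ring

/-- **EXIT S4**: the common calibration cut.      TEX[LL:bud:common-star] (l.505-541) -/
theorem bud_star_cut (hX : X.Ok) (hK : K.Ok) (h10 : BcsC10 W (BcsIn.Cls (X := X) · W Fam K)) (hlp : BcsLp W (BcsIn.Cls (X := X) · W Fam K)) :
    BcsCut W (BcsIn.Cls (X := X) · W Fam K) K := by
  obtain ⟨cq, hcq, KrL, hKrL, hlp⟩ := hlp
  obtain ⟨Kr, clo, chi, hKr, hclo, hchi, h10⟩ := h10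
  obtain ⟨Cc, N10, hCc, h10⟩ := h10 X.zeta hX.zeta_pos
  have hz := hX.zeta_pos
  refine ⟨min cq (10 * X.zeta), lt_min hcq (by positivity), fun Km hKm => ?_⟩
  obtain ⟨Ka, hKa⟩ : ∃ Ka, Ka = max (max Km KrL) (max Kr 2) := ⟨_, rfl⟩
  have k1 : Km ≤ Ka := by rw [hKa]; exact (le_max_left _ _).trans (le_max_left _ _)
  have k2 : KrL ≤ Ka := by rw [hKa]; exact (le_max_right _ _).trans (le_max_left _ _)
  have k3 : Kr ≤ Ka := by rw [hKa]; exact (le_max_left _ _).trans (le_max_right _ _)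
  have k4 : 2 ≤ Ka := by rw [hKa]; exact (le_max_right _ _).trans (le_max_right _ _)
  have hKa0 : 0 < Ka := by linarith
  obtain ⟨Cp, NL, hlp⟩ := hlp Ka k2
  have hC1 := hK.C1
  have hc0 := hK.c0
  have hc1 := hK.c1
  obtain ⟨Kb, hKb⟩ : ∃ Kb, Kb = max (2 * K.C * Ka) (4 / K.c) := ⟨_, rfl⟩
  have kb1 : 2 * K.C * Ka ≤ Kb := by rw [hKb]; exact le_max_left _ _
  have kb2 : 4 / K.c ≤ Kb := by rw [hKb]; exact le_max_right _ _
  have kb3 : 2 * Ka ≤ Kb := by nlinarith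
  have kb4 : 1 ≤ Kb := by linarith
  obtain ⟨N2, hsc⟩ := bcs_num_scale X hX K.cs K.i0 Kb hK.cs0 hK.i00 kb4
  obtain ⟨N3, hmid⟩ := bcs_num_mid X hX K.cs clo chi Ka hK.cs0 hclo hchi (by linarith)
  obtain ⟨N4, hfl⟩ := bcs_fl_small (W := W) (Fam := Fam) hX hK (2 * Ka) (by linarith)
  obtain ⟨N5, hab⟩ := bcs_num_absorb (2 * Cc) X.zeta (12 * X.zeta) (10 * X.zeta) (by linarith)
  obtain ⟨N6, hsm⟩ := bcs_num_small (6 * X.zeta) (1 / 2) (by positivity) (by norm_num)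
  refine ⟨2 * Ka, fun p => |Cp p|, max N10 (max NL (max N2 (max N3 (max N4 (max N5 N6))))), fun I hI hN => ?_⟩
  have n10 : N10 ≤ I.F.N := (le_max_left _ _).trans hN
  have hN := (le_max_right _ _).trans hN
  have nL : NL ≤ I.F.N := (le_max_left _ _).trans hN
  have hN := (le_max_right _ _).trans hN
  have n2 : N2 ≤ I.F.N := (le_max_left _ _).trans hN
  have hN := (le_max_right _ _).trans hN
  have n3 : N3 ≤ I.F.N := (le_max_left _ _).trans hN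
  have hN := (le_max_right _ _).trans hN
  have n4 : N4 ≤ I.F.N := (le_max_left _ _).trans hN
  have hN := (le_max_right _ _).trans hN
  have n5 : N5 ≤ I.F.N := (le_max_left _ _).trans hN
  have n6 : N6 ≤ I.F.N := (le_max_right _ _).trans hN
  have sc := hsc I.F hI.ok n2 I.w hI.w_lo hI.strong
  have hmid := hmid I.F hI.ok n3 I.w hI.w_lo hI.strong
  obtain ⟨hx0, hx1, hab⟩ := hab I.F n5
  have hsm := hsm I.F n6
  have hw0 := sc.w0
  have hst := bcs_stat hI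
  obtain ⟨Ws, hWs⟩ : ∃ Ws, Ws = I.F.Wsc X I.w := ⟨_, rfl⟩
  have hWs' : I.Ws = Ws := hWs.symm
  have hwW : I.w ≤ Ws := by rw [hWs]; exact sc.wW
  have hW0 : 0 < Ws := hw0.trans_le hwW
  have hW1 : Kb * Ws ≤ 1 / 4 := by rw [hWs]; exact sc.W1
  have hWu : Kb * Ws ≤ I.F.u := by rw [hWs]; exact sc.Wu
  have hroom0 : Kb * Ws + Kb / I.F.Mj ≤ min (X.cd ^ 3 * I.F.u) 1 := by rw [hWs]; exact sc.room
  have hMj0 := sc.Mj0
  have hMjw := sc.Mj
  rw [← hWs] at hmid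
  rw [hWs']
  obtain ⟨a, ha⟩ : ∃ a, a = Ka * Ws := ⟨_, rfl⟩
  have ha0 : 0 < a := by rw [ha]; positivity
  have hWa : Ws ≤ a := by rw [ha]; exact le_mul_of_one_le_left hW0.le (by linarith)
  have h2a : 2 * a ≤ Kb * Ws := by
    calc 2 * a = 2 * Ka * Ws := by rw [ha]; ring
      _ ≤ Kb * Ws := mul_le_mul_of_nonneg_right kb3 hW0.le
  have qm := Real.rpow_pos_of_pos hx0 (-X.zeta)
  have q12 := Real.rpow_pos_of_pos hx0 (12 * X.zeta)
  have q6 := Real.rpow_pos_of_pos hx0 (6 * X.zeta)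
  have qa : 0 < (Ws ^ 2 * a) ^ (1 / 3 : ℝ) := Real.rpow_pos_of_pos (by positivity) _
  obtain ⟨η, hη⟩ : ∃ η, η = Cc * I.F.x ^ (-X.zeta) * (I.F.x ^ (12 * X.zeta) * (I.w ^ 2 / (Ws ^ 2 * a) ^ (1 / 3 : ℝ))) := ⟨_, rfl⟩
  have hη0 : 0 < η := by rw [hη]; positivity
  have hint : ∫ v in a..(2 * a), I.D2 W v ≤ (2 * a - a) * η ^ 2 := by
    have e : 2 * a - a = a := by ring
    rw [e]
    refine (h10 I hI n10 a (by rw [ha]; exact mul_le_mul k3 hwW hw0.le hKa0.le) (by linarith) (by linarith)).trans ?_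
    refine mul_le_mul_of_nonneg_left ?_ ha0.le
    refine pow_le_pow_left₀ (mul_nonneg (by positivity) (bcs_he_R10_nonneg hX hI.ok clo chi ha0.le)) ?_ 2
    rw [hη]
    exact mul_le_mul_of_nonneg_left (hmid a (hwW.trans hWa) (by rw [ha])) (by positivity)
  have hFl : volume (Ioc a (2 * a) ∩ I.Fl W) ≤ ENNReal.ofReal ((2 * a - a) / 2) := by
    refine (hfl I hI n4 a (2 * a) ha0.le (by linarith) (by rw [ha, hWs']; linarith)).trans (ENNReal.ofReal_le_ofReal ?_)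
    have : I.F.x ^ (6 * X.zeta) * I.w ≤ 1 / 2 * I.w := mul_le_mul_of_nonneg_right hsm hw0.le
    linarith
  have hsub : ∀ v ∈ Ioc a (2 * a), v ∈ Ioo (0:ℝ) 1 := fun v hv => ⟨ha0.trans hv.1, by linarith [hv.2]⟩
  obtain ⟨v, hv, hvF, hvD⟩ := bcs_abs_pick (f := I.D2 W) (Fl := I.Fl W) (a := a) (b := 2 * a) (η := η) (by linarith) hη0
    (fun v hv => (hst.2.2 v (hsub v hv)).2.1)
    ((intervalIntegrable_iff_integrableOn_Ioc_of_le (by linarith)).1 (bcs_int hI ha0.le (by linarith) (by linarith)).1)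
    hint hFl
  have hv' := hsub v hv
  have hH : I.H W (I.Q.r v) ≤ 0 := not_lt.1 hvF
  have hv2w : 2 * I.w ≤ v := by
    have : 2 * Ws ≤ a := by rw [ha]; exact mul_le_mul_of_nonneg_right k4 hW0.le
    linarith [hv.1]
  obtain ⟨hr1, hr2⟩ := hI.reg v hv2w hv'.2.le
  have hKM : 1 / I.F.Mj ≤ Kb / I.F.Mj := div_le_div_of_nonneg_right kb4 hMj0.le
  have hCv : K.C * v ≤ Kb * Ws := by
    calc K.C * v ≤ K.C * (2 * a) := mul_le_mul_of_nonneg_left hv.2 (by linarith)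
      _ = 2 * K.C * Ka * Ws := by rw [ha]; ring
      _ ≤ Kb * Ws := mul_le_mul_of_nonneg_right kb1 hW0.le
  have hSr := bcs_nonfloor hX hI hv' (by linarith) hH
  have h4M : 4 / I.F.Mj ≤ K.c * v := by
    have e1 : 4 / K.c / I.F.Mj ≤ Kb / I.F.Mj := div_le_div_of_nonneg_right kb2 hMj0.le
    have e2 : 4 / K.c / I.F.Mj ≤ v := by linarith [hv.1]
    have e3 : 4 / I.F.Mj = K.c * (4 / K.c / I.F.Mj) := by field_simp
    rw [e3]
    exact mul_le_mul_of_nonneg_left e2 hc0.le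
  have e24 : 2 / I.F.Mj = 4 / I.F.Mj / 2 := by ring
  rw [abs_le] at hSr
  have hv0 := hv'.1
  have hcst1 : I.F.x ^ (10 * X.zeta) ≤ I.F.x ^ (min cq (10 * X.zeta)) :=
    Real.rpow_le_rpow_of_exponent_ge hx0 hx1.le (min_le_right _ _)
  have hcst2 : I.F.x ^ cq ≤ I.F.x ^ (min cq (10 * X.zeta)) :=
    Real.rpow_le_rpow_of_exponent_ge hx0 hx1.le (min_le_left _ _)
  refine ⟨v, ?_, ?_, hv'.2, hH, abs_le.2 hSr, ?_, ?_, ?_, fun p hp => ?_⟩
  · have : Km * Ws ≤ a := by rw [ha]; exact mul_le_mul_of_nonneg_right k1 hW0.le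
    linarith [hv.1]
  · have := hv.2
    rw [ha] at this
    linarith
  · linarith [hSr.1]
  · have : K.c * v ≤ K.C * v := mul_le_mul_of_nonneg_right (by linarith) hv0.le
    linarith [hSr.2]
  · obtain ⟨_, _, _, _, h5, h6⟩ := hst.2.2 v hv'
    have h7 : I.D W v ^ 2 ≤ (2 * η) ^ 2 := by rw [h5]; linarith
    have h8 : I.D W v ≤ 2 * η := (abs_le_of_sq_le_sq' h7 (by positivity)).2
    refine h8.trans ?_
    have h9 : Ws ≤ (Ws ^ 2 * a) ^ (1 / 3 : ℝ) := by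
      have e1 : (Ws ^ 3) ^ (1 / 3 : ℝ) = Ws := by
        rw [← Real.rpow_natCast Ws 3, ← Real.rpow_mul hW0.le]
        norm_num
      calc Ws = (Ws ^ 3) ^ (1 / 3 : ℝ) := e1.symm
        _ ≤ (Ws ^ 2 * a) ^ (1 / 3 : ℝ) := by
            refine Real.rpow_le_rpow (by positivity) ?_ (by norm_num)
            calc Ws ^ 3 = Ws ^ 2 * Ws := by ring
              _ ≤ Ws ^ 2 * a := mul_le_mul_of_nonneg_left hWa (by positivity)
    have h10' : I.w ^ 2 / (Ws ^ 2 * a) ^ (1 / 3 : ℝ) ≤ I.w ^ 2 / Ws :=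
      div_le_div_of_nonneg_left (by positivity) hW0 h9
    calc 2 * η = 2 * Cc * I.F.x ^ (-X.zeta) * I.F.x ^ (12 * X.zeta) * (I.w ^ 2 / (Ws ^ 2 * a) ^ (1 / 3 : ℝ)) := by
          rw [hη]; ring
      _ ≤ I.F.x ^ (min cq (10 * X.zeta)) * (I.w ^ 2 / Ws) :=
          mul_le_mul (hab.trans hcst1) h10' (by positivity) (Real.rpow_nonneg hx0.le _)
      _ = I.F.x ^ (min cq (10 * X.zeta)) * I.w ^ 2 / Ws := by ring
  · have h := hlp I hI nL v (by rw [hWs', ← ha]; exact hv.1.le) (by rw [hWs']; have := hv.2; rw [ha] at this; linarith) hH p hp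
    rw [hWs'] at h
    refine h.trans ?_
    have qq := Real.rpow_pos_of_pos hx0 cq
    calc Cp p * I.F.x ^ cq * Ws ≤ |Cp p| * I.F.x ^ cq * Ws := by
          have := le_abs_self (Cp p)
          gcongr
      _ ≤ |Cp p| * I.F.x ^ (min cq (10 * X.zeta)) * Ws := by
          gcongr

/-- **LEMMA 7.6** (A common calibration cut).      TEX[LL:bud:common-star] -/
theorem bud_star (hX : X.Ok) (hK : K.Ok) (h8 : BcsRaw W (BcsIn.Cls (X := X) · W Fam K)) (h10 : BcsC10 W (BcsIn.Cls (X := X) · W Fam K))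
    (hsw : BcsSW W (BcsIn.Cls (X := X) · W Fam K) K) (hnf : BcsNF W (BcsIn.Cls (X := X) · W Fam K))
    (hlp : BcsLp W (BcsIn.Cls (X := X) · W Fam K)) :
    BcsS1 W (BcsIn.Cls (X := X) · W Fam K) ∧ BcsS2 W (BcsIn.Cls (X := X) · W Fam K) ∧ BcsS3 W (BcsIn.Cls (X := X) · W Fam K) ∧
      BcsCut W (BcsIn.Cls (X := X) · W Fam K) K :=
  ⟨bud_star_S1 hX hK h8 hnf, bud_star_S2 hX hK hsw, bud_star_S3 hX hK h8 h10 (bud_star_S1 hX hK h8 hnf), bud_star_cut hX hK h10 hlp⟩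

/-! ### lift from / export to the vocabulary of `Bud/L07S.lean` (helper12) -/

/-- admissibility of the bare paths of the family.      SUPPLIER: LL03 (253), as for `bud_n4_geo` -/
def BcsBase (X : BdFix) (W : BdWorld) (Fam : BdFr → Prop) : Prop := ∀ F : BdFr, Fam F → F.Ok X → ∀ g ∈ X.G0, F.Base X W g

/-- **LIFT**: a strong instance of helper12 carries a potential normalisation which puts it in the class of this file (`bud_n4_geo`, `Bd7Adm`) -/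
theorem bcs_cls_of_str (hX : X.Ok) {Kb : ℝ} (hb : BcsBase X W Fam) (hadm : Bd7Adm X W Fam Kb) (hilo : ∀ F, Fam F → K.i0 ≤ F.Ilo) :
    ∃ N0 : ℕ, ∀ i : Bd7I X, i.Str W Fam K.c K.C K.cs → N0 ≤ i.F.N → ∃ c0 : ℝ, (BcsIn.mk i c0).Cls W Fam K := by
  obtain ⟨N1, h1⟩ := bud_n4_geo X hX
  obtain ⟨N2, h2⟩ := hadm
  refine ⟨max N1 N2, fun i hi hN => ?_⟩
  have hB := hb i.F hi.fam hi.ok i.g hi.g_mem
  obtain ⟨c0, hg, hp⟩ := h1 i.F hi.ok ((le_max_left _ _).trans hN) W i.g hB i.Q hi.opt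
  have h3 := h2 i hi.toStd ((le_max_right _ _).trans hN)
  exact ⟨c0, { toStr := hi, base := hB, clkb := h3.2.2.1, clkh := h3.2.2.2.1, geo := hg, pot := hp, ilo := hilo _ hi.fam }⟩

/-- **EXPORT to Step 2 of (C7)**: `Bd7Band` of helper12 (`bandM c C ⊆ [c w, C w]`, `bandR c C ⊆ [r(c w), r(C w)]`, `D² ≥ 0`).      TEX[LL:bud:common-star] -/
theorem bd7_band_of_star {cL CL i0 Kb : ℝ} (hX : X.Ok) (hc : 0 < cL) (hc1 : cL ≤ 1) (hC : 1 ≤ CL) (hi0 : 0 < i0)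
    (hb : BcsBase X W Fam) (hadm : Bd7Adm X W Fam Kb) (hilo : ∀ F, Fam F → i0 ≤ F.Ilo)
    (h1 : ∀ cs : ℝ, 0 < cs → BcsS1 W (BcsIn.Cls (X := X) · W Fam ⟨cL, CL, cs, i0⟩))
    (h2 : ∀ cs : ℝ, 0 < cs → BcsS2 W (BcsIn.Cls (X := X) · W Fam ⟨cL, CL, cs, i0⟩)) : Bd7Band X W Fam cL CL := by
  intro cs c C ε hcs hc0 hε
  obtain ⟨Nl, hlift⟩ := bcs_cls_of_str (K := ⟨cL, CL, cs, i0⟩) hX hb hadm hilo
  obtain ⟨C2, hC2⟩ : ∃ C2, C2 = max C (c + 1) := ⟨_, rfl⟩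
  have hCC2 : C ≤ C2 := by rw [hC2]; exact le_max_left _ _
  have hcC2 : c < C2 := by rw [hC2]; exact lt_of_lt_of_le (by linarith) (le_max_right _ _)
  obtain ⟨N1, hs1⟩ := h1 cs hcs c C2 hc0 hcC2 ε hε
  obtain ⟨N2, hs2⟩ := h2 cs hcs c C2 hc0 hcC2 ε hε
  obtain ⟨N3, hsc⟩ := bcs_num_scale X hX cs i0 (max C2 1) hcs hi0 (le_max_right _ _)
  refine ⟨max Nl (max N1 (max N2 N3)), fun i hi hN => ?_⟩
  have nl : Nl ≤ i.F.N := (le_max_left _ _).trans hN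
  have hN := (le_max_right _ _).trans hN
  have n1 : N1 ≤ i.F.N := (le_max_left _ _).trans hN
  have hN := (le_max_right _ _).trans hN
  have n2 : N2 ≤ i.F.N := (le_max_left _ _).trans hN
  have n3 : N3 ≤ i.F.N := (le_max_right _ _).trans hN
  obtain ⟨c0, hI⟩ := hlift i hi nl
  have sc := hsc i.F hi.ok n3 i.w hi.w_lo hi.strong
  have hw0 := sc.w0
  have hC2w : C2 * i.w ≤ 1 / 4 :=
    (mul_le_mul (le_max_left _ _) sc.wW hw0.le (by positivity)).trans sc.W1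
  have hcw0 : 0 < c * i.w := by positivity
  have hcC2w : c * i.w ≤ C2 * i.w := mul_le_mul_of_nonneg_right hcC2.le hw0.le
  have hCw : C * i.w ≤ C2 * i.w := mul_le_mul_of_nonneg_right hCC2 hw0.le
  have hst := bcs_stat hI
  have m1 : c * i.w ∈ Ioo (0:ℝ) 1 := ⟨hcw0, by linarith⟩
  have m2 : C2 * i.w ∈ Ioo (0:ℝ) 1 := ⟨by linarith, by linarith⟩
  constructor
  · have hs := hs1 _ hI n1
    refine le_trans ?_ hs
    rw [intervalIntegral.integral_of_le hcC2w, ← integral_Icc_eq_integral_Ioc]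
    refine setIntegral_mono_set ?_ ?_ (Eventually.of_forall fun v hv => ⟨hv.1, hv.2.1.trans hCw⟩)
    · exact (intervalIntegrable_iff_integrableOn_Icc_of_le hcC2w).1 (bcs_int hI hcw0.le hcC2w (by linarith)).1
    · rw [EventuallyLE, ae_restrict_iff' measurableSet_Icc]
      exact Eventually.of_forall fun v hv => (hst.2.2 v ⟨hcw0.trans_le hv.1, by linarith [hv.2]⟩).2.1
  · have hs := hs2 _ hI n2
    refine le_trans ?_ hs
    obtain ⟨hrm, _⟩ := bcs_hc_r hX hi.ok i.Q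
    have r1 := bcs_hc_r_pos i.Q m1
    have r2 := bcs_hc_r_pos i.Q m2
    have hr12 : i.Q.r (c * i.w) ≤ i.Q.r (C2 * i.w) := hrm (Ioo_subset_Icc_self m1) (Ioo_subset_Icc_self m2) hcC2w
    obtain ⟨hint, hnn⟩ := bcs_he_rad hX hI
    have hsub : Icc (i.Q.r (c * i.w)) (i.Q.r (C2 * i.w)) ⊆ Ioo (0:ℝ) 1 :=
      fun ρ hρ => ⟨r1.1.trans_le hρ.1, hρ.2.trans_lt r2.2⟩
    show _ ≤ ∫ r in (i.Q.r (c * i.w))..(i.Q.r (C2 * i.w)), _
    rw [intervalIntegral.integral_of_le hr12, ← integral_Icc_eq_integral_Ioc]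
    refine setIntegral_mono_set (hint.mono_set hsub) ?_ (Eventually.of_forall fun ρ hρ => ?_)
    · rw [EventuallyLE, ae_restrict_iff' measurableSet_Icc]
      exact Eventually.of_forall fun ρ hρ => hnn ρ (hsub hρ)
    · obtain ⟨p1, p2, p3, p4⟩ := hρ
      have hρ1 : ρ ∈ Icc (0:ℝ) 1 := ⟨p1, by linarith⟩
      have hal : i.Q.al ρ ∈ Icc (0:ℝ) 1 := ⟨by linarith, by linarith⟩
      have e := i.Q.r_al ρ hρ1
      constructor
      · have := hrm (Ioo_subset_Icc_self m1) hal p3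
        rwa [e] at this
      · have := hrm hal (Ioo_subset_Icc_self m2) (p4.trans hCw)
        rwa [e] at this

/-- (C8) in the form of helper12 gives the input `BcsRaw` (`B = D² + S²`) -/
theorem bcs_raw_of_bd7 (hK : K.Ok) (h : Bd7Raw X W Fam K.c K.C) : BcsRaw W (BcsIn.Cls (X := X) · W Fam K) := by
  obtain ⟨C', N0, h⟩ := h K.cs hK.cs0
  refine ⟨2 * |C'| + 1, N0, by positivity, fun I hI hN v hv => ?_⟩
  obtain ⟨h1, h2⟩ := h I.toBd7I hI.toStr hN v hv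
  obtain ⟨s0, d20, _, _, hD, hD0⟩ := (bcs_stat hI).2.2 v hv
  have eB : I.B W v = I.D W v ^ 2 + I.S W v ^ 2 := by
    rw [hD]
    show _ = (I.B W v - I.S W v ^ 2) + _
    ring
  have a1 : I.S W v ^ 2 ≤ (C' * (v + I.w)) ^ 2 := pow_le_pow_left₀ s0 h1 2
  have a2 : I.D W v ^ 2 ≤ (C' * (v + I.w)) ^ 2 := pow_le_pow_left₀ hD0 h2 2
  have a3 : (C' * (v + I.w)) ^ 2 = |C'| ^ 2 * (v + I.w) ^ 2 := by rw [mul_pow, sq_abs]
  have a4 : ((2 * |C'| + 1) * (v + I.w)) ^ 2 = (4 * |C'| ^ 2 + 4 * |C'| + 1) * (v + I.w) ^ 2 := by ring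
  rw [eB, a4]
  rw [a3] at a1 a2
  have a5 : 0 ≤ (2 * |C'| ^ 2 + 4 * |C'| + 1) * (v + I.w) ^ 2 := by positivity
  nlinarith

end exits

end

end Claimed.Agent.R286
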