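import Mathlib

/-!
# Row 286, LL sec. 7 (budgets): the abstract pressure system

All DETERMINISTIC arguments of PE sec. 3, 6 and LL sec. 6, 7 (square interpolation, envelopes, first
variation, barriers, reduction of the budgets to local comparisons) use the hierarchical pressure only
through (A1), line 1, along affine segments of clocks.  `PSys` records exactly that.
The instance (SK hierarchy with `m` sites and terminal mass `a`) comes from the Hub.

Contracts of this file (`def … : Prop`), to be proved in `Bud/PSysA.lean`, `Bud/PSysB.lean`: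
`PSys.SqInterp`, `PSys.LipL1`, `PSys.GammaFTC`, `PSys.DyadBudget`.
-/

set_option autoImplicit false

namespace Claimed.Agent.R286

open MeasureTheory Set Filter Topology

/-- a clock on `(0,a)`: nonnegative, nondecreasing, bounded -/
structure IsClock (a : ℝ) (c : ℝ → ℝ) : Prop where
  mono : MonotoneOn c (Ioo 0 a)
  nonneg : ∀ v ∈ Ioo 0 a, 0 ≤ c v
  bdd : ∃ C, ∀ v ∈ Ioo 0 a, c v ≤ C

/-- affine interpolation of clocks -/
def clerp (t : ℝ) (c0 c1 : ℝ → ℝ) : ℝ → ℝ := fun v => c0 v + t * (c1 v - c0 v)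

/-- **Abstract pressure system**: pressure `f`, first and second overlap moments `S`, `B` at the cut `v`. -/
structure PSys where
  a : ℝ
  a_pos : 0 < a
  f : (ℝ → ℝ) → (ℝ → ℝ) → ℝ
  S : (ℝ → ℝ) → (ℝ → ℝ) → ℝ → ℝ
  B : (ℝ → ℝ) → (ℝ → ℝ) → ℝ → ℝ
  /-- only the values of the clocks on `(0,a)` matter -/
  f_congr : ∀ b h b' h', (∀ v ∈ Ioo 0 a, b v = b' v) → (∀ v ∈ Ioo 0 a, h v = h' v) → f b h = f b' h'
  S_congr : ∀ b h b' h', (∀ v ∈ Ioo 0 a, b v = b' v) → (∀ v ∈ Ioo 0 a, h v = h' v) → S b h = S b' h'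
  B_congr : ∀ b h b' h', (∀ v ∈ Ioo 0 a, b v = b' v) → (∀ v ∈ Ioo 0 a, h v = h' v) → B b h = B b' h'
  S_mono : ∀ b h, IsClock a b → IsClock a h → MonotoneOn (S b h) (Ioo 0 a)
  B_mono : ∀ b h, IsClock a b → IsClock a h → MonotoneOn (B b h) (Ioo 0 a)
  S_nonneg : ∀ b h, IsClock a b → IsClock a h → ∀ v ∈ Ioo 0 a, 0 ≤ S b h v
  S_sq_le : ∀ b h, IsClock a b → IsClock a h → ∀ v ∈ Ioo 0 a, S b h v ^ 2 ≤ B b h v
  B_le : ∀ b h, IsClock a b → IsClock a h → ∀ v ∈ Ioo 0 a, B b h v ≤ 1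
  /-- the derivative of the pressure along an affine segment: (A1), line 1 -/
  seg : ∀ b0 h0 b1 h1, IsClock a b0 → IsClock a h0 → IsClock a b1 → IsClock a h1 →
    ∀ t ∈ Icc (0:ℝ) 1, HasDerivWithinAt (fun s => f (clerp s b0 b1) (clerp s h0 h1))
      (-(1/4) * (∫ v in Ioo 0 a, B (clerp t b0 b1) (clerp t h0 h1) v * (b1 v - b0 v))
        - (1/2) * (∫ v in Ioo 0 a, S (clerp t b0 b1) (clerp t h0 h1) v * (h1 v - h0 v))) (Icc 0 1) t
  /-- weighted integrals of `S` are continuous for the uniform convergence of clocks (PE Prop. 2.14) -/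
  cont_S : ∀ (bk hk : ℕ → ℝ → ℝ) (b h : ℝ → ℝ), (∀ k, IsClock a (bk k)) → (∀ k, IsClock a (hk k)) →
    IsClock a b → IsClock a h → TendstoUniformlyOn bk b atTop (Ioo 0 a) →
    TendstoUniformlyOn hk h atTop (Ioo 0 a) → ∀ φ : ℝ → ℝ, IntegrableOn φ (Ioo 0 a) →
    Tendsto (fun k => ∫ v in Ioo 0 a, S (bk k) (hk k) v * φ v) atTop (𝓝 (∫ v in Ioo 0 a, S b h v * φ v))
  /-- the same for `B` -/
  cont_B : ∀ (bk hk : ℕ → ℝ → ℝ) (b h : ℝ → ℝ), (∀ k, IsClock a (bk k)) → (∀ k, IsClock a (hk k)) →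
    IsClock a b → IsClock a h → TendstoUniformlyOn bk b atTop (Ioo 0 a) →
    TendstoUniformlyOn hk h atTop (Ioo 0 a) → ∀ φ : ℝ → ℝ, IntegrableOn φ (Ioo 0 a) →
    Tendsto (fun k => ∫ v in Ioo 0 a, B (bk k) (hk k) v * φ v) atTop (𝓝 (∫ v in Ioo 0 a, B b h v * φ v))

theorem clerp_zero (c0 c1 : ℝ → ℝ) : clerp 0 c0 c1 = c0 := by
  funext v; simp [clerp]

theorem clerp_one (c0 c1 : ℝ → ℝ) : clerp 1 c0 c1 = c1 := by
  funext v; simp [clerp]

theorem IsClock.clerp {a : ℝ} {c0 c1 : ℝ → ℝ} (h0 : IsClock a c0) (h1 : IsClock a c1) {t : ℝ}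
    (ht : t ∈ Icc (0:ℝ) 1) : IsClock a (clerp t c0 c1) := by
  obtain ⟨C0, hC0⟩ := h0.bdd
  obtain ⟨C1, hC1⟩ := h1.bdd
  have e : ∀ v, R286.clerp t c0 c1 v = (1 - t) * c0 v + t * c1 v := fun v => by
    unfold R286.clerp; ring
  have h1t : 0 ≤ 1 - t := by linarith [ht.2]
  refine ⟨?_, ?_, ⟨(1 - t) * C0 + t * C1, ?_⟩⟩
  · intro x hx y hy hxy
    rw [e, e]
    have := mul_le_mul_of_nonneg_left (h0.mono hx hy hxy) h1t
    have := mul_le_mul_of_nonneg_left (h1.mono hx hy hxy) ht.1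
    linarith
  · intro v hv
    rw [e]
    have := mul_nonneg h1t (h0.nonneg v hv)
    have := mul_nonneg ht.1 (h1.nonneg v hv)
    linarith
  · intro v hv
    rw [e]
    have := mul_le_mul_of_nonneg_left (hC0 v hv) h1t
    have := mul_le_mul_of_nonneg_left (hC1 v hv) ht.1
    linarith

namespace PSys

variable (P : PSys)

/-- derivative of the pressure along the segment at time `t` -/
noncomputable def dseg (b0 h0 b1 h1 : ℝ → ℝ) (t : ℝ) : ℝ :=
  -(1/4) * (∫ v in Ioo 0 P.a, P.B (clerp t b0 b1) (clerp t h0 h1) v * (b1 v - b0 v))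
    - (1/2) * (∫ v in Ioo 0 P.a, P.S (clerp t b0 b1) (clerp t h0 h1) v * (h1 v - h0 v))

/-- if the derivative plus a penalty rate `p` is nonnegative along the segment, then `f₀ ≤ f₁ + p` -/
theorem seg_le {b0 h0 b1 h1 : ℝ → ℝ} (hb0 : IsClock P.a b0) (hh0 : IsClock P.a h0)
    (hb1 : IsClock P.a b1) (hh1 : IsClock P.a h1) {p : ℝ}
    (hp : ∀ t ∈ Icc (0:ℝ) 1, 0 ≤ P.dseg b0 h0 b1 h1 t + p) :
    P.f b0 h0 ≤ P.f b1 h1 + p := by
  set φ : ℝ → ℝ := fun s => P.f (clerp s b0 b1) (clerp s h0 h1) + s * p with hφ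
  have hd : ∀ t ∈ Icc (0:ℝ) 1, HasDerivWithinAt φ (P.dseg b0 h0 b1 h1 t + p) (Icc 0 1) t := by
    intro t ht
    have h1 := P.seg b0 h0 b1 h1 hb0 hh0 hb1 hh1 t ht
    have h2 : HasDerivWithinAt (fun s : ℝ => s * p) p (Icc 0 1) t := by
      simpa using ((hasDerivAt_id t).mul_const p).hasDerivWithinAt
    exact h1.add h2
  have hmono : MonotoneOn φ (Icc 0 1) := by
    apply monotoneOn_of_hasDerivWithinAt_nonneg (convex_Icc 0 1)
      (f' := fun t => P.dseg b0 h0 b1 h1 t + p)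
    · intro t ht; exact (hd t ht).continuousWithinAt
    · intro t ht
      have ht' : t ∈ Icc (0:ℝ) 1 := interior_subset ht
      exact (hd t ht').mono interior_subset
    · intro t ht; exact hp t (interior_subset ht)
  have := hmono (left_mem_Icc.2 zero_le_one) (right_mem_Icc.2 zero_le_one) zero_le_one
  simpa [hφ, clerp_zero, clerp_one] using this

/-- **Square interpolation** (Guerra bound): removing `e ≥ 0` from the matrix clock and adding `e ρ` to the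
field clock costs at most the penalty `¼ ∫ e ρ²`.
Proof: `seg_le` with `p = ¼ ∫ e ρ²`; derivative + p `= ¼ ∫ e (B - 2 ρ S + ρ²) ≥ ¼ ∫ e (S - ρ)² ≥ 0`. -/
def SqInterp : Prop :=
  ∀ b h e ρ : ℝ → ℝ, IsClock P.a b → IsClock P.a h → IsClock P.a (fun v => b v - e v) →
    IsClock P.a (fun v => h v + e v * ρ v) → (∀ v ∈ Ioo 0 P.a, 0 ≤ e v) →
    IntegrableOn (fun v => e v * ρ v ^ 2) (Ioo 0 P.a) →
    P.f b h ≤ P.f (fun v => b v - e v) (fun v => h v + e v * ρ v) + (1/4) * ∫ v in Ioo 0 P.a, e v * ρ v ^ 2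

/-- **`L¹`-Lipschitz bound** of the pressure (PE Lemma 2.2) -/
def LipL1 : Prop :=
  ∀ b0 h0 b1 h1 : ℝ → ℝ, IsClock P.a b0 → IsClock P.a h0 → IsClock P.a b1 → IsClock P.a h1 →
    |P.f b1 h1 - P.f b0 h0|
      ≤ (1/4) * (∫ v in Ioo 0 P.a, |b1 v - b0 v|) + (1/2) * (∫ v in Ioo 0 P.a, |h1 v - h0 v|)

/-- the second moment about a reference `q`: `A_v = B_v - 2 q S_v + q²` -/
noncomputable def Aq (q b h : ℝ → ℝ) (v : ℝ) : ℝ := P.B b h v - 2 * q v * P.S b h v + q v ^ 2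

/-- **(P10), integrated**: along `b_t = b - t c`, `h_t = h + t c q` the restored pressure
`f(b_t,h_t) - ¼∫ b_t q²` increases exactly by `∫₀¹ ¼ ∫ c A_v^t dv dt`, and the integrand is continuous in `t`. -/
def GammaFTC : Prop :=
  ∀ b h c q : ℝ → ℝ, IsClock P.a b → IsClock P.a h → IsClock P.a (fun v => b v - c v) →
    IsClock P.a (fun v => h v + c v * q v) → IntegrableOn (fun v => c v * q v ^ 2) (Ioo 0 P.a) →
    ContinuousOn (fun t => ∫ v in Ioo 0 P.a, c v * P.Aq q (fun v => b v - t * c v) (fun v => h v + t * (c v * q v)) v)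
      (Icc 0 1) ∧
    P.f (fun v => b v - c v) (fun v => h v + c v * q v) + (1/4) * (∫ v in Ioo 0 P.a, c v * q v ^ 2) - P.f b h
      = ∫ t in (0:ℝ)..1, (1/4) * ∫ v in Ioo 0 P.a,
          c v * P.Aq q (fun v => b v - t * c v) (fun v => h v + t * (c v * q v)) v

/-- **Dyad budget** (LL 07 l.105-115, node N2).  `c = c_u`, `Cr = C ∘ r`.  The `γ_u`-average of the weighted second
moment is at most the optimiser excess plus `¼ ∫ C c (r-q)²/(C-c)`.
Proof: `GammaFTC`, then `SqInterp` from `(b - c, h + c q)` with `e = Cr - c`, `ρ = (Cr r - c q)/(Cr - c)`, and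
`(C r - c q)²/(C - c) + c q² = C r² + C c (r - q)²/(C - c)`. -/
def DyadBudget : Prop :=
  ∀ b h c q Cr r : ℝ → ℝ, IsClock P.a b → IsClock P.a h → IsClock P.a (fun v => b v - c v) →
    IsClock P.a (fun v => h v + c v * q v) → IsClock P.a (fun v => b v - Cr v) →
    IsClock P.a (fun v => h v + Cr v * r v) → (∀ v ∈ Ioo 0 P.a, c v < Cr v) →
    IntegrableOn (fun v => c v * q v ^ 2) (Ioo 0 P.a) → IntegrableOn (fun v => Cr v * r v ^ 2) (Ioo 0 P.a) →
    IntegrableOn (fun v => Cr v * c v * (r v - q v) ^ 2 / (Cr v - c v)) (Ioo 0 P.a) →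
    (∫ t in (0:ℝ)..1, (1/4) * ∫ v in Ioo 0 P.a,
        c v * P.Aq q (fun v => b v - t * c v) (fun v => h v + t * (c v * q v)) v)
      ≤ (P.f (fun v => b v - Cr v) (fun v => h v + Cr v * r v) + (1/4) * (∫ v in Ioo 0 P.a, Cr v * r v ^ 2) - P.f b h)
        + (1/4) * ∫ v in Ioo 0 P.a, Cr v * c v * (r v - q v) ^ 2 / (Cr v - c v)

end PSys

end Claimed.Agent.R286
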