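import Claimed.Agent.R286.Bud.RawBoot
import Claimed.Agent.R286.Bud.Star
import Claimed.Agent.R286.Cmp.P5Chain
import Claimed.Agent.R286.Exit.BudWorld
import Claimed.Agent.R286.Exit.ClkStat

/-!
# Row 286, LL sec. 7, node N5 = Lemma 7.4 (moments under outer regularity): THE FRAME LEVEL = INSTANCE OF `BudRwReg`, `Cm5Clk` + EXITS      (owner helper7; prefix `bud_rx_`, types `BudRx*`)
TEX[LL:bud:outer-moments] = LL `07-budgets.tex` l.217-344.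

ABSTRACT LAYER (done): 109's `Bud/Raw*` (`BudRwReg ⟹ bud_rw_raw, bud_rw_c9`, radius coordinate), 247/38's `cm5_raw2_pf`, `cm5_tbl_pf` (mass coordinate).      DICTIONARY (done): `Cmp/P5Chain` (`ckM`, `ckm_*`).
THIS FILE: one optimiser `Q` of (C5) with outer regularity above `2w`, `w ≥ w_c` (`BudRxH`); its changed path sampled on a fine chain `Q.rxM g ps = ckM F.m (Q.bE g) (Q.hE g) ps`, radius labelling `Q.rxRad g ps j = r(mass j)`.

 §1 removal profile    `φ(r) = r C(r)`, `φ' = sg(t) = C0 min(1, c_d³u/t)`: `bud_rx_sg_*`, `bud_rx_phi_*`.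
 §2 quantile           `bud_rx_r_*`: `r` strictly increasing, continuous, `r ≍ v` above the RADIUS `2Cw`, `r = O(v+w)`, floor `k(t)(t-s) ≤ α(t)-α(s)`.
 §3 numerics           `BudRxNum F X C A` (all that is asked from `N ≥ N0`), producer `bud_rx_num`.
 §4 `S = O(v+w)`       `bud_rx_S` (look ahead to a nonfloor point: `BudGeo.S_le_of_band`), chain form `bud_rx_S_chain`.
 §5 field clock        `bud_rx_slope` (`φ(rad j) - φ(rad i) ≤ hck j - hck i`), `bud_rx_clk` (radius layers), `bud_rx_dy` (mass dyads).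
 §6 INSTANCES          `bud_rx_sus : BudRwSusH`, `bud_rx_reg : BudRwReg`, `bud_rx_clk5 : Cm5Clk`.
 §7 EXITS, step level  `bud_rx_raw` ((C8) for `X`), `bud_rx_raw2` ((C8) for `Q_v`), `bud_rx_c9` ((C9)).
 §8 EXITS, path level  `bud_rx_mx`, `bud_rx_mr`, `bud_rx_B`;  ADAPTERS `bud_rx_bd7raw : Bd7Raw` (12), `bud_rx_bcsraw : BcsRaw` (190).
PARAMETERS of `BudRwReg`: `η = x⁷`, `K = clog₂ N² + 1`, `θ = x^e`, `r = ⌈8/e⌉` (`0 < e ≤ ζ`), `x0 = 2Cw`, `um = 1/4`, `cr = 1/C`, `Cr = 1/c`, `C0 = 2C`, `CS = 8C+3`, `cp = 1+(2l)²/3`, `ε = 1`,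
`D z k = sg(Z_k) 2^k η/8`, `G0 z = (768/c)/sg(3z)`, `κ z = k(3z)`.      Every `sorry` = one leaf (claim286 by its Lean name), prove IN PLACE; each has its proof in the docstring.
-/

set_option autoImplicit false

namespace Claimed.Agent.R286

open MeasureTheory Set Filter Topology

noncomputable section

/-! ## 0. Hypotheses and objects -/

/-- **the hypotheses of Lemma 7.4 on ONE optimiser** (l.217-233): `w_c ≤ w ≤ 1`, `c v ≤ r(v) ≤ C v` for `2w ≤ v ≤ 1`; admissibility; geometry N4 (`c0` = normalisation of the potential).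
PRODUCERS: `bud_rx_of_out` (instances `Bd7I.Out` of helper12), `bud_rx_of_cls` (class of helper190). -/
structure BudRxH (X : BdFix) (W : BdWorld) (F : BdFr) (g : ℝ) (Q : BdQ F X) (w c C c0 : ℝ) : Prop where
  ok : F.Ok X
  w_lo : F.wc X ≤ w
  w_hi : w ≤ 1
  reg : Q.OuterReg w c C 2
  base : F.Base X W g
  clkb : IsClock 1 (Q.bq g)
  clkh : IsClock 1 (Q.hq g)
  geo : (budGeoQ Q W g c0).Ok

namespace BdQ
variable {F : BdFr} {X : BdFix} (Q : BdQ F X) (g : ℝ)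

/-- the changed path sampled on the chain `ps`, as an abstract path (`= Q.hpM g ps` of Bud/HpFr) -/
def rxM (ps : List GhPos) : CmPath F.m (SkOm F.m) := ckM F.m (Q.bE g) (Q.hE g) ps

/-- the radius labelling of the nodes (`= Q.rho ps`, `bud_rx_rho`) -/
def rxRad (ps : List GhPos) (j : ℕ) : ℝ := Q.r ((Q.rxM g ps).mass j)

end BdQ

/-- `φ' = (1-p) C`: the slope of the removed field clock in the radius -/
def budRxSg (F : BdFr) (X : BdFix) (t : ℝ) : ℝ := F.C0 * min 1 (X.cd ^ 3 * F.u / t)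
/-- `φ(r) = r C(r)` -/
def budRxPhi (F : BdFr) (X : BdFix) (r : ℝ) : ℝ := r * F.C X r
/-- first layer -/
def budRxEta (F : BdFr) : ℝ := F.x ^ 7
/-- number of layers -/
def budRxK (F : BdFr) : ℕ := Nat.clog 2 (F.N ^ 2) + 1
/-- truncation level `θ = x^e`, `0 < e ≤ ζ` (`e = ζ` for (C8); `e → 0` for the subpower loss of (C9)) -/
def budRxTh (F : BdFr) (e : ℝ) : ℝ := F.x ^ e
/-- order of the high moments of the normalised anchors -/
def budRxR (e : ℝ) : ℕ := ⌈8 / e⌉₊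
/-- field clock of the radius layer `k` of a fork in `[z,2z]` -/
def budRxD (F : BdFr) (X : BdFix) (z : ℝ) (k : ℕ) : ℝ := budRxSg F X (budRwZ (budRxEta F) (2 * z) k) * (2 ^ k * budRxEta F / 8)
def budRxG0 (F : BdFr) (X : BdFix) (c z : ℝ) : ℝ := 768 / c / budRxSg F X (3 * z)
def budRxKap (F : BdFr) (X : BdFix) (z : ℝ) : ℝ := F.k X (3 * z)
/-- ratio of the mass dyads -/
def budRxGam (c C : ℝ) : ℝ := 4 * C / c
/-- field clock of the mass dyad `[w', Γ w']` -/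
def budRxT5 (F : BdFr) (X : BdFix) (C w' : ℝ) : ℝ := C * w' * budRxSg F X (2 * C * w')
def budRxS5 (F : BdFr) (X : BdFix) (C u : ℝ) : ℝ := C * budRxSg F X (2 * C * u)

theorem bud_rx_eqns_cite : True := by
  have := @BdQ.rxM.eq_1; have := @BdQ.rxRad.eq_1; have := @budRxSg.eq_1; have := @budRxPhi.eq_1; have := @budRxEta.eq_1; have := @budRxK.eq_1
  have := @budRxTh.eq_1; have := @budRxR.eq_1; have := @budRxD.eq_1; have := @budRxG0.eq_1; have := @budRxKap.eq_1; have := @budRxGam.eq_1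
  have := @budRxT5.eq_1; have := @budRxS5.eq_1
  trivial

variable {X : BdFix} {W : BdWorld} {F : BdFr} {g : ℝ} {Q : BdQ F X} {w c C c0 : ℝ} {ps : List GhPos}

/-! ## 1. The removal profile -/

theorem bud_rx_sg_pos (hX : X.Ok) (hF : F.Ok X) {t : ℝ} (ht : 0 < t) : 0 < budRxSg F X t := by
  have h1 := bud_gb_C0_pos hX hF
  have h2 := bud_gb_flat_pos hX hF
  unfold budRxSg
  have : 0 < min 1 (X.cd ^ 3 * F.u / t) := lt_min one_pos (by positivity)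
  positivity

theorem bud_rx_sg_le (hX : X.Ok) (hF : F.Ok X) (t : ℝ) : budRxSg F X t ≤ F.C0 := by
  have h1 := bud_gb_C0_pos hX hF
  unfold budRxSg
  exact mul_le_of_le_one_right h1.le (min_le_left _ _)

theorem bud_rx_sg_anti (hX : X.Ok) (hF : F.Ok X) {s t : ℝ} (hs : 0 < s) (hst : s ≤ t) : budRxSg F X t ≤ budRxSg F X s := by
  have h1 := bud_gb_C0_pos hX hF
  have h2 := bud_gb_flat_pos hX hF
  unfold budRxSg
  refine mul_le_mul_of_nonneg_left (min_le_min le_rfl ?_) h1.le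
  exact div_le_div_of_nonneg_left h2.le hs hst

/-- `t φ'(t) = C0 min(t, c_d³ u)` is nondecreasing -/
theorem bud_rx_tsg_mono (hX : X.Ok) (hF : F.Ok X) {s t : ℝ} (hs : 0 < s) (hst : s ≤ t) : s * budRxSg F X s ≤ t * budRxSg F X t := by
  have h1 := bud_gb_C0_pos hX hF
  have h2 := bud_gb_flat_pos hX hF
  have ht : 0 < t := hs.trans_le hst
  have e : ∀ a : ℝ, 0 < a → a * budRxSg F X a = F.C0 * min a (X.cd ^ 3 * F.u) := fun a ha => by
    unfold budRxSg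
    rw [mul_left_comm, mul_min_of_nonneg _ _ ha.le, mul_one, mul_div_cancel₀ _ ha.ne']
  rw [e s hs, e t ht]
  exact mul_le_mul_of_nonneg_left (min_le_min hst le_rfl) h1.le

/-- `sg = (1 - p) C`.      Proof: `τ = C0 t/d³ = t/(c_d³u)` (`bud_gb_d_cube`); `τ ≤ 1`: `cm_p_of_le`, `cm_f_of_le`; `τ ≥ 1`: `cm_p_of_ge`, `cm_f_of_ge`: `(1/(1+log τ))((1+log τ)/τ) = 1/τ`. -/
theorem bud_rx_sg_eq (hX : X.Ok) (hF : F.Ok X) {t : ℝ} (ht : 0 < t) : budRxSg F X t = (1 - F.pC X t) * F.C X t := by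
  have hC0 := bud_gb_C0_pos hX hF
  have hfl := bud_gb_flat_pos hX hF
  have hd3 := bud_gb_d_cube hF
  have harg : F.C0 * t / F.dPE X ^ 3 = t / (X.cd ^ 3 * F.u) := by
    rw [hd3]
    field_simp
  show _ = (1 - cmP (F.C0 * t / F.dPE X ^ 3)) * (F.C0 * cmF (F.C0 * t / F.dPE X ^ 3))
  rw [harg]
  obtain ⟨τ, hτ⟩ : ∃ τ, τ = t / (X.cd ^ 3 * F.u) := ⟨_, rfl⟩
  have hτ0 : 0 < τ := by rw [hτ]; exact div_pos ht hfl
  have hinv : X.cd ^ 3 * F.u / t = 1 / τ := by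
    rw [hτ]
    field_simp
  unfold budRxSg
  rw [hinv, ← hτ]
  rcases le_total τ 1 with h | h
  · rw [cm_p_of_le h, cm_f_of_le h, min_eq_left ((one_le_div hτ0).2 h)]
    ring
  · rw [cm_p_of_ge h, cm_f_of_ge h, min_eq_right ((div_le_one hτ0).2 h)]
    have hl : 0 < 1 + Real.log τ := by
      have := Real.log_nonneg h
      linarith
    field_simp
    ring

theorem bud_rx_phi_cont (F : BdFr) (X : BdFix) : Continuous (budRxPhi F X) :=
  continuous_id.mul (cm_e_cont (F.call X) F.C0)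

/-- concavity: `φ'(t)(t - s) ≤ φ(t) - φ(s)`.      Proof: `cm_re_integral`, `bud_rx_sg_eq`, `bud_rx_sg_anti` (integrand `≥ sg t` on `(s,t]`; `intervalIntegral.integral_mono_on` against the constant). -/
theorem bud_rx_phi_slope (hX : X.Ok) (hF : F.Ok X) {s t : ℝ} (hs : 0 ≤ s) (hst : s ≤ t) (ht : 0 < t) :
    budRxSg F X t * (t - s) ≤ budRxPhi F X t - budRxPhi F X s := by
  have hC0 := (bud_gb_C0_pos hX hF).le
  have hd := bud_gb_d_pos hX hF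
  have h1 : budRxPhi F X t - budRxPhi F X s = ∫ r in s..t, (1 - F.pC X r) * F.C X r :=
    cm_re_integral (F.call X) hd hC0 hs hst
  rw [h1]
  have hc : Continuous fun r => (1 - F.pC X r) * F.C X r :=
    (continuous_const.sub (cm_pp_cont (F.call X) F.C0)).mul (cm_e_cont (F.call X) F.C0)
  have h2 := intervalIntegral.integral_mono_on (μ := volume) hst (intervalIntegrable_const (c := budRxSg F X t))
    (hc.intervalIntegrable s t) (fun r hr => by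
      rcases (hs.trans hr.1).eq_or_lt with h0 | h0
      · rw [← h0, bud_gb_pC_zero hX hF (bud_gb_flat_pos hX hF).le, bud_gb_C_flat hX hF (bud_gb_flat_pos hX hF).le]
        have := bud_rx_sg_le hX hF t
        linarith
      · rw [← bud_rx_sg_eq hX hF h0]
        exact bud_rx_sg_anti hX hF h0 hr.2)
  rw [intervalIntegral.integral_const, smul_eq_mul] at h2
  linarith

theorem bud_rx_phi_mono (hX : X.Ok) (hF : F.Ok X) {s t : ℝ} (hs : 0 ≤ s) (hst : s ≤ t) : budRxPhi F X s ≤ budRxPhi F X t :=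
  cm_re_mono (F.call X) (bud_gb_d_pos hX hF) (bud_gb_C0_pos hX hF).le (mem_Ici.2 hs) (mem_Ici.2 (hs.trans hst)) hst

/-! ## 2. The quantile -/

theorem bud_rx_r_zero (Q : BdQ F X) : Q.r 0 = 0 := by
  have := Q.r_al 0 ⟨le_rfl, zero_le_one⟩
  rwa [Q.al_zero] at this

theorem bud_rx_r_one (Q : BdQ F X) : Q.r 1 = 1 := by
  have := Q.r_al 1 ⟨zero_le_one, le_rfl⟩
  rwa [Q.al_one] at this

theorem bud_rx_r_strict (hX : X.Ok) (hF : F.Ok X) (Q : BdQ F X) {v v' : ℝ} (hv : 0 ≤ v) (hvv : v < v') (hv' : v' ≤ 1) : Q.r v < Q.r v' := by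
  have h1 : v ∈ Icc (0 : ℝ) 1 := ⟨hv, by linarith⟩
  have h2 : v' ∈ Icc (0 : ℝ) 1 := ⟨by linarith, hv'⟩
  refine lt_of_le_of_ne ((bcs_hc_r hX hF Q).1 h1 h2 hvv.le) fun h => ?_
  have := congrArg Q.al h
  rw [Q.al_r v h1, Q.al_r v' h2] at this
  linarith

/-- the constants of outer regularity are ordered -/
theorem bud_rx_cC (h : BudRxH X W F g Q w c C c0) (hw : 2 * w ≤ 1) : c ≤ 1 ∧ 1 ≤ C := by
  have := h.reg 1 (by linarith) le_rfl
  rw [bud_rx_r_one Q] at this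
  exact ⟨by linarith [this.1], by linarith [this.2]⟩

theorem bud_rx_w_pos (hX : X.Ok) (h : BudRxH X W F g Q w c C c0) : 0 < w :=
  lt_of_lt_of_le (bcs_ha_pos hX h.ok).2.2.2.2.2.2.2.1 h.w_lo

/-- a mass whose RADIUS is `≥ 2Cw` is regular -/
theorem bud_rx_reg_of_rad (hX : X.Ok) (h : BudRxH X W F g Q w c C c0) (hw : 2 * w ≤ 1) {v : ℝ} (hv : v ∈ Icc (0 : ℝ) 1)
    (hr : 2 * C * w ≤ Q.r v) : 2 * w ≤ v := by
  by_contra hcon
  have h1 := bud_rx_r_strict hX h.ok Q hv.1 (not_le.1 hcon) hw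
  have h2 := (h.reg (2 * w) le_rfl hw).2
  nlinarith

/-- `r(v) ≤ 2C (w + v)` everywhere (l.221) -/
theorem bud_rx_r_le (hX : X.Ok) (h : BudRxH X W F g Q w c C c0) (hw : 2 * w ≤ 1) {v : ℝ} (hv : v ∈ Icc (0 : ℝ) 1) :
    Q.r v ≤ 2 * C * (w + v) := by
  have hw0 := bud_rx_w_pos hX h
  have hC := (bud_rx_cC h hw).2
  rcases le_total (2 * w) v with h1 | h1
  · have := (h.reg v h1 hv.2).2
    nlinarith [hv.1]
  · have h2 := (bcs_hc_r hX h.ok Q).1 hv ⟨by linarith, hw⟩ h1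
    have h3 := (h.reg (2 * w) le_rfl hw).2
    nlinarith [hv.1]

/-- `v ≤ max(r(v), 2Cw)/c` everywhere -/
theorem bud_rx_v_le (hX : X.Ok) (hc : 0 < c) (h : BudRxH X W F g Q w c C c0) (hw : 2 * w ≤ 1) {v : ℝ} (hv : v ∈ Icc (0 : ℝ) 1) :
    v ≤ 1 / c * max (Q.r v) (2 * C * w) := by
  have hw0 := bud_rx_w_pos hX h
  obtain ⟨hc1, hC⟩ := bud_rx_cC h hw
  rw [div_mul_eq_mul_div, one_mul, le_div_iff₀ hc]
  rcases le_total (2 * w) v with h1 | h1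
  · exact le_trans (by linarith [(h.reg v h1 hv.2).1]) (le_max_left _ _)
  · refine le_trans ?_ (le_max_right _ _)
    nlinarith [hv.1]

/-- the floor of (C5): `k(t)(t - s) ≤ α(t) - α(s)`.      Proof: `Q.lo`, `kbar ≥ k` (`hF.kap0`), `bud_gb_k_anti`, `bud_gb_k_cont`; compare `∫_s^t kbar ≥ ∫_s^t k ≥ (t-s) k(t)`
(integrability of `kbar`: `(bud_gb_box hX hF)` / measurable + bounded). -/
theorem bud_rx_floor (hX : X.Ok) (hF : F.Ok X) (Q : BdQ F X) {s t : ℝ} (hs : 0 ≤ s) (hst : s ≤ t) (ht : t ≤ 1) :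
    F.k X t * (t - s) ≤ Q.al t - Q.al s := by
  refine le_trans ?_ (Q.lo s t hs hst ht)
  have hbox := bud_gb_box hX hF
  rw [← bud_gb_int_Kb F X hs hst ht]
  have h2 := intervalIntegral.integral_mono_on (μ := volume) hst (intervalIntegrable_const (c := F.k X t))
    (hbox.kb_intervalIntegrable s t) (fun r hr => by
      have hr1 : r ∈ Icc (0 : ℝ) 1 := ⟨hs.trans hr.1, hr.2.trans ht⟩
      rw [bud_gb_Kb_eq F X hr1]
      have h1 : F.k X t ≤ F.k X r :=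
        bud_gb_k_anti (F.call X) (bud_gb_N_pos hF) (bud_gb_us_pos hX hF) (mem_Ici.2 hr1.1) (mem_Ici.2 (hs.trans hst)) hr.2
      unfold BdFr.kbar
      split_ifs
      · linarith [hF.kap0]
      · linarith)
  rw [intervalIntegral.integral_const, smul_eq_mul] at h2
  linarith

/-! ## 3. Numerics of the frame -/

/-- everything which is asked from `N ≥ N0`; `A` = an arbitrary constant fixed before the frame -/
structure BudRxNum (F : BdFr) (X : BdFix) (C A : ℝ) : Prop where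
  x0 : 0 < F.x
  x1 : F.x < 1
  x_wc : F.x ≤ F.wc X
  K_big : 1 ≤ 2 ^ (budRxK F - 1) * budRxEta F
  eta_m : budRxEta F * F.m * F.C0 ≤ 384
  kap : F.kap ≤ 1 / (16 * C)
  fl : (F.m : ℝ) ^ (-X.dPEexp) * F.vs X ≤ F.wc X / 8
  Mj : 1 / F.Mj ≤ F.wc X
  small : ∀ z, F.wc X ≤ z → z ≤ 1 / 4 → A * (budRxK F : ℝ) ^ 3 ≤ F.m * F.k X (3 * z) * budRxSg F X (3 * z) * z ^ 4 * budRxTh F X.zeta
  marg : ∀ w', F.wc X ≤ w' → w' ≤ 1 → ((budRxK F : ℝ) + 2) ^ 4 * A ≤ F.m * w' ^ 3 * budRxT5 F X C w'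

/-- `x ≤ w_c`: `w_c ≥ x^(1-10ζ) Λ^(-1/6)` (`bcs_ha_logs`, 4th clause; `log λ < 0`) -/
theorem bud_rx_num_xwc (hX : X.Ok) (hF : F.Ok X) : F.x ≤ F.wc X := by
  obtain ⟨hx0, hx1, hlx, _⟩ := bcs_ha_x hF.N2
  obtain ⟨b1, b2, b3, b4, b5, b6, b7⟩ := bcs_ha_base hX hF
  obtain ⟨_, _, _, _, _, _, _, hwc, _, _⟩ := bcs_ha_pos hX hF
  obtain ⟨l1, l2, l3, l4, l5, l6, l7⟩ := bcs_ha_logs hX hF
  refine bcs_ha_le hx0 hwc ?_
  have h1 : Real.log F.lam ≤ 0 := b3.trans (by nlinarith [hX.pS_pos])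
  nlinarith [mul_pos hX.zeta_pos (neg_pos.2 hlx)]

/-- `2^(K-1) ≥ N² ≥ x⁻⁷` (`Nat.le_pow_clog`; `x⁷ = N^(-7/6)`) -/
theorem bud_rx_num_K (hF : F.Ok X) : 1 ≤ 2 ^ (budRxK F - 1) * budRxEta F := by
  obtain ⟨hx0, hx1, hlx, hN⟩ := bcs_ha_x hF.N2
  have hN0 : (0:ℝ) < F.N := by have := hF.N2; positivity
  have h1 : F.N ^ 2 ≤ 2 ^ Nat.clog 2 (F.N ^ 2) := Nat.le_pow_clog (by norm_num) _
  have h2 : ((F.N : ℝ)) ^ 2 ≤ 2 ^ Nat.clog 2 (F.N ^ 2) := by exact_mod_cast h1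
  have e : budRxK F - 1 = Nat.clog 2 (F.N ^ 2) := by unfold budRxK; omega
  rw [e]
  unfold budRxEta
  have h3 : 1 ≤ (F.N : ℝ) ^ 2 * F.x ^ 7 := by
    have hp : 0 < (F.N : ℝ) ^ 2 * F.x ^ 7 := by positivity
    refine bcs_ha_le one_pos hp ?_
    rw [Real.log_one, Real.log_mul (by positivity) (by positivity), Real.log_pow, Real.log_pow, hN]
    push_cast
    linarith
  exact h3.trans (mul_le_mul_of_nonneg_right h2 (by positivity))

/-- `K ≤ 20 (-log x)` for `-log x ≥ 1` (`Nat.pow_pred_clog_lt_self`: `2^(clog - 1) < N²`, `log N = -6 log x`, `log 2 ≥ 0.69`) -/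
theorem bud_rx_num_K_le (hF : F.Ok X) (h1 : 1 ≤ -Real.log F.x) : (budRxK F : ℝ) ≤ 20 * (-Real.log F.x) := by
  obtain ⟨hx0, hx1, hlx, hN⟩ := bcs_ha_x hF.N2
  have hN0 : (0:ℝ) < F.N := by have := hF.N2; positivity
  have hN2 : 1 < F.N ^ 2 := by have := hF.N2; nlinarith
  have h2 : 2 ^ (Nat.clog 2 (F.N ^ 2)).pred < F.N ^ 2 := Nat.pow_pred_clog_lt_self (by norm_num) hN2
  have h3 : ((2:ℝ)) ^ (Nat.clog 2 (F.N ^ 2)).pred < (F.N : ℝ) ^ 2 := by exact_mod_cast h2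
  have h4 := Real.log_lt_log (by positivity) h3
  rw [Real.log_pow, Real.log_pow, hN] at h4
  have h5 : (Nat.clog 2 (F.N ^ 2) : ℝ) ≤ ((Nat.clog 2 (F.N ^ 2)).pred : ℝ) + 1 := by
    have : Nat.clog 2 (F.N ^ 2) ≤ (Nat.clog 2 (F.N ^ 2)).pred + 1 := by
      rw [Nat.pred_eq_sub_one]; omega
    exact_mod_cast this
  have h6 := Real.log_two_gt_d9
  have h7 : (0:ℝ) ≤ ((Nat.clog 2 (F.N ^ 2)).pred : ℝ) := Nat.cast_nonneg _
  unfold budRxK
  push_cast at h4 ⊢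
  nlinarith

/-- `x⁷ m C0 ≤ 3x ≤ 384` (`m ≤ 3N = 3x⁻⁶`, `C0 = u²Λ ≤ 1`) -/
theorem bud_rx_num_eta (hX : X.Ok) (hF : F.Ok X) : budRxEta F * F.m * F.C0 ≤ 384 := by
  obtain ⟨hx0, hx1, hlx, hN⟩ := bcs_ha_x hF.N2
  obtain ⟨b1, b2, b3, b4, b5, b6, b7⟩ := bcs_ha_base hX hF
  obtain ⟨_, hl0, hu0, hm0, hL0, hC0, _, _, _, _⟩ := bcs_ha_pos hX hF
  obtain ⟨l1, l2, l3, l4, l5, l6, l7⟩ := bcs_ha_logs hX hF
  have hll : Real.log F.lam ≤ 0 := b3.trans (by nlinarith [hX.pS_pos])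
  have hlu : Real.log F.u ≤ 0 := b5.trans (by nlinarith [hX.bl_pos])
  unfold budRxEta
  have hp : 0 < F.x ^ 7 * F.m * F.C0 := by positivity
  have h3 : F.x ^ 7 * F.m * F.C0 ≤ 3 := by
    refine bcs_ha_le hp (by norm_num) ?_
    rw [Real.log_mul (by positivity) hC0.ne', Real.log_mul (by positivity) hm0.ne', Real.log_pow, l2]
    push_cast
    linarith
  linarith

/-- `1/M_j ≤ x^100 ≤ x ≤ w_c` -/
theorem bud_rx_num_Mj (hX : X.Ok) (hF : F.Ok X) : 1 / F.Mj ≤ F.wc X := by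
  obtain ⟨hx0, hx1, hlx, hN⟩ := bcs_ha_x hF.N2
  obtain ⟨_, _, _, _, _, _, _, hwc, hMj, _⟩ := bcs_ha_pos hX hF
  obtain ⟨l1, l2, l3, l4, l5, l6, l7⟩ := bcs_ha_logs hX hF
  refine le_trans ?_ (bud_rx_num_xwc hX hF)
  refine bcs_ha_le (by positivity) hx0 ?_
  rw [one_div, Real.log_inv]
  linarith

/-- a power of the logarithm is a subpower: `L^p ≤ (p/c)^p e^(cL)` -/
theorem bud_rx_pow_le_exp (p : ℕ) (hp : 1 ≤ p) {c L : ℝ} (hc : 0 < c) (hL : 0 ≤ L) : L ^ p ≤ (p / c) ^ p * Real.exp (c * L) := by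
  have hp0 : (0:ℝ) < p := by exact_mod_cast hp
  have h1 : c * L / p ≤ Real.exp (c * L / p) := by linarith [Real.add_one_le_exp (c * L / p)]
  have h2 : (c * L / p) ^ p ≤ Real.exp (c * L / p) ^ p := pow_le_pow_left₀ (by positivity) h1 p
  have h3 : Real.exp (c * L / p) ^ p = Real.exp (c * L) := by
    rw [← Real.exp_nat_mul]; congr 1; field_simp
  rw [h3] at h2
  have e : L ^ p = (p / c) ^ p * (c * L / p) ^ p := by
    rw [← mul_pow]; congr 1; field_simp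
  rw [e]
  exact mul_le_mul_of_nonneg_left h2 (by positivity)

/-- `w_c = o(u)`: for every `ε > 0`, `w_c ≤ ε u` at large sizes -/
theorem bud_rx_wc_le (hX : X.Ok) {ε : ℝ} (hε : 0 < ε) : ∃ N0 : ℕ, ∀ F : BdFr, F.Ok X → N0 ≤ F.N → F.wc X ≤ ε * F.u := by
  obtain ⟨N0, h0⟩ := bcs_ha_all X hX (|Real.log X.CU| - Real.log (ε / 2))
  refine ⟨N0, fun F hF hN => ?_⟩
  obtain ⟨hR, h1, hz⟩ := h0 F hN
  obtain ⟨b1, b2, b3, b4, b5, b6, b7⟩ := bcs_ha_base hX hF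
  obtain ⟨p1, p2, p3, p4, p5, p6, p7⟩ := bcs_ha_prod hX hF h1
  obtain ⟨hx0, hl0, hu0, hm0, hL0, hC0, hvs, hwc, hMj, hBf⟩ := bcs_ha_pos hX hF
  obtain ⟨l1, l2, l3, l4, l5, l6, l7⟩ := bcs_ha_logs hX hF
  have hXr := BdFr.bds_Xr_pos hF hX
  have eXr : Real.log F.Xr = Real.log F.x - Real.log F.u := by unfold BdFr.Xr; rw [Real.log_div hx0.ne' hu0.ne']
  have q1 := Real.rpow_pos_of_pos hx0 (-(10 * X.zeta))
  have q2 := Real.rpow_pos_of_pos hL0 (-(1 / 6) : ℝ)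
  have q3 := Real.rpow_pos_of_pos hXr (3 / 4 : ℝ)
  have q4 := Real.rpow_pos_of_pos hl0 (0.12 : ℝ)
  have hCU := le_abs_self (Real.log X.CU)
  have hCU0 := abs_nonneg (Real.log X.CU)
  have hzL : 0 < X.zeta * (-Real.log F.x) := mul_pos hX.zeta_pos (by linarith)
  have A1 : F.x ^ (-(10 * X.zeta)) * (F.Xr * F.Lam ^ (-(1 / 6) : ℝ)) ≤ ε / 2 := by
    refine bcs_ha_le (by positivity) (by positivity) ?_
    rw [Real.log_mul q1.ne' (by positivity), Real.log_mul hXr.ne' q2.ne', Real.log_rpow hx0, Real.log_rpow hL0, l1, eXr]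
    linarith
  have A2 : F.x ^ (-(10 * X.zeta)) * (F.Xr ^ (3 / 4 : ℝ) * F.lam ^ (0.12 : ℝ)) ≤ ε / 2 := by
    refine bcs_ha_le (by positivity) (by positivity) ?_
    rw [Real.log_mul q1.ne' (by positivity), Real.log_mul q3.ne' q4.ne', Real.log_rpow hx0, Real.log_rpow hXr, Real.log_rpow hl0, eXr]
    linarith
  unfold BdFr.wc BdFr.yc
  refine mul_le_mul_of_nonneg_right ?_ hu0.le
  rw [mul_add]
  linarith

/-- **the polynomial divergence of `m C(v) k(v) v⁴`** (l.258-261), with the room `x^ζ` and a polylogarithm.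
Proof (logs, toolkit `bcs_ha_*` of Bud/Star): (i) `m^(2δ) v_* ≤ w_c ≤ z`, so `k(3z) ≥ m^δ v_*²/(16 z²)`; (ii) `sg(3z) z² = C0 min(z², c_d³ u z/3) ≥ C0 w_c²` since `3 w_c ≤ c_d³ u`;
(iii) `m v_*² C0 w_c² = C0 w_c²/(m E²) ≥ x^(-18ζ)/(3 c_d²)`; (iv) `K³ ≤ (20 L)³ ≤ (60/ζ)³ x^(-ζ)`, `L = -log x`; (v) `48 c_d² A (60/ζ)³ ≤ x^(-15ζ)` for `N ≥ N0`. -/
theorem bud_rx_num_small (hX : X.Ok) (A : ℝ) : ∃ N0 : ℕ, ∀ F : BdFr, F.Ok X → N0 ≤ F.N → ∀ z, F.wc X ≤ z → z ≤ 1 / 4 →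
    A * (budRxK F : ℝ) ^ 3 ≤ F.m * F.k X (3 * z) * budRxSg F X (3 * z) * z ^ 4 * budRxTh F X.zeta := by
  obtain ⟨B, hB⟩ : ∃ B : ℝ, B = max A 1 * 8000 * ((3 : ℕ) / X.zeta) ^ 3 := ⟨_, rfl⟩
  have hA1 : 0 < max A 1 := lt_of_lt_of_le one_pos (le_max_right _ _)
  have hζ := hX.zeta_pos
  have hcd := hX.cd_pos
  have hB0 : 0 < B := by rw [hB]; positivity
  obtain ⟨N1, h1⟩ := bcs_ha_all X hX (|Real.log 2 - Real.log X.cd + Real.log X.CU|
    + |Real.log 3 + Real.log 16 + 2 * Real.log X.cd + Real.log B|)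
  obtain ⟨N2, h2⟩ := bud_rx_wc_le hX (ε := X.cd ^ 3 / 3) (by positivity)
  refine ⟨max N1 N2, fun F hF hN z hz1 hz2 => ?_⟩
  obtain ⟨hR, hL1, hz⟩ := h1 F ((le_max_left _ _).trans hN)
  have hwu := h2 F hF ((le_max_right _ _).trans hN)
  obtain ⟨b1, b2, b3, b4, b5, b6, b7⟩ := bcs_ha_base hX hF
  obtain ⟨p1, p2, p3, p4, p5, p6, p7⟩ := bcs_ha_prod hX hF hL1
  obtain ⟨hx0, hl0, hu0, hm0, hL0, hC0, hvs, hwc, hMj, hBf⟩ := bcs_ha_pos hX hF
  obtain ⟨l1, l2, l3, l4, l5, l6, l7⟩ := bcs_ha_logs hX hF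
  have r1 := le_abs_self (Real.log 2 - Real.log X.cd + Real.log X.CU)
  have r2 := le_abs_self (Real.log 3 + Real.log 16 + 2 * Real.log X.cd + Real.log B)
  have r1' := abs_nonneg (Real.log 2 - Real.log X.cd + Real.log X.CU)
  have r2' := abs_nonneg (Real.log 3 + Real.log 16 + 2 * Real.log X.cd + Real.log B)
  have hz0 : 0 < z := lt_of_lt_of_le hwc hz1
  have q1 := Real.rpow_pos_of_pos hm0 X.dPEexp
  have q2 := Real.rpow_pos_of_pos hm0 (2 * X.dPEexp)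
  have q3 := Real.rpow_pos_of_pos hx0 X.zeta
  -- (i)
  have hδ : (F.m : ℝ) ^ (2 * X.dPEexp) * F.vs X ≤ F.wc X := by
    refine bcs_ha_le (by positivity) hwc ?_
    rw [Real.log_mul q2.ne' hvs.ne', Real.log_rpow hm0, l3]
    linarith
  have ek : F.k X (3 * z) = (F.m : ℝ) ^ X.dPEexp * F.vs X ^ 2 / (3 * z + (F.m : ℝ) ^ (2 * X.dPEexp) * F.vs X) ^ 2 := rfl
  have hk : (F.m : ℝ) ^ X.dPEexp * F.vs X ^ 2 / 16 ≤ F.k X (3 * z) * z ^ 2 := by
    rw [ek, div_mul_eq_mul_div, div_le_div_iff₀ (by norm_num) (by positivity)]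
    have h3 : (3 * z + (F.m : ℝ) ^ (2 * X.dPEexp) * F.vs X) ^ 2 ≤ (4 * z) ^ 2 :=
      pow_le_pow_left₀ (by positivity) (by linarith) 2
    have h4 : 0 < (F.m : ℝ) ^ X.dPEexp * F.vs X ^ 2 := by positivity
    calc (F.m : ℝ) ^ X.dPEexp * F.vs X ^ 2 * (3 * z + (F.m : ℝ) ^ (2 * X.dPEexp) * F.vs X) ^ 2
        ≤ (F.m : ℝ) ^ X.dPEexp * F.vs X ^ 2 * (4 * z) ^ 2 := mul_le_mul_of_nonneg_left h3 h4.le
      _ = (F.m : ℝ) ^ X.dPEexp * F.vs X ^ 2 * z ^ 2 * 16 := by ring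
  -- (ii)
  have hsg : F.C0 * F.wc X ^ 2 ≤ budRxSg F X (3 * z) * z ^ 2 := by
    unfold budRxSg
    rw [mul_assoc]
    refine mul_le_mul_of_nonneg_left ?_ hC0.le
    rcases le_total 1 (X.cd ^ 3 * F.u / (3 * z)) with h | h
    · rw [min_eq_left h, one_mul]
      exact pow_le_pow_left₀ hwc.le hz1 2
    · rw [min_eq_right h]
      have e : X.cd ^ 3 * F.u / (3 * z) * z ^ 2 = X.cd ^ 3 / 3 * F.u * z := by field_simp
      rw [e, sq]
      exact mul_le_mul hwu hz1 hwc.le (by positivity)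
  -- the left side
  have hK := bud_rx_num_K_le hF hL1
  have hK0 : (0 : ℝ) ≤ budRxK F := Nat.cast_nonneg _
  have hK3 : (budRxK F : ℝ) ^ 3 ≤ 8000 * (((3 : ℕ) / X.zeta) ^ 3 * Real.exp (X.zeta * (-Real.log F.x))) := by
    have h3 := bud_rx_pow_le_exp 3 (by norm_num) hζ (L := -Real.log F.x) (by linarith)
    calc (budRxK F : ℝ) ^ 3 ≤ (20 * (-Real.log F.x)) ^ 3 := pow_le_pow_left₀ hK0 hK 3
      _ = 8000 * (-Real.log F.x) ^ 3 := by ring
      _ ≤ _ := mul_le_mul_of_nonneg_left h3 (by norm_num)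
  have hl : A * (budRxK F : ℝ) ^ 3 ≤ B * Real.exp (X.zeta * (-Real.log F.x)) := by
    calc A * (budRxK F : ℝ) ^ 3 ≤ max A 1 * (budRxK F : ℝ) ^ 3 := mul_le_mul_of_nonneg_right (le_max_left _ _) (by positivity)
      _ ≤ max A 1 * (8000 * (((3 : ℕ) / X.zeta) ^ 3 * Real.exp (X.zeta * (-Real.log F.x)))) := mul_le_mul_of_nonneg_left hK3 hA1.le
      _ = B * Real.exp (X.zeta * (-Real.log F.x)) := by rw [hB]; ring
  -- the right side
  have hr : F.m * ((F.m : ℝ) ^ X.dPEexp * F.vs X ^ 2 / 16) * (F.C0 * F.wc X ^ 2) * F.x ^ X.zeta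
      ≤ F.m * F.k X (3 * z) * budRxSg F X (3 * z) * z ^ 4 * budRxTh F X.zeta := by
    have e : F.m * F.k X (3 * z) * budRxSg F X (3 * z) * z ^ 4 * budRxTh F X.zeta
        = F.m * (F.k X (3 * z) * z ^ 2) * (budRxSg F X (3 * z) * z ^ 2) * F.x ^ X.zeta := by
      unfold budRxTh; ring
    rw [e]
    refine mul_le_mul_of_nonneg_right ?_ q3.le
    refine mul_le_mul (mul_le_mul_of_nonneg_left hk hm0.le) hsg (by positivity) ?_
    exact mul_nonneg hm0.le (le_trans (by positivity) hk)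
  refine hl.trans (le_trans ?_ hr)
  refine bcs_ha_le (by positivity) (by positivity) ?_
  rw [Real.log_mul hB0.ne' (Real.exp_pos _).ne', Real.log_exp, Real.log_mul (by positivity) q3.ne',
    Real.log_mul (by positivity) (by positivity), Real.log_mul hm0.ne' (by positivity), Real.log_div (by positivity) (by norm_num),
    Real.log_mul q1.ne' (by positivity), Real.log_mul hC0.ne' (by positivity), Real.log_rpow hm0, Real.log_rpow hx0,
    Real.log_pow, Real.log_pow, l2, l3]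
  push_cast
  linarith

/-- **the margin of the two-leaf bound**: `m w'⁴ C sg(2Cw') ≥ m C0 w_c⁴ ≥ x^(-40ζ) λ^(-s_*+0.01)/(2 C_U²)` (for `2C w_c ≤ c_d³u`; `w' ↦ w'³ · w' sg(2Cw')` is nondecreasing: `bud_rx_tsg_mono`). -/
theorem bud_rx_num_marg (hX : X.Ok) (C A : ℝ) (hC : 1 ≤ C) : ∃ N0 : ℕ, ∀ F : BdFr, F.Ok X → N0 ≤ F.N → ∀ w', F.wc X ≤ w' → w' ≤ 1 →
    ((budRxK F : ℝ) + 2) ^ 4 * A ≤ F.m * w' ^ 3 * budRxT5 F X C w' := by
  obtain ⟨B, hB⟩ : ∃ B : ℝ, B = max A 1 * 22 ^ 4 * ((4 : ℕ) / X.zeta) ^ 4 := ⟨_, rfl⟩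
  have hA1 : 0 < max A 1 := lt_of_lt_of_le one_pos (le_max_right _ _)
  have hζ := hX.zeta_pos
  have hcd := hX.cd_pos
  have hC0' : 0 < C := by linarith
  have hB0 : 0 < B := by rw [hB]; positivity
  obtain ⟨N1, h1⟩ := bcs_ha_all X hX (|Real.log 2 + 2 * Real.log X.CU + Real.log B|)
  obtain ⟨N2, h2⟩ := bud_rx_wc_le hX (ε := X.cd ^ 3 / (2 * C)) (by positivity)
  refine ⟨max N1 N2, fun F hF hN w' hw1 hw2 => ?_⟩
  obtain ⟨hR, hL1, hz⟩ := h1 F ((le_max_left _ _).trans hN)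
  have hwu := h2 F hF ((le_max_right _ _).trans hN)
  obtain ⟨b1, b2, b3, b4, b5, b6, b7⟩ := bcs_ha_base hX hF
  obtain ⟨p1, p2, p3, p4, p5, p6, p7⟩ := bcs_ha_prod hX hF hL1
  obtain ⟨hx0, hl0, hu0, hm0, hL0, hC0, hvs, hwc, hMj, hBf⟩ := bcs_ha_pos hX hF
  obtain ⟨l1, l2, l3, l4, l5, l6, l7⟩ := bcs_ha_logs hX hF
  have r1 := le_abs_self (Real.log 2 + 2 * Real.log X.CU + Real.log B)
  have hw0 : 0 < w' := lt_of_lt_of_le hwc hw1
  -- the left side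
  have hK := bud_rx_num_K_le hF hL1
  have hK0 : (0 : ℝ) ≤ budRxK F := Nat.cast_nonneg _
  have hK4 : ((budRxK F : ℝ) + 2) ^ 4 ≤ 22 ^ 4 * (((4 : ℕ) / X.zeta) ^ 4 * Real.exp (X.zeta * (-Real.log F.x))) := by
    have h3 := bud_rx_pow_le_exp 4 (by norm_num) hζ (L := -Real.log F.x) (by linarith)
    calc ((budRxK F : ℝ) + 2) ^ 4 ≤ (22 * (-Real.log F.x)) ^ 4 := pow_le_pow_left₀ (by linarith) (by linarith) 4
      _ = 22 ^ 4 * (-Real.log F.x) ^ 4 := by ring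
      _ ≤ _ := mul_le_mul_of_nonneg_left h3 (by norm_num)
  have hl : ((budRxK F : ℝ) + 2) ^ 4 * A ≤ B * Real.exp (X.zeta * (-Real.log F.x)) := by
    calc ((budRxK F : ℝ) + 2) ^ 4 * A ≤ ((budRxK F : ℝ) + 2) ^ 4 * max A 1 := mul_le_mul_of_nonneg_left (le_max_left _ _) (by positivity)
      _ ≤ (22 ^ 4 * (((4 : ℕ) / X.zeta) ^ 4 * Real.exp (X.zeta * (-Real.log F.x)))) * max A 1 := mul_le_mul_of_nonneg_right hK4 hA1.le
      _ = B * Real.exp (X.zeta * (-Real.log F.x)) := by rw [hB]; ring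
  -- the right side
  have hmono := bud_rx_tsg_mono hX hF (s := 2 * C * F.wc X) (t := 2 * C * w') (by positivity)
    (mul_le_mul_of_nonneg_left hw1 (by positivity))
  have hsg : budRxSg F X (2 * C * F.wc X) = F.C0 := by
    unfold budRxSg
    rw [min_eq_left, mul_one]
    rw [le_div_iff₀ (by positivity), one_mul]
    calc 2 * C * F.wc X ≤ 2 * C * (X.cd ^ 3 / (2 * C) * F.u) := mul_le_mul_of_nonneg_left hwu (by positivity)
      _ = X.cd ^ 3 * F.u := by field_simp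
  rw [hsg] at hmono
  have hT : F.wc X * F.C0 ≤ budRxT5 F X C w' := by
    unfold budRxT5
    have h5 : F.wc X * F.C0 ≤ C * (F.wc X * F.C0) := le_mul_of_one_le_left (mul_pos hwc hC0).le hC
    linarith
  have hr : F.m * F.wc X ^ 3 * (F.wc X * F.C0) ≤ F.m * w' ^ 3 * budRxT5 F X C w' :=
    mul_le_mul (mul_le_mul_of_nonneg_left (pow_le_pow_left₀ hwc.le hw1 3) hm0.le) hT (by positivity) (by positivity)
  refine hl.trans (le_trans ?_ hr)
  refine bcs_ha_le (by positivity) (by positivity) ?_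
  rw [Real.log_mul hB0.ne' (Real.exp_pos _).ne', Real.log_exp, Real.log_mul (by positivity) (by positivity),
    Real.log_mul hm0.ne' (by positivity), Real.log_mul hwc.ne' hC0.ne', Real.log_pow, l2]
  push_cast
  linarith

/-- PRODUCER of `BudRxNum` -/
theorem bud_rx_num (hX : X.Ok) (C A : ℝ) (hC : 1 ≤ C) : ∃ N0 : ℕ, ∀ F : BdFr, F.Ok X → N0 ≤ F.N → BudRxNum F X C A := by
  obtain ⟨N1, h1⟩ := bud_rx_num_small hX A
  obtain ⟨N2, h2⟩ := bud_rx_num_marg hX C A hC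
  obtain ⟨N3, h3⟩ := bcs_num_floor X hX
  obtain ⟨N4, h4⟩ := bcs_num_small (6 * X.zeta) (1 / 8) (by have := hX.zeta_pos; positivity) (by norm_num)
  obtain ⟨N5, h5⟩ := bcs_num_small (9 / 10 * X.pS) (1 / (16 * C)) (by have := hX.pS_pos; positivity) (by positivity)
  refine ⟨max N1 (max N2 (max N3 (max N4 N5))), fun F hF hN => ?_⟩
  have n1 : N1 ≤ F.N := (le_max_left _ _).trans hN
  have n2 : N2 ≤ F.N := ((le_max_left _ _).trans (le_max_right _ _)).trans hN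
  have n3 : N3 ≤ F.N := ((le_max_left _ _).trans ((le_max_right _ _).trans (le_max_right _ _))).trans hN
  have n4 : N4 ≤ F.N := ((le_max_left _ _).trans ((le_max_right _ _).trans ((le_max_right _ _).trans (le_max_right _ _)))).trans hN
  have n5 : N5 ≤ F.N := ((le_max_right _ _).trans ((le_max_right _ _).trans ((le_max_right _ _).trans (le_max_right _ _)))).trans hN
  obtain ⟨hx0, hx1, _, _⟩ := bcs_ha_x hF.N2
  have hwc : 0 < F.wc X := (bcs_ha_pos hX hF).2.2.2.2.2.2.2.1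
  refine ⟨hx0, hx1, bud_rx_num_xwc hX hF, bud_rx_num_K hF, bud_rx_num_eta hX hF, ?_, ?_, bud_rx_num_Mj hX hF, h1 F hF n1, h2 F hF n2⟩
  · refine (bud_gb_kap_le hX hF).trans (le_trans ?_ (h5 F n5))
    calc F.lam ^ (9 / 10 : ℝ) ≤ (F.x ^ X.pS) ^ (9 / 10 : ℝ) :=
          Real.rpow_le_rpow (BdFr.bds_lam_pos hF).le hF.lam_hi (by norm_num)
      _ = F.x ^ (9 / 10 * X.pS) := by rw [← Real.rpow_mul hx0.le, mul_comm]
  · refine (h3 F hF n3 _ le_rfl).trans ?_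
    have := h4 F n4
    nlinarith

/-! ## 4. `S = O(v + w)` -/

theorem bud_rx_kbar_int (hX : X.Ok) (hF : F.Ok X) {s t : ℝ} (hs : 0 ≤ s) (hst : s ≤ t) :
    ∫ r in s..t, F.kbar X r ≤ (F.m : ℝ) ^ (-X.dPEexp) * F.vs X + F.kap * (t - s) := by
  have hN := bud_gb_N_pos hF
  have hu := bud_gb_us_pos hX hF
  have ik : IntervalIntegrable (F.k X) volume s t := by
    apply ContinuousOn.intervalIntegrable
    rw [uIcc_of_le hst]
    exact (bud_gb_k_cont (F.call X) hN hu).mono fun r hr => mem_Ici.2 (hs.trans hr.1)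
  have mi : Measurable fun r : ℝ => if r ∈ Icc (F.Ilo * F.u) (F.Ihi * F.u) then F.kap else 0 :=
    Measurable.ite measurableSet_Icc measurable_const measurable_const
  have ii : IntervalIntegrable (fun r : ℝ => if r ∈ Icc (F.Ilo * F.u) (F.Ihi * F.u) then F.kap else 0) volume s t := by
    refine (intervalIntegrable_const (c := F.kap)).mono_fun mi.aestronglyMeasurable (Eventually.of_forall fun r => ?_)
    show ‖if r ∈ Icc (F.Ilo * F.u) (F.Ihi * F.u) then F.kap else 0‖ ≤ ‖F.kap‖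
    split_ifs
    · exact le_rfl
    · simp
  have e : ∫ r in s..t, F.kbar X r = (∫ r in s..t, F.k X r) + ∫ r in s..t, (if r ∈ Icc (F.Ilo * F.u) (F.Ihi * F.u) then F.kap else 0) := by
    unfold BdFr.kbar
    exact intervalIntegral.integral_add ik ii
  have h2 : ∫ r in s..t, (if r ∈ Icc (F.Ilo * F.u) (F.Ihi * F.u) then F.kap else 0) ≤ ∫ _r in s..t, F.kap := by
    refine intervalIntegral.integral_mono_on hst ii intervalIntegrable_const fun r _ => ?_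
    split_ifs
    · exact le_rfl
    · exact hF.kap0
  rw [intervalIntegral.integral_const, smul_eq_mul] at h2
  rw [e]
  linarith [bcs_floor_int X hX F hF hs hst]

/-- **`S_v ≤ (4C+4)(v+w)`** (l.262: look ahead to a nonfloor point).
Proof: `v1 = max v (2w)`.   If `1 < 2 v1`: `v + w > 1/4`, `S ≤ 1` (`PSys.S_sq_le`, `B_le`, as in `bcs_stat`).   Otherwise `s = r(v) < t = r(2 v1) ≤ 2C v1` (`bud_rx_r_strict`, `h.reg`), floor mass
`∫_s^t kb = ∫ kbar ≤ ∫ k + kap (t-s) ≤ m^(-δ)v_* + kap t ≤ w_c/8 + v1/8 < v1 ≤ 2 v1 - v = α(t) - α(s)` (`bud_gb_int_Kb`, `bcs_floor_int`, `hN.fl`, `hN.kap`, `bud_n4_al`, `Q.al_r`);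
`BudGeo.S_le_of_band h.geo`: `S(r v) ≤ t + 1/M_j ≤ 2C v1 + w` (`hN.Mj`), `bud_n4_S` (`bcs_hc_r_pos`), `(budGeoQ ..).kb = budKb F X`, `.M = F.Mj` by `rfl`. -/
theorem bud_rx_S (hX : X.Ok) (hC : 1 ≤ C) {A : ℝ} (hN : BudRxNum F X C A) (h : BudRxH X W F g Q w c C c0) {v : ℝ} (hv : v ∈ Ioo (0 : ℝ) 1) :
    Q.Sq W g v ≤ (4 * C + 4) * (v + w) := by
  have hw0 := bud_rx_w_pos hX h
  have ha := h.base.a1
  have hv' : v ∈ Ioo 0 (W.ps F.m).a := by rw [ha]; exact hv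
  have s1 : Q.Sq W g v ^ 2 ≤ Q.Bq W g v := (W.ps F.m).S_sq_le _ _ (ha ▸ h.clkb) (ha ▸ h.clkh) v hv'
  have s2 : Q.Bq W g v ≤ 1 := (W.ps F.m).B_le _ _ (ha ▸ h.clkb) (ha ▸ h.clkh) v hv'
  have s3 : Q.Sq W g v ≤ 1 := by nlinarith
  have hm1 : v ≤ max v (2 * w) := le_max_left _ _
  have hm2 : 2 * w ≤ max v (2 * w) := le_max_right _ _
  have hm3 : max v (2 * w) ≤ v + 2 * w := max_le (by linarith) (by linarith [hv.1])
  generalize max v (2 * w) = v1 at hm1 hm2 hm3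
  rcases lt_or_ge 1 (2 * v1) with hc | hc
  · nlinarith [hv.1]
  have hr1 := bud_rx_r_strict hX h.ok Q hv.1.le (show v < 2 * v1 by linarith) hc
  have hr2 := (h.reg (2 * v1) (by linarith) hc).2
  have m1 : v ∈ Icc (0 : ℝ) 1 := Ioo_subset_Icc_self hv
  have m2 : 2 * v1 ∈ Icc (0 : ℝ) 1 := ⟨by linarith, hc⟩
  have r1 := Q.r_mem v m1
  have r2 := Q.r_mem (2 * v1) m2
  have hk := bud_rx_kbar_int hX h.ok r1.1 hr1.le
  have hkap : F.kap * (Q.r (2 * v1) - Q.r v) ≤ v1 / 8 := by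
    have q1 : Q.r (2 * v1) - Q.r v ≤ C * (2 * v1) := by linarith [r1.1]
    calc F.kap * (Q.r (2 * v1) - Q.r v) ≤ 1 / (16 * C) * (C * (2 * v1)) :=
          mul_le_mul hN.kap q1 (by linarith) (by positivity)
      _ = v1 / 8 := by field_simp; ring
  have hband : (∫ r in (Q.r v)..(Q.r (2 * v1)), (budGeoQ Q W g c0).kb r) < (budGeoQ Q W g c0).al (Q.r (2 * v1)) - (budGeoQ Q W g c0).al (Q.r v) := by
    rw [bud_n4_al X hX F h.ok Q W g c0 r2, bud_n4_al X hX F h.ok Q W g c0 r1, Q.al_r _ m1, Q.al_r _ m2]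
    have e : (∫ r in (Q.r v)..(Q.r (2 * v1)), (budGeoQ Q W g c0).kb r) = ∫ r in (Q.r v)..(Q.r (2 * v1)), F.kbar X r :=
      bud_gb_int_Kb F X r1.1 hr1.le r2.2
    rw [e]
    linarith [hN.fl, h.w_lo]
  have hS := BudGeo.S_le_of_band h.geo r1.1 hr1 r2.2 hband
  rw [bud_n4_S X hX F h.ok Q W g c0 h.base (bcs_hc_r_pos Q hv), Q.al_r _ m1] at hS
  have hM : 1 / (budGeoQ Q W g c0).M ≤ w := hN.Mj.trans h.w_lo
  nlinarith [hv.1]

theorem bud_rx_adm (h : BudRxH X W F g Q w c C c0) : CkAdm 1 (Q.bE g) (Q.hE g) := by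
  unfold BdQ.bE BdQ.hE
  rw [bw_ext_eq]
  exact ⟨psi_ext_clk one_pos h.clkb, psi_ext_clk one_pos h.clkh⟩

theorem bud_rx_m_pos (hF : F.Ok X) : 0 < F.m := by
  have := bud_gb_m_ge hF
  exact_mod_cast lt_of_lt_of_le one_pos this

theorem bud_rx_S_le_one {n : ℕ} {Ω : Type} [MeasurableSpace Ω] {M : CmPath n Ω} (hM : M.Ok) (j : ℕ) : M.S j ≤ 1 := by
  have := hM.prob
  unfold CmPath.S
  calc ∫ ω, ‖M.X j ω‖ ^ 2 ∂M.P ≤ ∫ _ω, (1 : ℝ) ∂M.P := by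
        refine integral_mono_of_nonneg (Filter.Eventually.of_forall fun ω => by positivity) (integrable_const _)
          (Filter.Eventually.of_forall fun ω => pow_le_one₀ (norm_nonneg _) (hM.norm_le _ _))
    _ = 1 := by simp

theorem bud_rx_S_node (hX : X.Ok) (hW : W.IsHub) (hC : 1 ≤ C) {A : ℝ} (hN : BudRxNum F X C A) (h : BudRxH X W F g Q w c C c0)
    (hc : CkmCh ps)
    (hcl : ∀ j, 1 ≤ j → j ≤ ps.length → |(Q.rxM g ps).S j - skCS F.m 1 (Q.bE g) (Q.hE g) (ckmPos ps j)| ≤ w)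
    {j : ℕ} (hj1 : 1 ≤ j) (hj : j ≤ ps.length) (hlt : w + (Q.rxM g ps).mass j < 1) :
    (Q.rxM g ps).S j ≤ (4 * C + 4) * ((Q.rxM g ps).mass j + 2 * w) + w := by
  have hw0 := bud_rx_w_pos hX h
  have hm0 : 0 ≤ (Q.rxM g ps).mass j := ckm_mass_nonneg _ _ _ hc j
  have em : (Q.rxM g ps).mass j = (ckmPos ps j).u := by
    unfold BdQ.rxM
    rw [ckm_mass, if_neg (by omega)]
  have hm1 : (Q.rxM g ps).mass j ≤ max ((Q.rxM g ps).mass j) w := le_max_left _ _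
  have hm2 : w ≤ max ((Q.rxM g ps).mass j) w := le_max_right _ _
  have hm3 : max ((Q.rxM g ps).mass j) w ≤ (Q.rxM g ps).mass j + w := max_le (by linarith) (by linarith)
  generalize max ((Q.rxM g ps).mass j) w = v' at hm1 hm2 hm3
  have hv' : v' ∈ Ioo (0 : ℝ) 1 := ⟨by linarith, by linarith⟩
  have hle : ckmPos ps j ≤ ghPosA v' := by
    rw [gh_os_pos_le_iff]
    have h1 : (ghPosA v').u = v' := by simp [ghPosA, GhPos.u]
    have h2 : (ghPosA v').lam = 1 := by simp [ghPosA, GhPos.lam]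
    rw [h1, h2, ← em]
    rcases hm1.lt_or_eq with h' | h'
    · exact Or.inl h'
    · exact Or.inr ⟨h', (ckm_pos_ok hc j).2.2.2⟩
  have h1 := (exit_clk_SB (bud_rx_m_pos h.ok) one_pos (bud_rx_adm h) (ckm_pos_ok hc j) (gh_os_posA_ok hv'.1.le hv'.2.le) hle).2.1
  have e1 : Q.Sq W g v' = skCS F.m 1 (Q.bE g) (Q.hE g) (ghPosA v') := hW.S F.m (bud_rx_m_pos h.ok) _ _ h.clkb h.clkh v' hv'
  have h2 := bud_rx_S hX hC hN h hv'
  have h3 := (abs_le.1 (hcl j hj1 hj)).2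
  have h4 : (4 * C + 4) * (v' + w) ≤ (4 * C + 4) * ((Q.rxM g ps).mass j + 2 * w) :=
    mul_le_mul_of_nonneg_left (by linarith) (by linarith)
  linarith

/-- **the chain form**: `S_j ≤ (16C+18)(w + mass j)` at every node of a fine chain.
Proof: `w + mass j ≥ 1`: `bud_rx_S_le_one`.   Otherwise `j ≤ L`.   `1 ≤ j`: `v' = max (mass j) w ∈ (0,1)`, `S_j ≤ skCS (ckmPos ps j) + w` (`hcl`), `ckmPos ps j ≤ ghPosA v'` (`gh_os_pos_le_iff`, `ckm_mass`, `ckm_pos_ok`),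
`exit_clk_SB` (monotone), `hW.S` (`= Q.Sq W g v'`), `bud_rx_S`: `≤ (4C+4)(mass j + 2w) + w`.   `j = 0`: `CmPath.S_mono`, node `1` (`mass 1 ≤ w < 1`, so `1 ≤ L`). -/
theorem bud_rx_S_chain (hX : X.Ok) (hW : W.IsHub) (hC : 1 ≤ C) {A : ℝ} (hN : BudRxNum F X C A) (h : BudRxH X W F g Q w c C c0)
    (hc : CkmCh ps) (hM : (Q.rxM g ps).Ok) (hmesh : ∀ j, (Q.rxM g ps).mass (j + 1) - (Q.rxM g ps).mass j ≤ w)
    (hcl : ∀ j, 1 ≤ j → j ≤ ps.length → |(Q.rxM g ps).S j - skCS F.m 1 (Q.bE g) (Q.hE g) (ckmPos ps j)| ≤ w)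
    {j : ℕ} (hj : j ≤ (Q.rxM g ps).L + 1) : (Q.rxM g ps).S j ≤ (16 * C + 18) * (w + (Q.rxM g ps).mass j) := by
  have hw0 := bud_rx_w_pos hX h
  have hm0 : ∀ i, 0 ≤ (Q.rxM g ps).mass i := fun i => ckm_mass_nonneg _ _ _ hc i
  have hS1 := bud_rx_S_le_one hM j
  have hlen : ∀ i, (Q.rxM g ps).mass i < 1 → i ≤ ps.length := fun i hi => by
    by_contra hcon
    have : (Q.rxM g ps).mass i = 1 := ckm_mass_top _ _ _ (by omega)
    linarith
  rcases le_or_gt 1 (w + (Q.rxM g ps).mass j) with h1 | h1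
  · nlinarith
  rcases Nat.eq_zero_or_pos j with rfl | hj1
  · have e0 : (Q.rxM g ps).mass 0 = 0 := hM.mass_zero
    have hme := hmesh 0
    rw [zero_add, e0, sub_zero] at hme
    rw [e0, add_zero]
    rcases le_or_gt 1 (w + (Q.rxM g ps).mass 1) with h2 | h2
    · nlinarith
    have hl1 := hlen 1 (by linarith)
    have h3 := bud_rx_S_node hX hW hC hN h hc hcl le_rfl hl1 h2
    have h4 := CmPath.S_mono hM (Nat.zero_le 1) (by omega : 1 ≤ (Q.rxM g ps).L + 1)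
    nlinarith
  · have h3 := bud_rx_S_node hX hW hC hN h hc hcl hj1 (hlen j (by linarith)) h1
    nlinarith [hm0 j]

/-! ## 5. The field clock of the changed path -/

theorem bud_rx_mass_mem (Q : BdQ F X) (g : ℝ) (hc : CkmCh ps) (j : ℕ) : (Q.rxM g ps).mass j ∈ Icc (0 : ℝ) 1 :=
  ⟨ckm_mass_nonneg _ _ _ hc j, ckm_mass_le_one _ _ _ hc j⟩

/-- the radius labelling -/
theorem bud_rx_rad (hX : X.Ok) (hF : F.Ok X) (Q : BdQ F X) (g : ℝ) (hc : CkmCh ps) : BudRwRad (Q.rxM g ps) (Q.rxRad g ps) where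
  mono := fun i j hij => (bcs_hc_r hX hF Q).1 (bud_rx_mass_mem Q g hc i) (bud_rx_mass_mem Q g hc j) (ckm_mass_mono _ _ _ hc hij)
  zero := by
    unfold BdQ.rxRad BdQ.rxM
    rw [ckm_mass, if_pos rfl, bud_rx_r_zero]
  top := by
    unfold BdQ.rxRad BdQ.rxM
    rw [ckm_mass_top _ _ _ (by rw [ckm_L]; omega), bud_rx_r_one]

/-- the changed field clock has the lower slope `φ ∘ r` (the bare field clock is nondecreasing) -/
theorem bud_rx_hE_slope (h : BudRxH X W F g Q w c C c0) {s t : ℝ} (hs : 0 < s) (hst : s ≤ t) (ht : t < 1) :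
    budRxPhi F X (Q.r t) - budRxPhi F X (Q.r s) ≤ Q.hE g t - Q.hE g s := by
  have e : ∀ v ∈ Ioo (0 : ℝ) 1, Q.hE g v = F.h g v + budRxPhi F X (Q.r v) := fun v hv => by
    unfold BdQ.hE
    rw [bw_ext_eq, psi_ext_of_mem _ hv]
    unfold BdQ.hq budRxPhi
    ring
  rw [e t ⟨by linarith, ht⟩, e s ⟨hs, by linarith⟩]
  have := h.base.hh.mono (show s ∈ Ioo (0 : ℝ) 1 from ⟨hs, by linarith⟩) (show t ∈ Ioo (0 : ℝ) 1 from ⟨by linarith, ht⟩) hst
  linarith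

/-- **lower slope of `hck` between nodes, in the radius** -/
theorem bud_rx_slope (hX : X.Ok) (h : BudRxH X W F g Q w c C c0) (hc : CkmCh ps) {i j : ℕ} (hij : i ≤ j) (hj : j ≤ ps.length) :
    budRxPhi F X (Q.rxRad g ps j) - budRxPhi F X (Q.rxRad g ps i) ≤ (Q.rxM g ps).hck j - (Q.rxM g ps).hck i :=
  ckm_hck_slope (φ := fun v => budRxPhi F X (Q.r v)) F.m (Q.bE g) (bud_rx_adm h).2
    ((bud_rx_phi_cont F X).comp_continuousOn (bcs_hc_r hX h.ok Q).2) (fun _ _ hs hst ht => bud_rx_hE_slope h hs hst ht) hc hij hj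

theorem bud_rx_eta_pos (hF : F.Ok X) : 0 < budRxEta F := pow_pos (bcs_ha_x hF.N2).1 7

/-- **the field clock of the radius layers** (`BudRwSusH.clk`).
Proof: `M' = M.re rad` is `Ok` (`CmPath.re_ok hM (bud_rx_rad ..)`).   `a = M'.nd (thr k)`, `b = M'.nd (thr (k-1))`, `b ≤ a ≤ L` (`nd_mono`, `nd_le`), `rad b ≤ thr (k-1)` (`mass_nd_le`),
`thr k < rad (a+1) ≤ rad a + η/4` (`lt_mass_nd_succ`, `hmesh`).   `thr k - thr (k-1) ≥ 2^k η/4` (`k = 1`: `η`; `k ≥ 2`: `2^(k-2) η`), `η/4 ≤ 2^k η/8`: `rad a - rad b ≥ 2^k η/8`.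
`bud_rx_slope`, `bud_rx_phi_slope`: `hck a - hck b ≥ sg(rad a)(rad a - rad b)`; `rad a ≤ thr k ≤ min 1 (2z + 2^k η) = budRwZ η (2z) k`, `bud_rx_sg_anti`. -/
theorem bud_rx_clk (hX : X.Ok) (h : BudRxH X W F g Q w c C c0) (hc : CkmCh ps) (hM : (Q.rxM g ps).Ok)
    (hmesh : ∀ j, Q.rxRad g ps (j + 1) - Q.rxRad g ps j ≤ budRxEta F / 4) {z t : ℝ} (hz : 0 < z) (h1 : z ≤ t) (h2 : t ≤ 2 * z) {k : ℕ} (hk : 1 ≤ k)
    (hthr : budRwThr (budRxEta F) t k < 1) :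
    budRxD F X z k ≤ ((Q.rxM g ps).re (Q.rxRad g ps)).H (budRwThr (budRxEta F) t k)
      - ((Q.rxM g ps).re (Q.rxRad g ps)).H (budRwThr (budRxEta F) t (k - 1)) := by
  have hF := h.ok
  have hη := bud_rx_eta_pos hF
  have hrad := bud_rx_rad hX hF Q g hc
  have hM' := CmPath.re_ok hM hrad
  obtain ⟨η, hηdef⟩ : ∃ η, η = budRxEta F := ⟨_, rfl⟩
  rw [← hηdef] at hη hmesh hthr ⊢
  obtain ⟨j, rfl⟩ : ∃ j, k = j + 1 := ⟨k - 1, by omega⟩
  have hp : (0 : ℝ) < 2 ^ j := by positivity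
  have hp1 : (1 : ℝ) ≤ 2 ^ j := one_le_pow₀ (by norm_num)
  have e1 : budRwThr η t (j + 1) = t + 2 ^ j * η := rfl
  have hsucc : (j + 1 - 1 : ℕ) = j := by omega
  rw [hsucc]
  -- the increment of the thresholds
  have hinc : 2 ^ (j + 1) * η / 4 ≤ budRwThr η t (j + 1) - budRwThr η t j ∧ t ≤ budRwThr η t j := by
    rcases j with _ | i
    · have e0 : budRwThr η t 0 = t := rfl
      rw [e1, e0]
      constructor
      · norm_num
        linarith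
      · exact le_rfl
    · have e0 : budRwThr η t (i + 1) = t + 2 ^ i * η := rfl
      rw [e1, e0]
      have hpi : (0 : ℝ) < 2 ^ i := by positivity
      constructor
      · rw [pow_succ, pow_succ]
        nlinarith
      · nlinarith
  obtain ⟨hinc, htj⟩ := hinc
  set T1 := budRwThr η t (j + 1) with hT1
  set T0 := budRwThr η t j with hT0
  have hT00 : 0 ≤ T0 := by linarith
  have hT01 : T0 ≤ T1 := by
    have : 0 ≤ 2 ^ (j + 1) * η / 4 := by positivity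
    linarith
  set M' := (Q.rxM g ps).re (Q.rxRad g ps) with hM'def
  have hba : M'.nd T0 ≤ M'.nd T1 := CmPath.nd_mono hM' hT00 hT01
  have haL : M'.nd T1 ≤ ps.length := by
    have := CmPath.nd_le M' T1
    have e : M'.L = ps.length := ckm_L F.m (Q.bE g) (Q.hE g) ps
    omega
  have hb : Q.rxRad g ps (M'.nd T0) ≤ T0 := CmPath.mass_nd_le hM' hT00
  have ha : Q.rxRad g ps (M'.nd T1) ≤ T1 := CmPath.mass_nd_le hM' (hT00.trans hT01)
  have ha1 : T1 < Q.rxRad g ps (M'.nd T1 + 1) := CmPath.lt_mass_nd_succ hM' hthr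
  have hm := hmesh (M'.nd T1)
  have hpow : 2 ^ (j + 1) * η = 2 * (2 ^ j * η) := by rw [pow_succ]; ring
  have hjη : η ≤ 2 ^ j * η := by nlinarith
  have hdiff : 2 ^ (j + 1) * η / 8 ≤ Q.rxRad g ps (M'.nd T1) - Q.rxRad g ps (M'.nd T0) := by
    rw [hpow] at hinc ⊢
    linarith
  have hb0 : 0 ≤ Q.rxRad g ps (M'.nd T0) := by
    have := hrad.mono (Nat.zero_le (M'.nd T0))
    rwa [hrad.zero] at this
  have hpos8 : 0 < 2 ^ (j + 1) * η / 8 := by positivity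
  have ha0 : 0 < Q.rxRad g ps (M'.nd T1) := by linarith
  have hsl := bud_rx_slope hX h hc hba haL
  have hps := bud_rx_phi_slope hX hF hb0 (by linarith) ha0
  have hZ : Q.rxRad g ps (M'.nd T1) ≤ budRwZ η (2 * z) (j + 1) := by
    unfold budRwZ
    refine le_min (ha.trans hthr.le) (ha.trans ?_)
    rw [e1, hpow]
    nlinarith
  have hsg := bud_rx_sg_anti hX hF ha0 hZ
  have hsg0 := (bud_rx_sg_pos hX hF (lt_of_lt_of_le ha0 hZ)).le
  show _ ≤ (Q.rxM g ps).hck (M'.nd T1) - (Q.rxM g ps).hck (M'.nd T0)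
  unfold budRxD
  rw [← hηdef]
  calc budRxSg F X (budRwZ η (2 * z) (j + 1)) * (2 ^ (j + 1) * η / 8)
      ≤ budRxSg F X (Q.rxRad g ps (M'.nd T1)) * (Q.rxRad g ps (M'.nd T1) - Q.rxRad g ps (M'.nd T0)) :=
        mul_le_mul hsg hdiff hpos8.le (hsg0.trans hsg)
    _ ≤ _ := hps.trans hsl

/-- **the field clock of the mass dyads** (`Cm5Clk.dy`).
Proof: `Γ = 4C/c ≥ 4`.   `a = nd (Γ w')`, `b = nd w'`, `b ≤ a ≤ L`, `mass b ≤ w'`, `mass a ≥ Γ w' - w ≥ (Γ - 1/2) w' ≥ 2w` (`lt_mass_nd_succ` if `Γ w' < 1`; if `Γ w' = 1`: `a = L`, `mass (L+1) = 1`; `hmesh`).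
`rad a ≥ c mass a ≥ (4C - c/2) w' ≥ 2C w'`, `rad b ≤ r(w') ≤ C w'` (`h.reg`, monotonicity).   `bud_rx_slope`, `bud_rx_phi_mono` twice, `bud_rx_phi_slope` on `[C w', 2C w']`. -/
theorem bud_rx_dy (hX : X.Ok) (hcp : 0 < c) (hc1 : c ≤ 1) (hC1 : 1 ≤ C) (h : BudRxH X W F g Q w c C c0) (hc : CkmCh ps) (hM : (Q.rxM g ps).Ok)
    (hmesh : ∀ j, (Q.rxM g ps).mass (j + 1) - (Q.rxM g ps).mass j ≤ w) {w' : ℝ} (h1 : 2 * w ≤ w') (h2 : budRxGam c C * w' ≤ 1) :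
    budRxT5 F X C w' ≤ (Q.rxM g ps).H (budRxGam c C * w') - (Q.rxM g ps).H w' := by
  have hF := h.ok
  have hw0 := bud_rx_w_pos hX h
  have hC0 : 0 < C := by linarith
  have hw'0 : 0 < w' := by linarith
  obtain ⟨Γ, hΓ⟩ : ∃ Γ, Γ = budRxGam c C := ⟨_, rfl⟩
  rw [← hΓ] at h2 ⊢
  have hΓc : Γ * c = 4 * C := by
    rw [hΓ]
    unfold budRxGam
    field_simp
  have hΓ4 : 4 ≤ Γ := by nlinarith
  have hw'1 : w' ≤ 1 := by nlinarith
  set M := Q.rxM g ps with hMdef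
  have hle : w' ≤ Γ * w' := by nlinarith
  have hba : M.nd w' ≤ M.nd (Γ * w') := CmPath.nd_mono hM hw'0.le hle
  have hL : M.L = ps.length := ckm_L F.m (Q.bE g) (Q.hE g) ps
  have haL : M.nd (Γ * w') ≤ ps.length := by
    have := CmPath.nd_le M (Γ * w')
    omega
  have hb : M.mass (M.nd w') ≤ w' := CmPath.mass_nd_le hM hw'0.le
  have ha1 : Γ * w' ≤ M.mass (M.nd (Γ * w') + 1) := by
    rcases h2.lt_or_eq with h3 | h3
    · exact (CmPath.lt_mass_nd_succ hM h3).le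
    · have e : M.nd (Γ * w') = M.L := by
        refine le_antisymm (CmPath.nd_le M _) (CmPath.le_nd hM le_rfl ?_)
        rw [h3]
        exact (CmPath.mass_mem hM (Nat.le_succ _)).2
      rw [e, hM.mass_top, h3]
  have hm := hmesh (M.nd (Γ * w'))
  have hma : (Γ - 1 / 2) * w' ≤ M.mass (M.nd (Γ * w')) := by nlinarith
  have hmam := bud_rx_mass_mem Q g hc (M.nd (Γ * w'))
  have hmbm := bud_rx_mass_mem Q g hc (M.nd w')
  have hreg_a := (h.reg _ (by nlinarith : 2 * w ≤ M.mass (M.nd (Γ * w'))) hmam.2).1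
  have hra : 2 * C * w' ≤ Q.rxRad g ps (M.nd (Γ * w')) := by
    refine le_trans ?_ hreg_a
    have : c * ((Γ - 1 / 2) * w') ≤ c * M.mass (M.nd (Γ * w')) := mul_le_mul_of_nonneg_left hma hcp.le
    refine le_trans ?_ this
    have e : c * ((Γ - 1 / 2) * w') = (Γ * c - c / 2) * w' := by ring
    rw [e, hΓc]
    nlinarith
  have hrb : Q.rxRad g ps (M.nd w') ≤ C * w' :=
    ((bcs_hc_r hX hF Q).1 hmbm ⟨hw'0.le, hw'1⟩ hb).trans (h.reg w' h1 hw'1).2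
  have hrb0 : 0 ≤ Q.rxRad g ps (M.nd w') := (Q.r_mem _ hmbm).1
  have hsl := bud_rx_slope hX h hc hba haL
  have p1 := bud_rx_phi_mono hX hF (by positivity : 0 ≤ 2 * C * w') hra
  have p2 := bud_rx_phi_mono hX hF hrb0 hrb
  have p3 := bud_rx_phi_slope hX hF (by positivity : 0 ≤ C * w') (by nlinarith : C * w' ≤ 2 * C * w') (by positivity)
  show _ ≤ M.hck (M.nd (Γ * w')) - M.hck (M.nd w')
  unfold budRxT5
  have e : C * w' * budRxSg F X (2 * C * w') = budRxSg F X (2 * C * w') * (2 * C * w' - C * w') := by ring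
  rw [e]
  linarith

/-- the floor on the cells of a chain which meet `[z,2z]` (`BudRwReg.floor`).
Proof: `ov > 0` gives `rad i < 2z` (`CmPath.ov_pos_iff`), so `rad (i+1) ≤ 2z + η/4 ≤ 3z`; `bud_rx_floor` at `s = rad i`, `t = rad (i+1)`, `Q.al_r`; `bud_gb_k_anti`. -/
theorem bud_rx_floor_cell (hX : X.Ok) (hF : F.Ok X) (Q : BdQ F X) (g : ℝ) (hc : CkmCh ps)
    (hmesh : ∀ j, Q.rxRad g ps (j + 1) - Q.rxRad g ps j ≤ budRxEta F / 4) {z : ℝ} (hz : budRxEta F ≤ z) {i : ℕ}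
    (hov : 0 < ((Q.rxM g ps).re (Q.rxRad g ps)).ov i z (2 * z)) :
    budRxKap F X z * (Q.rxRad g ps (i + 1) - Q.rxRad g ps i) ≤ (Q.rxM g ps).mass (i + 1) - (Q.rxM g ps).mass i := by
  have hη := bud_rx_eta_pos hF
  have hrad := bud_rx_rad hX hF Q g hc
  rw [CmPath.ov_pos_iff] at hov
  have h1 : Q.rxRad g ps i < 2 * z := lt_of_le_of_lt (le_max_left _ _) (lt_of_lt_of_le hov (min_le_right _ _))
  have hm := hmesh i
  have h3 : Q.rxRad g ps (i + 1) ≤ 3 * z := by linarith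
  have hm0 := bud_rx_mass_mem Q g hc i
  have hm1 := bud_rx_mass_mem Q g hc (i + 1)
  have hr0 : 0 ≤ Q.rxRad g ps i := (Q.r_mem _ hm0).1
  have hr1 := Q.r_mem _ hm1
  have hmono : Q.rxRad g ps i ≤ Q.rxRad g ps (i + 1) := hrad.mono (Nat.le_succ i)
  have hfl := bud_rx_floor hX hF Q hr0 hmono hr1.2
  have e0 : Q.al (Q.rxRad g ps i) = (Q.rxM g ps).mass i := Q.al_r _ hm0
  have e1 : Q.al (Q.rxRad g ps (i + 1)) = (Q.rxM g ps).mass (i + 1) := Q.al_r _ hm1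
  rw [e0, e1] at hfl
  refine le_trans ?_ hfl
  refine mul_le_mul_of_nonneg_right ?_ (sub_nonneg.2 hmono)
  exact bud_gb_k_anti (F.call X) (bud_gb_N_pos hF) (bud_gb_us_pos hX hF) (mem_Ici.2 hr1.1) (mem_Ici.2 (by linarith)) h3

/-! ## 6. The instances -/

/-- `BudRwReg.num1`.      Proof: `Z = budRwZ η (2z) k`, `T = budRwThr η z (k-1)`.   `Z ≤ 4T` (`k = 1`: `2z + 2η ≤ 4z`; `k ≥ 2`: `2z + 2^k η ≤ 4(z + 2^(k-2) η)`), `w ≤ z ≤ Z ≤ Z/c`, so LHS `≤ (32/c) T² min(2^k η, z)`.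
RHS `= (768/c)/sg(3z) · T² sg(Z) 2^k η/8`.   Remains `min(2^k η, z) sg(3z) ≤ 3 · 2^k η sg(Z)`: if `Z ≤ 3z`: `bud_rx_sg_anti`; if `3z < Z`: then `z < 2^k η`, `3z sg(3z) ≤ Z sg(Z) ≤ 3 · 2^k η sg(Z)` (`bud_rx_tsg_mono`). -/
theorem bud_rx_num1 (hX : X.Ok) (hF : F.Ok X) (hcp : 0 < c) (hc1 : c ≤ 1) {z : ℝ} (hw : 0 < w) (hwz : w ≤ z) (hη : budRxEta F ≤ z) (hz : z ≤ 1 / 4)
    {k : ℕ} (hk : 1 ≤ k) :
    budRwZ (budRxEta F) (2 * z) k * min (2 ^ k * budRxEta F) z * (w + 1 / c * budRwZ (budRxEta F) (2 * z) k)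
      ≤ budRxG0 F X c z * (budRwThr (budRxEta F) z (k - 1) ^ 2 * budRxD F X z k) := by
  have hη0 := bud_rx_eta_pos hF
  have hz0 : 0 < z := hw.trans_le hwz
  obtain ⟨η, hηdef⟩ : ∃ η, η = budRxEta F := ⟨_, rfl⟩
  unfold budRxD budRxG0
  rw [← hηdef] at hη hη0 ⊢
  obtain ⟨a, ha⟩ : ∃ a, a = 2 ^ k * η := ⟨_, rfl⟩
  have ha0 : 0 < a := by rw [ha]; positivity
  obtain ⟨Z, hZ⟩ : ∃ Z, Z = budRwZ η (2 * z) k := ⟨_, rfl⟩
  obtain ⟨T, hT⟩ : ∃ T, T = budRwThr η z (k - 1) := ⟨_, rfl⟩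
  rw [← ha, ← hZ, ← hT]
  have hZle : Z ≤ 2 * z + a := by rw [hZ, ha]; exact min_le_right _ _
  have hzZ : z ≤ Z := by
    rw [hZ]
    unfold budRwZ
    refine le_min (by linarith) ?_
    rw [← ha]
    linarith
  have hZ0 : 0 < Z := hz0.trans_le hzZ
  have hT0 : 0 < T ∧ Z ≤ 4 * T := by
    obtain ⟨j, rfl⟩ : ∃ j, k = j + 1 := ⟨k - 1, by omega⟩
    have hs : (j + 1 - 1 : ℕ) = j := by omega
    rw [hs] at hT
    rcases j with _ | i
    · have e0 : budRwThr η z 0 = z := rfl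
      rw [e0] at hT
      rw [hT]
      refine ⟨hz0, ?_⟩
      have : a = 2 * η := by rw [ha]; norm_num
      linarith
    · have e0 : budRwThr η z (i + 1) = z + 2 ^ i * η := rfl
      rw [e0] at hT
      have hpi : (0 : ℝ) < 2 ^ i * η := by positivity
      have : a = 4 * (2 ^ i * η) := by rw [ha, pow_succ, pow_succ]; ring
      rw [hT]
      exact ⟨by linarith, by linarith⟩
  obtain ⟨hT0, hZT⟩ := hT0
  have hsZ := bud_rx_sg_pos hX hF hZ0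
  have hs3 := bud_rx_sg_pos hX hF (t := 3 * z) (by positivity)
  obtain ⟨sZ, hsZd⟩ : ∃ s, s = budRxSg F X Z := ⟨_, rfl⟩
  obtain ⟨s3, hs3d⟩ : ∃ s, s = budRxSg F X (3 * z) := ⟨_, rfl⟩
  have key : min a z * s3 ≤ 3 * a * sZ := by
    rcases le_total Z (3 * z) with h | h
    · have h5 := bud_rx_sg_anti hX hF hZ0 h
      rw [← hsZd, ← hs3d] at h5
      rw [← hsZd] at hsZ
      rw [← hs3d] at hs3
      calc min a z * s3 ≤ a * sZ := mul_le_mul (min_le_left _ _) h5 hs3.le ha0.le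
        _ ≤ 3 * a * sZ := by nlinarith [mul_pos ha0 hsZ]
    · have h5 := bud_rx_tsg_mono hX hF (s := 3 * z) (t := Z) (by positivity) h
      rw [← hsZd, ← hs3d] at h5
      rw [← hsZd] at hsZ
      rw [← hs3d] at hs3
      have hza : z ≤ a := by linarith
      have h6 : Z * sZ ≤ 3 * a * sZ := mul_le_mul_of_nonneg_right (by linarith) hsZ.le
      calc min a z * s3 ≤ z * s3 := mul_le_mul_of_nonneg_right (min_le_right _ _) hs3.le
        _ ≤ 3 * z * s3 := by nlinarith [mul_pos hz0 hs3]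
        _ ≤ 3 * a * sZ := h5.trans h6
  rw [← hsZd, ← hs3d]
  rw [← hsZd] at hsZ
  rw [← hs3d] at hs3
  have hmin0 : 0 < min a z := lt_min ha0 hz0
  have h1c : 1 ≤ 1 / c := (one_le_div hcp).2 hc1
  have hL1 : w + 1 / c * Z ≤ 2 / c * Z := by
    have : w ≤ 1 / c * Z := by nlinarith
    have e : 2 / c * Z = 1 / c * Z + 1 / c * Z := by ring
    linarith
  have hc' : 0 < 1 / c := by positivity
  have hZZ : Z * Z ≤ 16 * T ^ 2 := by nlinarith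
  calc Z * min a z * (w + 1 / c * Z) ≤ Z * min a z * (2 / c * Z) := mul_le_mul_of_nonneg_left hL1 (by positivity)
    _ = 2 / c * min a z * (Z * Z) := by ring
    _ ≤ 2 / c * min a z * (16 * T ^ 2) := mul_le_mul_of_nonneg_left hZZ (by positivity)
    _ = 32 / c * T ^ 2 * (min a z * s3) / s3 := by field_simp; ring
    _ ≤ 32 / c * T ^ 2 * (3 * a * sZ) / s3 := by
        refine div_le_div_of_nonneg_right ?_ hs3.le
        exact mul_le_mul_of_nonneg_left key (by positivity)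
    _ = 768 / c / s3 * (T ^ 2 * (sZ * (a / 8))) := by field_simp; ring

/-- `BudRwReg.num2`.      Proof: `θ^r = x^(e r) ≤ x⁸` (`e ⌈8/e⌉ ≥ 8`, `x < 1`: `Real.rpow_natCast`, `Real.rpow_mul`, `Real.rpow_le_rpow_of_exponent_ge`), `min η z = η = x⁷`, `x ≤ w_c ≤ w`, `z ≤ 1`. -/
theorem bud_rx_num2 {e : ℝ} (he : 0 < e) {A : ℝ} (hN : BudRxNum F X C A) {z : ℝ} (hw : F.wc X ≤ w) (hη : budRxEta F ≤ z) (hz : z ≤ 1 / 4) :
    z * budRxTh F e ^ budRxR e ≤ min (budRxEta F) z * w := by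
  have hx0 := hN.x0
  have hx1 := hN.x1
  have h1 : budRxTh F e ^ budRxR e ≤ F.x ^ 8 := by
    unfold budRxTh budRxR
    rw [← Real.rpow_natCast, ← Real.rpow_mul hx0.le, ← Real.rpow_natCast F.x 8]
    refine Real.rpow_le_rpow_of_exponent_ge hx0 hx1.le ?_
    have := Nat.le_ceil (8 / e)
    push_cast
    calc (8 : ℝ) = e * (8 / e) := by field_simp
      _ ≤ e * ⌈8 / e⌉₊ := mul_le_mul_of_nonneg_left this he.le
  rw [min_eq_left hη]
  have hxw : F.x ≤ w := hN.x_wc.trans hw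
  have hz0 : 0 ≤ z := (pow_pos hx0 7).le.trans hη
  have hth0 : 0 ≤ budRxTh F e ^ budRxR e := pow_nonneg (Real.rpow_nonneg hx0.le _) _
  unfold budRxEta
  calc z * budRxTh F e ^ budRxR e ≤ 1 * F.x ^ 8 := mul_le_mul (by linarith) h1 hth0 zero_le_one
    _ = F.x ^ 7 * F.x := by ring
    _ ≤ F.x ^ 7 * w := mul_le_mul_of_nonneg_left hxw (by positivity)

/-- `BudRwReg.num3`.      Proof: `Z_0 ≤ 1`, `w ≤ 1 ≤ 1/c`: LHS `≤ 2η/c`; RHS `≥ (768/c)/(C0 m)` (`bud_rx_sg_le`); `hN.eta_m`. -/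
theorem bud_rx_num3 (hX : X.Ok) (hF : F.Ok X) (hcp : 0 < c) (hc1 : c ≤ 1) {A : ℝ} (hN : BudRxNum F X C A) {z : ℝ} (hw0 : 0 < w) (hw : w ≤ 1) (hz0 : 0 < z) :
    budRwZ (budRxEta F) (2 * z) 0 * budRxEta F * (w + 1 / c * budRwZ (budRxEta F) (2 * z) 0) ≤ budRxG0 F X c z / F.m := by
  have hη := bud_rx_eta_pos hF
  have hm0 : (0 : ℝ) < F.m := lt_of_lt_of_le one_pos (bud_gb_m_ge hF)
  have hsg := bud_rx_sg_pos hX hF (t := 3 * z) (by positivity)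
  have hsgle := bud_rx_sg_le hX hF (3 * z)
  obtain ⟨Z, hZ⟩ : ∃ Z, Z = budRwZ (budRxEta F) (2 * z) 0 := ⟨_, rfl⟩
  rw [← hZ]
  have hZ1 : Z ≤ 1 := by rw [hZ]; exact min_le_left _ _
  have hZ0 : 0 ≤ Z := by rw [hZ]; exact le_min zero_le_one (by positivity)
  have h1c : 1 ≤ 1 / c := (one_le_div hcp).2 hc1
  have a1 : w + 1 / c * Z ≤ 2 / c := by
    have : 1 / c * Z ≤ 1 / c := mul_le_of_le_one_right (by positivity) hZ1
    have e : 2 / c = 1 / c + 1 / c := by ring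
    linarith
  have a0 : 0 ≤ w + 1 / c * Z := by positivity
  have hL : Z * budRxEta F * (w + 1 / c * Z) ≤ budRxEta F * (2 / c) := by
    have : Z * budRxEta F ≤ budRxEta F := mul_le_of_le_one_left hη.le hZ1
    exact mul_le_mul this a1 a0 hη.le
  refine hL.trans ?_
  unfold budRxG0
  rw [div_div, div_div, le_div_iff₀ (by positivity)]
  have e : budRxEta F * (2 / c) * (c * (budRxSg F X (3 * z) * F.m)) = 2 * (budRxEta F * F.m * budRxSg F X (3 * z)) := by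
    field_simp
  rw [e]
  have : budRxEta F * F.m * budRxSg F X (3 * z) ≤ budRxEta F * F.m * F.C0 := mul_le_mul_of_nonneg_left hsgle (by positivity)
  linarith [hN.eta_m]

/-- `η = x⁷ ≤ x ≤ w_c` -/
theorem bud_rx_eta_le {A : ℝ} (hN : BudRxNum F X C A) : budRxEta F ≤ F.wc X := by
  refine le_trans ?_ hN.x_wc
  unfold budRxEta
  calc F.x ^ 7 ≤ F.x ^ 1 := pow_le_pow_of_le_one hN.x0.le hN.x1.le (by norm_num)
    _ = F.x := pow_one _

/-- **INSTANCE of `BudRwSusH`** on the radius band `[z, 2z]`, `2Cw ≤ z ≤ 1/4` -/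
theorem bud_rx_sus (hX : X.Ok) (hcp : 0 < c) (hC : 1 ≤ C) {A : ℝ} (hN : BudRxNum F X C A) (h : BudRxH X W F g Q w c C c0) (hw8 : 8 * C * w ≤ 1)
    (hc : CkmCh ps) (hM : (Q.rxM g ps).Ok) (hmesh : ∀ j, Q.rxRad g ps (j + 1) - Q.rxRad g ps j ≤ budRxEta F / 4)
    {z : ℝ} (hz1 : 2 * C * w ≤ z) (hz2 : z ≤ 1 / 4) :
    BudRwSusH (Q.rxM g ps) (Q.rxRad g ps) (budRxK F) (budRxEta F) z (2 * z) (1 / C) (1 / c) w (budRxD F X z) := by
  have hw0 := bud_rx_w_pos hX h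
  have hw2 : 2 * w ≤ 1 := by nlinarith
  have hc1 := (bud_rx_cC h hw2).1
  have hz0 : 0 < z := lt_of_lt_of_le (by positivity) hz1
  have hη := bud_rx_eta_pos h.ok
  have hreg : ∀ j, z ≤ Q.rxRad g ps j → c * (Q.rxM g ps).mass j ≤ Q.rxRad g ps j ∧ Q.rxRad g ps j ≤ C * (Q.rxM g ps).mass j := fun j hj =>
    h.reg _ (bud_rx_reg_of_rad hX h hw2 (bud_rx_mass_mem Q g hc j) (hz1.trans hj)) (bud_rx_mass_mem Q g hc j).2
  refine ⟨hη, hz0, by linarith, by linarith, hw0, by positivity, (one_le_div hcp).2 hc1, ?_, ?_, ?_, ?_, ?_, ?_⟩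
  · linarith [hN.K_big]
  · unfold budRxK; omega
  · intro j _ hj
    rw [div_mul_eq_mul_div, one_mul, div_le_iff₀ (by linarith)]
    linarith [(hreg j hj).2]
  · intro j _ hj
    rw [div_mul_eq_mul_div, one_mul, le_div_iff₀ hcp]
    linarith [(hreg j hj).1]
  · intro k
    unfold budRxD
    refine mul_pos (bud_rx_sg_pos hX h.ok ?_) (by positivity)
    unfold budRwZ
    exact lt_min one_pos (by positivity)
  · intro t h1 h2 k hk hthr
    exact bud_rx_clk hX h hc hM hmesh hz0 h1 h2 hk hthr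

/-- the constant `A` of `BudRxNum` for the bootstrap -/
def budRxA (c C Pi : ℝ) (l : ℕ) : ℝ := 800 * 768 * (1 + (2 * l : ℝ) ^ 2 / 3) * l ^ 2 * Pi ^ 2 * C ^ 2 / c ^ 2

/-- `BudRwReg.small` from `BudRxNum.small` (pure algebra: multiply by `sg(3z) C²`) -/
theorem bud_rx_small (hX : X.Ok) (hF : F.Ok X) (hcp : 0 < c) (hC : 1 ≤ C) {e : ℝ} (he : e ≤ X.zeta) {Pi : ℝ} {l : ℕ}
    (hN : BudRxNum F X C (budRxA c C Pi l)) {z : ℝ} (hz1 : F.wc X ≤ z) (hz2 : z ≤ 1 / 4) :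
    800 * (1 + (2 * l : ℝ) ^ 2 / 3) * l ^ 2 * (budRxK F : ℝ) ^ 3 * (1 / c) * Pi ^ 2 * budRxG0 F X c z
      ≤ 1 ^ 2 * (budRxKap F X z * z ^ 4 * (1 / C) ^ 2 * F.m * budRxTh F e) := by
  have hz0 : 0 < z := lt_of_lt_of_le (bcs_ha_pos hX hF).2.2.2.2.2.2.2.1 hz1
  have hsg := bud_rx_sg_pos hX hF (t := 3 * z) (by positivity)
  have hk0 : 0 < F.k X (3 * z) := bud_gb_k_pos (F.call X) (bud_gb_N_pos hF) (bud_gb_us_pos hX hF) (by positivity)
  have hm0 : (0 : ℝ) < F.m := lt_of_lt_of_le one_pos (bud_gb_m_ge hF)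
  have hth : budRxTh F X.zeta ≤ budRxTh F e := Real.rpow_le_rpow_of_exponent_ge hN.x0 hN.x1.le he
  have h1 : budRxA c C Pi l * (budRxK F : ℝ) ^ 3 ≤ F.m * F.k X (3 * z) * budRxSg F X (3 * z) * z ^ 4 * budRxTh F e :=
    (hN.small z hz1 hz2).trans (mul_le_mul_of_nonneg_left hth (by positivity))
  have hC0 : 0 < C := by linarith
  unfold budRxG0 budRxKap
  unfold budRxA at h1
  have e1 : 800 * (1 + (2 * l : ℝ) ^ 2 / 3) * l ^ 2 * (budRxK F : ℝ) ^ 3 * (1 / c) * Pi ^ 2 * (768 / c / budRxSg F X (3 * z))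
      = (800 * 768 * (1 + (2 * l : ℝ) ^ 2 / 3) * l ^ 2 * Pi ^ 2 * C ^ 2 / c ^ 2 * (budRxK F : ℝ) ^ 3) / (budRxSg F X (3 * z) * C ^ 2) := by
    field_simp
  have e2 : (1 : ℝ) ^ 2 * (F.k X (3 * z) * z ^ 4 * (1 / C) ^ 2 * F.m * budRxTh F e)
      = (F.m * F.k X (3 * z) * budRxSg F X (3 * z) * z ^ 4 * budRxTh F e) / (budRxSg F X (3 * z) * C ^ 2) := by
    field_simp
  rw [e1, e2]
  exact div_le_div_of_nonneg_right h1 (by positivity)

/-- what is asked from a fine chain -/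
structure BudRxFine (Q : BdQ F X) (g w : ℝ) (ps : List GhPos) : Prop where
  ch : CkmCh ps
  mesh_r : ∀ j, Q.rxRad g ps (j + 1) - Q.rxRad g ps j ≤ budRxEta F / 4
  mesh_m : ∀ j, (Q.rxM g ps).mass (j + 1) - (Q.rxM g ps).mass j ≤ w
  S_cl : ∀ j, 1 ≤ j → j ≤ ps.length → |(Q.rxM g ps).S j - skCS F.m 1 (Q.bE g) (Q.hE g) (ckmPos ps j)| ≤ w

/-- all sufficiently fine chains are fine -/
theorem bud_rx_fine (hX : X.Ok) (h : BudRxH X W F g Q w c C c0) : BmEv 1 fun ps => BudRxFine Q g w ps := by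
  have hw0 := bud_rx_w_pos hX h
  have hη := bud_rx_eta_pos h.ok
  have e1 := ckm_mesh_fun F.m (Q.bE g) (Q.hE g) (bcs_hc_r hX h.ok Q).2 (δ := budRxEta F / 4) (by positivity)
  have e2 := ckm_mesh F.m (Q.bE g) (Q.hE g) hw0
  have e3 := ckm_S_close (bud_rx_m_pos h.ok) (bud_rx_adm h) hw0
  refine Filter.Eventually.mono (f := atTop) (e1.and (e2.and e3)) fun F' hF' => ?_
  exact ⟨ckm_ch F', fun j => (le_abs_self _).trans (hF'.1 j), hF'.2.1, hF'.2.2⟩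

/-- **INSTANCE of `BudRwReg`** on a fine chain -/
theorem bud_rx_reg_ps (hX : X.Ok) (hW : W.IsHub) (hcp : 0 < c) (hC : 1 ≤ C) {e : ℝ} (he0 : 0 < e) (he : e ≤ X.zeta) {l : ℕ} (hl : 1 ≤ l)
    {Pi : ℝ} (hPi : 1 ≤ Pi)
    (hN : BudRxNum F X C (budRxA c C Pi l)) (h : BudRxH X W F g Q w c C c0) (hw8 : 8 * C * w ≤ 1) (hf : BudRxFine Q g w ps)
    (hM : (Q.rxM g ps).Ok) (hpin : (Q.rxM g ps).Pin l (1 + (2 * l : ℝ) ^ 2 / 3)) (hp2 : (Q.rxM g ps).Proj 2 Pi)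
    (hpr : (Q.rxM g ps).Proj (2 * budRxR e * l) Pi) :
    BudRwReg (Q.rxM g ps) (Q.rxRad g ps) (budRxK F) (budRxR e) l (budRxEta F) (budRxTh F e) w (2 * C * w) (1 / 4) (1 / C) (1 / c) (2 * C)
      (16 * C + 18) (1 + (2 * l : ℝ) ^ 2 / 3) Pi 1 (budRxD F X) (fun z => budRxG0 F X c |z|) (fun z => budRxKap F X |z|) := by
  have hw0 := bud_rx_w_pos hX h
  have hw2 : 2 * w ≤ 1 := by nlinarith
  have hc1 := (bud_rx_cC h hw2).1
  have hF := h.ok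
  have hη := bud_rx_eta_pos hF
  have hwz : ∀ z, 2 * C * w ≤ z → w ≤ z := fun z hz => le_trans (by nlinarith) hz
  have hwcz : ∀ z, 2 * C * w ≤ z → F.wc X ≤ z := fun z hz => h.w_lo.trans (hwz z hz)
  have hηz : ∀ z, 2 * C * w ≤ z → budRxEta F ≤ z := fun z hz => (bud_rx_eta_le hN).trans (hwcz z hz)
  have hz0 : ∀ z, 2 * C * w ≤ z → 0 < z := fun z hz => lt_of_lt_of_le hw0 (hwz z hz)
  exact
  { rd := bud_rx_rad hX hF Q g hf.ch
    n1 := bud_rx_m_pos hF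
    l1 := hl
    r1 := Nat.ceil_pos.2 (by positivity)
    θ0 := Real.rpow_pos_of_pos hN.x0 _
    θ1 := Real.rpow_le_one hN.x0.le hN.x1.le he0.le
    cr1 := (div_le_one (by linarith)).2 hC
    C01 := by linarith
    CS1 := by linarith
    cp0 := by positivity
    Pi1 := hPi
    ε0 := one_pos
    x00 := by positivity
    x0w := le_rfl
    xum := by linarith
    rad_le := fun j _ => bud_rx_r_le hX h hw2 (bud_rx_mass_mem Q g hf.ch j)
    mass_le := fun j _ => bud_rx_v_le hX hcp h hw2 (bud_rx_mass_mem Q g hf.ch j)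
    S_le := fun j hj => bud_rx_S_chain hX hW hC hN h hf.ch hM hf.mesh_m hf.S_cl hj
    pin := hpin
    proj2 := hp2
    projr := hpr
    sus := fun z hz1 hz2 => bud_rx_sus hX hcp hC hN h hw8 hf.ch hM hf.mesh_r hz1 hz2
    G00 := fun z => by
      have h1 := (bud_gb_C0_pos hX hF).le
      have h2 := (bud_gb_flat_pos hX hF).le
      have h3 : 0 ≤ min 1 (X.cd ^ 3 * F.u / (3 * |z|)) := le_min zero_le_one (by positivity)
      show 0 ≤ 768 / c / (F.C0 * min 1 (X.cd ^ 3 * F.u / (3 * |z|)))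
      positivity
    num1 := fun z hz1 hz2 k hk _ => by
      simp only [abs_of_pos (hz0 z hz1)]
      exact bud_rx_num1 hX hF hcp hc1 hw0 (hwz z hz1) (hηz z hz1) hz2 hk
    num2 := fun z hz1 hz2 => bud_rx_num2 he0 hN h.w_lo (hηz z hz1) hz2
    num3 := fun z hz1 _ => by
      simp only [abs_of_pos (hz0 z hz1)]
      exact bud_rx_num3 hX hF hcp hc1 hN hw0 h.w_hi (hz0 z hz1)
    κ0 := fun z => bud_gb_k_pos (F.call X) (bud_gb_N_pos hF) (bud_gb_us_pos hX hF) (by positivity)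
    floor := fun z hz1 _ i _ hov => by
      simp only [abs_of_pos (hz0 z hz1)]
      exact bud_rx_floor_cell hX hF Q g hf.ch hf.mesh_r (hηz z hz1) hov
    small := fun z hz1 hz2 => by
      simp only [abs_of_pos (hz0 z hz1)]
      exact bud_rx_small hX hF hcp hC he hN (hwcz z hz1) hz2 }

/-- **INSTANCE of `BudRwReg`** on all fine chains, constants before the frame -/
theorem bud_rx_reg (hX : X.Ok) {c C : ℝ} (hcp : 0 < c) (hC : 1 ≤ C) {e : ℝ} (he0 : 0 < e) (he : e ≤ X.zeta) {l : ℕ} (hl : 1 ≤ l) :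
    ∃ (Pi : ℝ) (N0 : ℕ), 1 ≤ Pi ∧ ∀ W : BdWorld, W.IsHub → ∀ (F : BdFr) (g : ℝ) (Q : BdQ F X) (w c0 : ℝ), BudRxH X W F g Q w c C c0 → N0 ≤ F.N →
      8 * C * w ≤ 1 → BmEv 1 fun ps => (Q.rxM g ps).Ok ∧
        BudRwReg (Q.rxM g ps) (Q.rxRad g ps) (budRxK F) (budRxR e) l (budRxEta F) (budRxTh F e) w (2 * C * w) (1 / 4) (1 / C) (1 / c) (2 * C)
          (16 * C + 18) (1 + (2 * l : ℝ) ^ 2 / 3) Pi 1 (budRxD F X) (fun z => budRxG0 F X c |z|) (fun z => budRxKap F X |z|) := by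
  have hr1 : 1 ≤ budRxR e := Nat.ceil_pos.2 (by positivity)
  obtain ⟨Pi, hPi, HP⟩ := ckm_proj2 1 (budRxR e * l) le_rfl (Nat.mul_pos hr1 hl)
  obtain ⟨N0, hN0⟩ := bud_rx_num hX C (budRxA c C Pi l) hC
  refine ⟨Pi, N0, hPi, fun W hW F g Q w c0 h hN hw8 => ?_⟩
  refine Filter.Eventually.mono (f := atTop) (bud_rx_fine hX h) fun F' hF' => ?_
  have hm := bud_rx_m_pos h.ok
  have hM : (Q.rxM g (ghPs 1 F')).Ok := ckm_ok hm (bud_rx_adm h) F'
  obtain ⟨p1, p2⟩ := HP F.m (Q.bE g) (Q.hE g) F' hm (bud_rx_adm h)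
  refine ⟨hM, bud_rx_reg_ps hX hW hcp hC he0 he hl hPi (hN0 F h.ok hN) h hw8 hF' hM (ckm_pin hm (bud_rx_adm h) F' l hl) p1 ?_⟩
  rw [mul_assoc]
  exact p2

/-! ## 7. Exits at step level -/

/-- the constant of (C8) -/
def budRxQ0 (c C : ℝ) : ℝ := max (Real.sqrt (budRwC1 (1 / 4) (1 / c) (2 * C) (16 * C + 18)) + 1 * (2 * C)) (Real.sqrt (8 * C))

theorem bud_rx_Q0_ge (c : ℝ) {C : ℝ} (hC : 1 ≤ C) : 1 ≤ budRxQ0 c C :=
  le_trans (Real.one_le_sqrt.2 (by linarith)) (le_max_right _ _)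

theorem bud_rx_cmN_X_le {n : ℕ} {Ω : Type} [MeasurableSpace Ω] {M : CmPath n Ω} (hM : M.Ok) {p : ℕ} (hp : 1 ≤ p) (j : ℕ) : cmN M.P p (M.X j) ≤ 1 := by
  have := hM.prob
  refine cmN_le_of_int_le (CmPath.X_bm hM j) p hp 1 zero_le_one ?_
  calc ∫ a, ‖M.X j a‖ ^ p ∂M.P ≤ ∫ _a, (1 : ℝ) ∂M.P := by
        refine integral_mono_of_nonneg (Filter.Eventually.of_forall fun ω => by positivity) (integrable_const _)
          (Filter.Eventually.of_forall fun ω => pow_le_one₀ (norm_nonneg _) (hM.norm_le _ _))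
    _ = 1 ^ p := by simp

/-- **(C8) for `X`, step level**: on all fine chains `‖X_j‖_{4l} ≤ Q0 √(w + mass j)`; `Q0` depends on `(c, C)` only.      TEX[LL:bud:outer-moments] -/
theorem bud_rx_raw (hX : X.Ok) {c C : ℝ} (hcp : 0 < c) (hC : 1 ≤ C) {l : ℕ} (hl : 1 ≤ l) :
    ∃ N0 : ℕ, ∀ W : BdWorld, W.IsHub → ∀ (F : BdFr) (g : ℝ) (Q : BdQ F X) (w c0 : ℝ), BudRxH X W F g Q w c C c0 → N0 ≤ F.N →
      BmEv 1 fun ps => (Q.rxM g ps).Raw (4 * l) (budRxQ0 c C) w := by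
  obtain ⟨Pi, N0, _, H⟩ := bud_rx_reg hX hcp hC hX.zeta_pos le_rfl hl
  refine ⟨N0, fun W hW F g Q w c0 h hN => ?_⟩
  have hw0 := bud_rx_w_pos hX h
  by_cases hw8 : 8 * C * w ≤ 1
  · refine Filter.Eventually.mono (f := atTop) (H W hW F g Q w c0 h hN hw8) fun F' hF' j hj => ?_
    exact (bud_rw_raw hF'.1 hF'.2 hw0 j hj).trans (mul_le_mul_of_nonneg_right (le_max_left _ _) (Real.sqrt_nonneg _))
  · refine Filter.Eventually.of_forall fun F' j hj => ?_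
    have hM : (Q.rxM g (ghPs 1 F')).Ok := ckm_ok (bud_rx_m_pos h.ok) (bud_rx_adm h) F'
    have hm0 := (CmPath.mass_mem hM hj).1
    refine (bud_rx_cmN_X_le hM (by omega) j).trans ?_
    calc (1 : ℝ) ≤ Real.sqrt (8 * C) * Real.sqrt (w + (Q.rxM g (ghPs 1 F')).mass j) := by
          rw [← Real.sqrt_mul (by linarith)]
          refine Real.one_le_sqrt.2 ?_
          nlinarith [not_le.1 hw8]
      _ ≤ _ := mul_le_mul_of_nonneg_right (le_max_right _ _) (Real.sqrt_nonneg _)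

theorem bud_rx_Gam_ge (hcp : 0 < c) (hc1 : c ≤ 1) (hC : 1 ≤ C) : 4 ≤ budRxGam c C := by
  unfold budRxGam
  rw [le_div_iff₀ hcp]
  nlinarith

/-- **INSTANCE of `Cm5Clk`** (mass coordinate, dyads only: `ηm = 1` makes `sh` void) -/
theorem bud_rx_clk5 (hX : X.Ok) (hcp : 0 < c) (hc1 : c ≤ 1) (hC : 1 ≤ C) (h : BudRxH X W F g Q w c C c0) (hw : 16 * budRxGam c C ^ 2 * w ≤ 1)
    (hf : BudRxFine Q g w ps) (hM : (Q.rxM g ps).Ok) :
    Cm5Clk (Q.rxM g ps) (2 * w) (1 / (8 * budRxGam c C ^ 2)) (budRxGam c C) 1 (budRxT5 F X C) (budRxS5 F X C) := by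
  have hw0 := bud_rx_w_pos hX h
  have hG := bud_rx_Gam_ge hcp hc1 hC
  have hF := h.ok
  refine ⟨by linarith, by positivity, ?_, ?_, zero_le_one, ?_, ?_, ?_, ?_, ?_, ?_⟩
  · rw [le_div_iff₀ (by positivity)]; nlinarith
  · rw [mul_one_div, div_self (by positivity)]
  · intro w' hw'
    have : 0 < w' := by linarith
    unfold budRxT5
    exact mul_pos (by positivity) (bud_rx_sg_pos hX hF (by positivity))
  · intro w1 w2 h1 h12 _
    have h0 : 0 < w1 := by linarith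
    have := bud_rx_tsg_mono hX hF (s := 2 * C * w1) (t := 2 * C * w2) (by positivity) (by nlinarith)
    unfold budRxT5
    nlinarith
  · intro w' h1 h2
    exact bud_rx_dy hX hcp hc1 hC h hf.ch hM hf.mesh_m h1 h2
  · intro u hu _
    have : 0 < u := by linarith
    unfold budRxS5
    exact mul_pos (by positivity) (bud_rx_sg_pos hX hF (by positivity))
  · intro u hu1 hu2 t η hut hη hsum
    exfalso
    have h3 : 1 / (8 * budRxGam c C ^ 2) ≤ 1 / 128 := by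
      apply one_div_le_one_div_of_le (by norm_num)
      nlinarith
    linarith
  · intro u _ _
    unfold budRxS5 budRxT5
    exact le_of_eq (by ring)

theorem bud_rx_cmN_R2_le {n : ℕ} {b h : ℝ → ℝ} (hM : (ckM n b h ps).Ok) {p : ℕ} (hp : 1 ≤ p) (j : ℕ) :
    cmN ((ckM n b h ps).P2 j) p (ckM n b h ps).R2 ≤ 1 := by
  have := CmPath.P2_prob hM j
  have hb := ckm_R2_bm hM j
  refine cmN_le_of_int_le hb p hp 1 zero_le_one ?_
  have hle : ∀ z, ‖(ckM n b h ps).R2 z‖ ≤ 1 := fun z => by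
    have a1 := hM.norm_le ((ckM n b h ps).L + 1) z.1
    have a2 := hM.norm_le ((ckM n b h ps).L + 1) z.2
    calc ‖(ckM n b h ps).R2 z‖ ≤ ‖(ckM n b h ps).y z.1‖ * ‖(ckM n b h ps).y z.2‖ := norm_inner_le_norm _ _
      _ ≤ 1 * 1 := mul_le_mul a1 a2 (norm_nonneg _) zero_le_one
      _ = 1 := one_mul 1
  calc ∫ a, ‖(ckM n b h ps).R2 a‖ ^ p ∂(ckM n b h ps).P2 j ≤ ∫ _a, (1 : ℝ) ∂(ckM n b h ps).P2 j := by
        refine integral_mono_of_nonneg (Filter.Eventually.of_forall fun ω => by positivity) (integrable_const _)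
          (Filter.Eventually.of_forall fun ω => pow_le_one₀ (norm_nonneg _) (hle _))
    _ = 1 ^ p := by simp

/-- **(C8) for `Q_v`, step level**: the overlap of two leaves forked at the node `j`.      TEX[LL:bud:outer-moments] -/
theorem bud_rx_raw2 (hX : X.Ok) {c C : ℝ} (hcp : 0 < c) (hc1 : c ≤ 1) (hC : 1 ≤ C) {l : ℕ} (hl : 1 ≤ l) :
    ∃ (A2 : ℝ) (N0 : ℕ), 0 < A2 ∧ ∀ W : BdWorld, W.IsHub → ∀ (F : BdFr) (g : ℝ) (Q : BdQ F X) (w c0 : ℝ), BudRxH X W F g Q w c C c0 → N0 ≤ F.N →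
      BmEv 1 fun ps => ∀ j, j ≤ (Q.rxM g ps).L → cmN ((Q.rxM g ps).P2 j) (2 * l) (Q.rxM g ps).R2 ≤ A2 * (w + (Q.rxM g ps).mass j) := by
  have hG := bud_rx_Gam_ge hcp hc1 hC
  obtain ⟨Cr, hCr, H2⟩ := cm5_raw2_pf (2 * l) (even_two_mul l) (by omega) (budRxGam c C) 2 (budRxQ0 c C) (by norm_num) (bud_rx_Q0_ge c hC)
  obtain ⟨Pi, hPi, HP⟩ := ckm_proj l hl
  obtain ⟨N1, HR⟩ := bud_rx_raw hX hcp hC hl
  obtain ⟨N2, hN2⟩ := bud_rx_num hX C (Pi ^ 2) hC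
  refine ⟨max Cr (16 * budRxGam c C ^ 2), max N1 N2, lt_of_lt_of_le hCr (le_max_left _ _), fun W hW F g Q w c0 h hN => ?_⟩
  have hw0 := bud_rx_w_pos hX h
  have hm := bud_rx_m_pos h.ok
  have hNum := hN2 F h.ok ((le_max_right _ _).trans hN)
  by_cases hw : 16 * budRxGam c C ^ 2 * w ≤ 1
  · refine Filter.Eventually.mono (f := atTop) ((bud_rx_fine hX h).and (HR W hW F g Q w c0 h ((le_max_left _ _).trans hN))) fun F' hF' j hj => ?_
    have hM : (Q.rxM g (ghPs 1 F')).Ok := ckm_ok hm (bud_rx_adm h) F'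
    have hm0 := (CmPath.mass_mem hM (hj.trans (Nat.le_succ _))).1
    have e : 2 * (2 * l) = 4 * l := by ring
    have hK : 1 ≤ budRxGam c C ^ budRxK F * (2 * w) := by
      have h1 := hNum.K_big
      have h2 : (2 : ℝ) ^ (budRxK F - 1) ≤ budRxGam c C ^ budRxK F :=
        calc (2 : ℝ) ^ (budRxK F - 1) ≤ 2 ^ budRxK F := pow_le_pow_right₀ (by norm_num) (Nat.sub_le _ _)
          _ ≤ budRxGam c C ^ budRxK F := pow_le_pow_left₀ (by norm_num) (by linarith) _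
      have h3 : budRxEta F ≤ 2 * w := by linarith [bud_rx_eta_le hNum, h.w_lo]
      calc (1 : ℝ) ≤ 2 ^ (budRxK F - 1) * budRxEta F := h1
        _ ≤ budRxGam c C ^ budRxK F * (2 * w) := mul_le_mul h2 h3 (bud_rx_eta_pos h.ok).le (by positivity)
    have h3 := H2 F.m (SkOm F.m) (Q.rxM g (ghPs 1 F')) (2 * w) (1 / (8 * budRxGam c C ^ 2)) 1 (budRxT5 F X C) (budRxS5 F X C) Pi w (budRxK F) hM
      (bud_rx_clk5 hX hcp hc1 hC h hw hF'.1 hM) (HP F.m _ _ F' hm (bud_rx_adm h)) hPi hw0 (by linarith) le_rfl (e ▸ hF'.2) hK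
      (fun w' hw1 hw2 => hNum.marg w' (by linarith [h.w_lo]) (by nlinarith)) j hj
    exact h3.trans (mul_le_mul_of_nonneg_right (le_max_left _ _) (by linarith))
  · refine Filter.Eventually.of_forall fun F' j hj => ?_
    have hM : (Q.rxM g (ghPs 1 F')).Ok := ckm_ok hm (bud_rx_adm h) F'
    have hm0 := (CmPath.mass_mem hM (hj.trans (Nat.le_succ _))).1
    refine (bud_rx_cmN_R2_le hM (by omega) j).trans ?_
    calc (1 : ℝ) ≤ 16 * budRxGam c C ^ 2 * (w + (Q.rxM g (ghPs 1 F')).mass j) := by nlinarith [not_le.1 hw]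
      _ ≤ _ := mul_le_mul_of_nonneg_right (le_max_right _ _) (by linarith)

/-- **(C9), step level**, after the bootstrap: radius windows `[z,2z]`, `2Cw ≤ z ≤ 1/4`; subpower loss `x^(-ε)`.
Proof: `bud_rx_reg` at `e = min (ε/2) ζ`, `bud_rw_c9`: bound `200 l² K³ (1/c) Pi² Q0² (768/c)/sg(3z) / ((1/C)² m x^e)`; `1/m ≤ 2 x⁶` (`hF.m_lo`, `x⁶ = 1/N`), `K³ ≤ (20 L)³ ≤ (120/ε)³ x^(-ε/2)` (`bud_rx_num_K_le`). -/
theorem bud_rx_c9 (hX : X.Ok) {c C : ℝ} (hcp : 0 < c) (hC : 1 ≤ C) {l : ℕ} (hl : 1 ≤ l) {ε : ℝ} (hε : 0 < ε) :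
    ∃ (Cc : ℝ) (N0 : ℕ), 0 < Cc ∧ ∀ W : BdWorld, W.IsHub → ∀ (F : BdFr) (g : ℝ) (Q : BdQ F X) (w c0 : ℝ), BudRxH X W F g Q w c C c0 → N0 ≤ F.N →
      8 * C * w ≤ 1 → BmEv 1 fun ps => ∀ z, 2 * C * w ≤ z → z ≤ 1 / 4 →
        cmN (Q.rxM g ps).P l (((Q.rxM g ps).re (Q.rxRad g ps)).intg (Q.rxM g ps).W z (2 * z)) ≤ Cc * F.x ^ (-ε) * (F.x ^ 6 / budRxSg F X (3 * z)) := by
  have he0 : 0 < min (ε / 2) X.zeta := lt_min (by positivity) hX.zeta_pos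
  obtain ⟨Pi, N0, hPi, H⟩ := bud_rx_reg hX hcp hC he0 (min_le_right _ _) hl
  obtain ⟨N1, h1⟩ := bcs_ha_big 1 1 one_pos
  obtain ⟨Q0, hQ0⟩ : ∃ Q0 : ℝ, Q0 = Real.sqrt (budRwC1 (1 / 4) (1 / c) (2 * C) (16 * C + 18)) + 1 * (2 * C) := ⟨_, rfl⟩
  have hQ0p : 0 < Q0 := by
    rw [hQ0]
    have := Real.sqrt_nonneg (budRwC1 (1 / 4) (1 / c) (2 * C) (16 * C + 18))
    linarith
  have hC0 : 0 < C := by linarith
  have hl0 : (0 : ℝ) < l := by exact_mod_cast hl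
  have hPi0 : 0 < Pi := by linarith
  refine ⟨200 * l ^ 2 * (1 / c) * Pi ^ 2 * Q0 ^ 2 * (768 / c) * C ^ 2 * (8000 * ((3 : ℕ) / (ε / 2)) ^ 3) * 2, max N0 N1, by positivity,
    fun W hW F g Q w c0 h hN hw8 => ?_⟩
  have hw0 := bud_rx_w_pos hX h
  have hF := h.ok
  have hL1 : 1 ≤ -Real.log F.x := by
    have := h1 F ((le_max_right _ _).trans hN)
    linarith
  obtain ⟨hx0, hx1, hlx, hNx⟩ := bcs_ha_x hF.N2
  have hm0 : (0 : ℝ) < F.m := lt_of_lt_of_le one_pos (bud_gb_m_ge hF)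
  have hN0 : (0:ℝ) < F.N := by have := hF.N2; positivity
  -- `1/m ≤ 2 x⁶`
  have hx6 : F.x ^ 6 = 1 / (F.N : ℝ) := by
    have : F.x ^ 6 = F.x ^ (6 : ℝ) := by rw [← Real.rpow_natCast]; norm_num
    rw [this]
    unfold BdFr.x
    rw [← Real.rpow_mul hN0.le]
    norm_num
    rw [Real.rpow_neg_one]
  have hm : 1 / (F.m : ℝ) ≤ 2 * F.x ^ 6 := by
    rw [hx6, div_le_iff₀ hm0]
    have := hF.m_lo
    have e : 2 * (1 / (F.N : ℝ)) * F.m = F.m / (F.N / 2) := by field_simp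
    rw [e, le_div_iff₀ (by positivity)]
    linarith
  -- `K³`
  have hK := bud_rx_num_K_le hF hL1
  have hK0 : (0 : ℝ) ≤ budRxK F := Nat.cast_nonneg _
  have hexp : Real.exp (ε / 2 * (-Real.log F.x)) = F.x ^ (-(ε / 2)) := by
    rw [Real.rpow_def_of_pos hx0]; congr 1; ring
  have hK3 : (budRxK F : ℝ) ^ 3 ≤ 8000 * ((3 : ℕ) / (ε / 2)) ^ 3 * F.x ^ (-(ε / 2)) := by
    have h3 := bud_rx_pow_le_exp 3 (by norm_num) (c := ε / 2) (by positivity) (L := -Real.log F.x) (by linarith)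
    rw [hexp] at h3
    calc (budRxK F : ℝ) ^ 3 ≤ (20 * (-Real.log F.x)) ^ 3 := pow_le_pow_left₀ hK0 hK 3
      _ = 8000 * (-Real.log F.x) ^ 3 := by ring
      _ ≤ 8000 * (((3 : ℕ) / (ε / 2)) ^ 3 * F.x ^ (-(ε / 2))) := mul_le_mul_of_nonneg_left h3 (by norm_num)
      _ = _ := by ring
  -- `1/θ`
  have hth : 1 / budRxTh F (min (ε / 2) X.zeta) ≤ F.x ^ (-(ε / 2)) := by
    unfold budRxTh
    rw [one_div, ← Real.rpow_neg hx0.le]
    exact Real.rpow_le_rpow_of_exponent_ge hx0 hx1.le (by linarith [min_le_left (ε / 2) X.zeta])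
  have hxx : F.x ^ (-(ε / 2)) * F.x ^ (-(ε / 2)) = F.x ^ (-ε) := by
    rw [← Real.rpow_add hx0]; congr 1; ring
  refine Filter.Eventually.mono (f := atTop) (H W hW F g Q w c0 h ((le_max_left _ _).trans hN) hw8) fun F' hF' z hz1 hz2 => ?_
  have hz0 : 0 < z := lt_of_lt_of_le (by positivity) hz1
  have hsg := bud_rx_sg_pos hX hF (t := 3 * z) (by positivity)
  have key := bud_rw_c9 hF'.1 hF'.2 hw0 hz1 hz2
  rw [← hQ0] at key
  simp only [abs_of_pos hz0] at key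
  refine key.trans ?_
  unfold budRxG0
  have q5 := Real.rpow_pos_of_pos hx0 (-(ε / 2))
  have hth0 : 0 < budRxTh F (min (ε / 2) X.zeta) := Real.rpow_pos_of_pos hx0 _
  have e1 : 200 * (l : ℝ) ^ 2 * (budRxK F : ℝ) ^ 3 * (1 / c) * Pi ^ 2 * Q0 ^ 2 * (768 / c / budRxSg F X (3 * z))
        / ((1 / C) ^ 2 * F.m * budRxTh F (min (ε / 2) X.zeta))
      = (200 * (l : ℝ) ^ 2 * (1 / c) * Pi ^ 2 * Q0 ^ 2 * (768 / c) * C ^ 2 / budRxSg F X (3 * z))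
        * ((budRxK F : ℝ) ^ 3 * (1 / F.m) * (1 / budRxTh F (min (ε / 2) X.zeta))) := by
    field_simp
  have e2 : 200 * (l : ℝ) ^ 2 * (1 / c) * Pi ^ 2 * Q0 ^ 2 * (768 / c) * C ^ 2 * (8000 * ((3 : ℕ) / (ε / 2)) ^ 3) * 2 * F.x ^ (-ε)
        * (F.x ^ 6 / budRxSg F X (3 * z))
      = (200 * (l : ℝ) ^ 2 * (1 / c) * Pi ^ 2 * Q0 ^ 2 * (768 / c) * C ^ 2 / budRxSg F X (3 * z))
        * ((8000 * ((3 : ℕ) / (ε / 2)) ^ 3 * F.x ^ (-(ε / 2))) * (2 * F.x ^ 6) * F.x ^ (-(ε / 2))) := by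
    rw [← hxx]; ring
  rw [e1, e2]
  refine mul_le_mul_of_nonneg_left ?_ (by positivity)
  exact mul_le_mul (mul_le_mul hK3 hm (by positivity) (by positivity)) hth (by positivity) (by positivity)

/-! ## 8. Exits at path level, adapters -/

/-- **(C8) for `X`**: `E|X_p|^{4l} ≤ (Q0² (w + u))^{2l}` at every position -/
theorem bud_rx_mx (hX : X.Ok) {c C : ℝ} (hcp : 0 < c) (hC : 1 ≤ C) {l : ℕ} (hl : 1 ≤ l) :
    ∃ N0 : ℕ, ∀ W : BdWorld, W.IsHub → ∀ (F : BdFr) (g : ℝ) (Q : BdQ F X) (w c0 : ℝ), BudRxH X W F g Q w c C c0 → N0 ≤ F.N →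
      ∀ p : GhPos, p.Ok 1 → cmkMX F.m (Q.bE g) (Q.hE g) (2 * l) p ≤ (budRxQ0 c C ^ 2 * (w + p.u)) ^ (2 * l) := by
  obtain ⟨N0, H⟩ := bud_rx_raw hX hcp hC hl
  refine ⟨N0, fun W hW F g Q w c0 h hN p hp => ?_⟩
  refine ckm_mx (bud_rx_m_pos h.ok) (bud_rx_adm h) (by omega) (by linarith [bud_rx_Q0_ge c hC]) (bud_rx_w_pos hX h).le ?_ hp
  have e : 2 * (2 * l) = 4 * l := by ring
  rw [e]
  exact H W hW F g Q w c0 h hN

/-- **(C8) for `Q_v`**: `E R_p^{2l} ≤ (A2 (w + u))^{2l}` at every position -/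
theorem bud_rx_mr (hX : X.Ok) {c C : ℝ} (hcp : 0 < c) (hc1 : c ≤ 1) (hC : 1 ≤ C) {l : ℕ} (hl : 1 ≤ l) :
    ∃ (A2 : ℝ) (N0 : ℕ), 0 < A2 ∧ ∀ W : BdWorld, W.IsHub → ∀ (F : BdFr) (g : ℝ) (Q : BdQ F X) (w c0 : ℝ), BudRxH X W F g Q w c C c0 → N0 ≤ F.N →
      ∀ p : GhPos, p.Ok 1 → cmkMR F.m (Q.bE g) (Q.hE g) l p ≤ (A2 * (w + p.u)) ^ (2 * l) := by
  obtain ⟨A2, N0, hA, H⟩ := bud_rx_raw2 hX hcp hc1 hC hl
  exact ⟨A2, N0, hA, fun W hW F g Q w c0 h hN p hp =>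
    ckm_mr (bud_rx_m_pos h.ok) (bud_rx_adm h) hl hA.le (bud_rx_w_pos hX h).le (H W hW F g Q w c0 h hN) hp⟩

/-- `B_v ≤ (A2 (v + w))²` -/
theorem bud_rx_B (hX : X.Ok) {c C : ℝ} (hcp : 0 < c) (hc1 : c ≤ 1) (hC : 1 ≤ C) :
    ∃ (A2 : ℝ) (N0 : ℕ), 0 < A2 ∧ ∀ W : BdWorld, W.IsHub → ∀ (F : BdFr) (g : ℝ) (Q : BdQ F X) (w c0 : ℝ), BudRxH X W F g Q w c C c0 → N0 ≤ F.N →
      ∀ v ∈ Ioo (0 : ℝ) 1, Q.Bq W g v ≤ (A2 * (v + w)) ^ 2 := by
  obtain ⟨A2, N0, hA, H⟩ := bud_rx_mr hX hcp hc1 hC (l := 1) le_rfl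
  refine ⟨A2, N0, hA, fun W hW F g Q w c0 h hN v hv => ?_⟩
  have h1 := H W hW F g Q w c0 h hN (ghPosA v) (gh_os_posA_ok hv.1.le hv.2.le)
  have e1 : Q.Bq W g v = skCB F.m 1 (Q.bE g) (Q.hE g) (ghPosA v) := hW.B F.m (bud_rx_m_pos h.ok) _ _ h.clkb h.clkh v hv
  have e2 : (ghPosA v).u = v := by simp [ghPosA, GhPos.u]
  rw [e1, (ckm_SB F.m (Q.bE g) (Q.hE g) (ghPosA v)).1]
  rw [e2, add_comm] at h1
  exact h1

/-- PRODUCER of `BudRxH` from the instances of helper12 -/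
theorem bud_rx_of_out (hX : X.Ok) {Fam : BdFr → Prop} {Kb : ℝ} (hb : BcsBase X W Fam) (hadm : Bd7Adm X W Fam Kb) (c C : ℝ) :
    ∃ N0 : ℕ, ∀ i : Bd7I X, i.Out W Fam c C → N0 ≤ i.F.N → ∃ c0 : ℝ, BudRxH X W i.F i.g i.Q i.w c C c0 := by
  obtain ⟨N1, h1⟩ := bud_n4_geo X hX
  obtain ⟨N2, h2⟩ := hadm
  refine ⟨max N1 N2, fun i hi hN => ?_⟩
  have hB := hb i.F hi.fam hi.ok i.g hi.g_mem
  obtain ⟨c0, hg, _⟩ := h1 i.F hi.ok ((le_max_left _ _).trans hN) W i.g hB i.Q hi.opt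
  have h3 := h2 i hi.toStd ((le_max_right _ _).trans hN)
  exact ⟨c0, ⟨hi.ok, hi.w_lo, hi.w_hi, hi.reg, hB, h3.2.2.1, h3.2.2.2.1, hg⟩⟩

/-- PRODUCER of `BudRxH` from the class of helper190 -/
theorem bud_rx_of_cls {Fam : BdFr → Prop} {K : BcsK} {I : BcsIn X} (hI : I.Cls W Fam K) : BudRxH X W I.F I.g I.Q I.w K.c K.C I.c0 :=
  ⟨hI.ok, hI.w_lo, hI.w_hi, hI.reg, hI.base, hI.clkb, hI.clkh, hI.geo⟩

/-- **ADAPTER: `BcsRaw`** (helper190, Bud/Star) -/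
theorem bud_rx_bcsraw (hX : X.Ok) (hW : W.IsHub) {Fam : BdFr → Prop} {K : BcsK} (hK : K.Ok) : BcsRaw W (BcsIn.Cls (X := X) · W Fam K) := by
  obtain ⟨A2, N0, hA, H⟩ := bud_rx_B hX hK.c0 hK.c1 hK.C1
  exact ⟨A2, N0, hA, fun I hI hN v hv => H W hW I.F I.g I.Q I.w I.c0 (bud_rx_of_cls hI) hN v hv⟩

theorem bud_rx_SD_le (h : BudRxH X W F g Q w c C c0) {v : ℝ} (hv : v ∈ Ioo (0 : ℝ) 1) :
    Q.Sq W g v ≤ 1 ∧ Q.Dq W g v ≤ 1 ∧ Q.Dq W g v ≤ Real.sqrt (Q.Bq W g v) := by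
  have ha := h.base.a1
  have hv' : v ∈ Ioo 0 (W.ps F.m).a := by rw [ha]; exact hv
  have s1 : Q.Sq W g v ^ 2 ≤ Q.Bq W g v := (W.ps F.m).S_sq_le _ _ (ha ▸ h.clkb) (ha ▸ h.clkh) v hv'
  have s2 : Q.Bq W g v ≤ 1 := (W.ps F.m).B_le _ _ (ha ▸ h.clkb) (ha ▸ h.clkh) v hv'
  have s3 : Q.Dq W g v ≤ Real.sqrt (Q.Bq W g v) := by
    unfold BdQ.Dq BdQ.Dq2
    exact Real.sqrt_le_sqrt (by nlinarith [sq_nonneg (Q.Sq W g v)])
  refine ⟨by nlinarith, s3.trans ?_, s3⟩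
  exact Real.sqrt_le_iff.2 ⟨zero_le_one, by linarith⟩

/-- **ADAPTER: `Bd7Raw`** (helper12, Bud/L07S).
Proof: `CL < 1`: every instance has `1 < 2w` (`bud_rx_cC`), `S, D ≤ 1 ≤ 2(v+w)` (`PSys.S_sq_le`, `B_le`).   `1 ≤ CL`: `bud_rx_of_out`, `bud_rx_num`, `bud_rx_S`, `bud_rx_B` (`D = √(B - S²) ≤ √B`). -/
theorem bud_rx_bd7raw (hX : X.Ok) (hW : W.IsHub) {Fam : BdFr → Prop} {Kb cL CL : ℝ} (hb : BcsBase X W Fam) (hadm : Bd7Adm X W Fam Kb) (hc : 0 < cL) :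
    Bd7Raw X W Fam cL CL := by
  intro cs _
  obtain ⟨N1, h1⟩ := bud_rx_of_out hX hb hadm cL CL
  by_cases hcc : cL ≤ 1 ∧ 1 ≤ CL
  · obtain ⟨N2, h2⟩ := bud_rx_num hX CL 0 hcc.2
    obtain ⟨A2, N3, hA, h3⟩ := bud_rx_B hX hc hcc.1 hcc.2
    refine ⟨max (4 * CL + 4) A2, max N1 (max N2 N3), fun i hi hN v hv => ?_⟩
    have n1 : N1 ≤ i.F.N := (le_max_left _ _).trans hN
    have n2 : N2 ≤ i.F.N := ((le_max_left _ _).trans (le_max_right _ _)).trans hN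
    have n3 : N3 ≤ i.F.N := ((le_max_right _ _).trans (le_max_right _ _)).trans hN
    obtain ⟨c0, h⟩ := h1 i hi.toOut n1
    have hw0 := bud_rx_w_pos hX h
    have hvw : 0 ≤ v + i.w := by linarith [hv.1]
    constructor
    · exact (bud_rx_S hX hcc.2 (h2 i.F h.ok n2) h hv).trans (mul_le_mul_of_nonneg_right (le_max_left _ _) hvw)
    · refine ((bud_rx_SD_le h hv).2.2.trans ?_).trans (mul_le_mul_of_nonneg_right (le_max_right _ _) hvw)
      exact Real.sqrt_le_iff.2 ⟨by positivity, h3 W hW i.F i.g i.Q i.w c0 h n3 v hv⟩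
  · refine ⟨2, N1, fun i hi hN v hv => ?_⟩
    obtain ⟨c0, h⟩ := h1 i hi.toOut hN
    have hw : 1 < 2 * i.w := by
      by_contra hcon
      exact hcc (bud_rx_cC h (not_lt.1 hcon))
    obtain ⟨q1, q2, _⟩ := bud_rx_SD_le h hv
    constructor <;> linarith [hv.1]

end

end Claimed.Agent.R286
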