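import Claimed.Agent.R286.Bud.StarLp
import Claimed.Agent.R286.L08.SPI
import Claimed.Agent.R286.Exit.ClkLim
import Claimed.Agent.R286.Exit.ClkStat
import Claimed.Agent.R286.Exit.PSysInst
import Claimed.Agent.R286.Brg.StatSk
import Claimed.Agent.R286.Brg.Cat

/-!
# Row 286, LL sec. 7, node N7: PRODUCERS of the world-level facts `BcsWorld W` from `W.IsHub`      (owner helper190; prefix `bcs_w_`, `bcs_l8i_`; defs `bcs*`)
PASSAGE L-STEP → L-PATH for the `L^p` half of LL Lemma 7.6 (`Bud/StarLp.lean` §2).      TEX[LL:bud:common-star] l.511-541, TEX[LL:found:estimates] (A1) line 3.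

ONE CHAIN.  `F : Finset GhPos`, `bcsStp b h F` = the step path which reveals the clocks `bmExt b, bmExt h` at the positions of `F`, `bcsSP m b h F = skSP m 1 (bcsStp b h F) : L8P` (75/257),
`bcsIx F v` = the cut at the mass `v` (= the index used by `IsHub.nLc`, `IsHub.nWw`), `bcsRho κ F l = ∫_{cut l} κ` = the weight of the cut `l`.
DAG.   index/weights: I1-I5 (Mathlib + `Defs/Clk`)   |   chain identities: J1-J6 (`l8i_*`)   |   limits: K1-K5 (`exit_clk_lim_nu`, `exit_clk_lim_stat`, limsup of bounded nets)   |   producers P1-P5, `bcs_world_inst`.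
The only leaf which needs the INSIDE of `L08/Spi*.lean` is J6 `bcs_l8i_rs3` (three labels; two labels = `spf_law`, `l8i_fork`): ask helper257.
-/

set_option autoImplicit false

namespace Claimed.Agent.R286

open MeasureTheory ProbabilityTheory Set Filter Topology

noncomputable section

/-! ## 0. One chain -/

/-- the step path of the chain `F` -/
def bcsStp (b h : ℝ → ℝ) (F : Finset GhPos) : SkStp := skCStp 1 (bmExt b) (bmExt h) 0 0 (ghPs 1 F)
/-- the cut at the mass `v` -/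
def bcsIx (F : Finset GhPos) (v : ℝ) : ℕ := ghIdx (ghPs 1 F) ((ghPosA v : GhPos) : WithTop GhPos)
/-- the weight of the cut `l` -/
def bcsRho (κ : ℝ → ℝ) (F : Finset GhPos) (l : ℕ) : ℝ := ∫ v in (0 : ℝ)..1, if bcsIx F v = l then κ v else 0
/-- the abstract single path of the chain `F` -/
def bcsSP (m : ℕ) (b h : ℝ → ℝ) (F : Finset GhPos) : L8P (SkOm m) m := skSP m 1 (bcsStp b h F)
/-- number of revelations of the chain -/
def bcsLen (F : Finset GhPos) : ℕ := (ghPs 1 F).length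

/-- the chain-level norm of `IsHub.nLc` -/
def bcsNL (m : ℕ) (b h : ℝ → ℝ) (p : ℝ) (κ : ℝ → ℝ) (F : Finset GhPos) : ℝ :=
  bmN1 m 1 (bcsStp b h F) p fun ξ σ => ∫ v in (0 : ℝ)..1, κ v * bmLc m 1 (bcsStp b h F) (bcsIx F v) ξ σ
/-- the chain-level norm of `IsHub.nWw` -/
def bcsNW (m : ℕ) (b h : ℝ → ℝ) (p : ℝ) (κ : ℝ → ℝ) (F : Finset GhPos) : ℝ :=
  bmN1 m 1 (bcsStp b h F) p fun ξ σ => ∫ v in (0 : ℝ)..1, κ v * obW m 1 (bcsStp b h F) 0 (bcsIx F v) ξ σ

/-- `E (∑ ρ_l (L_l - E L_l))^(2r)` on the chain -/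
def bcsML (m : ℕ) (b h : ℝ → ℝ) (r : ℕ) (κ : ℝ → ℝ) (F : Finset GhPos) : ℝ :=
  ∫ ω, ((∑ l ∈ Finset.range (bcsLen F + 1), bcsRho κ F l * (bcsSP m b h F).L l ω)
    - ∫ ω', (∑ l ∈ Finset.range (bcsLen F + 1), bcsRho κ F l * (bcsSP m b h F).L l ω') ∂(bcsSP m b h F).μ) ^ (2 * r) ∂(bcsSP m b h F).μ
/-- `E (∑ ρ_l W_l)^r` on the chain -/
def bcsMW (m : ℕ) (b h : ℝ → ℝ) (r : ℕ) (κ : ℝ → ℝ) (F : Finset GhPos) : ℝ :=
  ∫ ω, (∑ l ∈ Finset.range (bcsLen F + 1), bcsRho κ F l * (bcsSP m b h F).W l ω) ^ r ∂(bcsSP m b h F).μ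

/-- the tree of three labels: `0, 1` share `kc` revelations, the label `2` leaves them after `min k0 kc` revelations -/
def bcsT3 (k0 kc : ℕ) : GhTree 3 where
  sh := fun a b => if a.1 = 2 ∨ b.1 = 2 then min k0 kc else kc
  symm := fun a b => by simp only [or_comm]
  ultra := by
    intro a b c _
    by_cases h : a.1 = 2 ∨ c.1 = 2
    · rw [if_pos h]
      rcases h with h | h
      · rw [if_pos (Or.inl h)]; exact min_le_left _ _
      · rw [if_pos (Or.inr h : b.1 = 2 ∨ c.1 = 2)]; exact min_le_right _ _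
    · rw [if_neg h]
      refine (min_le_left _ _).trans ?_
      split_ifs
      · exact min_le_right _ _
      · exact le_rfl

theorem bcs_w_eqns_cite : True := by
  have := @bcsStp.eq_1; have := @bcsIx.eq_1; have := @bcsRho.eq_1; have := @bcsSP.eq_1; have := @bcsLen.eq_1; have := @bcsNL.eq_1
  have := @bcsNW.eq_1; have := @bcsML.eq_1; have := @bcsMW.eq_1; have := @bcsT3.eq_1
  trivial

section chain
variable {m : ℕ} {b h : ℝ → ℝ}

theorem bcs_w_adm (hb : IsClock 1 b) (hh : IsClock 1 h) : CkAdm 1 (bmExt b) (bmExt h) :=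
  ⟨psi_ext_clk one_pos hb, psi_ext_clk one_pos hh⟩

theorem bcs_w_stp_adm (hb : IsClock 1 b) (hh : IsClock 1 h) (F : Finset GhPos) : SkAdm 1 (bcsStp b h F) :=
  flb_chain_adm zero_le_one (bcs_w_adm hb hh) F

theorem bcs_w_ok (hm : 0 < m) (hb : IsClock 1 b) (hh : IsClock 1 h) (F : Finset GhPos) : (bcsSP m b h F).Ok :=
  l8i_ok m hm 1 one_pos _ (bcs_w_stp_adm hb hh F)

/-! ## 1. Index and weights (I1-I5) -/

theorem bcs_w_stp_len_aux (a : ℝ) (b h : ℝ → ℝ) :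
    ∀ (ps : List GhPos) (b0 h0 : ℝ), (skCStp a b h b0 h0 ps).length = ps.length
  | [], _, _ => rfl
  | p :: ps, b0, h0 => by simp [skCStp, bcs_w_stp_len_aux a b h ps]

theorem bcs_w_stp_ms_aux (a : ℝ) (b h : ℝ → ℝ) :
    ∀ (ps : List GhPos) (b0 h0 : ℝ), (skCStp a b h b0 h0 ps).map SkInc.m = ps.map GhPos.u
  | [], _, _ => rfl
  | p :: ps, b0, h0 => by simp [skCStp, bcs_w_stp_ms_aux a b h ps]

/-- LEAF I1 -/
theorem bcs_w_len (b h : ℝ → ℝ) (F : Finset GhPos) : (bcsStp b h F).length = bcsLen F := by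
  exact bcs_w_stp_len_aux _ _ _ _ _ _

theorem bcs_w_ix_eq_aux (F : Finset GhPos) (v : ℝ) :
    bcsIx F v = ((ghPs 1 F).filter fun x => decide (x ≤ ghPosA v)).length := by
  unfold bcsIx
  rw [gh_ct_idx_eq, if_neg WithTop.coe_ne_top, add_zero]
  simp only [WithTop.coe_le_coe]

theorem bcs_w_posA_le_aux {c v : ℝ} : ghPosA c ≤ ghPosA v ↔ c ≤ v := by
  unfold ghPosA
  rw [Prod.Lex.toLex_le_toLex]
  constructor
  · rintro (h | h)
    · exact h.le
    · exact h.1.le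
  · intro h
    rcases h.lt_or_eq with h | h
    · exact Or.inl h
    · exact Or.inr ⟨h, le_rfl⟩

theorem bcs_w_le_posA_aux {x : GhPos} {v : ℝ} (hx : x ≤ ghPosA v) : x.u ≤ v := by
  unfold ghPosA at hx
  rw [Prod.Lex.le_iff] at hx
  rcases hx with h | h
  · exact h.le
  · exact h.1.le

theorem bcs_w_not_le_posA_aux {x : GhPos} {v : ℝ} (hx : ¬ x ≤ ghPosA v) : v ≤ x.u := by
  by_contra hcon
  push Not at hcon
  apply hx
  unfold ghPosA
  rw [Prod.Lex.le_iff]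
  exact Or.inl hcon

theorem bcs_w_mem_ps_aux {F : Finset GhPos} {x : GhPos} : x ∈ ghPs 1 F ↔ x ∈ F ∧ x.Ok 1 := by
  simp [ghPs]

/-- LEAF I2: the cut index is monotone in the mass, at most the length, and jumps at the masses of the chain -/
theorem bcs_w_ix (F : Finset GhPos) :
    Monotone (bcsIx F) ∧ (∀ v, bcsIx F v ≤ bcsLen F) ∧
      ∀ c ∈ Icc (0 : ℝ) 1, ghPosA c ∈ F → ∀ v, v < c → bcsIx F v < bcsIx F c := by
  have hsub : ∀ v c : ℝ, v ≤ c → ((ghPs 1 F).filter fun x => decide (x ≤ ghPosA v)).Sublist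
      ((ghPs 1 F).filter fun x => decide (x ≤ ghPosA c)) := by
    intro v c hvc
    refine List.monotone_filter_right _ fun x hx => ?_
    simp only [decide_eq_true_eq] at hx ⊢
    exact hx.trans (bcs_w_posA_le_aux.2 hvc)
  refine ⟨fun v c hvc => ?_, fun v => ?_, fun c hc hcF v hvc => ?_⟩
  · rw [bcs_w_ix_eq_aux, bcs_w_ix_eq_aux]
    exact (hsub v c hvc).length_le
  · rw [bcs_w_ix_eq_aux]
    exact List.length_filter_le _ _
  · rw [bcs_w_ix_eq_aux, bcs_w_ix_eq_aux]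
    refine lt_of_le_of_ne (hsub v c hvc.le).length_le fun heq => ?_
    have h1 := (hsub v c hvc.le).eq_of_length heq
    have h2 : ghPosA c ∈ (ghPs 1 F).filter fun x => decide (x ≤ ghPosA c) := by
      rw [List.mem_filter]
      refine ⟨bcs_w_mem_ps_aux.2 ⟨hcF, ?_⟩, by simp⟩
      refine ⟨hc.1, hc.2, ?_, ?_⟩ <;> simp [ghPosA, GhPos.lam]
    rw [← h1, List.mem_filter] at h2
    have h3 := h2.2
    simp only [decide_eq_true_eq] at h3
    exact absurd (bcs_w_posA_le_aux.1 h3) (not_le.2 hvc)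

theorem bcs_w_ii_aux {f : ℝ → ℝ} (hf : Measurable f) {C : ℝ} (hC : ∀ v, |f v| ≤ C) (a b : ℝ) :
    IntervalIntegrable f volume a b :=
  (intervalIntegrable_const (c := C)).mono_fun' hf.aestronglyMeasurable
    (ae_of_all _ fun v => by simpa [Real.norm_eq_abs] using hC v)

theorem bcs_w_ite_meas_aux (F : Finset GhPos) {κ : ℝ → ℝ} (hκ : Measurable κ) (l : ℕ) :
    Measurable (fun v => if bcsIx F v = l then κ v else 0) :=
  Measurable.ite ((bcs_w_ix F).1.measurable (measurableSet_singleton l)) hκ measurable_const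

theorem bcs_w_ite_ii_aux (F : Finset GhPos) {κ : ℝ → ℝ} (hκ : Measurable κ) (hbd : ∃ C, ∀ v, |κ v| ≤ C) (l : ℕ) (a b : ℝ) :
    IntervalIntegrable (fun v => if bcsIx F v = l then κ v else 0) volume a b := by
  obtain ⟨C, hC⟩ := hbd
  refine bcs_w_ii_aux (bcs_w_ite_meas_aux F hκ l) (C := C) (fun v => ?_) a b
  split_ifs
  · exact hC v
  · simpa using (abs_nonneg _).trans (hC v)

/-- LEAF I3: an integral of a function of the cut is a finite sum (`bcsIx F` is a monotone step function: its level sets are intervals, hence measurable) -/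
theorem bcs_w_sum (F : Finset GhPos) {κ : ℝ → ℝ} (hκ : Measurable κ) (hbd : ∃ C, ∀ v, |κ v| ≤ C) (G : ℕ → ℝ) :
    ∫ v in (0 : ℝ)..1, κ v * G (bcsIx F v) = ∑ l ∈ Finset.range (bcsLen F + 1), bcsRho κ F l * G l := by
  have e : ∀ v, κ v * G (bcsIx F v)
      = ∑ l ∈ Finset.range (bcsLen F + 1), (if bcsIx F v = l then κ v else 0) * G l := by
    intro v
    rw [Finset.sum_eq_single (bcsIx F v)]
    · simp
    · intro l _ hl
      rw [if_neg (Ne.symm hl), zero_mul]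
    · intro hl
      exact absurd (Finset.mem_range.2 (Nat.lt_succ_of_le ((bcs_w_ix F).2.1 v))) hl
  simp only [e]
  rw [intervalIntegral.integral_finsetSum fun l _ => (bcs_w_ite_ii_aux F hκ hbd l 0 1).mul_const _]
  refine Finset.sum_congr rfl fun l _ => ?_
  rw [intervalIntegral.integral_mul_const]
  rfl

/-- LEAF I4: the weights of a probability weight on `(a,c)`, when the chain contains the two endpoints -/
theorem bcs_w_rho {κ : ℝ → ℝ} {a c : ℝ} (hκ : BcsWt κ a c) (ha : 0 < a) (hac : a < c) (hc : c < 1) {F : Finset GhPos}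
    (haF : ghPosA a ∈ F) (hcF : ghPosA c ∈ F) :
    (∀ l, 0 ≤ bcsRho κ F l) ∧ (∀ l, l ∉ Finset.Ico (bcsIx F a) (bcsIx F c) → bcsRho κ F l = 0) ∧
      ∑ l ∈ Finset.Ico (bcsIx F a) (bcsIx F c), bcsRho κ F l = 1 := by
  obtain ⟨hmono, hle, hjump⟩ := bcs_w_ix F
  have hbd : ∃ C, ∀ v, |κ v| ≤ C := by
    obtain ⟨C, hC⟩ := hκ.bdd
    exact ⟨C, fun v => by rw [abs_of_nonneg (hκ.nonneg v)]; exact hC v⟩
  have hz : ∀ l, l ∉ Finset.Ico (bcsIx F a) (bcsIx F c) → bcsRho κ F l = 0 := by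
    intro l hl
    unfold bcsRho
    have : (fun v => if bcsIx F v = l then κ v else 0) = fun _ => (0 : ℝ) := by
      funext v
      by_cases h1 : bcsIx F v = l
      · rw [if_pos h1]
        by_contra h2
        have h3 : v ∈ Ioo a c := by
          by_contra h4
          exact h2 (hκ.supp v h4)
        apply hl
        rw [Finset.mem_Ico, ← h1]
        exact ⟨hmono h3.1.le, hjump c ⟨(ha.trans hac).le, hc.le⟩ hcF v h3.2⟩
      · rw [if_neg h1]
    rw [this]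
    simp
  refine ⟨fun l => ?_, hz, ?_⟩
  · unfold bcsRho
    refine intervalIntegral.integral_nonneg zero_le_one fun v _ => ?_
    split_ifs
    · exact hκ.nonneg v
    · exact le_rfl
  · have hsub : Finset.Ico (bcsIx F a) (bcsIx F c) ⊆ Finset.range (bcsLen F + 1) := by
      intro l hl
      rw [Finset.mem_Ico] at hl
      exact Finset.mem_range.2 (lt_of_lt_of_le hl.2 ((hle c).trans (Nat.le_succ _)))
    rw [Finset.sum_subset hsub fun l _ hl => hz l hl]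
    have h1 := bcs_w_sum F hκ.meas hbd (fun _ => 1)
    simp only [mul_one] at h1
    rw [← h1]
    have i1 : ∀ x y, IntervalIntegrable κ volume x y := fun x y => by
      obtain ⟨C, hC⟩ := hbd
      exact bcs_w_ii_aux hκ.meas hC x y
    rw [← intervalIntegral.integral_add_adjacent_intervals (i1 0 a) (i1 a 1),
      ← intervalIntegral.integral_add_adjacent_intervals (i1 a c) (i1 c 1)]
    have z1 : ∫ v in (0 : ℝ)..a, κ v = 0 := by
      rw [intervalIntegral.integral_congr (g := fun _ => (0 : ℝ))]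
      · simp
      · intro v hv
        rw [uIcc_of_le ha.le] at hv
        exact hκ.supp v fun h => absurd h.1 (not_lt.2 hv.2)
    have z2 : ∫ v in c..(1 : ℝ), κ v = 0 := by
      rw [intervalIntegral.integral_congr (g := fun _ => (0 : ℝ))]
      · simp
      · intro v hv
        rw [uIcc_of_le hc.le] at hv
        exact hκ.supp v fun h => absurd h.2 (not_lt.2 hv.1)
    rw [z1, z2, hκ.mass]
    ring

theorem bcs_w_sorted_aux {α : Type} [Preorder α] (p : α → Bool) (hp : ∀ x y, x ≤ y → p y = true → p x = true) :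
    ∀ (ps : List α), ps.Pairwise (· ≤ ·) → ∀ (j : ℕ) (hj : j < ps.length), p ps[j] = true ↔ j < (ps.filter p).length := by
  intro ps
  induction ps with
  | nil => intro _ j hj; simp at hj
  | cons x t ih =>
    intro hs j hj
    rw [List.pairwise_cons] at hs
    by_cases hx : p x = true
    · rw [List.filter_cons_of_pos hx]
      cases j with
      | zero => simp [hx]
      | succ j =>
        simp only [List.getElem_cons_succ, List.length_cons, Nat.add_lt_add_iff_right]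
        exact ih hs.2 j (by simpa using hj)
    · have hall : ∀ y ∈ t, ¬ p y = true := fun y hy hpy => hx (hp x y (hs.1 y hy) hpy)
      have hnil : (x :: t).filter p = [] := by
        rw [List.filter_eq_nil_iff]
        intro y hy
        rcases List.mem_cons.1 hy with rfl | hy
        · exact hx
        · exact hall y hy
      rw [hnil]
      simp only [List.length_nil, Nat.not_lt_zero, iff_false]
      intro hpj
      rcases List.mem_cons.1 (List.getElem_mem hj) with h1 | h1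
      · rw [h1] at hpj; exact hx hpj
      · exact hall _ h1 hpj

theorem bcs_w_ms_aux (b h : ℝ → ℝ) (F : Finset GhPos) (j : ℕ) :
    skMs 1 (bcsStp b h F) j = ((ghPs 1 F).map GhPos.u).getD j 1 := by
  unfold skMs bcsStp
  rw [bcs_w_stp_ms_aux]

/-- the level set of the cut index lies between the masses of the two neighbouring revelations -/
theorem bcs_w_level_aux (b h : ℝ → ℝ) (F : Finset GhPos) {v : ℝ} (hv : v ∈ Icc (0 : ℝ) 1) {l : ℕ} (hl : bcsIx F v = l) :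
    (if l = 0 then 0 else skMs 1 (bcsStp b h F) (l - 1)) ≤ v ∧ v ≤ skMs 1 (bcsStp b h F) l := by
  have hs := gh_os_ps_pairwise 1 F
  have key := bcs_w_sorted_aux (fun x : GhPos => decide (x ≤ ghPosA v))
    (fun x y hxy hy => by simp only [decide_eq_true_eq] at hy ⊢; exact hxy.trans hy) (ghPs 1 F) hs
  rw [bcs_w_ix_eq_aux] at hl
  have hlen : l ≤ (ghPs 1 F).length := by rw [← hl]; exact List.length_filter_le _ _
  constructor
  · by_cases h0 : l = 0
    · rw [if_pos h0]; exact hv.1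
    · rw [if_neg h0, bcs_w_ms_aux]
      have hj : l - 1 < (ghPs 1 F).length := by omega
      rw [List.getD_eq_getElem _ _ (by simpa using hj), List.getElem_map]
      have h1 := (key (l - 1) hj).2 (by rw [hl]; omega)
      simp only [decide_eq_true_eq] at h1
      exact bcs_w_le_posA_aux h1
  · rw [bcs_w_ms_aux]
    by_cases hj : l < (ghPs 1 F).length
    · rw [List.getD_eq_getElem _ _ (by simpa using hj), List.getElem_map]
      have h1 : ¬ (decide ((ghPs 1 F)[l] ≤ ghPosA v) = true) := fun h2 => by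
        have := (key l hj).1 h2
        rw [hl] at this
        exact lt_irrefl _ this
      simp only [decide_eq_true_eq] at h1
      exact bcs_w_not_le_posA_aux h1
    · rw [List.getD_eq_default _ _ (by simpa using hj)]
      exact hv.2

theorem bcs_w_cs_aux {A : Set ℝ} (hfin : volume A ≠ ⊤) {κ : ℝ → ℝ} (hκ : Measurable κ) {C : ℝ}
    (hbd : ∀ v, |κ v| ≤ C) : (∫ v in A, κ v) ^ 2 ≤ (volume A).toReal * ∫ v in A, κ v ^ 2 := by
  have hfm : IsFiniteMeasure (volume.restrict A) := ⟨by simpa using hfin.lt_top⟩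
  have i1 : Integrable κ (volume.restrict A) :=
    Integrable.of_bound hκ.aestronglyMeasurable C (ae_of_all _ fun v => by simpa [Real.norm_eq_abs] using hbd v)
  have i2 : Integrable (fun v => κ v ^ 2) (volume.restrict A) :=
    Integrable.of_bound (hκ.pow_const 2).aestronglyMeasurable (C ^ 2) (ae_of_all _ fun v => by
      rw [Real.norm_eq_abs, abs_pow]
      exact pow_le_pow_left₀ (abs_nonneg _) (hbd v) 2)
  set a := ∫ v in A, κ v with ha
  set q := ∫ v in A, κ v ^ 2 with hq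
  set M := (volume A).toReal with hM
  have hM0 : 0 ≤ M := ENNReal.toReal_nonneg
  have key : 0 ≤ ∫ v in A, (M * κ v - a) ^ 2 := integral_nonneg fun v => sq_nonneg _
  have e : ∫ v in A, (M * κ v - a) ^ 2 = M * (M * q - a ^ 2) := by
    have e1 : ∀ v, (M * κ v - a) ^ 2 = M ^ 2 * κ v ^ 2 - 2 * M * a * κ v + a ^ 2 := fun v => by ring
    simp only [e1]
    have j1 : Integrable (fun v => M ^ 2 * κ v ^ 2) (volume.restrict A) := i2.const_mul _
    have j2 : Integrable (fun v => 2 * M * a * κ v) (volume.restrict A) := i1.const_mul _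
    have j12 : Integrable (fun v => M ^ 2 * κ v ^ 2 - 2 * M * a * κ v) (volume.restrict A) := j1.sub j2
    rw [integral_add j12 (integrable_const _), integral_sub j1 j2, integral_const_mul, integral_const_mul, integral_const]
    simp only [Measure.real, Measure.restrict_apply MeasurableSet.univ, univ_inter, smul_eq_mul]
    rw [← ha, ← hq, ← hM]
    ring
  rw [e] at key
  rcases hM0.eq_or_lt with h0 | h0
  · have hz : volume A = 0 := by
      rcases (ENNReal.toReal_eq_zero_iff _).1 h0.symm with h | h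
      · exact h
      · exact absurd h hfin
    have : a = 0 := by
      rw [ha, Measure.restrict_eq_zero.2 hz]; simp
    rw [this, ← h0]; simp
  · have := nonneg_of_mul_nonneg_right key h0
    linarith

/-- LEAF I5 (Cauchy-Schwarz on a cut): the cut `l` has the length `skGap 1 P l` in mass -/
theorem bcs_w_cs (hb : IsClock 1 b) (hh : IsClock 1 h) (F : Finset GhPos) {κ : ℝ → ℝ} (hκ : Measurable κ) (hbd : ∃ C, ∀ v, |κ v| ≤ C) (l : ℕ) :
    bcsRho κ F l ^ 2 ≤ skGap 1 (bcsStp b h F) l * bcsRho (fun v => κ v ^ 2) F l := by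
  obtain ⟨C, hC⟩ := hbd
  have hms : MeasurableSet {v | bcsIx F v = l} := (bcs_w_ix F).1.measurable (measurableSet_singleton l)
  set A : Set ℝ := Ioc 0 1 ∩ {v | bcsIx F v = l} with hA
  have er : ∀ f : ℝ → ℝ, bcsRho f F l = ∫ v in A, f v := by
    intro f
    unfold bcsRho
    rw [intervalIntegral.integral_of_le zero_le_one, hA, ← setIntegral_indicator hms]
    refine setIntegral_congr_fun measurableSet_Ioc fun v _ => ?_
    by_cases hx : bcsIx F v = l <;> simp [indicator, hx]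
  have hsub : A ⊆ Icc (if l = 0 then 0 else skMs 1 (bcsStp b h F) (l - 1)) (skMs 1 (bcsStp b h F) l) := by
    intro v hv
    exact bcs_w_level_aux b h F ⟨hv.1.1.le, hv.1.2⟩ hv.2
  have hgap : 0 ≤ skGap 1 (bcsStp b h F) l := by
    have hok := bcs_w_ok (m := 1) one_pos hb hh F
    have h1 : ∀ k, (bcsSP 1 b h F).v k = skMs 1 (bcsStp b h F) k := fun _ => rfl
    unfold skGap
    by_cases h0 : l = 0
    · rw [if_pos h0, sub_zero, ← h1]; exact hok.v_nonneg l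
    · rw [if_neg h0, ← h1, ← h1, sub_nonneg]; exact hok.v_mono (Nat.sub_le l 1)
  have hvol : volume A ≤ ENNReal.ofReal (skGap 1 (bcsStp b h F) l) := by
    refine (measure_mono hsub).trans ?_
    rw [Real.volume_Icc]
    exact le_rfl
  have hfin : volume A ≠ ⊤ := ne_top_of_le_ne_top ENNReal.ofReal_ne_top hvol
  have hM : (volume A).toReal ≤ skGap 1 (bcsStp b h F) l := ENNReal.toReal_le_of_le_ofReal hgap hvol
  rw [er, er]
  refine (bcs_w_cs_aux hfin hκ hC).trans (mul_le_mul_of_nonneg_right hM (integral_nonneg fun v => sq_nonneg _))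

/-! ## 2. Chain identities (J1-J6) -/

theorem bcs_w_N1_aux (hb : IsClock 1 b) (hh : IsClock 1 h) (F : Finset GhPos) {T : (ℕ → SkDr m → ℝ) → SkCfg m → ℝ}
    {g : SkOm m → ℝ} (hg : L8Bd g) (e : ∀ ω : SkOm m, T ω.1 ω.2 = g ω) {p : ℝ} (hp : 0 ≤ p) :
    bmN1 m 1 (bcsStp b h F) p T = (∫ ω, |g ω| ^ p ∂(bcsSP m b h F).μ) ^ (1 / p) := by
  unfold bmN1
  rw [← l8i_path_bd m 1 one_pos _ (bcs_w_stp_adm hb hh F) (fun ω => |g ω| ^ p) (l8k_bd_rpow hg hp)
    (fun ξ σ => |T ξ σ| ^ p) (fun ω => by rw [e])]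
  rfl

theorem bcs_w_Lc_aux (hm : 0 < m) (hb : IsClock 1 b) (hh : IsClock 1 h) (F : Finset GhPos) {l : ℕ} (hl : l ≤ bcsLen F)
    (ω : SkOm m) :
    bmLc m 1 (bcsStp b h F) l ω.1 ω.2
      = (bcsSP m b h F).L l ω - ∫ ω', (bcsSP m b h F).L l ω' ∂(bcsSP m b h F).μ := by
  have hadm := bcs_w_stp_adm hb hh F
  have hl' : l ≤ (bcsStp b h F).length := by rw [bcs_w_len]; exact hl
  unfold bmLc
  rw [← l8i_path_bd m 1 one_pos _ hadm ((bcsSP m b h F).L l) ((bcsSP m b h F).l8s_L_bd (bcs_w_ok hm hb hh F) l)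
    (obL m 1 (bcsStp b h F) 0 l) (fun ω => l8i_L m 1 one_pos _ hadm l hl' ω), ← l8i_L m 1 one_pos _ hadm l hl' ω]
  rfl

theorem bcs_w_W_aux (hb : IsClock 1 b) (hh : IsClock 1 h) (F : Finset GhPos) {l : ℕ} (hl : l ≤ bcsLen F) (ω : SkOm m) :
    obW m 1 (bcsStp b h F) 0 l ω.1 ω.2 = (bcsSP m b h F).W l ω := by
  have hl' : l ≤ (bcsStp b h F).length := by rw [bcs_w_len]; exact hl
  exact (l8i_W m 1 one_pos _ (bcs_w_stp_adm hb hh F) l hl' ω).symm

/-- the integrand of `bcsNL` in the variables of the abstract path -/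
theorem bcs_w_fL_aux (hm : 0 < m) (hb : IsClock 1 b) (hh : IsClock 1 h) (F : Finset GhPos) {κ : ℝ → ℝ} (hκ : Measurable κ)
    (hbd : ∃ C, ∀ v, |κ v| ≤ C) (ω : SkOm m) :
    ∫ v in (0 : ℝ)..1, κ v * bmLc m 1 (bcsStp b h F) (bcsIx F v) ω.1 ω.2
      = (∑ l ∈ Finset.range (bcsLen F + 1), bcsRho κ F l * (bcsSP m b h F).L l ω)
        - ∫ ω', (∑ l ∈ Finset.range (bcsLen F + 1), bcsRho κ F l * (bcsSP m b h F).L l ω') ∂(bcsSP m b h F).μ := by
  have hok := bcs_w_ok hm hb hh F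
  have := hok.prob
  rw [bcs_w_sum F hκ hbd (fun l => bmLc m 1 (bcsStp b h F) l ω.1 ω.2),
    integral_finsetSum _ fun l _ => (((bcsSP m b h F).l8s_L_bd hok l).const_mul _).integrable _, ← Finset.sum_sub_distrib]
  refine Finset.sum_congr rfl fun l hl => ?_
  rw [bcs_w_Lc_aux hm hb hh F (Nat.lt_succ_iff.1 (Finset.mem_range.1 hl)) ω, integral_const_mul]
  ring

theorem bcs_w_fW_aux (hb : IsClock 1 b) (hh : IsClock 1 h) (F : Finset GhPos) {κ : ℝ → ℝ} (hκ : Measurable κ)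
    (hbd : ∃ C, ∀ v, |κ v| ≤ C) (ω : SkOm m) :
    ∫ v in (0 : ℝ)..1, κ v * obW m 1 (bcsStp b h F) 0 (bcsIx F v) ω.1 ω.2
      = ∑ l ∈ Finset.range (bcsLen F + 1), bcsRho κ F l * (bcsSP m b h F).W l ω := by
  rw [bcs_w_sum F hκ hbd (fun l => obW m 1 (bcsStp b h F) 0 l ω.1 ω.2)]
  refine Finset.sum_congr rfl fun l hl => ?_
  rw [bcs_w_W_aux hb hh F (Nat.lt_succ_iff.1 (Finset.mem_range.1 hl)) ω]

theorem bcs_w_gL_bd_aux (hm : 0 < m) (hb : IsClock 1 b) (hh : IsClock 1 h) (F : Finset GhPos) (ρ : ℕ → ℝ) :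
    L8Bd (fun ω => (∑ l ∈ Finset.range (bcsLen F + 1), ρ l * (bcsSP m b h F).L l ω)
        - ∫ ω', (∑ l ∈ Finset.range (bcsLen F + 1), ρ l * (bcsSP m b h F).L l ω') ∂(bcsSP m b h F).μ) :=
  (L8Bd.sum _ fun l _ => ((bcsSP m b h F).l8s_L_bd (bcs_w_ok hm hb hh F) l).const_mul _).sub (l8Bd_const _)

theorem bcs_w_gW_bd_aux (hm : 0 < m) (hb : IsClock 1 b) (hh : IsClock 1 h) (F : Finset GhPos) (ρ : ℕ → ℝ) :
    L8Bd (fun ω => ∑ l ∈ Finset.range (bcsLen F + 1), ρ l * (bcsSP m b h F).W l ω) :=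
  L8Bd.sum _ fun l _ => ((bcsSP m b h F).l8s_W_bd (bcs_w_ok hm hb hh F) l).const_mul _

theorem bcs_w_root_aux {x : ℝ} (hx : 0 ≤ x) {n : ℕ} (hn : 1 ≤ n) : (x ^ (1 / (n : ℝ))) ^ n = x := by
  have hn' : (n : ℝ) ≠ 0 := by positivity
  rw [← Real.rpow_natCast, ← Real.rpow_mul hx, one_div, inv_mul_cancel₀ hn', Real.rpow_one]

/-- LEAF J1: the norm of `IsHub.nLc` on one chain (`bmN1`, `bmLc`, I3, `l8i_L`, `l8i_path_bd`; `|t|^(2r) = t^(2r)`) -/
theorem bcs_w_NL (hm : 0 < m) (hb : IsClock 1 b) (hh : IsClock 1 h) (F : Finset GhPos) {κ : ℝ → ℝ} (hκ : Measurable κ) (hbd : ∃ C, ∀ v, |κ v| ≤ C)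
    (r : ℕ) (hr : 1 ≤ r) : 0 ≤ bcsNL m b h (2 * r) κ F ∧ bcsNL m b h (2 * r) κ F ^ (2 * r) = bcsML m b h r κ F := by
  have e1 : bcsNL m b h (2 * r) κ F = (bcsML m b h r κ F) ^ (1 / ((2 * r : ℕ) : ℝ)) := by
    unfold bcsNL
    rw [bcs_w_N1_aux hb hh F (bcs_w_gL_bd_aux hm hb hh F (bcsRho κ F)) (bcs_w_fL_aux hm hb hh F hκ hbd) (by positivity)]
    unfold bcsML
    have e2 : (2 * (r : ℝ)) = ((2 * r : ℕ) : ℝ) := by push_cast; ring
    rw [e2]
    congr 1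
    refine integral_congr_ae (ae_of_all _ fun ω => ?_)
    simp only [Real.rpow_natCast]
    rw [pow_mul, pow_mul, sq_abs]
  have h0 : 0 ≤ bcsML m b h r κ F := by
    unfold bcsML
    refine integral_nonneg fun ω => ?_
    rw [pow_mul]
    positivity
  rw [e1]
  exact ⟨Real.rpow_nonneg h0 _, bcs_w_root_aux h0 (by omega)⟩

theorem bcs_w_rho_nonneg_aux (F : Finset GhPos) {κ : ℝ → ℝ} (h0 : ∀ v, 0 ≤ κ v) (l : ℕ) : 0 ≤ bcsRho κ F l := by
  unfold bcsRho
  refine intervalIntegral.integral_nonneg zero_le_one fun v _ => ?_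
  split_ifs
  · exact h0 v
  · exact le_rfl

/-- LEAF J2: the norm of `IsHub.nWw` on one chain, nonnegative weight (I3, `l8i_W`, `l8s_W_nonneg`) -/
theorem bcs_w_NW (hm : 0 < m) (hb : IsClock 1 b) (hh : IsClock 1 h) (F : Finset GhPos) {κ : ℝ → ℝ} (hκ : Measurable κ) (hbd : ∃ C, ∀ v, |κ v| ≤ C)
    (h0 : ∀ v, 0 ≤ κ v) (r : ℕ) (hr : 1 ≤ r) : 0 ≤ bcsNW m b h r κ F ∧ bcsNW m b h r κ F ^ r = bcsMW m b h r κ F := by
  have hok := bcs_w_ok hm hb hh F
  have hg0 : ∀ ω, 0 ≤ ∑ l ∈ Finset.range (bcsLen F + 1), bcsRho κ F l * (bcsSP m b h F).W l ω := fun ω =>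
    Finset.sum_nonneg fun l _ => mul_nonneg (bcs_w_rho_nonneg_aux F h0 l) ((bcsSP m b h F).l8s_W_nonneg hok l ω)
  have e1 : bcsNW m b h r κ F = (bcsMW m b h r κ F) ^ (1 / (r : ℝ)) := by
    unfold bcsNW
    rw [bcs_w_N1_aux hb hh F (bcs_w_gW_bd_aux hm hb hh F (bcsRho κ F)) (bcs_w_fW_aux hb hh F hκ hbd) (by positivity)]
    unfold bcsMW
    congr 1
    refine integral_congr_ae (ae_of_all _ fun ω => ?_)
    simp only [Real.rpow_natCast]
    rw [abs_of_nonneg (hg0 ω)]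
  have h1 : 0 ≤ bcsMW m b h r κ F := by
    unfold bcsMW
    exact integral_nonneg fun ω => pow_nonneg (hg0 ω) _
  rw [e1]
  exact ⟨Real.rpow_nonneg h1 _, bcs_w_root_aux h1 hr⟩

theorem bcs_w_norm_le_aux {Ω : Type} [MeasurableSpace Ω] {μ : Measure Ω} [IsProbabilityMeasure μ] {g : Ω → ℝ} (hg : L8Bd g)
    {B : ℝ} (hB : ∀ ω, |g ω| ≤ B) {p : ℝ} (hp : 1 ≤ p) :
    0 ≤ (∫ ω, |g ω| ^ p ∂μ) ^ (1 / p) ∧ (∫ ω, |g ω| ^ p ∂μ) ^ (1 / p) ≤ B := by
  obtain ⟨ω0⟩ := nonempty_of_isProbabilityMeasure μ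
  have hB0 : 0 ≤ B := (abs_nonneg _).trans (hB ω0)
  have hp0 : 0 < p := by linarith
  have h0 : 0 ≤ ∫ ω, |g ω| ^ p ∂μ := integral_nonneg fun ω => Real.rpow_nonneg (abs_nonneg _) _
  have h1 : ∫ ω, |g ω| ^ p ∂μ ≤ B ^ p := by
    have := integral_mono ((l8k_bd_rpow hg hp0.le).integrable μ) (integrable_const (B ^ p)) fun ω =>
      Real.rpow_le_rpow (abs_nonneg _) (hB ω) hp0.le
    simpa using this
  refine ⟨Real.rpow_nonneg h0 _, (Real.rpow_le_rpow h0 h1 (by positivity)).trans (le_of_eq ?_)⟩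
  rw [← Real.rpow_mul hB0, mul_one_div_cancel hp0.ne', Real.rpow_one]

theorem bcs_w_int_le_aux {κ G : ℝ → ℝ} {C B : ℝ} (hbd : ∀ v, |κ v| ≤ C) (hG : ∀ v, |G v| ≤ B) :
    |∫ v in (0 : ℝ)..1, κ v * G v| ≤ B * C := by
  have h1 := intervalIntegral.norm_integral_le_of_norm_le_const (a := (0 : ℝ)) (b := 1) (f := fun v => κ v * G v) (C := B * C)
    (fun v _ => by
      rw [Real.norm_eq_abs, abs_mul, mul_comm]
      exact mul_le_mul (hG v) (hbd v) (abs_nonneg _) ((abs_nonneg _).trans (hG v)))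
  simpa [Real.norm_eq_abs] using h1

/-- LEAF J3: the two nets are bounded (`|L| ≤ 3/2`: `l8s_L_abs_le`; `0 ≤ W ≤ 4`: `l8s_W_le`), any real order `p ≥ 1` -/
theorem bcs_w_bdd (hm : 0 < m) (hb : IsClock 1 b) (hh : IsClock 1 h) {κ : ℝ → ℝ} (hκ : Measurable κ) {C : ℝ} (hbd : ∀ v, |κ v| ≤ C) (p : ℝ) (hp : 1 ≤ p) :
    ∀ F, (0 ≤ bcsNL m b h p κ F ∧ bcsNL m b h p κ F ≤ 3 * C) ∧ (0 ≤ bcsNW m b h p κ F ∧ bcsNW m b h p κ F ≤ 4 * C) := by
  intro F
  have hok := bcs_w_ok hm hb hh F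
  have := hok.prob
  have hp0 : 0 ≤ p := by linarith
  constructor
  · unfold bcsNL
    rw [bcs_w_N1_aux hb hh F (bcs_w_gL_bd_aux hm hb hh F (bcsRho κ F)) (bcs_w_fL_aux hm hb hh F hκ ⟨C, hbd⟩) hp0]
    refine bcs_w_norm_le_aux (bcs_w_gL_bd_aux hm hb hh F (bcsRho κ F)) (fun ω => ?_) hp
    rw [← bcs_w_fL_aux hm hb hh F hκ ⟨C, hbd⟩ ω]
    refine bcs_w_int_le_aux hbd fun v => ?_
    rw [bcs_w_Lc_aux hm hb hh F ((bcs_w_ix F).2.1 v) ω]
    have h1 := (bcsSP m b h F).l8s_L_abs_le hok (bcsIx F v) ω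
    have h2 : |∫ ω', (bcsSP m b h F).L (bcsIx F v) ω' ∂(bcsSP m b h F).μ| ≤ 3 / 2 := by
      have := norm_integral_le_of_norm_le_const (μ := (bcsSP m b h F).μ) (f := (bcsSP m b h F).L (bcsIx F v)) (C := 3 / 2)
        (ae_of_all _ fun x => by simpa [Real.norm_eq_abs] using (bcsSP m b h F).l8s_L_abs_le hok (bcsIx F v) x)
      simpa [Real.norm_eq_abs] using this
    calc _ ≤ |(bcsSP m b h F).L (bcsIx F v) ω| + |∫ ω', (bcsSP m b h F).L (bcsIx F v) ω' ∂(bcsSP m b h F).μ| := abs_sub _ _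
      _ ≤ 3 := by linarith
  · unfold bcsNW
    rw [bcs_w_N1_aux hb hh F (bcs_w_gW_bd_aux hm hb hh F (bcsRho κ F)) (bcs_w_fW_aux hb hh F hκ ⟨C, hbd⟩) hp0]
    refine bcs_w_norm_le_aux (bcs_w_gW_bd_aux hm hb hh F (bcsRho κ F)) (fun ω => ?_) hp
    rw [← bcs_w_fW_aux hb hh F hκ ⟨C, hbd⟩ ω]
    refine bcs_w_int_le_aux hbd fun v => ?_
    rw [bcs_w_W_aux hb hh F ((bcs_w_ix F).2.1 v) ω, abs_of_nonneg ((bcsSP m b h F).l8s_W_nonneg hok _ ω)]
    have hn : (bcsSP m b h F).n = bcsLen F := bcs_w_len b h F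
    have h1 := (bcsSP m b h F).l8s_W_le hok (k := bcsIx F v) (by rw [hn]; exact ((bcs_w_ix F).2.1 v).trans (Nat.le_succ _)) ω
    have ha : (bcsSP m b h F).a = 1 := rfl
    rw [ha] at h1
    linarith

/-- LEAF J4 ((A1) line 3 on one chain): `l8i_pin` with the polynomial `X` and `w l = ρ_l/dv_l`; `dv_l w_l² = ρ_l²/dv_l ≤ ρ⁽²⁾_l` (I5; `ρ_l = 0` if `dv_l = 0`); `W ≥ 0` -/
theorem bcs_w_pin (hm : 0 < m) (hb : IsClock 1 b) (hh : IsClock 1 h) (F : Finset GhPos) {κ : ℝ → ℝ} (hκ : Measurable κ) (hbd : ∃ C, ∀ v, |κ v| ≤ C)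
    (r : ℕ) (hr : 1 ≤ r) : bcsML m b h r κ F ≤ (1 + (2 * r : ℝ) ^ 2 / 3) ^ r * bcsMW m b h r (fun v => κ v ^ 2) F := by
  have hok := bcs_w_ok hm hb hh F
  have := hok.prob
  have hadm := bcs_w_stp_adm hb hh F
  have hn : (bcsSP m b h F).n = bcsLen F := bcs_w_len b h F
  have hdv : ∀ k, (bcsSP m b h F).dv k = skGap 1 (bcsStp b h F) k := fun _ => rfl
  have hcs := fun l => bcs_w_cs hb hh F hκ hbd l
  have hq0 : ∀ l, 0 ≤ bcsRho (fun v => κ v ^ 2) F l := fun l => bcs_w_rho_nonneg_aux F (fun v => sq_nonneg _) l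
  have hgap : ∀ l, 0 ≤ skGap 1 (bcsStp b h F) l := by
    intro l
    have h1 : ∀ k, (bcsSP m b h F).v k = skMs 1 (bcsStp b h F) k := fun _ => rfl
    unfold skGap
    by_cases h0 : l = 0
    · rw [if_pos h0, sub_zero, ← h1]; exact hok.v_nonneg l
    · rw [if_neg h0, ← h1, ← h1, sub_nonneg]; exact hok.v_mono (Nat.sub_le l 1)
  set w : ℕ → ℝ := fun l => bcsRho κ F l / skGap 1 (bcsStp b h F) l with hw
  have key1 : ∀ l, skGap 1 (bcsStp b h F) l * w l = bcsRho κ F l := by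
    intro l
    simp only [hw]
    by_cases h0 : skGap 1 (bcsStp b h F) l = 0
    · have h1 := hcs l
      rw [h0, zero_mul] at h1
      have h2 : bcsRho κ F l = 0 := by
        have := le_antisymm h1 (sq_nonneg _)
        exact pow_eq_zero_iff (two_ne_zero) |>.1 this
      rw [h0, h2]; simp
    · field_simp
  have key2 : ∀ l, skGap 1 (bcsStp b h F) l * w l ^ 2 ≤ bcsRho (fun v => κ v ^ 2) F l := by
    intro l
    simp only [hw]
    by_cases h0 : skGap 1 (bcsStp b h F) l = 0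
    · rw [h0, zero_mul]; exact hq0 l
    · have hp : 0 < skGap 1 (bcsStp b h F) l := lt_of_le_of_ne (hgap l) (Ne.symm h0)
      have e : skGap 1 (bcsStp b h F) l * (bcsRho κ F l / skGap 1 (bcsStp b h F) l) ^ 2
          = bcsRho κ F l ^ 2 / skGap 1 (bcsStp b h F) l := by field_simp
      rw [e, div_le_iff₀ hp, mul_comm]
      exact hcs l
  have hP := l8i_pin m hm 1 one_pos _ hadm r hr w (fun _ => Polynomial.X)
  simp only [Polynomial.eval_X, Polynomial.derivative_X, Polynomial.eval_one, one_pow, mul_one] at hP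
  change ∫ ω, (∑ k ∈ Finset.range ((bcsSP m b h F).n + 1), (bcsSP m b h F).dv k * w k *
        ((bcsSP m b h F).L k ω - ∫ ω', (bcsSP m b h F).L k ω' ∂(bcsSP m b h F).μ)) ^ (2 * r) ∂(bcsSP m b h F).μ
      ≤ (1 + (2 * r : ℝ) ^ 2 / 3) ^ r * ∫ ω, (∑ k ∈ Finset.range ((bcsSP m b h F).n + 1),
        (bcsSP m b h F).dv k * w k ^ 2 * (bcsSP m b h F).W k ω) ^ r ∂(bcsSP m b h F).μ at hP
  rw [hn] at hP
  simp only [hdv, key1] at hP
  have eL : bcsML m b h r κ F = ∫ ω, (∑ k ∈ Finset.range (bcsLen F + 1), bcsRho κ F k *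
        ((bcsSP m b h F).L k ω - ∫ ω', (bcsSP m b h F).L k ω' ∂(bcsSP m b h F).μ)) ^ (2 * r) ∂(bcsSP m b h F).μ := by
    unfold bcsML
    refine integral_congr_ae (ae_of_all _ fun ω => ?_)
    simp only
    congr 1
    rw [integral_finsetSum _ fun l _ => (((bcsSP m b h F).l8s_L_bd hok l).const_mul _).integrable _, ← Finset.sum_sub_distrib]
    refine Finset.sum_congr rfl fun l _ => ?_
    rw [integral_const_mul]; ring
  rw [eL]
  refine hP.trans (mul_le_mul_of_nonneg_left ?_ (by positivity))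
  unfold bcsMW
  have b1 : L8Bd (fun ω => ∑ k ∈ Finset.range (bcsLen F + 1), skGap 1 (bcsStp b h F) k * w k ^ 2 * (bcsSP m b h F).W k ω) :=
    bcs_w_gW_bd_aux hm hb hh F (fun k => skGap 1 (bcsStp b h F) k * w k ^ 2)
  refine integral_mono ((b1.pow _).integrable _) (((bcs_w_gW_bd_aux hm hb hh F _).pow _).integrable _) fun ω => ?_
  refine pow_le_pow_left₀ (Finset.sum_nonneg fun l _ =>
    mul_nonneg (mul_nonneg (hgap l) (sq_nonneg _)) ((bcsSP m b h F).l8s_W_nonneg hok l ω)) ?_ _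
  exact Finset.sum_le_sum fun l _ => mul_le_mul_of_nonneg_right (key2 l) ((bcsSP m b h F).l8s_W_nonneg hok l ω)

/-- the overlap of the two branches -/
theorem bcs_w_Q (hm : 0 < m) (a : ℝ) (P : SkStp) (q : SkOm m × SkOm m) : (skSP m a P).Q q = skOv q.1.2 q.2.2 := by
  have hm' : (0 : ℝ) < m := by exact_mod_cast hm
  show ∑ i, skY q.1.2 i * skY q.2.2 i = skOv q.1.2 q.2.2
  unfold skOv skY
  rw [Finset.sum_div]
  refine Finset.sum_congr rfl fun i _ => ?_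
  rw [div_mul_div_comm, Real.mul_self_sqrt hm'.le]

theorem bcs_w_tree2 (v : ℝ) : (bmTree fun _ _ => v) = ghR2 (ghPosA v) := rfl

/-- LEAF J5: the two-label numbers on one chain (`ckNuF`, `ghRepN 2 (ghDisc ps (bmTree ..)) = (obT2 k).rep`, `l8i_fork`, `skOv = ∑ skY skY`) -/
theorem bcs_w_fork (hm : 0 < m) (hb : IsClock 1 b) (hh : IsClock 1 h) (F : Finset GhPos) (v : ℝ) (φ : ℝ → ℝ) (hφ : Measurable φ)
    (hφb : ∃ C, ∀ t ∈ Icc (-1 : ℝ) 1, |φ t| ≤ C) :
    ckNuF m 1 (bmExt b) (bmExt h) 2 (bmTree fun _ _ => v) (bmTest m 2 fun O => φ (O 0 1)) (ghPs 1 F)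
      = ∫ q, φ ((bcsSP m b h F).Q q) ∂((bcsSP m b h F).fork (bcsIx F v)) := by
  obtain ⟨C, hC⟩ := hφb
  have hk : bcsIx F v ≤ (bcsStp b h F).length := by rw [bcs_w_len]; exact (bcs_w_ix F).2.1 v
  have h1 := l8i_fork m 1 one_pos (bcsStp b h F) (bcs_w_stp_adm hb hh F) (bcsIx F v) hk
    (fun _ σ => φ (skOv (σ 0) (σ 1))) (Measurable.of_discrete.comp
      ((measurable_snd.comp measurable_fst).prodMk (measurable_snd.comp measurable_snd)) (g := fun x : SkCfg m × SkCfg m => φ (skOv x.1 x.2))) C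
    (fun _ σ => hC _ (abs_le.1 (brg_n_ov_abs _ _)))
  have e1 : ∀ q : SkOm m × SkOm m, φ ((bcsSP m b h F).Q q) = φ (skOv (skSp2 q 0) (skSp2 q 1)) := fun q => by
    unfold bcsSP
    rw [bcs_w_Q hm]
    rfl
  simp only [e1]
  unfold bcsSP
  rw [h1]
  unfold ckNuF GhTree.nu
  rw [bcs_w_tree2, brg_ss_rep2]
  rfl

/-- product tests under the law `fork k0 ⊗ κ kc (first branch)` -/
theorem L8P.bcs_rs3_prod_aux {Ω : Type} [mΩ : MeasurableSpace Ω] {m : ℕ} {P : L8P Ω m} (h : P.Ok) {k0 kc : ℕ} (hk : k0 ≤ kc)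
    {f0 f1 f2 : Ω → ℝ} (h0 : L8Bd f0) (h1 : L8Bd f1) (h2 : L8Bd f2) :
    ∫ p, ∫ a, f0 p.1 * f1 a * f2 p.2 ∂(P.κ kc p.1) ∂(P.fork k0) = ∫ ω, P.E kc f0 ω * P.E kc f1 ω * P.E k0 f2 ω ∂P.μ := by
  have e1 : ∀ p : Ω × Ω, ∫ a, f0 p.1 * f1 a * f2 p.2 ∂(P.κ kc p.1) = (f0 p.1 * P.E kc f1 p.1) * f2 p.2 := fun p => by
    rw [integral_mul_const, integral_const_mul]; rfl
  simp only [e1]
  have hE1 := l8k_E_bd h h1 kc
  have hE2 := l8k_E_bd h h2 k0
  have hg : L8Bd fun ω => f0 ω * P.E kc f1 ω := l8k_bd_mul h0 hE1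
  rw [P.l8s_fork_prod h k0 hg h2]
  have e2 : ∫ ω, P.E k0 (fun ω => f0 ω * P.E kc f1 ω) ω * P.E k0 f2 ω ∂P.μ = ∫ ω, P.E k0 f2 ω * (f0 ω * P.E kc f1 ω) ∂P.μ := by
    rw [l8k_integral_E_mul h h2 hg k0]
    exact integral_congr_ae (ae_of_all _ fun ω => mul_comm _ _)
  rw [e2]
  have hm2 : Measurable[P.ℱ kc] (P.E k0 f2) := (l8k_E_meas h h2 k0).mono (P.ℱ.mono hk) le_rfl
  have hG : Measurable[P.ℱ kc] fun ω => P.E kc f1 ω * P.E k0 f2 ω := (l8k_E_meas h h1 kc).mul hm2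
  have e3 := P.l8s_integral_mul_E h kc hG (l8k_bd_mul hE1 hE2) h0
  calc ∫ ω, P.E k0 f2 ω * (f0 ω * P.E kc f1 ω) ∂P.μ = ∫ ω, P.E kc f1 ω * P.E k0 f2 ω * f0 ω ∂P.μ :=
        integral_congr_ae (ae_of_all _ fun ω => by ring)
    _ = ∫ ω, P.E kc f1 ω * P.E k0 f2 ω * P.E kc f0 ω ∂P.μ := e3.symm
    _ = _ := integral_congr_ae (ae_of_all _ fun ω => by ring)

/-- conditional mean of a spin test on the SK single path -/
theorem bcs_l8i_E_spin (n : ℕ) (a : ℝ) (ha : 0 < a) (P : SkStp) (hP : SkAdm a P) (k : ℕ) (hk : k ≤ P.length) (φ : SkCfg n → ℝ) (ω : SkOm n) :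
    (skSP n a P).E k (fun ω' => φ ω'.2) ω = ghE (skBase n a) ((skLvs n P).drop k) φ (0 + ghPre (skLvs n P) ω.1 k) := by
  have hm : Measurable fun ω' : SkOm n => φ ω'.2 := (Measurable.of_discrete (f := φ)).comp measurable_snd
  rw [l8i_eq, spi_E (obt_base_ok n ha) (l8i_reg ha hP) 0 _ _ (by simpa [skLvs] using hk) ω _ hm (∑ s, |φ s|)
    (fun ω' => Finset.single_le_sum (f := fun s => |φ s|) (fun _ _ => abs_nonneg _) (Finset.mem_univ ω'.2)), spi_path_spin]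
  rfl

/-- depths of the caterpillar `bcsT3` -/
def bcsD3 (k0 kc : ℕ) (x : ℕ) : ℕ := if x = 2 then k0 else kc

theorem bcs_w_d3_eqns_cite : True := by
  have := @bcsD3.eq_1
  trivial

theorem bcs_w_T3_rep {k0 kc : ℕ} (hk : k0 ≤ kc) :
    (bcsT3 k0 kc).rep = ghRepN 3 fun x y => min (bcsD3 k0 kc x) (bcsD3 k0 kc y) := by
  funext t a
  unfold ghRepN GhTree.rep
  congr 1
  ext b
  simp only [Finset.mem_filter, Finset.mem_univ, true_and]
  by_cases hb : b = a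
  · simp [hb]
  · have hab : a.1 ≠ b.1 := fun h => hb (Fin.ext h.symm)
    simp only [hb, false_or, bcsT3, bcsD3]
    by_cases h1 : a.1 = 2 <;> by_cases h2 : b.1 = 2 <;> simp [h1, h2, hk]

/-- product tests: the law `fork k0 ⊗ κ kc (first branch)` is the tree law of `bcsT3 k0 kc` -/
theorem bcs_l8i_rs3_prod (n : ℕ) (hn : 1 ≤ n) (a : ℝ) (ha : 0 < a) (P : SkStp) (hP : SkAdm a P) {k0 kc : ℕ} (hk : k0 ≤ kc) (hkc : kc ≤ P.length)
    (φ : ℕ → SkCfg n → ℝ) :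
    ∫ p, ∫ a', φ 0 p.1.2 * φ 1 a'.2 * φ 2 p.2.2 ∂((skSP n a P).κ kc p.1) ∂((skSP n a P).fork k0)
      = (bcsT3 k0 kc).nu (skBase n a) (skLvs n P) 0 fun _ σ => ∏ x : Fin 3, φ x.1 (σ x) := by
  have hok := l8i_ok n hn a ha P hP
  have hB := obt_base_ok n ha
  have hls : GhNn (skLvs n P) := (l8i_adm hP).ghNn le_rfl
  have hbd : ∀ ψ : SkCfg n → ℝ, L8Bd fun ω : SkOm n => ψ ω.2 := fun ψ =>
    ⟨(Measurable.of_discrete (f := ψ)).comp measurable_snd, ∑ s, |ψ s|,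
      fun ω => Finset.single_le_sum (f := fun s => |ψ s|) (fun _ _ => abs_nonneg _) (Finset.mem_univ ω.2)⟩
  rw [L8P.bcs_rs3_prod_aux hok hk (hbd (φ 0)) (hbd (φ 1)) (hbd (φ 2))]
  simp only [bcs_l8i_E_spin n a ha P hP kc hkc, bcs_l8i_E_spin n a ha P hP k0 (hk.trans hkc)]
  have hlen : (skLvs n P).length = P.length := by simp [skLvs]
  have hd : ∀ x, x < 3 → bcsD3 k0 kc x ≤ (skLvs n P).length := fun x _ => by
    rw [hlen]; unfold bcsD3; split_ifs
    · exact hk.trans hkc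
    · exact hkc
  have hmain := gh_cat_main (skBase n a) hB (skLvs n P) hls 0 3 (bcsD3 k0 kc) hd
    (fun x y => min (bcsD3 k0 kc x) (bcsD3 k0 kc y)) (fun _ _ _ _ _ => rfl) φ
  unfold GhTree.nu
  rw [bcs_w_T3_rep hk, hmain]
  obtain ⟨C, hC⟩ := gh_cat_prod_bdd (skBase n a) hB (skLvs n P) hls 0 3 (bcsD3 k0 kc) φ
  have hp := l8i_path n a ha P hP
    (fun ξ _ => ∏ x : Fin 3, ghE (skBase n a) ((skLvs n P).drop (bcsD3 k0 kc x.1)) (φ x.1) (0 + ghPre (skLvs n P) ξ (bcsD3 k0 kc x.1)))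
    ((gh_cat_prod_meas (skBase n a) hB (skLvs n P) hls 0 3 (bcsD3 k0 kc) φ).comp measurable_fst) C (fun ξ _ => hC ξ)
  unfold obE at hp
  rw [← hp]
  refine integral_congr_ae (ae_of_all _ fun ω => ?_)
  simp only [Fin.prod_univ_three]
  rfl

/-- indicator tests -/
def bcsInd {n : ℕ} (s : Fin 3 → SkCfg n) (x : ℕ) (σ : SkCfg n) : ℝ := if h : x < 3 then (if σ = s ⟨x, h⟩ then 1 else 0) else 1

theorem bcs_w_ind_eqns_cite : True := by
  have := @bcsInd.eq_1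
  trivial

theorem bcs_w_ind_sum {n : ℕ} (T : (Fin 3 → SkCfg n) → ℝ) (σ : Fin 3 → SkCfg n) :
    T σ = ∑ s : Fin 3 → SkCfg n, T s * (bcsInd s 0 (σ 0) * bcsInd s 1 (σ 1) * bcsInd s 2 (σ 2)) := by
  classical
  rw [Finset.sum_eq_single σ]
  · simp [bcsInd]
  · intro s _ hs
    have : ∃ x, σ x ≠ s x := by
      by_contra hcon
      push Not at hcon
      exact hs (funext fun x => (hcon x).symm)
    obtain ⟨x, hx⟩ := this
    have h0 : bcsInd s 0 (σ 0) * bcsInd s 1 (σ 1) * bcsInd s 2 (σ 2) = 0 := by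
      fin_cases x
      · have : bcsInd s 0 (σ 0) = 0 := by simpa [bcsInd] using hx
        rw [this]; ring
      · have : bcsInd s 1 (σ 1) = 0 := by simpa [bcsInd] using hx
        rw [this]; ring
      · have : bcsInd s 2 (σ 2) = 0 := by simpa [bcsInd] using hx
        rw [this]; ring
    rw [h0, mul_zero]
  · intro h; exact absurd (Finset.mem_univ _) h

/-- LEAF J6a (three labels, INSIDE of `L08/Spi*`): the law `fork k0 ⊗ κ kc (first branch)` is the tree law of `bcsT3 k0 kc` (labels: `0` = first branch, `1` = its resampling from `kc`, `2` = second branch) -/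
theorem bcs_l8i_rs3 (n : ℕ) (hn : 1 ≤ n) (a : ℝ) (ha : 0 < a) (P : SkStp) (hP : SkAdm a P) {k0 kc : ℕ} (hk : k0 ≤ kc) (hkc : kc ≤ P.length) (r : ℕ) :
    (skSP n a P).bcsRs3 k0 kc r
      = (bcsT3 k0 kc).nu (skBase n a) (skLvs n P) 0 fun _ σ => (skOv (σ 0) (σ 2) - skOv (σ 1) (σ 2)) ^ (2 * r) := by
  classical
  have hok := l8i_ok n hn a ha P hP
  have hB := obt_base_ok n ha
  have hls : GhNn (skLvs n P) := (l8i_adm hP).ghNn le_rfl
  have hn' : 0 < n := hn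
  set T : (Fin 3 → SkCfg n) → ℝ := fun σ => (skOv (σ 0) (σ 2) - skOv (σ 1) (σ 2)) ^ (2 * r) with hT
  -- the right side
  have hR : (bcsT3 k0 kc).nu (skBase n a) (skLvs n P) 0 (fun _ σ => T σ)
      = ∑ s : Fin 3 → SkCfg n, T s * (bcsT3 k0 kc).nu (skBase n a) (skLvs n P) 0 fun _ σ => ∏ x : Fin 3, bcsInd s x.1 (σ x) := by
    unfold GhTree.nu
    have e : (fun (_ : ℕ → Fin 3 → SkDr n → ℝ) (σ : Fin 3 → SkCfg n) => T σ)
        = fun _ σ => ∑ s : Fin 3 → SkCfg n, T s * ∏ x : Fin 3, bcsInd s x.1 (σ x) := by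
      funext _ σ
      rw [bcs_w_ind_sum T σ]
      exact Finset.sum_congr rfl fun s _ => by rw [Fin.prod_univ_three]; rfl
    rw [e, gh_c4_sum (skBase n a) hB (skLvs n P) hls]
    exact Finset.sum_congr rfl fun s _ => gh_n_smul (skBase n a) (T s) (skLvs n P) _ _ _
  rw [hR]
  simp only [← bcs_l8i_rs3_prod n hn a ha P hP hk hkc]
  -- the left side
  have hbd : ∀ ψ : SkCfg n → ℝ, L8Bd fun ω : SkOm n => ψ ω.2 := fun ψ =>
    ⟨(Measurable.of_discrete (f := ψ)).comp measurable_snd, ∑ s, |ψ s|,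
      fun ω => Finset.single_le_sum (f := fun s => |ψ s|) (fun _ _ => abs_nonneg _) (Finset.mem_univ ω.2)⟩
  have hpt : ∀ (p : SkOm n × SkOm n) (a' : SkOm n),
      (∑ i, ((skSP n a P).y i p.1 - (skSP n a P).y i a') * (skSP n a P).y i p.2) ^ (2 * r)
        = ∑ s : Fin 3 → SkCfg n, T s * (bcsInd s 0 p.1.2 * bcsInd s 1 a'.2 * bcsInd s 2 p.2.2) := fun p a' => by
    have e1 : ∑ i, ((skSP n a P).y i p.1 - (skSP n a P).y i a') * (skSP n a P).y i p.2 = skOv p.1.2 p.2.2 - skOv a'.2 p.2.2 := by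
      rw [← bcs_w_Q hn' a P (p.1, p.2), ← bcs_w_Q hn' a P (a', p.2)]
      unfold L8P.Q
      rw [← Finset.sum_sub_distrib]
      exact Finset.sum_congr rfl fun i _ => by ring
    rw [e1]
    exact bcs_w_ind_sum T ![p.1.2, a'.2, p.2.2]
  unfold L8P.bcsRs3
  simp only [hpt]
  have hG : ∀ s : Fin 3 → SkCfg n, L8Bd fun x : (SkOm n × SkOm n) × SkOm n =>
      T s * (bcsInd s 0 x.1.1.2 * bcsInd s 1 x.2.2 * bcsInd s 2 x.1.2.2) := fun s =>
    l8k_bd_const_mul _ (l8k_bd_mul (l8k_bd_mul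
      (l8k_bd_comp (φ := fun x : (SkOm n × SkOm n) × SkOm n => x.1.1) (measurable_fst.comp measurable_fst) (hbd (bcsInd s 0)))
      (l8k_bd_comp (φ := fun x : (SkOm n × SkOm n) × SkOm n => x.2) measurable_snd (hbd (bcsInd s 1))))
      (l8k_bd_comp (φ := fun x : (SkOm n × SkOm n) × SkOm n => x.1.2) (measurable_snd.comp measurable_fst) (hbd (bcsInd s 2))))
  have hin : ∀ p : SkOm n × SkOm n, ∫ a', ∑ s : Fin 3 → SkCfg n, T s * (bcsInd s 0 p.1.2 * bcsInd s 1 a'.2 * bcsInd s 2 p.2.2) ∂((skSP n a P).κ kc p.1)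
      = ∑ s : Fin 3 → SkCfg n, ∫ a', T s * (bcsInd s 0 p.1.2 * bcsInd s 1 a'.2 * bcsInd s 2 p.2.2) ∂((skSP n a P).κ kc p.1) := fun p =>
    integral_finsetSum _ fun s _ => l8k_int_ker hok (l8k_bd_comp (measurable_const.prodMk measurable_id) (hG s) (φ := fun a' => (p, a'))) kc p.1
  simp only [hin]
  have := (skSP n a P).l8s_fork_prob hok k0
  rw [integral_finsetSum _ fun s _ => l8k_bd_integrable (L8P.bcs_inner3_bd_aux hok kc (hG s)) _]
  refine Finset.sum_congr rfl fun s _ => ?_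
  simp only [integral_const_mul]

/-- LEAF J6b: the three-label number on one chain (`ghRepN 3 (ghDisc ps (bmTree ..)) = (bcsT3 k0 kc).rep`) -/
theorem bcs_w_rs3 (hm : 0 < m) (hb : IsClock 1 b) (hh : IsClock 1 h) (F : Finset GhPos) {v0 vc : ℝ} (hv : v0 ≤ vc) (r : ℕ) :
    ckNuF m 1 (bmExt b) (bmExt h) 3 (bmTree fun a e => if a = 2 ∨ e = 2 then v0 else vc) (bmTest m 3 fun O => (O 0 2 - O 1 2) ^ (2 * r)) (ghPs 1 F)
      = (bcsSP m b h F).bcsRs3 (bcsIx F v0) (bcsIx F vc) r := by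
  have hk : bcsIx F v0 ≤ bcsIx F vc := (bcs_w_ix F).1 hv
  have hkc : bcsIx F vc ≤ (bcsStp b h F).length := by rw [bcs_w_len]; exact (bcs_w_ix F).2.1 vc
  unfold bcsSP
  rw [bcs_l8i_rs3 m hm 1 one_pos (bcsStp b h F) (bcs_w_stp_adm hb hh F) hk hkc r]
  unfold ckNuF GhTree.nu
  have hrep : ghRepN 3 (ghDisc (ghPs 1 F) (bmTree fun a e => if a = 2 ∨ e = 2 then v0 else vc)) = (bcsT3 (bcsIx F v0) (bcsIx F vc)).rep := by
    rw [bcs_w_T3_rep hk]
    funext t a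
    unfold ghRepN
    congr 1
    ext e
    simp only [Finset.mem_filter, Finset.mem_univ, true_and]
    by_cases he : e = a
    · simp [he]
    · have hae : a.1 ≠ e.1 := fun h => he (Fin.ext h.symm)
      simp only [he, false_or, ghDisc, bmTree, if_neg hae, bcsD3]
      have hk' : ghIdx (ghPs 1 F) ((ghPosA v0 : GhPos) : WithTop GhPos) ≤ ghIdx (ghPs 1 F) ((ghPosA vc : GhPos) : WithTop GhPos) := hk
      by_cases h1 : a.1 = 2 <;> by_cases h2 : e.1 = 2 <;> simp [h1, h2, bcsIx] <;> omega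
  rw [hrep]
  rfl

end chain

/-! ## 3. Limits along the net (K1-K5) -/

/-- LEAF K1 (limsup of bounded nets, Mathlib only) -/
theorem bcs_w_limsup {ι : Type} {l : Filter ι} [l.NeBot] {a b : ι → ℝ} {Ca Cb c : ℝ} (hc : 0 ≤ c) (ha : ∀ i, 0 ≤ a i ∧ a i ≤ Ca) (hb : ∀ i, 0 ≤ b i ∧ b i ≤ Cb) :
    ((∀ i, a i ≤ c * b i) → limsup a l ≤ c * limsup b l) ∧ ((∀ i, a i ^ 2 ≤ c * b i) → limsup a l ^ 2 ≤ c * limsup b l) ∧
      ∀ ε δ : ℝ, limsup a l ≤ ε → 0 < δ → ∀ᶠ i in l, a i ≤ ε + δ := by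
  have bd : ∀ {f : ι → ℝ} {C : ℝ}, (∀ i, 0 ≤ f i ∧ f i ≤ C) → l.IsBoundedUnder (· ≤ ·) f := fun {f C} hf =>
    isBoundedUnder_of ⟨C, fun i => (hf i).2⟩
  have cbd : ∀ {f : ι → ℝ} {C : ℝ}, (∀ i, 0 ≤ f i ∧ f i ≤ C) → l.IsCoboundedUnder (· ≤ ·) f := fun {f C} hf =>
    (isBoundedUnder_of ⟨0, fun i => (hf i).1⟩ : l.IsBoundedUnder (· ≥ ·) f).isCoboundedUnder_le
  have hcb : ∀ i, 0 ≤ c * b i ∧ c * b i ≤ c * Cb := fun i =>
    ⟨mul_nonneg hc (hb i).1, mul_le_mul_of_nonneg_left (hb i).2 hc⟩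
  have emul : limsup (fun i => c * b i) l = c * limsup b l := by
    have hm : Monotone (fun x : ℝ => c * x) := fun x y hxy => mul_le_mul_of_nonneg_left hxy hc
    have := hm.map_limsup_of_continuousAt b (continuous_const.mul continuous_id).continuousAt (bd hb) (cbd hb)
    exact this.symm
  refine ⟨fun h => ?_, fun h => ?_, fun ε δ h hδ => ?_⟩
  · rw [← emul]
    exact limsup_le_limsup (Eventually.of_forall h) (cbd ha) (bd hcb)
  · rw [← emul]
    have hm : Monotone (fun x : ℝ => (max x 0) ^ 2) := fun x y hxy =>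
      pow_le_pow_left₀ (le_max_right _ _) (max_le_max hxy le_rfl) 2
    have h1 := hm.map_limsup_of_continuousAt a
      ((continuous_id.max continuous_const).pow 2).continuousAt (bd ha) (cbd ha)
    have h0 : 0 ≤ limsup a l := le_limsup_of_frequently_le (Frequently.of_forall fun i => (ha i).1) (bd ha)
    simp only [max_eq_left h0] at h1
    rw [h1]
    have e : ((fun x : ℝ => (max x 0) ^ 2) ∘ a) = fun i => a i ^ 2 := by
      funext i
      simp only [Function.comp, max_eq_left (ha i).1]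
    rw [e]
    have ha2 : ∀ i, 0 ≤ a i ^ 2 ∧ a i ^ 2 ≤ Ca ^ 2 := fun i =>
      ⟨sq_nonneg _, pow_le_pow_left₀ (ha i).1 (ha i).2 2⟩
    exact limsup_le_limsup (Eventually.of_forall h) (cbd ha2) (bd hcb)
  · have h1 : limsup a l < ε + δ := by linarith
    exact (eventually_lt_of_limsup_lt h1 (bd ha)).mono fun i hi => hi.le

section limits
variable {W : BdWorld} {m : ℕ} {b h : ℝ → ℝ}

/-- LEAF K2: `S` of the cuts between two masses of the chain (`l8i_S`, `l8s_S_mono`, `exit_clk_lim_stat` at `ghPosA am`, `ghPosA ap`, `IsHub.S`) -/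
theorem bcs_w_S (hW : W.IsHub) (hm : 0 < m) (hb : IsClock 1 b) (hh : IsClock 1 h) {am ap : ℝ} (h0 : 0 < am) (h1 : am ≤ ap) (h2 : ap < 1) {δ : ℝ} (hδ : 0 < δ) :
    ∀ᶠ F : Finset GhPos in atTop, ∀ l, bcsIx F am ≤ l → l ≤ bcsIx F ap →
      (W.ps m).S b h am - δ ≤ (bcsSP m b h F).S l ∧ (bcsSP m b h F).S l ≤ (W.ps m).S b h ap + δ := by
  have key : ∀ {v : ℝ}, v ∈ Ioo (0 : ℝ) 1 →
      Tendsto (fun F : Finset GhPos => (bcsSP m b h F).S (bcsIx F v)) atTop (𝓝 ((W.ps m).S b h v)) := by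
    intro v hv
    have hτ : GhIsRT 1 2 (bmTree fun _ _ => v) := by
      rw [bcs_w_tree2]; exact gh_pt_star_rt 2 (gh_os_posA_ok hv.1.le hv.2.le)
    have h1 := sk_pt_ex_nu m one_pos (bcs_w_adm hb hh) hτ (bmTest m 2 fun O => (fun t : ℝ => t) (O 0 1))
    unfold GhLimEx at h1
    simp only [bcs_w_fork hm hb hh _ v (fun t => t) measurable_id ⟨1, fun t ht => abs_le.2 ht⟩,
      fun F => (bcsSP m b h F).l8s_fork_Q (bcs_w_ok hm hb hh F)] at h1
    rw [hW.S m hm b h hb hh v hv]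
    exact h1
  have t1 := key (v := am) ⟨h0, h1.trans_lt h2⟩
  have t2 := key (v := ap) ⟨h0.trans_le h1, h2⟩
  filter_upwards [t1.eventually (lt_mem_nhds (sub_lt_self _ hδ)), t2.eventually (gt_mem_nhds (lt_add_of_pos_right _ hδ))]
    with F e1 e2 l hl1 hl2
  have hmono := (bcsSP m b h F).l8s_S_mono (bcs_w_ok hm hb hh F)
  exact ⟨e1.le.trans (hmono hl1), (hmono hl2).trans e2.le⟩

/-- LEAF K3: the two-label numbers converge (`IsHub.nu`, `exit_clk_lim_nu` with `q = 2`, J5) -/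
theorem bcs_w_nu2 (hW : W.IsHub) (hm : 0 < m) (hb : IsClock 1 b) (hh : IsClock 1 h) {v : ℝ} (hv : v ∈ Ioo (0 : ℝ) 1) (φ : ℝ → ℝ) (hφ : Measurable φ)
    (hφb : ∃ C, ∀ t ∈ Icc (-1 : ℝ) 1, |φ t| ≤ C) :
    Tendsto (fun F : Finset GhPos => ∫ q, φ ((bcsSP m b h F).Q q) ∂((bcsSP m b h F).fork (bcsIx F v))) atTop
      (𝓝 (W.nu m b h 2 (fun _ _ => v) fun O => φ (O 0 1))) := by
  rw [hW.nu m b h hb hh]
  have hτ : GhIsRT 1 2 (bmTree fun _ _ => v) := by
    rw [bcs_w_tree2]; exact gh_pt_star_rt 2 (gh_os_posA_ok hv.1.le hv.2.le)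
  have h1 := sk_pt_ex_nu m one_pos (bcs_w_adm hb hh) hτ (bmTest m 2 fun O => φ (O 0 1))
  simp only [← bcs_w_fork hm hb hh _ v φ hφ hφb]
  exact h1

theorem bcs_w_tree3_rt {v0 vc : ℝ} (h0 : 0 < v0) (h1 : v0 ≤ vc) (h2 : vc < 1) :
    GhIsRT 1 3 (bmTree fun a e => if a = 2 ∨ e = 2 then v0 else vc) where
  diag := fun x _ => by simp [bmTree]
  symm := fun x y _ _ => by
    unfold bmTree
    by_cases hxy : x = y
    · simp [hxy]
    · rw [if_neg hxy, if_neg (Ne.symm hxy)]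
      simp only [or_comm]
  ultra := fun x y z _ _ _ => by
    have hle : ((ghPosA v0 : GhPos) : WithTop GhPos) ≤ ((ghPosA vc : GhPos) : WithTop GhPos) := WithTop.coe_le_coe.2 (gh_pt_posA_le h1)
    unfold bmTree
    by_cases hxz : x = z
    · simp [hxz]
    · rw [if_neg hxz]
      by_cases hxy : x = y
      · subst hxy; simp [hxz]
      · by_cases hyz : y = z
        · subst hyz; simp [hxy]
        · rw [if_neg hxy, if_neg hyz]
          by_cases a1 : x = 2 <;> by_cases a2 : y = 2 <;> by_cases a3 : z = 2 <;> simp [a1, a2, a3, hle]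
  ok := fun x y _ _ p hp => by
    unfold bmTree at hp
    by_cases hxy : x = y
    · simp [hxy] at hp
    · rw [if_neg hxy] at hp
      have hp' := WithTop.coe_injective hp
      rw [← hp']
      beta_reduce
      split_ifs
      · exact gh_os_posA_ok h0.le (h1.trans h2.le)
      · exact gh_os_posA_ok (h0.le.trans h1) h2.le

/-- LEAF K4: the resampled residual converges (`IsHub.nu`, `exit_clk_lim_nu` with `q = 3`, J6b) -/
theorem bcs_w_nu3 (hW : W.IsHub) (hm : 0 < m) (hb : IsClock 1 b) (hh : IsClock 1 h) {v0 vc : ℝ} (h0 : 0 < v0) (h1 : v0 ≤ vc) (h2 : vc < 1) (r : ℕ) :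
    Tendsto (fun F : Finset GhPos => (bcsSP m b h F).bcsRs3 (bcsIx F v0) (bcsIx F vc) r) atTop (𝓝 (bcsRs W m b h r v0 vc)) := by
  unfold bcsRs
  rw [hW.nu m b h hb hh]
  have h3 := sk_pt_ex_nu m one_pos (bcs_w_adm hb hh) (bcs_w_tree3_rt h0 h1 h2) (bmTest m 3 fun O => (O 0 2 - O 1 2) ^ (2 * r))
  simp only [← bcs_w_rs3 hm hb hh _ h1 r]
  exact h3

/-- one buffer: the centred moment of the averaged `L` on fine chains -/
theorem bcs_w_buf_aux (hW : W.IsHub) (hm : 0 < m) (hb : IsClock 1 b) (hh : IsClock 1 h) {r : ℕ} (hr : 1 ≤ r) {a c : ℝ} (ha : 0 < a) (hac : a < c)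
    (hc : c < 1) {κ : ℝ → ℝ} (hκ : BcsWt κ a c) {ε : ℝ} (hL : W.nLc m b h (2 * r) κ ≤ ε) {δ : ℝ} (hδ : 0 < δ) :
    ∀ᶠ F : Finset GhPos in atTop,
      ∫ ω, ((∑ l ∈ Finset.Ico (bcsIx F a) (bcsIx F c), bcsRho κ F l * (bcsSP m b h F).L l ω)
        - ∫ ω', (∑ l ∈ Finset.Ico (bcsIx F a) (bcsIx F c), bcsRho κ F l * (bcsSP m b h F).L l ω') ∂(bcsSP m b h F).μ) ^ (2 * r) ∂(bcsSP m b h F).μ
        ≤ (ε + δ) ^ (2 * r) := by
  obtain ⟨C, hC⟩ := hκ.bdd
  have hbd : ∀ v, |κ v| ≤ C := fun v => by rw [abs_of_nonneg (hκ.nonneg v)]; exact hC v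
  have hr' : (1 : ℝ) ≤ 2 * (r : ℝ) := by
    have : (1 : ℝ) ≤ r := by exact_mod_cast hr
    linarith
  have hJ3 := bcs_w_bdd hm hb hh hκ.meas hbd (2 * (r : ℝ)) hr'
  have hlim : limsup (fun F : Finset GhPos => bcsNL m b h (2 * r) κ F) atTop ≤ ε := by
    rw [hW.nLc m b h hb hh] at hL
    exact hL
  have hev := (bcs_w_limsup (l := (atTop : Filter (Finset GhPos))) (a := fun F => bcsNL m b h (2 * r) κ F)
    (b := fun F => bcsNL m b h (2 * r) κ F) (c := 1) zero_le_one (fun F => (hJ3 F).1) (fun F => (hJ3 F).1)).2.2 ε δ hlim hδ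
  filter_upwards [hev, eventually_ge_atTop ({ghPosA a, ghPosA c} : Finset GhPos)] with F hF hsub
  have haF : ghPosA a ∈ F := hsub (by simp)
  have hcF : ghPosA c ∈ F := hsub (by simp)
  obtain ⟨_, hz, _⟩ := bcs_w_rho hκ ha hac hc haF hcF
  obtain ⟨hN0, hN⟩ := bcs_w_NL hm hb hh F hκ.meas ⟨C, hbd⟩ r hr
  have hsum : ∀ ω, ∑ l ∈ Finset.Ico (bcsIx F a) (bcsIx F c), bcsRho κ F l * (bcsSP m b h F).L l ω
      = ∑ l ∈ Finset.range (bcsLen F + 1), bcsRho κ F l * (bcsSP m b h F).L l ω := fun ω => by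
    refine Finset.sum_subset (fun l hl => ?_) fun l _ hl => by rw [hz l hl, zero_mul]
    rw [Finset.mem_Ico] at hl
    rw [Finset.mem_range]
    have := (bcs_w_ix F).2.1 c
    omega
  simp only [hsum]
  have e : bcsML m b h r κ F ≤ (ε + δ) ^ (2 * r) := by
    rw [← hN]
    exact pow_le_pow_left₀ hN0 hF _
  exact e

/-- LEAF K5: the hypotheses of the two buffers hold on all fine chains, with a slack `δ` (I2, I4, K2, J1, K1 third part, `IsHub.nLc`) -/
theorem bcs_w_buf (hW : W.IsHub) (hm : 0 < m) (hb : IsClock 1 b) (hh : IsClock 1 h) {r : ℕ} (hr : 1 ≤ r) {am v0 vc ap : ℝ} (h0 : 0 < am) (h1 : am < v0)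
    (h2 : v0 < vc) (h3 : vc < ap) (h4 : ap < 1) {κm κp : ℝ → ℝ} (hκm : BcsWt κm am v0) (hκp : BcsWt κp vc ap) {s η ε : ℝ} (hη : 0 ≤ η) (hε : 0 ≤ ε)
    (hSm : s - η ≤ (W.ps m).S b h am) (hSp : (W.ps m).S b h ap ≤ s + η)
    (hLm : W.nLc m b h (2 * r) κm ≤ ε) (hLp : W.nLc m b h (2 * r) κp ≤ ε) {δ : ℝ} (hδ : 0 < δ) :
    ∀ᶠ F : Finset GhPos in atTop, (bcsSP m b h F).BcsBuf (bcsIx F v0) (bcsIx F vc) (Finset.Ico (bcsIx F am) (bcsIx F v0))
      (Finset.Ico (bcsIx F vc) (bcsIx F ap)) (bcsRho κm F) (bcsRho κp F) r s (η + δ) (ε + δ) := by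
  have hv0 : v0 < 1 := h2.trans (h3.trans h4)
  have hvc0 : 0 < vc := h0.trans (h1.trans h2)
  filter_upwards [bcs_w_S hW hm hb hh h0 (h1.le.trans (h2.le.trans h3.le)) h4 hδ,
    bcs_w_buf_aux hW hm hb hh hr h0 h1 hv0 hκm hLm hδ, bcs_w_buf_aux hW hm hb hh hr hvc0 h3 h4 hκp hLp hδ,
    eventually_ge_atTop ({ghPosA am, ghPosA v0, ghPosA vc, ghPosA ap} : Finset GhPos)] with F hS hAm hAp hsub
  have f1 : ghPosA am ∈ F := hsub (by simp)
  have f2 : ghPosA v0 ∈ F := hsub (by simp)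
  have f3 : ghPosA vc ∈ F := hsub (by simp)
  have f4 : ghPosA ap ∈ F := hsub (by simp)
  obtain ⟨hmono, _, _⟩ := bcs_w_ix F
  obtain ⟨m0, _, m1⟩ := bcs_w_rho hκm h0 h1 hv0 f1 f2
  obtain ⟨p0, _, p1⟩ := bcs_w_rho hκp hvc0 h3 h4 f3 f4
  have hSS : ∀ l, bcsIx F am ≤ l → l ≤ bcsIx F ap → |(bcsSP m b h F).S l - s| ≤ η + δ := fun l a1 a2 => by
    obtain ⟨b1, b2⟩ := hS l a1 a2
    rw [abs_le]
    constructor <;> linarith
  exact
    { hk := hmono h2.le
      hsm := fun l hl => (Finset.mem_Ico.1 hl).2.le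
      hsp := fun l hl => (Finset.mem_Ico.1 hl).1
      hm0 := m0
      hp0 := p0
      hm1 := m1
      hp1 := p1
      hη := by linarith
      hε := by linarith
      hSm := fun l hl _ => hSS l (Finset.mem_Ico.1 hl).1 ((Finset.mem_Ico.1 hl).2.le.trans (hmono (h2.le.trans h3.le)))
      hSp := fun l hl _ => hSS l ((hmono (h1.le.trans h2.le)).trans (Finset.mem_Ico.1 hl).1) (Finset.mem_Ico.1 hl).2.le
      hAm := hAm
      hAp := hAp }

end limits

/-! ## 4. Producers -/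

section producers
variable {W : BdWorld}

/-- Lyapunov on a probability space, bounded measurable functions      (helper44) -/
theorem bcs_p_lyap {α : Type} [MeasurableSpace α] (μ : Measure α) [IsProbabilityMeasure μ] {f : α → ℝ} (hf : L8Bd f) {p q : ℝ}
    (hp : 1 ≤ p) (hpq : p ≤ q) : (∫ x, |f x| ^ p ∂μ) ^ (1 / p) ≤ (∫ x, |f x| ^ q ∂μ) ^ (1 / q) := by
  have hp0 : 0 < p := by linarith
  have hq0 : 0 < q := by linarith
  have h1 := eLpNorm_le_eLpNorm_of_exponent_le (μ := μ) (f := f) (ENNReal.ofReal_le_ofReal hpq) hf.1.aestronglyMeasurable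
  rw [(l8k_bd_memLp hf μ _).eLpNorm_eq_integral_rpow_norm (by simpa using hp0) ENNReal.ofReal_ne_top,
    (l8k_bd_memLp hf μ _).eLpNorm_eq_integral_rpow_norm (by simpa using hq0) ENNReal.ofReal_ne_top,
    ENNReal.toReal_ofReal hp0.le, ENNReal.toReal_ofReal hq0.le] at h1
  have h2 : 0 ≤ (∫ x, ‖f x‖ ^ q ∂μ) ^ q⁻¹ :=
    Real.rpow_nonneg (integral_nonneg fun x => Real.rpow_nonneg (norm_nonneg _) _) _
  have h3 := (ENNReal.ofReal_le_ofReal_iff h2).1 h1
  simpa only [one_div, Real.norm_eq_abs] using h3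

/-- the tests `|t - s|^p` -/
theorem bcs_p_test (s p : ℝ) (hp : 0 ≤ p) : Measurable (fun t : ℝ => |t - s| ^ p) ∧ ∃ C, ∀ t ∈ Icc (-1 : ℝ) 1, |(|t - s| ^ p)| ≤ C := by
  refine ⟨(measurable_id.sub_const s).abs.pow_const p, (1 + |s|) ^ p, fun t ht => ?_⟩
  rw [abs_of_nonneg (Real.rpow_nonneg (abs_nonneg _) _)]
  refine Real.rpow_le_rpow (abs_nonneg _) ?_ hp
  exact (abs_sub _ _).trans (add_le_add (abs_le.2 ht) le_rfl)

/-- the integrand of a weight of a cut -/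
theorem bcs_p_rho_int (F : Finset GhPos) {κ : ℝ → ℝ} (hκ : Measurable κ) {C : ℝ} (hC : ∀ v, |κ v| ≤ C) (l : ℕ) :
    IntervalIntegrable (fun v => if bcsIx F v = l then κ v else 0) volume 0 1 := by
  have hs : MeasurableSet {v | bcsIx F v = l} := (bcs_w_ix F).1.measurable (measurableSet_singleton l)
  have hm : Measurable fun v => if bcsIx F v = l then κ v else 0 := Measurable.ite hs hκ measurable_const
  rw [intervalIntegrable_iff]
  refine Measure.integrableOn_of_bounded (M := C) ?_ hm.aestronglyMeasurable (Eventually.of_forall fun v => ?_)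
  · exact (measure_mono uIoc_subset_uIcc).trans_lt isCompact_uIcc.measure_lt_top |>.ne
  · rw [Real.norm_eq_abs]
    split_ifs
    · exact hC v
    · rw [abs_zero]; exact (abs_nonneg _).trans (hC 0)

/-- the norm of `IsHub.nWw` on one chain, any real order -/
theorem bcs_p_NW {m : ℕ} {b h : ℝ → ℝ} (hm : 0 < m) (hb : IsClock 1 b) (hh : IsClock 1 h) (F : Finset GhPos) {κ : ℝ → ℝ}
    (hκ : Measurable κ) (hbd : ∃ C, ∀ v, |κ v| ≤ C) {p : ℝ} (hp : 0 ≤ p) :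
    bcsNW m b h p κ F = (∫ ω, |∑ l ∈ Finset.range (bcsLen F + 1), bcsRho κ F l * (bcsSP m b h F).W l ω| ^ p
      ∂(bcsSP m b h F).μ) ^ (1 / p) := by
  have hok := bcs_w_ok hm hb hh F
  have hadm := bcs_w_stp_adm hb hh F
  have hg : L8Bd fun ω => ∑ l ∈ Finset.range (bcsLen F + 1), bcsRho κ F l * (bcsSP m b h F).W l ω :=
    l8k_bd_sum _ fun l _ => l8k_bd_const_mul _ ((bcsSP m b h F).l8s_W_bd hok l)
  unfold bcsNW bmN1
  congr 1
  refine (l8i_path_bd m 1 one_pos (bcsStp b h F) hadm _ (l8k_bd_rpow hg hp) _ fun ω => ?_).symm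
  simp only []
  rw [bcs_w_sum F hκ hbd fun l => obW m 1 (bcsStp b h F) 0 l ω.1 ω.2]
  congr 2
  refine Finset.sum_congr rfl fun l hl => ?_
  have hl' : l ≤ (bcsStp b h F).length := by
    rw [bcs_w_len]; exact Nat.lt_succ_iff.1 (Finset.mem_range.1 hl)
  rw [← l8i_W m 1 one_pos (bcsStp b h F) hadm l hl' ω]
  rfl

/-- PRODUCER P1.  For `δ > 0`, on fine chains: K5, `bcsRs3 ≤ (Rb + δ)^(2r)` (K4; `Rb^(2r) < (Rb+δ)^(2r)`), `bcs_lp_abs3`; K3 with `φ t = |t - s|^(2r)` (`= (t-s)^(2r)`); then `δ → 0` (`le_of_tendsto`, continuity). -/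
theorem bcs_wlp_inst (hW : W.IsHub) : BcsWLp W := by
  intro m b h hm hb hh r hr am v0 vc ap h0 h1 h2 h3 h4 κm κp hκm hκp s η ε Rb hη hε hRb hSm hSp hLm hLp hRs
  have hq0 : (0 : ℝ) ≤ 2 * (r : ℝ) := by positivity
  obtain ⟨m2, b2⟩ := bcs_p_test s (2 * (r : ℝ)) hq0
  have hv0 : v0 ∈ Ioo (0 : ℝ) 1 := ⟨h0.trans h1, h2.trans (h3.trans h4)⟩
  have K3 := bcs_w_nu2 hW hm hb hh hv0 (fun t => |t - s| ^ (2 * (r : ℝ))) m2 b2
  have key : ∀ δ : ℝ, 0 < δ → (W.nu m b h 2 (fun _ _ => v0) fun O => |O 0 1 - s| ^ (2 * (r : ℝ)))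
      ≤ (2 * (256 * ((η + δ) + (ε + δ)) + 2 * (Rb + δ))) ^ (2 * r) := by
    intro δ hδ
    have K5 := bcs_w_buf hW hm hb hh hr h0 h1 h2 h3 h4 hκm hκp hη hε hSm hSp hLm hLp hδ
    have K4 := bcs_w_nu3 hW hm hb hh (h0.trans h1) h2.le (h3.trans h4) r
    have hlt : bcsRs W m b h r v0 vc < (Rb + δ) ^ (2 * r) :=
      lt_of_le_of_lt hRs (pow_lt_pow_left₀ (by linarith) hRb (by omega))
    have K4' := K4.eventually (gt_mem_nhds hlt)
    refine le_of_tendsto K3 ((K5.and K4').mono fun F hF => ?_)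
    have h5 := L8P.bcs_lp_abs3 (bcs_w_ok hm hb hh F) hr hF.1 (by positivity : 0 ≤ Rb + δ) hF.2.le
    refine le_trans (le_of_eq ?_) h5
    refine integral_congr_ae (Eventually.of_forall fun q => ?_)
    show |(bcsSP m b h F).Q q - s| ^ (2 * (r : ℝ)) = ((bcsSP m b h F).Q q - s) ^ (2 * r)
    rw [show (2 * (r : ℝ)) = ((2 * r : ℕ) : ℝ) by push_cast; ring, Real.rpow_natCast, (even_two_mul r).pow_abs]
  have hc : Continuous fun δ : ℝ => (2 * (256 * ((η + δ) + (ε + δ)) + 2 * (Rb + δ))) ^ (2 * r) := by fun_prop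
  have ht : Tendsto (fun δ : ℝ => (2 * (256 * ((η + δ) + (ε + δ)) + 2 * (Rb + δ))) ^ (2 * r)) (𝓝[>] 0)
      (𝓝 ((2 * (256 * (η + ε) + 2 * Rb)) ^ (2 * r))) := by
    have := hc.tendsto' (0 : ℝ) ((2 * (256 * (η + ε) + 2 * Rb)) ^ (2 * r)) (by simp)
    exact this.mono_left nhdsWithin_le_nhds
  refine ge_of_tendsto ht ?_
  filter_upwards [self_mem_nhdsWithin] with δ hδ
  exact key δ hδ

/-- PRODUCER P2.  `c_r = 1 + (2r)²/3`: J1, J2, J4 give `NL(2r)² ≤ c_r NW(r, κ²)` on every chain (roots of order `r`), then K1 second part with J3; `IsHub.nLc`, `IsHub.nWw`. -/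
theorem bcs_wa1_inst (hW : W.IsHub) : BcsWA1 W := by
  intro r hr
  have hr1 : (1 : ℝ) ≤ r := by exact_mod_cast hr
  refine ⟨1 + (2 * r : ℝ) ^ 2 / 3, by positivity, fun m b h hm hb hh κ hκ hbd => ?_⟩
  obtain ⟨C, hC⟩ := hbd
  rw [hW.nLc m b h hb hh, hW.nWw m b h hb hh]
  have hκ2 : Measurable fun v => κ v ^ 2 := hκ.pow_const 2
  have hC2 : ∀ v, |κ v ^ 2| ≤ C ^ 2 := fun v => by
    rw [abs_pow]; exact pow_le_pow_left₀ (abs_nonneg _) (hC v) 2
  have B1 := bcs_w_bdd hm hb hh hκ hC (2 * r) (by linarith)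
  have B2 := bcs_w_bdd hm hb hh hκ2 hC2 r hr1
  refine (bcs_w_limsup (l := (atTop : Filter (Finset GhPos))) (a := bcsNL m b h (2 * r) κ)
    (b := bcsNW m b h r fun v => κ v ^ 2) (c := 1 + (2 * r : ℝ) ^ 2 / 3) (by positivity) (fun F => (B1 F).1)
    (fun F => (B2 F).2)).2.1 fun F => ?_
  obtain ⟨n0, e1⟩ := bcs_w_NL hm hb hh F hκ ⟨C, hC⟩ r hr
  obtain ⟨w0, e2⟩ := bcs_w_NW hm hb hh F hκ2 ⟨_, hC2⟩ (fun v => sq_nonneg _) r hr
  have e3 := bcs_w_pin hm hb hh F hκ ⟨C, hC⟩ r hr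
  have e4 : (bcsNL m b h (2 * r) κ F ^ 2) ^ r ≤ ((1 + (2 * r : ℝ) ^ 2 / 3) * bcsNW m b h r (fun v => κ v ^ 2) F) ^ r := by
    rw [← pow_mul, e1, mul_pow, e2]; exact e3
  exact (pow_le_pow_iff_left₀ (by positivity) (by positivity) (by omega)).1 e4

/-- PRODUCER P3.  `0 ≤ κ1 ≤ c κ2` gives `0 ≤ ∫ κ1 W ≤ c ∫ κ2 W` pointwise on every chain (`obW ≥ 0` through `l8i_W`, `l8s_W_nonneg`), `bmN1` is monotone (`l8i_path_bd`, `integral_mono`, `rpow`), K1 first part with J3. -/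
theorem bcs_wmono_inst (hW : W.IsHub) : BcsWMono W := by
  intro m b h hm hb hh p hp κ1 κ2 c hc hκ1 hκ2 hbd h12
  obtain ⟨C, hC⟩ := hbd
  have hp0 : 0 < p := by linarith
  rw [hW.nWw m b h hb hh, hW.nWw m b h hb hh]
  have hC1 : ∀ v, |κ1 v| ≤ c * C := fun v => by
    rw [abs_of_nonneg (h12 v).1]
    exact (h12 v).2.trans (mul_le_mul_of_nonneg_left ((le_abs_self _).trans (hC v)) hc)
  have B1 := bcs_w_bdd hm hb hh hκ1 hC1 p hp
  have B2 := bcs_w_bdd hm hb hh hκ2 hC p hp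
  refine (bcs_w_limsup (l := (atTop : Filter (Finset GhPos))) (a := bcsNW m b h p κ1) (b := bcsNW m b h p κ2) hc
    (fun F => (B1 F).2) (fun F => (B2 F).2)).1 fun F => ?_
  have hok := bcs_w_ok hm hb hh F
  have := hok.prob
  rw [bcs_p_NW hm hb hh F hκ1 ⟨_, hC1⟩ hp0.le, bcs_p_NW hm hb hh F hκ2 ⟨_, hC⟩ hp0.le]
  have hρ : ∀ l, 0 ≤ bcsRho κ1 F l ∧ bcsRho κ1 F l ≤ c * bcsRho κ2 F l := by
    intro l
    unfold bcsRho
    constructor
    · refine intervalIntegral.integral_nonneg zero_le_one fun v _ => ?_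
      split_ifs
      · exact (h12 v).1
      · exact le_rfl
    · rw [← intervalIntegral.integral_const_mul]
      refine intervalIntegral.integral_mono_on zero_le_one (bcs_p_rho_int F hκ1 hC1 l)
        ((bcs_p_rho_int F hκ2 hC l).const_mul c) fun v _ => ?_
      split_ifs
      · exact (h12 v).2
      · rw [mul_zero]
  have hg : ∀ κ : ℝ → ℝ, L8Bd fun ω => ∑ l ∈ Finset.range (bcsLen F + 1), bcsRho κ F l * (bcsSP m b h F).W l ω := fun κ =>
    l8k_bd_sum _ fun l _ => l8k_bd_const_mul _ ((bcsSP m b h F).l8s_W_bd hok l)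
  have hpt : ∀ ω, 0 ≤ ∑ l ∈ Finset.range (bcsLen F + 1), bcsRho κ1 F l * (bcsSP m b h F).W l ω ∧
      ∑ l ∈ Finset.range (bcsLen F + 1), bcsRho κ1 F l * (bcsSP m b h F).W l ω
        ≤ c * ∑ l ∈ Finset.range (bcsLen F + 1), bcsRho κ2 F l * (bcsSP m b h F).W l ω := by
    intro ω
    constructor
    · exact Finset.sum_nonneg fun l _ => mul_nonneg (hρ l).1 ((bcsSP m b h F).l8s_W_nonneg hok l ω)
    · rw [Finset.mul_sum]
      refine Finset.sum_le_sum fun l _ => ?_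
      rw [← mul_assoc]
      exact mul_le_mul_of_nonneg_right (hρ l).2 ((bcsSP m b h F).l8s_W_nonneg hok l ω)
  have hI2 : 0 ≤ ∫ ω, |∑ l ∈ Finset.range (bcsLen F + 1), bcsRho κ2 F l * (bcsSP m b h F).W l ω| ^ p ∂(bcsSP m b h F).μ :=
    integral_nonneg fun ω => Real.rpow_nonneg (abs_nonneg _) _
  have hle : ∫ ω, |∑ l ∈ Finset.range (bcsLen F + 1), bcsRho κ1 F l * (bcsSP m b h F).W l ω| ^ p ∂(bcsSP m b h F).μ
      ≤ c ^ p * ∫ ω, |∑ l ∈ Finset.range (bcsLen F + 1), bcsRho κ2 F l * (bcsSP m b h F).W l ω| ^ p ∂(bcsSP m b h F).μ := by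
    rw [← integral_const_mul]
    refine integral_mono (l8k_bd_integrable (l8k_bd_rpow (hg κ1) hp0.le) _)
      ((l8k_bd_integrable (l8k_bd_rpow (hg κ2) hp0.le) _).const_mul _) fun ω => ?_
    show _ ≤ c ^ p * _
    rw [← Real.mul_rpow hc (abs_nonneg _)]
    refine Real.rpow_le_rpow (abs_nonneg _) ?_ hp0.le
    rw [abs_of_nonneg (hpt ω).1]
    exact (hpt ω).2.trans (mul_le_mul_of_nonneg_left (le_abs_self _) hc)
  calc _ ≤ (c ^ p * ∫ ω, |∑ l ∈ Finset.range (bcsLen F + 1), bcsRho κ2 F l * (bcsSP m b h F).W l ω| ^ p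
        ∂(bcsSP m b h F).μ) ^ (1 / p) :=
        Real.rpow_le_rpow (integral_nonneg fun ω => Real.rpow_nonneg (abs_nonneg _) _) hle (by positivity)
    _ = _ := by
        rw [Real.mul_rpow (Real.rpow_nonneg hc _) hI2, ← Real.rpow_mul hc, mul_one_div_cancel hp0.ne', Real.rpow_one]

/-- PRODUCER P4.  Lyapunov on the fork law of every chain (probability measure: `l8s_fork_prob`): `∫|Q-s|^p ≤ (∫|Q-s|^(2r))^(p/(2r))`; K3 for both orders; limits. -/
theorem bcs_wjen_inst (hW : W.IsHub) : BcsWJen W := by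
  intro m b h hm hb hh v hv s p r hp hpr A hA hle
  have hp0 : 0 < p := by linarith
  have hq0 : (0 : ℝ) < 2 * (r : ℝ) := by linarith
  obtain ⟨m1, b1⟩ := bcs_p_test s p hp0.le
  obtain ⟨m2, b2⟩ := bcs_p_test s (2 * (r : ℝ)) hq0.le
  have l1 := bcs_w_nu2 hW hm hb hh hv (fun t => |t - s| ^ p) m1 b1
  have l2 := bcs_w_nu2 hW hm hb hh hv (fun t => |t - s| ^ (2 * (r : ℝ))) m2 b2
  have key : (W.nu m b h 2 (fun _ _ => v) fun O => |O 0 1 - s| ^ p) ^ (1 / p)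
      ≤ (W.nu m b h 2 (fun _ _ => v) fun O => |O 0 1 - s| ^ (2 * (r : ℝ))) ^ (1 / (2 * (r : ℝ))) := by
    refine le_of_tendsto_of_tendsto (l1.rpow_const (Or.inr (by positivity))) (l2.rpow_const (Or.inr (by positivity)))
      (Eventually.of_forall fun F => ?_)
    have hok := bcs_w_ok hm hb hh F
    have := (bcsSP m b h F).l8s_fork_prob hok (bcsIx F v)
    obtain ⟨hQm, hQb⟩ := (bcsSP m b h F).l8s_fork_Q_bd_aux hok
    have hf : L8Bd (fun q => (bcsSP m b h F).Q q - s) := l8k_bd_sub ⟨hQm, 1, hQb⟩ (l8k_bd_const s)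
    exact bcs_p_lyap _ hf hp hpr
  refine key.trans ?_
  have h0 : 0 ≤ W.nu m b h 2 (fun _ _ => v) fun O => |O 0 1 - s| ^ (2 * (r : ℝ)) :=
    ge_of_tendsto l2 (Eventually.of_forall fun F => integral_nonneg fun q => Real.rpow_nonneg (abs_nonneg _) _)
  calc (W.nu m b h 2 (fun _ _ => v) fun O => |O 0 1 - s| ^ (2 * (r : ℝ))) ^ (1 / (2 * (r : ℝ)))
      ≤ (A ^ (2 * r)) ^ (1 / (2 * (r : ℝ))) := Real.rpow_le_rpow h0 hle (by positivity)
    _ = A := by
        rw [← Real.rpow_natCast, ← Real.rpow_mul hA]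
        push_cast
        rw [mul_one_div_cancel hq0.ne', Real.rpow_one]

/-- PRODUCER P5.  `|Q| ≤ 1` (`l8s_fork_Q_bd_aux`), `|s| ≤ 1`: `∫|Q-s|^p ≤ 2^p` on every chain; K3. -/
theorem bcs_wbd_inst (hW : W.IsHub) : BcsWBd W := by
  intro m b h hm hb hh v hv s p hs hp
  have hp0 : 0 < p := by linarith
  have hφm : Measurable fun t : ℝ => |t - s| ^ p := ((measurable_id.sub_const s).abs).pow_const p
  have hbd : ∀ t ∈ Icc (-1 : ℝ) 1, |t - s| ≤ 2 := fun t ht => by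
    rw [abs_le] at hs ⊢
    constructor <;> linarith [ht.1, ht.2, hs.1, hs.2]
  have hφb : ∀ t ∈ Icc (-1 : ℝ) 1, |(|t - s| ^ p)| ≤ 2 ^ p := fun t ht => by
    rw [abs_of_nonneg (Real.rpow_nonneg (abs_nonneg _) _)]
    exact Real.rpow_le_rpow (abs_nonneg _) (hbd t ht) hp0.le
  have t := bcs_w_nu2 hW hm hb hh hv (fun t => |t - s| ^ p) hφm ⟨_, hφb⟩
  have hle : (W.nu m b h 2 (fun _ _ => v) fun O => |O 0 1 - s| ^ p) ≤ 2 ^ p := by
    refine le_of_tendsto' t fun F => ?_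
    have hok := bcs_w_ok hm hb hh F
    have := (bcsSP m b h F).l8s_fork_prob hok (bcsIx F v)
    have hQ := (bcsSP m b h F).l8s_fork_Q_bd_aux hok
    have h1 := norm_integral_le_of_norm_le_const (μ := (bcsSP m b h F).fork (bcsIx F v))
      (f := fun q => |(bcsSP m b h F).Q q - s| ^ p) (C := 2 ^ p)
      (ae_of_all _ fun q => by simpa [Real.norm_eq_abs] using hφb _ (abs_le.1 (hQ.2 q)))
    simp only [probReal_univ, mul_one] at h1
    exact (le_abs_self _).trans h1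
  have hge : 0 ≤ (W.nu m b h 2 (fun _ _ => v) fun O => |O 0 1 - s| ^ p) :=
    ge_of_tendsto' t fun F => integral_nonneg fun q => Real.rpow_nonneg (abs_nonneg _) _
  calc (W.nu m b h 2 (fun _ _ => v) fun O => |O 0 1 - s| ^ p) ^ (1 / p) ≤ ((2 : ℝ) ^ p) ^ (1 / p) :=
        Real.rpow_le_rpow hge hle (by positivity)
    _ = 2 := by rw [← Real.rpow_mul (by norm_num), mul_one_div_cancel hp0.ne', Real.rpow_one]

/-- **PRODUCER of `BcsWorld`** -/
theorem bcs_world_inst (hW : W.IsHub) : BcsWorld W :=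
  ⟨bcs_wlp_inst hW, bcs_wa1_inst hW, bcs_wmono_inst hW, bcs_wjen_inst hW, bcs_wbd_inst hW⟩

/-- **LEMMA 7.6 over the Hub**: the only remaining hypotheses are the exits of N5 ((C8), (C9), residual) and N6 ((C10), sliding estimate, (20)-(21) on target bands).      TEX[LL:bud:common-star] -/
theorem bud_star_hub {X : BdFix} {Fam : BdFr → Prop} {K : BcsK} (hX : X.Ok) (hK : K.Ok) (hW : W.IsHub)
    (h8 : BcsRaw W (BcsIn.Cls (X := X) · W Fam K)) (h9 : BcsC9 W (BcsIn.Cls (X := X) · W Fam K) K) (hres : BcsRes W (BcsIn.Cls (X := X) · W Fam K))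
    (h10 : BcsC10 W (BcsIn.Cls (X := X) · W Fam K)) (hsw : BcsSW W (BcsIn.Cls (X := X) · W Fam K) K) (hnf : BcsNF W (BcsIn.Cls (X := X) · W Fam K)) :
    BcsS1 W (BcsIn.Cls (X := X) · W Fam K) ∧ BcsS2 W (BcsIn.Cls (X := X) · W Fam K) ∧ BcsS3 W (BcsIn.Cls (X := X) · W Fam K) ∧
      BcsCut W (BcsIn.Cls (X := X) · W Fam K) K :=
  bud_star hX hK h8 h10 hsw hnf (bcs_lp_inst hX hK (bcs_world_inst hW) h9 hres)

end producers

end

end Claimed.Agent.R286
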