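import Claimed.Agent.R286.Bud.C19Box
import Claimed.Agent.R286.Bud.RawExit
import Claimed.Agent.R286.Bud.Brg248
import Claimed.Agent.R286.Bud.StarW

/-!
# Row 286, LL sec. 7, node N17: THE FRAME PREDECESSORS OF (C19)      (owner helper198, post of 162 05:50Z; prefix `bci_`)

`bcl_c19` (`Bud/C19Fin.lean`, 61) consumes four frame inputs typed in `Bud/C19Box.lean`.   They are PRODUCED here, abstractly (`X W Fam`), from what is available in `BudB.c12_all`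
(`BdStd`, `W.IsHub`, `BudB.PathStd`, `BudB.C7a`):

| Prop                       | theorem       | source |
| `BudB.CloZw X`             | `bci_clozw`   | pure numerics, TeX l.1912: `min(a,b)³ ≤ a² b`, `w C(w) ≥ min(c_H, c_d³) u C_0` |
| `BudB.CloBd X W Fam n Q0`  | `bci_clobd`   | `b - C(r) ≤ b ≤ bmax`, `h + C(r) r ≤ CK + Cd·seed + C_0`;   `Q0 = bciQ0 P` |
| `BudB.CloKs X W Fam n`     | `bci_cloks`   | `K_s = h + C(r) r + (b - C(r)) S`, `S_v ≤ (4C+4)(v + w_c)` (`bud_rx_S`, 7) at `v = 2 c_H u` |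
| `BudB.C8low X W Fam n`     | `bci_c8low`   | (C8) for `Q_v` at `w = w_c` (`bud_rx_mr`, 7) + dictionary world ↔ Hub |

`bci_rxh`: after (C7a) an optimiser satisfies the hypotheses `BudRxH` of Lemma 7.4 at `w = w_c`, with the constants `min cL 1`, `max CL 1`.
-/

set_option autoImplicit false

namespace Claimed.Agent.R286

open MeasureTheory Set Filter Topology

noncomputable section

variable {X : BdFix} {W : BdWorld} {Fam : BdFr → Prop} {K : BdCst}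

/-! ## 1. `CloZw` -/

/-- `w C(w) ≥ min(c_H, c_d³) u C_0` for `w ≥ c_H u` -/
theorem bci_wC_ge (hX : X.Ok) {F : BdFr} (hF : F.Ok X) {w : ℝ} (hw : X.cH * F.u ≤ w) :
    min X.cH (X.cd ^ 3) * (F.u * F.C0) ≤ w * F.C X w := by
  have hu := BdFr.bds_u_pos hF hX
  have hC0 := bud_gb_C0_pos hX hF
  have hcd := hX.cd_pos
  have hcH := hX.cH_pos
  have hw0 : 0 < w := lt_of_lt_of_le (mul_pos hcH hu) hw
  have hd3 := bud_gb_d_cube (X := X) hF
  have harg : F.C0 * w / (F.call X).d ^ 3 = w / (X.cd ^ 3 * F.u) := by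
    show F.C0 * w / F.dPE X ^ 3 = _
    rw [hd3]; field_simp
  have hC : F.C X w = F.C0 * cmF (w / (X.cd ^ 3 * F.u)) := by
    show F.C0 * cmF (F.C0 * w / (F.call X).d ^ 3) = _
    rw [harg]
  rw [hC]
  have hden : 0 < X.cd ^ 3 * F.u := by positivity
  rcases le_total (w / (X.cd ^ 3 * F.u)) 1 with ht | ht
  · rw [cm_f_of_le ht, mul_one]
    calc min X.cH (X.cd ^ 3) * (F.u * F.C0) ≤ X.cH * (F.u * F.C0) :=
          mul_le_mul_of_nonneg_right (min_le_left _ _) (by positivity)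
      _ = (X.cH * F.u) * F.C0 := by ring
      _ ≤ w * F.C0 := mul_le_mul_of_nonneg_right hw hC0.le
  · have h1 := cm_tf_of_ge ht
    have h2 : 0 ≤ Real.log (w / (X.cd ^ 3 * F.u)) := Real.log_nonneg ht
    have e : w * (F.C0 * cmF (w / (X.cd ^ 3 * F.u))) = (X.cd ^ 3 * F.u) * F.C0 * (w / (X.cd ^ 3 * F.u) * cmF (w / (X.cd ^ 3 * F.u))) := by
      field_simp
    rw [e, h1]
    calc min X.cH (X.cd ^ 3) * (F.u * F.C0) ≤ X.cd ^ 3 * (F.u * F.C0) :=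
          mul_le_mul_of_nonneg_right (min_le_right _ _) (by positivity)
      _ = (X.cd ^ 3 * F.u) * F.C0 * 1 := by ring
      _ ≤ (X.cd ^ 3 * F.u) * F.C0 * (1 + Real.log (w / (X.cd ^ 3 * F.u))) :=
          mul_le_mul_of_nonneg_left (by linarith) (by positivity)

/-- **l.1912** -/
theorem bci_clozw (hX : X.Ok) : BudB.CloZw X := by
  have hκ : 0 < min X.cH (X.cd ^ 3) := lt_min hX.cH_pos (pow_pos hX.cd_pos 3)
  refine ⟨(min X.cH (X.cd ^ 3)) ^ (-(1 / 3) : ℝ), 0, fun F hF _ w hw hw1 => ?_⟩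
  set κ := min X.cH (X.cd ^ 3) with hκd
  have hu := BdFr.bds_u_pos hF hX
  have hx := BdFr.bds_x_pos hF
  have hl := BdFr.bds_lam_pos hF
  have hL : 0 < F.Lam := Real.rpow_pos_of_pos hl _
  have hw0 : 0 < w := lt_of_lt_of_le (mul_pos hX.cH_pos hu) hw
  have hCw : 0 < F.C X w := bud_gb_C_pos hX hF w
  have hP := bci_wC_ge hX hF hw
  have hs : 0 < Real.sqrt (F.C X w) := Real.sqrt_pos.2 hCw
  -- `M = w min(a,b)`
  set M := w * min ((w * Real.sqrt (F.C X w))⁻¹) (F.lam ^ (-(1 / 2) : ℝ) * w ^ (-(2 : ℝ))) with hM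
  have hlh : 0 < F.lam ^ (-(1 / 2) : ℝ) := Real.rpow_pos_of_pos hl _
  have hw2 : w ^ (-(2 : ℝ)) = (w ^ 2)⁻¹ := by
    rw [Real.rpow_neg hw0.le]; norm_num
  have hM0 : 0 < M := by
    rw [hM]
    refine mul_pos hw0 (lt_min (by positivity) ?_)
    rw [hw2]; positivity
  have hMa : M ≤ (Real.sqrt (F.C X w))⁻¹ := by
    calc M ≤ w * (w * Real.sqrt (F.C X w))⁻¹ := mul_le_mul_of_nonneg_left (min_le_left _ _) hw0.le
      _ = (Real.sqrt (F.C X w))⁻¹ := by field_simp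
  have hMb : M ≤ F.lam ^ (-(1 / 2) : ℝ) / w := by
    calc M ≤ w * (F.lam ^ (-(1 / 2) : ℝ) * w ^ (-(2 : ℝ))) := mul_le_mul_of_nonneg_left (min_le_right _ _) hw0.le
      _ = F.lam ^ (-(1 / 2) : ℝ) / w := by rw [hw2]; field_simp
  have hM2 : M ^ 2 ≤ (F.C X w)⁻¹ := by
    calc M ^ 2 ≤ ((Real.sqrt (F.C X w))⁻¹) ^ 2 := pow_le_pow_left₀ hM0.le hMa 2
      _ = (F.C X w)⁻¹ := by rw [inv_pow, Real.sq_sqrt hCw.le]
  have hM3 : M ^ 3 ≤ F.lam ^ (-(1 / 2) : ℝ) / (κ * (F.u * F.C0)) := by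
    have hC0 := bud_gb_C0_pos hX hF
    calc M ^ 3 = M ^ 2 * M := by ring
      _ ≤ (F.C X w)⁻¹ * (F.lam ^ (-(1 / 2) : ℝ) / w) := mul_le_mul hM2 hMb hM0.le (by positivity)
      _ = F.lam ^ (-(1 / 2) : ℝ) / (w * F.C X w) := by field_simp
      _ ≤ F.lam ^ (-(1 / 2) : ℝ) / (κ * (F.u * F.C0)) := div_le_div_of_nonneg_left hlh.le (by positivity) hP
  -- the target, cubed
  set T := κ ^ (-(1 / 3) : ℝ) * (F.u ^ 2 * F.Xr ^ 3 * F.Lam ^ (-(1 / 3) : ℝ) * F.lam ^ (-(1 / 6) : ℝ)) with hT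
  have hXr : 0 < F.Xr := BdFr.bds_Xr_pos hF hX
  have hT0 : 0 < T := by
    rw [hT]
    have := Real.rpow_pos_of_pos hκ (-(1 / 3) : ℝ)
    have := Real.rpow_pos_of_pos hL (-(1 / 3) : ℝ)
    have := Real.rpow_pos_of_pos hl (-(1 / 6) : ℝ)
    positivity
  have cube : ∀ {y : ℝ}, 0 < y → ∀ e : ℝ, (y ^ e) ^ 3 = y ^ (3 * e) := by
    intro y hy e
    rw [← Real.rpow_natCast (y ^ e) 3, ← Real.rpow_mul hy.le]
    congr 1; push_cast; ring
  have hT3 : T ^ 3 = F.x ^ 9 * (F.lam ^ (-(1 / 2) : ℝ) / (κ * (F.u * F.C0))) := by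
    rw [hT, mul_pow, mul_pow, mul_pow, mul_pow, cube hκ, cube hL, cube hl]
    have e1 : (3 : ℝ) * -(1 / 3) = -1 := by norm_num
    have e2 : (3 : ℝ) * -(1 / 6) = -(1 / 2) := by norm_num
    rw [e1, e2, Real.rpow_neg_one, Real.rpow_neg_one]
    unfold BdFr.Xr BdFr.C0
    field_simp
  have hz : w * F.zw X w = F.x ^ 3 * M := by
    unfold BdFr.zw
    rw [hM]
    have : F.x ^ (3 : ℝ) = F.x ^ 3 := by norm_num
    rw [this]; ring
  rw [hz]
  have h3 : (F.x ^ 3 * M) ^ 3 ≤ T ^ 3 := by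
    rw [hT3, mul_pow]
    have : (F.x ^ 3) ^ 3 = F.x ^ 9 := by ring
    rw [this]
    exact mul_le_mul_of_nonneg_left hM3 (by positivity)
  exact le_of_pow_le_pow_left₀ (by norm_num) hT0.le h3

/-! ## 2. `CloBd` -/

/-- the seed is `≤ C_U³ u³` for large sizes -/
theorem bci_sd_le (hX : X.Ok) : ∃ N0 : ℕ, ∀ F : BdFr, F.Ok X → N0 ≤ F.N → BudB.sd X F ≤ X.CU ^ 3 * F.u ^ 3 := by
  obtain ⟨N0, h0⟩ := BudB.ev_log hX (e := 1) one_pos
  refine ⟨N0, fun F hF hN => ?_⟩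
  have hl := BdFr.bds_lam_pos hF
  have hx := BdFr.bds_x_pos hF
  have hu := BdFr.bds_u_pos hF hX
  have hU0 : 0 ≤ F.U X := by unfold BdFr.U; exact mul_nonneg hx.le (Real.rpow_nonneg hl.le _)
  have hη : 0 ≤ X.eta := by
    have := hX.tau0_pos; have := hX.tau0_le; linarith
  have h1 : F.lam1 X * Real.log (1 / F.x) ≤ 1 := by
    have hlam1 : 0 ≤ F.lam1 X := Real.rpow_nonneg hl.le _
    calc F.lam1 X * Real.log (1 / F.x) ≤ F.lam1 X * F.lam ^ (-(1 : ℝ)) := mul_le_mul_of_nonneg_left (h0 F hF hN) hlam1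
      _ = F.lam ^ X.eta := by
          unfold BdFr.lam1
          rw [← Real.rpow_add hl]; congr 1; ring
      _ ≤ 1 := BdFr.bds_lam_rpow_le_one hF hX hη
  have h2 : F.U X ^ 3 ≤ (X.CU * F.u) ^ 3 := pow_le_pow_left₀ hU0 hF.u_lo 3
  unfold BudB.sd
  calc F.lam1 X * F.U X ^ 3 * Real.log (1 / F.x) = (F.lam1 X * Real.log (1 / F.x)) * F.U X ^ 3 := by ring
    _ ≤ 1 * (X.CU * F.u) ^ 3 := mul_le_mul h1 h2 (by positivity) zero_le_one
    _ = X.CU ^ 3 * F.u ^ 3 := by ring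

/-- the common bound of the changed clocks -/
def bciQ0 (X : BdFix) (P : BudB.PCst) : ℝ := max P.bmax (P.CK + P.Cd * X.CU ^ 3 + 1)

/-- one frame: the changed clocks at a parameter of the widest interval -/
theorem bci_clk_le (hS : BdStd X W Fam K) {P : BudB.PCst} (hP : BudB.PathStd X W Fam P) :
    ∃ N0 : ℕ, ∀ F : BdFr, Fam F → N0 ≤ F.N → ∀ g ∈ Icc (X.glo 0) (X.ghi 0), ∀ Q : BdQ F X, ∀ v ∈ Ioo (0 : ℝ) 1,
      Q.bq g v ≤ P.bmax ∧ Q.hq g v ≤ P.CK * v + (P.Cd * X.CU ^ 3 + 1) * F.u ^ 2 := by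
  have hX := hS.fix
  obtain ⟨N0, h0⟩ := bci_sd_le hX
  refine ⟨N0, fun F hF hN g hg Q v hv => ?_⟩
  have hFo := hS.ok _ hF
  have hu := BdFr.bds_u_pos hFo hX
  have hu1 := BdFr.bds_u_le_one hFo hX
  have hC0 := bud_gb_C0_pos hX hFo
  have hr := Q.r_mem v (Ioo_subset_Icc_self hv)
  have hCp := bud_gb_C_pos hX hFo (Q.r v)
  have hCl : F.C X (Q.r v) ≤ F.C0 := cm_e_le (F.call X) hC0.le _
  have hC0u : F.C0 ≤ F.u ^ 2 := by
    unfold BdFr.C0 BdFr.Lam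
    have := BdFr.bds_lam_rpow_le_one hFo hX (e := 0.03) (by norm_num)
    nlinarith [sq_nonneg F.u]
  constructor
  · have := hP.b_le F hF g hg v hv
    unfold BdQ.bq
    linarith
  · have h1 := hP.h_le F hF g hg v hv
    have h2 := h0 F hFo hN
    have h3 : F.C X (Q.r v) * Q.r v ≤ F.u ^ 2 := by
      calc F.C X (Q.r v) * Q.r v ≤ F.C0 * 1 := mul_le_mul hCl hr.2 hr.1 hC0.le
        _ ≤ F.u ^ 2 := by linarith
    have h4 : P.Cd * BudB.sd X F ≤ P.Cd * X.CU ^ 3 * F.u ^ 2 := by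
      have : X.CU ^ 3 * F.u ^ 3 ≤ X.CU ^ 3 * F.u ^ 2 := by
        have hCU := hX.CU_pos
        refine mul_le_mul_of_nonneg_left ?_ (by positivity)
        calc F.u ^ 3 = F.u ^ 2 * F.u := by ring
          _ ≤ F.u ^ 2 * 1 := mul_le_mul_of_nonneg_left hu1 (by positivity)
          _ = F.u ^ 2 := mul_one _
      calc P.Cd * BudB.sd X F ≤ P.Cd * (X.CU ^ 3 * F.u ^ 2) := mul_le_mul_of_nonneg_left (h2.trans this) hP.Cd_pos.le
        _ = P.Cd * X.CU ^ 3 * F.u ^ 2 := by ring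
    unfold BdQ.hq
    nlinarith

/-- **the changed clocks are bounded uniformly in the family** -/
theorem bci_clobd (hS : BdStd X W Fam K) {P : BudB.PCst} (hP : BudB.PathStd X W Fam P) {n : ℕ} (hn : n ≤ X.J + 1) :
    BudB.CloBd X W Fam n (bciQ0 X P) := by
  have hX := hS.fix
  obtain ⟨N0, h0⟩ := bci_clk_le hS hP
  refine ⟨N0, fun i hi hN v hv => ?_⟩
  obtain ⟨h1, h2⟩ := h0 i.F (BudB.vst_fam hi) hN i.V.g (BudB.vst_g0 hS hn hi) i.V.Q v hv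
  have hFo := BudB.vst_ok hS hi
  have hu := BdFr.bds_u_pos hFo hX
  have hu1 := BdFr.bds_u_le_one hFo hX
  refine ⟨h1.trans (le_max_left _ _), h2.trans (le_trans ?_ (le_max_right _ _))⟩
  have hCK : 0 ≤ P.CK := by linarith [hP.CK1]
  have hc : 0 ≤ P.Cd * X.CU ^ 3 + 1 := by
    have := hP.Cd_pos; have := hX.CU_pos; positivity
  have a1 : P.CK * v ≤ P.CK * 1 := mul_le_mul_of_nonneg_left hv.2.le hCK
  have a2 : (P.Cd * X.CU ^ 3 + 1) * i.F.u ^ 2 ≤ (P.Cd * X.CU ^ 3 + 1) * 1 :=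
    mul_le_mul_of_nonneg_left (pow_le_one₀ hu.le hu1) hc
  linarith

/-! ## 3. After (C7a): the hypotheses of Lemma 7.4 at `w = w_c` -/

/-- **(C7a) ⟹ `BudRxH` at the threshold `w_c`** -/
theorem bci_rxh (hS : BdStd X W Fam K) {cL CL : ℝ} {N7 : ℕ}
    (h7 : ∀ i : BdI X, i.Ok W Fam → N7 ≤ i.F.N → ∀ v ∈ Icc (i.F.wc X) 1, cL * v ≤ i.Q.r v ∧ i.Q.r v ≤ CL * v) :
    ∃ N0 : ℕ, ∀ i : BdI X, i.Ok W Fam → N0 ≤ i.F.N →
      ∃ c0 : ℝ, BudRxH X W i.F i.g i.Q (i.F.wc X) (min cL 1) (max CL 1) c0 := by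
  have hX := hS.fix
  obtain ⟨N1, h1⟩ := bud_n4_geo X hX
  obtain ⟨N2, h2⟩ := bud_rx_wc_le hX (ε := 1) one_pos
  refine ⟨max N7 (max N1 N2), fun i hi hN => ?_⟩
  have n7 : N7 ≤ i.F.N := (le_max_left _ _).trans hN
  have n1 : N1 ≤ i.F.N := ((le_max_left _ _).trans (le_max_right _ _)).trans hN
  have n2 : N2 ≤ i.F.N := ((le_max_right _ _).trans (le_max_right _ _)).trans hN
  have hFo := hS.ok _ hi.1
  have hB := bdg_base hS hi.1 i.Q hi.2.1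
  obtain ⟨c0, hg, _⟩ := h1 i.F hFo n1 W i.g hB i.Q hi.2.2
  obtain ⟨hb, hh⟩ := hS.clk i.F hi.1 i.g hi.2.1 i.Q
  have hwc : 0 < i.F.wc X := (bcs_ha_pos hX hFo).2.2.2.2.2.2.2.1
  have hu1 := BdFr.bds_u_le_one hFo hX
  refine ⟨c0, ⟨hFo, le_rfl, ?_, fun v hv1 hv2 => ?_, hB, hb, hh, hg⟩⟩
  · have := h2 i.F hFo n2
    linarith
  · have hv0 : 0 < v := by linarith
    obtain ⟨a, b⟩ := h7 i hi n7 v ⟨by linarith, hv2⟩
    exact ⟨(mul_le_mul_of_nonneg_right (min_le_left _ _) hv0.le).trans a,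
      b.trans (mul_le_mul_of_nonneg_right (le_max_left _ _) hv0.le)⟩

/-! ## 4. `CloKs` -/

/-- **`K_s(2 c_H u) ≲ u`** (l.1890) -/
theorem bci_cloks (hS : BdStd X W Fam K) {P : BudB.PCst} (hP : BudB.PathStd X W Fam P) (h7a : BudB.C7a X W Fam) {n : ℕ} (hn : n ≤ X.J + 1) :
    BudB.CloKs X W Fam n := by
  have hX := hS.fix
  obtain ⟨cL, CL, hcL, N7, h7⟩ := h7a
  obtain ⟨N1, h1⟩ := bci_rxh hS h7
  obtain ⟨N2, h2⟩ := bud_rx_num hX (max CL 1) 0 (le_max_right _ _)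
  obtain ⟨N3, h3⟩ := bci_clk_le hS hP
  obtain ⟨N4, h4⟩ := bud_rx_wc_le hX (ε := 1) one_pos
  obtain ⟨N5, h5⟩ := BudB.ev_u hX (ε := 1 / (4 * X.cH)) (by have := hX.cH_pos; positivity)
  set C := max CL 1 with hC
  refine ⟨P.CK * (2 * X.cH) + (P.Cd * X.CU ^ 3 + 1) + |P.bmax| * ((4 * C + 4) * (2 * X.cH + 1)),
    max N1 (max N2 (max N3 (max N4 N5))), fun i hi hN => ?_⟩
  have n1 : N1 ≤ i.F.N := (le_max_left _ _).trans hN
  have n2 : N2 ≤ i.F.N := ((le_max_left _ _).trans (le_max_right _ _)).trans hN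
  have n3 : N3 ≤ i.F.N := ((le_max_left _ _).trans ((le_max_right _ _).trans (le_max_right _ _))).trans hN
  have n4 : N4 ≤ i.F.N := ((le_max_left _ _).trans ((le_max_right _ _).trans ((le_max_right _ _).trans (le_max_right _ _)))).trans hN
  have n5 : N5 ≤ i.F.N := ((le_max_right _ _).trans ((le_max_right _ _).trans ((le_max_right _ _).trans (le_max_right _ _)))).trans hN
  have hFo := BudB.vst_ok hS hi
  have hu := BdFr.bds_u_pos hFo hX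
  have hu1 := BdFr.bds_u_le_one hFo hX
  have hcH := hX.cH_pos
  have hI := BudB.vst_I hS hn hi
  obtain ⟨c0, hR⟩ := h1 ⟨i.F, i.V.g, i.V.Q⟩ hI n1
  set v := 2 * (X.cH * i.F.u) with hv
  have hv0 : 0 < v := by rw [hv]; positivity
  have hv1 : v < 1 := by
    have := h5 i.F hFo n5
    have e : 2 * (X.cH * (1 / (4 * X.cH))) = 1 / 2 := by field_simp; norm_num
    have : v ≤ 2 * (X.cH * (1 / (4 * X.cH))) := by
      rw [hv]; exact mul_le_mul_of_nonneg_left (mul_le_mul_of_nonneg_left this hcH.le) (by norm_num)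
    linarith
  have hvI : v ∈ Ioo (0 : ℝ) 1 := ⟨hv0, hv1⟩
  have hSle := bud_rx_S hX (le_max_right _ _) (h2 i.F hFo n2) hR hvI
  obtain ⟨hb, hh⟩ := h3 i.F (BudB.vst_fam hi) n3 i.V.g (BudB.vst_g0 hS hn hi) i.V.Q v hvI
  have hwc := h4 i.F hFo n4
  have hS0 : 0 ≤ i.V.Q.Sq W i.V.g v := by
    have ha := hR.base.a1
    exact (W.ps i.F.m).S_nonneg _ _ (ha ▸ hR.clkb) (ha ▸ hR.clkh) v (by rw [ha]; exact hvI)
  have hC1 : 1 ≤ C := le_max_right _ _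
  have hS2 : i.V.Q.Sq W i.V.g v ≤ (4 * C + 4) * (2 * X.cH + 1) * i.F.u := by
    calc i.V.Q.Sq W i.V.g v ≤ (4 * C + 4) * (v + i.F.wc X) := hSle
      _ ≤ (4 * C + 4) * (2 * (X.cH * i.F.u) + 1 * i.F.u) := mul_le_mul_of_nonneg_left (by rw [hv]; linarith) (by linarith)
      _ = (4 * C + 4) * (2 * X.cH + 1) * i.F.u := by ring
  have hbS : i.V.Q.bq i.V.g v * i.V.Q.Sq W i.V.g v ≤ |P.bmax| * ((4 * C + 4) * (2 * X.cH + 1) * i.F.u) :=
    mul_le_mul (hb.trans (le_abs_self _)) hS2 hS0 (abs_nonneg _)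
  have hu2 : (P.Cd * X.CU ^ 3 + 1) * i.F.u ^ 2 ≤ (P.Cd * X.CU ^ 3 + 1) * i.F.u := by
    have hc : 0 ≤ P.Cd * X.CU ^ 3 + 1 := by
      have := hP.Cd_pos; have := hX.CU_pos; positivity
    refine mul_le_mul_of_nonneg_left ?_ hc
    calc i.F.u ^ 2 = i.F.u * i.F.u := by ring
      _ ≤ i.F.u * 1 := mul_le_mul_of_nonneg_left hu1 hu.le
      _ = i.F.u := mul_one _
  show i.V.Q.hq i.V.g v + i.V.Q.bq i.V.g v * i.V.Q.Sq W i.V.g v ≤ _
  have e : P.CK * v = P.CK * (2 * X.cH) * i.F.u := by rw [hv]; ring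
  nlinarith

/-! ## 5. `C8low` -/

/-- dictionary: the even moments of `Q_v` in the world are the numbers `cmkMR` of the Hub -/
theorem bci_mQ (hW : W.IsHub) {F : BdFr} (Q : BdQ F X) (g : ℝ) (hb : IsClock 1 (Q.bq g)) (hh : IsClock 1 (Q.hq g)) (v : ℝ) (l : ℕ) :
    Q.mQ W g (2 * (l : ℝ)) v 0 = cmkMR F.m (Q.bE g) (Q.hE g) l (ghPosA v) := by
  unfold BdQ.mQ cmkMR
  rw [hW.nu _ _ _ hb hh]
  have e2 : bmTest F.m 2 (fun O => |O 0 1 - 0| ^ (2 * (l : ℝ))) = fun σ => skOv (σ 0) (σ 1) ^ (2 * l) := by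
    funext σ
    unfold bmTest
    have e3 : (if h : (0 : ℕ) < 2 ∧ (1 : ℕ) < 2 then skOv (σ ⟨0, h.1⟩) (σ ⟨1, h.2⟩) else 0) = skOv (σ 0) (σ 1) :=
      dif_pos ⟨by norm_num, by norm_num⟩
    show |(if h : (0 : ℕ) < 2 ∧ (1 : ℕ) < 2 then skOv (σ ⟨0, h.1⟩) (σ ⟨1, h.2⟩) else 0) - 0| ^ (2 * (l : ℝ)) = _
    rw [e3, sub_zero]
    have : (2 * (l : ℝ)) = ((2 * l : ℕ) : ℝ) := by push_cast; ring
    rw [this, Real.rpow_natCast, (even_two_mul l).pow_abs]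
  rw [e2]
  rfl

/-- **(C8) at the fork `c_H u`, in every even moment** -/
theorem bci_c8low (hS : BdStd X W Fam K) (hW : W.IsHub) (h7a : BudB.C7a X W Fam) {n : ℕ} (hn : n ≤ X.J + 1) :
    BudB.C8low X W Fam n := by
  have hX := hS.fix
  obtain ⟨cL, CL, hcL, N7, h7⟩ := h7a
  obtain ⟨N1, h1⟩ := bci_rxh hS h7
  obtain ⟨N4, h4⟩ := bud_rx_wc_le hX (ε := 1) one_pos
  obtain ⟨N5, h5⟩ := BudB.ev_u hX (ε := 1 / (2 * X.cH)) (by have := hX.cH_pos; positivity)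
  intro l hl
  obtain ⟨A2, N2, hA, H⟩ := bud_rx_mr hX (c := min cL 1) (C := max CL 1) (lt_min hcL one_pos) (min_le_right _ _) (le_max_right _ _) hl
  refine ⟨A2 * (1 + X.cH), max N1 (max N2 (max N4 N5)), fun i hi hN => ?_⟩
  have n1 : N1 ≤ i.F.N := (le_max_left _ _).trans hN
  have n2 : N2 ≤ i.F.N := ((le_max_left _ _).trans (le_max_right _ _)).trans hN
  have n4 : N4 ≤ i.F.N := ((le_max_left _ _).trans ((le_max_right _ _).trans (le_max_right _ _))).trans hN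
  have n5 : N5 ≤ i.F.N := ((le_max_right _ _).trans ((le_max_right _ _).trans (le_max_right _ _))).trans hN
  have hFo := BudB.vst_ok hS hi
  have hu := BdFr.bds_u_pos hFo hX
  have hcH := hX.cH_pos
  have hI := BudB.vst_I hS hn hi
  obtain ⟨c0, hR⟩ := h1 ⟨i.F, i.V.g, i.V.Q⟩ hI n1
  set v := X.cH * i.F.u with hv
  have hv0 : 0 < v := by rw [hv]; positivity
  have hv1 : v < 1 := by
    have := h5 i.F hFo n5
    have e : X.cH * (1 / (2 * X.cH)) = 1 / 2 := by field_simp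
    have : v ≤ X.cH * (1 / (2 * X.cH)) := by rw [hv]; exact mul_le_mul_of_nonneg_left this hcH.le
    linarith
  have hm := H W hW i.F i.V.g i.V.Q (i.F.wc X) c0 hR n2 (ghPosA v) (gh_os_posA_ok hv0.le hv1.le)
  have e2 : (ghPosA v).u = v := by simp [ghPosA, GhPos.u]
  rw [e2, ← bci_mQ hW i.V.Q i.V.g hR.clkb hR.clkh v l] at hm
  have hwc := h4 i.F hFo n4
  have hwc0 : 0 < i.F.wc X := (bcs_ha_pos hX hFo).2.2.2.2.2.2.2.1
  have hl0 : (0 : ℝ) < 2 * (l : ℝ) := by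
    have : (1 : ℝ) ≤ l := by exact_mod_cast hl
    linarith
  have hbase : 0 ≤ A2 * (i.F.wc X + v) := by positivity
  unfold BdQ.nQ
  have hmq0 : 0 ≤ i.V.Q.mQ W i.V.g (2 * (l : ℝ)) v 0 := by
    unfold BdQ.mQ
    refine ge_of_tendsto' (bcs_w_nu2 hW (bud_rx_m_pos hFo) hR.clkb hR.clkh ⟨hv0, hv1⟩ (fun t => |t - 0| ^ (2 * (l : ℝ)))
      (by fun_prop) ⟨1, fun t ht => ?_⟩) (fun F => integral_nonneg fun q => by positivity)
    have h1 : |t - 0| ≤ 1 := by rw [sub_zero]; exact abs_le.2 ht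
    rw [abs_of_nonneg (by positivity)]
    exact Real.rpow_le_one (abs_nonneg _) h1 hl0.le
  calc i.V.Q.mQ W i.V.g (2 * (l : ℝ)) v 0 ^ (1 / (2 * (l : ℝ)))
      ≤ ((A2 * (i.F.wc X + v)) ^ (2 * l)) ^ (1 / (2 * (l : ℝ))) := Real.rpow_le_rpow hmq0 hm (by positivity)
    _ = A2 * (i.F.wc X + v) := by
        rw [← Real.rpow_natCast, ← Real.rpow_mul hbase]
        have : ((2 * l : ℕ) : ℝ) * (1 / (2 * (l : ℝ))) = 1 := by push_cast; field_simp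
        rw [this, Real.rpow_one]
    _ ≤ A2 * (1 * i.F.u + X.cH * i.F.u) := mul_le_mul_of_nonneg_left (by rw [hv]; linarith) hA.le
    _ = A2 * (1 + X.cH) * i.F.u := by ring

theorem bci_eqns_cite : True := by
  have := @bciQ0.eq_1
  trivial

end

end Claimed.Agent.R286
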