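import Claimed.Agent.R286.Bud.C19Box

/-!
# Row 286, LL sec. 7, node N17 = Prop. `bud:closure` (C19): THE POINTWISE FORM FROM THE MASTER INEQUALITY (power counting of l.1876-2012)      (owner helper61; names `bcl_*`, `BudB.VF.*`)

PART 1 (§3a-3e); PART 2 = `Bud/C19Fin.lean` (§3f, `bcl_point`, `bcl_c19`).
 §3a  the power margins for ONE violation (from (C18) = `Bud/Pow*`, dictionary `Bud/PowFr`)
 §3b  integrals of powers of `D` (Young instead of Hölder: `(√x)^θ ≤ M^θ (1 + x/M²)`), dyads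
 §3c  the number of high dyads
 §3d  closed forms of the inputs on violations, high integrals
 §3e  the parameters are admissible (`CloOk`)
-/

set_option autoImplicit false

namespace Claimed.Agent.R286

open MeasureTheory Set Filter Topology Asymptotics

noncomputable section

/-! ### 3b. integrals of powers of `D` -/

theorem bcl_ii_of_bdd {f : ℝ → ℝ} (hm : AEMeasurable f (volume.restrict (Ioo (0 : ℝ) 1))) (hb : ∀ v ∈ Ioo (0 : ℝ) 1, |f v| ≤ 1)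
    {a b : ℝ} (ha : 0 ≤ a) (hab : a ≤ b) (hb1 : b ≤ 1) : IntervalIntegrable f volume a b := by
  have h1 : IntegrableOn f (Ioo (0 : ℝ) 1) volume := by
    refine Integrable.of_bound hm.aestronglyMeasurable 1 ?_
    exact (ae_restrict_iff' measurableSet_Ioo).2 (Eventually.of_forall fun v hv => by rw [Real.norm_eq_abs]; exact hb v hv)
  rw [intervalIntegrable_iff_integrableOn_Ioo_of_le hab]
  exact h1.mono_set (Ioo_subset_Ioo ha hb1)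

theorem bcl_ae_Ioc {p : ℝ → Prop} (hp : ∀ v ∈ Ioo (0 : ℝ) 1, p v) {c d : ℝ} (hc : 0 ≤ c) (hd : d ≤ 1) :
    ∀ᵐ v ∂(volume.restrict (Ioc c d)), p v := by
  refine (ae_restrict_iff' measurableSet_Ioc).2 (((Set.countable_singleton (1 : ℝ)).ae_notMem volume).mono fun v hv hvI => ?_)
  exact hp v ⟨lt_of_le_of_lt hc hvI.1, lt_of_le_of_ne (hvI.2.trans hd) hv⟩

/-- Young: `(√x)^θ ≤ M^θ (1 + x/M²)` -/
theorem bcl_young {x M θ : ℝ} (hx : 0 ≤ x) (hM : 0 < M) (hθ : 0 < θ) (hθ2 : θ ≤ 2) :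
    Real.sqrt x ^ θ ≤ M ^ θ * (1 + x / M ^ 2) := by
  have hy := Real.sqrt_nonneg x
  have hMθ : 0 < M ^ θ := Real.rpow_pos_of_pos hM _
  have hxM : 0 ≤ x / M ^ 2 := by positivity
  rcases le_total (Real.sqrt x) M with h | h
  · calc Real.sqrt x ^ θ ≤ M ^ θ := Real.rpow_le_rpow hy h hθ.le
      _ ≤ M ^ θ * (1 + x / M ^ 2) := le_mul_of_one_le_right hMθ.le (by linarith)
  · have h1 : 1 ≤ Real.sqrt x / M := by rwa [le_div_iff₀ hM, one_mul]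
    have e : Real.sqrt x ^ θ = M ^ θ * (Real.sqrt x / M) ^ θ := by
      rw [Real.div_rpow hy hM.le]; field_simp
    have e2 : (Real.sqrt x / M) ^ θ ≤ x / M ^ 2 := by
      calc (Real.sqrt x / M) ^ θ ≤ (Real.sqrt x / M) ^ (2 : ℝ) := Real.rpow_le_rpow_of_exponent_le h1 hθ2
        _ = x / M ^ 2 := by rw [Real.rpow_two, div_pow, Real.sq_sqrt hx]
    rw [e]
    exact mul_le_mul_of_nonneg_left (by linarith) hMθ.le

/-- a dyad `[w, min(2w,1)]`, `vH ≤ w ≤ 1`, from the dyads `[w, 2w]`, `vH ≤ w ≤ 1/2` -/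
theorem bcl_dyad_one {f : ℝ → ℝ} (hf0 : ∀ v ∈ Ioo (0 : ℝ) 1, 0 ≤ f v)
    (hfi : ∀ a b : ℝ, 0 ≤ a → a ≤ b → b ≤ 1 → IntervalIntegrable f volume a b) {vH M2 : ℝ} (hvH : 0 < vH) (hvH2 : vH ≤ 1 / 2)
    (h : ∀ w, vH ≤ w → w ≤ 1 / 2 → ∫ v in w..(2 * w), f v ≤ w * M2) {w : ℝ} (hw : vH ≤ w) (hw1 : w ≤ 1) :
    ∫ v in w..(min (2 * w) 1), f v ≤ w * M2 := by
  rcases le_total w (1 / 2) with h2 | h2
  · rw [min_eq_left (by linarith)]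
    exact h w hw h2
  · rw [min_eq_right (by linarith)]
    have h3 := h (1 / 2) hvH2 le_rfl
    norm_num at h3
    have h4 : ∫ v in w..1, f v ≤ ∫ v in (1 / 2 : ℝ)..1, f v :=
      intervalIntegral.integral_mono_interval h2 hw1 le_rfl (bcl_ae_Ioc hf0 (by norm_num) le_rfl) (hfi _ _ (by norm_num) (by norm_num) le_rfl)
    have h5 : 0 ≤ ∫ v in (1 / 2 : ℝ)..1, f v :=
      intervalIntegral.integral_nonneg_of_ae_restrict (by norm_num) (by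
        have := bcl_ae_Ioc (p := fun v => 0 ≤ f v) hf0 (c := 1 / 2) (d := 1) (by norm_num) le_rfl
        rw [← restrict_Ioc_eq_restrict_Icc]
        exact this)
    have h6 : 0 ≤ M2 := by linarith
    nlinarith

/-- the sum of the dyads -/
theorem bcl_dyad_sum {f : ℝ → ℝ} (hfi : ∀ a b : ℝ, 0 ≤ a → a ≤ b → b ≤ 1 → IntervalIntegrable f volume a b) {vH M2 : ℝ} (hvH : 0 < vH) (hvH1 : vH ≤ 1)
    {nd : ℕ} (hlo : 1 ≤ vH * 2 ^ nd) (hhi : vH * 2 ^ nd ≤ 2) (hM : 0 ≤ M2)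
    (h : ∀ k < nd, ∫ v in (vH * 2 ^ k)..(min (2 * (vH * 2 ^ k)) 1), f v ≤ vH * 2 ^ k * M2) :
    ∫ v in vH..1, f v ≤ 2 * M2 := by
  have hwk : ∀ k < nd, vH * 2 ^ k ≤ 1 := by
    intro k hk
    have : (2 : ℝ) ^ (k + 1) ≤ 2 ^ nd := pow_le_pow_right₀ (by norm_num) hk
    have h2 : vH * 2 ^ (k + 1) ≤ vH * 2 ^ nd := mul_le_mul_of_nonneg_left this hvH.le
    rw [pow_succ] at h2
    linarith
  set a : ℕ → ℝ := fun k => min (vH * 2 ^ k) 1 with ha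
  have ha0 : ∀ k, 0 ≤ a k := fun k => le_min (by positivity) zero_le_one
  have ha1 : ∀ k, a k ≤ 1 := fun k => min_le_right _ _
  have hamono : ∀ k, a k ≤ a (k + 1) := by
    intro k
    refine min_le_min_right _ (mul_le_mul_of_nonneg_left ?_ hvH.le)
    exact pow_le_pow_right₀ (by norm_num) (Nat.le_succ k)
  have hsum := intervalIntegral.sum_integral_adjacent_intervals (f := f) (μ := volume) (a := a) (n := nd)
    (fun k _ => hfi _ _ (ha0 k) (hamono k) (ha1 _))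
  have e0 : a 0 = vH := by
    simp only [ha, pow_zero, mul_one]
    exact min_eq_left hvH1
  have en : a nd = 1 := min_eq_right hlo
  rw [e0, en] at hsum
  rw [← hsum]
  have hk : ∀ k ∈ Finset.range nd, ∫ v in (a k)..(a (k + 1)), f v ≤ vH * 2 ^ k * M2 := by
    intro k hk
    have hk' := Finset.mem_range.1 hk
    have e1 : a k = vH * 2 ^ k := min_eq_left (hwk k hk')
    have e2 : a (k + 1) = min (2 * (vH * 2 ^ k)) 1 := by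
      simp only [ha, pow_succ]; congr 1; ring
    rw [e1, e2]
    exact h k hk'
  refine (Finset.sum_le_sum hk).trans ?_
  have e3 : ∑ k ∈ Finset.range nd, vH * 2 ^ k * M2 = vH * M2 * ∑ k ∈ Finset.range nd, (2 : ℝ) ^ k := by
    rw [Finset.mul_sum]; exact Finset.sum_congr rfl fun k _ => by ring
  have e4 : ∑ k ∈ Finset.range nd, (2 : ℝ) ^ k = 2 ^ nd - 1 := by
    rw [geom_sum_eq (by norm_num)]; norm_num
  rw [e3, e4]
  nlinarith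

section kit2

set_option linter.unusedSectionVars false
set_option linter.unusedVariables false

variable {X : BdFix} {W : BdWorld} {Fam : BdFr → Prop} {K : BdCst} {F : BdFr} {g : ℝ}
variable (hS : BdStd X W Fam K) (hF : Fam F) (hg : g ∈ Icc (X.glo 0) (X.ghi 0)) (Q : BdQ F X)
include hS hF hg

theorem bcl_D2_aem : AEMeasurable (Q.Dq2 W g) (volume.restrict (Ioo (0 : ℝ) 1)) :=
  (aemeasurable_restrict_of_monotoneOn measurableSet_Ioo (bcl_B_mono hS hF hg Q)).sub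
    ((aemeasurable_restrict_of_monotoneOn measurableSet_Ioo (bcl_S_mono hS hF hg Q)).pow_const 2)

theorem bcl_D2_ii {a b : ℝ} (ha : 0 ≤ a) (hab : a ≤ b) (hb1 : b ≤ 1) : IntervalIntegrable (Q.Dq2 W g) volume a b :=
  bcl_ii_of_bdd (bcl_D2_aem hS hF hg Q) (fun v hv => abs_le.2 ⟨by linarith [bcl_D2_nonneg hS hF hg Q hv], bcl_D2_le_one hS hF hg Q hv⟩)
    ha hab hb1

theorem bcl_DT_ii {θ : ℝ} (hθ : 0 ≤ θ) {a b : ℝ} (ha : 0 ≤ a) (hab : a ≤ b) (hb1 : b ≤ 1) :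
    IntervalIntegrable (fun v => Q.Dq W g v ^ θ) volume a b := by
  refine bcl_ii_of_bdd ?_ (fun v hv => ?_) ha hab hb1
  · exact ((bcl_D2_aem hS hF hg Q).sqrt).pow_const θ
  · have h0 : 0 ≤ Q.Dq W g v := Real.sqrt_nonneg _
    have h1 : Q.Dq W g v ≤ 1 := Real.sqrt_le_one.2 (bcl_D2_le_one hS hF hg Q hv)
    rw [abs_of_nonneg (Real.rpow_nonneg h0 _)]
    exact Real.rpow_le_one h0 h1 hθ

/-- `∫ D^θ ≤ M^θ (|J| + ∫ D²/M²)` -/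
theorem bcl_iT_le {θ M : ℝ} (hθ : 0 < θ) (hθ2 : θ ≤ 2) (hM : 0 < M) {a b : ℝ} (ha : 0 ≤ a) (hab : a ≤ b) (hb1 : b ≤ 1) :
    Q.iT W g θ a b ≤ M ^ θ * ((b - a) + Q.i2 W g a b / M ^ 2) := by
  have i2 := bcl_D2_ii hS hF hg Q ha hab hb1
  have iR : IntervalIntegrable (fun v => M ^ θ * (1 + Q.Dq2 W g v / M ^ 2)) volume a b :=
    ((intervalIntegrable_const (c := (1 : ℝ))).add (i2.div_const _)).const_mul _
  have h1 : Q.iT W g θ a b ≤ ∫ v in a..b, M ^ θ * (1 + Q.Dq2 W g v / M ^ 2) := by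
    unfold BdQ.iT
    refine intervalIntegral.integral_mono_ae_restrict hab (bcl_DT_ii hS hF hg Q hθ.le ha hab hb1) iR ?_
    rw [← restrict_Ioc_eq_restrict_Icc]
    exact bcl_ae_Ioc (fun v hv => bcl_young (bcl_D2_nonneg hS hF hg Q hv) hM hθ hθ2) ha hb1
  refine h1.trans (le_of_eq ?_)
  rw [intervalIntegral.integral_const_mul, intervalIntegral.integral_add intervalIntegrable_const (i2.div_const _),
    intervalIntegral.integral_div]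
  simp [BdQ.i2]

theorem bcl_i1_eq (a b : ℝ) : Q.i1 W g a b = Q.iT W g 1 a b := by
  unfold BdQ.i1 BdQ.iT
  simp

theorem bcl_i1_le {M : ℝ} (hM : 0 < M) {a b : ℝ} (ha : 0 ≤ a) (hab : a ≤ b) (hb1 : b ≤ 1) :
    Q.i1 W g a b ≤ M * ((b - a) + Q.i2 W g a b / M ^ 2) := by
  have := bcl_iT_le hS hF hg Q (θ := 1) one_pos (by norm_num) hM ha hab hb1
  rwa [Real.rpow_one, ← bcl_i1_eq hS hF hg Q] at this

theorem bcl_iT_nonneg (θ : ℝ) {a b : ℝ} (hab : a ≤ b) : 0 ≤ Q.iT W g θ a b :=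
  intervalIntegral.integral_nonneg hab fun v _ => Real.rpow_nonneg (Real.sqrt_nonneg _) _

theorem bcl_i1_nonneg {a b : ℝ} (hab : a ≤ b) : 0 ≤ Q.i1 W g a b :=
  intervalIntegral.integral_nonneg hab fun v _ => Real.sqrt_nonneg _

theorem bcl_i2_nonneg {a b : ℝ} (ha : 0 ≤ a) (hab : a ≤ b) (hb1 : b ≤ 1) : 0 ≤ Q.i2 W g a b := by
  refine intervalIntegral.integral_nonneg_of_ae_restrict hab ?_
  rw [← restrict_Ioc_eq_restrict_Icc]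
  exact bcl_ae_Ioc (fun v hv => bcl_D2_nonneg hS hF hg Q hv) ha hb1

end kit2

/-! ### 3c. the number of high dyads -/

/-- number of high dyads `[w_k, 2 w_k]`, `w_k = c_H u 2^k` -/
def BdFr.ndy (F : BdFr) (X : BdFix) : ℕ := ⌈Real.logb 2 (1 / (X.cH * F.u))⌉₊

theorem bcl_ndy_eqns_cite : True := by
  have := @BdFr.ndy.eq_1
  trivial

theorem bcl_ndy {vH : ℝ} (h0 : 0 < vH) (h1 : vH ≤ 1) :
    1 ≤ vH * 2 ^ ⌈Real.logb 2 (1 / vH)⌉₊ ∧ vH * 2 ^ ⌈Real.logb 2 (1 / vH)⌉₊ ≤ 2 := by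
  set t := Real.logb 2 (1 / vH) with ht
  have hinv : 0 < 1 / vH := by positivity
  have ht0 : 0 ≤ t := Real.logb_nonneg (by norm_num) (by rw [le_div_iff₀ h0]; linarith)
  have e : (2 : ℝ) ^ t = 1 / vH := Real.rpow_logb (by norm_num) (by norm_num) hinv
  have c1 : t ≤ (⌈t⌉₊ : ℝ) := Nat.le_ceil t
  have c2 : (⌈t⌉₊ : ℝ) < t + 1 := Nat.ceil_lt_add_one ht0
  have p : (2 : ℝ) ^ ⌈t⌉₊ = (2 : ℝ) ^ ((⌈t⌉₊ : ℕ) : ℝ) := (Real.rpow_natCast 2 _).symm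
  have l1 : 1 / vH ≤ (2 : ℝ) ^ ⌈t⌉₊ := by
    rw [p, ← e]; exact Real.rpow_le_rpow_of_exponent_le (by norm_num) c1
  have l2 : (2 : ℝ) ^ ⌈t⌉₊ ≤ 2 / vH := by
    rw [p]
    calc (2 : ℝ) ^ ((⌈t⌉₊ : ℕ) : ℝ) ≤ (2 : ℝ) ^ (t + 1) := Real.rpow_le_rpow_of_exponent_le (by norm_num) c2.le
      _ = 2 / vH := by rw [Real.rpow_add (by norm_num), e, Real.rpow_one]; ring
  constructor
  · rw [div_le_iff₀ h0] at l1; linarith
  · rw [le_div_iff₀ h0] at l2; linarith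

theorem bcl_ndy_le {X : BdFix} (hX : X.Ok) {ε : ℝ} (hε : 0 < ε) :
    ∃ Kc : ℝ, 0 ≤ Kc ∧ ∀ F : BdFr, F.Ok X → X.cH * F.u ≤ 1 → (F.ndy X : ℝ) ≤ Kc * (F.N : ℝ) ^ ε := by
  have hlog2 : 0 < Real.log 2 := Real.log_pos (by norm_num)
  refine ⟨1 + |Real.log (X.CU / X.cH)| / Real.log 2 + 1 / (6 * ε * Real.log 2), by positivity, fun F hF hvH => ?_⟩
  have hu := BdFr.bds_u_pos hF hX
  have hx := BdFr.bds_x_pos hF
  have hl := BdFr.bds_lam_pos hF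
  have hcH := hX.cH_pos
  have hCU := hX.CU_pos
  have hN : (0 : ℝ) < F.N := by
    have := hF.N2
    positivity
  have hN1 : (1 : ℝ) ≤ F.N := by
    have := hF.N2
    exact_mod_cast (by omega : 1 ≤ F.N)
  have hv0 : 0 < X.cH * F.u := mul_pos hcH hu
  have hinv1 : 1 ≤ 1 / (X.cH * F.u) := by rw [le_div_iff₀ hv0]; linarith
  have ht0 : 0 ≤ Real.logb 2 (1 / (X.cH * F.u)) := Real.logb_nonneg (by norm_num) hinv1
  have c2 : (F.ndy X : ℝ) < Real.logb 2 (1 / (X.cH * F.u)) + 1 := Nat.ceil_lt_add_one ht0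
  -- `x ≤ CU u`
  have hxu : F.x ≤ X.CU * F.u := by
    refine le_trans ?_ hF.u_lo
    unfold BdFr.U
    refine le_mul_of_one_le_right hx.le ?_
    refine Real.one_le_rpow_of_pos_of_le_one_of_nonpos hl (BdFr.bds_lam_lt_one hF hX).le ?_
    have : 0 ≤ X.sS := by
      unfold BdFix.sS
      have := hX.tau_le
      linarith
    linarith
  have h3 : 1 / (X.cH * F.u) ≤ X.CU / X.cH * (F.N : ℝ) ^ (1 / 6 : ℝ) := by
    have ex : (F.N : ℝ) ^ (1 / 6 : ℝ) = 1 / F.x := by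
      unfold BdFr.x
      rw [Real.rpow_neg hN.le]; field_simp
    rw [ex, div_le_iff₀ hv0]
    have : X.CU / X.cH * (1 / F.x) * (X.cH * F.u) = X.CU * F.u / F.x := by field_simp
    rw [this, le_div_iff₀ hx]
    linarith
  have h4 : Real.log (1 / (X.cH * F.u)) ≤ Real.log (X.CU / X.cH) + 1 / 6 * Real.log F.N := by
    have := Real.log_le_log (by positivity) h3
    rwa [Real.log_mul (by positivity) (by positivity), Real.log_rpow hN] at this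
  have h5 : Real.log F.N ≤ (F.N : ℝ) ^ ε / ε := Real.log_le_rpow_div hN.le hε
  have hNe : 1 ≤ (F.N : ℝ) ^ ε := Real.one_le_rpow hN1 hε.le
  have h6 : Real.logb 2 (1 / (X.cH * F.u)) ≤ (|Real.log (X.CU / X.cH)| + 1 / 6 * ((F.N : ℝ) ^ ε / ε)) / Real.log 2 := by
    unfold Real.logb
    refine div_le_div_of_nonneg_right ?_ hlog2.le
    have := le_abs_self (Real.log (X.CU / X.cH))
    linarith
  have h7 : (|Real.log (X.CU / X.cH)| + 1 / 6 * ((F.N : ℝ) ^ ε / ε)) / Real.log 2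
      = |Real.log (X.CU / X.cH)| / Real.log 2 + 1 / (6 * ε * Real.log 2) * (F.N : ℝ) ^ ε := by
    field_simp
  have h8 : |Real.log (X.CU / X.cH)| / Real.log 2 ≤ |Real.log (X.CU / X.cH)| / Real.log 2 * (F.N : ℝ) ^ ε :=
    le_mul_of_one_le_right (by positivity) hNe
  calc (F.ndy X : ℝ) ≤ Real.logb 2 (1 / (X.cH * F.u)) + 1 := c2.le
    _ ≤ |Real.log (X.CU / X.cH)| / Real.log 2 * (F.N : ℝ) ^ ε + 1 / (6 * ε * Real.log 2) * (F.N : ℝ) ^ ε + (F.N : ℝ) ^ ε := by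
        rw [h7] at h6; linarith
    _ = _ := by ring

namespace BudB

variable {X : BdFix} {W : BdWorld} {Fam : BdFr → Prop} {K : BdCst}

/-! ### 3a. the power margins, one instance -/

section num

set_option linter.unusedSectionVars false

variable {i : BdVI X W} (hv : VF Fam i) (hX : X.Ok)
include hv hX

theorem VF.lam_pos : 0 < i.F.lam := hv.hyp.lam0
theorem VF.lam_le : i.F.lam ≤ 1 := hv.hyp.lam1
theorem VF.u_le : i.F.u ≤ 1 := BdFr.bds_u_le_one hv.ok hX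
theorem VF.A_pos : 0 < i.F.A := BdFr.bds_A_pos hv.ok hX
theorem VF.P1_eq : i.V.P1 = i.V.L * i.V.G1 := rfl
theorem VF.lam_rpow_le {e : ℝ} (he : 0 ≤ e) : i.F.lam ^ e ≤ 1 := Real.rpow_le_one hv.hyp.lam0.le hv.hyp.lam1 he

theorem VF.c18a : i.F.T2 X ≤ 16 * i.F.lam ^ (4 / 100 : ℝ) * i.V.P1 := by
  have := bud_BudC18a _ _ _ _ _ _ _ _ _ _ hv.hyp
  rwa [← BdFr.bpf_s0, ← BdFr.bpf_T2 hv.ok, ← bpf_P1] at this

theorem VF.c18b : i.F.A * i.F.T1 X ≤ 16 * i.F.lam ^ (4 / 100 : ℝ) * i.V.P1 ∧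
    i.F.Xr ^ (3 : ℝ) * i.F.A * i.F.lam ^ (-(1 / 100) - 1 / 6 : ℝ) ≤ 16 * i.F.lam ^ (4 / 100 : ℝ) * i.V.P1 ∧
    i.F.lam ^ (-(2 * X.rho)) * i.F.A ^ (3 : ℝ) ≤ 16 * i.F.lam ^ (4 / 100 : ℝ) * i.V.P1 := by
  have := bud_BudC18b _ _ _ _ _ _ _ _ _ _ hv.hyp
  rwa [← BdFr.bpf_s0, ← BdFr.bpf_T1 hv.ok, ← bpf_P1, ← BdFr.bpf_A hv.ok] at this

theorem VF.c18c : i.F.lam ^ (6 / 100 : ℝ) * i.F.T1 X ≤ 16 * i.F.lam ^ (4 / 100 : ℝ) * i.V.G1 ∧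
    i.V.L * i.F.T1 X ≤ 16 * i.F.lam ^ (4 / 100 : ℝ) * i.V.G1 := by
  have := bud_BudC18c _ _ _ _ _ _ _ _ _ _ hv.hyp
  rwa [← BdFr.bpf_s0, ← BdFr.bpf_T1 hv.ok, ← bpf_G1] at this

theorem VF.T1_nonneg : 0 ≤ i.F.T1 X ∧ i.F.A ≤ i.F.T1 X := by
  have h1 : 0 ≤ i.F.Bf X := by
    unfold BdFr.Bf BdFr.Lam
    have := hv.hyp.X0; have := hv.hyp.lam0
    positivity
  have h2 := (hv.A_pos hX).le
  unfold BdFr.T1
  constructor <;> nlinarith [sq_nonneg (i.F.yc X)]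

theorem VF.A2_le_T2 : i.F.A ^ 2 ≤ i.F.T2 X := by
  have hA := (hv.A_pos hX).le
  have hy : 0 ≤ i.F.yc X := by
    unfold BdFr.yc BdFr.Lam
    have := hv.hyp.X0; have := hv.hyp.lam0; have := BdFr.bds_x_pos hv.ok
    positivity
  unfold BdFr.T2
  have h1 : 0 ≤ i.F.A ^ (3 / 2 : ℝ) * i.F.yc X := mul_nonneg (Real.rpow_nonneg hA _) hy
  have h2 : 0 ≤ i.F.A * i.F.yc X ^ (5 / 3 : ℝ) := mul_nonneg hA (Real.rpow_nonneg hy _)
  nlinarith [sq_nonneg (i.F.Bf X)]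

theorem VF.n_T2 : i.F.u ^ 3 * i.F.T2 X ≤ 16 * (i.F.lam ^ (4 / 100 : ℝ) * tol X W i) := by
  have hu := hv.u_pos hX
  calc i.F.u ^ 3 * i.F.T2 X ≤ i.F.u ^ 3 * (16 * i.F.lam ^ (4 / 100 : ℝ) * i.V.P1) :=
        mul_le_mul_of_nonneg_left (hv.c18a hX) (by positivity)
    _ = _ := by unfold tol; ring

theorem VF.n_LH : i.F.u ^ 2 * i.F.T1 X * (i.F.u * i.F.A) ≤ 16 * (i.F.lam ^ (4 / 100 : ℝ) * tol X W i) := by
  have hu := hv.u_pos hX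
  calc i.F.u ^ 2 * i.F.T1 X * (i.F.u * i.F.A) = i.F.u ^ 3 * (i.F.A * i.F.T1 X) := by ring
    _ ≤ i.F.u ^ 3 * (16 * i.F.lam ^ (4 / 100 : ℝ) * i.V.P1) := mul_le_mul_of_nonneg_left (hv.c18b hX).1 (by positivity)
    _ = _ := by unfold tol; ring

theorem VF.n_HH : i.F.u * (i.F.u * i.F.A) ^ 2 ≤ 16 * (i.F.lam ^ (4 / 100 : ℝ) * tol X W i) := by
  have hu := hv.u_pos hX
  calc i.F.u * (i.F.u * i.F.A) ^ 2 = i.F.u ^ 3 * i.F.A ^ 2 := by ring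
    _ ≤ i.F.u ^ 3 * i.F.T2 X := mul_le_mul_of_nonneg_left (hv.A2_le_T2 hX) (by positivity)
    _ ≤ _ := hv.n_T2 hX

theorem VF.m2' : i.F.lam ^ (14 / 100 : ℝ) * (i.V.L * (i.V.L + i.F.lam)) ≤ 2 * (i.F.lam ^ (11 / 100 : ℝ) * i.V.G1) := by
  have := bpe_m2 hv.hyp.lam0 hv.hyp.lam1 hv.L0 hv.L1
  rwa [← bpf_G1] at this

theorem VF.n_mm : (i.V.d0 + i.F.lam * i.F.u) * (i.V.d0 ^ 2 * i.F.lam ^ (0.14 : ℝ)) ≤ 2 * (i.F.lam ^ (11 / 100 : ℝ) * tol X W i) := by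
  have hu := hv.u_pos hX
  have e : (0.14 : ℝ) = 14 / 100 := by norm_num
  rw [e]
  calc (i.V.d0 + i.F.lam * i.F.u) * (i.V.d0 ^ 2 * i.F.lam ^ (14 / 100 : ℝ))
      = i.F.u ^ 3 * i.V.L * (i.F.lam ^ (14 / 100 : ℝ) * (i.V.L * (i.V.L + i.F.lam))) := by unfold BdViol.d0; ring
    _ ≤ i.F.u ^ 3 * i.V.L * (2 * (i.F.lam ^ (11 / 100 : ℝ) * i.V.G1)) :=
        mul_le_mul_of_nonneg_left (hv.m2' hX) (mul_nonneg (by positivity) hv.L0.le)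
    _ = _ := by unfold tol BdViol.P1; ring

theorem VF.n_ppp : i.V.d0 ^ 2 * (i.V.d0 * i.F.lam ^ (0.07 : ℝ)) ≤ 2 * (i.F.lam ^ (4 / 100 : ℝ) * tol X W i) := by
  have hu := hv.u_pos hX
  have hl := hv.hyp.lam0
  have h1 := hv.m2' hX
  have h2 : i.F.lam ^ (14 / 100 : ℝ) * (i.V.L * i.V.L) ≤ 2 * (i.F.lam ^ (11 / 100 : ℝ) * i.V.G1) := by
    refine le_trans ?_ h1
    refine mul_le_mul_of_nonneg_left ?_ (Real.rpow_nonneg hl.le _)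
    exact mul_le_mul_of_nonneg_left (by linarith) hv.L0.le
  have e1 : i.F.lam ^ (0.07 : ℝ) = i.F.lam ^ (-(7 / 100) : ℝ) * i.F.lam ^ (14 / 100 : ℝ) := by
    rw [← Real.rpow_add hl]; norm_num
  have e2 : i.F.lam ^ (4 / 100 : ℝ) = i.F.lam ^ (-(7 / 100) : ℝ) * i.F.lam ^ (11 / 100 : ℝ) := by
    rw [← Real.rpow_add hl]; norm_num
  rw [e1, e2]
  calc i.V.d0 ^ 2 * (i.V.d0 * (i.F.lam ^ (-(7 / 100) : ℝ) * i.F.lam ^ (14 / 100 : ℝ)))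
      = i.F.u ^ 3 * i.V.L * i.F.lam ^ (-(7 / 100) : ℝ) * (i.F.lam ^ (14 / 100 : ℝ) * (i.V.L * i.V.L)) := by unfold BdViol.d0; ring
    _ ≤ i.F.u ^ 3 * i.V.L * i.F.lam ^ (-(7 / 100) : ℝ) * (2 * (i.F.lam ^ (11 / 100 : ℝ) * i.V.G1)) :=
        mul_le_mul_of_nonneg_left h2 (mul_nonneg (mul_nonneg (by positivity) hv.L0.le) (Real.rpow_nonneg hl.le _))
    _ = _ := by unfold tol BdViol.P1; ring

theorem VF.n_ppf : i.V.d0 ^ 2 * (i.F.u ^ 2 * i.F.T1 X + i.F.u * i.F.A) ≤ 32 * (i.F.lam ^ (4 / 100 : ℝ) * tol X W i) := by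
  have hu := hv.u_pos hX
  have hu1 := hv.u_le hX
  obtain ⟨t0, t1⟩ := hv.T1_nonneg hX
  have h1 : i.F.u ^ 2 * i.F.T1 X + i.F.u * i.F.A ≤ i.F.u * (2 * i.F.T1 X) := by
    have : i.F.u ^ 2 * i.F.T1 X ≤ i.F.u * i.F.T1 X := by
      have : i.F.u ^ 2 ≤ i.F.u := by nlinarith
      exact mul_le_mul_of_nonneg_right this t0
    have : i.F.u * i.F.A ≤ i.F.u * i.F.T1 X := mul_le_mul_of_nonneg_left t1 hu.le
    linarith
  calc i.V.d0 ^ 2 * (i.F.u ^ 2 * i.F.T1 X + i.F.u * i.F.A) ≤ i.V.d0 ^ 2 * (i.F.u * (2 * i.F.T1 X)) :=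
        mul_le_mul_of_nonneg_left h1 (sq_nonneg _)
    _ = 2 * i.F.u ^ 3 * i.V.L * (i.V.L * i.F.T1 X) := by unfold BdViol.d0; ring
    _ ≤ 2 * i.F.u ^ 3 * i.V.L * (16 * i.F.lam ^ (4 / 100 : ℝ) * i.V.G1) :=
        mul_le_mul_of_nonneg_left (hv.c18c hX).2 (mul_nonneg (by positivity) hv.L0.le)
    _ = _ := by unfold tol BdViol.P1; ring

theorem VF.n_pL : i.F.u ^ 2 * i.F.T1 X * (i.V.d0 * i.F.lam ^ (0.07 : ℝ)) ≤ 16 * (i.F.lam ^ (4 / 100 : ℝ) * tol X W i) := by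
  have hu := hv.u_pos hX
  have hl := hv.hyp.lam0
  obtain ⟨t0, _⟩ := hv.T1_nonneg hX
  have e1 : i.F.lam ^ (0.07 : ℝ) ≤ i.F.lam ^ (6 / 100 : ℝ) := Real.rpow_le_rpow_of_exponent_ge hl hv.hyp.lam1 (by norm_num)
  calc i.F.u ^ 2 * i.F.T1 X * (i.V.d0 * i.F.lam ^ (0.07 : ℝ)) = i.F.u ^ 3 * i.V.L * (i.F.lam ^ (0.07 : ℝ) * i.F.T1 X) := by
        unfold BdViol.d0; ring
    _ ≤ i.F.u ^ 3 * i.V.L * (i.F.lam ^ (6 / 100 : ℝ) * i.F.T1 X) :=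
        mul_le_mul_of_nonneg_left (mul_le_mul_of_nonneg_right e1 t0) (mul_nonneg (by positivity) hv.L0.le)
    _ ≤ i.F.u ^ 3 * i.V.L * (16 * i.F.lam ^ (4 / 100 : ℝ) * i.V.G1) :=
        mul_le_mul_of_nonneg_left (hv.c18c hX).1 (mul_nonneg (by positivity) hv.L0.le)
    _ = _ := by unfold tol BdViol.P1; ring

theorem VF.n_pH1 : i.F.u ^ 2 * i.F.Xr ^ 3 * i.F.Lam ^ (-(1 / 3) : ℝ) * i.F.lam ^ (-(1 / 6) : ℝ) * (i.F.u * i.F.A)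
    ≤ 16 * (i.F.lam ^ (4 / 100 : ℝ) * tol X W i) := by
  have hu := hv.u_pos hX
  have hl := hv.hyp.lam0
  have e1 : i.F.Lam ^ (-(1 / 3) : ℝ) * i.F.lam ^ (-(1 / 6) : ℝ) = i.F.lam ^ (-(1 / 100) - 1 / 6 : ℝ) := by
    unfold BdFr.Lam
    rw [← Real.rpow_mul hl.le, ← Real.rpow_add hl]; norm_num
  have e2 : i.F.Xr ^ 3 = i.F.Xr ^ (3 : ℝ) := by norm_cast
  calc i.F.u ^ 2 * i.F.Xr ^ 3 * i.F.Lam ^ (-(1 / 3) : ℝ) * i.F.lam ^ (-(1 / 6) : ℝ) * (i.F.u * i.F.A)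
      = i.F.u ^ 3 * (i.F.Xr ^ (3 : ℝ) * i.F.A * (i.F.Lam ^ (-(1 / 3) : ℝ) * i.F.lam ^ (-(1 / 6) : ℝ))) := by rw [e2]; ring
    _ ≤ i.F.u ^ 3 * (16 * i.F.lam ^ (4 / 100 : ℝ) * i.V.P1) := by
        rw [e1]; exact mul_le_mul_of_nonneg_left (hv.c18b hX).2.1 (by positivity)
    _ = _ := by unfold tol; ring

theorem VF.n_pH2 : i.F.u ^ 2 * i.V.G1 * (i.V.d0 * i.F.lam ^ (0.07 : ℝ)) ≤ tol X W i := by
  have hu := hv.u_pos hX
  have h1 := hv.lam_rpow_le hX (e := 0.07) (by norm_num)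
  calc i.F.u ^ 2 * i.V.G1 * (i.V.d0 * i.F.lam ^ (0.07 : ℝ)) = tol X W i * i.F.lam ^ (0.07 : ℝ) := by
        unfold tol BdViol.P1 BdViol.d0; ring
    _ ≤ tol X W i * 1 := mul_le_mul_of_nonneg_left h1 (hv.tol_pos hX).le
    _ = _ := mul_one _

theorem VF.n_eta : i.F.u * (i.F.lam ^ (-X.rho) * i.F.u ^ 2 * i.F.A ^ 3) ≤ 16 * (i.F.lam ^ (4 / 100 : ℝ) * tol X W i) := by
  have hu := hv.u_pos hX
  have hl := hv.hyp.lam0
  have hA := hv.A_pos hX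
  have e1 : i.F.lam ^ (-X.rho) ≤ i.F.lam ^ (-(2 * X.rho)) :=
    Real.rpow_le_rpow_of_exponent_ge hl hv.hyp.lam1 (by have := hX.rho_pos; linarith)
  have e2 : i.F.A ^ 3 = i.F.A ^ (3 : ℝ) := by norm_cast
  calc i.F.u * (i.F.lam ^ (-X.rho) * i.F.u ^ 2 * i.F.A ^ 3) = i.F.u ^ 3 * (i.F.lam ^ (-X.rho) * i.F.A ^ (3 : ℝ)) := by rw [e2]; ring
    _ ≤ i.F.u ^ 3 * (i.F.lam ^ (-(2 * X.rho)) * i.F.A ^ (3 : ℝ)) :=
        mul_le_mul_of_nonneg_left (mul_le_mul_of_nonneg_right e1 (Real.rpow_nonneg hA.le _)) (by positivity)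
    _ ≤ i.F.u ^ 3 * (16 * i.F.lam ^ (4 / 100 : ℝ) * i.V.P1) := mul_le_mul_of_nonneg_left (hv.c18b hX).2.2 (by positivity)
    _ = _ := by unfold tol; ring

theorem VF.N_pos : (0 : ℝ) < i.F.N := by
  have := hv.ok.N2
  positivity

theorem VF.x4_le_tol : (i.F.N : ℝ) ^ (-(2 / 3) : ℝ) ≤ tol X W i := by
  have hu := hv.u_pos hX
  have hu1 := hv.u_le hX
  have hl := hv.hyp.lam0
  have hx := BdFr.bds_x_pos hv.ok
  have hXr := hv.hyp.X0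
  have hN := hv.N_pos hX
  have hG : i.F.lam ^ (1 / 2 : ℝ) * i.V.L ≤ i.V.G1 := by
    have := bpe_G1_ge hl hv.hyp.lam1 hv.L0 hv.L1
    rwa [← bpf_G1] at this
  set sg : ℝ := 1 / 2 - X.tau - X.tau0 with hsg
  have hs49 : (0.49 : ℝ) ≤ sg := by
    have := BdFr.bds_s0_ge hX
    rwa [BdFr.bpf_s0] at this
  have hL : i.F.Xr ^ (2 : ℝ) * i.F.lam ^ (-sg) ≤ i.V.L := by
    refine le_trans ?_ hv.hyp.L0
    exact le_mul_of_one_le_right (mul_nonneg (Real.rpow_nonneg hXr.le _) (Real.rpow_nonneg hl.le _)) hv.hyp.Z1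
  have hb0 : 0 ≤ i.F.Xr ^ (2 : ℝ) * i.F.lam ^ (-sg) := mul_nonneg (Real.rpow_nonneg hXr.le _) (Real.rpow_nonneg hl.le _)
  have hP : i.F.Xr ^ 4 ≤ i.V.P1 := by
    have h1 : i.F.lam ^ (1 / 2 : ℝ) * (i.F.Xr ^ (2 : ℝ) * i.F.lam ^ (-sg)) ^ 2 ≤ i.V.P1 := by
      calc i.F.lam ^ (1 / 2 : ℝ) * (i.F.Xr ^ (2 : ℝ) * i.F.lam ^ (-sg)) ^ 2 ≤ i.F.lam ^ (1 / 2 : ℝ) * i.V.L ^ 2 :=
            mul_le_mul_of_nonneg_left (pow_le_pow_left₀ hb0 hL 2) (Real.rpow_nonneg hl.le _)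
        _ = i.V.L * (i.F.lam ^ (1 / 2 : ℝ) * i.V.L) := by ring
        _ ≤ i.V.L * i.V.G1 := mul_le_mul_of_nonneg_left hG hv.L0.le
    refine le_trans ?_ h1
    have e1 : i.F.lam ^ (1 / 2 : ℝ) * (i.F.Xr ^ (2 : ℝ) * i.F.lam ^ (-sg)) ^ 2 = i.F.Xr ^ 4 * i.F.lam ^ (1 / 2 - 2 * sg) := by
      have : i.F.lam ^ (1 / 2 - 2 * sg) = i.F.lam ^ (1 / 2 : ℝ) * (i.F.lam ^ (-sg) * i.F.lam ^ (-sg)) := by
        rw [← Real.rpow_add hl, ← Real.rpow_add hl]; congr 1; ring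
      rw [this, Real.rpow_two]; ring
    rw [e1]
    refine le_mul_of_one_le_right (by positivity) ?_
    exact Real.one_le_rpow_of_pos_of_le_one_of_nonpos hl hv.hyp.lam1 (by linarith)
  have hx4 : i.F.x ^ 4 ≤ tol X W i := by
    have e2 : i.F.u ^ 3 * i.F.Xr ^ 4 = i.F.x ^ 4 / i.F.u := by
      unfold BdFr.Xr; field_simp
    calc i.F.x ^ 4 ≤ i.F.x ^ 4 / i.F.u := by
          rw [le_div_iff₀ hu]
          exact mul_le_of_le_one_right (by positivity) hu1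
      _ = i.F.u ^ 3 * i.F.Xr ^ 4 := e2.symm
      _ ≤ i.F.u ^ 3 * i.V.P1 := mul_le_mul_of_nonneg_left hP (by positivity)
  refine le_trans (le_of_eq ?_) hx4
  unfold BdFr.x
  rw [← Real.rpow_natCast, ← Real.rpow_mul hN.le]
  norm_num

theorem VF.n_m : 1 / (i.F.m : ℝ) ≤ 2 * ((i.F.N : ℝ) ^ (-(1 / 3) : ℝ) * tol X W i) := by
  have hN := hv.N_pos hX
  have h1 := hv.ok.m_lo
  have hm : (0 : ℝ) < i.F.m := by linarith
  have h2 : 1 / (i.F.m : ℝ) ≤ 2 * (i.F.N : ℝ) ^ (-1 : ℝ) := by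
    rw [Real.rpow_neg_one, div_le_iff₀ hm]
    have : (i.F.N : ℝ)⁻¹ * (i.F.N : ℝ) = 1 := inv_mul_cancel₀ hN.ne'
    nlinarith [inv_pos.2 hN]
  refine h2.trans ?_
  have e : (i.F.N : ℝ) ^ (-1 : ℝ) = (i.F.N : ℝ) ^ (-(1 / 3) : ℝ) * (i.F.N : ℝ) ^ (-(2 / 3) : ℝ) := by
    rw [← Real.rpow_add hN]; norm_num
  rw [e]
  exact mul_le_mul_of_nonneg_left (mul_le_mul_of_nonneg_left (hv.x4_le_tol hX) (Real.rpow_nonneg hN.le _)) (by norm_num)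

theorem VF.uA_ge : (i.F.N : ℝ) ^ (-(1 / 3) : ℝ) ≤ i.F.u * i.F.A := by
  have hu := hv.u_pos hX
  have hu1 := hv.u_le hX
  have hl := hv.hyp.lam0
  have hx := BdFr.bds_x_pos hv.ok
  have hN := hv.N_pos hX
  have h1 : (1 : ℝ) ≤ i.F.Lam ^ (-(1 / 3) : ℝ) := by
    unfold BdFr.Lam
    rw [← Real.rpow_mul hl.le]
    exact Real.one_le_rpow_of_pos_of_le_one_of_nonpos hl hv.hyp.lam1 (by norm_num)
  have e1 : i.F.u * i.F.A = i.F.x ^ 2 / i.F.u * i.F.Lam ^ (-(1 / 3) : ℝ) := by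
    unfold BdFr.A BdFr.Xr; field_simp
  have e2 : (i.F.N : ℝ) ^ (-(1 / 3) : ℝ) = i.F.x ^ 2 := by
    unfold BdFr.x
    rw [← Real.rpow_natCast, ← Real.rpow_mul hN.le]
    norm_num
  rw [e1, e2]
  calc i.F.x ^ 2 ≤ i.F.x ^ 2 / i.F.u := by
        rw [le_div_iff₀ hu]
        exact mul_le_of_le_one_right (by positivity) hu1
    _ ≤ i.F.x ^ 2 / i.F.u * i.F.Lam ^ (-(1 / 3) : ℝ) := le_mul_of_one_le_right (by positivity) h1

/-- the loss of the slightly-higher-than-second moments -/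
theorem VF.n_th {l : ℕ} (hl1 : 1 ≤ l) : i.F.u * (i.F.u * i.F.A) ^ (2 * (1 - 1 / (2 * (l : ℝ))))
    ≤ 16 * ((i.F.N : ℝ) ^ (1 / (3 * (l : ℝ))) * (i.F.lam ^ (4 / 100 : ℝ) * tol X W i)) := by
  have hu := hv.u_pos hX
  have hA := hv.A_pos hX
  have hN := hv.N_pos hX
  have huA : 0 < i.F.u * i.F.A := mul_pos hu hA
  have hl0 : (0 : ℝ) < l := by exact_mod_cast hl1
  have e1 : (i.F.u * i.F.A) ^ (2 * (1 - 1 / (2 * (l : ℝ)))) = (i.F.u * i.F.A) ^ 2 * (i.F.u * i.F.A) ^ (-(1 / (l : ℝ))) := by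
    rw [← Real.rpow_natCast, ← Real.rpow_add huA]
    congr 1
    field_simp
    ring
  have e2 : (i.F.u * i.F.A) ^ (-(1 / (l : ℝ))) ≤ (i.F.N : ℝ) ^ (1 / (3 * (l : ℝ))) := by
    calc (i.F.u * i.F.A) ^ (-(1 / (l : ℝ))) ≤ ((i.F.N : ℝ) ^ (-(1 / 3) : ℝ)) ^ (-(1 / (l : ℝ))) :=
          Real.rpow_le_rpow_of_nonpos (Real.rpow_pos_of_pos hN _) (hv.uA_ge hX) (by
            have : 0 ≤ 1 / (l : ℝ) := by positivity
            linarith)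
      _ = (i.F.N : ℝ) ^ (1 / (3 * (l : ℝ))) := by
          rw [← Real.rpow_mul hN.le]
          congr 1
          field_simp
  rw [e1]
  calc i.F.u * ((i.F.u * i.F.A) ^ 2 * (i.F.u * i.F.A) ^ (-(1 / (l : ℝ))))
      = (i.F.u * (i.F.u * i.F.A) ^ 2) * (i.F.u * i.F.A) ^ (-(1 / (l : ℝ))) := by ring
    _ ≤ (16 * (i.F.lam ^ (4 / 100 : ℝ) * tol X W i)) * (i.F.N : ℝ) ^ (1 / (3 * (l : ℝ))) :=
        mul_le_mul (hv.n_HH hX) e2 (Real.rpow_nonneg huA.le _)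
          (mul_nonneg (by norm_num) (mul_nonneg (Real.rpow_nonneg hv.hyp.lam0.le _) (hv.tol_pos hX).le))
    _ = _ := by ring

end num

/-! ### 3d. closed forms of the inputs on violations; the high integrals -/

/-- the instance (frame, parameter, optimiser) of a violation -/
def toI (i : BdVI X W) : BdI X := ⟨i.F, i.V.g, i.V.Q⟩

/-- `M` bounds the RMS of `D` on all high dyads -/
def HiB (i : BdVI X W) (M : ℝ) : Prop :=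
  0 < M ∧ ∀ w, X.cH * i.F.u ≤ w → w ≤ 1 / 2 → i.V.Q.i2 W i.V.g w (2 * w) ≤ w * M ^ 2

theorem bcl_pt_eqns_cite : True := by
  have := @toI.eq_1; have := @HiB.eq_1
  trivial

theorem bcl_toI_ok (hS : BdStd X W Fam K) {n : ℕ} (hn : n ≤ X.J + 1) {i : BdVI X W} (hi : VSt X W Fam n i) : (toI i).Ok W Fam := by
  obtain ⟨hFam, _, hst, hV, _⟩ := hi
  obtain ⟨_, _, n3, n4⟩ := fix_nest hS.fix n hn
  have g1 := hV.g_mem.1
  have g2 := hV.g_mem.2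
  rw [hst] at g1 g2
  exact ⟨hFam, ⟨n3.trans g1, g2.trans n4⟩, hV.opt⟩

theorem bcl_toI_st (hS : BdStd X W Fam K) {n : ℕ} (hn : n ≤ X.J + 1) {i : BdVI X W} (hi : VSt X W Fam n i) : (toI i).OkSt W Fam :=
  ⟨bcl_toI_ok hS hn hi, hi.2.1⟩

theorem bcl_c16c (hS : BdStd X W Fam K) {n : ℕ} (hn : n ≤ X.J + 1) (h16c : BudC16c X W Fam) {ε : ℝ} (hε : 0 < ε) :
    ∃ C : ℝ, 0 < C ∧ ∃ N0 : ℕ, ∀ i : BdVI X W, VSt X W Fam n i → N0 ≤ i.F.N → HiB i (C * ((i.F.N : ℝ) ^ ε * (i.F.u * i.F.A))) := by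
  have hX := hS.fix
  obtain ⟨C, hC, N0, h⟩ := bcl_sub_le h16c (fun i hi => by
    have hF := hS.ok _ hi.1.1.1
    exact (mul_pos (BdFr.bds_u_pos hF hX) (BdFr.bds_A_pos hF hX)).le) hε
  refine ⟨C + 1, by linarith, N0, fun i hi hN => ?_⟩
  have hF := hS.ok _ hi.1
  have hu := BdFr.bds_u_pos hF hX
  have hA := BdFr.bds_A_pos hF hX
  have hNp : (0 : ℝ) < i.F.N := by
    have := hF.N2
    positivity
  have hG : 0 < (i.F.N : ℝ) ^ ε * (i.F.u * i.F.A) := mul_pos (Real.rpow_pos_of_pos hNp _) (mul_pos hu hA)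
  refine ⟨mul_pos (by linarith) hG, fun w hw hw2 => ?_⟩
  have hw0 : 0 < w := lt_of_lt_of_le (mul_pos hX.cH_pos hu) hw
  have h1 := h (toI i, w) ⟨bcl_toI_st hS hn hi, hw, hw2⟩ hN
  have h2 : Real.sqrt (w⁻¹ * ∫ v in w..(2 * w), i.V.Q.Dq2 W i.V.g v) ≤ (C + 1) * ((i.F.N : ℝ) ^ ε * (i.F.u * i.F.A)) := by
    refine ((le_abs_self _).trans h1).trans ?_
    exact mul_le_mul_of_nonneg_right (by linarith) hG.le
  have h3 := (Real.sqrt_le_iff.1 h2).2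
  unfold BdQ.i2
  rw [inv_mul_le_iff₀ hw0] at h3
  exact h3

section hi

variable {i : BdVI X W} {M : ℝ}

theorem HiB.dy (h : HiB i M) (hS : BdStd X W Fam K) (hv : VF Fam i) {w : ℝ} (hw : X.cH * i.F.u ≤ w) (hw1 : w ≤ 1) :
    i.V.Q.i2 W i.V.g w (min (2 * w) 1) ≤ w * M ^ 2 :=
  bcl_dyad_one (fun _ hv' => bcl_D2_nonneg hS hv.fam hv.g0 i.V.Q hv') (fun _ _ ha hab hb => bcl_D2_ii hS hv.fam hv.g0 i.V.Q ha hab hb)
    (mul_pos hS.fix.cH_pos (hv.u_pos hS.fix)) (by linarith [hv.cHu]) h.2 hw hw1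

theorem VF.ndy_lo (hv : VF Fam i) (hX : X.Ok) : 1 ≤ X.cH * i.F.u * 2 ^ i.F.ndy X ∧ X.cH * i.F.u * 2 ^ i.F.ndy X ≤ 2 :=
  bcl_ndy (mul_pos hX.cH_pos (hv.u_pos hX)) (by linarith [hv.cHu, mul_pos hX.cH_pos (hv.u_pos hX)])

theorem VF.wk_le (hv : VF Fam i) (hX : X.Ok) {k : ℕ} (hk : k < i.F.ndy X) :
    X.cH * i.F.u ≤ X.cH * i.F.u * 2 ^ k ∧ X.cH * i.F.u * 2 ^ k ≤ 1 := by
  have h0 := mul_pos hX.cH_pos (hv.u_pos hX)
  constructor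
  · exact le_mul_of_one_le_right h0.le (one_le_pow₀ (by norm_num))
  · have : (2 : ℝ) ^ (k + 1) ≤ 2 ^ i.F.ndy X := pow_le_pow_right₀ (by norm_num) hk
    have h2 := mul_le_mul_of_nonneg_left this h0.le
    rw [pow_succ] at h2
    linarith [(hv.ndy_lo hX).2]

theorem HiB.i2H (h : HiB i M) (hS : BdStd X W Fam K) (hv : VF Fam i) : i.V.Q.i2 W i.V.g (X.cH * i.F.u) 1 ≤ 2 * M ^ 2 := by
  have hX := hS.fix
  have h0 := mul_pos hX.cH_pos (hv.u_pos hX)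
  exact bcl_dyad_sum (fun _ _ ha hab hb => bcl_D2_ii hS hv.fam hv.g0 i.V.Q ha hab hb) h0 (by linarith [hv.cHu])
    (hv.ndy_lo hX).1 (hv.ndy_lo hX).2 (sq_nonneg M) (fun k hk => h.dy hS hv (hv.wk_le hX hk).1 (hv.wk_le hX hk).2)

theorem HiB.iTH (h : HiB i M) (hS : BdStd X W Fam K) (hv : VF Fam i) {θ : ℝ} (hθ : 0 < θ) (hθ2 : θ ≤ 2) :
    i.V.Q.iT W i.V.g θ (X.cH * i.F.u) 1 ≤ 3 * M ^ θ := by
  have hX := hS.fix
  have h0 := mul_pos hX.cH_pos (hv.u_pos hX)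
  have h1 := bcl_iT_le hS hv.fam hv.g0 i.V.Q hθ hθ2 h.1 h0.le (by linarith [hv.cHu]) le_rfl
  refine h1.trans ?_
  have h2 : i.V.Q.i2 W i.V.g (X.cH * i.F.u) 1 / M ^ 2 ≤ 2 := by
    rw [div_le_iff₀ (pow_pos h.1 2)]; exact h.i2H hS hv
  have h3 : 0 < M ^ θ := Real.rpow_pos_of_pos h.1 _
  nlinarith

theorem HiB.i1H (h : HiB i M) (hS : BdStd X W Fam K) (hv : VF Fam i) : i.V.Q.i1 W i.V.g (X.cH * i.F.u) 1 ≤ 3 * M := by
  have := h.iTH hS hv (θ := 1) one_pos (by norm_num)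
  rwa [Real.rpow_one, ← bcl_i1_eq hS hv.fam hv.g0 i.V.Q] at this

theorem HiB.i1dy (h : HiB i M) (hS : BdStd X W Fam K) (hv : VF Fam i) {w : ℝ} (hw : X.cH * i.F.u ≤ w) (hw1 : w ≤ 1) :
    i.V.Q.i1 W i.V.g w (min (2 * w) 1) ≤ 2 * w * M := by
  have hX := hS.fix
  have h0 := mul_pos hX.cH_pos (hv.u_pos hX)
  have hw0 : 0 < w := lt_of_lt_of_le h0 hw
  have hle : w ≤ min (2 * w) 1 := le_min (by linarith) hw1
  have h1 := bcl_i1_le hS hv.fam hv.g0 i.V.Q h.1 hw0.le hle (min_le_right _ _)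
  refine h1.trans ?_
  have h2 : i.V.Q.i2 W i.V.g w (min (2 * w) 1) / M ^ 2 ≤ w := by
    rw [div_le_iff₀ (pow_pos h.1 2)]; exact h.dy hS hv hw hw1
  have h3 : min (2 * w) 1 - w ≤ w := by linarith [min_le_left (2 * w) 1]
  nlinarith [h.1]

end hi

/-! ### 3e. the parameters are admissible -/

section geo

variable {F : BdFr} (Q : BdQ F X)

theorem bcl_al_strict (hF : F.Ok X) : StrictMonoOn Q.al (Icc 0 1) := by
  intro r1 h1 r2 h2 h12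
  refine lt_of_le_of_ne (bcl_al_mono Q hF h1 h2 h12.le) fun h => ?_
  have e1 := Q.r_al r1 h1
  have e2 := Q.r_al r2 h2
  rw [h, e2] at e1
  exact h12.ne e1.symm

theorem bcl_r_strict (hF : F.Ok X) : StrictMonoOn Q.r (Icc 0 1) := by
  intro v1 h1 v2 h2 h12
  by_contra h
  have := bcl_al_mono Q hF (Q.r_mem v2 h2) (Q.r_mem v1 h1) (not_lt.1 h)
  rw [Q.al_r v1 h1, Q.al_r v2 h2] at this
  exact absurd h12 (not_lt.2 this)

theorem bcl_al_cont (hF : F.Ok X) {ρ : ℝ} (hρ : ρ ∈ Ioo (0 : ℝ) 1) : ContinuousAt Q.al ρ := by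
  have hM : 0 ≤ F.Mj := by
    unfold BdFr.Mj
    have := BdFr.bds_x_pos hF
    positivity
  have hL : LipschitzOnWith (Real.toNNReal F.Mj) Q.al (Icc 0 1) := by
    refine LipschitzOnWith.of_dist_le_mul fun x hx y hy => ?_
    rw [Real.coe_toNNReal _ hM, Real.dist_eq, Real.dist_eq]
    rcases le_total x y with h | h
    · have a1 := Q.hi x y hx.1 h hy.2
      have a2 := bcl_al_mono Q hF hx hy h
      rw [abs_sub_comm, abs_of_nonneg (by linarith), abs_sub_comm, abs_of_nonneg (by linarith)]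
      exact a1
    · have a1 := Q.hi y x hy.1 h hx.2
      have a2 := bcl_al_mono Q hF hy hx h
      rw [abs_of_nonneg (by linarith), abs_of_nonneg (by linarith)]
      exact a1
  exact hL.continuousOn.continuousAt (Icc_mem_nhds hρ.1 hρ.2)

variable {g : ℝ} (hS : BdStd X W Fam K) (hF : Fam F) (hg : g ∈ Icc (X.glo 0) (X.ghi 0))
include hS hF hg

theorem bcl_Ks_mono : MonotoneOn (Q.Ks W g) (Ioo 0 1) := by
  obtain ⟨hb, hh⟩ := hS.clk F hF g hg Q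
  intro v1 h1 v2 h2 h12
  unfold BdQ.Ks
  have a1 := hh.mono h1 h2 h12
  have a2 := hb.mono h1 h2 h12
  have a3 := bcl_S_mono hS hF hg Q h1 h2 h12
  have a4 := hb.nonneg v1 h1
  have a5 := bcl_S_nonneg hS hF hg Q h1
  have a6 := hb.nonneg v2 h2
  have : Q.bq g v1 * Q.Sq W g v1 ≤ Q.bq g v2 * Q.Sq W g v2 := mul_le_mul a2 a3 a5 a6
  linarith

/-- l.1967: `K_s` is strictly increasing where the removal profile is constant: "its field contains `C_0 r`" -/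
theorem bcl_Ks_strict {v1 v2 : ℝ} (h1 : v1 ∈ Ioo (0 : ℝ) 1) (h2 : v2 ∈ Ioo (0 : ℝ) 1) (h12 : v1 < v2) (hr : Q.r v2 ≤ X.cI * F.u) :
    Q.Ks W g v1 < Q.Ks W g v2 := by
  have hX := hS.fix
  have hFo := hS.ok F hF
  obtain ⟨hb, _⟩ := hS.clk F hF g hg Q
  obtain ⟨_, hh0⟩ := hS.clk0 F hF g hg
  have i1 : v1 ∈ Icc (0 : ℝ) 1 := ⟨h1.1.le, h1.2.le⟩
  have i2 : v2 ∈ Icc (0 : ℝ) 1 := ⟨h2.1.le, h2.2.le⟩
  have hrr := bcl_r_strict Q hFo i1 i2 h12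
  have c2 := hS.Cconst F hF (Q.r v2) ⟨(Q.r_mem v2 i2).1, hr⟩
  have c1 := hS.Cconst F hF (Q.r v1) ⟨(Q.r_mem v1 i1).1, hrr.le.trans hr⟩
  have hC0 : 0 < F.C0 := by
    unfold BdFr.C0 BdFr.Lam
    have := BdFr.bds_u_pos hFo hX
    have := BdFr.bds_lam_pos hFo
    positivity
  have a1 := hh0.mono h1 h2 h12.le
  have a2 := hb.mono h1 h2 h12.le
  have a3 := bcl_S_mono hS hF hg Q h1 h2 h12.le
  have a5 := bcl_S_nonneg hS hF hg Q h1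
  have a6 := hb.nonneg v2 h2
  have a7 : Q.bq g v1 * Q.Sq W g v1 ≤ Q.bq g v2 * Q.Sq W g v2 := mul_le_mul a2 a3 a5 a6
  have a8 : F.C0 * Q.r v1 < F.C0 * Q.r v2 := mul_lt_mul_of_pos_left hrr hC0
  unfold BdQ.Ks BdQ.hq
  rw [c1, c2]
  linarith

end geo

/-- the observed fork is low -/
theorem bcl_v_le (hS : BdStd X W Fam K) {i : BdVI X W} (hv : VF Fam i) {v : ℝ} (hv01 : v ∈ Icc (0 : ℝ) 1) (hr : i.V.Q.r v ∈ i.V.Buf 1) :
    v ≤ (|K.Cb| * X.cI + 2) * i.F.u := by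
  have hX := hS.fix
  have hu := hv.u_pos hX
  obtain ⟨r0, r1⟩ := hv.buf _ hr
  have h1 := hv.vok.buf (i.V.Q.r v) (abs_le.2 ⟨by have := hr.1; linarith, by have := hr.2; linarith⟩)
  rw [i.V.Q.al_r v hv01] at h1
  have h2 := (hS.beta i.F hv.fam 0 (i.V.Q.r v) le_rfl r0.le r1.le).2
  rw [hS.beta_zero i.F hv.fam] at h2
  have h3 : K.Cb * (i.V.Q.r v - 0) ≤ |K.Cb| * (X.cI * i.F.u) := by
    rw [sub_zero]
    calc K.Cb * i.V.Q.r v ≤ |K.Cb| * i.V.Q.r v := mul_le_mul_of_nonneg_right (le_abs_self _) r0.le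
      _ ≤ |K.Cb| * (X.cI * i.F.u) := mul_le_mul_of_nonneg_left r1.le (abs_nonneg _)
  have h4 : i.V.d0 ≤ i.F.u := by
    unfold BdViol.d0
    exact mul_le_of_le_one_right hu.le hv.L1
  have := (abs_le.1 h1).2
  nlinarith

/-- the parameters of the master inequality at the cut `v` of a violation; `c17 C17 C8 CK CD` = constants of the inputs -/
def par (l : ℕ) (c17 C17 C8 CK CD : ℝ) (i : BdVI X W) (v : ℝ) : BclP where
  l := l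
  v0 := v
  vH := X.cH * i.F.u
  nd := i.F.ndy X
  Pm := C17 * ((i.F.N : ℝ) ^ (-c17) * (i.F.u ^ 2 * i.V.G1))
  Rl := C8 * i.F.u
  KH := CK * i.F.u
  G2 := CD * (i.V.d0 + i.F.lam * i.F.u)

theorem bcl_par_eqns_cite : True := by
  have := @par.eq_1
  trivial

/-- `BudB.Drift` gives the local contract `GsLip` at every continuity cut of the open buffer -/
theorem bcl_gslip (hS : BdStd X W Fam K) {i : BdVI X W} (hv : VF Fam i) {s14 s CD : ℝ} (hs14 : s ≤ s14) (hs1 : s ≤ 1)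
    (hD : ∀ r1 ∈ i.V.Buf s14, ∀ r2 ∈ i.V.Buf s14,
      |deriv (i.V.Q.Gs W i.V.g) (i.V.Q.Ks W i.V.g (i.V.Q.al r2)) - deriv (i.V.Q.Gs W i.V.g) (i.V.Q.Ks W i.V.g (i.V.Q.al r1))|
        ≤ CD * (i.V.d0 + i.F.lam * i.F.u) * |i.V.Q.Ks W i.V.g (i.V.Q.al r2) - i.V.Q.Ks W i.V.g (i.V.Q.al r1)|)
    {v : ℝ} (hv01 : v ∈ Ioo (0 : ℝ) 1) (hr : i.V.Q.r v ∈ Ioo (i.V.r0 - s * i.V.bbuf) (i.V.r0 + s * i.V.bbuf))
    (cb : ContinuousAt (i.V.Q.bq i.V.g) v) (ch : ContinuousAt (i.V.Q.hq i.V.g) v) (cS : ContinuousAt (i.V.Q.Sq W i.V.g) v) :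
    i.V.Q.GsLip W i.V.g (i.V.Q.Ks W i.V.g v) (CD * (i.V.d0 + i.F.lam * i.F.u)) := by
  have hX := hS.fix
  have hvI : v ∈ Icc (0 : ℝ) 1 := ⟨hv01.1.le, hv01.2.le⟩
  set ρ := i.V.Q.r v with hρ
  have hαρ : i.V.Q.al ρ = v := i.V.Q.al_r v hvI
  have hbuf1 : ∀ x, x ∈ Icc (i.V.r0 - s * i.V.bbuf) (i.V.r0 + s * i.V.bbuf) → x ∈ i.V.Buf 1 ∧ x ∈ i.V.Buf s14 := fun x hx =>
    ⟨hv.buf_sub hX hs1 hx, hv.buf_sub hX hs14 hx⟩
  have hρ01 : ρ ∈ Ioo (0 : ℝ) 1 := by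
    obtain ⟨a, b⟩ := hv.buf ρ (hbuf1 ρ ⟨hr.1.le, hr.2.le⟩).1
    exact ⟨a, b.trans hv.cIu⟩
  have cK : ContinuousAt (i.V.Q.Ks W i.V.g) v := ch.add (cb.mul cS)
  have cf : ContinuousAt (fun x => i.V.Q.Ks W i.V.g (i.V.Q.al x)) ρ := by
    have c1 := bcl_al_cont i.V.Q hv.ok hρ01
    have c2 : ContinuousAt (i.V.Q.Ks W i.V.g) (i.V.Q.al ρ) := by rw [hαρ]; exact cK
    exact c2.comp c1
  intro η hη
  obtain ⟨δ, hδ, hc⟩ := Metric.continuousAt_iff.1 cf η hη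
  set δ' := min (δ / 2) (min (ρ - (i.V.r0 - s * i.V.bbuf)) (i.V.r0 + s * i.V.bbuf - ρ)) with hδ'
  have hδ'0 : 0 < δ' := lt_min (half_pos hδ) (lt_min (by linarith [hr.1]) (by linarith [hr.2]))
  have d1 : δ' ≤ δ / 2 := min_le_left _ _
  have d2 : δ' ≤ ρ - (i.V.r0 - s * i.V.bbuf) := (min_le_right _ _).trans (min_le_left _ _)
  have d3 : δ' ≤ i.V.r0 + s * i.V.bbuf - ρ := (min_le_right _ _).trans (min_le_right _ _)
  have m1 := hbuf1 (ρ - δ') ⟨by linarith, by linarith [hr.2]⟩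
  have m2 := hbuf1 (ρ + δ') ⟨by linarith [hr.1], by linarith⟩
  have q1 : ρ - δ' ∈ Ioo (0 : ℝ) 1 := ⟨(hv.buf _ m1.1).1, (hv.buf _ m1.1).2.trans hv.cIu⟩
  have q2 : ρ + δ' ∈ Ioo (0 : ℝ) 1 := ⟨(hv.buf _ m2.1).1, (hv.buf _ m2.1).2.trans hv.cIu⟩
  have I1 : ρ - δ' ∈ Icc (0 : ℝ) 1 := ⟨q1.1.le, q1.2.le⟩
  have I2 : ρ + δ' ∈ Icc (0 : ℝ) 1 := ⟨q2.1.le, q2.2.le⟩
  have Iρ : ρ ∈ Icc (0 : ℝ) 1 := ⟨hρ01.1.le, hρ01.2.le⟩
  have a1 : i.V.Q.al (ρ - δ') < v := by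
    have := bcl_al_strict i.V.Q hv.ok I1 Iρ (by linarith)
    rwa [hαρ] at this
  have a2 : v < i.V.Q.al (ρ + δ') := by
    have := bcl_al_strict i.V.Q hv.ok Iρ I2 (by linarith)
    rwa [hαρ] at this
  have k1 : i.V.Q.Ks W i.V.g (i.V.Q.al (ρ - δ')) < i.V.Q.Ks W i.V.g v :=
    bcl_Ks_strict i.V.Q hS hv.fam hv.g0 (bcl_al_mem i.V.Q hv.ok q1) hv01 a1 (hv.buf ρ (hbuf1 ρ ⟨hr.1.le, hr.2.le⟩).1).2.le
  have k2 : i.V.Q.Ks W i.V.g v < i.V.Q.Ks W i.V.g (i.V.Q.al (ρ + δ')) :=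
    bcl_Ks_strict i.V.Q hS hv.fam hv.g0 hv01 (bcl_al_mem i.V.Q hv.ok q2) a2 (by rw [i.V.Q.r_al _ I2]; exact (hv.buf _ m2.1).2.le)
  have e1 := hc (x := ρ - δ') (by rw [Real.dist_eq, abs_lt]; constructor <;> linarith)
  have e2 := hc (x := ρ + δ') (by rw [Real.dist_eq, abs_lt]; constructor <;> linarith)
  rw [Real.dist_eq, hαρ, abs_lt] at e1 e2
  refine ⟨_, _, by linarith [e1.1], k1, k2, by linarith [e2.2], ?_⟩
  have := hD _ m1.2 _ m2.2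
  rwa [abs_of_pos (show 0 < i.V.Q.Ks W i.V.g (i.V.Q.al (ρ + δ')) - i.V.Q.Ks W i.V.g (i.V.Q.al (ρ - δ')) by linarith)] at this

theorem bcl_par_ok (hS : BdStd X W Fam K) {i : BdVI X W} (hv : VF Fam i) {l : ℕ} (hl : 2 ≤ l) {c17 C17 C8 CK CD s14 s : ℝ}
    (hs14 : s ≤ s14) (hs1 : s ≤ 1) (hcH : 4 * (|K.Cb| * X.cI + 2) ≤ X.cH) (hC17 : 0 ≤ C17) (hC8 : 0 ≤ C8)
    (h17 : ∀ w : ℝ, X.cH * i.F.u ≤ w → w ≤ 1 →
      i.V.Q.nLcU i.V.g ((Icc w (min (2 * w) 1)).indicator 1) ≤ C17 * ((i.F.N : ℝ) ^ (-c17) * (i.F.u ^ 2 * i.V.G1)))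
    (h8 : i.V.Q.nQ W i.V.g (2 * (l : ℝ)) (X.cH * i.F.u) 0 ≤ C8 * i.F.u)
    (hK : i.V.Q.Ks W i.V.g (2 * (X.cH * i.F.u)) ≤ CK * i.F.u)
    (hD : ∀ r1 ∈ i.V.Buf s14, ∀ r2 ∈ i.V.Buf s14,
      |deriv (i.V.Q.Gs W i.V.g) (i.V.Q.Ks W i.V.g (i.V.Q.al r2)) - deriv (i.V.Q.Gs W i.V.g) (i.V.Q.Ks W i.V.g (i.V.Q.al r1))|
        ≤ CD * (i.V.d0 + i.F.lam * i.F.u) * |i.V.Q.Ks W i.V.g (i.V.Q.al r2) - i.V.Q.Ks W i.V.g (i.V.Q.al r1)|)
    {v : ℝ} (hv01 : v ∈ Ioo (0 : ℝ) 1) (hr : i.V.Q.r v ∈ Ioo (i.V.r0 - s * i.V.bbuf) (i.V.r0 + s * i.V.bbuf))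
    (cb : ContinuousAt (i.V.Q.bq i.V.g) v) (ch : ContinuousAt (i.V.Q.hq i.V.g) v) (cS : ContinuousAt (i.V.Q.Sq W i.V.g) v) :
    i.V.Q.CloOk W i.V.g (par l c17 C17 C8 CK CD i v) := by
  have hX := hS.fix
  have hu := hv.u_pos hX
  have hvI : v ∈ Icc (0 : ℝ) 1 := ⟨hv01.1.le, hv01.2.le⟩
  have hr1 : i.V.Q.r v ∈ i.V.Buf 1 := hv.buf_sub hX hs1 ⟨hr.1.le, hr.2.le⟩
  have h0 := mul_pos hX.cH_pos hu
  have hNp := hv.N_pos hX
  refine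
    { l2 := hl
      v0_pos := hv01.1
      v0_vH := ?_
      vH1 := by show 2 * (X.cH * i.F.u) ≤ 1; linarith [hv.cHu]
      nd_lo := (hv.ndy_lo hX).1
      nd_hi := (hv.ndy_lo hX).2
      cb := cb
      ch := ch
      cS := cS
      inc := ?_
      Pm0 := mul_nonneg hC17 (mul_nonneg (Real.rpow_nonneg hNp.le _) (mul_nonneg (sq_nonneg _) hv.G1_pos.le))
      Pm := fun k hk => h17 _ (hv.wk_le hX hk).1 (hv.wk_le hX hk).2
      Rl0 := mul_nonneg hC8 hu.le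
      Rl := h8
      KH := ⟨2 * (X.cH * i.F.u), by show X.cH * i.F.u < _; linarith, by linarith [hv.cHu], hK⟩
      G2 := bcl_gslip hS hv hs14 hs1 hD hv01 hr cb ch cS }
  · show 4 * v ≤ X.cH * i.F.u
    have := bcl_v_le hS hv hvI hr1
    nlinarith
  · intro v' hv'
    show (v' < v → _ < i.V.Q.Ks W i.V.g v) ∧ (v < v' → i.V.Q.Ks W i.V.g v < _)
    have hv'I : v' ∈ Icc (0 : ℝ) 1 := ⟨hv'.1.le, hv'.2.le⟩
    refine ⟨fun h => bcl_Ks_strict i.V.Q hS hv.fam hv.g0 hv' hv01 h (hv.buf _ hr1).2.le, fun h => ?_⟩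
    have hrr := bcl_r_strict i.V.Q hv.ok hvI hv'I h
    set ρ2 := min (i.V.Q.r v') (X.cI * i.F.u) with hρ2
    have b1 : i.V.Q.r v < ρ2 := lt_min hrr (hv.buf _ hr1).2
    have b2 : ρ2 ≤ i.V.Q.r v' := min_le_left _ _
    have b3 : ρ2 ≤ X.cI * i.F.u := min_le_right _ _
    have Iρ2 : ρ2 ∈ Icc (0 : ℝ) 1 := ⟨((i.V.Q.r_mem v hvI).1.trans b1.le), b2.trans (i.V.Q.r_mem v' hv'I).2⟩
    have c1 : v < i.V.Q.al ρ2 := by
      have := bcl_al_strict i.V.Q hv.ok (i.V.Q.r_mem v hvI) Iρ2 b1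
      rwa [i.V.Q.al_r v hvI] at this
    have c2 : i.V.Q.al ρ2 ≤ v' := by
      have := bcl_al_mono i.V.Q hv.ok Iρ2 (i.V.Q.r_mem v' hv'I) b2
      rwa [i.V.Q.al_r v' hv'I] at this
    have m : i.V.Q.al ρ2 ∈ Ioo (0 : ℝ) 1 := ⟨hv01.1.trans c1, lt_of_le_of_lt c2 hv'.2⟩
    have k1 := bcl_Ks_strict i.V.Q hS hv.fam hv.g0 hv01 m c1 (by rw [i.V.Q.r_al _ Iρ2]; exact b3)
    exact lt_of_lt_of_le k1 (bcl_Ks_mono i.V.Q hS hv.fam hv.g0 m hv' c2)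

end BudB

end

end Claimed.Agent.R286
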