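import Claimed.Agent.R286.Bud.Mom
import Claimed.Agent.R286.L08.SPI
import Claimed.Agent.R286.L08.SPKitC
import Claimed.Agent.R286.Exit.ClkLim
import Claimed.Agent.R286.Exit.ClkLip
import Claimed.Agent.R286.Exit.ClkStat
import Claimed.Agent.R286.Exit.BudWorld
import Claimed.Agent.R286.Brg.Refine

/-!
# Row 286, LL sec. 7 (budgets): THE PINNED VARIANCE AT PATH LEVEL      (owner helper212; prefix `bud_pp_`, defs `pp*`)      0 own sorry

LL (A1), line 3, `p = 2` for bounded monotone clocks (`CkAdm a b h`), in the form used by N15 (`bud_hp_inst_nr`, `Bud/HpFr.lean`) for `BdWorld.nLc`.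
TEX[LL:found:estimates] TEX[PE:lem:found-moments]

* `ppIx P v`               number of revelations of the step path `P` at masses `≤ v`;   `bud_pp_idx`: `ghIdx ps (posA v) = ppIx (skCStp ..) v`;
* `bud_pp_ix_eq`           on the cut `j` (`bmMs a P j ≤ v < skMs a P j`) the index is `j`;
* `bud_pp_dec`             `∫_0^a κ_v G_{ix v} dv = ∑_j (∫_{cut j} κ) G_j`;
* **`bud_pp_unif`**        UNIFORM convergence in the cut, the cut NEED NOT belong to the chain: for every `δ > 0` there is `F0` such that for all `F ⊇ F0`, all `v ∈ [0,a]`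
                           the five statistics of the chain at the index `ghIdx (ghPs a F) (posA v)` are `δ`-close to `skCS, skCB, ckH2, ckC2, ckX4` at `posA v`
                           (from `exit_clk_lim_stat` + `exit_clk_stat_pos` + `gh_br_osc_gap` + `gh_os_eventually`);   no DCT along a net is ever needed;
* `bud_pp_abs`             abstract single path (`L8P`): `E(∑ w_k (L_k - E L_k))² ≤ c ∑ A_k E tr H_k²` if `w_k² ≤ dv_k v_k A_k`;
* `ppPhi n a P k`          `∑_j (∫_{cut j} k) (L_j - E L_j)` on `skSP n a P`;   `bud_pp_norm`, `bud_pp_phi_add`, `bud_pp_phi_le`, `bud_pp_step_var` (any admissible step path);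
* `ppN n a b h k F`        the `L²` norm of `∫ k_v (L - E L)_{idx v} dv` on the chain `ghPs a F`;   `bud_pp_N_eq, _nonneg, _le, _add, _var`;
* **`bud_pp_tri`, `bud_pp_bdd`, `bud_pp_var`**      the three properties of `limsup_F ppN`;   `bud_pp_nLc`: the same for `W.nLc` in a Hub world.
-/

set_option autoImplicit false

namespace Claimed.Agent.R286

open MeasureTheory Set Filter Topology

noncomputable section

/-! ## 1. The cuts of a step path in mass -/

/-- number of revelations of the step path `P` at masses `≤ v` -/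
def ppIx (P : SkStp) (v : ℝ) : ℕ := (P.filter fun e => decide (e.m ≤ v)).length

/-- the weight of the cut `j`: `∫_{cut j} k` -/
def ppW (a : ℝ) (P : SkStp) (k : ℝ → ℝ) (j : ℕ) : ℝ := ∫ v in (bmMs a P j)..(skMs a P j), k v

/-- the `L²` norm of `∫_0^a k_v (L - E L)_{idx v} dv` on the chain `ghPs a F` -/
def ppN (n : ℕ) (a : ℝ) (b h : ℝ → ℝ) (k : ℝ → ℝ) (F : Finset GhPos) : ℝ :=
  bmN1 n a (skCStp a b h 0 0 (ghPs a F)) 2 fun ξ σ =>
    ∫ v in (0 : ℝ)..a, k v * bmLc n a (skCStp a b h 0 0 (ghPs a F))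
      (ghIdx (ghPs a F) ((ghPosA v : GhPos) : WithTop GhPos)) ξ σ

theorem bud_pp_eqns_cite : True := by
  have := @ppIx.eq_1; have := @ppW.eq_1; have := @ppN.eq_1
  trivial

theorem bud_pp_ms_mono {a : ℝ} (ha : 0 < a) {P : SkStp} (hP : SkAdm a P) : Monotone (skMs a P) :=
  (l8i_ok 1 le_rfl a ha P hP).v_mono

theorem bud_pp_ms_nonneg {a : ℝ} (ha : 0 < a) {P : SkStp} (hP : SkAdm a P) (j : ℕ) : 0 ≤ skMs a P j :=
  (l8i_ok 1 le_rfl a ha P hP).v_nonneg j

theorem bud_pp_ms_le {a : ℝ} (ha : 0 < a) {P : SkStp} (hP : SkAdm a P) (j : ℕ) : skMs a P j ≤ a :=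
  l8k_v_le_a (l8i_ok 1 le_rfl a ha P hP) j

theorem bud_pp_ms_top {a : ℝ} (P : SkStp) {j : ℕ} (hj : P.length ≤ j) : skMs a P j = a := by
  unfold skMs
  exact List.getD_eq_default _ _ (by simpa using hj)

theorem bud_pp_bm_succ (a : ℝ) (P : SkStp) (j : ℕ) : bmMs a P (j + 1) = skMs a P j := by simp [bmMs]

theorem bud_pp_bm_zero (a : ℝ) (P : SkStp) : bmMs a P 0 = 0 := by simp [bmMs]

theorem bud_pp_bm_nonneg {a : ℝ} (ha : 0 < a) {P : SkStp} (hP : SkAdm a P) (j : ℕ) : 0 ≤ bmMs a P j := by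
  cases j with
  | zero => rw [bud_pp_bm_zero]
  | succ j => rw [bud_pp_bm_succ]; exact bud_pp_ms_nonneg ha hP j

theorem bud_pp_bm_le {a : ℝ} (ha : 0 < a) {P : SkStp} (hP : SkAdm a P) (j : ℕ) : bmMs a P j ≤ skMs a P j := by
  cases j with
  | zero => rw [bud_pp_bm_zero]; exact bud_pp_ms_nonneg ha hP 0
  | succ j => rw [bud_pp_bm_succ]; exact bud_pp_ms_mono ha hP (Nat.le_succ j)

theorem bud_pp_ix_eq {a : ℝ} (ha : 0 < a) : ∀ (P : SkStp), SkAdm a P → ∀ (j : ℕ) (v : ℝ), j ≤ P.length → bmMs a P j ≤ v →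
    v < skMs a P j → ppIx P v = j
  | [], _, j, v, hj, _, _ => by
      have : j = 0 := by simpa using hj
      subst this; rfl
  | e :: P, hP, 0, v, _, _, h2 => by
      have h2' : v < e.m := by simpa [skMs] using h2
      unfold ppIx
      rw [List.length_eq_zero_iff, List.filter_eq_nil_iff]
      intro x hx
      have : e.m ≤ x.m := by
        rcases List.mem_cons.1 hx with rfl | hx
        · exact le_rfl
        · exact (List.pairwise_cons.1 hP.1).1 x hx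
      simp only [decide_eq_true_eq, not_le]
      linarith
  | e :: P, hP, j + 1, v, hj, h1, h2 => by
      have hP' : SkAdm a P := sk_stp_adm_tail hP
      have h1' : skMs a (e :: P) j ≤ v := by rwa [bud_pp_bm_succ] at h1
      have hem : e.m ≤ v := by
        have := bud_pp_ms_mono ha hP (Nat.zero_le j)
        have h0 : skMs a (e :: P) 0 = e.m := by simp [skMs]
        linarith
      have ih := bud_pp_ix_eq ha P hP' j v (by simpa using hj) (by
        cases j with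
        | zero => rw [bud_pp_bm_zero]; exact (hP.2 e (by simp)).1.trans hem
        | succ i => rw [bud_pp_bm_succ]; simpa [skMs] using h1') (by simpa [skMs] using h2)
      unfold ppIx at ih ⊢
      rw [List.filter_cons_of_pos (by simpa using hem), List.length_cons, ih]

theorem bud_pp_pos_le {a : ℝ} {p : GhPos} (hp : p.Ok a) (v : ℝ) : p ≤ ghPosA v ↔ p.u ≤ v := by
  rw [gh_os_pos_le_iff]
  have e1 : (ghPosA v).u = v := rfl
  have e2 : (ghPosA v).lam = 1 := rfl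
  rw [e1, e2]
  constructor
  · rintro (h | h)
    · exact h.le
    · exact h.1.le
  · intro h
    rcases lt_or_eq_of_le h with h | h
    · exact Or.inl h
    · exact Or.inr ⟨h, hp.2.2.2⟩

theorem bud_pp_idx {a : ℝ} (b h : ℝ → ℝ) (ps : List GhPos) (b0 h0 : ℝ) (hps : ∀ p ∈ ps, p.Ok a) (v : ℝ) :
    ghIdx ps ((ghPosA v : GhPos) : WithTop GhPos) = ppIx (skCStp a b h b0 h0 ps) v := by
  rw [gh_br_idx_coe]
  unfold ppIx
  induction ps generalizing b0 h0 with
  | nil => rfl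
  | cons p ps ih =>
    have ih' := ih (ghAt a b p) (ghAt a h p) fun x hx => hps x (List.mem_cons_of_mem _ hx)
    have hp := bud_pp_pos_le (hps p List.mem_cons_self) v
    simp only [skCStp, List.filter_cons]
    by_cases hpv : p.u ≤ v
    · rw [if_pos (by simpa using hp.2 hpv), if_pos (by simpa using hpv), List.length_cons, List.length_cons, ih']
    · rw [if_neg (by simpa using fun hh => hpv (hp.1 hh)), if_neg (by simpa using hpv), ih']

theorem bud_pp_sub_int {a : ℝ} (ha : 0 < a) {P : SkStp} (hP : SkAdm a P) {κ : ℝ → ℝ} (hκ : IntervalIntegrable κ volume 0 a) (j : ℕ) :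
    IntervalIntegrable κ volume (bmMs a P j) (skMs a P j) := by
  refine hκ.mono_set ?_
  rw [uIcc_of_le (bud_pp_bm_le ha hP j), uIcc_of_le ha.le]
  exact Icc_subset_Icc (bud_pp_bm_nonneg ha hP j) (bud_pp_ms_le ha hP j)

theorem bud_pp_ae {a : ℝ} (ha : 0 < a) {P : SkStp} (hP : SkAdm a P) {j : ℕ} (hj : j ≤ P.length) :
    ∀ᵐ x ∂(volume : Measure ℝ), x ∈ uIoc (bmMs a P j) (skMs a P j) → ppIx P x = j := by
  have h0 : ∀ᵐ x ∂(volume : Measure ℝ), x ≠ skMs a P j := by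
    simp [ae_iff]
  filter_upwards [h0] with x hx hmem
  rw [uIoc_of_le (bud_pp_bm_le ha hP j)] at hmem
  exact bud_pp_ix_eq ha P hP j x hj hmem.1.le (lt_of_le_of_ne hmem.2 hx)

/-- sum over the cuts of the integrals of one function -/
theorem bud_pp_sum_cuts {a : ℝ} {P : SkStp} {f : ℝ → ℝ}
    (hf : ∀ j ≤ P.length, IntervalIntegrable f volume (bmMs a P j) (skMs a P j)) :
    ∑ j ∈ Finset.range (P.length + 1), ∫ v in (bmMs a P j)..(skMs a P j), f v = ∫ v in (0 : ℝ)..a, f v := by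
  have h := intervalIntegral.sum_integral_adjacent_intervals (f := f) (μ := volume) (a := bmMs a P) (n := P.length + 1)
    (fun j hj => by rw [bud_pp_bm_succ]; exact hf j (Nat.lt_succ_iff.1 hj))
  rw [bud_pp_bm_zero, bud_pp_bm_succ, bud_pp_ms_top P le_rfl] at h
  rw [← h]
  exact Finset.sum_congr rfl fun j _ => by rw [bud_pp_bm_succ]

theorem bud_pp_dec {a : ℝ} (ha : 0 < a) {P : SkStp} (hP : SkAdm a P) {κ : ℝ → ℝ} (hκ : IntervalIntegrable κ volume 0 a)
    (G : ℕ → ℝ) :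
    ∫ v in (0 : ℝ)..a, κ v * G (ppIx P v) = ∑ j ∈ Finset.range (P.length + 1), ppW a P κ j * G j := by
  have hae : ∀ j ≤ P.length, ∀ᵐ x ∂(volume : Measure ℝ), x ∈ uIoc (bmMs a P j) (skMs a P j) →
      κ x * G j = κ x * G (ppIx P x) := fun j hj => by
    filter_upwards [bud_pp_ae ha hP hj] with x hx hmem
    rw [hx hmem]
  rw [← bud_pp_sum_cuts (f := fun v => κ v * G (ppIx P v)) fun j hj =>
    ((bud_pp_sub_int ha hP hκ j).mul_const (G j)).congr_ae ((ae_restrict_iff' measurableSet_uIoc).2 (hae j hj))]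
  refine Finset.sum_congr rfl fun j hj => ?_
  rw [← intervalIntegral.integral_congr_ae (hae j (Nat.lt_succ_iff.1 (Finset.mem_range.1 hj))),
    intervalIntegral.integral_mul_const]
  rfl

/-! ## 2. Uniform convergence in the cut -/

theorem bud_pp_tri5 {x y z d1 d2 δ : ℝ} (h1 : |x - y| ≤ d1) (h2 : |y - z| ≤ d2) (h : d1 + d2 ≤ δ) : |x - z| ≤ δ :=
  (abs_sub_le x y z).trans ((add_le_add h1 h2).trans h)

theorem bud_pp_unif {n : ℕ} {a : ℝ} (hn : 0 < n) (ha : 0 < a) {b h : ℝ → ℝ} (hbh : CkAdm a b h) {δ : ℝ} (hδ : 0 < δ) :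
    ∃ F0 : Finset GhPos, ∀ F : Finset GhPos, F0 ⊆ F → ∀ v ∈ Icc (0 : ℝ) a,
      |obS n a (ckStp a b h (ghPs a F)) 0 (ghIdx (ghPs a F) ((ghPosA v : GhPos) : WithTop GhPos)) - skCS n a b h (ghPosA v)| ≤ δ ∧
      |obB n a (ckStp a b h (ghPs a F)) 0 (ghIdx (ghPs a F) ((ghPosA v : GhPos) : WithTop GhPos)) - skCB n a b h (ghPosA v)| ≤ δ ∧
      |obTrH2 n a (ckStp a b h (ghPs a F)) 0 (ghIdx (ghPs a F) ((ghPosA v : GhPos) : WithTop GhPos)) - ckH2 n a b h (ghPosA v)| ≤ δ ∧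
      |obTrC2 n a (ckStp a b h (ghPs a F)) 0 (ghIdx (ghPs a F) ((ghPosA v : GhPos) : WithTop GhPos)) - ckC2 n a b h (ghPosA v)| ≤ δ ∧
      |ckX4F n a (ckStp a b h (ghPs a F)) (ghIdx (ghPs a F) ((ghPosA v : GhPos) : WithTop GhPos)) - ckX4 n a b h (ghPosA v)| ≤ δ := by
  classical
  obtain ⟨C, hC⟩ := exit_clk_stat_pos (n := n) (a := a) hn ha
  obtain ⟨F1, hF1⟩ := exit_clk_lim_stat hn ha hbh (half_pos hδ)
  set ε : ℝ := δ / (4 * (|C| + 1)) with hε
  have hC1 : 0 < |C| + 1 := by positivity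
  have hε0 : 0 < ε := by positivity
  have hCε : C * (2 * ε) ≤ δ / 2 := by
    have h1 : C * (2 * ε) ≤ (|C| + 1) * (2 * ε) :=
      mul_le_mul_of_nonneg_right ((le_abs_self C).trans (by linarith)) (by positivity)
    have h2 : (|C| + 1) * (2 * ε) = δ / 2 := by rw [hε]; field_simp; ring
    linarith
  obtain ⟨F2, hF2⟩ := gh_os_eventually ha.le hbh.1 hε0
  obtain ⟨F3, hF3⟩ := gh_os_eventually ha.le hbh.2 hε0
  refine ⟨F1 ∪ F2 ∪ F3 ∪ {ghPosB 0}, fun F hF v hv => ?_⟩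
  have hs1 : F1 ⊆ F := fun x hx => hF (by simp [hx])
  have hs2 : F2 ⊆ F := fun x hx => hF (by simp [hx])
  have hs3 : F3 ⊆ F := fun x hx => hF (by simp [hx])
  have hB0 : ghPosB 0 ∈ F := hF (by simp)
  have hr : (ghPosA v).Ok a := gh_os_posA_ok hv.1 hv.2
  by_cases hrF : ghPosA v ∈ F
  · obtain ⟨g1, g2, g3, g4, g5⟩ := hF1 F hs1 _ hrF hr
    exact ⟨g1.trans (by linarith), g2.trans (by linarith), g3.trans (by linarith), g4.trans (by linarith),
      g5.trans (by linarith)⟩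
  set ps := ghPs a F with hps
  set r : GhPos := ghPosA v with hrdef
  have hrps : r ∉ ps := fun hh => hrF (gh_os_ps_mem.1 hh).1
  have hlt : ps.Pairwise (· < ·) := gh_os_ps_lt a F
  let cl : Bool → ℝ → ℝ := fun i => if i then b else h
  have hcl : GhClk a cl := fun i => by cases i; exact hbh.2; exact hbh.1
  have hB0ok : (ghPosB 0).Ok a := ⟨le_rfl, ha.le, le_rfl, zero_le_one⟩
  have hB0r : ghPosB 0 ≤ r := by
    rw [gh_os_pos_le_iff]
    rcases lt_or_eq_of_le hv.1 with h0 | h0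
    · exact Or.inl h0
    · exact Or.inr ⟨h0, zero_le_one⟩
  rcases gh_rm_endV_mem (ghClkAt a cl) 0 (ps.filter fun p => decide (p ≤ r)) with ⟨_, hnil⟩ | ⟨p, hpL, hEnd, hmax⟩
  · exfalso
    have : ghPosB 0 ∈ ps.filter fun p => decide (p ≤ r) :=
      List.mem_filter.2 ⟨gh_os_ps_mem.2 ⟨hB0, hB0ok⟩, by simpa using hB0r⟩
    rw [hnil] at this
    exact List.not_mem_nil this
  obtain ⟨hpps, hpr⟩ := List.mem_filter.1 hpL
  have hpr' : p ≤ r := by simpa using hpr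
  obtain ⟨hpF, hpok⟩ := gh_os_ps_mem.1 hpps
  have hk : ∀ x ∈ ps, r ≤ x → r.u < x.u := by
    intro x hx hrx
    have hxok := (gh_os_ps_mem.1 hx).2
    have hne : r ≠ x := fun e => hrps (e ▸ hx)
    rcases (gh_os_pos_lt_iff r x).1 (lt_of_le_of_ne hrx hne) with h1 | h1
    · exact h1
    · exfalso
      have : (1 : ℝ) < x.lam := h1.2
      linarith [hxok.2.2.2]
  have hgap : ∀ i, ghAt a (cl i) r - ghAt a (cl i) p ≤ ghOsc a (cl i) 0 ps := fun i => by
    have := gh_br_osc_gap ha.le hcl i hr ps 0 hlt hk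
    rw [hEnd] at this
    exact this
  have hmono : ∀ i, ghAt a (cl i) p ≤ ghAt a (cl i) r := fun i =>
    gh_os_at_mono ha.le (hcl i) hpok.2.2.2 hr.2.2.1 hpr'
  have hidx : ghIdx ps ((r : GhPos) : WithTop GhPos) = ghIdx ps ((p : GhPos) : WithTop GhPos) := by
    rw [gh_br_idx_coe, gh_br_idx_coe]
    congr 1
    apply List.filter_congr
    intro x hx
    have : x ≤ r ↔ x ≤ p := by
      constructor
      · intro hxr
        exact hmax x (List.mem_filter.2 ⟨hx, by simpa using hxr⟩) (hlt.filter _)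
      · intro hxp; exact hxp.trans hpr'
    simp [this]
  have hd : |ghAt a b p - ghAt a b r| + |ghAt a h p - ghAt a h r| ≤ 2 * ε := by
    have b1 := hgap true; have b2 := hmono true; have b3 := hgap false; have b4 := hmono false
    have o1 := hF2 F hs2; have o2 := hF3 F hs3
    simp only [cl, if_true, Bool.false_eq_true, if_false] at b1 b2 b3 b4
    rw [abs_of_nonpos (by linarith), abs_of_nonpos (by linarith)]
    linarith
  obtain ⟨g1, g2, g3, g4, g5⟩ := hF1 F hs1 p hpF hpok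
  obtain ⟨q1, q2, q3, q4, q5⟩ := hC b h hbh p r hpok hr (2 * ε) hd
  rw [hidx]
  have hsum : δ / 2 + C * (2 * ε) ≤ δ := by linarith
  exact ⟨bud_pp_tri5 g1 q1 hsum, bud_pp_tri5 g2 q2 hsum, bud_pp_tri5 g3 q3 hsum, bud_pp_tri5 g4 q4 hsum, bud_pp_tri5 g5 q5 hsum⟩

/-! ## 3. The abstract single path -/

theorem bud_pp_dv_nonneg {Ω : Type} [MeasurableSpace Ω] {m : ℕ} (P : L8P Ω m) (h : P.Ok) (k : ℕ) : 0 ≤ P.dv k := by
  unfold L8P.dv
  split_ifs with h0
  · simpa using h.v_nonneg k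
  · exact sub_nonneg.2 (h.v_mono (Nat.sub_le k 1))

theorem bud_pp_abs {Ω : Type} [MeasurableSpace Ω] {m : ℕ} (P : L8P Ω m) (h : P.Ok) {c : ℝ} (hc : 0 ≤ c) (hpin : P.Pin 1 c)
    (w A : ℕ → ℝ) (hA : ∀ k, 0 ≤ A k) (hw : ∀ k ≤ P.n, w k ^ 2 ≤ P.dv k * (P.v k * A k)) :
    ∫ ω, (∑ k ∈ Finset.range (P.n + 1), w k * (P.L k ω - ∫ ω', P.L k ω' ∂P.μ)) ^ 2 ∂P.μ
      ≤ c * ∑ k ∈ Finset.range (P.n + 1), A k * ∫ ω, P.trH2 k ω ∂P.μ := by
  have hprob := h.prob
  have h1 := hpin (fun k => w k / P.dv k) (fun _ => Polynomial.X)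
  simp only [Polynomial.eval_X, Polynomial.derivative_X, Polynomial.eval_one, one_pow, mul_one, pow_one] at h1
  have e1 : ∀ k ∈ Finset.range (P.n + 1), P.dv k * (w k / P.dv k) = w k := by
    intro k hk
    by_cases h0 : P.dv k = 0
    · have h2 := hw k (Nat.lt_succ_iff.1 (Finset.mem_range.1 hk))
      rw [h0, zero_mul] at h2
      have h3 : w k = 0 := by
        have := sq_nonneg (w k)
        exact pow_eq_zero_iff (two_ne_zero) |>.1 (le_antisymm h2 this)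
      simp [h0, h3]
    · field_simp
  have eL : (fun ω => (∑ k ∈ Finset.range (P.n + 1), P.dv k * (w k / P.dv k) * (P.L k ω - ∫ ω', P.L k ω' ∂P.μ)) ^ 2)
      = fun ω => (∑ k ∈ Finset.range (P.n + 1), w k * (P.L k ω - ∫ ω', P.L k ω' ∂P.μ)) ^ 2 := by
    funext ω
    congr 1
    exact Finset.sum_congr rfl fun k hk => by rw [e1 k hk]
  rw [eL] at h1
  refine h1.trans (mul_le_mul_of_nonneg_left ?_ hc)
  rw [integral_finsetSum _ fun k _ => l8k_int h (l8k_bd_const_mul _ (l8k_W_bd h k))]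
  refine Finset.sum_le_sum fun k hk => ?_
  have hk' : k ≤ P.n := Nat.lt_succ_iff.1 (Finset.mem_range.1 hk)
  rw [integral_const_mul, l8k_int_W h k]
  have hW0 : 0 ≤ ∫ ω, P.trCH k ω ∂P.μ := by
    rw [← l8k_int_W h k]; exact integral_nonneg (l8k_W_nonneg h k)
  have hle : P.v k * ∫ ω, P.trCH k ω ∂P.μ ≤ ∫ ω, P.trH2 k ω ∂P.μ := by
    rw [← integral_const_mul]
    exact integral_mono (l8k_int h (l8k_bd_const_mul _ (l8k_trCH_bd h k))) (l8k_int h (l8k_trH2_bd h k))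
      fun ω => l8k_trCH_le h (by omega) ω
  have hq : P.dv k * (w k / P.dv k) ^ 2 ≤ P.v k * A k := by
    by_cases h0 : P.dv k = 0
    · rw [h0, zero_mul]; exact mul_nonneg (h.v_nonneg k) (hA k)
    · have hpos : 0 < P.dv k := lt_of_le_of_ne (bud_pp_dv_nonneg P h k) (Ne.symm h0)
      have e2 : P.dv k * (w k / P.dv k) ^ 2 = w k ^ 2 / P.dv k := by field_simp
      rw [e2, div_le_iff₀ hpos]
      linarith [hw k hk']
  calc P.dv k * (w k / P.dv k) ^ 2 * ∫ ω, P.trCH k ω ∂P.μ ≤ (P.v k * A k) * ∫ ω, P.trCH k ω ∂P.μ :=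
        mul_le_mul_of_nonneg_right hq hW0
    _ = A k * (P.v k * ∫ ω, P.trCH k ω ∂P.μ) := by ring
    _ ≤ A k * ∫ ω, P.trH2 k ω ∂P.μ := mul_le_mul_of_nonneg_left hle (hA k)

/-! ## 4. One step path -/

/-! real analysis -/

/-- bounded measurable functions are interval integrable -/
theorem bud_pp_ii {k : ℝ → ℝ} (hk : Measurable k) {C : ℝ} (hC : ∀ v, |k v| ≤ C) (lo hi : ℝ) : IntervalIntegrable k volume lo hi := by
  constructor <;>
  exact Measure.integrableOn_of_bounded (M := C) (by simp) hk.aestronglyMeasurable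
    (Eventually.of_forall fun v => by simpa using hC v)

/-- Cauchy-Schwarz on an interval -/
theorem bud_pp_cs {k : ℝ → ℝ} (hk : Measurable k) {C : ℝ} (hC : ∀ v, |k v| ≤ C) {lo hi : ℝ} (h : lo ≤ hi) :
    (∫ v in lo..hi, k v) ^ 2 ≤ (hi - lo) * ∫ v in lo..hi, k v ^ 2 := by
  rcases eq_or_lt_of_le h with rfl | hlt
  · simp
  have hd : 0 < hi - lo := sub_pos.2 hlt
  set M := ∫ v in lo..hi, k v with hM
  have hC0 : 0 ≤ C := (abs_nonneg _).trans (hC 0)
  have i1 : IntervalIntegrable k volume lo hi := bud_pp_ii hk hC lo hi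
  have i2 : IntervalIntegrable (fun v => k v ^ 2) volume lo hi :=
    bud_pp_ii (hk.pow_const 2) (C := C ^ 2) (fun v => by rw [abs_pow]; exact pow_le_pow_left₀ (abs_nonneg _) (hC v) 2) lo hi
  have h0 : 0 ≤ ∫ v in lo..hi, (k v - M / (hi - lo)) ^ 2 :=
    intervalIntegral.integral_nonneg h fun _ _ => sq_nonneg _
  have e : ∫ v in lo..hi, (k v - M / (hi - lo)) ^ 2
      = (∫ v in lo..hi, k v ^ 2) - 2 * (M / (hi - lo)) * M + (M / (hi - lo)) ^ 2 * (hi - lo) := by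
    have e1 : (fun v => (k v - M / (hi - lo)) ^ 2) = fun v => k v ^ 2 - 2 * (M / (hi - lo)) * k v + (M / (hi - lo)) ^ 2 := by
      funext v; ring
    rw [e1, intervalIntegral.integral_add (i2.sub (i1.const_mul _)) intervalIntegrable_const,
      intervalIntegral.integral_sub i2 (i1.const_mul _), intervalIntegral.integral_const_mul,
      intervalIntegral.integral_const]
    simp only [smul_eq_mul]
    ring
  rw [e] at h0
  have e2 : (∫ v in lo..hi, k v ^ 2) - 2 * (M / (hi - lo)) * M + (M / (hi - lo)) ^ 2 * (hi - lo)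
      = (∫ v in lo..hi, k v ^ 2) - M ^ 2 / (hi - lo) := by field_simp; ring
  rw [e2, sub_nonneg, div_le_iff₀ hd] at h0
  linarith

/-- Minkowski in `L²` of a finite measure, bounded functions -/
theorem bud_pp_mink {α : Type} [MeasurableSpace α] (μ : Measure α) [IsFiniteMeasure μ] {f g : α → ℝ} (hf : L8Bd f) (hg : L8Bd g) :
    Real.sqrt (∫ x, (f x + g x) ^ 2 ∂μ) ≤ Real.sqrt (∫ x, f x ^ 2 ∂μ) + Real.sqrt (∫ x, g x ^ 2 ∂μ) := by
  set A := ∫ x, f x ^ 2 ∂μ with hA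
  set B := ∫ x, g x ^ 2 ∂μ with hB
  set D := ∫ x, f x * g x ∂μ with hD
  have iA := l8k_bd_integrable (l8k_bd_pow hf 2) μ
  have iB := l8k_bd_integrable (l8k_bd_pow hg 2) μ
  have iD := l8k_bd_integrable (l8k_bd_mul hf hg) μ
  have hA0 : 0 ≤ A := integral_nonneg fun _ => sq_nonneg _
  have hB0 : 0 ≤ B := integral_nonneg fun _ => sq_nonneg _
  have key : ∀ t : ℝ, 0 ≤ A * (t * t) + 2 * D * t + B := by
    intro t
    have h0 : 0 ≤ ∫ x, (f x ^ 2 * (t * t) + 2 * (f x * g x) * t) + g x ^ 2 ∂μ :=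
      integral_nonneg fun x => by
        show (0 : ℝ) ≤ _
        nlinarith [sq_nonneg (f x * t + g x)]
    rw [integral_add (l8k_bd_integrable (l8k_bd_add (l8k_bd_mul_const _ (l8k_bd_pow hf 2))
        (l8k_bd_mul_const _ (l8k_bd_const_mul 2 (l8k_bd_mul hf hg)))) μ) iB,
      integral_add (iA.mul_const _) ((iD.const_mul 2).mul_const t), integral_mul_const, integral_mul_const,
      integral_const_mul] at h0
    exact h0
  have hdis := discrim_le_zero key
  unfold discrim at hdis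
  have hDle : D ≤ Real.sqrt A * Real.sqrt B := by
    rw [← Real.sqrt_mul hA0]
    exact (le_abs_self D).trans (Real.abs_le_sqrt (by nlinarith))
  have e : ∫ x, (f x + g x) ^ 2 ∂μ = A + 2 * D + B := by
    have e1 : (fun x => (f x + g x) ^ 2) = fun x => (f x ^ 2 + 2 * (f x * g x)) + g x ^ 2 := by funext x; ring
    rw [e1, integral_add (l8k_bd_integrable (l8k_bd_add (l8k_bd_pow hf 2) (l8k_bd_const_mul 2 (l8k_bd_mul hf hg))) μ) iB,
      integral_add iA (iD.const_mul 2), integral_const_mul]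
  rw [e, Real.sqrt_le_iff]
  refine ⟨by positivity, ?_⟩
  have s1 := Real.sq_sqrt hA0
  have s2 := Real.sq_sqrt hB0
  nlinarith

/-! one step path -/

/-- `∑_j (∫_{cut j} k) (L_j - E L_j)` on the SK instance of the abstract single path -/
def ppPhi (n : ℕ) (a : ℝ) (P : SkStp) (k : ℝ → ℝ) (ω : SkOm n) : ℝ :=
  ∑ j ∈ Finset.range (P.length + 1), ppW a P k j * ((skSP n a P).L j ω - ∫ ω', (skSP n a P).L j ω' ∂(skSP n a P).μ)

theorem bud_pp_eqns_cite2 : True := by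
  have := @ppPhi.eq_1
  trivial

theorem bud_pp_phi_bd {n : ℕ} {a : ℝ} (hn : 0 < n) (ha : 0 < a) {P : SkStp} (hP : SkAdm a P) (k : ℝ → ℝ) : L8Bd (ppPhi n a P k) :=
  l8k_bd_sum _ fun j _ => l8k_bd_const_mul _ (l8k_bd_sub (l8k_L_bd (l8i_ok n hn a ha P hP) j) (l8k_bd_const _))

theorem bud_pp_norm {n : ℕ} {a : ℝ} (hn : 0 < n) (ha : 0 < a) {P : SkStp} (hP : SkAdm a P) {k : ℝ → ℝ}
    (hk : IntervalIntegrable k volume 0 a) :
    bmN1 n a P 2 (fun ξ σ => ∫ v in (0 : ℝ)..a, k v * bmLc n a P (ppIx P v) ξ σ)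
      = Real.sqrt (∫ ω, ppPhi n a P k ω ^ 2 ∂(skSP n a P).μ) := by
  have hok := l8i_ok n hn a ha P hP
  have hLb : ∀ j, L8Bd ((skSP n a P).L j) := fun j => l8k_L_bd hok j
  have hmean : ∀ j ≤ P.length, ∫ ω', (skSP n a P).L j ω' ∂(skSP n a P).μ = obE n a P 0 (obL n a P 0 j) := fun j hj =>
    l8i_path_bd n a ha P hP _ (hLb j) (obL n a P 0 j) fun ω => l8i_L n a ha P hP j hj ω
  have hphi : ∀ ω : SkOm n, ppPhi n a P k ω = ∫ v in (0 : ℝ)..a, k v * bmLc n a P (ppIx P v) ω.1 ω.2 := fun ω => by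
    rw [bud_pp_dec ha hP hk (fun j => bmLc n a P j ω.1 ω.2)]
    unfold ppPhi
    refine Finset.sum_congr rfl fun j hj => ?_
    have hj' := Nat.lt_succ_iff.1 (Finset.mem_range.1 hj)
    rw [hmean j hj', l8i_L n a ha P hP j hj']
    rfl
  unfold bmN1
  rw [← l8i_path_bd n a ha P hP _ (l8k_bd_pow (bud_pp_phi_bd hn ha hP k) 2)
    (fun ξ σ => |∫ v in (0 : ℝ)..a, k v * bmLc n a P (ppIx P v) ξ σ| ^ (2 : ℝ)) fun ω => by
      rw [hphi ω, Real.rpow_two, sq_abs], Real.sqrt_eq_rpow]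

theorem bud_pp_phi_add {n : ℕ} {a : ℝ} {P : SkStp} {k1 k2 : ℝ → ℝ}
    (h1 : ∀ lo hi, IntervalIntegrable k1 volume lo hi) (h2 : ∀ lo hi, IntervalIntegrable k2 volume lo hi) (ω : SkOm n) :
    ppPhi n a P (fun v => k1 v + k2 v) ω = ppPhi n a P k1 ω + ppPhi n a P k2 ω := by
  unfold ppPhi
  rw [← Finset.sum_add_distrib]
  refine Finset.sum_congr rfl fun j _ => ?_
  have : ppW a P (fun v => k1 v + k2 v) j = ppW a P k1 j + ppW a P k2 j := by
    unfold ppW
    exact intervalIntegral.integral_add (h1 _ _) (h2 _ _)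
  rw [this]; ring

theorem bud_pp_phi_le {n : ℕ} {a : ℝ} (hn : 0 < n) (ha : 0 < a) {P : SkStp} (hP : SkAdm a P) {k : ℝ → ℝ}
    (hk : ∀ lo hi, IntervalIntegrable k volume lo hi) (ω : SkOm n) : |ppPhi n a P k ω| ≤ 3 * ∫ v in (0 : ℝ)..a, |k v| := by
  have hok := l8i_ok n hn a ha P hP
  have hL : ∀ j ω, |(skSP n a P).L j ω| ≤ 3 / 2 := fun j ω => (skSP n a P).l8s_L_abs_le hok j ω
  have hE : ∀ j, |∫ ω', (skSP n a P).L j ω' ∂(skSP n a P).μ| ≤ 3 / 2 := fun j => by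
    rw [← l8k_E_zero hok _ ω]
    exact l8k_E_abs_le hok (hL j) 0 ω
  unfold ppPhi
  refine (Finset.abs_sum_le_sum_abs _ _).trans ?_
  rw [← bud_pp_sum_cuts (a := a) (P := P) (f := fun v => |k v|) fun j _ => (hk _ _).abs, Finset.mul_sum]
  refine Finset.sum_le_sum fun j _ => ?_
  rw [abs_mul]
  have h1 : |ppW a P k j| ≤ ∫ v in (bmMs a P j)..(skMs a P j), |k v| :=
    intervalIntegral.abs_integral_le_integral_abs (bud_pp_bm_le ha hP j)
  have h2 : |(skSP n a P).L j ω - ∫ ω', (skSP n a P).L j ω' ∂(skSP n a P).μ| ≤ 3 := by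
    refine (abs_sub _ _).trans ?_
    linarith [hL j ω, hE j]
  calc |ppW a P k j| * |(skSP n a P).L j ω - ∫ ω', (skSP n a P).L j ω' ∂(skSP n a P).μ|
      ≤ (∫ v in (bmMs a P j)..(skMs a P j), |k v|) * 3 := mul_le_mul h1 h2 (abs_nonneg _) ((abs_nonneg _).trans h1)
    _ = 3 * ∫ v in (bmMs a P j)..(skMs a P j), |k v| := mul_comm _ _

/-- `k²/v` is bounded and measurable when `k` vanishes near `0` -/
theorem bud_pp_kv {k : ℝ → ℝ} (hk : Measurable k) {C : ℝ} (hC : ∀ v, |k v| ≤ C) {v0 : ℝ} (hv0 : 0 < v0)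
    (hk0 : ∀ v, v < v0 → k v = 0) : Measurable (fun v => k v ^ 2 / v) ∧ ∀ v, |k v ^ 2 / v| ≤ C ^ 2 / v0 := by
  refine ⟨(hk.pow_const 2).div measurable_id, fun v => ?_⟩
  have hC0 : 0 ≤ C := (abs_nonneg _).trans (hC 0)
  rcases lt_or_ge v v0 with h | h
  · rw [hk0 v h]; simp; positivity
  · have hv : 0 < v := hv0.trans_le h
    rw [abs_div, abs_of_pos hv, abs_pow]
    exact div_le_div₀ (by positivity) (pow_le_pow_left₀ (abs_nonneg _) (hC v) 2) hv0 h

theorem bud_pp_trH2 {n : ℕ} {a : ℝ} (hn : 0 < n) (ha : 0 < a) {P : SkStp} (hP : SkAdm a P) {j : ℕ} (hj : j ≤ P.length) :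
    ∫ ω, (skSP n a P).trH2 j ω ∂(skSP n a P).μ = obTrH2 n a P 0 j := by
  unfold obTrH2
  refine l8i_path_bd n a ha P hP _ (l8k_trH2_bd (l8i_ok n hn a ha P hP) j) _ fun ω => ?_
  simp only [L8P.trH2, l8i_H n a ha P hP j hj]

theorem bud_pp_step_var {n : ℕ} {a : ℝ} (hn : 0 < n) (ha : 0 < a) {P : SkStp} (hP : SkAdm a P) {k : ℝ → ℝ} (hk : Measurable k)
    {C : ℝ} (hC : ∀ v, |k v| ≤ C) {v0 : ℝ} (hv0 : 0 < v0) (hk0 : ∀ v, v < v0 → k v = 0) :
    ∫ ω, ppPhi n a P k ω ^ 2 ∂(skSP n a P).μ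
      ≤ 7 / 3 * ∑ j ∈ Finset.range (P.length + 1), ppW a P (fun v => k v ^ 2 / v) j * obTrH2 n a P 0 j := by
  have hok := l8i_ok n hn a ha P hP
  have hpin : (skSP n a P).Pin 1 (7 / 3) := by
    have := l8i_pin n hn a ha P hP 1 le_rfl
    norm_num at this
    exact this
  obtain ⟨hm, hb⟩ := bud_pp_kv hk hC hv0 hk0
  have hA : ∀ j, 0 ≤ ppW a P (fun v => k v ^ 2 / v) j := fun j =>
    intervalIntegral.integral_nonneg (bud_pp_bm_le ha hP j) fun u hu =>
      div_nonneg (sq_nonneg _) ((bud_pp_bm_nonneg ha hP j).trans hu.1)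
  have hw : ∀ j ≤ (skSP n a P).n, ppW a P k j ^ 2
      ≤ (skSP n a P).dv j * ((skSP n a P).v j * ppW a P (fun v => k v ^ 2 / v) j) := by
    intro j _
    have e1 : (skSP n a P).dv j = skMs a P j - bmMs a P j := rfl
    have e2 : (skSP n a P).v j = skMs a P j := rfl
    rw [e1, e2]
    refine (bud_pp_cs hk hC (bud_pp_bm_le ha hP j)).trans
      (mul_le_mul_of_nonneg_left ?_ (sub_nonneg.2 (bud_pp_bm_le ha hP j)))
    unfold ppW
    rw [← intervalIntegral.integral_const_mul]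
    refine intervalIntegral.integral_mono_on (bud_pp_bm_le ha hP j)
      (bud_pp_ii (hk.pow_const 2) (C := C ^ 2) (fun v => by rw [abs_pow]; exact pow_le_pow_left₀ (abs_nonneg _) (hC v) 2) _ _)
      ((bud_pp_ii hm hb _ _).const_mul _) fun v hv => ?_
    rcases lt_or_ge v v0 with h | h
    · rw [hk0 v h]; simp
    · have hv' : 0 < v := hv0.trans_le h
      have e3 : k v ^ 2 = v * (k v ^ 2 / v) := by field_simp
      calc k v ^ 2 = v * (k v ^ 2 / v) := e3
        _ ≤ skMs a P j * (k v ^ 2 / v) := mul_le_mul_of_nonneg_right hv.2 (div_nonneg (sq_nonneg _) hv'.le)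
  have h := bud_pp_abs (skSP n a P) hok (by norm_num) hpin (ppW a P k) _ hA hw
  refine h.trans (le_of_eq ?_)
  congr 1
  refine Finset.sum_congr rfl fun j hj => ?_
  rw [bud_pp_trH2 hn ha hP (Nat.lt_succ_iff.1 (Finset.mem_range.1 hj))]

/-! ## 5. One chain -/

section chain

variable {n : ℕ} {a : ℝ} {b h : ℝ → ℝ}

theorem bud_pp_chain_adm (ha : 0 < a) (hbh : CkAdm a b h) (F : Finset GhPos) : SkAdm a (skCStp a b h 0 0 (ghPs a F)) :=
  sk_stp_chain_adm ha.le hbh.1 hbh.2 _ 0 0 (gh_os_ps_pairwise a F) (fun _ hp => (gh_os_ps_mem.1 hp).2)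
    (fun _ hp => gh_os_at_nonneg ha.le hbh.1 (gh_os_ps_mem.1 hp).2.2.2.1)
    (fun _ hp => gh_os_at_nonneg ha.le hbh.2 (gh_os_ps_mem.1 hp).2.2.2.1)

theorem bud_pp_chain_length (a : ℝ) (b h : ℝ → ℝ) (ps : List GhPos) (b0 h0 : ℝ) : (skCStp a b h b0 h0 ps).length = ps.length := by
  induction ps generalizing b0 h0 with
  | nil => rfl
  | cons p ps ih => simp only [skCStp, List.length_cons, ih]

/-- the chain norm is the `L²` norm of `ppPhi` -/
theorem bud_pp_N_eq (hn : 0 < n) (ha : 0 < a) (hbh : CkAdm a b h) {k : ℝ → ℝ} (hk : IntervalIntegrable k volume 0 a)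
    (F : Finset GhPos) :
    ppN n a b h k F = Real.sqrt (∫ ω, ppPhi n a (skCStp a b h 0 0 (ghPs a F)) k ω ^ 2
      ∂(skSP n a (skCStp a b h 0 0 (ghPs a F))).μ) := by
  unfold ppN
  simp only [bud_pp_idx b h (ghPs a F) 0 0 fun p hp => (gh_os_ps_mem.1 hp).2]
  exact bud_pp_norm hn ha (bud_pp_chain_adm ha hbh F) hk

theorem bud_pp_N_nonneg (hn : 0 < n) (ha : 0 < a) (hbh : CkAdm a b h) {k : ℝ → ℝ} (hk : Measurable k) {C : ℝ}
    (hC : ∀ v, |k v| ≤ C) (F : Finset GhPos) : 0 ≤ ppN n a b h k F := by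
  rw [bud_pp_N_eq hn ha hbh (bud_pp_ii hk hC 0 a)]
  exact Real.sqrt_nonneg _

/-- boundedness: `|L - E L| ≤ 3` -/
theorem bud_pp_N_le (hn : 0 < n) (ha : 0 < a) (hbh : CkAdm a b h) {k : ℝ → ℝ} (hk : Measurable k) {C : ℝ} (hC : ∀ v, |k v| ≤ C)
    (F : Finset GhPos) : ppN n a b h k F ≤ 3 * ∫ v in (0 : ℝ)..a, |k v| := by
  rw [bud_pp_N_eq hn ha hbh (bud_pp_ii hk hC 0 a)]
  have hP := bud_pp_chain_adm ha hbh F
  have hprob := (l8i_ok n hn a ha _ hP).prob
  have hM : 0 ≤ 3 * ∫ v in (0 : ℝ)..a, |k v| :=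
    mul_nonneg (by norm_num) (intervalIntegral.integral_nonneg ha.le fun _ _ => abs_nonneg _)
  rw [Real.sqrt_le_iff]
  refine ⟨hM, ?_⟩
  have h1 : ∫ ω, ppPhi n a (skCStp a b h 0 0 (ghPs a F)) k ω ^ 2 ∂(skSP n a (skCStp a b h 0 0 (ghPs a F))).μ
      ≤ ∫ _ω, (3 * ∫ v in (0 : ℝ)..a, |k v|) ^ 2 ∂(skSP n a (skCStp a b h 0 0 (ghPs a F))).μ :=
    integral_mono (l8k_bd_integrable (l8k_bd_pow (bud_pp_phi_bd hn ha hP k) 2) _) (integrable_const _) fun ω => by
      have := bud_pp_phi_le hn ha hP (bud_pp_ii hk hC) ω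
      exact sq_le_sq' (by linarith [(abs_le.1 this).1]) (abs_le.1 this).2
  simpa using h1

/-- Minkowski -/
theorem bud_pp_N_add (hn : 0 < n) (ha : 0 < a) (hbh : CkAdm a b h) {k1 k2 : ℝ → ℝ} (h1 : Measurable k1) (h2 : Measurable k2)
    {C1 C2 : ℝ} (hC1 : ∀ v, |k1 v| ≤ C1) (hC2 : ∀ v, |k2 v| ≤ C2) (F : Finset GhPos) :
    ppN n a b h (fun v => k1 v + k2 v) F ≤ ppN n a b h k1 F + ppN n a b h k2 F := by
  have hP := bud_pp_chain_adm ha hbh F
  have hprob := (l8i_ok n hn a ha _ hP).prob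
  rw [bud_pp_N_eq hn ha hbh (bud_pp_ii h1 hC1 0 a), bud_pp_N_eq hn ha hbh (bud_pp_ii h2 hC2 0 a),
    bud_pp_N_eq hn ha hbh ((bud_pp_ii h1 hC1 0 a).add (bud_pp_ii h2 hC2 0 a))]
  simp only [bud_pp_phi_add (bud_pp_ii h1 hC1) (bud_pp_ii h2 hC2)]
  exact bud_pp_mink _ (bud_pp_phi_bd hn ha hP k1) (bud_pp_phi_bd hn ha hP k2)

/-- the pinned variance on one chain -/
theorem bud_pp_N_var (hn : 0 < n) (ha : 0 < a) (hbh : CkAdm a b h) {k : ℝ → ℝ} (hk : Measurable k) {C : ℝ} (hC : ∀ v, |k v| ≤ C)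
    {v0 : ℝ} (hv0 : 0 < v0) (hk0 : ∀ v, v < v0 → k v = 0) (F : Finset GhPos) :
    ppN n a b h k F ^ 2 ≤ 7 / 3 * ∑ j ∈ Finset.range ((ghPs a F).length + 1),
      ppW a (skCStp a b h 0 0 (ghPs a F)) (fun v => k v ^ 2 / v) j * obTrH2 n a (skCStp a b h 0 0 (ghPs a F)) 0 j := by
  rw [bud_pp_N_eq hn ha hbh (bud_pp_ii hk hC 0 a), Real.sq_sqrt (integral_nonneg fun _ => sq_nonneg _)]
  have := bud_pp_step_var hn ha (bud_pp_chain_adm ha hbh F) hk hC hv0 hk0
  rwa [bud_pp_chain_length] at this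

end chain

/-! ## 6. The path -/

section path

variable {n : ℕ} {a : ℝ} {b h : ℝ → ℝ}

theorem bud_pp_bdd_above (hn : 0 < n) (ha : 0 < a) (hbh : CkAdm a b h) {k : ℝ → ℝ} (hk : Measurable k) {C : ℝ}
    (hC : ∀ v, |k v| ≤ C) : IsBoundedUnder (· ≤ ·) atTop (ppN n a b h k) :=
  isBoundedUnder_of ⟨_, fun F => bud_pp_N_le hn ha hbh hk hC F⟩

theorem bud_pp_bdd_below (hn : 0 < n) (ha : 0 < a) (hbh : CkAdm a b h) {k : ℝ → ℝ} (hk : Measurable k) {C : ℝ}
    (hC : ∀ v, |k v| ≤ C) : IsBoundedUnder (· ≥ ·) atTop (ppN n a b h k) :=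
  isBoundedUnder_of ⟨0, fun F => bud_pp_N_nonneg hn ha hbh hk hC F⟩

/-- Minkowski at path level -/
theorem bud_pp_tri (hn : 0 < n) (ha : 0 < a) (hbh : CkAdm a b h) {k1 k2 : ℝ → ℝ} (h1 : Measurable k1) (h2 : Measurable k2)
    {C1 C2 : ℝ} (hC1 : ∀ v, |k1 v| ≤ C1) (hC2 : ∀ v, |k2 v| ≤ C2) :
    limsup (ppN n a b h fun v => k1 v + k2 v) atTop ≤ limsup (ppN n a b h k1) atTop + limsup (ppN n a b h k2) atTop := by
  have hC12 : ∀ v, |k1 v + k2 v| ≤ C1 + C2 := fun v => (abs_add_le _ _).trans (add_le_add (hC1 v) (hC2 v))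
  have u1 := bud_pp_bdd_above hn ha hbh h1 hC1
  have u2 := bud_pp_bdd_above hn ha hbh h2 hC2
  have l1 := bud_pp_bdd_below hn ha hbh h1 hC1
  have l2 := bud_pp_bdd_below hn ha hbh h2 hC2
  have l12 := bud_pp_bdd_below hn ha hbh (h1.add h2) hC12
  refine (limsup_le_limsup (v := ppN n a b h k1 + ppN n a b h k2)
    (Eventually.of_forall fun F => bud_pp_N_add hn ha hbh h1 h2 hC1 hC2 F) l12.isCoboundedUnder_le
    (isBoundedUnder_le_add u1 u2)).trans ?_
  exact limsup_add_le l1 u1 l2.isCoboundedUnder_le u2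

/-- boundedness at path level -/
theorem bud_pp_bdd (hn : 0 < n) (ha : 0 < a) (hbh : CkAdm a b h) {k : ℝ → ℝ} (hk : Measurable k) {C : ℝ} (hC : ∀ v, |k v| ≤ C) :
    limsup (ppN n a b h k) atTop ≤ 3 * ∫ v in (0 : ℝ)..a, |k v| :=
  limsup_le_of_le (bud_pp_bdd_below hn ha hbh hk hC).isCoboundedUnder_le
    (Eventually.of_forall fun F => bud_pp_N_le hn ha hbh hk hC F)

/-- **(A1), line 3, `p = 2`, at path level**: `‖∫ k_v (L_v - E L_v) dv‖_2² ≤ (7/3) ∫ k_v² E tr H_v²/v dv` -/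
theorem bud_pp_var (hn : 0 < n) (ha : 0 < a) (hbh : CkAdm a b h) {k : ℝ → ℝ} (hk : Measurable k) {C : ℝ} (hC : ∀ v, |k v| ≤ C)
    {v0 : ℝ} (hv0 : 0 < v0) (hk0 : ∀ v, v < v0 → k v = 0) :
    limsup (ppN n a b h k) atTop ≤ Real.sqrt (7 / 3 * ∫ v in (0 : ℝ)..a, k v ^ 2 * (ckH2 n a b h (ghPosA v) / v)) := by
  obtain ⟨hm, hb⟩ := bud_pp_kv hk hC hv0 hk0
  set T : ℝ → ℝ := fun v => ckH2 n a b h (ghPosA v) with hT
  have hTi : IntervalIntegrable T volume 0 a := (exit_clk_intble hn ha hbh).2.2.1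
  -- the comparison function
  have hgi : ∀ δ : ℝ, IntervalIntegrable (fun v => k v ^ 2 / v * (T v + δ)) volume 0 a := fun δ => by
    have h1 : IntervalIntegrable (fun v => T v + δ) volume 0 a := hTi.add intervalIntegrable_const
    constructor
    · exact h1.1.bdd_mul (c := C ^ 2 / v0) hm.aestronglyMeasurable (Eventually.of_forall fun v => by
        rw [Real.norm_eq_abs]; exact hb v)
    · exact h1.2.bdd_mul (c := C ^ 2 / v0) hm.aestronglyMeasurable (Eventually.of_forall fun v => by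
        rw [Real.norm_eq_abs]; exact hb v)
  set I : ℝ := ∫ v in (0 : ℝ)..a, k v ^ 2 * (T v / v) with hI
  set K : ℝ := ∫ v in (0 : ℝ)..a, k v ^ 2 / v with hK
  have hsplit : ∀ δ : ℝ, ∫ v in (0 : ℝ)..a, k v ^ 2 / v * (T v + δ) = I + δ * K := fun δ => by
    have e : (fun v => k v ^ 2 / v * (T v + δ)) = fun v => k v ^ 2 / v * (T v + 0) + δ * (k v ^ 2 / v) := by
      funext v; ring
    rw [e, intervalIntegral.integral_add (hgi 0) ((bud_pp_ii hm hb 0 a).const_mul δ), intervalIntegral.integral_const_mul]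
    congr 1
    refine intervalIntegral.integral_congr fun v _ => ?_
    show k v ^ 2 / v * (T v + 0) = k v ^ 2 * (T v / v)
    ring
  have hstep : ∀ δ : ℝ, 0 < δ → limsup (ppN n a b h k) atTop ≤ Real.sqrt (7 / 3 * (I + δ * K)) := by
    intro δ hδ
    obtain ⟨F0, hF0⟩ := bud_pp_unif hn ha hbh hδ
    refine limsup_le_of_le (bud_pp_bdd_below hn ha hbh hk hC).isCoboundedUnder_le
      ((eventually_ge_atTop F0).mono fun F hF => ?_)
    have hP := bud_pp_chain_adm ha hbh F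
    refine Real.le_sqrt_of_sq_le ((bud_pp_N_var hn ha hbh hk hC hv0 hk0 F).trans
      (mul_le_mul_of_nonneg_left ?_ (by norm_num)))
    rw [← hsplit δ, ← bud_pp_sum_cuts (a := a) (P := skCStp a b h 0 0 (ghPs a F))
      fun j _ => bud_pp_sub_int ha hP (hgi δ) j, bud_pp_chain_length]
    refine Finset.sum_le_sum fun j hj => ?_
    have hj' : j ≤ (skCStp a b h 0 0 (ghPs a F)).length := by
      rw [bud_pp_chain_length]; exact Nat.lt_succ_iff.1 (Finset.mem_range.1 hj)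
    unfold ppW
    rw [← intervalIntegral.integral_mul_const]
    refine intervalIntegral.integral_mono_on_of_le_Ioo (bud_pp_bm_le ha hP j)
      ((bud_pp_ii hm hb _ _).mul_const _) (bud_pp_sub_int ha hP (hgi δ) j) fun v hv => ?_
    have hv0' : 0 ≤ v := (bud_pp_bm_nonneg ha hP j).trans hv.1.le
    have hva : v ≤ a := hv.2.le.trans (bud_pp_ms_le ha hP j)
    have h3 := (hF0 F hF v ⟨hv0', hva⟩).2.2.1
    rw [bud_pp_idx b h (ghPs a F) 0 0 (fun p hp => (gh_os_ps_mem.1 hp).2) v,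
      bud_pp_ix_eq ha _ hP j v hj' hv.1.le hv.2] at h3
    have h4 : obTrH2 n a (skCStp a b h 0 0 (ghPs a F)) 0 j ≤ T v + δ := by
      have := (abs_le.1 h3).2
      unfold ckStp at this
      linarith
    exact mul_le_mul_of_nonneg_left h4 (div_nonneg (sq_nonneg _) hv0')
  have hcont : Tendsto (fun δ : ℝ => Real.sqrt (7 / 3 * (I + δ * K))) (𝓝[>] 0) (𝓝 (Real.sqrt (7 / 3 * (I + 0 * K)))) := by
    have : Continuous fun δ : ℝ => Real.sqrt (7 / 3 * (I + δ * K)) := by fun_prop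
    exact (this.tendsto 0).mono_left nhdsWithin_le_nhds
  have := ge_of_tendsto hcont (Eventually.mono self_mem_nhdsWithin fun δ hδ => hstep δ hδ)
  simpa using this

end path

/-- `W.nLc` in a Hub world is the upper limit of the chain norms -/
theorem bud_pp_nLc {W : BdWorld} (hW : W.IsHub) (m : ℕ) {b h : ℝ → ℝ} (hb : IsClock 1 b) (hh : IsClock 1 h) (k : ℝ → ℝ) :
    W.nLc m b h 2 k = limsup (ppN m 1 (bmExt b) (bmExt h) k) atTop :=
  hW.nLc m b h hb hh 2 k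

/-- the extended clocks are admissible -/
theorem bud_pp_adm {b h : ℝ → ℝ} (hb : IsClock 1 b) (hh : IsClock 1 h) : CkAdm 1 (bmExt b) (bmExt h) := by
  rw [bw_ext_eq]
  exact ⟨psi_ext_clk one_pos hb, psi_ext_clk one_pos hh⟩

end

end Claimed.Agent.R286
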