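import Claimed.Agent.R286.Bud.C19Row
import Claimed.Agent.R286.Bud.C19Pt
import Claimed.Agent.R286.Bud.PinPath
import Claimed.Agent.R286.Exit.CavGam
import Claimed.Agent.R286.Exit.GamBrg
import Claimed.Agent.R286.Exit.ScBd7
import Claimed.Agent.R286.Exit.ClkStat
import Claimed.Agent.R286.Brg.StatSk
import Claimed.Agent.R286.Fd.Contract

/-!
# Row 286, LL sec. 7, node N17 = (C19), FLOOR 2 (PATH): leaves of `Bud/C19Path.lean` (architect 180)      (owner helper61; prefix `bcq_`)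

Statements = the targets of `Bud/C19Path.lean` with `BcpI`, `BdI.pth`, `bcpCut` UNFOLDED (this file is imported by `C19Path`, which splices `exact bcq_.. h.hub h.m2 h.cb h.ch ..`).
* §1 `bcq_S_* bcq_B_* bcq_D2_* bcq_DT_ii`      the statistics of ANY feasible `Q` in a Hub world (no frame hypothesis)
* §2 `bcq_cut_le`, **`bcq_IG`** (= `bcp_IG`)     the sums over the cuts, uniformly in the range
* §3 **`bcq_Gam`** (= `bcp_Gam`)                 `Γ_i → Γ_s(K_s(v0))`, from 266's `exit_cav_gam`, `exit_gam_brg` and 265's `sb7_gam`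
* §4 **`bcq_X4`** (= `BudB.CloX4`)
-/

set_option autoImplicit false

namespace Claimed.Agent.R286

open MeasureTheory Set Filter Topology

noncomputable section

/-! ## 1. The statistics of a feasible `Q` in a Hub world -/

section kit

set_option linter.unusedSectionVars false
set_option linter.unusedVariables false

variable {X : BdFix} {W : BdWorld} {F : BdFr} {g : ℝ} (Q : BdQ F X)
variable (hW : W.IsHub) (cb : IsClock 1 (Q.bq g)) (ch : IsClock 1 (Q.hq g))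
include hW cb ch

theorem bcq_S_mono : MonotoneOn (Q.Sq W g) (Ioo 0 1) := by
  have := (W.ps F.m).S_mono (Q.bq g) (Q.hq g) (by rw [hW.a1]; exact cb) (by rw [hW.a1]; exact ch)
  rw [hW.a1] at this
  exact this

theorem bcq_B_mono : MonotoneOn (Q.Bq W g) (Ioo 0 1) := by
  have := (W.ps F.m).B_mono (Q.bq g) (Q.hq g) (by rw [hW.a1]; exact cb) (by rw [hW.a1]; exact ch)
  rw [hW.a1] at this
  exact this

theorem bcq_S_nonneg {v : ℝ} (hv : v ∈ Ioo (0 : ℝ) 1) : 0 ≤ Q.Sq W g v :=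
  (W.ps F.m).S_nonneg (Q.bq g) (Q.hq g) (by rw [hW.a1]; exact cb) (by rw [hW.a1]; exact ch) v (by rw [hW.a1]; exact hv)

theorem bcq_D2_nonneg {v : ℝ} (hv : v ∈ Ioo (0 : ℝ) 1) : 0 ≤ Q.Dq2 W g v := by
  have := (W.ps F.m).S_sq_le (Q.bq g) (Q.hq g) (by rw [hW.a1]; exact cb) (by rw [hW.a1]; exact ch) v (by rw [hW.a1]; exact hv)
  unfold BdQ.Dq2 BdQ.Bq BdQ.Sq
  linarith

theorem bcq_B_le_one {v : ℝ} (hv : v ∈ Ioo (0 : ℝ) 1) : Q.Bq W g v ≤ 1 :=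
  (W.ps F.m).B_le (Q.bq g) (Q.hq g) (by rw [hW.a1]; exact cb) (by rw [hW.a1]; exact ch) v (by rw [hW.a1]; exact hv)

theorem bcq_D2_le_one {v : ℝ} (hv : v ∈ Ioo (0 : ℝ) 1) : Q.Dq2 W g v ≤ 1 := by
  have := bcq_B_le_one Q hW cb ch hv
  unfold BdQ.Dq2
  nlinarith [sq_nonneg (Q.Sq W g v)]

theorem bcq_S_le_one {v : ℝ} (hv : v ∈ Ioo (0 : ℝ) 1) : Q.Sq W g v ≤ 1 := by
  have h1 := bcq_B_le_one Q hW cb ch hv
  have h2 := bcq_D2_nonneg Q hW cb ch hv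
  unfold BdQ.Dq2 at h2
  nlinarith

theorem bcq_D2_aem : AEMeasurable (Q.Dq2 W g) (volume.restrict (Ioo (0 : ℝ) 1)) :=
  (aemeasurable_restrict_of_monotoneOn measurableSet_Ioo (bcq_B_mono Q hW cb ch)).sub
    ((aemeasurable_restrict_of_monotoneOn measurableSet_Ioo (bcq_S_mono Q hW cb ch)).pow_const 2)

theorem bcq_DT_ii {θ : ℝ} (hθ : 0 ≤ θ) {a b : ℝ} (ha : 0 ≤ a) (hab : a ≤ b) (hb1 : b ≤ 1) :
    IntervalIntegrable (fun v => Q.Dq W g v ^ θ) volume a b := by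
  refine bcl_ii_of_bdd ?_ (fun v hv => ?_) ha hab hb1
  · exact ((bcq_D2_aem Q hW cb ch).sqrt).pow_const θ
  · have h0 : 0 ≤ Q.Dq W g v := Real.sqrt_nonneg _
    have h1 : Q.Dq W g v ≤ 1 := Real.sqrt_le_one.2 (bcq_D2_le_one Q hW cb ch hv)
    rw [abs_of_nonneg (Real.rpow_nonneg h0 _)]
    exact Real.rpow_le_one h0 h1 hθ

end kit

/-! ## 2. The sums over the cuts -/

/-- comparison of a sum over consecutive cuts with an integral (only the INTERIOR of the cuts is seen) -/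
theorem bcq_cut_le {P : SkStp} (hP : SkAdm 1 P) (G : ℕ → ℝ) (f : ℝ → ℝ)
    (hf : ∀ s t : ℝ, 0 ≤ s → s ≤ t → t ≤ 1 → IntervalIntegrable f volume s t)
    (hle : ∀ j ≤ P.length, ∀ v, bmMs 1 P j < v → v < skMs 1 P j → G j ≤ f v) {j1 j2 : ℕ} (h12 : j1 ≤ j2) (h2 : j2 ≤ P.length + 1) :
    ∑ j ∈ Finset.Ico j1 j2, skGap 1 P j * G j ≤ ∫ v in (bmMs 1 P j1)..(bmMs 1 P j2), f v := by
  have hint : ∀ k, IntervalIntegrable f volume (bmMs 1 P k) (bmMs 1 P (k + 1)) := by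
    intro k
    rw [bud_pp_bm_succ]
    exact hf _ _ (bud_pp_bm_nonneg one_pos hP k) (bud_pp_bm_le one_pos hP k) (bud_pp_ms_le one_pos hP k)
  rw [← intervalIntegral.sum_integral_adjacent_intervals_Ico h12 fun k _ => hint k]
  refine Finset.sum_le_sum fun j hj => ?_
  have hj' : j ≤ P.length := by
    have := (Finset.mem_Ico.1 hj).2
    omega
  have e : skGap 1 P j * G j = ∫ _v in (bmMs 1 P j)..(bmMs 1 P (j + 1)), G j := by
    rw [intervalIntegral.integral_const, bud_pp_bm_succ, smul_eq_mul]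
    rfl
  rw [e]
  refine intervalIntegral.integral_mono_on_of_le_Ioo ?_ intervalIntegrable_const (hint j) fun v hv => ?_
  · rw [bud_pp_bm_succ]; exact bud_pp_bm_le one_pos hP j
  · rw [bud_pp_bm_succ] at hv
    exact hle j hj' v hv.1 hv.2

section ig

variable {X : BdFix} {W : BdWorld} {i : BdI X}

/-- on all fine chains, on the interior of every cut, `D²` of the chain is at most `D²` of the path `+ 4δ` -/
theorem bcq_D_cut (hW : W.IsHub) (m2 : 2 ≤ i.F.m) (cb : IsClock 1 (i.Q.bq i.g)) (ch : IsClock 1 (i.Q.hq i.g)) {δ : ℝ} (hδ : 0 < δ) :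
    BmEv 1 fun ps => ∀ j ≤ (i.Q.stp i.g ps).length, ∀ v, bmMs 1 (i.Q.stp i.g ps) j < v → v < skMs 1 (i.Q.stp i.g ps) j →
      v ∈ Ioo (0 : ℝ) 1 ∧ obD2 i.F.m 1 (i.Q.stp i.g ps) 0 j ≤ i.Q.Dq2 W i.g v + 4 * δ := by
  have hn : 0 < i.F.m := by omega
  have hbh := bud_pp_adm cb ch
  obtain ⟨F0, hF0⟩ := bud_pp_unif hn one_pos hbh hδ
  refine BmEv.of_superset F0 fun F hF j hj v h1 h2 => ?_
  have hP : SkAdm 1 (i.Q.stp i.g (ghPs 1 F)) := bud_pp_chain_adm one_pos hbh F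
  have hv : v ∈ Ioo (0 : ℝ) 1 := ⟨lt_of_le_of_lt (bud_pp_bm_nonneg one_pos hP j) h1, lt_of_lt_of_le h2 (bud_pp_ms_le one_pos hP j)⟩
  refine ⟨hv, ?_⟩
  have hix : ghIdx (ghPs 1 F) ((ghPosA v : GhPos) : WithTop GhPos) = j := by
    rw [bud_pp_idx (a := 1) (i.Q.bE i.g) (i.Q.hE i.g) (ghPs 1 F) 0 0 (fun p hp => (gh_os_ps_mem.1 hp).2) v]
    exact bud_pp_ix_eq one_pos _ hP j v hj h1.le h2
  obtain ⟨hS, hB, -⟩ := hF0 F hF v ⟨hv.1.le, hv.2.le⟩
  rw [hix, ← hW.S i.F.m hn _ _ cb ch v hv] at hS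
  rw [hix, ← hW.B i.F.m hn _ _ cb ch v hv] at hB
  have s0 := bcq_S_nonneg i.Q hW cb ch hv
  have s1 := bcq_S_le_one i.Q hW cb ch hv
  have hS2 : |obS i.F.m 1 (i.Q.stp i.g (ghPs 1 F)) 0 j - i.Q.Sq W i.g v| ≤ δ := hS
  have hB2 : |obB i.F.m 1 (i.Q.stp i.g (ghPs 1 F)) 0 j - i.Q.Bq W i.g v| ≤ δ := hB
  have hS' := abs_le.1 hS2
  have hB' := abs_le.1 hB2
  unfold obD2 BdQ.Dq2
  have hS1 : i.Q.Sq W i.g v - δ ≤ obS i.F.m 1 (i.Q.stp i.g (ghPs 1 F)) 0 j := by linarith [hS'.1]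
  have hB1 : obB i.F.m 1 (i.Q.stp i.g (ghPs 1 F)) 0 j ≤ i.Q.Bq W i.g v + δ := by linarith [hB'.2]
  by_cases hc : δ ≤ i.Q.Sq W i.g v
  · have : (i.Q.Sq W i.g v - δ) ^ 2 ≤ obS i.F.m 1 (i.Q.stp i.g (ghPs 1 F)) 0 j ^ 2 := pow_le_pow_left₀ (by linarith) hS1 2
    nlinarith
  · have hc' : i.Q.Sq W i.g v < δ := not_le.1 hc
    nlinarith [sq_nonneg (obS i.F.m 1 (i.Q.stp i.g (ghPs 1 F)) 0 j)]

/-- **the sums over the cuts**, uniformly in the range      (= `bcp_IG` of `Bud/C19Path.lean`) -/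
theorem bcq_IG (hW : W.IsHub) (m2 : 2 ≤ i.F.m) (cb : IsClock 1 (i.Q.bq i.g)) (ch : IsClock 1 (i.Q.hq i.g))
    {s : ℝ} (hs : 0 < s) (hs2 : s ≤ 2) {δ : ℝ} (hδ : 0 < δ) :
    BmEv 1 fun ps => ∀ lo hi : ℕ, lo ≤ hi → hi ≤ (i.Q.stp i.g ps).length + 1 →
      b19IG 1 (i.Q.stp i.g ps) (bmD i.F.m 1 (i.Q.stp i.g ps)) lo hi s
        ≤ i.Q.iT W i.g s (bmMs 1 (i.Q.stp i.g ps) lo) (bmMs 1 (i.Q.stp i.g ps) hi) + δ := by
  have hbh := bud_pp_adm cb ch
  obtain ⟨δ', hδ'⟩ : ∃ δ' : ℝ, δ' = min 1 (δ ^ (2 / s) / 4) := ⟨_, rfl⟩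
  have hδ'0 : 0 < δ' := by rw [hδ']; exact lt_min one_pos (div_pos (Real.rpow_pos_of_pos hδ _) (by norm_num))
  have hc : (4 * δ') ^ (s / 2) ≤ δ := by
    have h1 : 4 * δ' ≤ δ ^ (2 / s) := by
      have : δ' ≤ δ ^ (2 / s) / 4 := by rw [hδ']; exact min_le_right _ _
      linarith
    calc (4 * δ') ^ (s / 2) ≤ (δ ^ (2 / s)) ^ (s / 2) := Real.rpow_le_rpow (by positivity) h1 (by positivity)
      _ = δ := by
          rw [← Real.rpow_mul hδ.le]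
          have : 2 / s * (s / 2) = 1 := by field_simp
          rw [this, Real.rpow_one]
  have hev := bcq_D_cut hW m2 cb ch hδ'0
  obtain ⟨F0, hF0⟩ := hev.exists_base
  refine BmEv.of_superset F0 fun F hF lo hi hlh hhi => ?_
  have hP : SkAdm 1 (i.Q.stp i.g (ghPs 1 F)) := bud_pp_chain_adm one_pos hbh F
  have hI : ∀ a b : ℝ, 0 ≤ a → a ≤ b → b ≤ 1 → IntervalIntegrable (fun v => i.Q.Dq W i.g v ^ s + (4 * δ') ^ (s / 2)) volume a b :=
    fun a b ha hab hb => (bcq_DT_ii i.Q hW cb ch hs.le ha hab hb).add intervalIntegrable_const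
  have key := bcq_cut_le hP (fun j => bmD i.F.m 1 (i.Q.stp i.g (ghPs 1 F)) j ^ s) (fun v => i.Q.Dq W i.g v ^ s + (4 * δ') ^ (s / 2)) hI
    (fun j hj v h1 h2 => by
      obtain ⟨hv, hD⟩ := hF0 F hF j hj v h1 h2
      have d0 := bcq_D2_nonneg i.Q hW cb ch hv
      have e1 : bmD i.F.m 1 (i.Q.stp i.g (ghPs 1 F)) j ≤ Real.sqrt (i.Q.Dq2 W i.g v + 4 * δ') := Real.sqrt_le_sqrt hD
      calc bmD i.F.m 1 (i.Q.stp i.g (ghPs 1 F)) j ^ s ≤ Real.sqrt (i.Q.Dq2 W i.g v + 4 * δ') ^ s :=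
            Real.rpow_le_rpow (Real.sqrt_nonneg _) e1 hs.le
        _ = (i.Q.Dq2 W i.g v + 4 * δ') ^ (s / 2) := by
            rw [Real.sqrt_eq_rpow, ← Real.rpow_mul (by positivity)]
            congr 1; ring
        _ ≤ i.Q.Dq2 W i.g v ^ (s / 2) + (4 * δ') ^ (s / 2) :=
            Real.rpow_add_le_add_rpow d0 (by positivity) (by positivity) (by linarith)
        _ = i.Q.Dq W i.g v ^ s + (4 * δ') ^ (s / 2) := by
            unfold BdQ.Dq
            rw [Real.sqrt_eq_rpow, ← Real.rpow_mul d0]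
            congr 2; ring)
    hlh hhi
  have b0 := bud_pp_bm_nonneg one_pos hP lo
  have b1 : bmMs 1 (i.Q.stp i.g (ghPs 1 F)) hi ≤ 1 := by
    cases hi with
    | zero => rw [bud_pp_bm_zero]; exact zero_le_one
    | succ k => rw [bud_pp_bm_succ]; exact bud_pp_ms_le one_pos hP k
  have b01 : bmMs 1 (i.Q.stp i.g (ghPs 1 F)) lo ≤ bmMs 1 (i.Q.stp i.g (ghPs 1 F)) hi := by
    have hm : Monotone (bmMs 1 (i.Q.stp i.g (ghPs 1 F))) := monotone_nat_of_le_succ fun k => by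
      rw [bud_pp_bm_succ]; exact bud_pp_bm_le one_pos hP k
    exact hm hlh
  unfold b19IG BdQ.iT
  refine key.trans ?_
  rw [intervalIntegral.integral_add (bcq_DT_ii i.Q hW cb ch hs.le b0 b01 b1) intervalIntegrable_const,
    intervalIntegral.integral_const, smul_eq_mul]
  have c0 : 0 ≤ (4 * δ') ^ (s / 2) := Real.rpow_nonneg (by positivity) _
  have : (bmMs 1 (i.Q.stp i.g (ghPs 1 F)) hi - bmMs 1 (i.Q.stp i.g (ghPs 1 F)) lo) * (4 * δ') ^ (s / 2) ≤ 1 * δ :=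
    mul_le_mul (by linarith) hc c0 zero_le_one
  linarith

end ig

/-! ## 3. `Γ_i → Γ_s(K_s(v0))` -/

/-- a clock of `Bud` is read at a continuity mass -/
theorem bcq_at_cont {c : ℝ → ℝ} {v : ℝ} (hv : v ∈ Ioo (0 : ℝ) 1) (hc : ContinuousAt c v) : ghAt 1 (bmExt c) (ghPosA v) = c v := by
  have he : ghClamp 1 (bmExt c) =ᶠ[𝓝 v] c := by
    filter_upwards [isOpen_Ioo.mem_nhds hv] with u hu
    unfold ghClamp bmExt
    rw [if_neg (not_lt.2 hu.1.le), min_eq_left hu.2.le, if_neg (not_le.2 hu.1), if_pos hu.2]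
  have hcc : ContinuousAt (ghClamp 1 (bmExt c)) v := hc.congr he.symm
  have hval : ghClamp 1 (bmExt c) v = c v := he.self_of_nhds
  unfold ghAt
  have e1 : (ghPosA v).u = v := rfl
  have e2 : (ghPosA v).lam = 1 := rfl
  rw [e1, e2, hcc.continuousWithinAt.leftLim_eq, hcc.continuousWithinAt.rightLim_eq, hval]
  ring

/-- the two codings of the scalar site of a step path -/
theorem bcq_Gam_step {n : ℕ} (hn : 0 < n) {P : SkStp} (hP : SkAdm 1 P) {j : ℕ} (hj : j ≤ P.length) : b19Gam n 1 P j = cvGam n P j := by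
  obtain ⟨h1, h2, -⟩ := b19_KP_adm hn one_pos hP
  have e : cvSc P (cvK n P) (fun _ => 1) = b19KP n 1 P := by
    unfold cvSc b19KP
    refine List.map_congr_left fun k _ => ?_
    simp only [one_mul]
    rfl
  unfold b19Gam
  rw [← ob_S_two one_pos one_pos _ h1 0 j (by rw [h2]; exact hj)]
  unfold cvGam cvGamK cvNuS
  rw [e]
  unfold ghSp
  congr 1
  funext _ σ
  simp [skOv]

section gam

variable {X : BdFix} {W : BdWorld} {F : BdFr} {g : ℝ} (Q : BdQ F X)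

/-- `K_s` is a clock -/
theorem bcq_Ks_clock (hW : W.IsHub) (cb : IsClock 1 (Q.bq g)) (ch : IsClock 1 (Q.hq g)) : IsClock 1 (Q.Ks W g) := by
  obtain ⟨Cb, hCb⟩ := cb.bdd
  obtain ⟨Ch, hCh⟩ := ch.bdd
  refine ⟨fun v hv v' hv' hvv => ?_, fun v hv => ?_, ⟨Ch + Cb, fun v hv => ?_⟩⟩
  · unfold BdQ.Ks
    have h1 := ch.mono hv hv' hvv
    have h2 := cb.mono hv hv' hvv
    have h3 := bcq_S_mono Q hW cb ch hv hv' hvv
    have h4 := bcq_S_nonneg Q hW cb ch hv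
    have h5 := cb.nonneg v' hv'
    have := mul_le_mul h2 h3 h4 h5
    linarith
  · unfold BdQ.Ks
    have := mul_nonneg (cb.nonneg v hv) (bcq_S_nonneg Q hW cb ch hv)
    linarith [ch.nonneg v hv]
  · unfold BdQ.Ks
    have h1 := bcq_S_le_one Q hW cb ch hv
    have h2 := cb.nonneg v hv
    have h3 := hCb v hv
    have h4 := hCh v hv
    have : Q.bq g v * Q.Sq W g v ≤ Q.bq g v * 1 := mul_le_mul_of_nonneg_left h1 h2
    linarith

/-- at a continuity mass of the two clocks the scalar clock of `Prof/Defs` is `K_s` -/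
theorem bcq_Ku_eq (hW : W.IsHub) (hm : 0 < F.m) (cb : IsClock 1 (Q.bq g)) (ch : IsClock 1 (Q.hq g)) {v : ℝ} (hv : v ∈ Ioo (0 : ℝ) 1)
    (kb : ContinuousAt (Q.bq g) v) (kh : ContinuousAt (Q.hq g) v) :
    pfKp F.m (bmExt (Q.bq g)) (bmExt (Q.hq g)) (ghPosA v) = Q.Ks W g v := by
  unfold pfKp BdQ.Ks BdQ.Sq
  rw [bcq_at_cont hv kb, bcq_at_cont hv kh, hW.S F.m hm _ _ cb ch v hv]

/-- the mass profiles agree (the clocks differ on a countable set) -/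
theorem bcq_alK_eq (hW : W.IsHub) (hm : 0 < F.m) (cb : IsClock 1 (Q.bq g)) (ch : IsClock 1 (Q.hq g)) :
    scAlK 1 (pfKu F.m (bmExt (Q.bq g)) (bmExt (Q.hq g))) = scAlK 1 (Q.Ks W g) := by
  funext t
  unfold scAlK
  congr 1
  refine measure_congr ?_
  have hE := (bcl_disc_countable cb.mono).union (bcl_disc_countable ch.mono)
  rw [Filter.eventuallyEq_set]
  filter_upwards [hE.ae_notMem (volume : Measure ℝ)] with v hvE
  simp only [mem_union, Set.mem_ofPred_eq, not_or, not_and, not_not] at hvE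
  constructor
  · rintro ⟨hv, h⟩
    refine ⟨hv, ?_⟩
    rw [← bcq_Ku_eq Q hW hm cb ch hv (hvE.1 hv) (hvE.2 hv)]
    exact h
  · rintro ⟨hv, h⟩
    refine ⟨hv, ?_⟩
    rw [← bcq_Ku_eq Q hW hm cb ch hv (hvE.1 hv) (hvE.2 hv)] at h
    exact h

/-- **the limit of the scalar sites of the chains is the response of the world** -/
theorem bcq_GamC (hW : W.IsHub) (hm : 0 < F.m) (cb : IsClock 1 (Q.bq g)) (ch : IsClock 1 (Q.hq g)) {v : ℝ} (hv : v ∈ Ioo (0 : ℝ) 1)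
    (kb : ContinuousAt (Q.bq g) v) (kh : ContinuousAt (Q.hq g) v) :
    cvGamC F.m (bmExt (Q.bq g)) (bmExt (Q.hq g)) (ghPosA v) = Q.Gs W g (Q.Ks W g v) := by
  have hK := bcq_Ks_clock Q hW cb ch
  obtain ⟨C, hC⟩ := hK.bdd
  obtain ⟨τ, hτ⟩ : ∃ τ : ℝ, τ = max (max (pfKp F.m (bmExt (Q.bq g)) (bmExt (Q.hq g)) (ghPosA 1)) C) 1 := ⟨_, rfl⟩
  have t0 : 0 < τ := by rw [hτ]; exact lt_of_lt_of_le one_pos (le_max_right _ _)
  have t1 : pfKp F.m (bmExt (Q.bq g)) (bmExt (Q.hq g)) (ghPosA 1) ≤ τ := by rw [hτ]; exact (le_max_left _ _).trans (le_max_left _ _)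
  have t2 : ∀ u ∈ Ioo (0 : ℝ) 1, Q.Ks W g u ≤ τ := fun u hu => (hC u hu).trans (by rw [hτ]; exact (le_max_right _ _).trans (le_max_left _ _))
  have hok : (ghPosA v).Ok 1 := ⟨hv.1.le, hv.2.le, zero_le_one, le_rfl⟩
  rw [exit_gam_brg hm (sb7_ext_clk cb) (sb7_ext_clk ch) t0 t1 hok, bcq_Ku_eq Q hW hm cb ch hv kb kh]
  unfold pfGh pfAl BdQ.Gs
  rw [bcq_alK_eq Q hW hm cb ch, hW.Gam _ hK _ (hK.nonneg v hv), sb7_gam hK t2 (hK.nonneg v hv) (t2 v hv) t0]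

end gam

/-- `Γ_i → Γ_s(K_s(v0))` at a continuity cut      (= `bcp_Gam` of `Bud/C19Path.lean`) -/
theorem bcq_Gam {X : BdFix} {W : BdWorld} {i : BdI X} (hW : W.IsHub) (m2 : 2 ≤ i.F.m) (cb : IsClock 1 (i.Q.bq i.g))
    (ch : IsClock 1 (i.Q.hq i.g)) {v : ℝ} (hv : v ∈ Ioo (0 : ℝ) 1) (kb : ContinuousAt (i.Q.bq i.g) v) (kh : ContinuousAt (i.Q.hq i.g) v)
    {δ : ℝ} (hδ : 0 < δ) :
    BmEv 1 fun ps => |b19Gam i.F.m 1 (i.Q.stp i.g ps) (ghIdx ps ((ghPosA v : GhPos) : WithTop GhPos)) - i.Q.Gs W i.g (i.Q.Ks W i.g v)| ≤ δ := by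
  have hm : 0 < i.F.m := by omega
  have hbh := bud_pp_adm cb ch
  have hok : (ghPosA v).Ok 1 := ⟨hv.1.le, hv.2.le, zero_le_one, le_rfl⟩
  have lim := (exit_cav_gam i.F.m hm _ _ hbh.1 hbh.2).1 (ghPosA v) hok
  have hL : ghLim 1 (fun l => cvGam i.F.m (skCStp 1 (bmExt (i.Q.bq i.g)) (bmExt (i.Q.hq i.g)) 0 0 l) (ghIdx l ((ghPosA v : GhPos) : WithTop GhPos)))
      = i.Q.Gs W i.g (i.Q.Ks W i.g v) := bcq_GamC i.Q hW hm cb ch hv kb kh
  unfold GhLimEx at lim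
  rw [hL] at lim
  have hev := lim.eventually (Metric.closedBall_mem_nhds _ hδ)
  refine hev.mono fun F hF => ?_
  have hP : SkAdm 1 (i.Q.stp i.g (ghPs 1 F)) := bud_pp_chain_adm one_pos hbh F
  have hj : ghIdx (ghPs 1 F) ((ghPosA v : GhPos) : WithTop GhPos) ≤ (i.Q.stp i.g (ghPs 1 F)).length := by
    have := brg_t_idx_coe_le (ghPs 1 F) (ghPosA v)
    rwa [← bud_pp_chain_length 1 (i.Q.bE i.g) (i.Q.hE i.g) (ghPs 1 F) 0 0] at this
  show |b19Gam i.F.m 1 (i.Q.stp i.g (ghPs 1 F)) (ghIdx (ghPs 1 F) ((ghPosA v : GhPos) : WithTop GhPos)) - i.Q.Gs W i.g (i.Q.Ks W i.g v)| ≤ δ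
  rw [bcq_Gam_step hm hP hj]
  rw [Real.dist_eq] at hF
  exact hF

/-! ## 4. `E|X_v|⁴` is nondecreasing, the alias error is nonnegative -/

section x4

variable {S ι : Type} [Fintype S] [Fintype ι]

/-- the expected FOURTH power of the norm of a vector of planted conditional means increases along the cuts (two Jensen steps per transition) -/
theorem bcq_q4_mono {B : GhB S} (hB : B.Ok) {κ : Type} [Fintype κ] (v : κ → S → ℝ) :
    ∀ {ls : List (GhLv S ι)}, GhNn ls → ∀ (j : ℕ) (z : S → ℝ),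
      obuIt B ls j (fun y => (∑ k, ghE B (ls.drop j) (v k) y ^ 2) ^ 2) z
        ≤ obuIt B ls (j + 1) (fun y => (∑ k, ghE B (ls.drop (j + 1)) (v k) y ^ 2) ^ 2) z
  | [], _, _, _ => by simp [obuIt]
  | l :: ls, hn, 0, z => by
      have e : obuIt B ls 0 (fun y => (∑ k, ghE B ls (v k) y ^ 2) ^ 2) = fun y => (∑ k, ghE B ls (v k) y ^ 2) ^ 2 :=
        funext fun y => obu_it_zero B ls _ y
      simp only [obuIt, List.drop_zero, List.drop_succ_cons]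
      rw [e]
      obtain ⟨M, hM⟩ := fd_sq_bc hB v hn.tail
      have h1 : ∑ k, ghE B (l :: ls) (v k) z ^ 2 ≤ ghA B l ls (fun y => ∑ k, ghE B ls (v k) y ^ 2) z := by
        rw [fd_A_sum hB hn _ (fun k _ => ObuBC.sq ⟨_, gh_b_E_bc' hB (v k) hn.tail⟩)]
        exact Finset.sum_le_sum fun k _ => fd_A_sq_le hB hn (gh_b_E_bc' hB (v k) hn.tail) z
      have h0 : 0 ≤ ∑ k, ghE B (l :: ls) (v k) z ^ 2 := Finset.sum_nonneg fun k _ => sq_nonneg _
      exact (pow_le_pow_left₀ h0 h1 2).trans (fd_A_sq_le hB hn hM z)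
  | l :: ls, hn, j + 1, z => by
      simp only [obuIt, List.drop_succ_cons]
      obtain ⟨M, hM⟩ := (fd_sq_bc hB v (fd_nn_drop hn.tail j)).sq
      obtain ⟨M', hM'⟩ := (fd_sq_bc hB v (fd_nn_drop hn.tail (j + 1))).sq
      exact gh_b_A_mono hB hn (obu_it_bc hB hn.tail j hM) (obu_it_bc hB hn.tail (j + 1) hM')
        (fun y => bcq_q4_mono hB v hn.tail j y) z

end x4

/-- `E|X_j|⁴` is nondecreasing in the cut of a step path -/
theorem bcq_X4F_mono {n : ℕ} {a : ℝ} (ha : 0 < a) {P : SkStp} (hP : SkAdm a P) {j j' : ℕ} (hj : j ≤ j') : ckX4F n a P j ≤ ckX4F n a P j' := by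
  have hB := obu_base_ok n ha
  have hls := obu_lvs_nn n hP
  have p0 : ∀ j, ckX4F n a P j = obuIt (skBase n a) (skLvs n P) j
      (fun G => (∑ i, ghE (skBase n a) ((skLvs n P).drop j) (obY i) G ^ 2) ^ 2) 0 := by
    intro j
    rw [← obu_lvs_drop]
    exact obu_path_field hB hls 0 j fun G => (∑ i, obX n a (P.drop j) G i ^ 2) ^ 2
  induction j', hj using Nat.le_induction with
  | base => exact le_rfl
  | succ m _ ih =>
    refine ih.trans ?_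
    rw [p0 m, p0 (m + 1)]
    exact bcq_q4_mono hB (fun i => obY i) hls m 0

/-- `E|X|⁴` of the path is nondecreasing in the mass -/
theorem bcq_X4_mono {n : ℕ} (hn : 0 < n) {b h : ℝ → ℝ} (hbh : CkAdm 1 b h) {v v' : ℝ} (hv : v ∈ Icc (0 : ℝ) 1) (hv' : v' ∈ Icc (0 : ℝ) 1)
    (hvv : v ≤ v') : ckX4 n 1 b h (ghPosA v) ≤ ckX4 n 1 b h (ghPosA v') := by
  refine le_of_forall_pos_le_add fun ε hε => ?_
  obtain ⟨F0, hF0⟩ := bud_pp_unif hn one_pos hbh (half_pos hε)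
  obtain ⟨-, -, -, -, h1⟩ := hF0 F0 subset_rfl v hv
  obtain ⟨-, -, -, -, h2⟩ := hF0 F0 subset_rfl v' hv'
  have hle : (ghPosA v : GhPos) ≤ ghPosA v' := by
    rw [Prod.Lex.le_iff]
    rcases hvv.lt_or_eq with h | h
    · exact Or.inl h
    · exact Or.inr ⟨h, le_rfl⟩
  have hidx : ghIdx (ghPs 1 F0) ((ghPosA v : GhPos) : WithTop GhPos) ≤ ghIdx (ghPs 1 F0) ((ghPosA v' : GhPos) : WithTop GhPos) :=
    brg_t_idx_mono _ (WithTop.coe_le_coe.2 hle)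
  have h3 := bcq_X4F_mono (n := n) one_pos (bud_pp_chain_adm one_pos hbh F0) hidx
  have a1 := (abs_le.1 h1).1
  have a2 := (abs_le.1 h2).2
  unfold ckStp at a1 a2
  linarith

/-- `E|X_v|⁴` of the world is `ckX4` -/
theorem bcq_mX_eq {X : BdFix} {W : BdWorld} {F : BdFr} {g : ℝ} (Q : BdQ F X) (hW : W.IsHub) (hm : 0 < F.m) (cb : IsClock 1 (Q.bq g))
    (ch : IsClock 1 (Q.hq g)) (v : ℝ) : Q.mX W g 2 v = ckX4 F.m 1 (bmExt (Q.bq g)) (bmExt (Q.hq g)) (ghPosA v) := by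
  have hbh := bud_pp_adm cb ch
  unfold BdQ.mX
  rw [hW.nu F.m _ _ cb ch]
  unfold skCNu ckX4 ghLim
  congr 1
  funext Fs
  have hps : GhChOk 1 (ghPs 1 Fs) := ⟨gh_os_ps_lt 1 Fs, fun p hp => (gh_os_ps_mem.1 hp).2⟩
  simp only []
  rw [brg_ss_chain_X4' hm one_pos hbh hps (ghPosA v)]
  have eτ : bmTree (fun _ _ => v) = brgR4 (ghPosA v) ((ghPosA v : GhPos) : WithTop GhPos) ((ghPosA v : GhPos) : WithTop GhPos) := by
    funext x y
    unfold bmTree brgR4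
    simp only [max_self]
    split_ifs <;> rfl
  rw [eτ]
  unfold ckNuF ckStp
  show ghNu _ _ (ghRepN 4 _) _ _ = _
  congr 1
  funext _ σ
  simp [bmTest, Finset.prod_range_succ]

/-- **`BudB.CloX4`** in a Hub world -/
theorem bcq_X4 {X : BdFix} {W : BdWorld} (hW : W.IsHub) : BudB.CloX4 X W := by
  intro i m2 cb ch
  have hm : 0 < i.F.m := by omega
  have hbh := bud_pp_adm cb ch
  refine ⟨fun v hv v' hv' hvv => ?_, fun v hv => ?_⟩
  · rw [bcq_mX_eq i.Q hW hm cb ch, bcq_mX_eq i.Q hW hm cb ch]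
    exact bcq_X4_mono hm hbh ⟨hv.1.le, hv.2.le⟩ ⟨hv'.1.le, hv'.2.le⟩ hvv
  · have hok : (ghPosA v).Ok 1 := ⟨hv.1.le, hv.2.le, zero_le_one, le_rfl⟩
    obtain ⟨-, h2, -, -, h5⟩ := exit_clk_D2 hm one_pos hbh hok
    unfold BdQ.alErr BdQ.Bq
    rw [bcq_mX_eq i.Q hW hm cb ch, hW.B i.F.m hm _ _ cb ch v hv]
    unfold ckVx at h5
    linarith

end

end Claimed.Agent.R286
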