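import Claimed.Agent.R286.Fd.Contract
import Claimed.Agent.R286.Bud.C19Defs

/-!
# Row 286, N17 = (C19), `Bud/C19Row.lean`: THE ROW API      (architect helper180; every sorried leaf is FREE: prove IN PLACE, auxiliary lemmas just above it)

Everything the proof of MASTER uses of the hierarchies `b19Nu` (five feature blocks, arbitrary clock systems).   All leaves are SHORT consequences of `Fd/CTr`, `Fd/CSym`, `Fd/TrBs`, `Fd/ObsC`.
GROUPS   #A algebra of the kernels and of the clock systems (`b19_sp_sq .. b19_V_s`): pure computation.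
         #B the hierarchy (`b19_adm`, `b19_cov`, `b19_aff_*`): unfolding of `gcLs`, `gcAff`, `gcDK`, `trV`.
         #C positivity and linearity of `trNu` (`b19_tr_*`): from `tr_nu_eq_sum`, `tr_pr_nonneg`, `tr_pr_sum`.
         #D statistics (`b19_S_mem`, `b19_S_mono`, `b19_K_*`, `b19_site`, `b19_Gam_eq`).
         #E the five structural facts: `b19_deriv` (formula (2) without the diagonal), `b19_gron`, `b19_end1`, `b19_fact0`, `b19_flip`; corollaries `b19_gron_t`, `b19_gron_s`.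
         #F `b19_taylor3/2/1` (Mathlib only).
-/

set_option autoImplicit false

namespace Claimed.Agent.R286

open MeasureTheory Set Filter Topology

noncomputable section

variable {n : ℕ}

/-- a test which does not see the spins at the site `k0` -/
def B19Rest (k0 : Fin n) (g : (ℕ → SkCfg n) → ℝ) : Prop :=
  ∀ σ σ' : ℕ → SkCfg n, (∀ x k, k ≠ k0 → σ x k = σ' x k) → g σ = g σ'

theorem b19_row_eqns_cite : True := by
  have := @B19Rest.eq_1
  trivial

/-! ## #A algebra -/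


theorem b19_sp_sq (σ : SkCfg n) (k : Fin n) : skSp σ k ^ 2 = 1 := by
  rw [sq]; exact sk_d_sp_mul σ k

theorem b19_sp_abs (σ : SkCfg n) (k : Fin n) : |skSp σ k| = 1 := by
  have h := b19_sp_sq σ k
  have : |skSp σ k| ^ 2 = 1 := by rw [sq_abs]; exact h
  nlinarith [abs_nonneg (skSp σ k)]

theorem b19_Qm_eq (k0 : Fin n) (σ τ : SkCfg n) :
    b19Qm k0 σ τ = (∑ k ∈ Finset.univ.erase k0, skSp σ k * skSp τ k) / n := by
  unfold b19Qm skOv
  rw [← Finset.add_sum_erase Finset.univ (fun k => skSp σ k * skSp τ k) (Finset.mem_univ k0)]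
  ring

theorem b19_Qm_abs (hn : 0 < n) (k0 : Fin n) (σ τ : SkCfg n) : |b19Qm k0 σ τ| ≤ 1 := by
  rw [b19_Qm_eq, abs_div, Nat.abs_cast]
  have hn' : (0 : ℝ) < n := by exact_mod_cast hn
  rw [div_le_one hn']
  refine (Finset.abs_sum_le_sum_abs _ _).trans ?_
  have : ∀ k ∈ Finset.univ.erase k0, |skSp σ k * skSp τ k| ≤ 1 := fun k _ => by
    rw [abs_mul, b19_sp_abs, b19_sp_abs]; norm_num
  refine (Finset.sum_le_card_nsmul _ _ 1 this).trans ?_
  rw [nsmul_eq_mul, mul_one]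
  have : (Finset.univ.erase k0).card ≤ n := by
    refine (Finset.card_erase_le).trans ?_
    simp
  exact_mod_cast this

theorem b19_Qm_sub (hn : 0 < n) (k0 : Fin n) (σ τ : SkCfg n) : |b19Qm k0 σ τ - skOv σ τ| ≤ 1 / n := by
  unfold b19Qm
  have : skOv σ τ - skSp σ k0 * skSp τ k0 / n - skOv σ τ = -(skSp σ k0 * skSp τ k0 / n) := by ring
  rw [this, abs_neg, abs_div, abs_mul, b19_sp_abs, b19_sp_abs, Nat.abs_cast]
  norm_num

theorem b19_ov_self (hn : 0 < n) (σ : SkCfg n) : skOv σ σ = 1 := by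
  unfold skOv
  have hn' : (n : ℝ) ≠ 0 := by exact_mod_cast hn.ne'
  simp only [sk_d_sp_mul]
  simp [hn']

theorem b19_Qm_self (hn : 0 < n) (k0 : Fin n) (σ : SkCfg n) : b19Qm k0 σ σ = 1 - 1 / n := by
  unfold b19Qm
  rw [b19_ov_self hn, sk_d_sp_mul]

theorem b19_ker (hn : 0 < n) (k0 : Fin n) (r : Fin 5) (σ τ : SkCfg n) : gcKer (b19Feat k0) r σ τ = b19Ker k0 r σ τ := by
  have hn' : (0 : ℝ) < n := by exact_mod_cast hn
  have hs : Real.sqrt n * Real.sqrt n = n := Real.mul_self_sqrt hn'.le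
  have hs2 : Real.sqrt (2 * n) * Real.sqrt (2 * n) = 2 * n := Real.mul_self_sqrt (by positivity)
  have hsn : Real.sqrt n ≠ 0 := by positivity
  have hsn2 : Real.sqrt (2 * n) ≠ 0 := by positivity
  have hQ := b19_Qm_eq k0 σ τ
  have hE : ∀ f : Fin n → ℝ, ∑ i, (if i = k0 then 0 else f i) = ∑ k ∈ Finset.univ.erase k0, f k := by
    intro f
    rw [← Finset.add_sum_erase Finset.univ _ (Finset.mem_univ k0), if_pos rfl, zero_add]
    exact Finset.sum_congr rfl fun k hk => by rw [if_neg (Finset.ne_of_mem_erase hk)]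
  unfold gcKer
  rw [Fintype.sum_sum_type]
  fin_cases r
  · simp only [b19Feat, b19Ker, Fin.zero_eta, Fin.isValue, Matrix.cons_val_zero, Sum.elim_inl, Sum.elim_inr, mul_zero,
      Finset.sum_const_zero, add_zero]
    rw [Fintype.sum_prod_type]
    have h1 : ∀ x y : Fin n, (if x = k0 ∨ y = k0 then (0:ℝ) else skSp σ x * skSp σ y / Real.sqrt (2 * n)) *
        (if x = k0 ∨ y = k0 then 0 else skSp τ x * skSp τ y / Real.sqrt (2 * n))
        = (if x = k0 then 0 else skSp σ x * skSp τ x) * (if y = k0 then 0 else skSp σ y * skSp τ y) / (2 * n) := by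
      intro x y
      by_cases hx : x = k0
      · simp [hx]
      · by_cases hy : y = k0
        · simp [hy]
        · simp only [hx, hy, or_self, if_false]
          rw [div_mul_div_comm, hs2]; ring
    simp only [h1]
    simp only [← Finset.sum_div, ← Finset.mul_sum, ← Finset.sum_mul]
    rw [hE, hQ]
    field_simp
  · simp only [b19Feat, b19Ker, Fin.mk_one, Fin.isValue, Matrix.cons_val_one, Matrix.cons_val_zero, Sum.elim_inl, Sum.elim_inr, mul_zero,
      Finset.sum_const_zero, zero_add]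
    have h1 : ∀ x : Fin n, (if x = k0 then (0:ℝ) else skSp σ x) * (if x = k0 then 0 else skSp τ x) = if x = k0 then 0 else skSp σ x * skSp τ x := by
      intro x; by_cases hx : x = k0 <;> simp [hx]
    simp only [h1]
    rw [hE, hQ]
    field_simp
  · simp only [b19Feat, b19Ker, Fin.reduceFinMk, Fin.isValue, Matrix.cons_val, Sum.elim_inl, Sum.elim_inr, mul_zero,
      Finset.sum_const_zero, zero_add]
    have h1 : ∀ x : Fin n, (if x = k0 then skSp σ k0 else (0:ℝ)) * (if x = k0 then skSp τ k0 else 0) = if x = k0 then skSp σ k0 * skSp τ k0 else 0 := by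
      intro x; by_cases hx : x = k0 <;> simp [hx]
    simp only [h1]
    simp
  · simp only [b19Feat, b19Ker, Fin.reduceFinMk, Fin.isValue, Matrix.cons_val, Sum.elim_inl, Sum.elim_inr, mul_zero,
      Finset.sum_const_zero, zero_add]
    have h1 : ∀ x : Fin n, (if x = k0 then (0:ℝ) else skSp σ k0 * skSp σ x / Real.sqrt n) * (if x = k0 then 0 else skSp τ k0 * skSp τ x / Real.sqrt n)
        = if x = k0 then 0 else skSp σ k0 * skSp τ k0 / n * (skSp σ x * skSp τ x) := by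
      intro x; by_cases hx : x = k0
      · simp [hx]
      · simp only [hx, if_false]
        rw [div_mul_div_comm, hs]; ring
    simp only [h1]
    rw [hE, hQ, ← Finset.mul_sum]
    ring
  · simp only [b19Feat, b19Ker, Fin.reduceFinMk, Fin.isValue, Matrix.cons_val, Sum.elim_inl, Sum.elim_inr, mul_zero,
      Finset.sum_const_zero, zero_add]
    simp


theorem b19_ker_sk (hn : 0 < n) (k0 : Fin n) (db dh : ℝ) (σ τ : SkCfg n) :
    n * (db * skOv σ τ ^ 2 / 2 + dh * skOv σ τ)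
      = db * b19Ker k0 0 σ τ + dh * b19Ker k0 1 σ τ + dh * b19Ker k0 2 σ τ + db * b19Ker k0 3 σ τ + db / (2 * n) * b19Ker k0 4 σ τ := by
  have hn' : (n : ℝ) ≠ 0 := by exact_mod_cast hn.ne'
  have h1 : skOv σ τ = b19Qm k0 σ τ + skSp σ k0 * skSp τ k0 / n := by unfold b19Qm; ring
  have h2 : (skSp σ k0 * skSp τ k0) ^ 2 = 1 := by
    rw [mul_pow, sq, sq, sk_d_sp_mul, sk_d_sp_mul, one_mul]
  simp only [b19Ker, Fin.isValue, Matrix.cons_val_zero, Matrix.cons_val_one, Matrix.cons_val]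
  rw [h1]
  generalize b19Qm k0 σ τ = Q at *
  generalize skSp σ k0 * skSp τ k0 = s at *
  field_simp
  have : s ^ 2 = 1 := h2
  linear_combination db * this

theorem b19_ker_diag (hn : 0 < n) (k0 : Fin n) (r : Fin 5) (σ σ' : SkCfg n) : b19Ker k0 r σ σ = b19Ker k0 r σ' σ' := by
  unfold b19Ker
  rw [b19_Qm_self hn, b19_Qm_self hn, sk_d_sp_mul, sk_d_sp_mul]

theorem b19_Ct_seg (a : ℝ) (P : SkStp) (t : ℝ) : b19Ct n a P t = b19Seg (b19Ct n a P 0) (b19Ct n a P 1) t := by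
  funext j r
  unfold b19Seg b19Ct b19C
  fin_cases r <;> simp <;> ring

theorem b19_C_seg (a : ℝ) (P : SkStp) (H : ℕ) (s t : ℝ) :
    b19C n a P (b19Lam H s) t = b19Seg (b19C n a P (b19Lam H 0) t) (b19Ct n a P t) s := by
  funext j r
  unfold b19Seg b19Ct b19C b19Lam
  by_cases hj : j < H
  · fin_cases r <;> simp [hj]
  · fin_cases r <;> simp [hj]

theorem b19_V_t (k0 : Fin n) (a : ℝ) (P : SkStp) {r : ℕ} (hr : r ≤ P.length) (σ σ' : SkCfg n) :
    b19V k0 (fun j x => b19Ct n a P 1 j x - b19Ct n a P 0 j x) P.length r σ σ'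
      = skSp σ k0 * skSp σ' k0 * (skCumB P r * (b19Qm k0 σ σ' - obS n a P 0 r)) := by
  unfold b19V
  rw [min_eq_left hr, Fin.sum_univ_five]
  simp only [b19Ct, b19C, b19Ker, b19K, Fin.isValue, Matrix.cons_val_zero, Matrix.cons_val_one, Matrix.cons_val]
  have h0 : skCumB P 0 = 0 := by simp [skCumB]
  have h1 : skCumH P 0 = 0 := by simp [skCumH]
  rw [h0, h1]
  ring

theorem b19_V_s (k0 : Fin n) (a : ℝ) (P : SkStp) (H : ℕ) (t : ℝ) {r : ℕ} (hr : r ≤ P.length) (σ σ' : SkCfg n) :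
    b19V k0 (fun j x => b19Ct n a P t j x - b19C n a P (b19Lam H 0) t j x) P.length r σ σ'
      = if r < H then skSp σ k0 * skSp σ' k0 * (t * skCumB P r * b19Qm k0 σ σ' + t * skCumH P r + (1 - t) * b19K n a P r) else 0 := by
  unfold b19V
  rw [min_eq_left hr, Fin.sum_univ_five]
  simp only [b19Ct, b19C, b19Ker, b19K, b19Lam, Fin.isValue, Matrix.cons_val_zero, Matrix.cons_val_one, Matrix.cons_val]
  have h0 : skCumB P 0 = 0 := by simp [skCumB]
  have h1 : skCumH P 0 = 0 := by simp [skCumH]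
  rw [h0, h1]
  by_cases hrH : r < H
  · simp only [hrH, if_true]
    ring
  · simp only [hrH, if_false]
    ring

/-! ## #B the hierarchy -/

theorem b19_base_ok (n : ℕ) {a : ℝ} (ha : 0 < a) : (skBase n a).Ok := sk_sy_base_ok n ha


theorem b19_ms_lt (a : ℝ) {P : SkStp} {j : ℕ} (hj : j < P.length) : skMs a P j = (P[j]).m := by
  unfold skMs
  rw [List.getD_eq_getElem _ _ (by simpa using hj)]
  simp

theorem b19_ms_ge (a : ℝ) {P : SkStp} {j : ℕ} (hj : P.length ≤ j) : skMs a P j = a := by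
  unfold skMs
  rw [List.getD_eq_default _ _ (by simpa using hj)]

theorem b19_ms_mem {a : ℝ} (ha : 0 < a) {P : SkStp} (hP : SkAdm a P) (j : ℕ) : 0 ≤ skMs a P j ∧ skMs a P j ≤ a := by
  by_cases hj : j < P.length
  · rw [b19_ms_lt a hj]
    have := hP.2 _ (List.getElem_mem hj)
    exact ⟨this.1, this.2.1⟩
  · rw [b19_ms_ge a (not_lt.1 hj)]
    exact ⟨ha.le, le_rfl⟩

theorem b19_ms_mono {a : ℝ} (ha : 0 < a) {P : SkStp} (hP : SkAdm a P) {j k : ℕ} (hjk : j ≤ k) : skMs a P j ≤ skMs a P k := by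
  by_cases hk : k < P.length
  · rcases Nat.eq_or_lt_of_le hjk with rfl | hlt
    · exact le_rfl
    · rw [b19_ms_lt a hk, b19_ms_lt a (hlt.trans hk)]
      exact List.pairwise_iff_getElem.1 hP.1 j k _ _ hlt
  · rw [b19_ms_ge a (not_lt.1 hk)]
    exact (b19_ms_mem ha hP j).2

theorem b19_adm (k0 : Fin n) {a : ℝ} (ha : 0 < a) {P : SkStp} (hP : SkAdm a P) (c : ℕ → Fin 5 → ℝ) :
    GhAdm (skBase n a) 0 (gcLs (b19Feat k0) (b19Hs a P c)) ∧ (gcLs (b19Feat k0) (b19Hs a P c)).length = P.length ∧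
      ∀ j, trMs (skBase n a) (gcLs (b19Feat k0) (b19Hs a P c)) j = skMs a P j := by
  refine ⟨⟨?_, ?_⟩, by simp [gcLs, b19Hs], ?_⟩
  · unfold gcLs b19Hs
    rw [List.pairwise_map, List.pairwise_map]
    refine List.Pairwise.imp ?_ List.pairwise_lt_range
    intro j k hjk
    exact b19_ms_mono ha hP hjk.le
  · intro l hl
    unfold gcLs b19Hs at hl
    rw [List.map_map] at hl
    obtain ⟨j, _, rfl⟩ := List.mem_map.1 hl
    exact b19_ms_mem ha hP j
  · intro j
    unfold trMs gcLs b19Hs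
    by_cases hj : j < P.length
    · simp [hj, gcLv]
    · simp only [List.map_map]
      rw [List.getElem?_eq_none (by simpa using not_lt.1 hj)]
      simp only [Option.map_none, Option.getD_none]
      rw [b19_ms_ge a (not_lt.1 hj)]
      rfl

theorem b19_sk_ms (n : ℕ) (a : ℝ) (P : SkStp) (j : ℕ) : trMs (skBase n a) (skLvs n P) j = skMs a P j := by
  unfold trMs skLvs
  by_cases hj : j < P.length
  · rw [b19_ms_lt a hj]
    simp [hj, SkInc.lv, ghLvF]
  · rw [List.getElem?_eq_none (by simpa using not_lt.1 hj)]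
    simp only [Option.map_none, Option.getD_none]
    rw [b19_ms_ge a (not_lt.1 hj)]
    rfl

theorem b19_isMs {a : ℝ} (ha : 0 < a) {P : SkStp} (hP : SkAdm a P) : IsMs P.length (skMs a P) ∧ skMs a P P.length = a :=
  ⟨⟨fun j => (b19_ms_mem ha hP j).1, fun _ _ hij _ => b19_ms_mono ha hP hij⟩, b19_ms_ge a le_rfl⟩

theorem b19_gap (a : ℝ) (P : SkStp) (j : ℕ) : skMs a P j - trPm (skMs a P) j = skGap a P j := by
  unfold skGap trPm
  rfl

theorem b19_gap_nonneg {a : ℝ} (ha : 0 < a) {P : SkStp} (hP : SkAdm a P) (j : ℕ) : 0 ≤ skGap a P j := by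
  unfold skGap
  split_ifs with h
  · have := (b19_ms_mem ha hP j).1; linarith
  · have := b19_ms_mono ha hP (Nat.sub_le j 1); linarith

theorem b19_gap_sum_le (a : ℝ) (P : SkStp) (k : ℕ) : ∑ j ∈ Finset.range (k + 1), skGap a P j = skMs a P k := by
  induction k with
  | zero => simp [skGap]
  | succ k ih =>
    rw [Finset.sum_range_succ, ih]
    simp [skGap]

theorem b19_gap_sum {a : ℝ} (P : SkStp) : ∑ j ∈ Finset.range (P.length + 1), skGap a P j = a := by
  rw [b19_gap_sum_le, b19_ms_ge a le_rfl]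

theorem b19_cov (hn : 0 < n) (k0 : Fin n) (a : ℝ) {P : SkStp} {c : ℕ → Fin 5 → ℝ} (hc : B19Mono P.length c) {j : ℕ}
    (hj : j < (gcLs (b19Feat k0) (b19Hs a P c)).length) (σ τ : SkCfg n) :
    ((gcLs (b19Feat k0) (b19Hs a P c))[j]).cov σ τ = ∑ r, (c (j + 1) r - c j r) * b19Ker k0 r σ τ := by
  have hj' : j < P.length := by simpa [gcLs, b19Hs] using hj
  have e : (gcLs (b19Feat k0) (b19Hs a P c))[j] = gcLv (b19Feat k0) (skMs a P j) (fun r => c (j + 1) r - c j r) := by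
    simp [gcLs, b19Hs]
  rw [e, gc_cov _ _ _ (fun r => sub_nonneg.2 (hc j hj' r))]
  exact Finset.sum_congr rfl fun r _ => by rw [b19_ker hn]

theorem b19_aff_adm {a : ℝ} (ha : 0 < a) {P : SkStp} (hP : SkAdm a P) {c0 c1 : ℕ → Fin 5 → ℝ} (h0 : B19Mono P.length c0)
    (h1 : B19Mono P.length c1) : GcAffAdm a (b19Aff a P c0 c1) ∧ (b19Aff a P c0 c1).length = P.length ∧
      ∀ j, gcMs a (b19Aff a P c0 c1) j = skMs a P j := by
  refine ⟨⟨?_, ?_⟩, by simp [b19Aff], ?_⟩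
  · unfold b19Aff
    rw [List.map_map, List.pairwise_map]
    refine List.Pairwise.imp ?_ List.pairwise_lt_range
    intro j k hjk
    exact b19_ms_mono ha hP hjk.le
  · intro h hh
    unfold b19Aff at hh
    obtain ⟨j, hj, rfl⟩ := List.mem_map.1 hh
    have hj' : j < P.length := List.mem_range.1 hj
    refine ⟨b19_ms_mem ha hP j, fun r => ⟨sub_nonneg.2 (h0 j hj' r), ?_⟩⟩
    have := h1 j hj' r
    simp only
    linarith
  · intro j
    unfold gcMs b19Aff
    by_cases hj : j < P.length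
    · simp [hj]
    · rw [List.getElem?_eq_none (by simpa using not_lt.1 hj)]
      simp only [Option.map_none, Option.getD_none]
      rw [b19_ms_ge a (not_lt.1 hj)]

theorem b19_aff_seg (a : ℝ) (P : SkStp) (c0 c1 : ℕ → Fin 5 → ℝ) (θ : ℝ) :
    gcAff (b19Aff a P c0 c1) θ = b19Hs a P (b19Seg c0 c1 θ) := by
  unfold gcAff b19Aff b19Hs b19Seg
  rw [List.map_map]
  refine List.map_congr_left fun j _ => ?_
  simp only [Function.comp]
  congr 1
  funext r
  ring

theorem b19_aff_V (hn : 0 < n) (k0 : Fin n) (a : ℝ) (P : SkStp) (c0 c1 : ℕ → Fin 5 → ℝ) (t : ℕ) (σ σ' : SkCfg n) :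
    trV (gcDK (b19Feat k0) (b19Aff a P c0 c1)) P.length t σ σ' = b19V k0 (fun j r => c1 j r - c0 j r) P.length t σ σ' := by
  unfold trV b19V
  have key : ∀ m, m ≤ P.length → ∑ j ∈ Finset.range m, gcDK (b19Feat k0) (b19Aff a P c0 c1) j σ σ'
      = ∑ r, ((c1 m r - c0 m r) - (c1 0 r - c0 0 r)) * b19Ker k0 r σ σ' := by
    intro m
    induction m with
    | zero => intro _; simp
    | succ m ih =>
      intro hm
      rw [Finset.sum_range_succ, ih (by omega)]
      unfold gcDK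
      rw [← Finset.sum_add_distrib]
      refine Finset.sum_congr rfl fun r _ => ?_
      have hm' : m < P.length := by omega
      rw [b19_ker hn]
      simp only [b19Aff, List.getElem?_map, List.getElem?_range hm', Option.map_some, Option.getD_some]
      ring
  exact key _ (min_le_right _ _)

theorem b19_seg_mono {N : ℕ} {c0 c1 : ℕ → Fin 5 → ℝ} (h0 : B19Mono N c0) (h1 : B19Mono N c1) {θ : ℝ} (hθ : θ ∈ Icc (0 : ℝ) 1) :
    B19Mono N (b19Seg c0 c1 θ) := by
  intro j hj r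
  unfold b19Seg
  have a0 := h0 j hj r
  have a1 := h1 j hj r
  nlinarith [hθ.1, hθ.2, mul_nonneg hθ.1 (sub_nonneg.2 a1), mul_nonneg (sub_nonneg.2 hθ.2) (sub_nonneg.2 a0)]

/-! ## #C positivity and linearity of `trNu` (generic) -/

section generic
variable {S ι : Type} [Fintype S] [Fintype ι] [Inhabited S]

theorem b19_tr_add {B : GhB S} (hB : B.Ok) {ls : List (GhLv S ι)} (hls : GhAdm B 0 ls) (q : ℕ) (τ : ℕ → ℕ → ℕ) (z : S → ℝ)
    (f g : (ℕ → S) → ℝ) : trNu B ls q τ z (fun σ => f σ + g σ) = trNu B ls q τ z f + trNu B ls q τ z g := by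
  classical
  rw [tr_nu_eq_sum hB hls, tr_nu_eq_sum hB hls q τ z f, tr_nu_eq_sum hB hls q τ z g, ← Finset.sum_add_distrib]
  exact Finset.sum_congr rfl fun σ _ => by ring

theorem b19_tr_smul {B : GhB S} (hB : B.Ok) {ls : List (GhLv S ι)} (hls : GhAdm B 0 ls) (q : ℕ) (τ : ℕ → ℕ → ℕ) (z : S → ℝ)
    (c : ℝ) (f : (ℕ → S) → ℝ) : trNu B ls q τ z (fun σ => c * f σ) = c * trNu B ls q τ z f := by
  classical
  rw [tr_nu_eq_sum hB hls, tr_nu_eq_sum hB hls q τ z f, Finset.mul_sum]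
  exact Finset.sum_congr rfl fun σ _ => by ring

theorem b19_tr_sub {B : GhB S} (hB : B.Ok) {ls : List (GhLv S ι)} (hls : GhAdm B 0 ls) (q : ℕ) (τ : ℕ → ℕ → ℕ) (z : S → ℝ)
    (f g : (ℕ → S) → ℝ) : trNu B ls q τ z (fun σ => f σ - g σ) = trNu B ls q τ z f - trNu B ls q τ z g := by
  classical
  rw [tr_nu_eq_sum hB hls, tr_nu_eq_sum hB hls q τ z f, tr_nu_eq_sum hB hls q τ z g, ← Finset.sum_sub_distrib]
  exact Finset.sum_congr rfl fun σ _ => by ring

theorem b19_tr_const {B : GhB S} (hB : B.Ok) {ls : List (GhLv S ι)} (hls : GhAdm B 0 ls) (q : ℕ) (τ : ℕ → ℕ → ℕ) (z : S → ℝ)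
    (c : ℝ) : trNu B ls q τ z (fun _ => c) = c := by
  classical
  rw [tr_nu_eq_sum hB hls, ← Finset.sum_mul, tr_pr_sum hB hls, one_mul]

theorem b19_tr_mono {B : GhB S} (hB : B.Ok) {ls : List (GhLv S ι)} (hls : GhAdm B 0 ls) (q : ℕ) (τ : ℕ → ℕ → ℕ) (z : S → ℝ)
    {f g : (ℕ → S) → ℝ} (h : ∀ σ, f σ ≤ g σ) : trNu B ls q τ z f ≤ trNu B ls q τ z g := by
  classical
  rw [tr_nu_eq_sum hB hls, tr_nu_eq_sum hB hls q τ z g]
  exact Finset.sum_le_sum fun σ _ => mul_le_mul_of_nonneg_left (h _) (tr_pr_nonneg hB hls q τ z σ)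

theorem b19_tr_nonneg {B : GhB S} (hB : B.Ok) {ls : List (GhLv S ι)} (hls : GhAdm B 0 ls) (q : ℕ) (τ : ℕ → ℕ → ℕ) (z : S → ℝ)
    {f : (ℕ → S) → ℝ} (h : ∀ σ, 0 ≤ f σ) : 0 ≤ trNu B ls q τ z f := by
  have := b19_tr_mono hB hls q τ z (f := fun _ => 0) (g := f) h
  rwa [b19_tr_const hB hls] at this

theorem b19_tr_abs {B : GhB S} (hB : B.Ok) {ls : List (GhLv S ι)} (hls : GhAdm B 0 ls) (q : ℕ) (τ : ℕ → ℕ → ℕ) (z : S → ℝ)
    (f : (ℕ → S) → ℝ) : |trNu B ls q τ z f| ≤ trNu B ls q τ z fun σ => |f σ| := by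
  rw [abs_le]
  constructor
  · have := b19_tr_mono hB hls q τ z (f := fun σ => (-1) * |f σ|) (g := f) fun σ => by
      have := neg_abs_le (f σ); linarith
    rw [b19_tr_smul hB hls] at this
    linarith
  · exact b19_tr_mono hB hls q τ z fun σ => le_abs_self _

theorem b19_tr_le_const {B : GhB S} (hB : B.Ok) {ls : List (GhLv S ι)} (hls : GhAdm B 0 ls) (q : ℕ) (τ : ℕ → ℕ → ℕ) (z : S → ℝ)
    {f : (ℕ → S) → ℝ} {M : ℝ} (h : ∀ σ, |f σ| ≤ M) : |trNu B ls q τ z f| ≤ M := by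
  refine (b19_tr_abs hB hls q τ z f).trans ?_
  have := b19_tr_mono hB hls q τ z (f := fun σ => |f σ|) (g := fun _ => M) h
  rwa [b19_tr_const hB hls] at this

theorem b19_tr_sum {B : GhB S} (hB : B.Ok) {ls : List (GhLv S ι)} (hls : GhAdm B 0 ls) (q : ℕ) (τ : ℕ → ℕ → ℕ) (z : S → ℝ)
    {α : Type} (s : Finset α) (f : α → (ℕ → S) → ℝ) :
    trNu B ls q τ z (fun σ => ∑ x ∈ s, f x σ) = ∑ x ∈ s, trNu B ls q τ z (f x) := by
  classical
  induction s using Finset.induction_on with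
  | empty => simpa using b19_tr_const hB hls q τ z 0
  | insert x s hx ih =>
    simp only [Finset.sum_insert hx]
    rw [b19_tr_add hB hls, ih]

/-- Cauchy-Schwarz -/
theorem b19_tr_cs {B : GhB S} (hB : B.Ok) {ls : List (GhLv S ι)} (hls : GhAdm B 0 ls) (q : ℕ) (τ : ℕ → ℕ → ℕ) (z : S → ℝ)
    (f g : (ℕ → S) → ℝ) :
    |trNu B ls q τ z fun σ => f σ * g σ| ≤ Real.sqrt (trNu B ls q τ z fun σ => f σ ^ 2) * Real.sqrt (trNu B ls q τ z fun σ => g σ ^ 2) := by
  have h := tr_nu_holder hB hls q τ z f g 2 2 Real.HolderConjugate.two_two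
  have e : ∀ x : ℝ, |x| ^ (2 : ℝ) = x ^ 2 := fun x => by rw [Real.rpow_two, sq_abs]
  simp only [e] at h
  rw [Real.sqrt_eq_rpow, Real.sqrt_eq_rpow]
  exact h

/-- Hoelder with three factors -/
theorem b19_tr_holder3 {B : GhB S} (hB : B.Ok) {ls : List (GhLv S ι)} (hls : GhAdm B 0 ls) (q : ℕ) (τ : ℕ → ℕ → ℕ) (z : S → ℝ)
    (f g h : (ℕ → S) → ℝ) {p1 p2 p3 : ℝ} (h1 : 1 < p1) (h2 : 1 < p2) (h3 : 1 < p3) (hs : 1 / p1 + 1 / p2 + 1 / p3 = 1) :
    |trNu B ls q τ z fun σ => f σ * g σ * h σ|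
      ≤ (trNu B ls q τ z fun σ => |f σ| ^ p1) ^ (1 / p1) * (trNu B ls q τ z fun σ => |g σ| ^ p2) ^ (1 / p2)
        * (trNu B ls q τ z fun σ => |h σ| ^ p3) ^ (1 / p3) := by
  have p1pos : 0 < p1 := by linarith
  have p2pos : 0 < p2 := by linarith
  have p3pos : 0 < p3 := by linarith
  obtain ⟨s, hsdef⟩ : ∃ s : ℝ, s = p1 / (p1 - 1) := ⟨_, rfl⟩
  have hc1 : p1.HolderConjugate s := by rw [hsdef]; exact Real.HolderConjugate.conjExponent h1
  have spos : 0 < s := hc1.symm.pos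
  have hsinv : 1 / s = 1 / p2 + 1 / p3 := by
    have := hc1.inv_add_inv_eq_one
    simp only [one_div] at hs ⊢
    linarith
  have hc2 : (p2 / s).HolderConjugate (p3 / s) := by
    rw [Real.holderConjugate_iff]
    constructor
    · rw [lt_div_iff₀ spos, one_mul]
      have : 1 / p2 < 1 / s := by rw [hsinv]; have : 0 < 1 / p3 := by positivity
                                  linarith
      exact (one_div_lt_one_div p2pos spos).1 this
    · rw [inv_div, inv_div]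
      have : s / p2 + s / p3 = s * (1 / p2 + 1 / p3) := by ring
      rw [this, ← hsinv]
      field_simp
  have A := tr_nu_holder hB hls q τ z f (fun σ => g σ * h σ) p1 s hc1
  have Bq := tr_nu_holder hB hls q τ z (fun σ => |g σ| ^ s) (fun σ => |h σ| ^ s) (p2 / s) (p3 / s) hc2
  have e1 : ∀ x : ℝ, |(|x| ^ s)| ^ (p2 / s) = |x| ^ p2 := fun x => by
    rw [abs_of_nonneg (Real.rpow_nonneg (abs_nonneg _) _), ← Real.rpow_mul (abs_nonneg _)]
    congr 1; field_simp
  have e2 : ∀ x : ℝ, |(|x| ^ s)| ^ (p3 / s) = |x| ^ p3 := fun x => by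
    rw [abs_of_nonneg (Real.rpow_nonneg (abs_nonneg _) _), ← Real.rpow_mul (abs_nonneg _)]
    congr 1; field_simp
  simp only [e1, e2] at Bq
  have e3 : (fun σ => |g σ * h σ| ^ s) = fun σ => |g σ| ^ s * |h σ| ^ s := by
    funext σ; rw [abs_mul, Real.mul_rpow (abs_nonneg _) (abs_nonneg _)]
  rw [e3] at A
  have e4 : (fun σ => f σ * g σ * h σ) = fun σ => f σ * (g σ * h σ) := by funext σ; ring
  rw [e4]
  refine A.trans ?_
  rw [mul_assoc]
  have n1 : 0 ≤ trNu B ls q τ z fun σ => |f σ| ^ p1 := b19_tr_nonneg hB hls q τ z fun σ => Real.rpow_nonneg (abs_nonneg _) _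
  have n2 : 0 ≤ trNu B ls q τ z fun σ => |g σ| ^ p2 := b19_tr_nonneg hB hls q τ z fun σ => Real.rpow_nonneg (abs_nonneg _) _
  have n3 : 0 ≤ trNu B ls q τ z fun σ => |h σ| ^ p3 := b19_tr_nonneg hB hls q τ z fun σ => Real.rpow_nonneg (abs_nonneg _) _
  have n4 : 0 ≤ trNu B ls q τ z fun σ => |g σ| ^ s * |h σ| ^ s :=
    b19_tr_nonneg hB hls q τ z fun σ => mul_nonneg (Real.rpow_nonneg (abs_nonneg _) _) (Real.rpow_nonneg (abs_nonneg _) _)
  refine mul_le_mul_of_nonneg_left ?_ (Real.rpow_nonneg n1 _)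
  have Bq' := (le_abs_self _).trans Bq
  have := Real.rpow_le_rpow n4 Bq' (by positivity : 0 ≤ 1 / s)
  refine this.trans (le_of_eq ?_)
  rw [Real.mul_rpow (Real.rpow_nonneg n2 _) (Real.rpow_nonneg n3 _), ← Real.rpow_mul n2, ← Real.rpow_mul n3]
  congr 2 <;> field_simp

end generic

/-! ## #D statistics -/

/-- `0 ≤ S_j ≤ 1` -/
theorem b19_S_mem (hn : 0 < n) {a : ℝ} (ha : 0 < a) {P : SkStp} (hP : SkAdm a P) {j : ℕ} (hj : j ≤ P.length) :
    obS n a P 0 j ∈ Icc (0 : ℝ) 1 := by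
  exact fd_S_range hn ha P hP 0 j

/-- `S` is nondecreasing in the cut (martingale `X_j`; or `ob_S_two` + Markov at the cut + Jensen) -/
theorem b19_S_mono (hn : 0 < n) {a : ℝ} (ha : 0 < a) {P : SkStp} (hP : SkAdm a P) {j k : ℕ} (hjk : j ≤ k) (hk : k ≤ P.length) :
    obS n a P 0 j ≤ obS n a P 0 k := by
  exact fd_S_mono hn ha P hP 0 hjk

/-- prefix sums of a nonnegative list are nondecreasing -/
theorem b19_take_sum_mono (l : List ℝ) (h : ∀ x ∈ l, 0 ≤ x) {j k : ℕ} (hjk : j ≤ k) : (l.take j).sum ≤ (l.take k).sum := by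
  obtain ⟨d, rfl⟩ := Nat.exists_eq_add_of_le hjk
  rw [List.take_add, List.sum_append]
  have : 0 ≤ ((l.drop j).take d).sum := List.sum_nonneg fun x hx => h x (List.mem_of_mem_drop (List.mem_of_mem_take hx))
  linarith

theorem b19_cum_zero (P : SkStp) : skCumB P 0 = 0 ∧ skCumH P 0 = 0 := by
  simp [skCumB, skCumH]

theorem b19_cum_succ {P : SkStp} {j : ℕ} (hj : j < P.length) :
    skCumB P (j + 1) = skCumB P j + (P[j]).db ∧ skCumH P (j + 1) = skCumH P j + (P[j]).dh := by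
  unfold skCumB skCumH
  rw [List.map_take, List.map_take, List.map_take, List.map_take, List.sum_take_succ _ _ (by simpa using hj),
    List.sum_take_succ _ _ (by simpa using hj)]
  simp

theorem b19_cum_ge {P : SkStp} {j : ℕ} (hj : P.length ≤ j) : skCumB P j = skCumB P P.length ∧ skCumH P j = skCumH P P.length := by
  unfold skCumB skCumH
  rw [List.take_of_length_le hj, List.take_length]
  exact ⟨rfl, rfl⟩

theorem b19_cum_step {a : ℝ} {P : SkStp} (hP : SkAdm a P) (j : ℕ) : skCumB P j ≤ skCumB P (j + 1) ∧ skCumH P j ≤ skCumH P (j + 1) := by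
  by_cases hj : j < P.length
  · have := hP.2 _ (List.getElem_mem hj)
    rw [(b19_cum_succ hj).1, (b19_cum_succ hj).2]
    exact ⟨by linarith [this.2.2.1], by linarith [this.2.2.2]⟩
  · rw [(b19_cum_ge (not_lt.1 hj)).1, (b19_cum_ge (not_lt.1 hj)).2, (b19_cum_ge (j := j + 1) (by omega)).1,
      (b19_cum_ge (j := j + 1) (by omega)).2]
    exact ⟨le_rfl, le_rfl⟩

theorem b19_cumB_mono {a : ℝ} {P : SkStp} (hP : SkAdm a P) {j k : ℕ} (hjk : j ≤ k) : skCumB P j ≤ skCumB P k ∧ skCumH P j ≤ skCumH P k := by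
  induction k, hjk using Nat.le_induction with
  | base => exact ⟨le_rfl, le_rfl⟩
  | succ k _ ih => exact ⟨ih.1.trans (b19_cum_step hP k).1, ih.2.trans (b19_cum_step hP k).2⟩

theorem b19_cum_nonneg {a : ℝ} {P : SkStp} (hP : SkAdm a P) (j : ℕ) : 0 ≤ skCumB P j ∧ 0 ≤ skCumH P j := by
  have := b19_cumB_mono hP (Nat.zero_le j)
  rwa [(b19_cum_zero P).1, (b19_cum_zero P).2] at this

theorem b19_Ct1_mono (n : ℕ) {a : ℝ} {P : SkStp} (hP : SkAdm a P) : B19Mono P.length (b19Ct n a P 1) := by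
  intro j _ r
  have h := b19_cum_step hP j
  have hn : (0 : ℝ) ≤ 2 * n := by positivity
  unfold b19Ct b19C
  fin_cases r
  · simpa using h.1
  · simpa using h.2
  · simpa using h.2
  · simpa using h.1
  · simpa using div_le_div_of_nonneg_right h.1 hn

theorem b19_K_mono (hn : 0 < n) {a : ℝ} (ha : 0 < a) {P : SkStp} (hP : SkAdm a P) {j k : ℕ} (hjk : j ≤ k) (hk : k ≤ P.length) :
    b19K n a P j ≤ b19K n a P k := by
  unfold b19K
  have h1 := b19_cumB_mono hP hjk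
  have h2 := fd_S_mono hn ha P hP 0 hjk
  have h3 := (fd_S_range hn ha P hP 0 j).1
  have h4 : 0 ≤ skCumB P j := by
    have := (b19_cumB_mono hP (Nat.zero_le j)).1
    rwa [(b19_cum_zero P).1] at this
  have h5 : skCumB P j * obS n a P 0 j ≤ skCumB P k * obS n a P 0 k :=
    mul_le_mul h1.1 h2 h3 (h4.trans h1.1)
  linarith [h1.2]

theorem b19_K_zero (n : ℕ) (a : ℝ) (P : SkStp) : b19K n a P 0 = 0 := by
  simp [b19K, skCumB, skCumH]

theorem b19_K_nn0 (hn : 0 < n) {a : ℝ} (ha : 0 < a) {P : SkStp} (hP : SkAdm a P) {j : ℕ} (hj : j ≤ P.length) :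
    0 ≤ b19K n a P j := by
  have := b19_K_mono hn ha hP (Nat.zero_le j) hj
  rwa [b19_K_zero] at this

/-- the row clocks with a nondecreasing switch in `[0,1]` are nondecreasing -/
theorem b19_C_mono_gen (hn : 0 < n) {a : ℝ} (ha : 0 < a) {P : SkStp} (hP : SkAdm a P) {lam : ℕ → ℝ} (hl0 : ∀ j, 0 ≤ lam j)
    (hl : ∀ j, lam j ≤ lam (j + 1)) {t : ℝ} (ht : t ∈ Icc (0 : ℝ) 1) : B19Mono P.length (b19C n a P lam t) := by
  intro j hj r
  have hc := b19_cumB_mono hP (Nat.le_succ j)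
  have hc0 := b19_cum_nonneg hP j
  have hK := b19_K_mono hn ha hP (Nat.le_succ j) hj
  have hK0 := b19_K_nn0 hn ha hP hj.le
  have ht1 : 0 ≤ 1 - t := by linarith [ht.2]
  have hn' : (0 : ℝ) < 2 * n := by positivity
  fin_cases r
  · exact hc.1
  · exact hc.2
  · show lam j * ((1 - t) * b19K n a P j + t * skCumH P j) ≤ lam (j + 1) * ((1 - t) * b19K n a P (j + 1) + t * skCumH P (j + 1))
    refine mul_le_mul (hl j) ?_ ?_ (hl0 _)
    · exact add_le_add (mul_le_mul_of_nonneg_left hK ht1) (mul_le_mul_of_nonneg_left hc.2 ht.1)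
    · exact add_nonneg (mul_nonneg ht1 hK0) (mul_nonneg ht.1 hc0.2)
  · show lam j * (t * skCumB P j) ≤ lam (j + 1) * (t * skCumB P (j + 1))
    exact mul_le_mul (hl j) (mul_le_mul_of_nonneg_left hc.1 ht.1) (mul_nonneg ht.1 hc0.1) (hl0 _)
  · show skCumB P j / (2 * n) ≤ skCumB P (j + 1) / (2 * n)
    exact div_le_div_of_nonneg_right hc.1 hn'.le

/-- the row clocks are nondecreasing -/
theorem b19_C_mono (hn : 0 < n) {a : ℝ} (ha : 0 < a) {P : SkStp} (hP : SkAdm a P) (H : ℕ) {s t : ℝ} (hs : s ∈ Icc (0 : ℝ) 1)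
    (ht : t ∈ Icc (0 : ℝ) 1) : B19Mono P.length (b19C n a P (b19Lam H s) t) ∧ B19Mono P.length (b19Ct n a P t) := by
  constructor
  · refine b19_C_mono_gen hn ha hP (fun j => ?_) (fun j => ?_) ht
    · unfold b19Lam; split_ifs
      · exact hs.1
      · norm_num
    · unfold b19Lam; split_ifs
      · exact le_rfl
      · exact hs.2
      · omega
      · exact le_rfl
  · exact b19_C_mono_gen hn ha hP (fun _ => zero_le_one) (fun _ => le_rfl) ht

/-- the scalar path is admissible; its length, masses and cumulative clock -/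
theorem b19_KP_adm (hn : 0 < n) {a : ℝ} (ha : 0 < a) {P : SkStp} (hP : SkAdm a P) :
    SkAdm a (b19KP n a P) ∧ (b19KP n a P).length = P.length ∧ (∀ j, skMs a (b19KP n a P) j = skMs a P j) ∧
      (∀ j, j ≤ P.length → skCumH (b19KP n a P) j = b19K n a P j) ∧ ∀ j, skCumB (b19KP n a P) j = 0 := by
  have hms := (b19_isMs ha hP).1
  have hlen : (b19KP n a P).length = P.length := by simp [b19KP]
  refine ⟨⟨?_, ?_⟩, hlen, ?_, ?_, ?_⟩
  · unfold b19KP
    rw [List.pairwise_map]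
    refine List.Pairwise.imp_of_mem ?_ List.pairwise_lt_range
    intro i j _ hj hij
    exact hms.mono i j hij.le (List.mem_range.1 hj).le
  · intro e he
    unfold b19KP at he
    obtain ⟨j, hj, rfl⟩ := List.mem_map.1 he
    have hj' := List.mem_range.1 hj
    refine ⟨hms.nonneg j, (pin_ms_bd ha P hP j).2, le_rfl, ?_⟩
    have := b19_K_mono hn ha hP (Nat.le_succ j) hj'
    simp only
    linarith
  · intro j
    rcases lt_or_ge j P.length with h | h
    · rw [pin_ms_lt a _ (by rw [hlen]; exact h)]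
      simp [b19KP]
    · rw [pin_ms_ge a _ (by rw [hlen]; exact h), pin_ms_ge a P h]
  · intro j hj
    unfold skCumH b19KP
    rw [← List.map_take, List.map_map, List.take_range, min_eq_left hj]
    induction j with
    | zero => simp [b19_K_zero]
    | succ j ih =>
      rw [List.range_succ, List.map_append, List.sum_append, ih (by omega)]
      simp
  · intro j
    unfold skCumB b19KP
    rw [← List.map_take, List.map_map]
    apply List.sum_eq_zero
    intro x hx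
    obtain ⟨_, _, rfl⟩ := List.mem_map.1 hx
    rfl

theorem b19_st_isTr {N i : ℕ} (hi : i ≤ N + 1) (q : ℕ) : IsTr N q (b19St N i) := by
  refine ⟨fun x y _ _ => ?_, fun x _ => ?_, fun x y _ _ => ?_, fun x y z _ _ _ => ?_⟩
  · unfold b19St; split_ifs <;> omega
  · simp [b19St]
  · unfold b19St
    by_cases h : x = y
    · simp [h]
    · rw [if_neg h, if_neg (Ne.symm h)]
  · unfold b19St
    by_cases h1 : x = y <;> by_cases h2 : y = z <;> by_cases h3 : x = z <;> simp [h1, h2, h3] <;> omega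

/-- the observed tree of `Fd/Obs` in natural labels is the star -/
theorem b19_st_of (B : GhB (SkCfg n)) (ls : List (GhLv (SkCfg n) (SkDr n))) {r : ℕ} (hr : r ≤ ls.length) (z : SkCfg n → ℝ)
    (g : (ℕ → SkCfg n) → ℝ) : trNu B ls 2 (trOf (obT2 r) ls.length) z g = trNu B ls 2 (b19St ls.length r) z g := by
  refine tr_nu_congr B ls (fun x y hx hy => ?_) z g
  simp only [trOf, hx, hy, and_self, dite_true, b19St, obT2]
  split_ifs
  · rfl
  · omega

/-- `S_r` as a tree number -/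
theorem b19_S_eq (hn : 0 < n) {a : ℝ} (ha : 0 < a) {P : SkStp} (hP : SkAdm a P) {r : ℕ} (hr : r ≤ P.length) :
    b19Sk n a P 2 (b19St P.length r) (fun σ => skOv (σ 0) (σ 1)) = obS n a P 0 r ∧
      b19Sk n a P 2 (b19St P.length r) (fun σ => skOv (σ 0) (σ 1) ^ 2) = obB n a P 0 r := by
  have hl : (skLvs n P).length = P.length := by simp [skLvs]
  have hr' : r ≤ (skLvs n P).length := by rw [hl]; exact hr
  constructor
  · rw [← ob_S_two hn ha P hP 0 r hr, tr_nu_of_ghTree (skBase n a) (skLvs n P) (obT2 r) 0 (fun σ => skOv (σ 0) (σ 1)),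
      b19_st_of _ _ hr', hl]
    rfl
  · rw [← ob_B_two hn ha P hP 0 r hr, tr_nu_of_ghTree (skBase n a) (skLvs n P) (obT2 r) 0 (fun σ => skOv (σ 0) (σ 1) ^ 2),
      b19_st_of _ _ hr', hl]
    rfl

/-- site symmetry: `ν[s_0 s_1] = S_r`, `ν[Qm_01] = (1 - 1/n) S_r` -/
theorem b19_site (hn : 0 < n) (k0 : Fin n) {a : ℝ} (ha : 0 < a) {P : SkStp} (hP : SkAdm a P) {r : ℕ} (hr : r ≤ P.length) :
    b19Sk n a P 2 (b19St P.length r) (fun σ => skSp (σ 0) k0 * skSp (σ 1) k0) = obS n a P 0 r ∧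
      b19Sk n a P 2 (b19St P.length r) (fun σ => b19Qm k0 (σ 0) (σ 1)) = (1 - 1 / n) * obS n a P 0 r := by
  have hB := b19_base_ok n ha
  have hA : GhAdm (skBase n a) 0 (skLvs n P) := sk_sy_adm hP
  have h0 := (b19_S_eq hn ha hP hr).1
  have h1 : b19Sk n a P 2 (b19St P.length r) (fun σ => skSp (σ 0) k0 * skSp (σ 1) k0) = obS n a P 0 r := by
    rw [← h0]
    have := sk_sy_site hn ha hP (b19_st_isTr (by omega : r ≤ P.length + 1) 2) (fun _ => 1) (fun _ _ _ => rfl) (fun _ _ => rfl)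
      (x := 0) (y := 1) (by norm_num) (by norm_num) k0
    simp only [mul_one] at this
    exact this
  refine ⟨h1, ?_⟩
  unfold b19Sk at h0 h1 ⊢
  have e : (fun σ : ℕ → SkCfg n => b19Qm k0 (σ 0) (σ 1))
      = fun σ => skOv (σ 0) (σ 1) - (1 / n : ℝ) * (skSp (σ 0) k0 * skSp (σ 1) k0) := by
    funext σ; unfold b19Qm; ring
  rw [e, b19_tr_sub hB hA, b19_tr_smul hB hA, h0, h1]
  ring

/-- `Γ_i` as a scalar moment -/
theorem b19_Gam_eq (hn : 0 < n) {a : ℝ} (ha : 0 < a) {P : SkStp} (hP : SkAdm a P) {i : ℕ} (hi : i ≤ P.length) :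
    b19Gam n a P i = b19Sc n a P 2 (b19St P.length i) {0, 1} := by
  obtain ⟨h1, h2, -⟩ := b19_KP_adm hn ha hP
  have := (b19_S_eq (n := 1) one_pos ha h1 (r := i) (by rw [h2]; exact hi)).1
  unfold b19Gam b19Sc
  rw [← this, h2]
  unfold b19Sk
  congr 1
  funext σ
  simp [skOv]

/-- marginal of a pair under the SK law: only its level matters -/
theorem b19_marg {a : ℝ} (ha : 0 < a) {P : SkStp} (hP : SkAdm a P) {q : ℕ} {τ : ℕ → ℕ → ℕ} (hτ : IsTr P.length q τ) {c d : ℕ}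
    (hc : c < q) (hd : d < q) (hcd : c ≠ d) (g : SkCfg n → SkCfg n → ℝ) :
    b19Sk n a P q τ (fun σ => g (σ c) (σ d)) = b19Sk n a P 2 (b19St P.length (τ c d)) fun σ => g (σ 0) (σ 1) := by
  have hB := b19_base_ok n ha
  have hA : GhAdm (skBase n a) 0 (skLvs n P) := sk_sy_adm hP
  have hl : (skLvs n P).length = P.length := by simp [skLvs]
  have hτ' : IsTr (skLvs n P).length q τ := by rw [hl]; exact hτ
  unfold b19Sk
  have := tr_nu_comap hB hA hτ' 0 (fun x => if x = 0 then c else d) (p := 2) (fun x _ => by split_ifs <;> assumption)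
    (fun σ => g (σ 0) (σ 1)) (fun σ σ' h => by
      show g (σ 0) (σ 1) = g (σ' 0) (σ' 1)
      rw [h 0 (by norm_num), h 1 (by norm_num)])
  simp only [if_true, one_ne_zero, if_false] at this
  rw [this]
  refine tr_nu_congr _ _ (fun x y hx hy => ?_) _ _
  unfold b19St
  have hx' : x = 0 ∨ x = 1 := by omega
  have hy' : y = 0 ∨ y = 1 := by omega
  rcases hx' with rfl | rfl <;> rcases hy' with rfl | rfl
  · simp [hτ.diag c hc]
  · simp
  · simp [hτ.symm d c hd hc]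
  · simp [hτ.diag d hd]

/-! ## #E the structural facts -/

theorem b19_nu_gc (k0 : Fin n) (a : ℝ) (P : SkStp) (c0 c1 : ℕ → Fin 5 → ℝ) (θ : ℝ) (q : ℕ) (τ : ℕ → ℕ → ℕ) (f : (ℕ → SkCfg n) → ℝ) :
    gcNu (skBase n a) (b19Feat k0) (b19Aff a P c0 c1) θ q τ 0 f = b19Nu k0 a P (b19Seg c0 c1 θ) q τ f := by
  unfold gcNu b19Nu
  rw [b19_aff_seg]

/-- the insertion on the diagonal is a constant -/
theorem b19_V_diag (hn : 0 < n) (k0 : Fin n) (dc : ℕ → Fin 5 → ℝ) (N t : ℕ) (σ σ' : SkCfg n) :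
    b19V k0 dc N t σ σ = b19V k0 dc N t σ' σ' := by
  unfold b19V
  exact Finset.sum_congr rfl fun r _ => by rw [b19_ker_diag hn k0 r σ σ']

/-- a diagonal pair: the number is a constant multiple of the number of the old tree -/
theorem b19_diag_val (hn : 0 < n) (k0 : Fin n) {a : ℝ} (ha : 0 < a) {P : SkStp} (hP : SkAdm a P) (c dc : ℕ → Fin 5 → ℝ) {q : ℕ}
    {τ τ₂ : ℕ → ℕ → ℕ} (hτ₂ : IsTr P.length (q + 2) τ₂) (hag : ∀ y z, y < q → z < q → τ₂ y z = τ y z)
    (hd : τ₂ q (q + 1) = P.length + 1) (f : (ℕ → SkCfg n) → ℝ) (hf : TrUses q f) :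
    b19Nu k0 a P c (q + 2) τ₂ (fun σ => f σ * b19V k0 dc P.length (τ₂ q (q + 1)) (σ q) (σ (q + 1)))
      = b19V k0 dc P.length (P.length + 1) default default * b19Nu k0 a P c q τ f := by
  obtain ⟨hadm, hlen, _⟩ := b19_adm k0 ha hP c
  have hB := b19_base_ok n ha
  unfold b19Nu
  have hτ' : IsTr (gcLs (b19Feat k0) (b19Hs a P c)).length (q + 2) τ₂ := by rw [hlen]; exact hτ₂
  rw [tr_nu_coinc hB hadm hτ' 0 _ (x := q) (y := q + 1) (by omega) (by omega) (by rw [hlen]; exact hd)]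
  have e : (fun σ : ℕ → SkCfg n => f (Function.update σ (q + 1) (σ q)) *
      b19V k0 dc P.length (τ₂ q (q + 1)) (Function.update σ (q + 1) (σ q) q) (Function.update σ (q + 1) (σ q) (q + 1)))
      = fun σ => b19V k0 dc P.length (P.length + 1) default default * f σ := by
    funext σ
    rw [Function.update_self, Function.update_of_ne (by omega), hd, b19_V_diag hn k0 dc _ _ (σ q) default,
      hf (Function.update σ (q + 1) (σ q)) σ (fun i hi => Function.update_of_ne (by omega) _ _)]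
    ring
  rw [e, b19_tr_smul hB hadm]
  congr 1
  have hf1 : TrUses (q + 1) f := fun σ σ' h => hf σ σ' fun i hi => h i (by omega)
  rw [tr_nu_prune hB hadm hτ' 0 hf1, tr_nu_prune hB hadm (tr_isTr_mono hτ' (by omega)) 0 hf]
  exact tr_nu_congr _ _ hag 0 f

theorem b19_trSum_add (ms : ℕ → ℝ) (N q : ℕ) (τ : ℕ → ℕ → ℕ) (F G : (ℕ → ℕ → ℕ) → ℝ) :
    trSum ms N q τ (fun τ' => F τ' + G τ') = trSum ms N q τ F + trSum ms N q τ G := by
  unfold trSum
  simp only [mul_add, Finset.sum_add_distrib]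

/-- the diagonal part of the second row: total weight `ms N` -/
theorem b19_diag_row {ms : ℕ → ℝ} {N q : ℕ} {τ₁ : ℕ → ℕ → ℕ} (hτ₁ : IsTr N (q + 1) τ₁) (G : (ℕ → ℕ → ℕ) → ℝ) (c : ℝ)
    (hG : ∀ τ₂, IsTr N (q + 2) τ₂ → (∀ y z, y < q + 1 → z < q + 1 → τ₂ y z = τ₁ y z) → τ₂ q (q + 1) = N + 1 → G τ₂ = c) :
    trSum ms N (q + 1) τ₁ (fun τ₂ => if τ₂ q (q + 1) ≤ N then 0 else G τ₂) = ms N * c := by
  have hrow := tr_row_sum (ms := ms) hτ₁ (x := q) (j0 := N + 1) (by omega) le_rfl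
  have hpm : trPm ms (N + 1) = ms N := by simp [trPm]
  rw [hpm] at hrow
  rw [← hrow, Finset.sum_mul]
  unfold trSum
  beta_reduce
  rw [Finset.sum_filter]
  refine Finset.sum_congr rfl fun y hy => ?_
  have hy' : y < q + 1 := Finset.mem_range.1 hy
  rw [Finset.Icc_self, Finset.sum_singleton]
  have hval : ∀ k, (trAtt N (q + 1) τ₁ y k) q (q + 1) = min k (τ₁ q y) := fun k => trw_att_nr (by omega)
  have hle : τ₁ q y ≤ N + 1 := hτ₁.le _ _ (by omega) hy'
  by_cases hc : N + 1 ≤ τ₁ q y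
  · rw [if_pos hc, Finset.sum_range_succ]
    have h1 : ∀ k ∈ Finset.range (N + 1), trWt ms N (q + 1) τ₁ y k *
        (if (trAtt N (q + 1) τ₁ y k) q (q + 1) ≤ N then 0 else G (trAtt N (q + 1) τ₁ y k)) = 0 := by
      intro k hk
      have hk' := Finset.mem_range.1 hk
      rw [hval, if_pos (by omega), mul_zero]
    rw [Finset.sum_eq_zero h1, zero_add, hval, if_neg (by omega)]
    rw [hG _ (tr_att_isTr hτ₁ hy' le_rfl) (fun u v hu hv => tr_att_old hu hv) (by rw [hval]; omega)]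
  · rw [if_neg hc]
    refine Finset.sum_eq_zero fun k _ => ?_
    rw [hval, if_pos (by omega), mul_zero]

/-- **formula (2) without the diagonal**.   `tr_cov_deriv` for the family `b19Aff a P c0 c1`; the terms with `τ' q (q+1) = N + 1` drop: there `σ (q+1) = σ q` (`tr_nu_coinc`), the insertion is a constant
(`b19_ker_diag`), the two new labels are pruned (`tr_nu_prune`), the weight of the coincidence is `a` for every position of `q`, and the row sum of the label `q` vanishes (`tr_row_sum`, `j0 = 0`). -/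
theorem b19_deriv (hn : 0 < n) (k0 : Fin n) {a : ℝ} (ha : 0 < a) {P : SkStp} (hP : SkAdm a P) {c0 c1 : ℕ → Fin 5 → ℝ}
    (h0 : B19Mono P.length c0) (h1 : B19Mono P.length c1) {q : ℕ} {τ : ℕ → ℕ → ℕ} (hτ : IsTr P.length q τ)
    (f : (ℕ → SkCfg n) → ℝ) (hf : TrUses q f) {θ : ℝ} (hθ : θ ∈ Icc (0 : ℝ) 1) :
    HasDerivWithinAt (fun θ => b19Nu k0 a P (b19Seg c0 c1 θ) q τ f)
      (b19D (skMs a P) P.length q τ fun τ' => b19Nu k0 a P (b19Seg c0 c1 θ) (q + 2) τ' fun σ =>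
        f σ * b19V k0 (fun j r => c1 j r - c0 j r) P.length (τ' q (q + 1)) (σ q) (σ (q + 1)))
      (Icc 0 1) θ := by
  obtain ⟨hadm, hlen, hms⟩ := b19_aff_adm ha hP h0 h1
  have hd := tr_cov_deriv (B := skBase n a) (b19_base_ok n ha) (b19Feat k0) (hs := b19Aff a P c0 c1) hadm (q := q) (τ := τ)
    (by rw [hlen]; exact hτ) 0 f hf hθ
  have hmsf : gcMs (skBase n a).a (b19Aff a P c0 c1) = skMs a P := funext hms
  simp only [b19_nu_gc, hlen, hmsf, b19_aff_V hn] at hd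
  set G : (ℕ → ℕ → ℕ) → ℝ := fun τ' => b19Nu k0 a P (b19Seg c0 c1 θ) (q + 2) τ' fun σ =>
        f σ * b19V k0 (fun j r => c1 j r - c0 j r) P.length (τ' q (q + 1)) (σ q) (σ (q + 1)) with hG
  convert hd using 1
  unfold b19D
  congr 1
  show trSum _ _ q τ (fun τ₁ => trSum _ _ (q + 1) τ₁ fun τ₂ => if τ₂ q (q + 1) ≤ P.length then G τ₂ else 0) = _
  set κ : ℝ := b19V k0 (fun j r => c1 j r - c0 j r) P.length (P.length + 1) default default * b19Nu k0 a P (b19Seg c0 c1 θ) q τ f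
  -- the diagonal part
  have hdiag : trSum (skMs a P) P.length q τ (fun τ₁ => trSum (skMs a P) P.length (q + 1) τ₁
      fun τ₂ => if τ₂ q (q + 1) ≤ P.length then 0 else G τ₂) = 0 := by
    have hin : ∀ x j, x < q → j < P.length + 2 → trSum (skMs a P) P.length (q + 1) (trAtt P.length q τ x j)
        (fun τ₂ => if τ₂ q (q + 1) ≤ P.length then 0 else G τ₂) = skMs a P P.length * κ := by
      intro x j hx hj
      refine b19_diag_row (tr_att_isTr hτ hx (by omega)) G κ ?_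
      intro τ₂ hτ₂ hag hdd
      exact b19_diag_val hn k0 ha hP _ _ hτ₂ (fun y z hy hz => by
        rw [hag y z (by omega) (by omega), tr_att_old hy hz]) hdd f hf
    rw [trSum]
    beta_reduce
    rw [Finset.sum_congr rfl fun x hx => Finset.sum_congr rfl fun j hj => by
      rw [hin x j (Finset.mem_range.1 hx) (Finset.mem_range.1 hj)]]
    simp only [← Finset.sum_mul]
    rcases Nat.eq_zero_or_pos q with rfl | hq
    · simp
    · have hrow := tr_row_sum (ms := skMs a P) hτ (x := 0) (j0 := 0) hq (Nat.zero_le _)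
      have hf1 : (Finset.range q).filter (fun y => 0 ≤ τ 0 y) = Finset.range q := by simp
      have hf2 : Finset.Icc 0 (P.length + 1) = Finset.range (P.length + 2) := by
        ext j; simp only [Finset.mem_Icc, Finset.mem_range]; omega
      rw [hf1, hf2] at hrow
      rw [hrow]
      simp [trPm]
  have hsplit : ∀ τ₂, G τ₂ = (if τ₂ q (q + 1) ≤ P.length then G τ₂ else 0) + (if τ₂ q (q + 1) ≤ P.length then 0 else G τ₂) := by
    intro τ₂; split_ifs <;> simp
  have h2 : trSum (skMs a P) P.length q τ (fun τ₁ => trSum (skMs a P) P.length (q + 1) τ₁ G)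
      = trSum (skMs a P) P.length q τ (fun τ₁ => trSum (skMs a P) P.length (q + 1) τ₁ fun τ₂ => if τ₂ q (q + 1) ≤ P.length then G τ₂ else 0)
        + trSum (skMs a P) P.length q τ (fun τ₁ => trSum (skMs a P) P.length (q + 1) τ₁ fun τ₂ => if τ₂ q (q + 1) ≤ P.length then 0 else G τ₂) := by
    rw [← b19_trSum_add]
    congr 1
    funext τ₁
    rw [← b19_trSum_add]
    congr 1
    funext τ₂
    exact hsplit τ₂
  rw [hdiag, add_zero] at h2
  exact h2.symm

/-- **Gronwall** (`tr_gronwall`) -/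
theorem b19_gron (hn : 0 < n) (k0 : Fin n) {a : ℝ} (ha : 0 < a) {P : SkStp} (hP : SkAdm a P) {c0 c1 : ℕ → Fin 5 → ℝ}
    (h0 : B19Mono P.length c0) (h1 : B19Mono P.length c1) {q : ℕ} {τ : ℕ → ℕ → ℕ} (hτ : IsTr P.length q τ)
    (f : (ℕ → SkCfg n) → ℝ) (hf : TrUses q f) (hf0 : ∀ σ, 0 ≤ f σ) (M : ℝ)
    (hM : ∀ t σ σ', |b19V k0 (fun j r => c1 j r - c0 j r) P.length t σ σ'| ≤ M) {θ θ' : ℝ} (hθ : θ ∈ Icc (0 : ℝ) 1)
    (hθ' : θ' ∈ Icc (0 : ℝ) 1) :
    b19Nu k0 a P (b19Seg c0 c1 θ) q τ f ≤ Real.exp (2 * a ^ 2 * q * (q + 1) * M * |θ - θ'|) * b19Nu k0 a P (b19Seg c0 c1 θ') q τ f := by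
  obtain ⟨hadm, hlen, _⟩ := b19_aff_adm ha hP h0 h1
  have := tr_gronwall (B := skBase n a) (b19_base_ok n ha) (b19Feat k0) (hs := b19Aff a P c0 c1) hadm (q := q) (τ := τ)
    (by rw [hlen]; exact hτ) 0 f hf M (by
      intro t s s'
      rw [hlen, b19_aff_V hn]
      exact hM t s s') hf0 hθ hθ'
  rw [b19_nu_gc, b19_nu_gc] at this
  exact this

/-- **endpoint `t = 1`**: the SK law (`tr_nu_cov_congr`, `sk_d_cov`, `b19_cov`, `b19_ker_sk`) -/
theorem b19_end1 (hn : 0 < n) (k0 : Fin n) {a : ℝ} (ha : 0 < a) {P : SkStp} (hP : SkAdm a P) (q : ℕ) (τ : ℕ → ℕ → ℕ)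
    (f : (ℕ → SkCfg n) → ℝ) : b19Nu k0 a P (b19Ct n a P 1) q τ f = b19Sk n a P q τ f := by
  have hmono := b19_Ct1_mono n hP
  unfold b19Nu b19Sk
  obtain ⟨_, hlen, hms⟩ := b19_adm k0 ha hP (b19Ct n a P 1)
  refine tr_nu_cov_congr (b19_base_ok n ha) (by rw [hlen]; simp [skLvs]) (fun j => by rw [hms, b19_sk_ms]) ?_ q τ 0 f
  intro j h h' s t
  have hj : j < P.length := by rw [hlen] at h; exact h
  rw [b19_cov hn k0 a hmono h]
  have e : (skLvs n P)[j] = (P[j]).lv n := by simp [skLvs]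
  have hm := hP.2 _ (List.getElem_mem hj)
  rw [e, sk_d_cov n hn _ hm.2.2.1 hm.2.2.2, b19_ker_sk hn k0, Fin.sum_univ_five]
  have hb := (b19_cum_succ hj).1
  have hh := (b19_cum_succ hj).2
  simp only [b19Ct, b19C, Fin.isValue, Matrix.cons_val_zero, Matrix.cons_val_one, Matrix.cons_val]
  rw [hb, hh]
  ring

/-- site / rest decomposition of a configuration -/
def b19Spl (k0 : Fin n) : SkCfg n ≃ SkCfg 1 × ({k : Fin n // k ≠ k0} → Bool) where
  toFun σ := (fun _ => σ k0, fun k => σ k.1)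
  invFun p := fun k => if h : k = k0 then p.1 0 else p.2 ⟨k, h⟩
  left_inv σ := by
    funext k
    by_cases h : k = k0
    · simp [h]
    · simp [h]
  right_inv p := by
    refine Prod.ext ?_ ?_
    · funext i
      have : i = 0 := Subsingleton.elim _ _
      simp [this]
    · funext k
      simp [k.2]

/-- the clocks of the rest at `t = 0` -/
def b19Cr (n : ℕ) (P : SkStp) : ℕ → Fin 5 → ℝ := fun j => ![skCumB P j, skCumH P j, 0, 0, skCumB P j / (2 * n)]

theorem b19_spl_eqns_cite : True := by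
  have := @b19Spl.eq_1; have := @b19Cr.eq_1
  trivial

theorem b19_spl_off (k0 : Fin n) (s : SkCfg 1) (σ : SkCfg n) {k : Fin n} (hk : k ≠ k0) :
    (b19Spl k0).symm (s, (b19Spl k0 σ).2) k = σ k := by
  simp [b19Spl, hk]

theorem b19_Qm_congr (k0 : Fin n) {σ σ' τ τ' : SkCfg n} (h1 : ∀ k, k ≠ k0 → σ k = σ' k) (h2 : ∀ k, k ≠ k0 → τ k = τ' k) :
    b19Qm k0 σ τ = b19Qm k0 σ' τ' := by
  have e : ∀ σ τ : SkCfg n, b19Qm k0 σ τ = (∑ k ∈ Finset.univ.erase k0, skSp σ k * skSp τ k) / n := fun σ τ => by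
    unfold b19Qm skOv
    rw [← Finset.add_sum_erase _ _ (Finset.mem_univ k0)]
    ring
  rw [e, e]
  congr 1
  refine Finset.sum_congr rfl fun k hk => ?_
  have hk' := Finset.ne_of_mem_erase hk
  unfold skSp
  rw [h1 k hk', h2 k hk']
theorem b19_Cr_mono (n : ℕ) {a : ℝ} {P : SkStp} (hP : SkAdm a P) : B19Mono P.length (b19Cr n P) := by
  intro j _ r
  have h := b19_cum_step hP j
  have hn : (0 : ℝ) ≤ 2 * n := by positivity
  unfold b19Cr
  fin_cases r
  · simpa using h.1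
  · simpa using h.2
  · simp
  · simp
  · simpa using div_le_div_of_nonneg_right h.1 hn

theorem b19_fact0_aux (hn : 0 < n) (k0 : Fin n) {a : ℝ} (ha : 0 < a) {P : SkStp} (hP : SkAdm a P) {q : ℕ} {τ : ℕ → ℕ → ℕ}
    (hτ : IsTr P.length q τ) (g : (ℕ → SkCfg n) → ℝ) (hg : TrUses q g) (hg' : B19Rest k0 g) :
    ∃ R : ℝ, ∀ A : Finset ℕ, (∀ x ∈ A, x < q) →
      b19Nu k0 a P (b19Ct n a P 0) q τ (fun σ => b19Sp k0 A σ * g σ) = b19Sc n a P q τ A * R := by
  classical
  have hB₂ : (ghUnif ({k : Fin n // k ≠ k0} → Bool) a).Ok :=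
    { nonneg := fun _ => by simp only [ghUnif]; positivity
      sum := by
        simp only [ghUnif, Finset.sum_const, Finset.card_univ, nsmul_eq_mul]
        exact mul_inv_cancel₀ (by positivity)
      pos := ha }
  obtain ⟨hadm, hlen, hms⟩ := b19_adm k0 ha hP (b19Ct n a P 0)
  obtain ⟨hadm2, hlen2, hms2⟩ := b19_adm k0 ha hP (b19Cr n P)
  obtain ⟨hK1, hK2, hK3, hK4, hK5⟩ := b19_KP_adm hn ha hP
  have hmono := (b19_C_mono hn ha hP 0 (s := 0) (t := 0) ⟨le_rfl, zero_le_one⟩ ⟨le_rfl, zero_le_one⟩).2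
  have hmono2 := b19_Cr_mono n hP
  -- the hierarchy of the rest
  obtain ⟨ls₂, hls₂⟩ : ∃ ls₂ : List (GhLv ({k : Fin n // k ≠ k0} → Bool) (Fin 5 × SkDr n)),
      ls₂ = (gcLs (b19Feat k0) (b19Hs a P (b19Cr n P))).map fun l => ⟨l.m, fun s => l.A ((b19Spl k0).symm (default, s))⟩ := ⟨_, rfl⟩
  have hl₂ : ls₂.length = P.length := by rw [hls₂, List.length_map, hlen2]
  have hl₁ : (skLvs 1 (b19KP n a P)).length = P.length := by simp [skLvs, hK2]
  have hm₂ : ∀ j, trMs (ghUnif ({k : Fin n // k ≠ k0} → Bool) a) ls₂ j = skMs a P j := by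
    intro j
    rw [← hms2 j, hls₂]
    unfold trMs
    simp only [List.getElem?_map, Option.map_map]
    rfl
  refine ⟨trNu (ghUnif ({k : Fin n // k ≠ k0} → Bool) a) ls₂ q τ 0 fun σ₂ => g fun x => (b19Spl k0).symm (default, σ₂ x), fun A hA => ?_⟩
  have hprod := trs_prod (b19_base_ok 1 ha) hB₂ rfl (ls₁ := skLvs 1 (b19KP n a P)) (ls₂ := ls₂) (by rw [hl₁, hl₂])
    (fun j => by rw [b19_sk_ms, hK3, hm₂]) q τ 0 0 (fun σ => ∏ x ∈ A, skSp (σ x) 0)
    (fun σ₂ => g fun x => (b19Spl k0).symm (default, σ₂ x))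
  unfold b19Sc
  rw [← hprod]
  have hiso : GhIso (b19Spl k0) (skBase n a)
      (⟨fun s => (skBase 1 a).w s.1 * (ghUnif ({k : Fin n // k ≠ k0} → Bool) a).w s.2, (skBase 1 a).a⟩ : GhB (SkCfg 1 × ({k : Fin n // k ≠ k0} → Bool)))
      (gcLs (b19Feat k0) (b19Hs a P (b19Ct n a P 0)))
      (List.zipWith (fun l₁ l₂ => (⟨l₁.m, fun s => Sum.elim (l₁.A s.1) (l₂.A s.2)⟩ :
        GhLv (SkCfg 1 × ({k : Fin n // k ≠ k0} → Bool)) (SkDr 1 ⊕ (Fin 5 × SkDr n)))) (skLvs 1 (b19KP n a P)) ls₂) := by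
    refine ⟨rfl, fun s => ?_, ?_, ?_⟩
    · simp only [skBase, ghUnif]
      rw [← mul_inv, ← Nat.cast_mul, ← Fintype.card_prod, Fintype.card_congr (b19Spl k0)]
    · refine List.ext_getElem (by simp [hl₁, hl₂, hlen]) fun j h1 h2 => ?_
      have hj : j < P.length := by simpa [hlen] using h2
      have e1 := hms j
      have e2 := b19_sk_ms 1 a (b19KP n a P) j
      rw [hK3] at e2
      unfold trMs at e1 e2
      rw [List.getElem?_eq_getElem (by rw [hlen]; exact hj)] at e1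
      rw [List.getElem?_eq_getElem (by rw [hl₁]; exact hj)] at e2
      simp only [Option.map_some, Option.getD_some] at e1 e2
      simp only [List.getElem_map, List.getElem_zipWith]
      rw [e1, e2]
    · intro j h h' s t
      have hj : j < P.length := by rw [hlen] at h; exact h
      have hj2 : j < (gcLs (b19Feat k0) (b19Hs a P (b19Cr n P))).length := by rw [hlen2]; exact hj
      have hjK : j < (b19KP n a P).length := by rw [hK2]; exact hj
      rw [b19_cov hn k0 a hmono h, List.getElem_zipWith]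
      have e0 : ∀ (l₁ : GhLv (SkCfg 1) (SkDr 1)) (l₂ : GhLv ({k : Fin n // k ≠ k0} → Bool) (Fin 5 × SkDr n))
          (x y : SkCfg 1 × ({k : Fin n // k ≠ k0} → Bool)),
          (⟨l₁.m, fun s => Sum.elim (l₁.A s.1) (l₂.A s.2)⟩ : GhLv (SkCfg 1 × ({k : Fin n // k ≠ k0} → Bool)) (SkDr 1 ⊕ (Fin 5 × SkDr n))).cov x y
            = l₁.cov x.1 y.1 + l₂.cov x.2 y.2 := by
        intro l₁ l₂ x y
        unfold GhLv.cov
        rw [Fintype.sum_sum_type]
        simp only [Sum.elim_inl, Sum.elim_inr]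
      rw [e0]
      have e1 : (skLvs 1 (b19KP n a P))[j] = ((b19KP n a P)[j]).lv 1 := by simp [skLvs]
      have e2 : ls₂[j].cov (b19Spl k0 s).2 (b19Spl k0 t).2
          = ((gcLs (b19Feat k0) (b19Hs a P (b19Cr n P)))[j]).cov ((b19Spl k0).symm (default, (b19Spl k0 s).2))
              ((b19Spl k0).symm (default, (b19Spl k0 t).2)) := by
        simp only [hls₂, List.getElem_map]
        rfl
      have hmK := hK1.2 _ (List.getElem_mem hjK)
      rw [e1, e2, sk_d_cov 1 one_pos _ hmK.2.2.1 hmK.2.2.2, b19_cov hn k0 a hmono2 hj2, Fin.sum_univ_five, Fin.sum_univ_five]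
      have eQ : b19Qm k0 ((b19Spl k0).symm (default, (b19Spl k0 s).2)) ((b19Spl k0).symm (default, (b19Spl k0 t).2)) = b19Qm k0 s t :=
        b19_Qm_congr k0 (fun k hk => b19_spl_off k0 _ s hk) (fun k hk => b19_spl_off k0 _ t hk)
      have eO : skOv (b19Spl k0 s).1 (b19Spl k0 t).1 = skSp s k0 * skSp t k0 := by
        simp [skOv, b19Spl, skSp]
      have eK : ((b19KP n a P)[j]).dh = b19K n a P (j + 1) - b19K n a P j := by simp [b19KP]
      have eK0 : ((b19KP n a P)[j]).db = 0 := by simp [b19KP]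
      rw [eO, eK, eK0]
      simp only [b19Ker, b19Ct, b19C, b19Cr, eQ, Fin.isValue, Matrix.cons_val_zero, Matrix.cons_val_one, Matrix.cons_val]
      ring
  have hnn : GhNn (gcLs (b19Feat k0) (b19Hs a P (b19Ct n a P 0))) := fun l hl => (hadm.2 l hl).1
  have hU : TrUses q (fun σ : ℕ → SkCfg 1 × ({k : Fin n // k ≠ k0} → Bool) =>
      (∏ x ∈ A, skSp (σ x).1 0) * g fun x => (b19Spl k0).symm (default, (σ x).2)) := by
    intro σ σ' h
    have h1 : ∏ x ∈ A, skSp (σ x).1 0 = ∏ x ∈ A, skSp (σ' x).1 0 :=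
      Finset.prod_congr rfl fun x hx => by rw [h x (hA x hx)]
    have h2 : (g fun x => (b19Spl k0).symm (default, (σ x).2)) = g fun x => (b19Spl k0).symm (default, (σ' x).2) :=
      hg _ _ fun i hi => by rw [h i hi]
    show (∏ x ∈ A, skSp (σ x).1 0) * _ = (∏ x ∈ A, skSp (σ' x).1 0) * _
    rw [h1, h2]
  rw [tr_sy_iso (b19_base_ok n ha) hnn hiso (by rw [hlen]; exact hτ) _ _ hU]
  unfold b19Nu
  congr 1
  · funext s
    simp
  · funext σ
    have h1 : b19Sp k0 A σ = ∏ x ∈ A, skSp (b19Spl k0 (σ x)).1 0 := rfl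
    have h2 : g σ = g fun x => (b19Spl k0).symm (default, (b19Spl k0 (σ x)).2) :=
      hg' _ _ fun x k hk => (b19_spl_off k0 _ (σ x) hk).symm
    rw [h1, h2]

/-- **endpoint `t = 0`**: (one site with the field clock `K`) x (rest).   `SkCfg n ≃ SkCfg 1 × ({k // k ≠ k0} → Bool)` (`tr_sy_iso`), then `tr_sy_prod` / `trs_prod`:
the kernel is `ΔK s s' + [Δb n Qm²/2 + Δh n Qm + Δb/(2n)]`; the first factor has the kernels of `skLvs 1 (b19KP n a P)` (`sk_d_cov` with `n = 1`, `db = 0`). -/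
theorem b19_fact0 (hn : 0 < n) (k0 : Fin n) {a : ℝ} (ha : 0 < a) {P : SkStp} (hP : SkAdm a P) {q : ℕ} {τ : ℕ → ℕ → ℕ}
    (hτ : IsTr P.length q τ) (A : Finset ℕ) (hA : ∀ x ∈ A, x < q) (g : (ℕ → SkCfg n) → ℝ) (hg : TrUses q g) (hg' : B19Rest k0 g) :
    b19Nu k0 a P (b19Ct n a P 0) q τ (fun σ => b19Sp k0 A σ * g σ) = b19Sc n a P q τ A * b19Nu k0 a P (b19Ct n a P 0) q τ g := by
  obtain ⟨R, hR⟩ := b19_fact0_aux hn k0 ha hP hτ g hg hg'
  have h0 := hR ∅ (by simp)
  have e1 : b19Sc n a P q τ ∅ = 1 := by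
    unfold b19Sc
    simp only [Finset.prod_empty]
    exact b19_tr_const (b19_base_ok 1 ha) (sk_sy_adm (b19_KP_adm hn ha hP).1) q τ 0 1
  have e2 : (fun σ : ℕ → SkCfg n => b19Sp k0 ∅ σ * g σ) = g := by
    funext σ
    simp [b19Sp]
  rw [e1, e2, one_mul] at h0
  rw [hR A hA, h0]

/-- the flip of the spin at the site `k0` -/
def b19Fl (k0 : Fin n) : SkCfg n ≃ SkCfg n := skGa fun k => decide (k ≠ k0)

theorem b19_fl_eqns_cite : True := by
  have := @b19Fl.eq_1
  trivial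

theorem b19_Fl_sp (k0 : Fin n) (σ : SkCfg n) (k : Fin n) : skSp (b19Fl k0 σ) k = if k = k0 then - skSp σ k else skSp σ k := by
  unfold b19Fl
  rw [sk_sy_ga_sp]
  by_cases hk : k = k0
  · subst hk
    simp only [skSp, Claims.C0461.pmSpin, ne_eq, not_true_eq_false, decide_false, if_true]
    cases σ k <;> simp
  · simp [hk, skSp, Claims.C0461.pmSpin]

theorem b19_Fl_Qm (k0 : Fin n) (σ τ : SkCfg n) : b19Qm k0 (b19Fl k0 σ) τ = b19Qm k0 σ τ := by
  rw [b19_Qm_eq, b19_Qm_eq]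
  congr 1
  refine Finset.sum_congr rfl fun k hk => ?_
  rw [b19_Fl_sp, if_neg (Finset.ne_of_mem_erase hk)]

theorem b19_Qm_comm (k0 : Fin n) (σ τ : SkCfg n) : b19Qm k0 σ τ = b19Qm k0 τ σ := by
  rw [b19_Qm_eq, b19_Qm_eq]
  congr 1
  exact Finset.sum_congr rfl fun k _ => mul_comm _ _

theorem b19_Fl_ker (k0 : Fin n) (r : Fin 5) (σ τ : SkCfg n) :
    b19Ker k0 r (b19Fl k0 σ) (b19Fl k0 τ) = b19Ker k0 r σ τ ∧
      (r ≠ 2 → r ≠ 3 → b19Ker k0 r (b19Fl k0 σ) τ = b19Ker k0 r σ τ) := by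
  have h1 : b19Qm k0 (b19Fl k0 σ) (b19Fl k0 τ) = b19Qm k0 σ τ := by
    rw [b19_Fl_Qm, b19_Qm_comm, b19_Fl_Qm, b19_Qm_comm]
  have h2 := b19_Fl_Qm k0 σ τ
  have h3 : skSp (b19Fl k0 σ) k0 = - skSp σ k0 := by rw [b19_Fl_sp, if_pos rfl]
  have h4 : skSp (b19Fl k0 τ) k0 = - skSp τ k0 := by rw [b19_Fl_sp, if_pos rfl]
  unfold b19Ker
  rw [h1, h2, h3, h4]
  fin_cases r <;> simp

/-- **block flip** at depth `H` (`trs_block_sym`, `t = H - 1`, `e` = flip of the spin at `k0`): if the site blocks `2, 3` are switched off below `H` and a node of depth `H` contains an odd number of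
labels of `A`, the number vanishes -/
theorem b19_flip (hn : 0 < n) (k0 : Fin n) {a : ℝ} (ha : 0 < a) {P : SkStp} (hP : SkAdm a P) {c : ℕ → Fin 5 → ℝ}
    (hc : B19Mono P.length c) {H : ℕ} (hH : H ≤ P.length) (hc0 : ∀ j, j < H → c j 2 = 0 ∧ c j 3 = 0) {q : ℕ} {τ : ℕ → ℕ → ℕ}
    (hτ : IsTr P.length q τ) (A : Finset ℕ) (hA : ∀ x ∈ A, x < q) {x0 : ℕ} (hx0 : x0 < q)
    (hodd : Odd (A.filter fun y => H ≤ τ x0 y).card) (g : (ℕ → SkCfg n) → ℝ) (hg : TrUses q g) (hg' : B19Rest k0 g) :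
    b19Nu k0 a P c q τ (fun σ => b19Sp k0 A σ * g σ) = 0 := by
  obtain ⟨hadm, hlen, _⟩ := b19_adm k0 ha hP c
  have hB := b19_base_ok n ha
  have hτ' : IsTr (gcLs (b19Feat k0) (b19Hs a P c)).length q τ := by rw [hlen]; exact hτ
  have hU : TrUses q (fun σ : ℕ → SkCfg n => b19Sp k0 A σ * g σ) := by
    intro σ σ' h
    simp only [b19Sp]
    rw [hg σ σ' h, Finset.prod_congr rfl fun x hx => by rw [h x (hA x hx)]]
  have key := trs_block_sym hB hτ' 0 (b19Fl k0) (fun _ => rfl) (fun _ => rfl) (H - 1) (by rw [hlen]; omega)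
    (by
      intro j hj hjH s s'
      rw [b19_cov hn k0 a hc hj, b19_cov hn k0 a hc hj]
      refine Finset.sum_congr rfl fun r _ => ?_
      by_cases hr : r = 2 ∨ r = 3
      · have e : c (j + 1) r - c j r = 0 := by
          rcases hr with rfl | rfl
          · rw [(hc0 (j + 1) (by omega)).1, (hc0 j (by omega)).1, sub_zero]
          · rw [(hc0 (j + 1) (by omega)).2, (hc0 j (by omega)).2, sub_zero]
        rw [e, zero_mul, zero_mul]
      · rw [not_or] at hr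
        rw [(b19_Fl_ker k0 r s s').2 hr.1 hr.2])
    (by
      intro j hj _ s s'
      rw [b19_cov hn k0 a hc hj, b19_cov hn k0 a hc hj]
      exact Finset.sum_congr rfl fun r _ => by rw [(b19_Fl_ker k0 r s s').1])
    (fun y => H ≤ τ x0 y)
    (by
      intro x y hx hy hAx hxy
      have := hτ.ultra x0 x y hx0 hx hy
      have h2 : H ≤ τ x y := by omega
      exact le_trans (le_min hAx h2) this)
    (fun σ => b19Sp k0 A σ * g σ) hU
  have e : (fun σ : ℕ → SkCfg n => b19Sp k0 A (fun x => if H ≤ τ x0 x then b19Fl k0 (σ x) else σ x) *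
      g (fun x => if H ≤ τ x0 x then b19Fl k0 (σ x) else σ x)) = fun σ => (-1) * (b19Sp k0 A σ * g σ) := by
    funext σ
    have e1 : g (fun x => if H ≤ τ x0 x then b19Fl k0 (σ x) else σ x) = g σ := by
      refine hg' _ _ fun x k hk => ?_
      by_cases hx : H ≤ τ x0 x
      · simp only [hx, if_true]
        have := b19_Fl_sp k0 (σ x) k
        rw [if_neg hk] at this
        unfold skSp Claims.C0461.pmSpin at this
        revert this
        cases (b19Fl k0 (σ x) k) <;> cases (σ x k) <;> simp <;> norm_num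
      · simp only [hx, if_false]
    have e2 : b19Sp k0 A (fun x => if H ≤ τ x0 x then b19Fl k0 (σ x) else σ x) = - b19Sp k0 A σ := by
      unfold b19Sp
      have : ∀ x ∈ A, skSp (if H ≤ τ x0 x then b19Fl k0 (σ x) else σ x) k0 = (if H ≤ τ x0 x then (-1 : ℝ) else 1) * skSp (σ x) k0 := by
        intro x _
        by_cases hx : H ≤ τ x0 x
        · simp only [hx, if_true]; rw [b19_Fl_sp, if_pos rfl]; ring
        · simp only [hx, if_false]; ring
      rw [Finset.prod_congr rfl this, Finset.prod_mul_distrib, Finset.prod_ite, Finset.prod_const, Finset.prod_const_one, mul_one,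
        hodd.neg_one_pow]
      ring
    rw [e1, e2]; ring
  unfold b19Nu
  rw [e, b19_tr_smul hB hadm] at key
  linarith

/-- the insertion only sees `min t N` -/
theorem b19_V_min (k0 : Fin n) (dc : ℕ → Fin 5 → ℝ) (N t : ℕ) (σ σ' : SkCfg n) :
    b19V k0 dc N t σ σ' = b19V k0 dc N (min t N) σ σ' := by
  unfold b19V
  rw [min_assoc, min_self]

/-- sup bound of the insertion of the `t`-family -/
theorem b19_Vt_sup (k0 : Fin n) {a : ℝ} {P : SkStp} {A0 M0 : ℝ} {i H : ℕ} (h : B19Hyp n a P A0 M0 i H) (r : ℕ) (σ σ' : SkCfg n) :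
    |b19V k0 (fun j x => b19Ct n a P 1 j x - b19Ct n a P 0 j x) P.length r σ σ'| ≤ 2 * M0 := by
  have hn : 0 < n := by have := h.n2; omega
  have hr : min r P.length ≤ P.length := min_le_right _ _
  rw [b19_V_min, b19_V_t k0 a P hr, abs_mul, abs_mul, b19_sp_abs, b19_sp_abs, one_mul, one_mul, abs_mul]
  have hb0 : 0 ≤ skCumB P (min r P.length) := by
    have := (b19_cumB_mono h.adm (Nat.zero_le (min r P.length))).1
    rwa [(b19_cum_zero P).1] at this
  have hb1 : skCumB P (min r P.length) ≤ M0 := ((b19_cumB_mono h.adm hr).1).trans h.bM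
  have hS := b19_S_mem hn h.a0 h.adm hr
  have hq := abs_le.1 (b19_Qm_abs hn k0 σ σ')
  have hd : |b19Qm k0 σ σ' - obS n a P 0 (min r P.length)| ≤ 2 := by
    rw [abs_le]; constructor <;> linarith [hq.1, hq.2, hS.1, hS.2]
  rw [abs_of_nonneg hb0]
  calc _ ≤ M0 * 2 := mul_le_mul hb1 hd (abs_nonneg _) (hb0.trans hb1)
    _ = 2 * M0 := by ring

/-- sup bound of the insertion of the `s`-family -/
theorem b19_Vs_sup (k0 : Fin n) {a : ℝ} {P : SkStp} {A0 M0 : ℝ} {i H : ℕ} (h : B19Hyp n a P A0 M0 i H) {t : ℝ}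
    (ht : t ∈ Icc (0 : ℝ) 1) (r : ℕ) (σ σ' : SkCfg n) :
    |b19V k0 (fun j x => b19Ct n a P t j x - b19C n a P (b19Lam H 0) t j x) P.length r σ σ'| ≤ 2 * M0 := by
  have hn : 0 < n := by have := h.n2; omega
  have hr : min r P.length ≤ P.length := min_le_right _ _
  have hM : 0 ≤ M0 := by
    have := (b19_cumB_mono h.adm (Nat.zero_le P.length)).1
    rw [(b19_cum_zero P).1] at this
    exact this.trans h.bM
  rw [b19_V_min, b19_V_s k0 a P H t hr]
  set r' := min r P.length with hr'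
  split_ifs with hlt
  · rw [abs_mul, abs_mul, b19_sp_abs, b19_sp_abs, one_mul, one_mul]
    have hb0 : 0 ≤ skCumB P r' := by
      have := (b19_cumB_mono h.adm (Nat.zero_le r')).1
      rwa [(b19_cum_zero P).1] at this
    have hh0 : 0 ≤ skCumH P r' := by
      have := (b19_cumB_mono h.adm (Nat.zero_le r')).2
      rwa [(b19_cum_zero P).2] at this
    have hb1 : skCumB P r' ≤ M0 := ((b19_cumB_mono h.adm hr).1).trans h.bM
    have hS := b19_S_mem hn h.a0 h.adm hr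
    have hK1 : skCumH P r' ≤ b19K n a P r' := by
      unfold b19K
      have := mul_nonneg hb0 hS.1
      linarith
    have hK2 := (b19_K_mono hn h.a0 h.adm hlt.le h.HN).trans h.KM
    have hq := b19_Qm_abs hn k0 σ σ'
    have e1 : |t * skCumB P r' * b19Qm k0 σ σ'| ≤ M0 := by
      rw [abs_mul, abs_of_nonneg (mul_nonneg ht.1 hb0)]
      calc t * skCumB P r' * |b19Qm k0 σ σ'| ≤ (1 * M0) * 1 :=
            mul_le_mul (mul_le_mul ht.2 hb1 hb0 zero_le_one) hq (abs_nonneg _) (by positivity)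
        _ = M0 := by ring
    have e2 : |t * skCumH P r' + (1 - t) * b19K n a P r'| ≤ M0 := by
      have hK0 := hh0.trans hK1
      rw [abs_of_nonneg (add_nonneg (mul_nonneg ht.1 hh0) (mul_nonneg (by linarith [ht.2]) hK0))]
      nlinarith [ht.1, ht.2]
    calc |t * skCumB P r' * b19Qm k0 σ σ' + t * skCumH P r' + (1 - t) * b19K n a P r'|
        = |t * skCumB P r' * b19Qm k0 σ σ' + (t * skCumH P r' + (1 - t) * b19K n a P r')| := by rw [add_assoc]
      _ ≤ M0 + M0 := (abs_add_le _ _).trans (add_le_add e1 e2)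
      _ = 2 * M0 := by ring
  · rw [abs_zero]; positivity

/-- transfer of nonnegative tests from the row law at `t` to the SK law -/
theorem b19_gron_t (q : ℕ) (A0 M0 : ℝ) : ∃ C : ℝ, 0 ≤ C ∧ ∀ (n : ℕ) (k0 : Fin n) (a : ℝ) (P : SkStp) (i H : ℕ), B19Hyp n a P A0 M0 i H →
    ∀ τ, IsTr P.length q τ → ∀ f : (ℕ → SkCfg n) → ℝ, TrUses q f → (∀ σ, 0 ≤ f σ) → ∀ t ∈ Icc (0 : ℝ) 1,
      b19Nu k0 a P (b19Ct n a P t) q τ f ≤ C * b19Sk n a P q τ f := by
  refine ⟨Real.exp (2 * A0 ^ 2 * q * (q + 1) * (2 * |M0|)), (Real.exp_pos _).le, fun n k0 a P i H h τ hτ f hf hf0 t ht => ?_⟩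
  have hn : 0 < n := by have := h.n2; omega
  have hM : 0 ≤ M0 := by
    have := (b19_cumB_mono h.adm (Nat.zero_le P.length)).1
    rw [(b19_cum_zero P).1] at this
    exact this.trans h.bM
  have m0 := (b19_C_mono hn h.a0 h.adm 0 (s := 0) (t := 0) (by simp) (by simp)).2
  have m1 := (b19_C_mono hn h.a0 h.adm 0 (s := 0) (t := 1) (by simp) (by simp)).2
  have key := b19_gron hn k0 h.a0 h.adm m0 m1 hτ f hf hf0 (2 * M0) (fun r σ σ' => b19_Vt_sup k0 h r σ σ') ht
    (θ' := 1) (by simp)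
  rw [← b19_Ct_seg, ← b19_Ct_seg, b19_end1 hn k0 h.a0 h.adm] at key
  have hS0 : 0 ≤ b19Sk n a P q τ f := b19_tr_nonneg (b19_base_ok n h.a0) (sk_sy_adm h.adm) _ _ _ hf0
  refine key.trans (mul_le_mul_of_nonneg_right (Real.exp_le_exp.2 ?_) hS0)
  rw [abs_of_nonneg hM]
  have ha2 : a ^ 2 ≤ A0 ^ 2 := pow_le_pow_left₀ h.a0.le h.aA 2
  have ht1 : |t - 1| ≤ 1 := by rw [abs_le]; constructor <;> linarith [ht.1, ht.2]
  have hq : (0 : ℝ) ≤ q * (q + 1) * (2 * M0) := by positivity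
  calc 2 * a ^ 2 * q * (q + 1) * (2 * M0) * |t - 1| ≤ 2 * a ^ 2 * q * (q + 1) * (2 * M0) * 1 :=
        mul_le_mul_of_nonneg_left ht1 (by positivity)
    _ ≤ _ := by nlinarith

/-- transfer of nonnegative tests from the row law with the low revelation of the site partly switched off -/
theorem b19_gron_s (q : ℕ) (A0 M0 : ℝ) : ∃ C : ℝ, 0 ≤ C ∧ ∀ (n : ℕ) (k0 : Fin n) (a : ℝ) (P : SkStp) (i H : ℕ), B19Hyp n a P A0 M0 i H →
    ∀ τ, IsTr P.length q τ → ∀ f : (ℕ → SkCfg n) → ℝ, TrUses q f → (∀ σ, 0 ≤ f σ) → ∀ s ∈ Icc (0 : ℝ) 1, ∀ t ∈ Icc (0 : ℝ) 1,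
      b19Nu k0 a P (b19C n a P (b19Lam H s) t) q τ f ≤ C * b19Sk n a P q τ f := by
  obtain ⟨Ct, hCt, hg⟩ := b19_gron_t q A0 M0
  refine ⟨Real.exp (2 * A0 ^ 2 * q * (q + 1) * (2 * |M0|)) * Ct, by positivity,
    fun n k0 a P i H h τ hτ f hf hf0 s hs t ht => ?_⟩
  have hn : 0 < n := by have := h.n2; omega
  have hM : 0 ≤ M0 := by
    have := (b19_cumB_mono h.adm (Nat.zero_le P.length)).1
    rw [(b19_cum_zero P).1] at this
    exact this.trans h.bM
  have m := b19_C_mono hn h.a0 h.adm H (s := 0) (t := t) (by simp) ht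
  have key := b19_gron hn k0 h.a0 h.adm m.1 m.2 hτ f hf hf0 (2 * M0) (fun r σ σ' => b19_Vs_sup k0 h ht r σ σ') hs
    (θ' := 1) (by simp)
  have s1 : b19Seg (b19C n a P (b19Lam H 0) t) (b19Ct n a P t) 1 = b19Ct n a P t := by
    funext j x; simp [b19Seg]
  rw [← b19_C_seg, s1] at key
  have h2 := hg n k0 a P i H h τ hτ f hf hf0 t ht
  have hS0 : 0 ≤ b19Sk n a P q τ f := b19_tr_nonneg (b19_base_ok n h.a0) (sk_sy_adm h.adm) _ _ _ hf0
  have hN0 : 0 ≤ b19Nu k0 a P (b19Ct n a P t) q τ f :=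
    b19_tr_nonneg (b19_base_ok n h.a0) (b19_adm k0 h.a0 h.adm _).1 _ _ _ hf0
  have he : Real.exp (2 * a ^ 2 * q * (q + 1) * (2 * M0) * |s - 1|) ≤ Real.exp (2 * A0 ^ 2 * q * (q + 1) * (2 * |M0|)) := by
    refine Real.exp_le_exp.2 ?_
    rw [abs_of_nonneg hM]
    have ha2 : a ^ 2 ≤ A0 ^ 2 := pow_le_pow_left₀ h.a0.le h.aA 2
    have ht1 : |s - 1| ≤ 1 := by rw [abs_le]; constructor <;> linarith [hs.1, hs.2]
    have hq : (0 : ℝ) ≤ q * (q + 1) * (2 * M0) := by positivity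
    calc 2 * a ^ 2 * q * (q + 1) * (2 * M0) * |s - 1| ≤ 2 * a ^ 2 * q * (q + 1) * (2 * M0) * 1 :=
          mul_le_mul_of_nonneg_left ht1 (by positivity)
      _ ≤ _ := by nlinarith
  calc _ ≤ Real.exp (2 * a ^ 2 * q * (q + 1) * (2 * M0) * |s - 1|) * b19Nu k0 a P (b19Ct n a P t) q τ f := key
    _ ≤ Real.exp (2 * A0 ^ 2 * q * (q + 1) * (2 * |M0|)) * (Ct * b19Sk n a P q τ f) :=
        mul_le_mul he h2 hN0 (Real.exp_pos _).le
    _ = _ := by ring

/-! ## #F Taylor inequalities (Mathlib only) -/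

/-- one integration step of the Taylor inequalities -/
theorem b19_ty_core {F F' : ℝ → ℝ} {c : ℝ} {k : ℕ} (h : ∀ t ∈ Icc (0 : ℝ) 1, HasDerivWithinAt F (F' t) (Icc 0 1) t)
    (hb : ∀ t ∈ Icc (0 : ℝ) 1, |F' t| ≤ c * t ^ k) (h0 : F 0 = 0) :
    ∀ t ∈ Icc (0 : ℝ) 1, |F t| ≤ c / (k + 1) * t ^ (k + 1) := by
  have hk : ((k : ℝ) + 1) ≠ 0 := by positivity
  have hF : ContinuousOn F (Icc 0 1) := fun t ht => (h t ht).continuousWithinAt
  have hF' : ∀ x ∈ Ico (0 : ℝ) 1, HasDerivWithinAt F (F' x) (Ici x) x := fun x hx =>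
    (h x (Ico_subset_Icc_self hx)).mono_of_mem_nhdsWithin (Icc_mem_nhdsGE_of_mem hx)
  have hG : ∀ x : ℝ, HasDerivAt (fun t : ℝ => c / (k + 1) * t ^ (k + 1)) (c * x ^ k) x := by
    intro x
    have := ((hasDerivAt_id x).pow (k + 1)).const_mul (c / (k + 1))
    have e : c / ((k : ℝ) + 1) * (((k + 1 : ℕ) : ℝ) * id x ^ (k + 1 - 1) * 1) = c * x ^ k := by
      simp only [Nat.add_sub_cancel, id, Nat.cast_add, Nat.cast_one]
      field_simp
    rw [e] at this
    exact this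
  intro t ht
  rw [abs_le]
  constructor
  · have := image_le_of_deriv_right_le_deriv_boundary (f := fun t => -F t) (f' := fun t => -F' t) (a := 0) (b := 1)
      hF.neg (fun x hx => (hF' x hx).neg) (B := fun t : ℝ => c / (k + 1) * t ^ (k + 1)) (B' := fun x => c * x ^ k)
      (by simp [h0]) (fun x _ => (hG x).continuousAt.continuousWithinAt) (fun x _ => (hG x).hasDerivWithinAt)
      (fun x hx => by have := (abs_le.1 (hb x (Ico_subset_Icc_self hx))).1; linarith) ht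
    linarith
  · exact image_le_of_deriv_right_le_deriv_boundary (f := F) (f' := F') (a := 0) (b := 1)
      hF hF' (B := fun t : ℝ => c / (k + 1) * t ^ (k + 1)) (B' := fun x => c * x ^ k)
      (by simp [h0]) (fun x _ => (hG x).continuousAt.continuousWithinAt) (fun x _ => (hG x).hasDerivWithinAt)
      (fun x hx => (abs_le.1 (hb x (Ico_subset_Icc_self hx))).2) ht

/-- first step: `|f t - f 0| ≤ M t` -/
theorem b19_ty_s1 {f0 f1 : ℝ → ℝ} {M : ℝ} (h0 : ∀ t ∈ Icc (0 : ℝ) 1, HasDerivWithinAt f0 (f1 t) (Icc 0 1) t)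
    (hM : ∀ t ∈ Icc (0 : ℝ) 1, |f1 t| ≤ M) : ∀ t ∈ Icc (0 : ℝ) 1, |f0 t - f0 0| ≤ M * t ^ 1 := by
  intro t ht
  have := b19_ty_core (F := fun t => f0 t - f0 0) (F' := f1) (c := M) (k := 0) (fun t ht => (h0 t ht).sub_const _)
    (fun t ht => by simpa using hM t ht) (by simp) t ht
  simpa using this

/-- second step: `|f t - f 0 - f' 0 t| ≤ M t² / 2` -/
theorem b19_ty_s2 {f0 f1 f2 : ℝ → ℝ} {M : ℝ} (h0 : ∀ t ∈ Icc (0 : ℝ) 1, HasDerivWithinAt f0 (f1 t) (Icc 0 1) t)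
    (h1 : ∀ t ∈ Icc (0 : ℝ) 1, HasDerivWithinAt f1 (f2 t) (Icc 0 1) t)
    (hM : ∀ t ∈ Icc (0 : ℝ) 1, |f2 t| ≤ M) : ∀ t ∈ Icc (0 : ℝ) 1, |f0 t - f0 0 - f1 0 * t| ≤ M / 2 * t ^ 2 := by
  intro t ht
  have := b19_ty_core (F := fun t => f0 t - f0 0 - f1 0 * t) (F' := fun t => f1 t - f1 0) (c := M) (k := 1)
    (fun t ht => by
      have := ((h0 t ht).sub_const (f0 0)).sub (((hasDerivAt_id t).const_mul (f1 0)).hasDerivWithinAt (s := Icc 0 1))
      have e : f1 t - f1 0 * 1 = f1 t - f1 0 := by ring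
      rw [e] at this
      exact this)
    (b19_ty_s1 h1 hM) (by simp) t ht
  norm_num at this
  exact this

theorem b19_taylor1 {f0 f1 : ℝ → ℝ} {M : ℝ} (h0 : ∀ t ∈ Icc (0 : ℝ) 1, HasDerivWithinAt f0 (f1 t) (Icc 0 1) t)
    (hM : ∀ t ∈ Icc (0 : ℝ) 1, |f1 t| ≤ M) : |f0 1 - f0 0| ≤ M := by
  simpa using b19_ty_s1 h0 hM 1 (by simp)

theorem b19_taylor2 {f0 f1 f2 : ℝ → ℝ} {M : ℝ} (h0 : ∀ t ∈ Icc (0 : ℝ) 1, HasDerivWithinAt f0 (f1 t) (Icc 0 1) t)
    (h1 : ∀ t ∈ Icc (0 : ℝ) 1, HasDerivWithinAt f1 (f2 t) (Icc 0 1) t)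
    (hM : ∀ t ∈ Icc (0 : ℝ) 1, |f2 t| ≤ M) : |f0 1 - f0 0 - f1 0| ≤ M / 2 := by
  simpa using b19_ty_s2 h0 h1 hM 1 (by simp)

theorem b19_taylor3 {f0 f1 f2 f3 : ℝ → ℝ} {M : ℝ} (h0 : ∀ t ∈ Icc (0 : ℝ) 1, HasDerivWithinAt f0 (f1 t) (Icc 0 1) t)
    (h1 : ∀ t ∈ Icc (0 : ℝ) 1, HasDerivWithinAt f1 (f2 t) (Icc 0 1) t)
    (h2 : ∀ t ∈ Icc (0 : ℝ) 1, HasDerivWithinAt f2 (f3 t) (Icc 0 1) t)
    (hM : ∀ t ∈ Icc (0 : ℝ) 1, |f3 t| ≤ M) : |f0 1 - f0 0 - f1 0 - f2 0 / 2| ≤ M / 6 := by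
  have := b19_ty_core (F := fun t => f0 t - f0 0 - f1 0 * t - f2 0 / 2 * t ^ 2) (F' := fun t => f1 t - f1 0 - f2 0 * t)
    (c := M / 2) (k := 2)
    (fun t ht => by
      have := (((h0 t ht).sub_const (f0 0)).sub (((hasDerivAt_id t).const_mul (f1 0)).hasDerivWithinAt (s := Icc 0 1))).sub
        ((((hasDerivAt_id t).pow 2).const_mul (f2 0 / 2)).hasDerivWithinAt (s := Icc 0 1))
      have e : f1 t - f1 0 * 1 - f2 0 / 2 * (((2 : ℕ) : ℝ) * id t ^ (2 - 1) * 1) = f1 t - f1 0 - f2 0 * t := by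
        simp only [id]; push_cast; ring
      rw [e] at this
      exact this)
    (b19_ty_s2 h1 h2 hM) (by simp) 1 (by simp)
  norm_num at this
  have e : M / 2 / 3 = M / 6 := by ring
  rw [e] at this
  exact this

end

end Claimed.Agent.R286
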