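import Claimed.Agent.R286.Bud.C19ScB
import Claimed.Agent.R286.Bud.C19Row
import Claimed.Agent.R286.Exit.ClkLim
import Claimed.Agent.R286.Exit.ClkStat
import Claimed.Agent.R286.Exit.ScBd7
import Claimed.Agent.R286.Cav.Gam

/-!
# Row 286, LL sec. 7, node N17 = (C19): THE SCALAR BLOCK on the net of chains      (OWNER helper184; prefix `b19s`)

TEX[LL:bud:closure] l.1959-2007.      **EXIT of the block = contract 4a of helper61** (`origin/helper61:notes/R286/N17_61.md`):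
      `b19s_contract :  ∀ δ > 0, BmEv 1 fun ps => |b19Cp F.m 1 (Q.stp g ps) (BdQ.ixV ps v0)| ≤ G2 / 2 + δ`
for the PLAIN sampled path (no empty level), from: `W.IsHub`, `bq, hq` clocks continuous at `v0`, `K_s` strictly increasing at `v0`, `GsLip (K_s v0) G2` (unfolded).

The scalar chain of the sampled path `P = skCStp 1 b h 0 0 ps` has the masses of `ps` and the clock `T_j = b19K n 1 P j = h_j + b_j S_j^{ps}`.   It is NOT the sample of a clock, but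
`|T_{idx p} - K̂(p)| ≤ δ` uniformly in `p ∈ ps` (`exit_clk_lim_stat`), `K̂(p) = ghAt h p + ghAt b p · skCS p` (`b19sKp`, monotone in the position), and the mass profile only sees the masses:
      `r < K̂(p) ⟹ α(r) ≤ p.u`,      `K̂(ghPosA g) ≤ r ⟹ g ≤ α(r)`,      `α = scAlK 1 K_s = bdDist K_s`,
which gives the sandwich `B19sCl 1 α δ 2^{-k}` on every chain which contains the dyadic masses of rank `k` (interior points of jumps have gap `0`: no thinning).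
BY-PRODUCT (for `b19Gam → Γ_s(K_s v0)`, helper61): `b19s_chain_ok` + `b19s_cl_l1` + `b19s_stab` (clause `scGam`).
-/

set_option autoImplicit false

namespace Claimed.Agent.R286

open MeasureTheory Set Filter Topology

noncomputable section

/-! ## 0. `b19Cp` is `b19sCpin` of the scalar chain -/

theorem b19s_kp_eq (n : ℕ) (a : ℝ) (P : SkStp) : b19KP n a P = b19sMk P.length (skMs a P) (b19K n a P) := rfl

/-- the restrictions `τ' q (q+1) ≤ N` of `b19D` are implied by the indicator (`i ≤ N`); `tr_sumK_add`, `tr_sumK_congr` (agreement on the old labels), `tr_c3_sumK_const_mul`;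
`b19St = b19Star`, `skSp σ 0 = slkSp σ`, `skMs a (b19KP n a P) = skMs a P` (`b19s_mk_ms`), `(b19KP n a P).length = P.length` -/
theorem b19s_cp_eq (n : ℕ) (a : ℝ) (P : SkStp) {i : ℕ} (hi : i ≤ P.length) : b19Cp n a P i = b19sCpin a (b19KP n a P) i := by
  have hlen : (b19KP n a P).length = P.length := by simp [b19KP]
  have hms : skMs a (b19KP n a P) = skMs a P := by
    funext j
    rw [b19s_kp_eq, b19s_mk_ms]
    split_ifs with hj
    · rfl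
    · exact (b19_ms_ge a (not_lt.1 hj)).symm
  obtain ⟨Ψ, hΨ⟩ : ∃ Ψ : (ℕ → ℕ → ℕ) → ℝ, Ψ = fun τ =>
      if τ 2 3 = i ∧ τ 4 5 = i then b19sNu a (b19KP n a P) 6 τ (Finset.range 6) else 0 := ⟨_, rfl⟩
  have hR : b19sCpin a (b19KP n a P) i = 1 / 8 * trSumK (skMs a P) P.length 4 2 (b19St P.length i) Ψ := by
    unfold b19sCpin
    rw [hlen, hms, hΨ]
    rfl
  rw [hR]
  have hin : ∀ τ₁ : ℕ → ℕ → ℕ, b19D (skMs a P) P.length 4 τ₁ (fun τ₂ =>
      if τ₂ 2 3 = i ∧ τ₂ 4 5 = i then b19Sc n a P 6 τ₂ (Finset.range 6) / 2 else 0)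
        = 1 / 4 * trSumK (skMs a P) P.length 2 4 τ₁ Ψ := by
    intro τ₁
    unfold b19D
    have e : (fun τ' : ℕ → ℕ → ℕ => if τ' 4 (4 + 1) ≤ P.length then
        (if τ' 2 3 = i ∧ τ' 4 5 = i then b19Sc n a P 6 τ' (Finset.range 6) / 2 else 0) else 0) = fun τ' => 1 / 2 * Ψ τ' := by
      funext τ'
      rw [hΨ]
      by_cases hc : τ' 2 3 = i ∧ τ' 4 5 = i
      · have h45 : τ' 4 (4 + 1) ≤ P.length := by
          show τ' 4 5 ≤ P.length
          rw [hc.2]; exact hi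
        rw [if_pos h45, if_pos hc]
        simp only [if_pos hc]
        have : b19Sc n a P 6 τ' (Finset.range 6) = b19sNu a (b19KP n a P) 6 τ' (Finset.range 6) := rfl
        rw [this]
        ring
      · simp only [if_neg hc, ite_self, mul_zero]
    rw [e, tr_c3_sumK_const_mul]
    ring
  unfold b19Cp
  simp only [hin]
  unfold b19D
  have hSt : IsTr P.length 2 (b19St P.length i) := b19_st_isTr (by omega) 2
  have e2 := tr_sumK_congr (ms := skMs a P) hSt 2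
    (fun τ' => if τ' 2 (2 + 1) ≤ P.length then 1 / 4 * trSumK (skMs a P) P.length 2 4 τ' Ψ else 0)
    (fun τ' => 1 / 4 * trSumK (skMs a P) P.length 2 (2 + 2) τ' Ψ) (fun τ' hτ' _ => by
      by_cases h23 : τ' 2 (2 + 1) ≤ P.length
      · simp only [if_pos h23]
      · simp only [if_neg h23]
        have hz := tr_sumK_congr (ms := skMs a P) hτ' 2 Ψ (fun τ'' => 0 * Ψ τ'') (fun τ'' _ hag => by
          rw [hΨ, zero_mul]
          have h1 : τ'' 2 3 = τ' 2 3 := hag 2 3 (by norm_num) (by norm_num)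
          have h2 : ¬ (τ'' 2 3 = i ∧ τ'' 4 5 = i) := by
            rintro ⟨h3, -⟩
            apply h23
            show τ' 2 3 ≤ P.length
            rw [← h1, h3]; exact hi
          simp only [if_neg h2])
        rw [hz, tr_c3_sumK_const_mul]
        ring)
  rw [e2, tr_c3_sumK_const_mul, ← tr_sumK_add 2 2 Ψ]
  ring

/-! ## 1. positions and indices of a chain (pure lists) -/

/-- the masses of a chain, `1` after the last one -/
def b19sMu (ps : List GhPos) (j : ℕ) : ℝ := (ps.map GhPos.u).getD j 1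

/-- the index of the `j`-th position of a strictly increasing chain -/
theorem b19s_idx_get : ∀ (ps : List GhPos), ps.Pairwise (· < ·) → ∀ (j : ℕ) (hj : j < ps.length),
    ghIdx ps ((ps[j] : GhPos) : WithTop GhPos) = j + 1
  | [], _, j, hj => absurd hj (by simp)
  | x :: xs, h, 0, _ => by
      rw [List.pairwise_cons] at h
      rw [brg_t_idx_coe]
      simp only [List.getElem_cons_zero]
      rw [List.filter_cons_of_pos (by simp)]
      have hnil : (xs.filter fun y => decide (y ≤ x)) = [] := by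
        rw [List.filter_eq_nil_iff]
        intro y hy
        simpa using h.1 y hy
      rw [hnil]; rfl
  | x :: xs, h, j + 1, hj => by
      rw [List.pairwise_cons] at h
      have hj' : j < xs.length := by simpa using hj
      have IH := b19s_idx_get xs h.2 j hj'
      rw [brg_t_idx_coe] at IH ⊢
      simp only [List.getElem_cons_succ]
      rw [List.filter_cons_of_pos (by simpa using (h.1 _ (List.getElem_mem hj')).le), List.length_cons, IH]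

theorem b19s_mu_get (ps : List GhPos) {j : ℕ} (hj : j < ps.length) : b19sMu ps j = (ps[j]).u := by
  unfold b19sMu
  rw [List.getD_eq_getElem _ _ (by simpa using hj)]
  simp

theorem b19s_idx_surj {ps : List GhPos} (h : ps.Pairwise (· < ·)) {j : ℕ} (hj : j < ps.length) :
    ∃ p ∈ ps, ghIdx ps (p : WithTop GhPos) = j + 1 ∧ b19sMu ps j = p.u :=
  ⟨ps[j], List.getElem_mem hj, b19s_idx_get ps h j hj, b19s_mu_get ps hj⟩

theorem b19s_idx_lt {ps : List GhPos} {p p' : GhPos} (hp' : p' ∈ ps) (hlt : p < p') :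
    ghIdx ps (p : WithTop GhPos) < ghIdx ps (p' : WithTop GhPos) := by
  rw [brg_t_idx_coe, brg_t_idx_coe]
  induction ps with
  | nil => exact absurd hp' List.not_mem_nil
  | cons x xs ih =>
      have hmono : (xs.filter fun y => decide (y ≤ p)).length ≤ (xs.filter fun y => decide (y ≤ p')).length := by
        have := brg_t_idx_mono xs (WithTop.coe_le_coe.2 hlt.le)
        rwa [brg_t_idx_coe, brg_t_idx_coe] at this
      by_cases hx : x ≤ p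
      · have hx' : x ≤ p' := hx.trans hlt.le
        rw [List.filter_cons_of_pos (by simpa using hx), List.filter_cons_of_pos (by simpa using hx'), List.length_cons, List.length_cons]
        rcases List.mem_cons.1 hp' with rfl | h
        · exact absurd hx (not_le.2 hlt)
        · exact Nat.succ_lt_succ (ih h)
      · rw [List.filter_cons_of_neg (by simpa using hx)]
        rcases List.mem_cons.1 hp' with rfl | h
        · rw [List.filter_cons_of_pos (by simp), List.length_cons]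
          omega
        · have := ih h
          by_cases hx' : x ≤ p'
          · rw [List.filter_cons_of_pos (by simpa using hx'), List.length_cons]; omega
          · rw [List.filter_cons_of_neg (by simpa using hx')]; exact this

/-- a position of smaller mass is smaller -/
theorem b19s_posA_lt {g : ℝ} {p : GhPos} (h : g < p.u) : ghPosA g < p :=
  (gh_os_pos_lt_iff _ _).2 (Or.inl (by rw [slc_posA_u]; exact h))

/-- a dyadic mass just below `u ∈ (2^{-k}, 1]` -/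
theorem b19s_dy_below (k : ℕ) {u : ℝ} (h0 : 1 / 2 ^ k < u) (h1 : u ≤ 1) :
    ∃ m : ℕ, m ≤ 2 ^ k ∧ (1 * (m : ℝ) / 2 ^ k) < u ∧ u ≤ 1 * (m : ℝ) / 2 ^ k + 1 / 2 ^ k := by
  have hk : (0 : ℝ) < 2 ^ k := by positivity
  have hu : 1 < u * 2 ^ k := by rwa [div_lt_iff₀ hk] at h0
  set c := ⌈u * 2 ^ k⌉₊ with hc
  have hc1 : u * 2 ^ k ≤ c := Nat.le_ceil _
  have hc2 : (c : ℝ) < u * 2 ^ k + 1 := Nat.ceil_lt_add_one (by linarith)
  have hc0 : 1 ≤ c := by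
    have : (1 : ℝ) < c := lt_of_lt_of_le hu hc1
    exact_mod_cast this.le
  have hcle : c ≤ 2 ^ k := by
    have : u * 2 ^ k ≤ ((2 ^ k : ℕ) : ℝ) := by push_cast; nlinarith
    exact Nat.ceil_le.2 this
  refine ⟨c - 1, by omega, ?_, ?_⟩
  · rw [one_mul, div_lt_iff₀ hk, Nat.cast_sub hc0]; push_cast; linarith
  · rw [one_mul, ← add_div, le_div_iff₀ hk, Nat.cast_sub hc0]; push_cast; linarith

/-- a dyadic mass just above `v ∈ [0, 1)` -/
theorem b19s_dy_above (k : ℕ) {v : ℝ} (h0 : 0 ≤ v) (h1 : v < 1) :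
    ∃ m : ℕ, m ≤ 2 ^ k ∧ v < 1 * (m : ℝ) / 2 ^ k ∧ 1 * (m : ℝ) / 2 ^ k ≤ v + 1 / 2 ^ k := by
  have hk : (0 : ℝ) < 2 ^ k := by positivity
  have hv : 0 ≤ v * 2 ^ k := by positivity
  set c := ⌊v * 2 ^ k⌋₊ with hc
  have hc1 : (c : ℝ) ≤ v * 2 ^ k := Nat.floor_le hv
  have hc2 : v * 2 ^ k < c + 1 := Nat.lt_floor_add_one _
  have hcle : c < 2 ^ k := by
    have : v * 2 ^ k < ((2 ^ k : ℕ) : ℝ) := by push_cast; nlinarith
    exact (Nat.floor_lt hv).2 this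
  refine ⟨c + 1, hcle, ?_, ?_⟩
  · rw [one_mul, lt_div_iff₀ hk]; push_cast; linarith
  · rw [one_mul, div_le_iff₀ hk, add_mul, div_mul_cancel₀ _ hk.ne']; push_cast; linarith

/-- **the sandwich on a fine chain** (abstract: `Kp` = any function of the position).
`up`: `j + 1 = idx p`, `r + δ < T (idx p) ≤ Kp p + δ`, (h1).   `lo`: `u = ms j`; if `u ≤ 2^{-k}` use `h0`; else `g = m / 2^k` with `g < u ≤ g + 2^{-k}`; `ghPosA g ∈ ps`, `ghPosA g < p` so `idx (ghPosA g) ≤ j`,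
`Kp (ghPosA g) ≤ T (idx ..) + δ ≤ T j + δ ≤ r + δ`, (h2).   `top`: the same with `g = 1`. -/
theorem b19s_chain_cl {k : ℕ} {F0 : Finset GhPos} {ps : List GhPos} (hf : SlcFine 1 k F0 ps) {Kp : GhPos → ℝ} {α : ℝ → ℝ} {T : ℕ → ℝ} {δ : ℝ}
    (hT : ∀ j l, j ≤ l → l ≤ ps.length → T j ≤ T l)
    (hc : ∀ p ∈ ps, |T (ghIdx ps (p : WithTop GhPos)) - Kp p| ≤ δ)
    (h1 : ∀ p : GhPos, p.Ok 1 → ∀ r, r < Kp p → α r ≤ p.u)
    (h2 : ∀ g : ℝ, 0 ≤ g → g ≤ 1 → ∀ r, Kp (ghPosA g) ≤ r → g ≤ α r)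
    (h0 : ∀ r, 0 ≤ α r) : B19sCl 1 α δ (1 / 2 ^ k) ps.length (b19sMu ps) T := by
  have hk : (0 : ℝ) < 2 ^ k := by positivity
  refine ⟨fun j hj r hr => ?_, fun j hj r hr => ?_, fun r hr => ?_⟩
  · have hm := List.getElem_mem hj
    have e := abs_le.1 (hc _ hm)
    rw [b19s_idx_get ps hf.1 j hj] at e
    rw [b19s_mu_get ps hj]
    exact h1 _ (hf.2.1 _ hm) r (by linarith [e.2])
  · have hm := List.getElem_mem hj
    rw [b19s_mu_get ps hj]
    have hok := hf.2.1 _ hm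
    rcases le_or_gt (ps[j]).u (1 / 2 ^ k) with hu | hu
    · linarith [h0 (r + δ)]
    · obtain ⟨m, hm1, hm2, hm3⟩ := b19s_dy_below k hu hok.2.1
      have hg := hf.2.2.1 m hm1
      have hlt := b19s_idx_lt hm (b19s_posA_lt hm2)
      rw [b19s_idx_get ps hf.1 j hj] at hlt
      have e := abs_le.1 (hc _ hg)
      have e2 := hT _ j (Nat.lt_succ_iff.1 hlt) hj.le
      have hg0 : (0 : ℝ) ≤ 1 * (m : ℝ) / 2 ^ k := by positivity
      have := h2 _ hg0 (hm2.le.trans hok.2.1) (r + δ) (by linarith [e.1])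
      linarith
  · have hg := hf.2.2.1 (2 ^ k) le_rfl
    have e1 : (1 : ℝ) * ((2 ^ k : ℕ) : ℝ) / 2 ^ k = 1 := by push_cast; field_simp
    rw [e1] at hg
    have e := abs_le.1 (hc _ hg)
    have e2 := hT _ ps.length (brg_t_idx_coe_le ps (ghPosA 1)) le_rfl
    have := h2 1 zero_le_one le_rfl (r + δ) (by linarith [e.1])
    have hμ : (0 : ℝ) ≤ 1 / 2 ^ k := by positivity
    linarith

/-- the cut after the mass `v0`: the next position has a mass in `(v0, v0 + 2^{-k}]` -/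
theorem b19s_chain_at {k : ℕ} {F0 : Finset GhPos} {ps : List GhPos} (hf : SlcFine 1 k F0 ps) {v0 : ℝ} (hv0 : v0 ∈ Ioo (0 : ℝ) 1)
    (hF0 : ghPosA v0 ∈ F0) :
    1 ≤ ghIdx ps ((ghPosA v0 : GhPos) : WithTop GhPos) ∧ ghIdx ps ((ghPosA v0 : GhPos) : WithTop GhPos) < ps.length ∧
      b19sMu ps (ghIdx ps ((ghPosA v0 : GhPos) : WithTop GhPos) - 1) = v0 ∧
      v0 ≤ b19sMu ps (ghIdx ps ((ghPosA v0 : GhPos) : WithTop GhPos)) ∧
      b19sMu ps (ghIdx ps ((ghPosA v0 : GhPos) : WithTop GhPos)) ≤ v0 + 1 / 2 ^ k := by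
  have hmem : ghPosA v0 ∈ ps := hf.2.2.2 _ hF0 (gh_os_posA_ok hv0.1.le hv0.2.le)
  obtain ⟨j, hj, hpj⟩ := List.getElem_of_mem hmem
  have hidx : ghIdx ps ((ghPosA v0 : GhPos) : WithTop GhPos) = j + 1 := by
    rw [← hpj]; exact b19s_idx_get ps hf.1 j hj
  -- a dyadic position above
  obtain ⟨m, hm1, hm2, hm3⟩ := b19s_dy_above k hv0.1.le hv0.2
  have hg := hf.2.2.1 m hm1
  obtain ⟨l, hl, hpl⟩ := List.getElem_of_mem hg
  have hlt : ghPosA v0 < ghPosA (1 * (m : ℝ) / 2 ^ k) := b19s_posA_lt (by rw [slc_posA_u]; exact hm2)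
  have hjl : j < l := by
    have := b19s_idx_lt hg hlt
    rw [hidx, ← hpl, b19s_idx_get ps hf.1 l hl] at this
    omega
  have hj1 : j + 1 < ps.length := by omega
  have hsorted : ∀ i i' (hi : i < ps.length) (hi' : i' < ps.length), i ≤ i' → ps[i] ≤ ps[i'] := by
    intro i i' hi hi' hii
    rcases Nat.eq_or_lt_of_le hii with rfl | h
    · exact le_rfl
    · exact (List.pairwise_iff_getElem.1 hf.1 i i' hi hi' h).le
  rw [hidx]
  refine ⟨by omega, hj1, ?_, ?_, ?_⟩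
  · rw [Nat.add_sub_cancel, b19s_mu_get ps hj, hpj, slc_posA_u]
  · rw [b19s_mu_get ps hj1]
    have := slc_u_le (hsorted j (j + 1) hj hj1 (Nat.le_succ j))
    rwa [hpj, slc_posA_u] at this
  · rw [b19s_mu_get ps hj1]
    have := slc_u_le (hsorted (j + 1) l hj1 hl hjl)
    rw [hpl, slc_posA_u] at this
    linarith

/-! ## 2. the sampled path -/

theorem b19s_stp_map (a : ℝ) (b h : ℝ → ℝ) : ∀ (ps : List GhPos) (b0 h0 : ℝ), (skCStp a b h b0 h0 ps).map SkInc.m = ps.map GhPos.u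
  | [], _, _ => rfl
  | p :: ps, b0, h0 => by
      simp only [skCStp, List.map_cons]
      rw [b19s_stp_map a b h ps]

theorem b19s_stp_ms (b h : ℝ → ℝ) (ps : List GhPos) (j : ℕ) : skMs 1 (skCStp 1 b h 0 0 ps) j = b19sMu ps j := by
  unfold skMs b19sMu
  rw [b19s_stp_map]

theorem b19s_stp_cum_aux (a : ℝ) (b h : ℝ → ℝ) (p : GhPos) : ∀ (ps : List GhPos) (b0 h0 : ℝ), ps.Pairwise (· < ·) → p ∈ ps →
    skCumH (skCStp a b h b0 h0 ps) (ghIdx ps (p : WithTop GhPos)) = ghAt a h p - h0 ∧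
      skCumB (skCStp a b h b0 h0 ps) (ghIdx ps (p : WithTop GhPos)) = ghAt a b p - b0
  | [], _, _, _, hp => absurd hp List.not_mem_nil
  | x :: xs, b0, h0, hs, hp => by
      rw [List.pairwise_cons] at hs
      rw [brg_t_idx_coe]
      have hx : x ≤ p := by
        rcases List.mem_cons.1 hp with rfl | hp'
        · exact le_rfl
        · exact (hs.1 p hp').le
      rw [List.filter_cons_of_pos (by simpa using hx), List.length_cons]
      unfold skCumH skCumB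
      simp only [skCStp, List.take_succ_cons, List.map_cons, List.sum_cons]
      by_cases hp' : p ∈ xs
      · have IH := b19s_stp_cum_aux a b h p xs (ghAt a b x) (ghAt a h x) hs.2 hp'
        rw [brg_t_idx_coe] at IH
        unfold skCumH skCumB at IH
        rw [IH.1, IH.2]
        constructor <;> ring
      · have hpx : p = x := (List.mem_cons.1 hp).resolve_right hp'
        have hnil : (xs.filter fun y => decide (y ≤ p)) = [] := by
          rw [List.filter_eq_nil_iff]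
          intro y hy
          have := hs.1 y hy
          simp only [decide_eq_true_eq, not_le]
          rw [hpx]; exact this
        rw [hnil, hpx]
        simp

/-- what the chain has revealed up to one of its positions (telescoping; cf. `slc_T`) -/
theorem b19s_stp_cum (b h : ℝ → ℝ) {ps : List GhPos} (hs : ps.Pairwise (· < ·)) {p : GhPos} (hp : p ∈ ps) :
    skCumH (skCStp 1 b h 0 0 ps) (ghIdx ps (p : WithTop GhPos)) = ghAt 1 h p ∧
      skCumB (skCStp 1 b h 0 0 ps) (ghIdx ps (p : WithTop GhPos)) = ghAt 1 b p := by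
  have := b19s_stp_cum_aux 1 b h p ps 0 0 hs hp
  simpa using this

/-! ## 3. the position clock `K̂` -/

/-- `K̂(p) = h(p) + b(p) S(p)` -/
def b19sKp (n : ℕ) (b h : ℝ → ℝ) (p : GhPos) : ℝ := ghAt 1 h p + ghAt 1 b p * skCS n 1 b h p

/-- `K_s(v) = h(v) + b(v) S(v)` -/
def b19sKs (n : ℕ) (b h : ℝ → ℝ) (v : ℝ) : ℝ := h v + b v * skCS n 1 b h (ghPosA v)

theorem b19s_eqns_cite7 : True := by
  have := @b19sMu.eq_1
  have := @b19sKp.eq_1
  have := @b19sKs.eq_1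
  trivial

/-- DICTIONARY with `Cav/Gam.lean` (helper266, 0 sorry): CITE `cvg_idx_get, cvg_ms, cvg_cumH, cvg_cumB, cvg_chain_adm, cvg_K_top, cvg_K_mono, cvg_V_eq, cvg_Kp_mono, cvg_Kp_nonneg, cvg_Kp_le, cvg_at_le,
cvg_Kf_clk, cvg_Kf_le, cvg_Ku_le, cvg_posA_le, cvg_le_atA, cvg_atA_le`, and copy `cvg_alK_le`, `cvg_alK_ge` (there for `pfKu`, here for `cvKf`), the step `hV` of `cvg_tendsto` (= `b19s_K_close`), `cvg_upper` (= `lo`, `top` of `b19s_chain_cl`) -/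
theorem b19s_dict (n : ℕ) (b h : ℝ → ℝ) : b19sKp n b h = pfKp n b h ∧ b19sKs n b h = cvKf n b h ∧ ∀ P, b19K n 1 P = cvK n P :=
  ⟨rfl, rfl, fun _ => rfl⟩

variable {n : ℕ} {b h : ℝ → ℝ}

/-- `gh_os_at_mono`, `gh_os_at_nonneg`, `exit_clk_SB` -/
theorem b19s_kp_mono (hn : 0 < n) (hbh : CkAdm 1 b h) {p p' : GhPos} (hp : p.Ok 1) (hp' : p'.Ok 1) (hpp : p ≤ p') :
    b19sKp n b h p ≤ b19sKp n b h p' := by
  unfold b19sKp
  have h1 := gh_os_at_mono zero_le_one hbh.2 hp.2.2.2 hp'.2.2.1 hpp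
  have h2 := gh_os_at_mono zero_le_one hbh.1 hp.2.2.2 hp'.2.2.1 hpp
  have h3 := exit_clk_SB hn one_pos hbh hp hp' hpp
  have h4 := gh_os_at_nonneg zero_le_one hbh.1 hp'.2.2.1
  exact add_le_add h1 (mul_le_mul h2 h3.2.1 h3.1 h4)

/-- (helper154) `K̂(p) ≤ K_s(v)` for `p.u < v ≤ 1` -/
theorem b19s_kp_le_ks (hn : 0 < n) (hbh : CkAdm 1 b h) {p : GhPos} (hp : p.Ok 1) {v : ℝ} (hv : p.u < v) (hv1 : v ≤ 1) :
    b19sKp n b h p ≤ b19sKs n b h v := by
  unfold b19sKp b19sKs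
  have hv0 : 0 ≤ v := hp.1.trans hv.le
  have a1 := (gh_os_at_le_right zero_le_one hbh.2 hp.2.2.2).trans ((gh_os_clamp_mono zero_le_one hbh.2).rightLim_le hv)
  have a2 := (gh_os_at_le_right zero_le_one hbh.1 hp.2.2.2).trans ((gh_os_clamp_mono zero_le_one hbh.1).rightLim_le hv)
  rw [slc_clamp_eq h hv0 hv1] at a1
  rw [slc_clamp_eq b hv0 hv1] at a2
  have hle : p ≤ ghPosA v := (gh_os_pos_le_iff _ _).2 (Or.inl (by simpa [ghPosA, GhPos.u] using hv))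
  have h3 := exit_clk_SB hn one_pos hbh hp (gh_os_posA_ok hv0 hv1) hle
  have hb0 : 0 ≤ b v := hbh.1.2.trans (hbh.1.1 ⟨le_rfl, zero_le_one⟩ ⟨hv0, hv1⟩ hv0)
  exact add_le_add a1 (mul_le_mul a2 h3.2.1 h3.1 hb0)

/-- for `p.u < v' < v < 1`:  `K̂(p) ≤ K̂(ghPosA v') = h(v'+) + b(v'+) S(v') ≤ h(v) + b(v) S(v) = K_s(v)`   (as `slc_alK_le_of_lt`) -/
theorem b19s_al_le_of_lt (hn : 0 < n) (hbh : CkAdm 1 b h) {p : GhPos} (hp : p.Ok 1) {r : ℝ} (hr : r < b19sKp n b h p) :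
    scAlK 1 (b19sKs n b h) r ≤ p.u := by
  have hsub : {v : ℝ | v ∈ Ioo 0 1 ∧ b19sKs n b h v ≤ r} ⊆ Ioc 0 p.u := by
    intro v hv
    refine ⟨hv.1.1, ?_⟩
    by_contra hlt
    push Not at hlt
    have h1 := b19s_kp_le_ks hn hbh hp hlt hv.1.2.le
    have h3 : b19sKs n b h v ≤ r := hv.2
    linarith
  have h2 := ENNReal.toReal_mono (b := volume (Ioc 0 p.u)) (by simp) (measure_mono hsub)
  rw [Real.volume_Ioc, sub_zero, ENNReal.toReal_ofReal hp.1] at h2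
  exact h2

/-- (helper154) `K_s(v) ≤ K̂(ghPosA g)` for `0 ≤ v ≤ g ≤ 1` -/
theorem b19s_ks_le_kp (hn : 0 < n) (hbh : CkAdm 1 b h) {v g : ℝ} (hv0 : 0 ≤ v) (hvg : v ≤ g) (hg1 : g ≤ 1) :
    b19sKs n b h v ≤ b19sKp n b h (ghPosA g) := by
  unfold b19sKp b19sKs
  have a1 := (gh_os_clamp_mono zero_le_one hbh.2).le_rightLim hvg
  have a2 := (gh_os_clamp_mono zero_le_one hbh.1).le_rightLim hvg
  rw [slc_clamp_eq h hv0 (hvg.trans hg1), ← gh_os_at_posA] at a1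
  rw [slc_clamp_eq b hv0 (hvg.trans hg1), ← gh_os_at_posA] at a2
  have hok := gh_os_posA_ok (a := 1) (hv0.trans hvg) hg1
  have hle : ghPosA v ≤ ghPosA g := by
    rw [gh_os_pos_le_iff]
    rcases eq_or_lt_of_le hvg with h' | h'
    · exact Or.inr ⟨h', le_rfl⟩
    · exact Or.inl h'
  have h3 := exit_clk_SB hn one_pos hbh (gh_os_posA_ok hv0 (hvg.trans hg1)) hok hle
  exact add_le_add a1 (mul_le_mul a2 h3.2.1 h3.1 (gh_os_at_nonneg zero_le_one hbh.1 hok.2.2.1))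

/-- for `0 < v < g`:  `K_s(v) = h(v) + b(v) S(v) ≤ h(g+) + b(g+) S(g) = K̂(ghPosA g)`   (as `slc_alK_ge`) -/
theorem b19s_al_ge (hn : 0 < n) (hbh : CkAdm 1 b h) {g : ℝ} (h0 : 0 ≤ g) (h1 : g ≤ 1) {r : ℝ} (hr : b19sKp n b h (ghPosA g) ≤ r) :
    g ≤ scAlK 1 (b19sKs n b h) r := by
  have hsub : Ioo 0 g ⊆ {v : ℝ | v ∈ Ioo 0 1 ∧ b19sKs n b h v ≤ r} := by
    intro v hv
    exact ⟨⟨hv.1, hv.2.trans_le h1⟩, (b19s_ks_le_kp hn hbh hv.1.le hv.2.le h1).trans hr⟩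
  have h2 := ENNReal.toReal_mono (slc_vol_ne_top 1 (b19sKs n b h) r) (measure_mono hsub)
  rw [Real.volume_Ioo, sub_zero, ENNReal.toReal_ofReal h0] at h2
  exact h2

/-- (helper154) the right limit of the clamped clock at an interior point of continuity -/
theorem b19s_right_eq {c : ℝ → ℝ} {v0 : ℝ} (hv0 : v0 ∈ Ioo (0 : ℝ) 1) (hc : ContinuousAt c v0) :
    Function.rightLim (ghClamp 1 c) v0 = c v0 := by
  have hev : ghClamp 1 c =ᶠ[𝓝 v0] c := by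
    filter_upwards [Ioo_mem_nhds hv0.1 hv0.2] with v hv
    exact slc_clamp_eq c hv.1.le hv.2.le
  have hc' : Tendsto (ghClamp 1 c) (𝓝 v0) (𝓝 (c v0)) := (tendsto_congr' hev).2 hc
  exact rightLim_eq_of_tendsto (hc'.mono_left nhdsWithin_le_nhds)

/-- `gh_os_at_posA`; `rightLim` of a function which is continuous at the point -/
theorem b19s_kp_at {v0 : ℝ} (hv0 : v0 ∈ Ioo (0 : ℝ) 1) (cb : ContinuousAt b v0) (ch : ContinuousAt h v0) :
    b19sKp n b h (ghPosA v0) = b19sKs n b h v0 := by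
  unfold b19sKp b19sKs
  rw [gh_os_at_posA, gh_os_at_posA, b19s_right_eq hv0 cb, b19s_right_eq hv0 ch]

/-- **uniform closeness of the scalar clock of the chain to `K̂`**: `exit_clk_lim_stat` (`δ / (b 1 + 1)`), `b19s_stp_cum`, `gh_os_at_le_top` -/
theorem b19s_K_close (hn : 0 < n) (hbh : CkAdm 1 b h) {δ : ℝ} (hδ : 0 < δ) :
    ∃ F0 : Finset GhPos, ∀ F : Finset GhPos, F0 ⊆ F → ∀ p ∈ ghPs 1 F,
      |b19K n 1 (skCStp 1 b h 0 0 (ghPs 1 F)) (ghIdx (ghPs 1 F) (p : WithTop GhPos)) - b19sKp n b h p| ≤ δ := by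
  have hb1 : 0 ≤ b 1 := hbh.1.2.trans (hbh.1.1 ⟨le_rfl, zero_le_one⟩ ⟨zero_le_one, le_rfl⟩ zero_le_one)
  obtain ⟨F0, hF0⟩ := exit_clk_lim_stat hn one_pos hbh (δ := δ / (b 1 + 1)) (by positivity)
  refine ⟨F0, fun F hF p hp => ?_⟩
  obtain ⟨hpF, hpok⟩ := gh_os_ps_mem.1 hp
  have h1 : |obS n 1 (skCStp 1 b h 0 0 (ghPs 1 F)) 0 (ghIdx (ghPs 1 F) p) - skCS n 1 b h p| ≤ δ / (b 1 + 1) :=
    (hF0 F hF p hpF hpok).1
  obtain ⟨c1, c2⟩ := b19s_stp_cum b h (gh_os_ps_lt 1 F) hp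
  unfold b19K b19sKp
  rw [c1, c2]
  have e : ghAt 1 h p + ghAt 1 b p * obS n 1 (skCStp 1 b h 0 0 (ghPs 1 F)) 0 (ghIdx (ghPs 1 F) p)
      - (ghAt 1 h p + ghAt 1 b p * skCS n 1 b h p)
      = ghAt 1 b p * (obS n 1 (skCStp 1 b h 0 0 (ghPs 1 F)) 0 (ghIdx (ghPs 1 F) p) - skCS n 1 b h p) := by ring
  rw [e, abs_mul, abs_of_nonneg (gh_os_at_nonneg zero_le_one hbh.1 hpok.2.2.1)]
  have h2 : ghAt 1 b p ≤ b 1 := (gh_os_at_le_top zero_le_one hbh.1 hpok).trans (le_of_eq (gh_os_at_top 1 b zero_le_one))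
  calc ghAt 1 b p * |obS n 1 (skCStp 1 b h 0 0 (ghPs 1 F)) 0 (ghIdx (ghPs 1 F) p) - skCS n 1 b h p|
      ≤ b 1 * (δ / (b 1 + 1)) := mul_le_mul h2 h1 (abs_nonneg _) hb1
    _ ≤ δ := by
        rw [mul_div_assoc', div_le_iff₀ (by positivity)]
        nlinarith

/-- `T_N ≤ h(1) + b(1)`:  `b19_cum_ge`/`b19s_stp_cum` at the last position, `gh_os_at_le_top`, `b19_S_mem` -/
theorem b19s_K_top (hn : 0 < n) (hbh : CkAdm 1 b h) (F : Finset GhPos) :
    b19K n 1 (skCStp 1 b h 0 0 (ghPs 1 F)) (ghPs 1 F).length ≤ h 1 + b 1 := by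
  have hb1 : 0 ≤ b 1 := hbh.1.2.trans (hbh.1.1 ⟨le_rfl, zero_le_one⟩ ⟨zero_le_one, le_rfl⟩ zero_le_one)
  have hh1 : 0 ≤ h 1 := hbh.2.2.trans (hbh.2.1 ⟨le_rfl, zero_le_one⟩ ⟨zero_le_one, le_rfl⟩ zero_le_one)
  have hP : SkAdm 1 (skCStp 1 b h 0 0 (ghPs 1 F)) := flb_chain_adm zero_le_one hbh F
  have hlen := slc_stp_length 1 b h (ghPs 1 F) 0 0
  rcases Nat.eq_zero_or_pos (ghPs 1 F).length with h0 | h0
  · rw [h0, b19_K_zero]
    linarith
  · have hj : (ghPs 1 F).length - 1 < (ghPs 1 F).length := by omega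
    have hidx := b19s_idx_get (ghPs 1 F) (gh_os_ps_lt 1 F) _ hj
    have hmem : (ghPs 1 F)[(ghPs 1 F).length - 1] ∈ ghPs 1 F := List.getElem_mem hj
    obtain ⟨c1, c2⟩ := b19s_stp_cum b h (gh_os_ps_lt 1 F) hmem
    have e : (ghPs 1 F).length - 1 + 1 = (ghPs 1 F).length := by omega
    rw [hidx, e] at c1 c2
    have hok := (gh_os_ps_mem.1 hmem).2
    have hS := b19_S_mem hn one_pos hP (j := (ghPs 1 F).length) (by rw [hlen])
    unfold b19K
    rw [c1, c2]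
    have h2 : ghAt 1 b (ghPs 1 F)[(ghPs 1 F).length - 1] ≤ b 1 :=
      (gh_os_at_le_top zero_le_one hbh.1 hok).trans (le_of_eq (gh_os_at_top 1 b zero_le_one))
    have h3 : ghAt 1 h (ghPs 1 F)[(ghPs 1 F).length - 1] ≤ h 1 :=
      (gh_os_at_le_top zero_le_one hbh.2 hok).trans (le_of_eq (gh_os_at_top 1 h zero_le_one))
    refine add_le_add h3 ?_
    calc _ ≤ b 1 * 1 := mul_le_mul h2 hS.2 hS.1 hb1
      _ = b 1 := mul_one _

/-- the index data of the sampled path are admissible -/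
theorem b19s_chain_ok (hn : 0 < n) (hbh : CkAdm 1 b h) (F : Finset GhPos) :
    B19sOk 1 (ghPs 1 F).length (b19sMu (ghPs 1 F)) (b19K n 1 (skCStp 1 b h 0 0 (ghPs 1 F))) := by
  have hP : SkAdm 1 (skCStp 1 b h 0 0 (ghPs 1 F)) := flb_chain_adm zero_le_one hbh F
  have hlen := slc_stp_length 1 b h (ghPs 1 F) 0 0
  refine ⟨b19_K_zero _ _ _, fun j hj => b19_K_mono hn one_pos hP (Nat.le_succ j) (by rw [hlen]; omega), fun j _ => ?_,
    fun j _ => ?_, fun j _ => ?_⟩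
  · rw [← b19s_stp_ms b h]; exact (b19_ms_mem one_pos hP j).1
  · rw [← b19s_stp_ms b h]; exact (b19_ms_mem one_pos hP j).2
  · rw [← b19s_stp_ms b h, ← b19s_stp_ms b h]; exact b19_ms_mono one_pos hP (Nat.le_succ j)

/-! ## 4. the mass profile at a point of strict increase -/

theorem b19s_al_cont {K : ℝ → ℝ} (hK : MonotoneOn K (Ioo 0 1)) {v0 : ℝ} (hv0 : v0 ∈ Ioo (0 : ℝ) 1)
    (inc : ∀ v ∈ Ioo (0 : ℝ) 1, (v < v0 → K v < K v0) ∧ (v0 < v → K v0 < K v)) :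
    ContinuousAt (scAlK 1 K) (K v0) ∧ scAlK 1 K (K v0) = v0 := by
  -- lower and upper bounds of the profile
  have hlo : ∀ v1 ∈ Ioo (0 : ℝ) 1, ∀ t, K v1 ≤ t → v1 ≤ scAlK 1 K t := by
    intro v1 hv1 t ht
    have hsub : Ioo 0 v1 ⊆ {v : ℝ | v ∈ Ioo 0 1 ∧ K v ≤ t} := by
      intro v hv
      exact ⟨⟨hv.1, hv.2.trans hv1.2⟩, (hK ⟨hv.1, hv.2.trans hv1.2⟩ hv1 hv.2.le).trans ht⟩
    have h2 := ENNReal.toReal_mono (slc_vol_ne_top 1 K t) (measure_mono hsub)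
    rw [Real.volume_Ioo, sub_zero, ENNReal.toReal_ofReal hv1.1.le] at h2
    exact h2
  have hhi : ∀ v2 ∈ Ioo (0 : ℝ) 1, ∀ t, t < K v2 → scAlK 1 K t ≤ v2 := by
    intro v2 hv2 t ht
    have hsub : {v : ℝ | v ∈ Ioo 0 1 ∧ K v ≤ t} ⊆ Ioc 0 v2 := by
      intro v hv
      refine ⟨hv.1.1, ?_⟩
      by_contra hlt
      push Not at hlt
      have h1 := hK hv2 hv.1 hlt.le
      have h3 : K v ≤ t := hv.2
      linarith
    have h2 := ENNReal.toReal_mono (b := volume (Ioc 0 v2)) (by simp) (measure_mono hsub)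
    rw [Real.volume_Ioc, sub_zero, ENNReal.toReal_ofReal hv2.1.le] at h2
    exact h2
  have hval : scAlK 1 K (K v0) = v0 := by
    refine le_antisymm ?_ (hlo v0 hv0 _ le_rfl)
    refine le_of_forall_pos_le_add fun ε hε => ?_
    have hv2 : min (v0 + ε) ((v0 + 1) / 2) ∈ Ioo (0 : ℝ) 1 :=
      ⟨lt_min (by linarith [hv0.1]) (by linarith [hv0.1]), (min_le_right _ _).trans_lt (by linarith [hv0.2])⟩
    have h1 := hhi _ hv2 (K v0) ((inc _ hv2).2 (lt_min (by linarith) (by linarith [hv0.2])))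
    exact h1.trans (min_le_left _ _)
  refine ⟨?_, hval⟩
  unfold ContinuousAt
  rw [hval]
  refine tendsto_order.2 ⟨fun a ha => ?_, fun a ha => ?_⟩
  · have hv1 : max a (v0 / 2) ∈ Ioo (0 : ℝ) 1 :=
      ⟨lt_max_of_lt_right (by linarith [hv0.1]), (max_lt ha (by linarith [hv0.1])).trans hv0.2⟩
    have hlt : max a (v0 / 2) < v0 := max_lt ha (by linarith [hv0.1])
    set v1 := (max a (v0 / 2) + v0) / 2 with hv1d
    have hv1' : v1 ∈ Ioo (0 : ℝ) 1 := ⟨by have := hv1.1; have := hv0.1; linarith, by have := hv0.2; linarith⟩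
    have hv1lt : v1 < v0 := by linarith
    filter_upwards [Ioi_mem_nhds ((inc v1 hv1').1 hv1lt)] with t ht
    have := hlo v1 hv1' t (le_of_lt ht)
    have h3 : a ≤ max a (v0 / 2) := le_max_left _ _
    linarith
  · have hlt : v0 < min a ((v0 + 1) / 2) := lt_min ha (by linarith [hv0.2])
    set v2 := (min a ((v0 + 1) / 2) + v0) / 2 with hv2d
    have h4 : min a ((v0 + 1) / 2) ≤ (v0 + 1) / 2 := min_le_right _ _
    have hv2' : v2 ∈ Ioo (0 : ℝ) 1 := ⟨by have := hv0.1; linarith, by have := hv0.2; linarith⟩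
    have hv2lt : v0 < v2 := by linarith
    filter_upwards [Iio_mem_nhds ((inc v2 hv2').2 hv2lt)] with t ht
    have := hhi v2 hv2' t ht
    have h3 : min a ((v0 + 1) / 2) ≤ a := min_le_left _ _
    linarith

/-- `K_s` is nondecreasing and nonnegative on `(0,1)` -/
theorem b19s_ks_mono (hn : 0 < n) (hbh : CkAdm 1 b h) :
    MonotoneOn (b19sKs n b h) (Ioo 0 1) ∧ ∀ v ∈ Ioo (0 : ℝ) 1, 0 ≤ b19sKs n b h v ∧ b19sKs n b h v ≤ h 1 + b 1 := by
  have hpos : ∀ c : ℝ → ℝ, GhClk1 1 c → ∀ v ∈ Icc (0 : ℝ) 1, 0 ≤ c v := fun c hc v hv =>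
    hc.2.trans (hc.1 ⟨le_rfl, zero_le_one⟩ hv hv.1)
  have hA : ∀ u v : ℝ, u ≤ v → ghPosA u ≤ ghPosA v := by
    intro u v huv
    rw [gh_os_pos_le_iff]
    rcases eq_or_lt_of_le huv with h' | h'
    · exact Or.inr ⟨h', le_rfl⟩
    · exact Or.inl h'
  refine ⟨fun u hu v hv huv => ?_, fun v hv => ?_⟩
  · unfold b19sKs
    have hu' : u ∈ Icc (0 : ℝ) 1 := ⟨hu.1.le, hu.2.le⟩
    have hv' : v ∈ Icc (0 : ℝ) 1 := ⟨hv.1.le, hv.2.le⟩
    have h3 := exit_clk_SB hn one_pos hbh (gh_os_posA_ok hu'.1 hu'.2) (gh_os_posA_ok hv'.1 hv'.2) (hA u v huv)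
    exact add_le_add (hbh.2.1 hu' hv' huv) (mul_le_mul (hbh.1.1 hu' hv' huv) h3.2.1 h3.1 (hpos b hbh.1 v hv'))
  · unfold b19sKs
    have hv' : v ∈ Icc (0 : ℝ) 1 := ⟨hv.1.le, hv.2.le⟩
    have h1' : (1 : ℝ) ∈ Icc (0 : ℝ) 1 := ⟨zero_le_one, le_rfl⟩
    obtain ⟨s0, -, -, s1, s2⟩ := exit_clk_SB hn one_pos hbh (gh_os_posA_ok hv'.1 hv'.2) (gh_os_posA_ok hv'.1 hv'.2) le_rfl
    have hS1 : skCS n 1 b h (ghPosA v) ≤ 1 := by nlinarith
    refine ⟨add_nonneg (hpos h hbh.2 v hv') (mul_nonneg (hpos b hbh.1 v hv') s0), ?_⟩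
    refine add_le_add (hbh.2.1 hv' h1' hv.2.le) ?_
    calc b v * skCS n 1 b h (ghPosA v) ≤ b 1 * 1 := mul_le_mul (hbh.1.1 hv' h1' hv.2.le) hS1 s0 (hpos b hbh.1 1 h1')
      _ = b 1 := mul_one _

/-! ## 5. the block on the net, clocks of `Defs/Clk.lean` -/

theorem b19s_core (hn : 0 < n) (hbh : CkAdm 1 b h) {v0 G τ : ℝ} (hv0 : v0 ∈ Ioo (0 : ℝ) 1) (cb : ContinuousAt b v0) (ch : ContinuousAt h v0)
    (inc : ∀ v ∈ Ioo (0 : ℝ) 1, (v < v0 → b19sKs n b h v < b19sKs n b h v0) ∧ (v0 < v → b19sKs n b h v0 < b19sKs n b h v))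
    (hτ : h 1 + b 1 + 1 ≤ τ)
    (hG : ∀ η : ℝ, 0 < η → ∃ t1 t2 : ℝ, b19sKs n b h v0 - η < t1 ∧ t1 < b19sKs n b h v0 ∧ b19sKs n b h v0 < t2 ∧ t2 < b19sKs n b h v0 + η ∧
      |scaM2 (scLC 1) (scAlK 1 (b19sKs n b h)) τ t2 - scaM2 (scLC 1) (scAlK 1 (b19sKs n b h)) τ t1| ≤ G * (t2 - t1))
    {δ0 : ℝ} (hδ0 : 0 < δ0) :
    BmEv 1 fun ps => |2 * b19sCpin 1 (b19KP n 1 (skCStp 1 b h 0 0 ps)) (ghIdx ps ((ghPosA v0 : GhPos) : WithTop GhPos))| ≤ G + δ0 := by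
  obtain ⟨hKm, hKb⟩ := b19s_ks_mono (n := n) hn hbh
  obtain ⟨hac, hav⟩ := b19s_al_cont hKm hv0 inc
  -- `0 < t0 < τ`
  have ht0 : b19sKs n b h v0 ∈ Ioo 0 τ := by
    have h1 := (inc (v0 / 2) ⟨by linarith [hv0.1], by linarith [hv0.1, hv0.2]⟩).1 (by linarith [hv0.1])
    have h2 := (hKb (v0 / 2) ⟨by linarith [hv0.1], by linarith [hv0.1, hv0.2]⟩).1
    exact ⟨by linarith, by linarith [(hKb v0 hv0).2]⟩
  have hτ0 : 0 < τ := ht0.1.trans ht0.2
  obtain ⟨ε, hε, H⟩ := b19s_main (a := 1) one_pos hτ0 (slc_alK_mono 1 (b19sKs n b h))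
    (fun r => ⟨slc_alK_nonneg 1 _ r, slc_alK_le zero_le_one _ r⟩) ht0 hac hav hG hδ0
  obtain ⟨F1, hF1⟩ := b19s_K_close (n := n) hn hbh hε
  obtain ⟨k, hk⟩ := slc_pow_small (C := 1) hε
  refine BmEv.of_superset (ghGrid 1 k ∪ ({ghPosA v0} ∪ F1)) fun F hF => ?_
  have hf : SlcFine 1 k ({ghPosA v0} ∪ F1) (ghPs 1 F) := slc_fine_ps 1 zero_le_one k _ hF
  have hF1' : F1 ⊆ F := fun x hx => hF (Finset.mem_union_right _ (Finset.mem_union_right _ hx))
  have hok := b19s_chain_ok (n := n) hn hbh F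
  have hcl0 := b19s_chain_cl hf (Kp := b19sKp n b h) (α := scAlK 1 (b19sKs n b h)) (T := b19K n 1 (skCStp 1 b h 0 0 (ghPs 1 F))) (δ := ε)
    (fun j l hjl hl => hok.mono_T hjl hl) (hF1 F hF1') (fun p hp r hr => b19s_al_le_of_lt hn hbh hp hr)
    (fun g g0 g1 r hr => b19s_al_ge hn hbh g0 g1 hr) (fun r => slc_alK_nonneg 1 _ r)
  have hcl : B19sCl 1 (scAlK 1 (b19sKs n b h)) ε ε (ghPs 1 F).length (b19sMu (ghPs 1 F)) (b19K n 1 (skCStp 1 b h 0 0 (ghPs 1 F))) :=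
    ⟨hcl0.up, fun j hj r hr => by linarith [hcl0.lo j hj r hr], fun r hr => by linarith [hcl0.top r hr]⟩
  obtain ⟨i1, iN, m1, m2, m3⟩ := b19s_chain_at hf hv0 (Finset.mem_union_left _ (Finset.mem_singleton_self _))
  have hmem : ghPosA v0 ∈ ghPs 1 F := hf.2.2.2 _ (Finset.mem_union_left _ (Finset.mem_singleton_self _))
    (gh_os_posA_ok hv0.1.le hv0.2.le)
  have hTi := hF1 F hF1' _ hmem
  rw [b19s_kp_at hv0 cb ch] at hTi
  have e : b19KP n 1 (skCStp 1 b h 0 0 (ghPs 1 F))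
      = b19sMk (ghPs 1 F).length (b19sMu (ghPs 1 F)) (b19K n 1 (skCStp 1 b h 0 0 (ghPs 1 F))) := by
    rw [b19s_kp_eq, slc_stp_length]
    congr 1
    funext j
    exact b19s_stp_ms b h _ j
  rw [e]
  refine H _ _ _ _ hok iN (by linarith [b19s_K_top (n := n) hn hbh F]) hcl ?_ hTi ?_
  · rw [abs_le]; constructor <;> linarith
  · rw [if_neg (by omega), m1]; linarith

/-! ## 6. THE CONTRACT -/

theorem b19s_ext_eq (c : ℝ → ℝ) {v : ℝ} (hv : v ∈ Ioo (0 : ℝ) 1) : bmExt c v = c v := by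
  unfold bmExt
  rw [if_neg (not_le.2 hv.1), if_pos hv.2]

theorem b19s_ext_cont {c : ℝ → ℝ} {v0 : ℝ} (hv0 : v0 ∈ Ioo (0 : ℝ) 1) (hc : ContinuousAt c v0) : ContinuousAt (bmExt c) v0 := by
  refine hc.congr ?_
  filter_upwards [isOpen_Ioo.mem_nhds hv0] with v hv
  exact (b19s_ext_eq c hv).symm

theorem b19s_alK_congr {K K' : ℝ → ℝ} (h : ∀ v ∈ Ioo (0 : ℝ) 1, K v = K' v) : scAlK 1 K = scAlK 1 K' := by
  funext t
  unfold scAlK
  congr 2
  ext v
  constructor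
  · rintro ⟨hv, hk⟩; exact ⟨hv, by rw [← h v hv]; exact hk⟩
  · rintro ⟨hv, hk⟩; exact ⟨hv, by rw [h v hv]; exact hk⟩


/-- the wrapper: `W.IsHub` (`S`, `Gam`), `sb7_gam`, `sc2_Gam_hasDerivAt` (`deriv Γ_s = M2` on `(0, τ)`), `bmExt c = c` on `(0,1)`, `b19s_cp_eq`.
`τ := bmExt hq 1 + bmExt bq 1 + 1`.   `Q.Ks W g = b19sKs F.m (Q.bE g) (Q.hE g)` on `(0,1)`, and `scAlK 1`, `W.Gam`-as-`bmGam` only see `(0,1)` (for `W.Gam`: rewrite `Gs` by `hW.Gam` for the clock `Q.Ks W g` itself, then `sb7_gam`, then the congruence of `scAlK 1`). -/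
theorem b19s_contract {F : BdFr} {X : BdFix} (Q : BdQ F X) {W : BdWorld} (hW : W.IsHub) (g : ℝ) (hm : 0 < F.m)
    (hb : IsClock 1 (Q.bq g)) (hh : IsClock 1 (Q.hq g)) {v0 G2 : ℝ} (hv0 : v0 ∈ Ioo (0 : ℝ) 1)
    (cb : ContinuousAt (Q.bq g) v0) (ch : ContinuousAt (Q.hq g) v0)
    (inc : ∀ v ∈ Ioo (0 : ℝ) 1, (v < v0 → Q.Ks W g v < Q.Ks W g v0) ∧ (v0 < v → Q.Ks W g v0 < Q.Ks W g v))
    (hG : ∀ η : ℝ, 0 < η → ∃ t1 t2 : ℝ, Q.Ks W g v0 - η < t1 ∧ t1 < Q.Ks W g v0 ∧ Q.Ks W g v0 < t2 ∧ t2 < Q.Ks W g v0 + η ∧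
      |deriv (Q.Gs W g) t2 - deriv (Q.Gs W g) t1| ≤ G2 * (t2 - t1)) {δ : ℝ} (hδ : 0 < δ) :
    BmEv 1 fun ps => |b19Cp F.m 1 (Q.stp g ps) (BdQ.ixV ps v0)| ≤ G2 / 2 + δ := by
  have hbh : CkAdm 1 (Q.bE g) (Q.hE g) := ⟨sb7_ext_clk hb, sb7_ext_clk hh⟩
  have hKs : ∀ v ∈ Ioo (0 : ℝ) 1, Q.Ks W g v = b19sKs F.m (Q.bE g) (Q.hE g) v := by
    intro v hv
    unfold BdQ.Ks BdQ.Sq b19sKs BdQ.bE BdQ.hE
    rw [hW.S F.m hm _ _ hb hh v hv, b19s_ext_eq _ hv, b19s_ext_eq _ hv]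
  obtain ⟨hKm, hKb⟩ := b19s_ks_mono (n := F.m) hm hbh
  obtain ⟨τ, hτd⟩ : ∃ τ, τ = Q.hE g 1 + Q.bE g 1 + 1 := ⟨_, rfl⟩
  have hK : IsClock 1 (Q.Ks W g) := by
    refine ⟨fun u hu v hv huv => ?_, fun v hv => ?_, ⟨τ, fun v hv => ?_⟩⟩
    · rw [hKs u hu, hKs v hv]; exact hKm hu hv huv
    · rw [hKs v hv]; exact (hKb v hv).1
    · rw [hKs v hv, hτd]; linarith [(hKb v hv).2]
  have hKτ : ∀ v ∈ Ioo (0 : ℝ) 1, Q.Ks W g v ≤ τ := fun v hv => by rw [hKs v hv, hτd]; linarith [(hKb v hv).2]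
  have hal : scAlK 1 (Q.Ks W g) = scAlK 1 (b19sKs F.m (Q.bE g) (Q.hE g)) := b19s_alK_congr hKs
  have e0 := hKs v0 hv0
  have inc' : ∀ v ∈ Ioo (0 : ℝ) 1, (v < v0 → b19sKs F.m (Q.bE g) (Q.hE g) v < b19sKs F.m (Q.bE g) (Q.hE g) v0) ∧
      (v0 < v → b19sKs F.m (Q.bE g) (Q.hE g) v0 < b19sKs F.m (Q.bE g) (Q.hE g) v) := by
    intro v hv
    rw [← hKs v hv, ← e0]
    exact inc v hv
  have ht0 : Q.Ks W g v0 ∈ Ioo 0 τ := by
    have h1 := (inc (v0 / 2) ⟨by linarith [hv0.1], by linarith [hv0.1, hv0.2]⟩).1 (by linarith [hv0.1])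
    have h2 := hK.nonneg (v0 / 2) ⟨by linarith [hv0.1], by linarith [hv0.1, hv0.2]⟩
    refine ⟨by linarith, ?_⟩
    rw [e0, hτd]; linarith [(hKb v0 hv0).2]
  have hτ0 : 0 < τ := ht0.1.trans ht0.2
  have hα : ScCoef 1 τ (scAlK 1 (Q.Ks W g)) := slc_alK zero_le_one τ _
  have hGs : ∀ t ∈ Icc 0 τ, Q.Gs W g t = scaGam (scLC 1) (scAlK 1 (Q.Ks W g)) τ t := by
    intro t ht
    unfold BdQ.Gs
    rw [hW.Gam _ hK t ht.1, sb7_gam hK hKτ ht.1 ht.2 hτ0]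
  have hder : ∀ t ∈ Ioo 0 τ, deriv (Q.Gs W g) t = scaM2 (scLC 1) (scAlK 1 (Q.Ks W g)) τ t := by
    intro t ht
    refine ((sc2_Gam_hasDerivAt one_pos hτ0 hα ht).congr_of_eventuallyEq ?_).deriv
    filter_upwards [Icc_mem_nhds ht.1 ht.2] with u hu
    exact hGs u hu
  have hG' : ∀ η : ℝ, 0 < η → ∃ t1 t2 : ℝ, b19sKs F.m (Q.bE g) (Q.hE g) v0 - η < t1 ∧ t1 < b19sKs F.m (Q.bE g) (Q.hE g) v0 ∧
      b19sKs F.m (Q.bE g) (Q.hE g) v0 < t2 ∧ t2 < b19sKs F.m (Q.bE g) (Q.hE g) v0 + η ∧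
      |scaM2 (scLC 1) (scAlK 1 (b19sKs F.m (Q.bE g) (Q.hE g))) τ t2 - scaM2 (scLC 1) (scAlK 1 (b19sKs F.m (Q.bE g) (Q.hE g))) τ t1|
        ≤ G2 * (t2 - t1) := by
    intro η hη
    rw [← e0, ← hal]
    obtain ⟨t1, t2, a1, a2, a3, a4, a5⟩ := hG (min η (min (Q.Ks W g v0) (τ - Q.Ks W g v0)))
      (lt_min hη (lt_min ht0.1 (by linarith [ht0.2])))
    have m1 := min_le_left η (min (Q.Ks W g v0) (τ - Q.Ks W g v0))
    have m2 := (min_le_right η (min (Q.Ks W g v0) (τ - Q.Ks W g v0))).trans (min_le_left _ _)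
    have m3 := (min_le_right η (min (Q.Ks W g v0) (τ - Q.Ks W g v0))).trans (min_le_right _ _)
    refine ⟨t1, t2, by linarith, a2, a3, by linarith, ?_⟩
    rw [← hder t1 ⟨by linarith, by linarith [ht0.2]⟩, ← hder t2 ⟨by linarith [ht0.1], by linarith⟩]
    exact a5
  have core := b19s_core (n := F.m) hm hbh hv0 (b19s_ext_cont hv0 cb) (b19s_ext_cont hv0 ch) inc' (τ := τ) (by rw [hτd]) hG'
    (δ0 := 2 * δ) (by linarith)
  refine core.mono fun ps hps => ?_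
  have hi : BdQ.ixV ps v0 ≤ (Q.stp g ps).length := by
    unfold BdQ.ixV BdQ.stp
    rw [slc_stp_length]
    exact brg_t_idx_coe_le ps _
  rw [b19s_cp_eq _ _ _ hi]
  have : |2 * b19sCpin 1 (b19KP F.m 1 (Q.stp g ps)) (BdQ.ixV ps v0)| ≤ G2 + 2 * δ := hps
  rw [abs_mul, abs_of_pos (by norm_num : (0 : ℝ) < 2)] at this
  linarith

end

end Claimed.Agent.R286
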