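import Claimed.Agent.R286.Bud.Mom

/-!
# Row 286, LL sec. 7, l.1151-1850: STATEMENTS of the nodes N10, N13, N14, N15      (helper212; types `BdI`, `BdVI`, `BdStd`, Props `BudC*`)

Only definitions.  Every exit of the package is a `def BudXxx … : Prop` here and a theorem `bud_xxx` in `Bud/L8.lean`.
Vocabulary: `Bud/Defs.lean` (157).   FORM: uniform (`BdO`, `BdSub`, `BdPow`, `BdEv`) over an explicit instance type.

* `BdFr.stg X n`      the same path data with the box (C5) of the stage index `n` (`n = j + 1`).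
* `BdFr.cg`           `c_g = -∂_{γ_0} b`.
* `BdFr.R0`, `Bcal`   restored bare pressure, the budget `𝓑` of l.56.
* `BdStd X W Fam K`   THE STANDING HYPOTHESIS on the family of frames (deterministic part: (P3), (P6), (P10), admissibility, slopes of `β_0`).
* `BdWorld.IsSk`      THE STANDING HYPOTHESIS on the world = `BdWorld.IsHub` (198, `Bud/Mom.lean`).
* `BdI`, `BdVI`       instances: (frame, parameter, optimiser), (frame, buffered violation).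
* `BudOptEx BudExc0 BudR0 BudC7al`      INPUTS of N10 (owners: 109, PE6/162, 162 (N1), 12).
* `BudC12 BudZ BudCost BudStep BudC13`  (C12), the majorant, the averaged excess, the stage cost, (C13).
* `BudC15a/b/c`, `BudC16a/b/c`, `BudC17a/b`.
* `BdDom`, `bdLcF`, `bdLcU`, `BdQ.nLcU`      the SOLID form of the centred primitive (sup over the weights INSIDE the limit along the chains).
-/

set_option autoImplicit false

namespace Claimed.Agent.R286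

open MeasureTheory Set Filter Topology

noncomputable section

/-! ## 0. Stage frames, the parameter direction, the standing hypothesis -/

namespace BdFr

variable (F : BdFr) (X : BdFix) (W : BdWorld)

/-- the same path data with the box of the stage index `n` -/
def stg (n : ℕ) : BdFr := { F with st := n, kap := F.kstage X n, Ilo := X.plo n, Ihi := X.phi n }

/-- `c_g = -∂_{γ_0} b` (the clocks are affine in `g`) -/
def cg (v : ℝ) : ℝ := F.b 0 v - F.b 1 v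

/-- the restored bare pressure `R = f_m^0 - ¼∫ b q² + ½∫_{v ≥ x} d q` (l.52) -/
def R0 (g : ℝ) : ℝ :=
  F.f0 W g - (1 / 4) * (∫ v in (0 : ℝ)..1, F.b g v * F.q v ^ 2) + (1 / 2) * ∫ v in F.xm..1, F.d v * F.q v

/-- the budget `𝓑` of l.56; `cG` = the exponent of the global comparison (G1) -/
def Bcal (cG : ℝ) : ℝ :=
  F.x ^ (4 + cG) + F.lam ^ (1 + 2 * X.eta) * F.U X ^ (5 : ℝ) + F.chiE ^ 2 * F.lam ^ (1 + 2 * X.eta) * F.U X ^ (4 : ℝ)
    + F.chiL ^ 2 * F.x ^ (6 : ℝ) / F.lam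

/-- the cost scale `x^{4-2ζ} u Λ^{1/3}` -/
def cost : ℝ := F.x ^ (4 - 2 * X.zeta) * F.u * F.Lam ^ (1 / 3 : ℝ)

end BdFr

/-- fixed constants of the standing hypothesis -/
structure BdCst where
  /-- slopes of `β_0` on `[0, c_I u]` -/
  cb : ℝ
  Cb : ℝ
  /-- `c_g ≤ Cg λ` -/
  Cg : ℝ
  /-- exponent of the global comparison -/
  cG : ℝ

/-- **the standing hypothesis**, deterministic part: what N10, N11 use of the family `Fam` of normalised direct paths at `γ_u = 0`.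
(P3): `b` affine in `g`, `c_g ≍ λ(v² + U²)`; (P6), (P10): `∂_g h = c_g q` above the mask, `h = 0` on it; all changed clocks are admissible. -/
structure BdStd (X : BdFix) (W : BdWorld) (Fam : BdFr → Prop) (K : BdCst) : Prop where
  fix : X.Ok
  cb_pos : 0 < K.cb
  cG_pos : 0 < K.cG
  /-- `12 (1 - 2 s_0) < c_G`, `h_e ≪ c_G` -/
  cG_s0 : 24 * (1 - 2 * X.s0) ≤ K.cG
  cG_he : 2 * X.he ≤ K.cG
  /-- `c_H` is LARGE (LL l.1595): the observed masses `α(r) ≤ (C_b c_I + 2) u`, `r ≤ c_I u`, lie below `c_H u / 2` (flags F1 of 143, H2 of 161, A4 of 248) -/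
  cH_big : 2 * (K.Cb * X.cI + 2) ≤ X.cH
  ok : ∀ F, Fam F → F.Ok X
  /-- only the path data matter: every box (C5) on a path of the family is in the family -/
  box : ∀ F F' : BdFr, Fam F → F'.Ok X → { F' with st := F.st, kap := F.kap, Ilo := F.Ilo, Ihi := F.Ihi } = F → Fam F'
  a1 : ∀ m, (W.ps m).a = 1
  b_aff : ∀ F, Fam F → ∀ g v, F.b g v = F.b 0 v - g * F.cg v
  h_aff : ∀ F, Fam F → ∀ g v, F.xm ≤ v → F.h g v = F.h 0 v + g * (F.cg v * F.q v)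
  h_mask : ∀ F, Fam F → ∀ g v, v < F.xm → F.h g v = 0
  cg_lo : ∀ F, Fam F → ∀ v ∈ Ioo (0 : ℝ) 1, 4 * X.cN * F.lam * (v ^ 2 + F.U X ^ 2) ≤ F.cg v
  cg_hi : ∀ F, Fam F → ∀ v ∈ Ioo (0 : ℝ) 1, F.cg v ≤ K.Cg * F.lam
  cg_meas : ∀ F, Fam F → Measurable F.cg
  q_mono : ∀ F, Fam F → MonotoneOn F.q (Icc 0 1)
  q_mem : ∀ F, Fam F → ∀ v ∈ Icc (0 : ℝ) 1, F.q v ∈ Icc (0 : ℝ) 1
  d_int : ∀ F, Fam F → IntervalIntegrable F.d volume 0 1
  clk0 : ∀ F, Fam F → ∀ g ∈ Icc (X.glo 0) (X.ghi 0), IsClock 1 (F.b g) ∧ IsClock 1 (F.h g)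
  clk : ∀ F, Fam F → ∀ g ∈ Icc (X.glo 0) (X.ghi 0), ∀ Q : BdQ F X, IsClock 1 (Q.bq g) ∧ IsClock 1 (Q.hq g)
  /-- `β_0 = q⁻¹` has slopes in `[cb, Cb]` on `[0, c_I u]`, `β_0(0) = 0` -/
  beta : ∀ F, Fam F → ∀ r1 r2 : ℝ, 0 ≤ r1 → r1 ≤ r2 → r2 ≤ X.cI * F.u →
    K.cb * (r2 - r1) ≤ F.beta0 r2 - F.beta0 r1 ∧ F.beta0 r2 - F.beta0 r1 ≤ K.Cb * (r2 - r1)
  beta_zero : ∀ F, Fam F → F.beta0 0 = 0
  /-- the removal profile is constant on `[0, c_I u]` -/
  Cconst : ∀ F, Fam F → ∀ r ∈ Icc (0 : ℝ) (X.cI * F.u), F.C X r = F.C0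

/-! ## 0'. The world is the SK world -/

/-- **the world is the SK world** = `BdWorld.IsHub` of `Bud/Mom.lean` (198): `f, S, B, Gam, fsp, nu, nLc, nWw, trC2` ARE the numbers of `Defs/Clk.lean` at terminal mass `1` -/
abbrev BdWorld.IsSk (W : BdWorld) : Prop := W.IsHub

/-! ## 0''. The solid form of the centred primitive -/

/-- the weights dominated by `k` -/
def BdDom (k κ : ℝ → ℝ) : Prop := Measurable κ ∧ ∀ v, |κ v| ≤ |k v|

/-- **the solid norm on ONE chain**: `sup_{|κ| ≤ |k|} ‖∫_0^1 κ_v (L_v - E L_v) dv‖_2` on the chain `ghPs 1 F` (the norm is the one of `BdWorld.IsHub.nLc`, `p = 2`) -/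
def bdLcF (m : ℕ) (b h k : ℝ → ℝ) (F : Finset GhPos) : ℝ :=
  ⨆ κ : {κ : ℝ → ℝ // BdDom k κ}, bmN1 m 1 (skCStp 1 (bmExt b) (bmExt h) 0 0 (ghPs 1 F)) 2 fun ξ σ =>
    ∫ v in (0 : ℝ)..1, κ.1 v * bmLc m 1 (skCStp 1 (bmExt b) (bmExt h) 0 0 (ghPs 1 F))
      (ghIdx (ghPs 1 F) ((ghPosA v : GhPos) : WithTop GhPos)) ξ σ

/-- **the solid norm of the path**: upper limit along the net of chains, THE SUPREMUM INSIDE.      Theory: `Bud/PinUq.lean` (Minkowski, variance, boundedness = the axioms of `HpS.Ok`). -/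
def bdLcU (m : ℕ) (b h k : ℝ → ℝ) : ℝ := limsup (bdLcF m b h k) atTop

/-- the solid norm of the changed path -/
def BdQ.nLcU {F : BdFr} {X : BdFix} (Q : BdQ F X) (g : ℝ) (k : ℝ → ℝ) : ℝ := bdLcU F.m (Q.bq g) (Q.hq g) k

/-! ## 1. Instances -/

/-- instance: frame, parameter, optimiser -/
structure BdI (X : BdFix) where
  F : BdFr
  g : ℝ
  Q : BdQ F X

/-- any box (C5), any parameter of the widest interval, any minimiser -/
def BdI.Ok {X : BdFix} (W : BdWorld) (Fam : BdFr → Prop) (i : BdI X) : Prop :=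
  Fam i.F ∧ i.g ∈ Icc (X.glo 0) (X.ghi 0) ∧ i.Q.IsOpt W i.g

/-- a box of a STAGE (C11), any parameter of the widest interval, any minimiser.
(161, hostile reading of l.152: "`I/u` is a FIXED closed subinterval of `(0,c_I)`"; `BdFr.Ok` allows every `0 < Ilo`, and then (C16) is not claimed by the paper.) -/
def BdI.OkSt {X : BdFix} (W : BdWorld) (Fam : BdFr → Prop) (i : BdI X) : Prop := i.Ok W Fam ∧ i.F.AtStage X

/-- instance: frame, buffered violation -/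
structure BdVI (X : BdFix) (W : BdWorld) where
  F : BdFr
  V : BdViol F X W

/-- a buffered violation at the stage index `n` of a frame of the family which carries the box of its stage -/
def BdVI.Ok {X : BdFix} {W : BdWorld} (Fam : BdFr → Prop) (n : ℕ) (Cbuf : ℝ) (i : BdVI X W) : Prop :=
  Fam i.F ∧ i.F.AtStage X ∧ i.F.st = n ∧ i.V.Ok Cbuf ∧ i.V.L ≤ 1

section Props

variable (X : BdFix) (W : BdWorld) (Fam : BdFr → Prop)

/-! ## 2. Inputs of the envelope -/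

/-- [INPUT, owner 109 (N4)]  a minimiser exists for every box and every parameter -/
def BudOptEx : Prop :=
  ∀ F, Fam F → ∀ g ∈ Icc (X.glo 0) (X.ghi 0), ∃ Q : BdQ F X, Q.IsOpt W g

/-- [INPUT, owner 162 / PE Prop. 6.6]  l.139: at the stage `-1` the optimised excess is `≲ x^{4-2ζ} u Λ^{1/3}`, for every parameter -/
def BudExc0 : Prop :=
  BdO (fun i : BdFr × ℝ => i.1.N) (fun i => Fam i.1 ∧ i.1.AtStage X ∧ i.1.st = 0 ∧ i.2 ∈ Icc (X.glo 0) (X.ghi 0))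
    (fun i => i.1.exc X W i.2) (fun i => i.1.cost X)

/-- [INPUT, owner 162 (N1)]  l.50-60: `|R - f_spin(K)| ≲_∘ 𝓑` on the widest parameter interval -/
def BudR0 (cG : ℝ) : Prop :=
  BdSub (fun i : BdFr × ℝ => i.1.N) (fun i => Fam i.1 ∧ i.2 ∈ Icc (X.glo 0) (X.ghi 0))
    (fun i => |i.1.R0 W i.2 - W.fsp i.1.K|) (fun i => i.1.Bcal X cG)

/-- [INPUT, owner 12 (N9)]  (C7), second part, in the inverse variable, on the widest patch: `sup |α - β_0| = o(u)` -/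
def BudC7al : Prop :=
  Bdo (fun i : BdI X × ℝ => i.1.F.N)
    (fun i => i.1.Ok W Fam ∧ i.2 ∈ Icc (X.plo 0 * i.1.F.u) (X.phi 0 * i.1.F.u))
    (fun i => |i.1.Q.al i.2 - i.1.F.beta0 i.2|) (fun i => i.1.F.u)

/-! ## 3. (C12), the majorant, the cost, (C13) -/

/-- frames of the family which carry the box of the stage index `n` -/
def BdAt (n : ℕ) (F : BdFr) : Prop := Fam F ∧ F.AtStage X ∧ F.st = n

/-- **(C12)** at the stage index `n`: for every good parameter, simultaneously for all minimisers.     TEX[LL:bud:strengthening] -/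
def BudC12 (n : ℕ) : Prop :=
  BdO (fun i : BdI X × ℝ => i.1.F.N)
    (fun i => BdAt X Fam n i.1.F ∧ i.1.g ∈ Icc (X.glo n) (X.ghi n) ∧ i.1.F.GoodG X W i.1.g ∧ i.1.Q.IsOpt W i.1.g ∧
      i.2 ∈ Icc (X.qlo n * i.1.F.u) (X.qhi n * i.1.F.u))
    (fun i => |i.1.Q.al i.2 - i.1.F.beta0 i.2|) (fun i => i.1.F.u * i.1.F.aj X * i.1.F.Zj X W i.1.g)

/-- **the majorant** of the stage index `n`: `Z ≥ 1`, a.e. parameter is good, `Z²` is integrable with bounded average -/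
def BudZ (n : ℕ) : Prop :=
  ∃ C : ℝ, ∃ N0 : ℕ, ∀ F, BdAt X Fam n F → N0 ≤ F.N →
    (∀ g ∈ Icc (X.glo n) (X.ghi n), 1 ≤ F.Zj X W g) ∧ (∀ᵐ g ∂(volume.restrict (Icc (X.glo n) (X.ghi n))), F.GoodG X W g) ∧
    IntervalIntegrable (fun g => F.Zj X W g ^ 2) volume (X.glo n) (X.ghi n) ∧
    ∫ g in (X.glo n)..(X.ghi n), F.Zj X W g ^ 2 ≤ C

/-- **the averaged optimised excess** at the stage index `n`, over the parameter interval of the stage index `k`;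
the excess is nonnegative, continuous.     TEX[LL:bud:envelope] (first assertion) -/
def BudCost (n k : ℕ) : Prop :=
  ∃ C : ℝ, ∃ N0 : ℕ, ∀ F, BdAt X Fam n F → N0 ≤ F.N →
    (∀ g ∈ Icc (X.glo 0) (X.ghi 0), 0 ≤ F.exc X W g) ∧ ContinuousOn (F.exc X W) (Icc (X.glo 0) (X.ghi 0)) ∧
    ∫ g in (X.glo k)..(X.ghi k), F.exc X W g ≤ C * F.cost X

/-- **the stage cost** (l.1190-1228): `V_{j}(g) ≤ V_{j-1}(g) + C x⁴ u Λ^{1/3} Z_{j-1}(g)²` at every good parameter of the preceding stage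
(ONE-SIDED: closed form, not `BdO`) -/
def BudStep (n : ℕ) : Prop :=
  ∃ C : ℝ, ∃ N0 : ℕ, ∀ F, BdAt X Fam n F → N0 ≤ F.N → ∀ g ∈ Icc (X.glo n) (X.ghi n), F.GoodG X W g →
    (F.stg X (n + 1)).V X W g ≤ F.V X W g + C * (F.x ^ (4 : ℝ) * F.u * F.Lam ^ (1 / 3 : ℝ) * F.Zj X W g ^ 2)

/-- **(C13)** at the stage index `n ≥ 1`.     TEX[LL:bud:envelope] -/
def BudC13 (n : ℕ) : Prop :=
  BdEv (fun i : BdI X => i.F.N)
    (fun i => BdAt X Fam n i.F ∧ i.g ∈ Icc (X.glo n) (X.ghi n) ∧ i.F.GoodG X W i.g ∧ i.Q.IsOpt W i.g)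
    (fun i => i.Q.Nn2 W i.g ≤ (i.F.x ^ (2 : ℝ) * i.F.lam ^ (-X.s0) * i.F.Zj X W i.g) ^ 2 ∧
      (i.F.Fin13 X → i.Q.Nn2 W i.g ≤ (i.F.x ^ (2 + X.he / 4) * i.F.Zj X W i.g) ^ 2))

/-! ## 4. (C15): moments on moving boxes -/

/-- **(C15), first assertion**: `‖Q_v - S_v‖_{2l} ≲_l d_0` at every fork of the inner buffer `Buf s`.     TEX[LL:bud:box-moments] -/
def BudC15a (n : ℕ) (Cbuf s : ℝ) : Prop :=
  ∀ l : ℕ, 1 ≤ l →
    BdO (fun i : BdVI X W × ℝ => i.1.F.N)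
      (fun i => i.1.Ok Fam n Cbuf ∧ i.2 ∈ Icc (0 : ℝ) 1 ∧ i.1.V.Q.r i.2 ∈ i.1.V.Buf s)
      (fun i => i.1.V.Q.nQ W i.1.V.g (2 * l) i.2 (i.1.V.Q.Sq W i.1.V.g i.2)) (fun i => i.1.V.d0)

/-- **(C15), second assertion**: `avg D² ≲ d_0² λ^{0.14}` for both box averages, uniformly over moving boxes -/
def BudC15b (n : ℕ) (Cbuf s c C : ℝ) : Prop :=
  BdO (fun i : BdVI X W × ℝ × ℝ => i.1.F.N)
    (fun i => i.1.Ok Fam n Cbuf ∧ i.1.V.IsBox s c C i.2.1 i.2.2)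
    (fun i => i.1.V.avgR i.2.1 i.2.2 (i.1.V.Q.Dq2 W i.1.V.g) + i.1.V.avgV i.2.1 i.2.2 (i.1.V.Q.Dq2 W i.1.V.g))
    (fun i => i.1.V.d0 ^ 2 * i.1.F.lam ^ (0.14 : ℝ))

/-- **(C15), third assertion**: the alias error, `avg E(Q - |X|²)² ≲_∘ λ^{-ρ} u² A³` -/
def BudC15c (n : ℕ) (Cbuf s c C : ℝ) : Prop :=
  BdSub (fun i : BdVI X W × ℝ × ℝ => i.1.F.N)
    (fun i => i.1.Ok Fam n Cbuf ∧ i.1.V.IsBox s c C i.2.1 i.2.2)
    (fun i => i.1.V.avgR i.2.1 i.2.2 (i.1.V.Q.alErr W i.1.V.g) + i.1.V.avgV i.2.1 i.2.2 (i.1.V.Q.alErr W i.1.V.g))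
    (fun i => i.1.F.lam ^ (-X.rho) * i.1.F.u ^ 2 * i.1.F.A ^ 3)

/-! ## 5. (C16): integrated errors at free forks (every box (C5) of a stage, every minimiser; no violation) -/

/-- `∫_0^{c_H u} D_v dv ≲_∘ u² T_1`.     TEX[LL:bud:free-forks] -/
def BudC16a : Prop :=
  BdSub (fun i : BdI X => i.F.N) (fun i => i.OkSt W Fam)
    (fun i => ∫ v in (0 : ℝ)..(X.cH * i.F.u), i.Q.Dq W i.g v) (fun i => i.F.u ^ 2 * i.F.T1 X)

/-- `∫_0^{c_H u} D_v² dv ≲_∘ u³ T_2` -/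
def BudC16b : Prop :=
  BdSub (fun i : BdI X => i.F.N) (fun i => i.OkSt W Fam)
    (fun i => ∫ v in (0 : ℝ)..(X.cH * i.F.u), i.Q.Dq2 W i.g v) (fun i => i.F.u ^ 3 * i.F.T2 X)

/-- `(avg_{v ∼ w} D_v²)^{1/2} ≲_∘ u A` for `c_H u ≤ w ≤ 1/2` -/
def BudC16c : Prop :=
  BdSub (fun i : BdI X × ℝ => i.1.F.N)
    (fun i => i.1.OkSt W Fam ∧ X.cH * i.1.F.u ≤ i.2 ∧ i.2 ≤ 1 / 2)
    (fun i => Real.sqrt (i.2⁻¹ * ∫ v in i.2..(2 * i.2), i.1.Q.Dq2 W i.1.g v)) (fun i => i.1.F.u * i.1.F.A)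

/-! ## 6. (C17): high projection and centred primitives -/

/-- `z_w = x³ min{(w √C(w))⁻¹, λ^{-1/2} w^{-2}}` -/
def BdFr.zw (F : BdFr) (w : ℝ) : ℝ :=
  F.x ^ (3 : ℝ) * min ((w * Real.sqrt (F.C X w))⁻¹) (F.lam ^ (-(1 / 2) : ℝ) * w ^ (-(2 : ℝ)))

/-- **(C17)**: the overlap at a fork `v` of the buffer `Buf s` against the inner product of the two branches projected to a cut `c ∈ [w/2, w]`,
`c_H u ≤ w ≤ 1`: `‖Q_v - X¹_c · X²_c‖_{2l} ≲_{l,∘} z_w`.     TEX[LL:bud:high-primitive] -/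
def BudC17a (n : ℕ) (Cbuf s : ℝ) : Prop :=
  ∀ l : ℕ, 1 ≤ l →
    BdSub (fun i : BdVI X W × ℝ × ℝ × ℝ => i.1.F.N)
      (fun i => i.1.Ok Fam n Cbuf ∧ i.2.1 ∈ Icc (0 : ℝ) 1 ∧ i.1.V.Q.r i.2.1 ∈ i.1.V.Buf s ∧
        X.cH * i.1.F.u ≤ i.2.2.1 ∧ i.2.2.1 ≤ 1 ∧ i.2.2.2 ∈ Icc (i.2.2.1 / 2) i.2.2.1)
      (fun i => i.1.V.Q.mPr W i.1.V.g l i.2.1 i.2.2.2 ^ (1 / (2 * (l : ℝ)))) (fun i => i.1.F.zw X i.2.2.1)

/-- **the centred primitive over a high dyad** (plateau included, every edge multiplier of the family), SOLID FORM (flag F3 of 143: N17 needs the bound on every fine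
chain for ALL weights at once, the weights of MASTER depend on the chain):
`limsup_F sup_{|κ| ≤ 1_{[w, 2w] ∩ [0,1]}} ‖∫ κ_v (L_v - E L_v) dv‖_2 ≪ u² G_1`, `w ≥ c_H u`.
It implies the bound of `Q.nLc W g 2 κ` for every measurable `|κ| ≤ 1` supported in the dyad (`bud_uq_nLc_le`, `Bud/PinUq.lean`). -/
def BudC17b (n : ℕ) (Cbuf : ℝ) : Prop :=
  BdPow (fun i : BdVI X W × ℝ => i.1.F.N)
    (fun i => i.1.Ok Fam n Cbuf ∧ X.cH * i.1.F.u ≤ i.2 ∧ i.2 ≤ 1)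
    (fun i => i.1.V.Q.nLcU i.1.V.g ((Icc i.2 (min (2 * i.2) 1)).indicator 1)) (fun i => i.1.F.u ^ 2 * i.1.V.G1)

end Props

/-- forces the equation lemmas of the definitions to be generated HERE -/
theorem bd_l8defs_eqns_cite : True := by
  have := @BdFr.stg.eq_1; have := @BdFr.cg.eq_1; have := @BdFr.R0.eq_1; have := @BdFr.Bcal.eq_1; have := @BdFr.cost.eq_1
  have := @BdI.Ok.eq_1; have := @BdI.OkSt.eq_1; have := @BdVI.Ok.eq_1; have := @BudOptEx.eq_1; have := @BudExc0.eq_1; have := @BudR0.eq_1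
  have := @BudC7al.eq_1; have := @BdAt.eq_1; have := @BudC12.eq_1; have := @BudZ.eq_1; have := @BudCost.eq_1
  have := @BudStep.eq_1; have := @BudC13.eq_1; have := @BudC15a.eq_1; have := @BudC15b.eq_1; have := @BudC15c.eq_1
  have := @BudC16a.eq_1; have := @BudC16b.eq_1; have := @BudC16c.eq_1; have := @BdFr.zw.eq_1; have := @BudC17a.eq_1
  have := @BudC17b.eq_1; have := @BdDom.eq_1; have := @bdLcF.eq_1; have := @bdLcU.eq_1; have := @BdQ.nLcU.eq_1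
  trivial

end

end Claimed.Agent.R286
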