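import Claimed.Agent.R286.Bud.PinPath
import Claimed.Agent.R286.Bud.C19Defs
import Claimed.Agent.R286.Bud.L8Defs
import Claimed.Agent.R286.Brg.Sus
import Claimed.Agent.R286.Cmp.P5L8
import Claimed.Agent.R286.Fd.TrB1

/-!
# Row 286, LL sec. 7 (budgets): THE SOLID FORM OF THE CENTRED PRIMITIVE      (owner helper212; prefix `bud_uq_`, defs `ppUF`, `ppU`, `ppPsi`, `uq*`)      0 own sorry

Flag F3 of 143: MASTER (`Bud/C19Ctr.lean`) asks `B19Prim` = the bound of the centred primitive on EVERY fine chain for ALL weights at once (its weights depend on the chain), while a bound of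
`W.nLc` is a bound of `limsup_F` at a FIXED weight.   Cure: the supremum over the weights goes INSIDE the limit.

* `ppUF n a b h k F = sup_{|κ| ≤ |k|} ppN n a b h κ F`,   `ppU = limsup_F ppUF`;   `bud_uq_eq : bdLcU m b h k = ppU m 1 (bmExt b) (bmExt h) k` (`Bud/L8Defs.lean`).
* **`bud_uq_tri`, `bud_uq_var`, `bud_uq_bdd`**      `ppU` satisfies the three axioms of `HpS.Ok` (`Bud/Hp.lean`): the abstract layer of N15 applies verbatim.
* `bud_uq_lim_le`, `bud_uq_nLc_le`      the fixed weight norm is below the solid norm.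
* `bud_uq_ev`      `ppU k ≤ B`, `η > 0` ⟹ on all fine chains, for ALL `|κ| ≤ |k|`: `ppN κ F ≤ B + η`.
* **`bud_uq_dic`**      DICTIONARY: `b19Pr2 n a P k = ∫ (∑_j gap_j k_j (L_j - E L_j))²` on `skSP n a P` (five replicas = one path and two pairs of conditionally independent copies).
* **`bud_uq_prim`**      the hypothesis `B19Prim` of MASTER on all fine chains.
TEX[LL:bud:high-primitive] TEX[LL:bud:closure]
-/

set_option autoImplicit false

namespace Claimed.Agent.R286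

open MeasureTheory Set Filter Topology

noncomputable section

/-- the solid norm on one chain -/
def ppUF (n : ℕ) (a : ℝ) (b h k : ℝ → ℝ) (F : Finset GhPos) : ℝ := ⨆ κ : {κ : ℝ → ℝ // BdDom k κ}, ppN n a b h κ.1 F

/-- the solid norm of the path -/
def ppU (n : ℕ) (a : ℝ) (b h k : ℝ → ℝ) : ℝ := limsup (ppUF n a b h k) atTop

theorem bud_uq_eqns_cite : True := by
  have := @ppUF.eq_1; have := @ppU.eq_1
  trivial

theorem bud_uq_eq (m : ℕ) (b h k : ℝ → ℝ) : bdLcU m b h k = ppU m 1 (bmExt b) (bmExt h) k := rfl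

/-! ## 1. Dominated weights -/

theorem bud_uq_dom_zero (k : ℝ → ℝ) : BdDom k fun _ => 0 := ⟨measurable_const, fun v => by simp⟩

theorem bud_uq_dom_self {k : ℝ → ℝ} (hk : Measurable k) : BdDom k k := ⟨hk, fun _ => le_rfl⟩

theorem bud_uq_dom_bd {k κ : ℝ → ℝ} (h : BdDom k κ) {C : ℝ} (hC : ∀ v, |k v| ≤ C) (v : ℝ) : |κ v| ≤ C := (h.2 v).trans (hC v)

theorem bud_uq_dom_van {k κ : ℝ → ℝ} (h : BdDom k κ) {v : ℝ} (hv : k v = 0) : κ v = 0 := by
  have := h.2 v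
  rw [hv, abs_zero] at this
  exact abs_nonpos_iff.1 this

theorem bud_uq_dom_sq {k κ : ℝ → ℝ} (h : BdDom k κ) (v : ℝ) : κ v ^ 2 ≤ k v ^ 2 := sq_le_sq.2 (h.2 v)

instance bud_uq_dom_nonempty (k : ℝ → ℝ) : Nonempty {κ : ℝ → ℝ // BdDom k κ} := ⟨⟨_, bud_uq_dom_zero k⟩⟩

/-- a weight dominated by `|k1 + k2|` splits -/
theorem bud_uq_dom_split {k1 k2 κ : ℝ → ℝ} (h1 : Measurable k1) (h2 : Measurable k2) (h : BdDom (fun v => k1 v + k2 v) κ) :
    ∃ κ1 κ2 : ℝ → ℝ, BdDom k1 κ1 ∧ BdDom k2 κ2 ∧ κ = fun v => κ1 v + κ2 v := by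
  have key : ∀ (x y z : ℝ), |z| ≤ |x + y| → |z * |x| / (|x| + |y|)| ≤ |x| := by
    intro x y z hz
    have hs : |z| ≤ |x| + |y| := hz.trans (abs_add_le x y)
    rcases eq_or_lt_of_le (add_nonneg (abs_nonneg x) (abs_nonneg y)) with h0 | h0
    · rw [← h0]; simp
    · rw [abs_div, abs_mul, abs_abs, abs_of_pos h0, div_le_iff₀ h0]
      nlinarith [abs_nonneg x, abs_nonneg y, abs_nonneg z]
  refine ⟨fun v => κ v * |k1 v| / (|k1 v| + |k2 v|), fun v => κ v * |k2 v| / (|k1 v| + |k2 v|),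
    ⟨(h.1.mul h1.abs).div (h1.abs.add h2.abs), fun v => key _ _ _ (h.2 v)⟩,
    ⟨(h.1.mul h2.abs).div (h1.abs.add h2.abs), fun v => ?_⟩, ?_⟩
  · have := key (k2 v) (k1 v) (κ v) (by rw [add_comm]; exact h.2 v)
    rwa [add_comm |k2 v|] at this
  · funext v
    rcases eq_or_lt_of_le (add_nonneg (abs_nonneg (k1 v)) (abs_nonneg (k2 v))) with h0 | h0
    · have hz : |κ v| ≤ 0 := by
        have := (h.2 v).trans (abs_add_le (k1 v) (k2 v))
        rwa [← h0] at this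
      simp only [abs_nonpos_iff.1 hz]; simp
    · field_simp

/-! ## 2. One chain -/

section chain

variable {n : ℕ} {a : ℝ} {b h : ℝ → ℝ}

theorem bud_uq_int_le (ha : 0 < a) {k κ : ℝ → ℝ} (hk : Measurable k) {C : ℝ} (hC : ∀ v, |k v| ≤ C) (hd : BdDom k κ) :
    ∫ v in (0 : ℝ)..a, |κ v| ≤ ∫ v in (0 : ℝ)..a, |k v| :=
  intervalIntegral.integral_mono_on ha.le (bud_pp_ii hd.1 (bud_uq_dom_bd hd hC) 0 a).abs (bud_pp_ii hk hC 0 a).abs fun v _ => hd.2 v

theorem bud_uq_N_le (hn : 0 < n) (ha : 0 < a) (hbh : CkAdm a b h) {k κ : ℝ → ℝ} (hk : Measurable k) {C : ℝ} (hC : ∀ v, |k v| ≤ C)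
    (hd : BdDom k κ) (F : Finset GhPos) : ppN n a b h κ F ≤ 3 * ∫ v in (0 : ℝ)..a, |k v| :=
  (bud_pp_N_le hn ha hbh hd.1 (bud_uq_dom_bd hd hC) F).trans (mul_le_mul_of_nonneg_left (bud_uq_int_le ha hk hC hd) (by norm_num))

theorem bud_uq_bddAbove (hn : 0 < n) (ha : 0 < a) (hbh : CkAdm a b h) {k : ℝ → ℝ} (hk : Measurable k) {C : ℝ} (hC : ∀ v, |k v| ≤ C)
    (F : Finset GhPos) : BddAbove (range fun κ : {κ : ℝ → ℝ // BdDom k κ} => ppN n a b h κ.1 F) :=
  ⟨3 * ∫ v in (0 : ℝ)..a, |k v|, by rintro _ ⟨κ, rfl⟩; exact bud_uq_N_le hn ha hbh hk hC κ.2 F⟩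

/-- every dominated weight is below the solid norm -/
theorem bud_uq_le_UF (hn : 0 < n) (ha : 0 < a) (hbh : CkAdm a b h) {k κ : ℝ → ℝ} (hk : Measurable k) {C : ℝ} (hC : ∀ v, |k v| ≤ C)
    (hd : BdDom k κ) (F : Finset GhPos) : ppN n a b h κ F ≤ ppUF n a b h k F :=
  le_ciSup (bud_uq_bddAbove hn ha hbh hk hC F) (⟨κ, hd⟩ : {κ : ℝ → ℝ // BdDom k κ})

theorem bud_uq_UF_le (hn : 0 < n) (ha : 0 < a) (hbh : CkAdm a b h) {k : ℝ → ℝ} (hk : Measurable k) {C : ℝ} (hC : ∀ v, |k v| ≤ C)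
    (F : Finset GhPos) : ppUF n a b h k F ≤ 3 * ∫ v in (0 : ℝ)..a, |k v| :=
  ciSup_le fun κ => bud_uq_N_le hn ha hbh hk hC κ.2 F

theorem bud_uq_UF_nonneg (hn : 0 < n) (ha : 0 < a) (hbh : CkAdm a b h) {k : ℝ → ℝ} (hk : Measurable k) {C : ℝ} (hC : ∀ v, |k v| ≤ C)
    (F : Finset GhPos) : 0 ≤ ppUF n a b h k F :=
  (bud_pp_N_nonneg hn ha hbh hk hC F).trans (bud_uq_le_UF hn ha hbh hk hC (bud_uq_dom_self hk) F)

/-- Minkowski for the solid norm -/
theorem bud_uq_UF_add (hn : 0 < n) (ha : 0 < a) (hbh : CkAdm a b h) {k1 k2 : ℝ → ℝ} (h1 : Measurable k1) (h2 : Measurable k2)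
    {C1 C2 : ℝ} (hC1 : ∀ v, |k1 v| ≤ C1) (hC2 : ∀ v, |k2 v| ≤ C2) (F : Finset GhPos) :
    ppUF n a b h (fun v => k1 v + k2 v) F ≤ ppUF n a b h k1 F + ppUF n a b h k2 F := by
  refine ciSup_le fun κ => ?_
  obtain ⟨κ1, κ2, d1, d2, e⟩ := bud_uq_dom_split h1 h2 κ.2
  rw [e]
  exact (bud_pp_N_add hn ha hbh d1.1 d2.1 (bud_uq_dom_bd d1 hC1) (bud_uq_dom_bd d2 hC2) F).trans
    (add_le_add (bud_uq_le_UF hn ha hbh h1 hC1 d1 F) (bud_uq_le_UF hn ha hbh h2 hC2 d2 F))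

/-- **the pinned variance on all fine chains, UNIFORMLY in the weight** -/
theorem bud_uq_N_var (hn : 0 < n) (ha : 0 < a) (hbh : CkAdm a b h) {δ : ℝ} (hδ : 0 < δ) :
    ∃ F0 : Finset GhPos, ∀ F : Finset GhPos, F0 ⊆ F → ∀ (k : ℝ → ℝ) (C v0 : ℝ), Measurable k → (∀ v, |k v| ≤ C) → 0 < v0 →
      (∀ v, v < v0 → k v = 0) →
      ppN n a b h k F ^ 2 ≤ 7 / 3 * ∫ v in (0 : ℝ)..a, k v ^ 2 / v * (ckH2 n a b h (ghPosA v) + δ) := by
  obtain ⟨F0, hF0⟩ := bud_pp_unif hn ha hbh hδ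
  refine ⟨F0, fun F hF k C v0 hk hC hv0 hk0 => ?_⟩
  obtain ⟨hm, hb⟩ := bud_pp_kv hk hC hv0 hk0
  have hTi : IntervalIntegrable (fun v => ckH2 n a b h (ghPosA v)) volume 0 a := (exit_clk_intble hn ha hbh).2.2.1
  have hgi : IntervalIntegrable (fun v => k v ^ 2 / v * (ckH2 n a b h (ghPosA v) + δ)) volume 0 a := by
    have h1 : IntervalIntegrable (fun v => ckH2 n a b h (ghPosA v) + δ) volume 0 a := hTi.add intervalIntegrable_const
    constructor
    · exact h1.1.bdd_mul (c := C ^ 2 / v0) hm.aestronglyMeasurable (Eventually.of_forall fun v => by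
        rw [Real.norm_eq_abs]; exact hb v)
    · exact h1.2.bdd_mul (c := C ^ 2 / v0) hm.aestronglyMeasurable (Eventually.of_forall fun v => by
        rw [Real.norm_eq_abs]; exact hb v)
  have hP := bud_pp_chain_adm ha hbh F
  refine (bud_pp_N_var hn ha hbh hk hC hv0 hk0 F).trans (mul_le_mul_of_nonneg_left ?_ (by norm_num))
  rw [← bud_pp_sum_cuts (a := a) (P := skCStp a b h 0 0 (ghPs a F)) fun j _ => bud_pp_sub_int ha hP hgi j, bud_pp_chain_length]
  refine Finset.sum_le_sum fun j hj => ?_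
  have hj' : j ≤ (skCStp a b h 0 0 (ghPs a F)).length := by
    rw [bud_pp_chain_length]; exact Nat.lt_succ_iff.1 (Finset.mem_range.1 hj)
  unfold ppW
  rw [← intervalIntegral.integral_mul_const]
  refine intervalIntegral.integral_mono_on_of_le_Ioo (bud_pp_bm_le ha hP j)
    ((bud_pp_ii hm hb _ _).mul_const _) (bud_pp_sub_int ha hP hgi j) fun v hv => ?_
  have hv0' : 0 ≤ v := (bud_pp_bm_nonneg ha hP j).trans hv.1.le
  have hva : v ≤ a := hv.2.le.trans (bud_pp_ms_le ha hP j)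
  have h3 := (hF0 F hF v ⟨hv0', hva⟩).2.2.1
  rw [bud_pp_idx b h (ghPs a F) 0 0 (fun p hp => (gh_os_ps_mem.1 hp).2) v,
    bud_pp_ix_eq ha _ hP j v hj' hv.1.le hv.2] at h3
  have h4 : obTrH2 n a (skCStp a b h 0 0 (ghPs a F)) 0 j ≤ ckH2 n a b h (ghPosA v) + δ := by
    have := (abs_le.1 h3).2
    unfold ckStp at this
    linarith
  exact mul_le_mul_of_nonneg_left h4 (div_nonneg (sq_nonneg _) hv0')

end chain

/-! ## 3. The path -/

section path

variable {n : ℕ} {a : ℝ} {b h : ℝ → ℝ}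

theorem bud_uq_bdd_above (hn : 0 < n) (ha : 0 < a) (hbh : CkAdm a b h) {k : ℝ → ℝ} (hk : Measurable k) {C : ℝ}
    (hC : ∀ v, |k v| ≤ C) : IsBoundedUnder (· ≤ ·) atTop (ppUF n a b h k) :=
  isBoundedUnder_of ⟨_, fun F => bud_uq_UF_le hn ha hbh hk hC F⟩

theorem bud_uq_bdd_below (hn : 0 < n) (ha : 0 < a) (hbh : CkAdm a b h) {k : ℝ → ℝ} (hk : Measurable k) {C : ℝ}
    (hC : ∀ v, |k v| ≤ C) : IsBoundedUnder (· ≥ ·) atTop (ppUF n a b h k) :=
  isBoundedUnder_of ⟨0, fun F => bud_uq_UF_nonneg hn ha hbh hk hC F⟩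

/-- Minkowski -/
theorem bud_uq_tri (hn : 0 < n) (ha : 0 < a) (hbh : CkAdm a b h) {k1 k2 : ℝ → ℝ} (h1 : Measurable k1) (h2 : Measurable k2)
    {C1 C2 : ℝ} (hC1 : ∀ v, |k1 v| ≤ C1) (hC2 : ∀ v, |k2 v| ≤ C2) :
    ppU n a b h (fun v => k1 v + k2 v) ≤ ppU n a b h k1 + ppU n a b h k2 := by
  have hC12 : ∀ v, |k1 v + k2 v| ≤ C1 + C2 := fun v => (abs_add_le _ _).trans (add_le_add (hC1 v) (hC2 v))
  have u1 := bud_uq_bdd_above hn ha hbh h1 hC1
  have u2 := bud_uq_bdd_above hn ha hbh h2 hC2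
  have l1 := bud_uq_bdd_below hn ha hbh h1 hC1
  have l2 := bud_uq_bdd_below hn ha hbh h2 hC2
  have l12 := bud_uq_bdd_below hn ha hbh (h1.add h2) hC12
  refine (limsup_le_limsup (v := ppUF n a b h k1 + ppUF n a b h k2)
    (Eventually.of_forall fun F => bud_uq_UF_add hn ha hbh h1 h2 hC1 hC2 F) l12.isCoboundedUnder_le
    (isBoundedUnder_le_add u1 u2)).trans ?_
  exact limsup_add_le l1 u1 l2.isCoboundedUnder_le u2

/-- boundedness -/
theorem bud_uq_bdd (hn : 0 < n) (ha : 0 < a) (hbh : CkAdm a b h) {k : ℝ → ℝ} (hk : Measurable k) {C : ℝ} (hC : ∀ v, |k v| ≤ C) :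
    ppU n a b h k ≤ 3 * ∫ v in (0 : ℝ)..a, |k v| :=
  limsup_le_of_le (bud_uq_bdd_below hn ha hbh hk hC).isCoboundedUnder_le
    (Eventually.of_forall fun F => bud_uq_UF_le hn ha hbh hk hC F)

theorem bud_uq_nonneg (hn : 0 < n) (ha : 0 < a) (hbh : CkAdm a b h) {k : ℝ → ℝ} (hk : Measurable k) {C : ℝ} (hC : ∀ v, |k v| ≤ C) :
    0 ≤ ppU n a b h k :=
  le_limsup_of_le (bud_uq_bdd_above hn ha hbh hk hC) fun _ hx => by
    obtain ⟨F, hF⟩ := hx.exists
    exact (bud_uq_UF_nonneg hn ha hbh hk hC F).trans hF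

/-- **(A1), line 3, `p = 2`, for the solid norm** -/
theorem bud_uq_var (hn : 0 < n) (ha : 0 < a) (hbh : CkAdm a b h) {k : ℝ → ℝ} (hk : Measurable k) {C : ℝ} (hC : ∀ v, |k v| ≤ C)
    {v0 : ℝ} (hv0 : 0 < v0) (hk0 : ∀ v, v < v0 → k v = 0) :
    ppU n a b h k ≤ Real.sqrt (7 / 3 * ∫ v in (0 : ℝ)..a, k v ^ 2 * (ckH2 n a b h (ghPosA v) / v)) := by
  obtain ⟨hm, hb⟩ := bud_pp_kv hk hC hv0 hk0
  set T : ℝ → ℝ := fun v => ckH2 n a b h (ghPosA v) with hT
  have hT0 : ∀ v ∈ Icc (0 : ℝ) a, 0 ≤ T v := fun v hv => brg_sus_H2_pos hn ha hbh (gh_os_posA_ok hv.1 hv.2)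
  have hTi : IntervalIntegrable T volume 0 a := (exit_clk_intble hn ha hbh).2.2.1
  have hgi : ∀ (κ : ℝ → ℝ), Measurable (fun v => κ v ^ 2 / v) → (∀ v, |κ v ^ 2 / v| ≤ C ^ 2 / v0) → ∀ δ : ℝ,
      IntervalIntegrable (fun v => κ v ^ 2 / v * (T v + δ)) volume 0 a := fun κ hm hb δ => by
    have h1 : IntervalIntegrable (fun v => T v + δ) volume 0 a := hTi.add intervalIntegrable_const
    constructor
    · exact h1.1.bdd_mul (c := C ^ 2 / v0) hm.aestronglyMeasurable (Eventually.of_forall fun v => by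
        rw [Real.norm_eq_abs]; exact hb v)
    · exact h1.2.bdd_mul (c := C ^ 2 / v0) hm.aestronglyMeasurable (Eventually.of_forall fun v => by
        rw [Real.norm_eq_abs]; exact hb v)
  set I : ℝ := ∫ v in (0 : ℝ)..a, k v ^ 2 * (T v / v) with hI
  set K : ℝ := ∫ v in (0 : ℝ)..a, k v ^ 2 / v with hK
  have hsplit : ∀ δ : ℝ, ∫ v in (0 : ℝ)..a, k v ^ 2 / v * (T v + δ) = I + δ * K := fun δ => by
    have e : (fun v => k v ^ 2 / v * (T v + δ)) = fun v => k v ^ 2 / v * (T v + 0) + δ * (k v ^ 2 / v) := by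
      funext v; ring
    rw [e, intervalIntegral.integral_add (hgi k hm hb 0) ((bud_pp_ii hm hb 0 a).const_mul δ), intervalIntegral.integral_const_mul]
    congr 1
    refine intervalIntegral.integral_congr fun v _ => ?_
    show k v ^ 2 / v * (T v + 0) = k v ^ 2 * (T v / v)
    ring
  have hstep : ∀ δ : ℝ, 0 < δ → ppU n a b h k ≤ Real.sqrt (7 / 3 * (I + δ * K)) := by
    intro δ hδ
    obtain ⟨F0, hF0⟩ := bud_uq_N_var hn ha hbh hδ
    refine limsup_le_of_le (bud_uq_bdd_below hn ha hbh hk hC).isCoboundedUnder_le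
      ((eventually_ge_atTop F0).mono fun F hF => ciSup_le fun κ => ?_)
    have hκ0 : ∀ v, v < v0 → κ.1 v = 0 := fun v hv => bud_uq_dom_van κ.2 (hk0 v hv)
    obtain ⟨hm', hb'⟩ := bud_pp_kv κ.2.1 (bud_uq_dom_bd κ.2 hC) hv0 hκ0
    refine Real.le_sqrt_of_sq_le ((hF0 F hF κ.1 C v0 κ.2.1 (bud_uq_dom_bd κ.2 hC) hv0 hκ0).trans
      (mul_le_mul_of_nonneg_left ?_ (by norm_num)))
    rw [← hsplit δ]
    refine intervalIntegral.integral_mono_on ha.le (hgi κ.1 hm' hb' δ) (hgi k hm hb δ) fun v hv => ?_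
    exact mul_le_mul_of_nonneg_right (div_le_div_of_nonneg_right (bud_uq_dom_sq κ.2 v) hv.1) (by linarith [hT0 v hv])
  have hcont : Tendsto (fun δ : ℝ => Real.sqrt (7 / 3 * (I + δ * K))) (𝓝[>] 0) (𝓝 (Real.sqrt (7 / 3 * (I + 0 * K)))) := by
    have : Continuous fun δ : ℝ => Real.sqrt (7 / 3 * (I + δ * K)) := by fun_prop
    exact (this.tendsto 0).mono_left nhdsWithin_le_nhds
  have := ge_of_tendsto hcont (Eventually.mono self_mem_nhdsWithin fun δ hδ => hstep δ hδ)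
  simpa using this

/-- the norm at a fixed dominated weight is below the solid norm -/
theorem bud_uq_lim_le (hn : 0 < n) (ha : 0 < a) (hbh : CkAdm a b h) {k κ : ℝ → ℝ} (hk : Measurable k) {C : ℝ} (hC : ∀ v, |k v| ≤ C)
    (hd : BdDom k κ) : limsup (ppN n a b h κ) atTop ≤ ppU n a b h k :=
  limsup_le_limsup (Eventually.of_forall fun F => bud_uq_le_UF hn ha hbh hk hC hd F)
    (bud_pp_bdd_below hn ha hbh hd.1 (bud_uq_dom_bd hd hC)).isCoboundedUnder_le (bud_uq_bdd_above hn ha hbh hk hC)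

/-- **the consumer form**: on all fine chains, for ALL dominated weights at once -/
theorem bud_uq_ev (hn : 0 < n) (ha : 0 < a) (hbh : CkAdm a b h) {k : ℝ → ℝ} (hk : Measurable k) {C : ℝ} (hC : ∀ v, |k v| ≤ C)
    {B : ℝ} (hB : ppU n a b h k ≤ B) {η : ℝ} (hη : 0 < η) :
    ∃ F0 : Finset GhPos, ∀ F : Finset GhPos, F0 ⊆ F → ∀ κ : ℝ → ℝ, BdDom k κ → ppN n a b h κ F ≤ B + η := by
  have h1 : limsup (ppUF n a b h k) atTop < B + η := lt_of_le_of_lt hB (by linarith)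
  obtain ⟨F0, hF0⟩ := eventually_atTop.1 (eventually_lt_of_limsup_lt h1 (bud_uq_bdd_above hn ha hbh hk hC))
  exact ⟨F0, fun F hF κ hd => (bud_uq_le_UF hn ha hbh hk hC hd F).trans (hF0 F hF).le⟩

end path

/-- in a Hub world the fixed weight norm `nLc` (`p = 2`) is below the solid norm -/
theorem bud_uq_nLc_le {W : BdWorld} (hW : W.IsHub) {m : ℕ} (hm : 0 < m) {b h : ℝ → ℝ} (hb : IsClock 1 b) (hh : IsClock 1 h)
    {k κ : ℝ → ℝ} (hk : Measurable k) {C : ℝ} (hC : ∀ v, |k v| ≤ C) (hd : BdDom k κ) : W.nLc m b h 2 κ ≤ bdLcU m b h k := by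
  rw [bud_pp_nLc hW m hb hh κ, bud_uq_eq]
  exact bud_uq_lim_le hm one_pos (bud_pp_adm hb hh) hk hC hd

/-! ## 4. The dictionary: five replicas = one path and two pairs of conditionally independent copies -/

/-- `∑_j gap_j k_j (L_j - E L_j)` on the SK instance of the abstract single path -/
def ppPsi (n : ℕ) (a : ℝ) (P : SkStp) (k : ℕ → ℝ) (ω : SkOm n) : ℝ :=
  ∑ j ∈ Finset.range (P.length + 1), skGap a P j * k j * ((skSP n a P).L j ω - ∫ ω', (skSP n a P).L j ω' ∂(skSP n a P).μ)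

theorem bud_uq_eqns_cite2 : True := by
  have := @ppPsi.eq_1
  trivial

/-- depths of the four labels attached to the path -/
def uqD (v w : ℕ) (k : ℕ) : ℕ := if k < 2 then v else w

theorem bud_uq_tab {N v w : ℕ} (hv : v ≤ N) (hw : w ≤ N) (x y : ℕ) (hx : x < 5) (hy : y < 5) :
    b19T5 N v w x y = trOf (cmCat (uqD v w) 4) N x y := by
  unfold trOf
  rw [dif_pos ⟨hx, hy⟩]
  by_cases hxy : x = y
  · simp [b19T5, hxy]
  · rw [if_neg hxy]
    unfold b19T5
    rw [if_neg hxy]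
    rcases x with _ | x
    · rcases y with _ | y
      · exact absurd rfl hxy
      · have h := cm5_cat_sh0 (uqD v w) 4 ⟨y, by omega⟩
        have e : (cmCat (uqD v w) 4).sh ⟨0, hx⟩ ⟨y + 1, hy⟩ = uqD v w y := h
        rw [e]
        unfold uqD
        simp only [if_true, Nat.succ_ne_zero, if_false]
        split_ifs <;> omega
    · rcases y with _ | y
      · have h := cm5_cat_sh0 (uqD v w) 4 ⟨x, by omega⟩
        have e : (cmCat (uqD v w) 4).sh ⟨x + 1, hx⟩ ⟨0, hy⟩ = uqD v w x := by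
          rw [(cmCat (uqD v w) 4).symm]; exact h
        rw [e]
        unfold uqD
        simp only [if_true, Nat.succ_ne_zero, if_false]
        split_ifs <;> omega
      · have h := cm5_cat_sh (uqD v w) 4 ⟨x, by omega⟩ ⟨y, by omega⟩ (by
          intro hh; apply hxy; have := congrArg Fin.val hh; simp at this; omega)
        have e : (cmCat (uqD v w) 4).sh ⟨x + 1, hx⟩ ⟨y + 1, hy⟩ = min (uqD v w x) (uqD v w y) := h
        rw [e]
        unfold uqD
        simp only [Nat.succ_ne_zero, if_false]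
        split_ifs <;> omega


/-- coefficient of a half term -/
def uqC (e : Bool) : ℝ := if e then 1 else -(1 / 2)
/-- factor of a half term on the path -/
def uqA {n : ℕ} (p : Fin n × Bool) : SkCfg n → ℝ := if p.2 then obY p.1 else fun _ => 1
/-- factor of a half term on the second copy -/
def uqB {n : ℕ} (p : Fin n × Bool) : SkCfg n → ℝ := if p.2 then fun _ => 1 else obY p.1
/-- the four factors of a term on the attached labels -/
def uqF {n : ℕ} (κ : (Fin n × Bool) × (Fin n × Bool)) (k : ℕ) : SkCfg n → ℝ :=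
  if k = 0 then obY κ.1.1 else if k = 1 then uqB κ.1 else if k = 2 then obY κ.2.1 else uqB κ.2

theorem bud_uq_half {n : ℕ} (hn : 0 < n) (s0 s1 s2 : SkCfg n) :
    skOv s0 s1 - skOv s1 s2 / 2 = ∑ p : Fin n × Bool, uqC p.2 * (uqA p s0 * (obY p.1 s1 * uqB p s2)) := by
  rw [Fintype.sum_prod_type]
  simp only [Fintype.sum_bool, uqC, uqA, uqB, if_true, Bool.false_eq_true, if_false]
  rw [← ob_feat_h hn s0 s1, ← ob_feat_h hn s1 s2, Finset.sum_div, ← Finset.sum_sub_distrib]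
  exact Finset.sum_congr rfl fun i _ => by ring

theorem bud_uq_halfL {n : ℕ} {a : ℝ} (P : SkStp) (v : ℕ) (ω : SkOm n) :
    (skSP n a P).L v ω = ∑ p : Fin n × Bool, uqC p.2 * (uqA p ω.2 * ((skSP n a P).X v p.1 ω *
      (if p.2 then 1 else (skSP n a P).X v p.1 ω))) := by
  rw [Fintype.sum_prod_type]
  simp only [Fintype.sum_bool, uqC, uqA, if_true, Bool.false_eq_true, if_false, L8P.L, L8P.nX]
  rw [Finset.sum_div, ← Finset.sum_sub_distrib]
  refine Finset.sum_congr rfl fun i _ => ?_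
  have : (skSP n a P).y i ω = obY i ω.2 := rfl
  rw [this]
  ring

theorem bud_uq_EB {n : ℕ} {a : ℝ} (ha : 0 < a) {P : SkStp} (hP : SkAdm a P) {v : ℕ} (hv : v ≤ P.length) (p : Fin n × Bool) (ω : SkOm n) :
    ghE (skBase n a) ((skLvs n P).drop v) (uqB p) (0 + ghPre (skLvs n P) ω.1 v) = if p.2 then 1 else (skSP n a P).X v p.1 ω := by
  unfold uqB
  by_cases h : p.2 = true
  · rw [if_pos h, if_pos h]
    exact gh_b_E_const (obt_base_ok n ha) 1 (fun l hl => obu_lvs_nn n hP l (List.mem_of_mem_drop hl)) _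
  · rw [if_neg h, if_neg h, l8i_X n a ha P hP v hv, obt_lvs_drop]
    rfl

theorem bud_uq_EY {n : ℕ} {a : ℝ} (ha : 0 < a) {P : SkStp} (hP : SkAdm a P) {v : ℕ} (hv : v ≤ P.length) (i : Fin n) (ω : SkOm n) :
    ghE (skBase n a) ((skLvs n P).drop v) (obY i) (0 + ghPre (skLvs n P) ω.1 v) = (skSP n a P).X v i ω := by
  rw [l8i_X n a ha P hP v hv, obt_lvs_drop]
  rfl


theorem bud_uq_A_bd {n : ℕ} {a : ℝ} {P : SkStp} (hok : (skSP n a P).Ok) (p : Fin n × Bool) : L8Bd fun ω : SkOm n => uqA p ω.2 := by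
  unfold uqA
  by_cases h : p.2 = true
  · simp only [if_pos h]; exact l8k_y_bd hok p.1
  · simp only [if_neg h]; exact l8k_bd_const 1

theorem bud_uq_B_bd {n : ℕ} {a : ℝ} {P : SkStp} (hok : (skSP n a P).Ok) (v : ℕ) (p : Fin n × Bool) :
    L8Bd fun ω : SkOm n => if p.2 then 1 else (skSP n a P).X v p.1 ω := by
  by_cases h : p.2 = true
  · simp only [if_pos h]; exact l8k_bd_const 1
  · simp only [if_neg h]; exact l8k_X_bd hok v p.1

theorem bud_uq_eqns_cite3 : True := by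
  have := @uqD.eq_1; have := @uqC.eq_1; have := @uqA.eq_1; have := @uqB.eq_1; have := @uqF.eq_1
  trivial

section dic

variable {n : ℕ} {a : ℝ}

/-- **COV5**: the five replica number of `b19Pr2` is `E L_v L_w` (`cm5_cat_spine` of `Cmp/P5L8.lean` on the `4 n²` product terms) -/
theorem bud_uq_cov5 (hn : 0 < n) (ha : 0 < a) {P : SkStp} (hP : SkAdm a P) {v w : ℕ} (hv : v ≤ P.length) (hw : w ≤ P.length) :
    b19Sk n a P 5 (b19T5 P.length v w)
        (fun σ => (skOv (σ 0) (σ 1) - skOv (σ 1) (σ 2) / 2) * (skOv (σ 0) (σ 3) - skOv (σ 3) (σ 4) / 2))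
      = ∫ ω, (skSP n a P).L v ω * (skSP n a P).L w ω ∂(skSP n a P).μ := by
  have hB := obt_base_ok n ha
  have hls := obu_lvs_nn n hP
  have hlen : (skLvs n P).length = P.length := by simp [skLvs]
  have hok := l8i_ok n hn a ha P hP
  have hprob := hok.prob
  have hd : ∀ k, k < 4 → uqD v w k ≤ (skLvs n P).length := fun k _ => by
    rw [hlen]; unfold uqD; split_ifs <;> assumption
  -- the terms
  set c : (Fin n × Bool) × (Fin n × Bool) → ℝ := fun κ => uqC κ.1.2 * uqC κ.2.2 with hc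
  set g : (Fin n × Bool) × (Fin n × Bool) → SkOm n → ℝ := fun κ ω =>
    (uqA κ.1 ω.2 * uqA κ.2 ω.2) * (((skSP n a P).X v κ.1.1 ω * (if κ.1.2 then 1 else (skSP n a P).X v κ.1.1 ω))
      * ((skSP n a P).X w κ.2.1 ω * (if κ.2.2 then 1 else (skSP n a P).X w κ.2.1 ω))) with hg
  have hgb : ∀ κ, L8Bd (g κ) := fun κ =>
    l8k_bd_mul (l8k_bd_mul (bud_uq_A_bd hok κ.1) (bud_uq_A_bd hok κ.2))
      (l8k_bd_mul (l8k_bd_mul (l8k_X_bd hok v κ.1.1) (bud_uq_B_bd hok v κ.1))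
        (l8k_bd_mul (l8k_X_bd hok w κ.2.1) (bud_uq_B_bd hok w κ.2)))
  -- the right side
  have hR : ∫ ω, (skSP n a P).L v ω * (skSP n a P).L w ω ∂(skSP n a P).μ = ∑ κ, c κ * ∫ ω, g κ ω ∂(skSP n a P).μ := by
    have e : ∀ ω, (skSP n a P).L v ω * (skSP n a P).L w ω = ∑ κ, c κ * g κ ω := fun ω => by
      rw [bud_uq_halfL P v ω, bud_uq_halfL P w ω, Finset.sum_mul_sum]
      symm
      rw [Fintype.sum_prod_type]
      refine Finset.sum_congr rfl fun p _ => Finset.sum_congr rfl fun p' _ => ?_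
      simp only [hc, hg]
      ring
    simp only [e]
    rw [integral_finsetSum _ fun κ _ => (l8k_bd_integrable (hgb κ) _).const_mul _]
    exact Finset.sum_congr rfl fun κ _ => integral_const_mul _ _
  rw [hR]
  -- the left side
  unfold b19Sk
  rw [tr_nu_congr (skBase n a) (skLvs n P) (τ' := trOf (cmCat (uqD v w) 4) (skLvs n P).length)
    (fun x y hx hy => by rw [hlen]; exact bud_uq_tab hv hw x y hx hy)]
  have e1 := tr_nu_of_ghTree (skBase n a) (skLvs n P) (cmCat (uqD v w) 4) 0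
    (fun σ : Fin 5 → SkCfg n => (skOv (σ 0) (σ 1) - skOv (σ 1) (σ 2) / 2) * (skOv (σ 0) (σ 3) - skOv (σ 3) (σ 4) / 2))
  refine e1.symm.trans ?_
  have e2 : (fun (_ : ℕ → Fin 5 → SkDr n → ℝ) (σ : Fin 5 → SkCfg n) =>
        (skOv (σ 0) (σ 1) - skOv (σ 1) (σ 2) / 2) * (skOv (σ 0) (σ 3) - skOv (σ 3) (σ 4) / 2))
      = fun _ σ => ∑ κ ∈ Finset.univ, c κ * ((uqA κ.1 (σ 0) * uqA κ.2 (σ 0)) * ∏ k : Fin 4, uqF κ k (σ k.succ)) := by
    funext _ σ
    rw [bud_uq_half hn, bud_uq_half hn, Finset.sum_mul_sum]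
    symm
    rw [Fintype.sum_prod_type]
    refine Finset.sum_congr rfl fun p _ => Finset.sum_congr rfl fun p' _ => ?_
    rw [Fin.prod_univ_four]
    simp only [hc, uqF]
    simp
    ring
  rw [e2]
  unfold GhTree.nu
  rw [tr_b1_nu_sum hB Finset.univ c _ (skLvs n P) hls]
  refine Finset.sum_congr rfl fun κ _ => ?_
  congr 1
  have h3 := cm5_cat_spine (skBase n a) hB (skLvs n P) hls 0 (uqD v w) 4 hd (fun _ s => uqA κ.1 s * uqA κ.2 s) (uqF κ)
  unfold GhTree.nu at h3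
  rw [h3]
  symm
  refine l8i_path_bd n a ha P hP _ (hgb κ) _ fun ω => ?_
  rw [Fin.prod_univ_four]
  show g κ ω = uqA κ.1 ω.2 * uqA κ.2 ω.2 *
    (ghE (skBase n a) ((skLvs n P).drop v) (obY κ.1.1) (0 + ghPre (skLvs n P) ω.1 v)
      * ghE (skBase n a) ((skLvs n P).drop v) (uqB κ.1) (0 + ghPre (skLvs n P) ω.1 v)
      * ghE (skBase n a) ((skLvs n P).drop w) (obY κ.2.1) (0 + ghPre (skLvs n P) ω.1 w)
      * ghE (skBase n a) ((skLvs n P).drop w) (uqB κ.2) (0 + ghPre (skLvs n P) ω.1 w))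
  rw [bud_uq_EY ha hP hv, bud_uq_EB ha hP hv, bud_uq_EY ha hP hw, bud_uq_EB ha hP hw]
  simp only [hg]
  ring

theorem bud_uq_EL (hn : 0 < n) (ha : 0 < a) {P : SkStp} (hP : SkAdm a P) {v : ℕ} (hv : v ≤ P.length) :
    ∫ ω, (skSP n a P).L v ω ∂(skSP n a P).μ = obS n a P 0 v / 2 := by
  have := l8k_two_EL (l8i_ok n hn a ha P hP) v
  rw [l8i_S n a ha P hP v hv] at this
  linarith

/-- **DIC** -/
theorem bud_uq_dic (hn : 0 < n) (ha : 0 < a) {P : SkStp} (hP : SkAdm a P) (k : ℕ → ℝ) :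
    b19Pr2 n a P k = ∫ ω, ppPsi n a P k ω ^ 2 ∂(skSP n a P).μ := by
  have hok := l8i_ok n hn a ha P hP
  have hprob := hok.prob
  have hLb : ∀ j, L8Bd ((skSP n a P).L j) := fun j => l8k_L_bd hok j
  have hexp : ∀ ω, ppPsi n a P k ω ^ 2 = ∑ v ∈ Finset.range (P.length + 1), ∑ w ∈ Finset.range (P.length + 1),
      skGap a P v * skGap a P w * (k v * k w) *
        (((skSP n a P).L v ω - ∫ ω', (skSP n a P).L v ω' ∂(skSP n a P).μ)
          * ((skSP n a P).L w ω - ∫ ω', (skSP n a P).L w ω' ∂(skSP n a P).μ)) := fun ω => by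
    unfold ppPsi
    rw [sq, Finset.sum_mul_sum]
    refine Finset.sum_congr rfl fun v _ => Finset.sum_congr rfl fun w _ => ?_
    ring
  have hcb : ∀ v w, L8Bd fun ω => ((skSP n a P).L v ω - ∫ ω', (skSP n a P).L v ω' ∂(skSP n a P).μ)
      * ((skSP n a P).L w ω - ∫ ω', (skSP n a P).L w ω' ∂(skSP n a P).μ) := fun v w =>
    l8k_bd_mul (l8k_bd_sub (hLb v) (l8k_bd_const _)) (l8k_bd_sub (hLb w) (l8k_bd_const _))
  simp only [hexp]
  rw [integral_finsetSum _ fun v _ => integrable_finsetSum _ fun w _ =>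
    (l8k_bd_integrable (hcb v w) _).const_mul _]
  unfold b19Pr2
  refine Finset.sum_congr rfl fun v hv => ?_
  rw [integral_finsetSum _ fun w _ => (l8k_bd_integrable (hcb v w) _).const_mul _]
  refine Finset.sum_congr rfl fun w hw => ?_
  have hv' := Nat.lt_succ_iff.1 (Finset.mem_range.1 hv)
  have hw' := Nat.lt_succ_iff.1 (Finset.mem_range.1 hw)
  rw [integral_const_mul, bud_uq_cov5 hn ha hP hv' hw', bud_uq_EL hn ha hP hv', bud_uq_EL hn ha hP hw']
  congr 1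
  have e : ∀ ω, ((skSP n a P).L v ω - obS n a P 0 v / 2) * ((skSP n a P).L w ω - obS n a P 0 w / 2)
      = (skSP n a P).L v ω * (skSP n a P).L w ω - obS n a P 0 w / 2 * (skSP n a P).L v ω
        - obS n a P 0 v / 2 * (skSP n a P).L w ω + obS n a P 0 v / 2 * (obS n a P 0 w / 2) := fun ω => by ring
  simp only [e]
  rw [integral_add, integral_sub, integral_sub, integral_const_mul, integral_const_mul, bud_uq_EL hn ha hP hv',
    bud_uq_EL hn ha hP hw', integral_const]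
  · simp only [probReal_univ, smul_eq_mul]; ring
  · exact l8k_bd_integrable (l8k_bd_mul (hLb v) (hLb w)) _
  · exact (l8k_bd_integrable (hLb v) _).const_mul _
  · exact (l8k_bd_integrable (l8k_bd_mul (hLb v) (hLb w)) _).sub ((l8k_bd_integrable (hLb v) _).const_mul _)
  · exact (l8k_bd_integrable (hLb w) _).const_mul _
  · exact ((l8k_bd_integrable (l8k_bd_mul (hLb v) (hLb w)) _).sub ((l8k_bd_integrable (hLb v) _).const_mul _)).sub
      ((l8k_bd_integrable (hLb w) _).const_mul _)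
  · exact integrable_const _

end dic

/-! ## 5. The hypothesis `B19Prim` of MASTER on all fine chains -/

theorem bud_uq_ix_meas (P : SkStp) : Measurable fun v : ℝ => ppIx P v := by
  induction P with
  | nil => exact measurable_const
  | cons e P ih =>
    have e1 : (fun v : ℝ => ppIx (e :: P) v) = fun v => (if e.m ≤ v then 1 else 0) + ppIx P v := by
      funext v
      unfold ppIx
      by_cases hv : e.m ≤ v
      · rw [List.filter_cons_of_pos (by simpa using hv), if_pos hv, List.length_cons, add_comm]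
      · rw [List.filter_cons_of_neg (by simpa using hv), if_neg hv, zero_add]
    rw [e1]
    exact (Measurable.ite measurableSet_Ici measurable_const measurable_const).add ih

theorem bud_uq_bm_mono {a : ℝ} (ha : 0 < a) {P : SkStp} (hP : SkAdm a P) : Monotone (bmMs a P) := by
  refine monotone_nat_of_le_succ fun j => ?_
  rw [bud_pp_bm_succ]
  exact bud_pp_bm_le ha hP j

/-- the step weight of a sequence: `κ_v = k_{ix v}` on `D` -/
theorem bud_uq_weight {a : ℝ} (ha : 0 < a) {P : SkStp} (hP : SkAdm a P) {D : Set ℝ} {i0 i1 : ℕ}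
    (hD : Icc (bmMs a P i0) (bmMs a P i1) ⊆ D) {k : ℕ → ℝ} (hk0 : ∀ v, v ∉ Finset.Ico i0 i1 → k v = 0) {j : ℕ} (hj : j ≤ P.length) :
    ppW a P (D.indicator fun v => k (ppIx P v)) j = skGap a P j * k j := by
  have hgap : skGap a P j = skMs a P j - bmMs a P j := rfl
  unfold ppW
  have hae : ∀ᵐ x ∂(volume : Measure ℝ), x ∈ uIoc (bmMs a P j) (skMs a P j) →
      (D.indicator fun v => k (ppIx P v)) x = k j := by
    filter_upwards [bud_pp_ae ha hP hj] with x hx hmem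
    have hxj := hx hmem
    rw [uIoc_of_le (bud_pp_bm_le ha hP j)] at hmem
    by_cases hjI : j ∈ Finset.Ico i0 i1
    · obtain ⟨h0, h1⟩ := Finset.mem_Ico.1 hjI
      have hxD : x ∈ D := hD ⟨(bud_uq_bm_mono ha hP h0).trans hmem.1.le, by
        rw [← bud_pp_bm_succ] at hmem
        exact hmem.2.trans (bud_uq_bm_mono ha hP h1)⟩
      rw [indicator_of_mem hxD, hxj]
    · rw [hk0 j hjI]
      by_cases hxD : x ∈ D
      · rw [indicator_of_mem hxD, hxj, hk0 j hjI]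
      · rw [indicator_of_notMem hxD]
  rw [intervalIntegral.integral_congr_ae hae, intervalIntegral.integral_const, smul_eq_mul, hgap]

/-- **`B19Prim` on all fine chains** from a bound of the solid norm of the indicator of `D` -/
theorem bud_uq_prim {n : ℕ} {a : ℝ} {b h : ℝ → ℝ} (hn : 0 < n) (ha : 0 < a) (hbh : CkAdm a b h) {D : Set ℝ} (hD : MeasurableSet D)
    {B : ℝ} (hB : ppU n a b h (D.indicator 1) ≤ B) {η : ℝ} (hη : 0 < η) :
    ∃ F0 : Finset GhPos, ∀ F : Finset GhPos, F0 ⊆ F → ∀ i0 i1 : ℕ,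
      Icc (bmMs a (skCStp a b h 0 0 (ghPs a F)) i0) (bmMs a (skCStp a b h 0 0 (ghPs a F)) i1) ⊆ D →
      ∀ k : ℕ → ℝ, (∀ v, |k v| ≤ 1) → (∀ v, v ∉ Finset.Ico i0 i1 → k v = 0) →
        b19Pr2 n a (skCStp a b h 0 0 (ghPs a F)) k ≤ (B + η) ^ 2 := by
  have hm1 : Measurable (D.indicator (1 : ℝ → ℝ)) := measurable_one.indicator hD
  have hC1 : ∀ v, |D.indicator (1 : ℝ → ℝ) v| ≤ 1 := fun v => by
    by_cases hv : v ∈ D
    · rw [indicator_of_mem hv]; simp
    · rw [indicator_of_notMem hv]; simp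
  obtain ⟨F0, hF0⟩ := bud_uq_ev hn ha hbh hm1 hC1 hB hη
  refine ⟨F0, fun F hF i0 i1 hI k hk1 hk0 => ?_⟩
  set P := skCStp a b h 0 0 (ghPs a F) with hPdef
  have hP : SkAdm a P := bud_pp_chain_adm ha hbh F
  set κ : ℝ → ℝ := D.indicator fun v => k (ppIx P v) with hκ
  have hκm : Measurable κ := ((measurable_from_nat (f := k)).comp (bud_uq_ix_meas P)).indicator hD
  have hd : BdDom (D.indicator 1) κ := ⟨hκm, fun v => by
    by_cases hv : v ∈ D
    · rw [hκ, indicator_of_mem hv, indicator_of_mem hv]; simpa using hk1 _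
    · rw [hκ, indicator_of_notMem hv, indicator_of_notMem hv]⟩
  have h1 := hF0 F hF κ hd
  have h0 := bud_pp_N_nonneg hn ha hbh hκm (bud_uq_dom_bd hd hC1) F
  have h2 := pow_le_pow_left₀ h0 h1 2
  rw [bud_pp_N_eq hn ha hbh (bud_pp_ii hκm (bud_uq_dom_bd hd hC1) 0 a), Real.sq_sqrt (integral_nonneg fun _ => sq_nonneg _)] at h2
  refine le_trans (le_of_eq ?_) h2
  rw [bud_uq_dic hn ha hP k]
  refine integral_congr_ae (Eventually.of_forall fun ω => ?_)
  show ppPsi n a P k ω ^ 2 = ppPhi n a P κ ω ^ 2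
  congr 1
  unfold ppPsi ppPhi
  refine Finset.sum_congr rfl fun j hj => ?_
  rw [bud_uq_weight ha hP hI hk0 (Nat.lt_succ_iff.1 (Finset.mem_range.1 hj))]

/-- the same for the solid norm `bdLcU` of `Bud/L8Defs.lean` (terminal mass `1`, extended clocks) -/
theorem bud_uq_prim1 {m : ℕ} (hm : 0 < m) {b h : ℝ → ℝ} (hb : IsClock 1 b) (hh : IsClock 1 h) {D : Set ℝ} (hD : MeasurableSet D)
    {B : ℝ} (hB : bdLcU m b h (D.indicator 1) ≤ B) {η : ℝ} (hη : 0 < η) :
    ∃ F0 : Finset GhPos, ∀ F : Finset GhPos, F0 ⊆ F → ∀ i0 i1 : ℕ,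
      Icc (bmMs 1 (skCStp 1 (bmExt b) (bmExt h) 0 0 (ghPs 1 F)) i0) (bmMs 1 (skCStp 1 (bmExt b) (bmExt h) 0 0 (ghPs 1 F)) i1) ⊆ D →
      ∀ k : ℕ → ℝ, (∀ v, |k v| ≤ 1) → (∀ v, v ∉ Finset.Ico i0 i1 → k v = 0) →
        b19Pr2 m 1 (skCStp 1 (bmExt b) (bmExt h) 0 0 (ghPs 1 F)) k ≤ (B + η) ^ 2 :=
  bud_uq_prim hm one_pos (bud_pp_adm hb hh) hD hB hη

end

end Claimed.Agent.R286
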