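import Claimed.Agent.R286.Bud.C19Ctr
import Claimed.Agent.R286.Bud.C19ScC
import Claimed.Agent.R286.Bud.C19Box
import Claimed.Agent.R286.Bud.PinPath
import Claimed.Agent.R286.Bud.C19PathA
import Claimed.Agent.R286.Bud.PinUq

/-!
# Row 286, LL sec. 7, node N17 = (C19), FLOOR 2 (PATH): `MASTER ⟹ BudB.CloMI`      (architect helper180; prefix `bcp`; every sorried leaf: prove IN PLACE, helpers just above the leaf)

FLOOR 1 (STEP)  `b19_master_c` (`Bud/C19Ctr.lean`): for EVERY admissible step path, `|S_i - Γ_i| ≤ C b19RhsC`.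
FLOOR 3 (FRAME) `bcl_c19` (`Bud/C19Box.lean`, 61) consumes `BudB.CloMI X W Q0`.
THIS FILE: **`bcp_cloMI : W.IsHub → BudB.CloMI X W Q0`**, COMPILED from the leaves below.

METHOD (no dominated convergence, no limit of sums): fix the instance `i`, the parameters `p`, and `δ > 0`.   Each leaf says `BmEv 1 (fun ps => chain number ≤ world number + δ)`.
The conjunction holds on ONE chain; there MASTER + monotonicity of the polynomial `bcpPhi` give `|Sq - Gs| ≤ C bcpPsi δ + 2δ`; `δ ↓ 0` by continuity of the polynomial; `bcpPsi 0 ≤ 2 cloR`.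

THE CHAIN: `P = i.pth ps` (`= Q.stp g ps`), cut at the mass `v`: `bcpCut ps v` (`= BdQ.ixV ps v = ghIdx ps (posA v) = ppIx P v`); the cut `j` occupies the masses `(bmMs 1 P j, skMs 1 P j]`.
TOOLS ALREADY PROVED: `Bud/PinPath.lean` (212): `bud_pp_unif` (S, B, X4 uniformly in ALL masses), `bud_pp_dec`, `bud_pp_sum_cuts`, `bud_pp_ix_eq`, `bud_pp_idx`, `bud_pp_chain_adm`, `bud_pp_chain_length`, `bud_pp_adm`, `bud_pp_nLc`, `ppN`, `bud_pp_N_eq`;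
`Exit/ClkLim` (`exit_clk_lim_nu`: uniform in tree and test, forks in the chain), `Exit/ClkLip` (`exit_clk_fork`, `exit_clk_nu_lip`, `exit_clk_stat_pos`), `Brg/Vx` (`brg_vx_last`, `brg_vx_held`), `Brg/Osc` (`gh_os_eventually`), `Exit/ClkC4`, `Fd/Contract` (`fd_sq_mono'`).

GROUPS OF LEAVES
 #T tools, any clocks:  `bcp_dict` (ckNuF = b19Sk on the discrete table), `bcp_disc_isTr`, **`bcp_unif`** (uniform closeness on ALL mass trees), `bcp_idx_*`, `bcp_ms_cut`, `bcp_cum`, `bcp_cum_le`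
 #N numbers:            `bcp_hyp`, `bcp_S`, `bcp_gap`, `bcp_KH`, `bcp_Al`, `bcp_D`, `bcp_Nf`, `bcp_NQ`, `bcp_Z`, `bcp_IG`, step facts `b19_Al_nonneg`, `b19_even_mono`, `b19_Zf_sq`
 #P primitives:         `bcp_prim` PROVED (212) from `bud_uq_prim1` (`Bud/PinUq.lean`: solid norm + replica identity `bud_uq_dic`); the former leaves `b19_pr2_eq`, `bcp_gram` are deleted
 #S scalar block:       `bcp_Gam`, `bcp_cp`  (cut in `Bud/C19PathS.lean`; uses `Sc/Contract`: `sc_x_Gam`, `sc_x_M2`, `sc_x_stab`, `sc_x_cont`, `sb7_gam`, `Sc/Link`)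
 #A assembly (180):     `bcp_phi_mono`, `bcp_psi_tendsto`, `bcp_psi_zero`, `bcp_chain`, `bcp_cloMI`.
-/

set_option autoImplicit false

namespace Claimed.Agent.R286

open MeasureTheory Set Filter Topology

noncomputable section

/-! ## 0. Definitions -/

/-- the polynomial of the right side of MASTER in its numbers -/
def bcpPhi (R : ℕ) (ε gp cp Di KH ms Al IL1 IL2 IH1 IH2 N4 Np NQ IT1 IT2 : ℝ) (Z I Pr : ℕ → ℝ) : ℝ :=
  ε + gp + cp * Di ^ 2 + (KH + ms) * Al + Di * IL1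
    + ∑ j ∈ Finset.range R, (Z j * I j + Di * Pr j)
    + IL2 + IL1 ^ 2 + IL1 * IH1
    + KH * (IH1 ^ 2 + IH2)
    + Di * N4 ^ 2 + N4 ^ 2 * (IL1 + IH1)
    + (Np + NQ + KH) * (IT1 ^ 2 + IT2)

/-- the standing hypotheses of the PATH floor (= the hypotheses of `BudB.CloMI` + the world is the Hub) -/
structure BcpI (X : BdFix) (W : BdWorld) (Q0 : ℝ) (i : BdI X) : Prop where
  hub : W.IsHub
  m2 : 2 ≤ i.F.m
  cb : IsClock 1 (i.Q.bq i.g)
  ch : IsClock 1 (i.Q.hq i.g)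
  bd : ∀ v ∈ Ioo (0 : ℝ) 1, i.Q.bq i.g v ≤ Q0 ∧ i.Q.hq i.g v ≤ Q0

namespace BdI

variable {X : BdFix} (i : BdI X)

/-- the changed path sampled on the chain -/
def pth (ps : List GhPos) : SkStp := i.Q.stp i.g ps

end BdI

/-- the cut of the chain at the mass `v` (`= BdQ.ixV ps v`) -/
def bcpCut (ps : List GhPos) (v : ℝ) : ℕ := ghIdx ps ((ghPosA v : GhPos) : WithTop GhPos)

/-- the ends of the high dyads on the chain -/
def bcpE {X : BdFix} (i : BdI X) (p : BclP) (ps : List GhPos) (k : ℕ) : ℕ :=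
  if k < p.nd then bcpCut ps (p.w k) else (i.pth ps).length + 1

/-- the projection cuts on the chain -/
def bcpKpth (p : BclP) (ps : List GhPos) (k : ℕ) : ℕ := bcpCut ps (p.w k / 2)

/-- the right side at the path level, every number enlarged by `δ` -/
def bcpPsi {X : BdFix} (W : BdWorld) (i : BdI X) (p : BclP) (δ : ℝ) : ℝ :=
  bcpPhi p.nd (1 / (i.F.m : ℝ)) δ (p.G2 + δ) (i.Q.Dq W i.g p.v0 + δ) (p.KH + δ) (p.v0 + δ) (i.Q.alErr W i.g p.v0 + δ)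
    (i.Q.iT W i.g 1 0 p.vH + δ) (i.Q.iT W i.g 2 0 p.vH + δ) (i.Q.iT W i.g 1 p.vH 1 + δ) (i.Q.iT W i.g 2 p.vH 1 + δ)
    (i.Q.nQ W i.g (2 * ((2 : ℕ) : ℝ)) p.v0 (i.Q.Sq W i.g p.v0) + δ) (i.Q.nQ W i.g (2 * (p.l : ℝ)) p.v0 (i.Q.Sq W i.g p.v0) + δ)
    (p.Rl + δ) (i.Q.iT W i.g p.th p.vH 1 + δ) (i.Q.iT W i.g (2 * p.th) p.vH 1 + δ)
    (fun k => Real.sqrt 2 * i.Q.mPr W i.g 1 p.v0 (p.w k / 2) ^ (1 / (2 * ((1 : ℕ) : ℝ))) + δ)
    (fun k => i.Q.iT W i.g 1 (p.w k) (min (2 * p.w k) 1) + δ) (fun _ => p.Pm + δ)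

theorem bcp_pth_eqns_cite : True := by
  have := @bcpPhi.eq_1; have := @BdI.pth.eq_1; have := @bcpCut.eq_1; have := @bcpE.eq_1; have := @bcpKpth.eq_1; have := @bcpPsi.eq_1
  trivial

/-! ## #T Tools: any pair of admissible clocks -/

section tools

variable {n : ℕ} {a : ℝ} {b h : ℝ → ℝ}

/-- [#T] the discrete table of a real tree on a chain is a tree (`ghIdx` is monotone, `≤ length` below `⊤`, `= length + 1` at `⊤`) -/
theorem bcp_disc_isTr {q : ℕ} {τ : ℕ → ℕ → WithTop GhPos} (hτ : GhIsRT a q τ) (ps : List GhPos) : IsTr ps.length q (ghDisc ps τ) :=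
  gh_tk_disc_isTr hτ ps

theorem bcp_stp_length (a : ℝ) (b h : ℝ → ℝ) (ps : List GhPos) : ∀ b0 h0 : ℝ, (skCStp a b h b0 h0 ps).length = ps.length := by
  induction ps with
  | nil => intro b0 h0; rfl
  | cons p ps ih => intro b0 h0; simp [skCStp, ih]

/-- [#T] **DICT**: the tree number of one chain in the coding of `Defs/Clk` is the tree number `b19Sk` of the sampled step path on the discrete table.
`trRep q τ t` and `ghRepN q sh t` agree for `t <` number of levels (the diagonal is `length + 1`): as in `tr_nu_of_ghTree` (`tr_b1_rep_congr_nu`, `tr_b1_rep_least`) -/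
theorem bcp_dict (n : ℕ) (a : ℝ) (b h : ℝ → ℝ) {q : ℕ} {τ : ℕ → ℕ → WithTop GhPos} (hτ : GhIsRT a q τ)
    (T : (Fin q → SkCfg n) → ℝ) (ps : List GhPos) :
    ckNuF n a b h q τ T ps = b19Sk n a (skCStp a b h 0 0 ps) q (ghDisc ps τ) fun σ => T fun x => σ x.1 := by
  unfold ckNuF b19Sk trNu ckStp
  simp only [tr_b1_ext_apply]
  refine tr_b1_rep_congr_nu _ _ _ _ (fun t ht => ?_) _ _
  have hlen : (skLvs n (skCStp a b h 0 0 ps)).length = ps.length := by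
    unfold skLvs
    rw [List.length_map, bcp_stp_length]
  rw [hlen] at ht
  funext x
  have hd : t < ghDisc ps τ x.1 x.1 := by
    rw [(brg_t_disc hτ ps).diag x.1 x.2]; omega
  obtain ⟨h1, h2⟩ := tr_b1_rep_least q (ghDisc ps τ) t x hd
  unfold ghRepN
  refine le_antisymm (Finset.min'_le _ _ ?_) (Finset.le_min' _ _ _ fun y hy => ?_)
  · simp only [Finset.mem_filter, Finset.mem_univ, true_and]
    exact Or.inr h1
  · simp only [Finset.mem_filter, Finset.mem_univ, true_and] at hy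
    rcases hy with rfl | hy
    · exact h2 _ hd
    · exact h2 y hy

/-- only the values of the real tree on the labels `< q` matter on a chain, and only through the discrete table -/
theorem bcp_nuF_congr (n : ℕ) (a : ℝ) (b h : ℝ → ℝ) {q : ℕ} {τ τ' : ℕ → ℕ → WithTop GhPos} (ps : List GhPos)
    (hd : ∀ x y, x < q → y < q → ghIdx ps (τ x y) = ghIdx ps (τ' x y)) (T : (Fin q → SkCfg n) → ℝ) :
    ckNuF n a b h q τ T ps = ckNuF n a b h q τ' T ps := by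
  unfold ckNuF
  have : ghRepN q (ghDisc ps τ) = ghRepN q (ghDisc ps τ') := by
    funext t x
    unfold ghRepN
    congr 1
    ext y
    have hxy : ghDisc ps τ x.1 y.1 = ghDisc ps τ' x.1 y.1 := hd x.1 y.1 x.2 y.2
    rw [Finset.mem_filter, Finset.mem_filter, hxy]
  rw [this]

/-- [#T] **UNIFORM CLOSENESS ON ALL MASS TREES** (the forks need NOT belong to the chain).
`φ p` := the last position of the chain `≤ p` (`brg_vx_last`; put `ghPosB 0` in `F0`): monotone, `ghDisc ps (τ.map φ) = ghDisc ps τ`, so `ckNuF τ = ckNuF (φ τ)`; forks of `φ τ` in the chain: `exit_clk_lim_nu`;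
`|skCNu (φ τ) - skCNu τ| ≤ C n (osc_b/2 + osc_h) K`: `exit_clk_fork` + `brg_vx_held` + `gh_os_eventually`.   Model: proof of `bud_pp_unif`. -/
theorem bcp_unif (hn : 0 < n) (ha : 0 < a) (hbh : CkAdm a b h) (q : ℕ) {δ : ℝ} (hδ : 0 < δ) :
    ∃ F0 : Finset GhPos, ∀ F : Finset GhPos, F0 ⊆ F → ∀ cut : ℕ → ℕ → ℝ, GhIsRT a q (bmTree cut) →
      ∀ (T : (Fin q → SkCfg n) → ℝ) (K : ℝ), (∀ σ, |T σ| ≤ K) →
        |ckNuF n a b h q (bmTree cut) T (ghPs a F) - skCNu n a b h q (bmTree cut) T| ≤ δ * K := by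
  classical
  obtain ⟨C, hC⟩ := exit_clk_fork (a := a) q ha
  obtain ⟨F1, hF1⟩ := exit_clk_lim_nu hn ha hbh q (half_pos hδ)
  have hn0 : (0 : ℝ) < n := Nat.cast_pos.2 hn
  set ε : ℝ := δ / (3 * (|C| + 1) * n) with hε
  have hC1 : 0 < |C| + 1 := by positivity
  have hε0 : 0 < ε := by positivity
  have hCε : C * n * (ε / 2 + ε) ≤ δ / 2 := by
    have h1 : C * n * (ε / 2 + ε) ≤ (|C| + 1) * n * (ε / 2 + ε) := by
      have : C ≤ |C| + 1 := (le_abs_self C).trans (by linarith)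
      gcongr
    have h2 : (|C| + 1) * n * (ε / 2 + ε) = δ / 2 := by rw [hε]; field_simp; ring
    linarith
  obtain ⟨F2, hF2⟩ := gh_os_eventually ha.le hbh.1 hε0
  obtain ⟨F3, hF3⟩ := gh_os_eventually ha.le hbh.2 hε0
  refine ⟨F1 ∪ F2 ∪ F3 ∪ {ghPosB 0}, fun F hF cut hτ T K hT => ?_⟩
  have hs1 : F1 ⊆ F := fun x hx => hF (by simp [hx])
  have hs2 : F2 ⊆ F := fun x hx => hF (by simp [hx])
  have hs3 : F3 ⊆ F := fun x hx => hF (by simp [hx])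
  have hB0 : ghPosB 0 ∈ F := hF (by simp)
  have hB0ok : (ghPosB 0).Ok a := ⟨le_rfl, ha.le, le_rfl, zero_le_one⟩
  have hK : 0 ≤ K := (abs_nonneg _).trans (hT fun _ _ => true)
  -- every valid position is after the empty position
  have hB0le : ∀ p : GhPos, p.Ok a → ghPosB 0 ≤ p := by
    intro p hp
    rw [gh_os_pos_le_iff]
    rcases lt_or_eq_of_le hp.1 with h0 | h0
    · exact Or.inl h0
    · exact Or.inr ⟨h0, hp.2.2.1⟩
  -- the last position of the chain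
  let φ : GhPos → GhPos := fun p =>
    if hp : ghPosB 0 ≤ p then Classical.choose (brg_vx_last (a := a) F hB0 hB0ok hp) else p
  have hφs : ∀ p (hp : ghPosB 0 ≤ p), φ p ∈ F ∧ (φ p).Ok a ∧ φ p ≤ p ∧ (∀ y ∈ ghPs a F, y ≤ p → y ≤ φ p) ∧
      ghIdx (ghPs a F) ((φ p : GhPos) : WithTop GhPos) = ghIdx (ghPs a F) (p : WithTop GhPos) := by
    intro p hp
    have := Classical.choose_spec (brg_vx_last (a := a) F hB0 hB0ok hp)
    simp only [φ, dif_pos hp]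
    exact this
  have hφn : ∀ p, ¬ ghPosB 0 ≤ p → φ p = p := fun p hp => by simp only [φ, dif_neg hp]
  have hφm : Monotone φ := by
    intro p p' hpp
    by_cases hp : ghPosB 0 ≤ p
    · have hp' : ghPosB 0 ≤ p' := hp.trans hpp
      obtain ⟨m1, m2, m3, _, _⟩ := hφs p hp
      exact (hφs p' hp').2.2.2.1 _ (gh_os_ps_mem.2 ⟨m1, m2⟩) (m3.trans hpp)
    · rw [hφn p hp]
      by_cases hp' : ghPosB 0 ≤ p'
      · exact (le_of_lt (not_le.1 hp)).trans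
          ((hφs p' hp').2.2.2.1 _ (gh_os_ps_mem.2 ⟨hB0, hB0ok⟩) hp')
      · rw [hφn p' hp']; exact hpp
  have hφok : ∀ p, p.Ok a → (φ p).Ok a := fun p hp => (hφs p (hB0le p hp)).2.1
  have hτ' := brg_n_map_rt hτ hφm hφok
  -- (1) the chain does not see the move
  have e1 : ckNuF n a b h q (bmTree cut) T (ghPs a F)
      = ckNuF n a b h q (fun x y => (bmTree cut x y).map φ) T (ghPs a F) := by
    refine bcp_nuF_congr n a b h _ (fun x y hx hy => ?_) T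
    rcases hxy : bmTree cut x y with _ | p
    · rfl
    · exact (hφs p (hB0le p (hτ.ok x y hx hy p hxy))).2.2.2.2.symm
  -- (2) the forks of the moved tree belong to the chain
  have e2 := hF1 F hs1 _ hτ' (fun x y p hx hy hp => by
    obtain ⟨r, hr, rfl⟩ := WithTop.map_eq_some_iff.1 hp
    exact (hφs r (hB0le r (hτ.ok x y hx hy r hr))).1) T K hT
  -- (3) the fork modulus
  have e3 := hC n hn b h hbh _ hτ φ hφm hφok T K ε ε hε0.le hε0.le hT (fun x y p hx hy hp => by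
    have hpok := hτ.ok x y hx hy p hp
    obtain ⟨m1, m2, m3, m4, _⟩ := hφs p (hB0le p hpok)
    have hpA : p = ghPosA (cut x y) := by
      unfold bmTree at hp
      split_ifs at hp with hxy
      · exact absurd hp (by simp)
      · exact (WithTop.coe_injective hp).symm
    have hv : cut x y ∈ Icc (0 : ℝ) a := by
      rw [hpA] at hpok
      exact ⟨hpok.1, hpok.2.1⟩
    have hmem : φ p ∈ ghPs a F := gh_os_ps_mem.2 ⟨m1, m2⟩
    have hokall : ∀ y ∈ ghPs a F, y.Ok a := fun y hy => (gh_os_ps_mem.1 hy).2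
    have g1 : ∀ c : ℝ → ℝ, GhClk1 a c → ghAt a c p - ghAt a c (φ p) ≤ ghOsc a c 0 (ghPs a F) := by
      intro c hc
      have := brg_vx_held ha.le hc hv (x := φ p) (ghPs a F) 0 (gh_os_ps_lt a F) hokall hmem (by rw [← hpA]; exact m4)
      rw [← hpA] at this
      exact this
    have g2 : ∀ c : ℝ → ℝ, GhClk1 a c → ghAt a c (φ p) ≤ ghAt a c p := fun c hc =>
      gh_os_at_mono ha.le hc m2.2.2.2 hpok.2.2.1 m3
    have o1 := hF2 F hs2; have o2 := hF3 F hs3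
    have b1 := g1 b hbh.1; have b2 := g2 b hbh.1; have b3 := g1 h hbh.2; have b4 := g2 h hbh.2
    constructor
    · rw [abs_of_nonpos (by linarith)]; linarith
    · rw [abs_of_nonpos (by linarith)]; linarith)
  rw [e1]
  have hfin : δ / 2 * K + C * n * (ε / 2 + ε) * K ≤ δ * K := by
    have := mul_le_mul_of_nonneg_right hCε hK
    linarith
  exact (abs_sub_le _ _ _).trans ((add_le_add e2 e3).trans hfin)

theorem bcpt_posA_le {v v' : ℝ} (hv : v ≤ v') : ghPosA v ≤ ghPosA v' := by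
  rw [gh_os_pos_le_iff]
  rcases hv.lt_or_eq with h | h
  · exact Or.inl h
  · exact Or.inr ⟨h, le_rfl⟩

/-- [#T] the index is monotone in the mass -/
theorem bcp_idx_mono (ps : List GhPos) {v v' : ℝ} (hv : v ≤ v') :
    ghIdx ps ((ghPosA v : GhPos) : WithTop GhPos) ≤ ghIdx ps ((ghPosA v' : GhPos) : WithTop GhPos) :=
  gh_tk_idx_mono ps (WithTop.coe_le_coe.2 (bcpt_posA_le hv))

/-- a sorted list: the filter `x ≤ p` is an initial segment -/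
theorem bcpt_filter_take (p : GhPos) : ∀ (l : List GhPos), l.Pairwise (· ≤ ·) →
    l.filter (fun x => decide (x ≤ p)) = l.take (l.filter fun x => decide (x ≤ p)).length
  | [], _ => rfl
  | x :: l, hl => by
      have hl' := (List.pairwise_cons.1 hl).2
      by_cases hx : x ≤ p
      · rw [List.filter_cons_of_pos (by simpa using hx), List.length_cons, List.take_succ_cons, ← bcpt_filter_take p l hl']
      · have hnil : l.filter (fun y => decide (y ≤ p)) = [] := by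
          rw [List.filter_eq_nil_iff]
          intro y hy
          have := (List.pairwise_cons.1 hl).1 y hy
          simpa using fun hh : y ≤ p => hx (this.trans hh)
        rw [List.filter_cons_of_neg (by simpa using hx), hnil]
        rfl

theorem bcpt_filter_lt {α : Type} (l : List α) (p q : α → Bool) (hpq : ∀ x ∈ l, p x = true → q x = true) {x : α} (hx : x ∈ l)
    (h1 : p x = false) (h2 : q x = true) : (l.filter p).length < (l.filter q).length := by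
  induction l with
  | nil => simp at hx
  | cons y l ih =>
    have hmono : (l.filter p).length ≤ (l.filter q).length := by
      have : l.filter p = (l.filter q).filter p := by
        rw [List.filter_filter]
        apply List.filter_congr
        intro z hz
        by_cases hp : p z = true
        · simp [hp, hpq z (List.mem_cons_of_mem _ hz) hp]
        · simp [hp]
      rw [this]
      exact List.length_filter_le _ _
    rcases List.mem_cons.1 hx with rfl | hx'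
    · rw [List.filter_cons_of_neg (by simp [h1]), List.filter_cons_of_pos h2, List.length_cons]
      omega
    · have ih' := ih (fun z hz => hpq z (List.mem_cons_of_mem _ hz)) hx'
      by_cases hp : p y = true
      · rw [List.filter_cons_of_pos hp, List.filter_cons_of_pos (hpq y List.mem_cons_self hp), List.length_cons, List.length_cons]
        omega
      · rw [List.filter_cons_of_neg hp]
        by_cases hq : q y = true
        · rw [List.filter_cons_of_pos hq, List.length_cons]; omega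
        · rw [List.filter_cons_of_neg hq]; exact ih'

/-- [#T] strictly, if the larger mass belongs to the chain -/
theorem bcp_idx_lt (F : Finset GhPos) {v v' : ℝ} (hv : v < v') (hv' : v' ∈ Icc (0 : ℝ) a) (hF : ghPosA v' ∈ F) :
    ghIdx (ghPs a F) ((ghPosA v : GhPos) : WithTop GhPos) < ghIdx (ghPs a F) ((ghPosA v' : GhPos) : WithTop GhPos) := by
  rw [brg_idx_coe, brg_idx_coe]
  have hmem : ghPosA v' ∈ ghPs a F := gh_os_ps_mem.2 ⟨hF, gh_os_posA_ok hv'.1 hv'.2⟩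
  refine bcpt_filter_lt _ _ _ (fun x _ hx => ?_) hmem ?_ (by simp)
  · have hx' : x ≤ ghPosA v := by simpa using hx
    simpa using hx'.trans (bcpt_posA_le hv.le)
  · have : ¬ ghPosA v' ≤ ghPosA v := by
      rw [gh_os_pos_le_iff]
      have e1 : (ghPosA v).u = v := rfl
      have e2 : (ghPosA v').u = v' := rfl
      rw [e1, e2]
      rintro (h | h)
      · linarith
      · linarith [h.1]
    simpa using this

/-- [#T] the index is at most the length -/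
theorem bcp_idx_le (ps : List GhPos) (v : ℝ) : ghIdx ps ((ghPosA v : GhPos) : WithTop GhPos) ≤ ps.length :=
  gh_tk_idx_coe_le ps _

theorem bcpt_stp_map_m (a : ℝ) (b h : ℝ → ℝ) : ∀ (ps : List GhPos) (b0 h0 : ℝ),
    (skCStp a b h b0 h0 ps).map SkInc.m = ps.map GhPos.u
  | [], _, _ => rfl
  | p :: ps, b0, h0 => by
      simp only [skCStp, List.map_cons]
      rw [bcpt_stp_map_m a b h ps]

/-- in a strictly sorted list, the last of the elements `≤ x ∈ l` is `x` -/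
theorem bcpt_last (x : GhPos) : ∀ (l : List GhPos), l.Pairwise (· < ·) → x ∈ l →
    (l.filter fun y => decide (y ≤ x)).getLast? = some x
  | [], _, hx => by simp at hx
  | y :: l, hl, hx => by
      have hl' := (List.pairwise_cons.1 hl).2
      rcases List.mem_cons.1 hx with rfl | hx'
      · have hnil : l.filter (fun z => decide (z ≤ x)) = [] := by
          rw [List.filter_eq_nil_iff]
          intro z hz
          have := (List.pairwise_cons.1 hl).1 z hz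
          simpa using this
        rw [List.filter_cons_of_pos (by simp), hnil]
        rfl
      · have hyx : y ≤ x := ((List.pairwise_cons.1 hl).1 x hx').le
        have ih := bcpt_last x l hl' hx'
        rw [List.filter_cons_of_pos (by simpa using hyx), List.getLast?_cons, ih]
        rfl

/-- [#T] the cut at a mass of the chain starts at this mass -/
theorem bcp_ms_cut (b h : ℝ → ℝ) (F : Finset GhPos) {v : ℝ} (hv : v ∈ Icc (0 : ℝ) a) (hF : ghPosA v ∈ F) :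
    bmMs a (skCStp a b h 0 0 (ghPs a F)) (ghIdx (ghPs a F) ((ghPosA v : GhPos) : WithTop GhPos)) = v := by
  have hmem : ghPosA v ∈ ghPs a F := gh_os_ps_mem.2 ⟨hF, gh_os_posA_ok hv.1 hv.2⟩
  rw [brg_idx_coe]
  have hlast := bcpt_last (ghPosA v) _ (gh_os_ps_lt a F) hmem
  have htake := bcpt_filter_take (ghPosA v) _ (gh_os_ps_pairwise a F)
  obtain ⟨j, hj⟩ : ∃ j, j = ((ghPs a F).filter fun x => decide (x ≤ ghPosA v)).length := ⟨_, rfl⟩
  rw [← hj] at htake ⊢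
  rw [htake] at hlast
  have hjl : j ≤ (ghPs a F).length := by rw [hj]; exact List.length_filter_le _ _
  have hj0 : j ≠ 0 := by
    rintro rfl
    simp at hlast
  unfold bmMs skMs
  rw [if_neg hj0, bcpt_stp_map_m]
  rw [List.getLast?_eq_getElem?, List.length_take, min_eq_left hjl, List.getElem?_take_of_lt (by omega)] at hlast
  rw [List.getD_eq_getElem?_getD, List.getElem?_map, hlast]
  rfl

theorem bcpt_cum_last (a : ℝ) (b h : ℝ → ℝ) : ∀ (ps : List GhPos) (b0 h0 : ℝ) (j : ℕ),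
    b0 + skCumB (skCStp a b h b0 h0 ps) j = ((ps.take j).getLast?.map fun p => ghAt a b p).getD b0 ∧
    h0 + skCumH (skCStp a b h b0 h0 ps) j = ((ps.take j).getLast?.map fun p => ghAt a h p).getD h0
  | [], b0, h0, j => by simp [skCStp, skCumB, skCumH]
  | p :: ps, b0, h0, 0 => by simp [skCumB, skCumH]
  | p :: ps, b0, h0, j + 1 => by
      have ih := bcpt_cum_last a b h ps (ghAt a b p) (ghAt a h p) j
      rw [List.take_succ_cons, brg_last_cons, brg_last_cons, ← ih.1, ← ih.2]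
      unfold skCumB skCumH
      simp only [skCStp, List.take_succ_cons, List.map_cons, List.sum_cons]
      constructor <;> ring

/-- [#T] what the chain has revealed at a cut: at most the clocks after the mass; equality if the mass belongs to the chain -/
theorem bcp_cum (ha : 0 < a) (hbh : CkAdm a b h) (F : Finset GhPos) {v : ℝ} (hv : v ∈ Icc (0 : ℝ) a) :
    skCumB (skCStp a b h 0 0 (ghPs a F)) (ghIdx (ghPs a F) ((ghPosA v : GhPos) : WithTop GhPos)) ≤ ghAt a b (ghPosA v) ∧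
      skCumH (skCStp a b h 0 0 (ghPs a F)) (ghIdx (ghPs a F) ((ghPosA v : GhPos) : WithTop GhPos)) ≤ ghAt a h (ghPosA v) := by
  have hc := bcpt_cum_last a b h (ghPs a F) 0 0 (ghIdx (ghPs a F) ((ghPosA v : GhPos) : WithTop GhPos))
  rw [zero_add, zero_add] at hc
  rw [hc.1, hc.2, brg_idx_coe, ← bcpt_filter_take (ghPosA v) _ (gh_os_ps_pairwise a F)]
  have hl0 : (0 : ℝ) ≤ (ghPosA v).lam := by simp [ghPosA, GhPos.lam]
  rcases hl : ((ghPs a F).filter fun x => decide (x ≤ ghPosA v)).getLast? with _ | p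
  · simp only [Option.map_none, Option.getD_none]
    exact ⟨gh_os_at_nonneg ha.le hbh.1 hl0, gh_os_at_nonneg ha.le hbh.2 hl0⟩
  · have hp := List.mem_filter.1 (List.mem_of_getLast? hl)
    have hok := (gh_os_ps_mem.1 hp.1).2
    have hle : p ≤ ghPosA v := by simpa using hp.2
    simp only [Option.map_some, Option.getD_some]
    exact ⟨gh_os_at_mono ha.le hbh.1 hok.2.2.2 hl0 hle, gh_os_at_mono ha.le hbh.2 hok.2.2.2 hl0 hle⟩

/-- [#T] the total clocks of a chain -/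
theorem bcp_cum_le (ha : 0 < a) (hbh : CkAdm a b h) (F : Finset GhPos) (j : ℕ) :
    skCumB (skCStp a b h 0 0 (ghPs a F)) j ≤ ghAt a b (ghPosA a) ∧ skCumH (skCStp a b h 0 0 (ghPs a F)) j ≤ ghAt a h (ghPosA a) := by
  have hc := bcpt_cum_last a b h (ghPs a F) 0 0 j
  rw [zero_add, zero_add] at hc
  rw [hc.1, hc.2]
  have hl0 : (0 : ℝ) ≤ (ghPosA a).lam := by simp [ghPosA, GhPos.lam]
  rcases hl : ((ghPs a F).take j).getLast? with _ | p
  · simp only [Option.map_none, Option.getD_none]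
    exact ⟨gh_os_at_nonneg ha.le hbh.1 hl0, gh_os_at_nonneg ha.le hbh.2 hl0⟩
  · have hp : p ∈ ghPs a F := List.mem_of_mem_take (List.mem_of_getLast? hl)
    have hok := (gh_os_ps_mem.1 hp).2
    simp only [Option.map_some, Option.getD_some]
    exact ⟨gh_os_at_le_top ha.le hbh.1 hok, gh_os_at_le_top ha.le hbh.2 hok⟩

end tools

/-! ## Step facts -/

section step

variable {n : ℕ}

/-- [#N] `2 Al = ν[(Q_01 - Q_23)²] ≥ 0` on the star (model: `b19c_Het_nonneg` of `C19CombA`; `b19_S_eq` for `obB`) -/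
theorem b19_Al_nonneg (hn : 0 < n) {a : ℝ} (ha : 0 < a) {P : SkStp} (hP : SkAdm a P) {i : ℕ} (hi : i ≤ P.length) : 0 ≤ b19Al n a P i := by
  unfold b19Al
  rw [← (b19_S_eq hn ha hP hi).2]
  have e1 := b19c_star_pair (n := n) ha hP hi (q := 4) (x := 0) (y := 1) (by norm_num) (by norm_num) (by norm_num)
    (fun s t => skOv s t ^ 2)
  have e2 := b19c_star_pair (n := n) ha hP hi (q := 4) (x := 2) (y := 3) (by norm_num) (by norm_num) (by norm_num)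
    (fun s t => skOv s t ^ 2)
  have e3 : (fun σ : ℕ → SkCfg n => (skOv (σ 0) (σ 1) - skOv (σ 2) (σ 3)) ^ 2)
      = fun σ => (skOv (σ 0) (σ 1) ^ 2 + skOv (σ 2) (σ 3) ^ 2) + (-2) * (skOv (σ 0) (σ 1) * skOv (σ 2) (σ 3)) := by
    funext σ
    ring
  have h2 : 0 ≤ b19Sk n a P 4 (b19St P.length i) fun σ => (skOv (σ 0) (σ 1) - skOv (σ 2) (σ 3)) ^ 2 :=
    b19c_Sk_nonneg ha hP _ _ fun _ => sq_nonneg _
  rw [e3, b19c_Sk_add ha hP, b19c_Sk_add ha hP, b19c_Sk_smul ha hP, e1, e2] at h2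
  linarith

/-- a pair test of positive type at the fork `r` = expected squared norm of the planted conditional means at the cut `r` -/
theorem b19_pair_sq {a : ℝ} (ha : 0 < a) {P : SkStp} (hP : SkAdm a P) {κ : Type} [Fintype κ] (v : κ → SkCfg n → ℝ) {r : ℕ}
    (hr : r ≤ P.length) :
    b19Sk n a P 2 (b19St P.length r) (fun σ => ∑ k, v k (σ 0) * v k (σ 1))
      = obuIt (skBase n a) (skLvs n P) r (fun y => ∑ k, ghE (skBase n a) ((skLvs n P).drop r) (v k) y ^ 2) 0 := by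
  have hl : (skLvs n P).length = P.length := by simp [skLvs]
  have hr' : r ≤ (skLvs n P).length := by rw [hl]; exact hr
  have h := obt_two_sum (obt_base_ok n ha) (skLvs n P) 0 r hr' (Finset.univ : Finset κ) v v
  rw [tr_nu_of_ghTree (skBase n a) (skLvs n P) (obT2 r) 0 (fun σ => ∑ k, v k (σ 0) * v k (σ 1)), b19_st_of _ _ hr', hl] at h
  unfold b19Sk
  refine Eq.trans ?_ (h.trans ?_)
  · rfl
  · rw [← obu_path_field (obu_base_ok n ha) (obu_lvs_nn n hP) 0 r]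
    simp only [sq]

/-- [#N] even moments of the overlap are nondecreasing in the fork: `Q^{2l} = ∑_I φ_I(σ⁰) φ_I(σ¹)`, `φ_I = ∏ y_{I_k}` (`fd_sq_mono'` / `exit_clkC4` (b)) -/
theorem b19_even_mono (hn : 0 < n) {a : ℝ} (ha : 0 < a) {P : SkStp} (hP : SkAdm a P) (l : ℕ) {r r' : ℕ} (hr : r ≤ r') (hr' : r' ≤ P.length) :
    b19Sk n a P 2 (b19St P.length r) (fun σ => skOv (σ 0) (σ 1) ^ (2 * l)) ≤ b19Sk n a P 2 (b19St P.length r') fun σ => skOv (σ 0) (σ 1) ^ (2 * l) := by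
  have e : (fun σ : ℕ → SkCfg n => skOv (σ 0) (σ 1) ^ (2 * l))
      = fun σ => ∑ I : Fin (2 * l) → Fin n, (∏ k, obY (I k) (σ 0)) * ∏ k, obY (I k) (σ 1) := by
    funext σ
    rw [obt_ov hn, Fintype.sum_pow]
    exact Finset.sum_congr rfl fun I _ => Finset.prod_mul_distrib
  rw [e, b19_pair_sq ha hP (fun (I : Fin (2 * l) → Fin n) s => ∏ k, obY (I k) s) (hr.trans hr'),
    b19_pair_sq ha hP (fun (I : Fin (2 * l) → Fin n) s => ∏ k, obY (I k) s) hr']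
  exact fd_sq_mono' (obu_base_ok n ha) _ (obu_lvs_nn n hP) 0 hr

/-- a tree with two classes: inside a class the cut `κ`, across the cut `i ≤ κ` -/
theorem b19z_two_isTr {N i κ : ℕ} (hi : i ≤ κ) (hκ : κ ≤ N) (c : ℕ → Prop) [DecidablePred c] (q : ℕ) :
    IsTr N q (fun x y => if x = y then N + 1 else if (c x ↔ c y) then κ else i) := by
  refine ⟨fun x y _ _ => ?_, fun x _ => ?_, fun x y _ _ => ?_, fun x y z _ _ _ => ?_⟩
  · split_ifs <;> omega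
  · simp
  · by_cases h : x = y
    · rw [if_pos h, if_pos h.symm]
    · rw [if_neg h, if_neg (Ne.symm h)]
      by_cases h2 : c x ↔ c y
      · rw [if_pos h2, if_pos h2.symm]
      · rw [if_neg h2, if_neg (fun h3 => h2 h3.symm)]
  · by_cases hxz : x = z
    · rw [if_pos hxz]; split_ifs <;> omega
    · rw [if_neg hxz]
      by_cases h1 : c x ↔ c z
      · rw [if_pos h1]; split_ifs <;> omega
      · rw [if_neg h1]
        by_cases hxy : x = y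
        · subst hxy
          rw [if_pos rfl, if_neg hxz, if_neg h1]; omega
        · rw [if_neg hxy]
          by_cases h2 : c x ↔ c y
          · have h3 : ¬ (c y ↔ c z) := fun h3 => h1 (h2.trans h3)
            have hyz : y ≠ z := fun e => h3 (by rw [e])
            rw [if_neg hyz, if_neg h3]; omega
          · rw [if_neg h2]; omega

/-- four labels `f 0, f 2` in one class, `f 1, f 3` in the other one: the marginal is the law on `b19TZ` -/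
theorem b19z_marg {a : ℝ} (ha : 0 < a) {P : SkStp} (hP : SkAdm a P) {i κ : ℕ} (hi : i ≤ κ) (hκ : κ ≤ P.length)
    (c : ℕ → Prop) [DecidablePred c] {q : ℕ} (f : ℕ → ℕ) (hf : ∀ x, x < 4 → f x < q) (hinj : ∀ x y, x < 4 → y < 4 → f x = f y → x = y)
    (hc : ∀ x, x < 4 → (c (f x) ↔ x % 2 = 0)) (F : SkCfg n → SkCfg n → SkCfg n → SkCfg n → ℝ) :
    b19Sk n a P q (fun x y => if x = y then P.length + 1 else if (c x ↔ c y) then κ else i)
        (fun σ => F (σ (f 0)) (σ (f 1)) (σ (f 2)) (σ (f 3)))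
      = b19Sk n a P 4 (b19TZ P.length i κ) fun σ => F (σ 0) (σ 1) (σ 2) (σ 3) := by
  have h := b19c_Sk_comap (n := n) ha hP (b19z_two_isTr hi hκ c q) f (p := 4) hf (fun σ => F (σ 0) (σ 1) (σ 2) (σ 3))
    (fun σ σ' h => by beta_reduce; rw [h 0 (by norm_num), h 1 (by norm_num), h 2 (by norm_num), h 3 (by norm_num)])
  rw [h]
  unfold b19Sk
  refine tr_nu_congr _ _ (fun x y hx hy => ?_) _ _
  unfold b19TZ
  by_cases hxy : x = y
  · subst hxy; simp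
  · rw [if_neg hxy, if_neg (fun e => hxy (hinj x y hx hy e))]
    have e : (c (f x) ↔ c (f y)) ↔ x % 2 = y % 2 := by
      rw [hc x hx, hc y hy]
      omega
    by_cases h2 : x % 2 = y % 2
    · rw [if_pos h2, if_pos (e.2 h2)]
    · rw [if_neg h2, if_neg (fun h3 => h2 (e.1 h3))]

/-- two labels in different classes: the marginal is the pair at the fork `i` -/
theorem b19z_marg2 {a : ℝ} (ha : 0 < a) {P : SkStp} (hP : SkAdm a P) {i κ : ℕ} (hi : i ≤ κ) (hκ : κ ≤ P.length)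
    (c : ℕ → Prop) [DecidablePred c] {q x y : ℕ} (hx : x < q) (hy : y < q) (hc : ¬ (c x ↔ c y)) (F : SkCfg n → SkCfg n → ℝ) :
    b19Sk n a P q (fun x y => if x = y then P.length + 1 else if (c x ↔ c y) then κ else i) (fun σ => F (σ x) (σ y))
      = b19Sk n a P 2 (b19St P.length i) fun σ => F (σ 0) (σ 1) := by
  have hxy : x ≠ y := fun e => hc (by rw [e])
  have h := b19c_Sk_comap (n := n) ha hP (b19z_two_isTr hi hκ c q) (fun z => if z = 0 then x else y) (p := 2)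
    (fun z _ => by split_ifs <;> assumption) (fun σ => F (σ 0) (σ 1))
    (fun σ σ' h => by beta_reduce; rw [h 0 (by norm_num), h 1 (by norm_num)])
  simp only [if_true, one_ne_zero, if_false] at h
  rw [h]
  unfold b19Sk
  refine tr_nu_congr _ _ (fun u v hu hv => ?_) _ _
  unfold b19St
  have hu' : u = 0 ∨ u = 1 := by omega
  have hv' : v = 0 ∨ v = 1 := by omega
  rcases hu' with rfl | rfl <;> rcases hv' with rfl | rfl
  · simp
  · simp [hxy, hc]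
  · have hc' : ¬ (c y ↔ c x) := fun h3 => hc h3.symm
    simp [Ne.symm hxy, hc']
  · simp

/-- [#N] `Z² = 2 mPr`: on the tree of `BdQ.mPr` (`l = 1`: labels `0,2,3 | 1,4,5`, inside a class the cut `κ`, across `i`) `ν[(Q01-Q24)(Q01-Q35)] = ν[Q01²] - ν_TZ[Q01 Q23]`
(prune + relabel: `tr_nu_prune`, `tr_nu_perm` of `Fd/TrB2`), and `ν_TZ[(Q01-Q23)²] = 2 ν[Q01²] - 2 ν_TZ[Q01 Q23]` (symmetry `(0,1) ↔ (2,3)` of `b19TZ`) -/
theorem b19_Zf_sq (_hn : 0 < n) {a : ℝ} (ha : 0 < a) {P : SkStp} (hP : SkAdm a P) {i κ : ℕ} (hi : i ≤ κ) (hκ : κ ≤ P.length) :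
    b19Zf n a P i κ ^ 2 = 2 * b19Sk n a P 6
      (fun x y => if x = y then P.length + 1 else if (x = 0 ∨ (2 ≤ x ∧ x < 4)) ↔ (y = 0 ∨ (2 ≤ y ∧ y < 4)) then κ else i)
      fun σ => (skOv (σ 0) (σ 1) - skOv (σ 2) (σ 4)) * (skOv (σ 0) (σ 1) - skOv (σ 3) (σ 5)) := by
  unfold b19Zf
  rw [Real.sq_sqrt (b19c_Sk_nonneg ha hP _ _ fun _ => sq_nonneg _)]
  -- the tree `b19TZ` is a two-class tree
  have hTZ : b19TZ P.length i κ = fun x y => if x = y then P.length + 1 else if (x % 2 = 0 ↔ y % 2 = 0) then κ else i := by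
    funext x y
    unfold b19TZ
    by_cases hxy : x = y
    · rw [if_pos hxy, if_pos hxy]
    · rw [if_neg hxy, if_neg hxy]
      have e : (x % 2 = 0 ↔ y % 2 = 0) ↔ x % 2 = y % 2 := by omega
      by_cases h2 : x % 2 = y % 2
      · rw [if_pos h2, if_pos (e.2 h2)]
      · rw [if_neg h2, if_neg (fun h3 => h2 (e.1 h3))]
  set A : ℝ := b19Sk n a P 2 (b19St P.length i) fun σ => skOv (σ 0) (σ 1) ^ 2 with hA
  set B : ℝ := b19Sk n a P 4 (b19TZ P.length i κ) fun σ => skOv (σ 0) (σ 1) * skOv (σ 2) (σ 3) with hB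
  have l1 : b19Sk n a P 4 (b19TZ P.length i κ) (fun σ => skOv (σ 0) (σ 1) ^ 2) = A := by
    rw [hTZ]
    exact b19z_marg2 ha hP hi hκ (fun x => x % 2 = 0) (x := 0) (y := 1) (by norm_num) (by norm_num) (by decide) (fun s t => skOv s t ^ 2)
  have l2 : b19Sk n a P 4 (b19TZ P.length i κ) (fun σ => skOv (σ 2) (σ 3) ^ 2) = A := by
    rw [hTZ]
    exact b19z_marg2 ha hP hi hκ (fun x => x % 2 = 0) (x := 2) (y := 3) (by norm_num) (by norm_num) (by decide) (fun s t => skOv s t ^ 2)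
  have eL : (fun σ : ℕ → SkCfg n => (skOv (σ 0) (σ 1) - skOv (σ 2) (σ 3)) ^ 2)
      = fun σ => skOv (σ 0) (σ 1) ^ 2 + (skOv (σ 2) (σ 3) ^ 2 + (-2) * (skOv (σ 0) (σ 1) * skOv (σ 2) (σ 3))) := by
    funext σ; ring
  rw [eL, b19c_Sk_add ha hP, b19c_Sk_add ha hP, b19c_Sk_smul ha hP, l1, l2]
  have eR : (fun σ : ℕ → SkCfg n => (skOv (σ 0) (σ 1) - skOv (σ 2) (σ 4)) * (skOv (σ 0) (σ 1) - skOv (σ 3) (σ 5)))
      = fun σ => skOv (σ 0) (σ 1) ^ 2 + ((-1) * (skOv (σ 0) (σ 1) * skOv (σ 3) (σ 5))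
        + ((-1) * (skOv (σ 0) (σ 1) * skOv (σ 2) (σ 4)) + skOv (σ 2) (σ 4) * skOv (σ 3) (σ 5))) := by
    funext σ; ring
  have r1 := b19z_marg2 (n := n) ha hP hi hκ (fun x => x = 0 ∨ (2 ≤ x ∧ x < 4)) (q := 6) (x := 0) (y := 1) (by norm_num) (by norm_num)
    (by decide) (fun s t => skOv s t ^ 2)
  have r2 := b19z_marg (n := n) ha hP hi hκ (fun x => x = 0 ∨ (2 ≤ x ∧ x < 4)) (q := 6) (fun x => if x = 0 then 0 else if x = 1 then 1 else if x = 2 then 3 else 5)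
    (by intro x hx; interval_cases x <;> simp) (by intro x y hx hy; interval_cases x <;> interval_cases y <;> simp)
    (by intro x hx; interval_cases x <;> simp) (fun s t u v => skOv s t * skOv u v)
  have r3 := b19z_marg (n := n) ha hP hi hκ (fun x => x = 0 ∨ (2 ≤ x ∧ x < 4)) (q := 6) (fun x => if x = 0 then 0 else if x = 1 then 1 else if x = 2 then 2 else 4)
    (by intro x hx; interval_cases x <;> simp) (by intro x y hx hy; interval_cases x <;> interval_cases y <;> simp)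
    (by intro x hx; interval_cases x <;> simp) (fun s t u v => skOv s t * skOv u v)
  have r4 := b19z_marg (n := n) ha hP hi hκ (fun x => x = 0 ∨ (2 ≤ x ∧ x < 4)) (q := 6) (fun x => if x = 0 then 2 else if x = 1 then 4 else if x = 2 then 3 else 5)
    (by intro x hx; interval_cases x <;> simp) (by intro x y hx hy; interval_cases x <;> interval_cases y <;> simp)
    (by intro x hx; interval_cases x <;> simp) (fun s t u v => skOv s t * skOv u v)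
  simp only [if_true, one_ne_zero, if_false, OfNat.ofNat_ne_zero, OfNat.ofNat_ne_one, Nat.reduceEqDiff] at r2 r3 r4
  rw [eR, b19c_Sk_add ha hP, b19c_Sk_add ha hP, b19c_Sk_add ha hP, b19c_Sk_smul ha hP, b19c_Sk_smul ha hP, r1, r2, r3, r4]
  ring

end step

/-! ## #N The numbers of the chain against the numbers of the world -/

section numbers

variable {X : BdFix} {W : BdWorld} {Q0 : ℝ} {i : BdI X}

theorem bcp_h_pth (i : BdI X) (ps : List GhPos) : i.pth ps = ckStp 1 (bmExt (i.Q.bq i.g)) (bmExt (i.Q.hq i.g)) ps := rfl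

theorem bcp_h_pth' (i : BdI X) (ps : List GhPos) : i.pth ps = skCStp 1 (bmExt (i.Q.bq i.g)) (bmExt (i.Q.hq i.g)) 0 0 ps := rfl

theorem bcp_h_len (i : BdI X) (ps : List GhPos) : (i.pth ps).length = ps.length := by
  rw [bcp_h_pth']
  exact bud_pp_chain_length _ _ _ _ _ _

/-- `S`, `B` on all fine chains, uniformly in the mass -/
theorem bcp_h_SB (h : BcpI X W Q0 i) {δ : ℝ} (hδ : 0 < δ) :
    BmEv 1 fun ps => ∀ v ∈ Ioo (0 : ℝ) 1, |obS i.F.m 1 (i.pth ps) 0 (bcpCut ps v) - i.Q.Sq W i.g v| ≤ δ ∧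
      |obB i.F.m 1 (i.pth ps) 0 (bcpCut ps v) - i.Q.Bq W i.g v| ≤ δ := by
  have hm : 0 < i.F.m := by have := h.m2; omega
  obtain ⟨F0, hF0⟩ := bud_pp_unif (n := i.F.m) hm one_pos (bud_pp_adm h.cb h.ch) hδ
  refine BmEv.of_superset F0 fun F hF v hv => ?_
  obtain ⟨g1, g2, -⟩ := hF0 F hF v ⟨hv.1.le, hv.2.le⟩
  have e1 : i.Q.Sq W i.g v = skCS i.F.m 1 (bmExt (i.Q.bq i.g)) (bmExt (i.Q.hq i.g)) (ghPosA v) := h.hub.S _ hm _ _ h.cb h.ch v hv
  have e2 : i.Q.Bq W i.g v = skCB i.F.m 1 (bmExt (i.Q.bq i.g)) (bmExt (i.Q.hq i.g)) (ghPosA v) := h.hub.B _ hm _ _ h.cb h.ch v hv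
  rw [e1, e2]
  exact ⟨g1, g2⟩

theorem bcp_h_adm (h : BcpI X W Q0 i) (F : Finset GhPos) : SkAdm 1 (i.pth (ghPs 1 F)) :=
  bud_pp_chain_adm one_pos (bud_pp_adm h.cb h.ch) F

theorem bcp_h_bm_mono {a : ℝ} (ha : 0 < a) {P : SkStp} (hP : SkAdm a P) : Monotone (bmMs a P) := by
  refine monotone_nat_of_le_succ fun j => ?_
  rw [bud_pp_bm_succ]
  exact bud_pp_bm_le ha hP j

/-- the clock after a mass is at most its value at a later mass -/
theorem bcp_h_at_le {c : ℝ → ℝ} (hc' : GhClk1 1 (bmExt c)) {v v1 : ℝ} (hv : 0 < v) (hvv : v < v1) (hv1 : v1 < 1) :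
    ghAt 1 (bmExt c) (ghPosA v) ≤ c v1 := by
  rw [gh_os_at_posA]
  have h1 := (gh_os_clamp_mono zero_le_one hc').rightLim_le hvv
  have h2 : ghClamp 1 (bmExt c) v1 = c v1 := by
    unfold ghClamp bmExt
    rw [if_neg (by linarith), min_eq_left hv1.le, if_neg (by linarith), if_pos hv1]
  rwa [h2] at h1

/-- the total clock is at most any bound of the clock -/
theorem bcp_h_top_le {c : ℝ → ℝ} {Q : ℝ} (hQ : ∀ v ∈ Ioo (0 : ℝ) 1, c v ≤ Q) : ghAt 1 (bmExt c) (ghPosA 1) ≤ Q := by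
  rw [gh_os_at_top 1 _ zero_le_one]
  unfold bmExt
  rw [if_neg (by norm_num), if_neg (by norm_num)]
  refine csSup_le ⟨c (1 / 2), ⟨1 / 2, ⟨by norm_num, by norm_num⟩, rfl⟩⟩ ?_
  rintro _ ⟨v, hv, rfl⟩
  exact hQ v hv

theorem bcp_h_S_mono (h : BcpI X W Q0 i) : MonotoneOn (i.Q.Sq W i.g) (Ioo 0 1) := by
  have := (W.ps i.F.m).S_mono (i.Q.bq i.g) (i.Q.hq i.g) (by rw [h.hub.a1]; exact h.cb) (by rw [h.hub.a1]; exact h.ch)
  rw [h.hub.a1] at this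
  exact this

theorem bcp_h_sqrt_sub (x y : ℝ) : Real.sqrt x ≤ Real.sqrt y + Real.sqrt |x - y| := by
  have h1 : x ≤ y + |x - y| := by
    have := le_abs_self (x - y)
    linarith
  exact (Real.sqrt_le_sqrt h1).trans (brg_vx_sqrt_add y (abs_nonneg _))

/-- `D²` on all fine chains, uniformly in the mass -/
theorem bcp_h_D2 (h : BcpI X W Q0 i) {δ : ℝ} (hδ : 0 < δ) :
    BmEv 1 fun ps => ∀ v ∈ Ioo (0 : ℝ) 1, |obD2 i.F.m 1 (i.pth ps) 0 (bcpCut ps v) - i.Q.Dq2 W i.g v| ≤ δ := by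
  have hm : 0 < i.F.m := by have := h.m2; omega
  obtain ⟨F0, hF0⟩ := (bcp_h_SB h (δ := δ / 3) (by positivity)).exists_base
  refine BmEv.of_superset F0 fun F hF v hv => ?_
  obtain ⟨g1, g2⟩ := hF0 F hF v hv
  have hadm := bcp_h_adm h F
  have hj : bcpCut (ghPs 1 F) v ≤ (i.pth (ghPs 1 F)).length := by
    rw [bcp_h_len]
    exact bcp_idx_le _ _
  obtain ⟨s0, s1⟩ := b19_S_mem hm one_pos hadm hj
  have t0 : 0 ≤ i.Q.Sq W i.g v :=
    (W.ps i.F.m).S_nonneg (i.Q.bq i.g) (i.Q.hq i.g) (by rw [h.hub.a1]; exact h.cb) (by rw [h.hub.a1]; exact h.ch) v (by rw [h.hub.a1]; exact hv)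
  have t1 : i.Q.Sq W i.g v ≤ 1 :=
    (W.ps i.F.m).S_le_one (by rw [h.hub.a1]; exact h.cb) (by rw [h.hub.a1]; exact h.ch) (by rw [h.hub.a1]; exact hv)
  unfold obD2 BdQ.Dq2
  rw [abs_le] at g1 g2 ⊢
  constructor <;> nlinarith

/-- `w_k ≤ 1` for `k < nd` -/
theorem bcp_h_w_le {vH : ℝ} {nd : ℕ} (hH : 0 ≤ vH) (hhi : vH * 2 ^ nd ≤ 2) {k : ℕ} (hk : k < nd) : vH * 2 ^ k ≤ 1 := by
  have h1 : (2 : ℝ) ^ (k + 1) ≤ 2 ^ nd := pow_le_pow_right₀ (by norm_num) hk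
  have h2 : vH * 2 ^ (k + 1) ≤ vH * 2 ^ nd := mul_le_mul_of_nonneg_left h1 hH
  rw [pow_succ] at h2
  linarith

/-- [#N] the hypotheses of MASTER on all fine chains (`F0` = the positions after the masses `v0`, `vH`, `w_k`, `w_k/2`).   `M0 = 2 Q0`: `b_N ≤ Q0` (`bcp_cum_le`), `K_H ≤ Q0 + Q0 · 1`. -/
theorem bcp_hyp (h : BcpI X W Q0 i) {p : BclP} (hp : i.Q.CloOk W i.g p) :
    BmEv 1 fun ps => B19Hyp i.F.m 1 (i.pth ps) 1 (2 * Q0) (bcpCut ps p.v0) (bcpCut ps p.vH) ∧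
      B19Dy (bcpCut ps p.v0) (bcpCut ps p.vH) (i.pth ps).length p.nd (bcpE i p ps) (bcpKpth p ps) ∧
      bmMs 1 (i.pth ps) (bcpCut ps p.vH) = p.vH ∧
      ∀ k < p.nd, bcpE i p ps (k + 1) ≤ (i.pth ps).length + 1 ∧
        bmMs 1 (i.pth ps) (bcpE i p ps k) = p.w k ∧ bmMs 1 (i.pth ps) (bcpE i p ps (k + 1)) = min (2 * p.w k) 1 := by
  classical
  have hm : 0 < i.F.m := by have := h.m2; omega
  have hbh := bud_pp_adm h.cb h.ch
  have hv0 := hp.v0_pos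
  have hH : 0 < p.vH := by linarith [hp.v0_vH]
  have hH1 : p.vH ≤ 1 := by linarith [hp.vH1]
  have hnd : 0 < p.nd := by
    rcases Nat.eq_zero_or_pos p.nd with h0 | h0
    · have := hp.nd_lo
      rw [h0, pow_zero, mul_one] at this
      linarith [hp.vH1]
    · exact h0
  have hw0 : ∀ k : ℕ, p.vH ≤ p.w k := fun k => le_mul_of_one_le_right hH.le (one_le_pow₀ (by norm_num))
  have hw1 : ∀ k < p.nd, p.w k ≤ 1 := fun k hk => bcp_h_w_le hH.le hp.nd_hi hk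
  have hws : ∀ k : ℕ, p.w (k + 1) = 2 * p.w k := fun k => by unfold BclP.w; rw [pow_succ]; ring
  refine BmEv.of_superset (({ghPosA p.vH} : Finset GhPos) ∪ (Finset.range p.nd).image (fun k : ℕ => ghPosA (p.w k))
    ∪ (Finset.range p.nd).image (fun k : ℕ => ghPosA (p.w k / 2))) fun F hF => ?_
  have hFH : ghPosA p.vH ∈ F := hF (by simp)
  have hFw : ∀ k < p.nd, ghPosA (p.w k) ∈ F := fun k hk =>
    hF (Finset.mem_union_left _ (Finset.mem_union_right _ (Finset.mem_image.2 ⟨k, Finset.mem_range.2 hk, rfl⟩)))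
  have hFk : ∀ k < p.nd, ghPosA (p.w k / 2) ∈ F := fun k hk =>
    hF (Finset.mem_union_right _ (Finset.mem_image.2 ⟨k, Finset.mem_range.2 hk, rfl⟩))
  have hadm := bcp_h_adm h F
  have hlen := bcp_h_len i (ghPs 1 F)
  have hHN : bcpCut (ghPs 1 F) p.vH ≤ (i.pth (ghPs 1 F)).length := by rw [hlen]; exact bcp_idx_le _ _
  have hcut : ∀ v ∈ Icc (0 : ℝ) 1, ghPosA v ∈ F → bmMs 1 (i.pth (ghPs 1 F)) (bcpCut (ghPs 1 F) v) = v := fun v hv hvF =>
    bcp_ms_cut (a := 1) _ _ F hv hvF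
  have hEk : ∀ k < p.nd, bcpE i p (ghPs 1 F) k = bcpCut (ghPs 1 F) (p.w k) := fun k hk => by unfold bcpE; rw [if_pos hk]
  have hEnd : bcpE i p (ghPs 1 F) p.nd = (i.pth (ghPs 1 F)).length + 1 := by unfold bcpE; rw [if_neg (lt_irrefl _)]
  refine ⟨⟨h.m2, one_pos, le_rfl, hadm, ?_, ?_, bcp_idx_lt (a := 1) F (by linarith [hp.v0_vH]) ⟨hH.le, hH1⟩ hFH, hHN⟩,
    ⟨?_, hEnd, ?_, ?_, ?_⟩, hcut _ ⟨hH.le, hH1⟩ hFH, ?_⟩
  · have h1 := (bcp_cum_le one_pos hbh F (i.pth (ghPs 1 F)).length).1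
    have h2 := bcp_h_top_le (c := i.Q.bq i.g) (Q := Q0) fun v hv => (h.bd v hv).1
    have h3 : 0 ≤ Q0 := (gh_os_at_nonneg zero_le_one hbh.1 zero_le_one).trans h2
    rw [bcp_h_pth']
    rw [bcp_h_pth'] at h1
    linarith
  · have h1 := bcp_cum_le one_pos hbh F (bcpCut (ghPs 1 F) p.vH)
    have h2 := bcp_h_top_le (c := i.Q.bq i.g) (Q := Q0) fun v hv => (h.bd v hv).1
    have h3 := bcp_h_top_le (c := i.Q.hq i.g) (Q := Q0) fun v hv => (h.bd v hv).2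
    have hS := b19_S_mem hm one_pos hadm hHN
    have h4 := (b19_cum_nonneg hadm (bcpCut (ghPs 1 F) p.vH)).1
    unfold b19K
    rw [bcp_h_pth'] at hS h4 ⊢
    nlinarith [h1.1, h1.2, hS.1, hS.2]
  · rw [hEk 0 hnd]
    unfold BclP.w
    rw [pow_zero, mul_one]
  · intro j hj
    rw [hEk j hj]
    by_cases hj1 : j + 1 < p.nd
    · rw [hEk _ hj1]
      refine bcp_idx_lt (a := 1) F ?_ ⟨hH.le.trans (hw0 _), hw1 _ hj1⟩ (hFw _ hj1)
      rw [hws]
      linarith [hw0 j]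
    · have : j + 1 = p.nd := by omega
      rw [this, hEnd, hlen]
      exact Nat.lt_succ_of_le (bcp_idx_le _ _)
  · intro j hj
    refine bcp_idx_lt (a := 1) F ?_ ⟨by linarith [hw0 j], by linarith [hw1 j hj]⟩ (hFk _ hj)
    linarith [hw0 j, hp.v0_vH]
  · intro j hj
    rw [hEk j hj]
    exact bcp_idx_mono _ (by linarith [hw0 j])
  · intro k hk
    refine ⟨?_, ?_, ?_⟩
    · by_cases hk1 : k + 1 < p.nd
      · rw [hEk _ hk1, hlen]
        exact (bcp_idx_le _ _).trans (Nat.le_succ _)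
      · have : k + 1 = p.nd := by omega
        rw [this, hEnd]
    · rw [hEk k hk]
      exact hcut _ ⟨hH.le.trans (hw0 _), hw1 _ hk⟩ (hFw _ hk)
    · by_cases hk1 : k + 1 < p.nd
      · rw [hEk _ hk1, hcut _ ⟨hH.le.trans (hw0 _), hw1 _ hk1⟩ (hFw _ hk1), hws, min_eq_left]
        rw [← hws]
        exact hw1 _ hk1
      · have e : k + 1 = p.nd := by omega
        rw [e, hEnd, bud_pp_bm_succ, bud_pp_ms_top _ le_rfl, min_eq_right]
        rw [← hws, e]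
        exact hp.nd_lo

/-- [#N] `S` (`bud_pp_unif`, `IsHub.S`) -/
theorem bcp_S (h : BcpI X W Q0 i) {v : ℝ} (hv : v ∈ Ioo (0 : ℝ) 1) {δ : ℝ} (hδ : 0 < δ) :
    BmEv 1 fun ps => |obS i.F.m 1 (i.pth ps) 0 (bcpCut ps v) - i.Q.Sq W i.g v| ≤ δ :=
  (bcp_h_SB h hδ).mono fun _ H => (H v hv).1

/-- [#N] the observed cut is short (`F0 = {posA v, posA (min (v + δ) 1)}`) -/
theorem bcp_gap (h : BcpI X W Q0 i) {v : ℝ} (hv : v ∈ Ioo (0 : ℝ) 1) {δ : ℝ} (hδ : 0 < δ) :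
    BmEv 1 fun ps => skGap 1 (i.pth ps) (bcpCut ps v) ≤ δ ∧ skMs 1 (i.pth ps) (bcpCut ps v) ≤ v + δ := by
  classical
  refine BmEv.of_superset {ghPosA v, ghPosA (min (v + δ) 1)} fun F hF => ?_
  have h1 : ghPosA v ∈ F := hF (by simp)
  have h2 : ghPosA (min (v + δ) 1) ∈ F := hF (by simp)
  have hv' : v < min (v + δ) 1 := lt_min (by linarith) hv.2
  have hv1 : min (v + δ) 1 ∈ Icc (0 : ℝ) 1 := ⟨(hv.1.trans hv').le, min_le_right _ _⟩
  have hadm := bcp_h_adm h F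
  have e1 : bmMs 1 (i.pth (ghPs 1 F)) (bcpCut (ghPs 1 F) v) = v := bcp_ms_cut _ _ F ⟨hv.1.le, hv.2.le⟩ h1
  have e2 : bmMs 1 (i.pth (ghPs 1 F)) (bcpCut (ghPs 1 F) (min (v + δ) 1)) = min (v + δ) 1 := bcp_ms_cut _ _ F hv1 h2
  have e3 : bcpCut (ghPs 1 F) v < bcpCut (ghPs 1 F) (min (v + δ) 1) := bcp_idx_lt F hv' hv1 h2
  have e4 : skMs 1 (i.pth (ghPs 1 F)) (bcpCut (ghPs 1 F) v) ≤ min (v + δ) 1 := by
    rw [← bud_pp_bm_succ, ← e2]
    exact bcp_h_bm_mono one_pos hadm e3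
  have e5 : skGap 1 (i.pth (ghPs 1 F)) (bcpCut (ghPs 1 F) v)
      = skMs 1 (i.pth (ghPs 1 F)) (bcpCut (ghPs 1 F) v) - bmMs 1 (i.pth (ghPs 1 F)) (bcpCut (ghPs 1 F) v) := rfl
  have e6 := min_le_left (v + δ) 1
  exact ⟨by rw [e5, e1]; linarith, by linarith⟩

/-- [#N] `K_H`: `cumH ≤ h(v+) ≤ h(v1)`, `cumB ≤ b(v1)` (`bcp_cum`), `S_H ≤ S_v + δ' ≤ S_{v1} + δ'` -/
theorem bcp_KH (h : BcpI X W Q0 i) {v v1 : ℝ} (hv : 0 < v) (hvv : v < v1) (hv1 : v1 < 1) {δ : ℝ} (hδ : 0 < δ) :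
    BmEv 1 fun ps => b19K i.F.m 1 (i.pth ps) (bcpCut ps v) ≤ i.Q.Ks W i.g v1 + δ := by
  have hadm0 := bud_pp_adm h.cb h.ch
  have hvI : v ∈ Ioo (0 : ℝ) 1 := ⟨hv, hvv.trans hv1⟩
  have hv1I : v1 ∈ Ioo (0 : ℝ) 1 := ⟨hv.trans hvv, hv1⟩
  have hb0 : 0 ≤ i.Q.bq i.g v1 := h.cb.nonneg v1 hv1I
  have hδ' : 0 < δ / (i.Q.bq i.g v1 + 1) := by positivity
  obtain ⟨F0, hF0⟩ := (bcp_S h hvI hδ').exists_base
  refine BmEv.of_superset F0 fun F hF => ?_
  have hS := hF0 F hF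
  have hadm := bcp_h_adm h F
  obtain ⟨c1, c2⟩ := bcp_cum one_pos hadm0 F (v := v) ⟨hv.le, hvI.2.le⟩
  have c1' := c1.trans (bcp_h_at_le hadm0.1 hv hvv hv1)
  have c2' := c2.trans (bcp_h_at_le hadm0.2 hv hvv hv1)
  have hSm := bcp_h_S_mono h hvI hv1I hvv.le
  have hS0 : 0 ≤ obS i.F.m 1 (i.pth (ghPs 1 F)) 0 (bcpCut (ghPs 1 F) v) := b19c_S_nonneg one_pos _ _
  have hS1 : obS i.F.m 1 (i.pth (ghPs 1 F)) 0 (bcpCut (ghPs 1 F) v) ≤ i.Q.Sq W i.g v1 + δ / (i.Q.bq i.g v1 + 1) := by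
    have := (abs_le.1 hS).2
    linarith
  have hB0 : 0 ≤ skCumB (i.pth (ghPs 1 F)) (bcpCut (ghPs 1 F) v) := b19c_cumB_nonneg hadm _
  have e1 : i.Q.bq i.g v1 * (δ / (i.Q.bq i.g v1 + 1)) ≤ δ := by
    rw [mul_div_assoc', div_le_iff₀ (by positivity)]
    nlinarith
  have e2 : skCumB (i.pth (ghPs 1 F)) (bcpCut (ghPs 1 F) v) * obS i.F.m 1 (i.pth (ghPs 1 F)) 0 (bcpCut (ghPs 1 F) v)
      ≤ i.Q.bq i.g v1 * (i.Q.Sq W i.g v1 + δ / (i.Q.bq i.g v1 + 1)) := mul_le_mul c1' hS1 hS0 hb0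
  unfold b19K BdQ.Ks
  have c2'' : skCumH (i.pth (ghPs 1 F)) (bcpCut (ghPs 1 F) v) ≤ i.Q.hq i.g v1 := c2'
  nlinarith

/-- the star at the mass `v` is a real tree -/
theorem bcp_star_isRT (q : ℕ) {v : ℝ} (hv : v ∈ Icc (0 : ℝ) 1) : GhIsRT 1 q (bmTree fun _ _ => v) where
  diag := fun x _ => by simp [bmTree]
  symm := fun x y _ _ => by simp [bmTree, eq_comm]
  ultra := fun x y z _ _ _ => by
    unfold bmTree
    by_cases h1 : x = y <;> by_cases h2 : y = z <;> by_cases h3 : x = z <;> simp [h1, h2, h3]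
  ok := fun x y _ _ p hp => by
    unfold bmTree at hp
    split_ifs at hp
    · exact absurd hp (by simp)
    · rw [← WithTop.coe_injective hp]
      exact gh_os_posA_ok hv.1 hv.2

/-- its discrete table is the star at the cut -/
theorem bcp_star_disc (ps : List GhPos) (v : ℝ) : ghDisc ps (bmTree fun _ _ => v) = b19St ps.length (bcpCut ps v) := by
  funext x y
  unfold ghDisc bmTree b19St bcpCut
  split_ifs
  · simp [ghIdx]
  · rfl

/-- [tool] **a star number on all fine chains** (`bcp_unif`, `bcp_dict`, `IsHub.nu`) -/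
theorem bcp_star (h : BcpI X W Q0 i) (q : ℕ) {v : ℝ} (hv : v ∈ Ioo (0 : ℝ) 1) (T : (ℕ → ℕ → ℝ) → ℝ) {K : ℝ}
    (hK : ∀ σ, |bmTest i.F.m q T σ| ≤ K) {δ : ℝ} (hδ : 0 < δ) :
    BmEv 1 fun ps => |b19Sk i.F.m 1 (i.pth ps) q (b19St (i.pth ps).length (bcpCut ps v)) (fun σ => bmTest i.F.m q T fun x => σ x.1)
      - W.nu i.F.m (i.Q.bq i.g) (i.Q.hq i.g) q (fun _ _ => v) T| ≤ δ := by
  have hn : 0 < i.F.m := by have := h.m2; omega
  have hbh := bud_pp_adm h.cb h.ch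
  have hK1 : 0 < |K| + 1 := by positivity
  obtain ⟨F0, hF0⟩ := bcp_unif hn one_pos hbh q (δ := δ / (|K| + 1)) (by positivity)
  refine BmEv.of_superset F0 fun F hF => ?_
  have h1 := hF0 F hF (fun _ _ => v) (bcp_star_isRT q ⟨hv.1.le, hv.2.le⟩) (bmTest i.F.m q T) K hK
  rw [bcp_dict i.F.m 1 _ _ (bcp_star_isRT q ⟨hv.1.le, hv.2.le⟩), bcp_star_disc, ← h.hub.nu _ _ _ h.cb h.ch] at h1
  have hl : (i.pth (ghPs 1 F)).length = (ghPs 1 F).length := bud_pp_chain_length _ _ _ _ _ _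
  rw [hl]
  refine h1.trans ?_
  rw [div_mul_eq_mul_div, div_le_iff₀ hK1]
  have := le_abs_self K
  nlinarith

/-- [#N] the alias error (`bud_pp_unif` for `B`; `bcp_unif` + `bcp_dict` with `q = 4` for `E|X|⁴ = ν[Q01 Q23]`, `IsHub.nu`) -/
theorem bcp_Al (h : BcpI X W Q0 i) {v : ℝ} (hv : v ∈ Ioo (0 : ℝ) 1) {δ : ℝ} (hδ : 0 < δ) :
    BmEv 1 fun ps => b19Al i.F.m 1 (i.pth ps) (bcpCut ps v) ≤ i.Q.alErr W i.g v + δ := by
  have hn : 0 < i.F.m := by have := h.m2; omega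
  have hbh := bud_pp_adm h.cb h.ch
  obtain ⟨F0, hF0⟩ := bud_pp_unif hn one_pos hbh (half_pos hδ)
  have e : ∀ σ : Fin 4 → SkCfg i.F.m, bmTest i.F.m 4 (fun O => ∏ k ∈ Finset.range 2, O (2 * k) (2 * k + 1)) σ
      = skOv (σ 0) (σ 1) * skOv (σ 2) (σ 3) := fun σ => by
    simp [bmTest, Finset.prod_range_succ]
  have e' : (fun σ : ℕ → SkCfg i.F.m => bmTest i.F.m 4 (fun O => ∏ k ∈ Finset.range 2, O (2 * k) (2 * k + 1)) fun x => σ x.1)
      = fun σ => skOv (σ 0) (σ 1) * skOv (σ 2) (σ 3) := funext fun σ => e _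
  have h1 := bcp_star h 4 hv (fun O => ∏ k ∈ Finset.range 2, O (2 * k) (2 * k + 1)) (K := 1)
    (fun σ => by rw [e]; exact brg_s_ov2_abs _ _ _ _) (half_pos hδ)
  have h2 : BmEv 1 fun ps => |obB i.F.m 1 (ckStp 1 (bmExt (i.Q.bq i.g)) (bmExt (i.Q.hq i.g)) ps) 0 (ghIdx ps ((ghPosA v : GhPos) : WithTop GhPos))
      - skCB i.F.m 1 (bmExt (i.Q.bq i.g)) (bmExt (i.Q.hq i.g)) (ghPosA v)| ≤ δ / 2 :=
    BmEv.of_superset F0 fun F hF => (hF0 F hF v ⟨hv.1.le, hv.2.le⟩).2.1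
  refine (h1.and h2).mono fun ps hh => ?_
  obtain ⟨g1, g2⟩ := hh
  rw [e'] at g1
  rw [← h.hub.B _ hn _ _ h.cb h.ch v hv] at g2
  unfold b19Al BdQ.alErr BdQ.mX BdQ.Bq
  have g1' := (abs_le.1 g1).1
  have g2' := (abs_le.1 g2).2
  have e2 : ckStp 1 (bmExt (i.Q.bq i.g)) (bmExt (i.Q.hq i.g)) ps = i.pth ps := rfl
  rw [e2] at g2'
  have e3 : ghIdx ps ((ghPosA v : GhPos) : WithTop GhPos) = bcpCut ps v := rfl
  rw [e3] at g2'
  linarith

/-- [#N] `D` (`|√x - √y| ≤ √|x - y|`) -/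
theorem bcp_D (h : BcpI X W Q0 i) {v : ℝ} (hv : v ∈ Ioo (0 : ℝ) 1) {δ : ℝ} (hδ : 0 < δ) :
    BmEv 1 fun ps => bmD i.F.m 1 (i.pth ps) (bcpCut ps v) ≤ i.Q.Dq W i.g v + δ := by
  refine (bcp_h_D2 h (δ := δ ^ 2) (by positivity)).mono fun ps H => ?_
  unfold bmD BdQ.Dq
  refine (bcp_h_sqrt_sub _ (i.Q.Dq2 W i.g v)).trans (add_le_add le_rfl ?_)
  exact (Real.sqrt_le_sqrt (H v hv)).trans (by rw [Real.sqrt_sq hδ.le])

/-- [#N] the centred moments (`bcp_unif`, `bcp_dict`, `q = 2`; the centre moves by `δ'`: `||x-c|^p - |x-c'|^p| ≤ p 2^{p-1} |c-c'|`; `|x^{1/p} - y^{1/p}| ≤ |x-y|^{1/p}`) -/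
theorem bcp_Nf (h : BcpI X W Q0 i) {v : ℝ} (hv : v ∈ Ioo (0 : ℝ) 1) (l : ℕ) (hl : 1 ≤ l) {δ : ℝ} (hδ : 0 < δ) :
    BmEv 1 fun ps => b19Nf i.F.m 1 (i.pth ps) (2 * (l : ℝ)) (bcpCut ps v) (obS i.F.m 1 (i.pth ps) 0 (bcpCut ps v))
      ≤ i.Q.nQ W i.g (2 * (l : ℝ)) v (i.Q.Sq W i.g v) + δ := by
  have hlR : (1 : ℝ) ≤ (l : ℝ) := by exact_mod_cast hl
  have hp : 0 < 2 * (l : ℝ) := by linarith
  have hp1 : 1 ≤ 2 * (l : ℝ) := by linarith
  set c : ℝ := i.Q.Sq W i.g v with hc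
  have e : ∀ σ : Fin 2 → SkCfg i.F.m, bmTest i.F.m 2 (fun O => |O 0 1 - c| ^ (2 * (l : ℝ))) σ
      = |skOv (σ 0) (σ 1) - c| ^ (2 * (l : ℝ)) := fun σ => by
    simp [bmTest]
  have e' : (fun σ : ℕ → SkCfg i.F.m => bmTest i.F.m 2 (fun O => |O 0 1 - c| ^ (2 * (l : ℝ))) fun x => σ x.1)
      = fun σ => |skOv (σ 0) (σ 1) - c| ^ (2 * (l : ℝ)) := funext fun σ => e _
  have hK : ∀ σ : Fin 2 → SkCfg i.F.m, |bmTest i.F.m 2 (fun O => |O 0 1 - c| ^ (2 * (l : ℝ))) σ| ≤ (1 + |c|) ^ (2 * (l : ℝ)) := fun σ => by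
    rw [e, abs_of_nonneg (Real.rpow_nonneg (abs_nonneg _) _)]
    refine Real.rpow_le_rpow (abs_nonneg _) ?_ hp.le
    have h1 := abs_add_le (skOv (σ 0) (σ 1)) (-c)
    rw [abs_neg, ← sub_eq_add_neg] at h1
    exact h1.trans (add_le_add (brg_s_ov_abs _ _) le_rfl)
  have hst := fun (δ' : ℝ) (hδ' : 0 < δ') => bcp_star h 2 hv (fun O => |O 0 1 - c| ^ (2 * (l : ℝ))) hK hδ'
  simp only [e'] at hst
  have hadm : ∀ F : Finset GhPos, SkAdm 1 (i.pth (ghPs 1 F)) := fun F => bud_pp_chain_adm one_pos (bud_pp_adm h.cb h.ch) F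
  have hm0 : 0 ≤ i.Q.mQ W i.g (2 * (l : ℝ)) v c := by
    refine le_of_forall_pos_le_add fun δ' hδ' => ?_
    obtain ⟨F, hF⟩ := (hst δ' hδ').exists
    have h0 : 0 ≤ b19Sk i.F.m 1 (i.pth (ghPs 1 F)) 2 (b19St (i.pth (ghPs 1 F)).length (bcpCut (ghPs 1 F) v))
        fun σ => |skOv (σ 0) (σ 1) - c| ^ (2 * (l : ℝ)) :=
      b19c_Sk_nonneg one_pos (hadm F) _ _ fun _ => Real.rpow_nonneg (abs_nonneg _) _
    have := (abs_le.1 hF).2
    unfold BdQ.mQ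
    linarith
  have hδ2 : 0 < δ / 2 := half_pos hδ
  have hδp : 0 < (δ / 2) ^ (2 * (l : ℝ)) := Real.rpow_pos_of_pos hδ2 _
  refine Filter.Eventually.mono (Filter.Eventually.and (hst _ hδp) (bcp_S h hv hδ2)) fun F hF => ?_
  obtain ⟨hF1, hF2⟩ := hF
  set ps := ghPs 1 F with hps
  have h2 := (abs_le.1 hF1).2
  have h0 : 0 ≤ b19Sk i.F.m 1 (i.pth ps) 2 (b19St (i.pth ps).length (bcpCut ps v))
      fun σ => |skOv (σ 0) (σ 1) - c| ^ (2 * (l : ℝ)) :=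
    b19c_Sk_nonneg one_pos (hadm F) _ _ fun _ => Real.rpow_nonneg (abs_nonneg _) _
  have hle : ∀ σ : ℕ → SkCfg i.F.m, |skOv (σ 0) (σ 1) - obS i.F.m 1 (i.pth ps) 0 (bcpCut ps v)| ≤ |skOv (σ 0) (σ 1) - c| + δ / 2 := fun σ => by
    have e1 : skOv (σ 0) (σ 1) - obS i.F.m 1 (i.pth ps) 0 (bcpCut ps v)
        = (skOv (σ 0) (σ 1) - c) + -(obS i.F.m 1 (i.pth ps) 0 (bcpCut ps v) - c) := by ring
    rw [e1]
    refine (abs_add_le _ _).trans (add_le_add le_rfl ?_)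
    rw [abs_neg]
    exact hF2
  have hsh := b19v_shift one_pos (hadm F) 2 (b19St (i.pth ps).length (bcpCut ps v)) hp1
    (fun σ => skOv (σ 0) (σ 1) - obS i.F.m 1 (i.pth ps) 0 (bcpCut ps v)) (fun σ => skOv (σ 0) (σ 1) - c) hδ2.le hle
  have h3 : b19Sk i.F.m 1 (i.pth ps) 2 (b19St (i.pth ps).length (bcpCut ps v)) (fun σ => |skOv (σ 0) (σ 1) - c| ^ (2 * (l : ℝ)))
      ≤ i.Q.mQ W i.g (2 * (l : ℝ)) v c + (δ / 2) ^ (2 * (l : ℝ)) := by
    unfold BdQ.mQ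
    linarith
  have hq0 : 0 ≤ 1 / (2 * (l : ℝ)) := by positivity
  have hq1 : 1 / (2 * (l : ℝ)) ≤ 1 := by
    rw [div_le_one hp]; linarith
  have h4 : (b19Sk i.F.m 1 (i.pth ps) 2 (b19St (i.pth ps).length (bcpCut ps v))
      fun σ => |skOv (σ 0) (σ 1) - c| ^ (2 * (l : ℝ))) ^ (1 / (2 * (l : ℝ)))
      ≤ i.Q.mQ W i.g (2 * (l : ℝ)) v c ^ (1 / (2 * (l : ℝ))) + δ / 2 :=
    calc _ ≤ (i.Q.mQ W i.g (2 * (l : ℝ)) v c + (δ / 2) ^ (2 * (l : ℝ))) ^ (1 / (2 * (l : ℝ))) := Real.rpow_le_rpow h0 h3 hq0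
      _ ≤ i.Q.mQ W i.g (2 * (l : ℝ)) v c ^ (1 / (2 * (l : ℝ))) + ((δ / 2) ^ (2 * (l : ℝ))) ^ (1 / (2 * (l : ℝ))) :=
          Real.rpow_add_le_add_rpow hm0 hδp.le hq0 hq1
      _ = i.Q.mQ W i.g (2 * (l : ℝ)) v c ^ (1 / (2 * (l : ℝ))) + δ / 2 := by
          rw [← Real.rpow_mul hδ2.le, mul_one_div_cancel hp.ne', Real.rpow_one]
  unfold b19Nf BdQ.nQ
  linarith

theorem bcp_even_pow (x : ℝ) (l : ℕ) : |x - 0| ^ (2 * (l : ℝ)) = x ^ (2 * l) := by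
  rw [sub_zero, show (2 * (l : ℝ)) = ((2 * l : ℕ) : ℝ) by push_cast; ring, Real.rpow_natCast, pow_mul, sq_abs, ← pow_mul]

/-- [#N] the raw moments below the cut (`b19_even_mono`, then closeness at the cut) -/
theorem bcp_NQ (h : BcpI X W Q0 i) {v : ℝ} (hv : v ∈ Ioo (0 : ℝ) 1) (l : ℕ) (hl : 1 ≤ l) {δ : ℝ} (hδ : 0 < δ) :
    BmEv 1 fun ps => ∀ r, r < bcpCut ps v → b19Nf i.F.m 1 (i.pth ps) (2 * (l : ℝ)) r 0 ≤ i.Q.nQ W i.g (2 * (l : ℝ)) v 0 + δ := by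
  have hn : 0 < i.F.m := by have := h.m2; omega
  have hlR : (1 : ℝ) ≤ (l : ℝ) := by exact_mod_cast hl
  have hp : 0 < 2 * (l : ℝ) := by linarith
  have e : ∀ σ : Fin 2 → SkCfg i.F.m, bmTest i.F.m 2 (fun O => |O 0 1 - 0| ^ (2 * (l : ℝ))) σ = skOv (σ 0) (σ 1) ^ (2 * l) := fun σ => by
    rw [← bcp_even_pow]
    simp [bmTest]
  have e' : (fun σ : ℕ → SkCfg i.F.m => bmTest i.F.m 2 (fun O => |O 0 1 - 0| ^ (2 * (l : ℝ))) fun x => σ x.1)
      = fun σ => skOv (σ 0) (σ 1) ^ (2 * l) := funext fun σ => e _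
  have hK : ∀ σ : Fin 2 → SkCfg i.F.m, |bmTest i.F.m 2 (fun O => |O 0 1 - 0| ^ (2 * (l : ℝ))) σ| ≤ 1 := fun σ => by
    rw [e, abs_pow]
    exact pow_le_one₀ (abs_nonneg _) (brg_s_ov_abs _ _)
  have hst := fun (δ' : ℝ) (hδ' : 0 < δ') => bcp_star h 2 hv (fun O => |O 0 1 - 0| ^ (2 * (l : ℝ))) hK hδ'
  simp only [e'] at hst
  have hadm : ∀ F : Finset GhPos, SkAdm 1 (i.pth (ghPs 1 F)) := fun F => bud_pp_chain_adm one_pos (bud_pp_adm h.cb h.ch) F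
  have hm0 : 0 ≤ i.Q.mQ W i.g (2 * (l : ℝ)) v 0 := by
    refine le_of_forall_pos_le_add fun δ' hδ' => ?_
    obtain ⟨F, hF⟩ := (hst δ' hδ').exists
    have h0 : 0 ≤ b19Sk i.F.m 1 (i.pth (ghPs 1 F)) 2 (b19St (i.pth (ghPs 1 F)).length (bcpCut (ghPs 1 F) v))
        fun σ => skOv (σ 0) (σ 1) ^ (2 * l) := b19c_Sk_nonneg one_pos (hadm F) _ _ fun _ => by
      rw [pow_mul]; positivity
    have := (abs_le.1 hF).2
    unfold BdQ.mQ
    linarith
  have hδp : 0 < δ ^ (2 * (l : ℝ)) := Real.rpow_pos_of_pos hδ _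
  refine Filter.Eventually.mono (hst _ hδp) fun F hF r hr => ?_
  set ps := ghPs 1 F with hps
  have hl' : (i.pth ps).length = ps.length := bud_pp_chain_length _ _ _ _ _ _
  have hc : bcpCut ps v ≤ (i.pth ps).length := by rw [hl']; exact bcp_idx_le ps v
  have h1 := b19_even_mono hn one_pos (hadm F) l hr.le hc
  have h2 := (abs_le.1 hF).2
  have h0 : 0 ≤ b19Sk i.F.m 1 (i.pth ps) 2 (b19St (i.pth ps).length r) fun σ => skOv (σ 0) (σ 1) ^ (2 * l) :=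
    b19c_Sk_nonneg one_pos (hadm F) _ _ fun _ => by rw [pow_mul]; positivity
  unfold b19Nf BdQ.nQ
  simp only [bcp_even_pow]
  have h3 : b19Sk i.F.m 1 (i.pth ps) 2 (b19St (i.pth ps).length r) (fun σ => skOv (σ 0) (σ 1) ^ (2 * l))
      ≤ i.Q.mQ W i.g (2 * (l : ℝ)) v 0 + δ ^ (2 * (l : ℝ)) := by
    unfold BdQ.mQ
    linarith
  have hq0 : 0 ≤ 1 / (2 * (l : ℝ)) := by positivity
  have hq1 : 1 / (2 * (l : ℝ)) ≤ 1 := by
    rw [div_le_one hp]; linarith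
  calc _ ≤ (i.Q.mQ W i.g (2 * (l : ℝ)) v 0 + δ ^ (2 * (l : ℝ))) ^ (1 / (2 * (l : ℝ))) := Real.rpow_le_rpow h0 h3 hq0
    _ ≤ i.Q.mQ W i.g (2 * (l : ℝ)) v 0 ^ (1 / (2 * (l : ℝ))) + (δ ^ (2 * (l : ℝ))) ^ (1 / (2 * (l : ℝ))) :=
        Real.rpow_add_le_add_rpow hm0 hδp.le hq0 hq1
    _ = i.Q.mQ W i.g (2 * (l : ℝ)) v 0 ^ (1 / (2 * (l : ℝ))) + δ := by
        rw [← Real.rpow_mul hδ.le, mul_one_div_cancel hp.ne', Real.rpow_one]

/-- the masses of the tree of `BdQ.mPr` (`l = 1`) -/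
def bcpZc (v c : ℝ) : ℕ → ℕ → ℝ :=
  fun a e => if (a = 0 ∨ (2 ≤ a ∧ a < 2 + 2 * 1)) ↔ (e = 0 ∨ (2 ≤ e ∧ e < 2 + 2 * 1)) then c else v

theorem bcp_Zc_isRT {v c : ℝ} (hv : 0 ≤ v) (hvc : v ≤ c) (hc : c ≤ 1) : GhIsRT 1 6 (bmTree (bcpZc v c)) where
  diag := fun x _ => by simp [bmTree]
  symm := fun x y _ _ => by
    unfold bmTree bcpZc
    by_cases h1 : x = y
    · simp [h1]
    · rw [if_neg h1, if_neg (Ne.symm h1)]
      congr 3
      exact propext ⟨fun h => h.symm, fun h => h.symm⟩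
  ultra := fun x y z _ _ _ => by
    have hle : ((ghPosA v : GhPos) : WithTop GhPos) ≤ ((ghPosA c : GhPos) : WithTop GhPos) := WithTop.coe_le_coe.2 (bcpt_posA_le hvc)
    unfold bmTree bcpZc
    by_cases h1 : x = y <;> by_cases h2 : y = z <;> by_cases h3 : x = z <;>
      by_cases a1 : (x = 0 ∨ (2 ≤ x ∧ x < 2 + 2 * 1)) <;> by_cases a2 : (y = 0 ∨ (2 ≤ y ∧ y < 2 + 2 * 1)) <;>
      by_cases a3 : (z = 0 ∨ (2 ≤ z ∧ z < 2 + 2 * 1)) <;> simp [h1, h2, h3, a1, a2, a3, hle]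
  ok := fun x y _ _ p hp => by
    unfold bmTree bcpZc at hp
    split_ifs at hp
    · exact absurd hp (by simp)
    · rw [← WithTop.coe_injective hp]
      exact gh_os_posA_ok (hv.trans hvc) hc
    · rw [← WithTop.coe_injective hp]
      exact gh_os_posA_ok hv (hvc.trans hc)

theorem bcp_Zc_disc (ps : List GhPos) (v c : ℝ) : ghDisc ps (bmTree (bcpZc v c))
    = fun x y => if x = y then ps.length + 1 else if (x = 0 ∨ (2 ≤ x ∧ x < 4)) ↔ (y = 0 ∨ (2 ≤ y ∧ y < 4)) then bcpCut ps c else bcpCut ps v := by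
  funext x y
  unfold ghDisc bmTree bcpZc bcpCut
  split_ifs
  · simp [ghIdx]
  · rfl
  · rfl

theorem bcp_Z_test (n : ℕ) (σ : Fin 6 → SkCfg n) :
    bmTest n 6 (fun O => ∏ i ∈ Finset.range (2 * 1), (O 0 1 - O (2 + i) (2 + 2 * 1 + i))) σ
      = (skOv (σ 0) (σ 1) - skOv (σ 2) (σ 4)) * (skOv (σ 0) (σ 1) - skOv (σ 3) (σ 5)) := by
  simp [bmTest, Finset.prod_range_succ]

/-- the projection number on all fine chains, uniformly in the projection cut -/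
theorem bcp_Z_close (h : BcpI X W Q0 i) {v : ℝ} (hv : v ∈ Ioo (0 : ℝ) 1) {δ : ℝ} (hδ : 0 < δ) :
    BmEv 1 fun ps => ∀ c, v ≤ c → c < 1 →
      |b19Zf i.F.m 1 (i.pth ps) (bcpCut ps v) (bcpCut ps c) ^ 2 - 2 * i.Q.mPr W i.g 1 v c| ≤ δ := by
  have hn : 0 < i.F.m := by have := h.m2; omega
  have hbh := bud_pp_adm h.cb h.ch
  obtain ⟨F0, hF0⟩ := bcp_unif hn one_pos hbh 6 (δ := δ / 8) (by positivity)
  refine BmEv.of_superset F0 fun F hF c hvc hc => ?_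
  have hrt := bcp_Zc_isRT hv.1.le hvc hc.le
  have hK : ∀ σ : Fin 6 → SkCfg i.F.m,
      |bmTest i.F.m 6 (fun O => ∏ i ∈ Finset.range (2 * 1), (O 0 1 - O (2 + i) (2 + 2 * 1 + i))) σ| ≤ 4 := fun σ => by
    rw [bcp_Z_test, abs_mul]
    have a1 := abs_le.1 (brg_s_ov_abs (σ 0) (σ 1))
    have a2 := abs_le.1 (brg_s_ov_abs (σ 2) (σ 4))
    have a3 := abs_le.1 (brg_s_ov_abs (σ 3) (σ 5))
    have b1 : |skOv (σ 0) (σ 1) - skOv (σ 2) (σ 4)| ≤ 2 := abs_le.2 ⟨by linarith [a1.1, a2.2], by linarith [a1.2, a2.1]⟩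
    have b2 : |skOv (σ 0) (σ 1) - skOv (σ 3) (σ 5)| ≤ 2 := abs_le.2 ⟨by linarith [a1.1, a3.2], by linarith [a1.2, a3.1]⟩
    calc _ ≤ (2 : ℝ) * 2 := mul_le_mul b1 b2 (abs_nonneg _) (by norm_num)
      _ = 4 := by norm_num
  have h1 := hF0 F hF (bcpZc v c) hrt _ 4 hK
  rw [bcp_dict i.F.m 1 _ _ hrt, bcp_Zc_disc, ← h.hub.nu _ _ _ h.cb h.ch] at h1
  have hl : (i.pth (ghPs 1 F)).length = (ghPs 1 F).length := bud_pp_chain_length _ _ _ _ _ _
  have hz := b19_Zf_sq hn one_pos (bcp_h_adm h F) (i := bcpCut (ghPs 1 F) v) (κ := bcpCut (ghPs 1 F) c) (bcp_idx_mono _ hvc)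
    (by rw [hl]; exact bcp_idx_le _ _)
  rw [hz, hl]
  simp only [bcp_Z_test] at h1
  have e : i.Q.mPr W i.g 1 v c = W.nu i.F.m (i.Q.bq i.g) (i.Q.hq i.g) 6 (bcpZc v c)
      fun O => ∏ i ∈ Finset.range (2 * 1), (O 0 1 - O (2 + i) (2 + 2 * 1 + i)) := rfl
  rw [e, ← mul_sub, abs_mul, abs_of_pos (by norm_num : (0 : ℝ) < 2)]
  have h1' : |b19Sk i.F.m 1 (i.pth (ghPs 1 F)) 6
      (fun x y => if x = y then (ghPs 1 F).length + 1 else if (x = 0 ∨ (2 ≤ x ∧ x < 4)) ↔ (y = 0 ∨ (2 ≤ y ∧ y < 4)) then bcpCut (ghPs 1 F) c else bcpCut (ghPs 1 F) v)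
      (fun σ => (skOv (σ 0) (σ 1) - skOv (σ 2) (σ 4)) * (skOv (σ 0) (σ 1) - skOv (σ 3) (σ 5)))
      - W.nu i.F.m (i.Q.bq i.g) (i.Q.hq i.g) 6 (bcpZc v c) fun O => ∏ i ∈ Finset.range (2 * 1), (O 0 1 - O (2 + i) (2 + 2 * 1 + i))| ≤ δ / 8 * 4 := h1
  linarith

/-- [#N] the projection errors, uniformly in the projection cut (`b19_Zf_sq`, `bcp_unif`, `bcp_dict` with `q = 6`, `IsHub.nu`; `mPr ≥ 0` as a limit) -/
theorem bcp_Z (h : BcpI X W Q0 i) {v : ℝ} (hv : v ∈ Ioo (0 : ℝ) 1) {δ : ℝ} (hδ : 0 < δ) :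
    BmEv 1 fun ps => ∀ c, v ≤ c → c < 1 →
      b19Zf i.F.m 1 (i.pth ps) (bcpCut ps v) (bcpCut ps c) ≤ Real.sqrt 2 * i.Q.mPr W i.g 1 v c ^ (1 / (2 * ((1 : ℕ) : ℝ))) + δ := by
  have hm0 : ∀ c, v ≤ c → c < 1 → 0 ≤ i.Q.mPr W i.g 1 v c := fun c hvc hc => by
    refine le_of_forall_pos_le_add fun δ' hδ' => ?_
    obtain ⟨F, hF⟩ := (bcp_Z_close h hv hδ').exists
    have h1 := (abs_le.1 (hF c hvc hc)).2
    have h2 := sq_nonneg (b19Zf i.F.m 1 (i.pth (ghPs 1 F)) (bcpCut (ghPs 1 F) v) (bcpCut (ghPs 1 F) c))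
    linarith
  refine (bcp_Z_close h hv (δ := δ ^ 2) (by positivity)).mono fun ps H c hvc hc => ?_
  have h1 := (abs_le.1 (H c hvc hc)).2
  have hz0 : 0 ≤ b19Zf i.F.m 1 (i.pth ps) (bcpCut ps v) (bcpCut ps c) := Real.sqrt_nonneg _
  have e : i.Q.mPr W i.g 1 v c ^ (1 / (2 * ((1 : ℕ) : ℝ))) = Real.sqrt (i.Q.mPr W i.g 1 v c) := by
    rw [Real.sqrt_eq_rpow]; norm_num
  rw [e, ← Real.sqrt_mul (by norm_num)]
  calc b19Zf i.F.m 1 (i.pth ps) (bcpCut ps v) (bcpCut ps c)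
      = Real.sqrt (b19Zf i.F.m 1 (i.pth ps) (bcpCut ps v) (bcpCut ps c) ^ 2) := (Real.sqrt_sq hz0).symm
    _ ≤ Real.sqrt (2 * i.Q.mPr W i.g 1 v c + δ ^ 2) := Real.sqrt_le_sqrt (by linarith)
    _ ≤ Real.sqrt (2 * i.Q.mPr W i.g 1 v c) + Real.sqrt (δ ^ 2) := brg_vx_sqrt_add _ (by positivity)
    _ = Real.sqrt (2 * i.Q.mPr W i.g 1 v c) + δ := by rw [Real.sqrt_sq hδ.le]


/-- [#N] **the sums over the cuts**, uniformly in the range: `∑_{lo ≤ j < hi} gap_j D_j^s = ∫_{bmMs lo}^{bmMs hi} D_{ix v}^s dv` (`bud_pp_sum_cuts`, `bud_pp_ix_eq`), `|D_{ix v}² - Dq2 v| ≤ δ'` uniformly (`bud_pp_unif`),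
`|x^{s/2} - y^{s/2}| ≤ |x - y|^{s/2}` (`s ≤ 2`); `Dq^s` is interval integrable (`Sq, Bq` monotone on `(0,1)`, bounded: `exit_clk_intble`) -/
theorem bcp_IG (h : BcpI X W Q0 i) {s : ℝ} (hs : 0 < s) (hs2 : s ≤ 2) {δ : ℝ} (hδ : 0 < δ) :
    BmEv 1 fun ps => ∀ lo hi : ℕ, lo ≤ hi → hi ≤ (i.pth ps).length + 1 →
      b19IG 1 (i.pth ps) (bmD i.F.m 1 (i.pth ps)) lo hi s ≤ i.Q.iT W i.g s (bmMs 1 (i.pth ps) lo) (bmMs 1 (i.pth ps) hi) + δ :=
  bcq_IG h.hub h.m2 h.cb h.ch hs hs2 hδ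

end numbers

/-! ## #P The primitives -/

section prim

variable {X : BdFix} {W : BdWorld} {Q0 : ℝ} {i : BdI X}

/-- [#P] **the hypothesis on the primitives on all fine chains** (answers F3 of 143).      PROVED (212): the field `CloOk.Pm` bounds the SOLID norm of the indicator of the dyad
(supremum over the weights INSIDE the limit along the chains); `bud_uq_prim1` (`Bud/PinUq.lean`: replica identity `bud_uq_dic`, step weight `κ v = k (ix v)`) turns it into `B19Prim`;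
the ends of the dyads on the chain: `bcp_hyp`. -/
theorem bcp_prim (h : BcpI X W Q0 i) {p : BclP} (hp : i.Q.CloOk W i.g p) {δ : ℝ} (hδ : 0 < δ) :
    BmEv 1 fun ps => B19Prim i.F.m 1 (i.pth ps) p.nd (bcpE i p ps) fun _ => p.Pm + δ := by
  have hm : 0 < i.F.m := by have := h.m2; omega
  have hk : ∀ k ∈ Finset.range p.nd, ∀ᶠ F : Finset GhPos in atTop, ∀ i0 i1 : ℕ,
      Icc (bmMs 1 (i.pth (ghPs 1 F)) i0) (bmMs 1 (i.pth (ghPs 1 F)) i1) ⊆ Icc (p.w k) (min (2 * p.w k) 1) →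
      ∀ κ : ℕ → ℝ, (∀ v, |κ v| ≤ 1) → (∀ v, v ∉ Finset.Ico i0 i1 → κ v = 0) →
        b19Pr2 i.F.m 1 (i.pth (ghPs 1 F)) κ ≤ (p.Pm + δ) ^ 2 := fun k hk => by
    obtain ⟨F0, hF0⟩ := bud_uq_prim1 hm h.cb h.ch measurableSet_Icc (hp.Pm k (Finset.mem_range.1 hk)) hδ
    exact eventually_atTop.2 ⟨F0, fun F hF => hF0 F hF⟩
  have hall := (Filter.eventually_all_finset (Finset.range p.nd)).2 hk
  refine (Filter.Eventually.and (bcp_hyp h hp) hall).mono fun F hF j hj => ⟨add_nonneg hp.Pm0 hδ.le, fun k hk1 hk0 => ?_⟩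
  obtain ⟨⟨_, _, _, hE⟩, hA⟩ := hF
  obtain ⟨_, e1, e2⟩ := hE j hj
  exact hA j (Finset.mem_range.2 hj) _ _ (by rw [e1, e2]) k hk1 hk0

end prim

/-! ## #S The scalar block -/

section scalar

variable {X : BdFix} {W : BdWorld} {Q0 : ℝ} {i : BdI X}

/-- [#S] `Γ_i → Γ_s(K_s(v0))` at a continuity cut.   `b19Gam = obS 1 1 KP 0 i = scGam (scLC 1) (slkPi KP) (K_i)` (`Sc/Link`), `Gs t = scaGam (scLC 1) (scAlK 1 Ks) τ t` (`IsHub.Gam`, `sb7_gam`; `Ks` is a clock);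
`|scaGam β - scaGam α| ≤ C ∫|β - α|` (`sc_x_stab`), `Γ' = M2 ≤ 1` (`sc_x_Gam`);   `∫ |α^F - α| dt ≤ sup_v |K^F - Ks|` (layer cake) `→ 0` (`bud_pp_unif` + oscillation), `K_i^F → Ks v0` (continuity at `v0`).
(= `exit_cav_gam` + `Bd7CGam`, which may be used if they are proved first.) -/
theorem bcp_Gam (h : BcpI X W Q0 i) {p : BclP} (hp : i.Q.CloOk W i.g p) {δ : ℝ} (hδ : 0 < δ) :
    BmEv 1 fun ps => |b19Gam i.F.m 1 (i.pth ps) (bcpCut ps p.v0) - i.Q.Gs W i.g (i.Q.Ks W i.g p.v0)| ≤ δ :=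
  bcq_Gam h.hub h.m2 h.cb h.ch ⟨hp.v0_pos, by have := hp.v0_vH; have := hp.v0_pos; have := hp.vH1; linarith⟩ hp.cb hp.ch hδ

/-- [#S] **the pinned coefficient**.   (1) step: `2 b19Cp = (scN3 - 2 m_i scM3)(scLC 1)(slkPi KP)(K_i)` (plan in the header of `Bud/C19Sc.lean`);   (2) `scN3, scM3` are Lipschitz in time, uniformly in the profile;
(3) `M2^F(t2) - M2^F(t1) = ∫ (N3^F - 2 α^F M3^F)` (`scc_M2_sub` / `sc_x_M2`), `|M2^F - M2| ≤ C ∫|α^F - α| → 0` (`sc_x_stab`), `deriv Gs = M2` (`sc_x_Gam`, `sc_x_cont`);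
(4) for `t ∈ [t1,t2]`: `|α^F(t) - v0| ≤ ε` on fine chains if `t1 < Ks v0 < t2` are close (`CloOk.inc`: `K_s` strictly increasing at `v0`);   (5) `GsLip`: `|Gs'(t2) - Gs'(t1)| ≤ G2 (t2 - t1)`.
Hence `|2 b19Cp| (t2 - t1) ≤ G2 (t2 - t1) + C (t2-t1)(t2 - t1 + ε) + o(1)`. -/
theorem bcp_cp (h : BcpI X W Q0 i) {p : BclP} (hp : i.Q.CloOk W i.g p) {δ : ℝ} (hδ : 0 < δ) :
    BmEv 1 fun ps => |b19Cp i.F.m 1 (i.pth ps) (bcpCut ps p.v0)| ≤ p.G2 + δ := by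
  have hv0 : p.v0 ∈ Ioo (0 : ℝ) 1 := ⟨hp.v0_pos, by linarith [hp.v0_vH, hp.vH1, hp.v0_pos]⟩
  have hG0 : 0 ≤ p.G2 := by
    obtain ⟨t1, t2, -, a2, a3, -, a5⟩ := hp.G2 1 one_pos
    have h1 : 0 ≤ p.G2 * (t2 - t1) := (abs_nonneg _).trans a5
    by_contra hc
    rw [not_le] at hc
    nlinarith
  refine (b19s_contract i.Q h.hub i.g (by have := h.m2; omega) h.cb h.ch hv0 hp.cb hp.ch hp.inc hp.G2 hδ).mono fun ps hps => ?_
  have : |b19Cp i.F.m 1 (i.pth ps) (bcpCut ps p.v0)| ≤ p.G2 / 2 + δ := hps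
  linarith

end scalar

/-! ## #A Assembly -/

section assembly

theorem bcp_rhsG_eq (a : ℝ) (P : SkStp) (i H R : ℕ) (e κ : ℕ → ℕ) (ε cp KH Al N4 Np NQ θ : ℝ) (D Z Prim : ℕ → ℝ) :
    b19RhsG a P i H R e κ ε cp KH Al N4 Np NQ θ D Z Prim
      = bcpPhi R ε (skGap a P i) |cp| (D i) KH (skMs a P i) Al (b19IG a P D 0 H 1) (b19IG a P D 0 H 2)
          (b19IG a P D H (P.length + 1) 1) (b19IG a P D H (P.length + 1) 2) N4 Np NQ
          (b19IG a P D H (P.length + 1) θ) (b19IG a P D H (P.length + 1) (2 * θ))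
          (fun j => Z (κ j)) (fun j => b19IG a P D (e j) (e (j + 1)) 1) Prim := rfl

/-- the polynomial is nondecreasing on nonnegative numbers -/
theorem bcp_phi_mono (R : ℕ) (ε : ℝ) {gp cp Di KH ms Al IL1 IL2 IH1 IH2 N4 Np NQ IT1 IT2 : ℝ} {Z I Pr : ℕ → ℝ}
    {gp' cp' Di' KH' ms' Al' IL1' IL2' IH1' IH2' N4' Np' NQ' IT1' IT2' : ℝ} {Z' I' Pr' : ℕ → ℝ}
    (c0 : 0 ≤ cp) (d0 : 0 ≤ Di) (k0 : 0 ≤ KH) (m0 : 0 ≤ ms) (a0 : 0 ≤ Al) (l0 : 0 ≤ IL1) (h0 : 0 ≤ IH1) (h20 : 0 ≤ IH2) (n40 : 0 ≤ N4)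
    (np0 : 0 ≤ Np) (nq0 : 0 ≤ NQ) (t10 : 0 ≤ IT1) (t20 : 0 ≤ IT2) (z0 : ∀ j < R, 0 ≤ Z j ∧ 0 ≤ I j ∧ 0 ≤ Pr j)
    (g1 : gp ≤ gp') (c1 : cp ≤ cp') (d1 : Di ≤ Di') (k1 : KH ≤ KH') (m1 : ms ≤ ms') (a1 : Al ≤ Al') (l1 : IL1 ≤ IL1') (l2 : IL2 ≤ IL2')
    (h1 : IH1 ≤ IH1') (h2 : IH2 ≤ IH2') (n41 : N4 ≤ N4') (np1 : Np ≤ Np') (nq1 : NQ ≤ NQ') (t11 : IT1 ≤ IT1') (t21 : IT2 ≤ IT2')
    (z1 : ∀ j < R, Z j ≤ Z' j ∧ I j ≤ I' j ∧ Pr j ≤ Pr' j) :
    bcpPhi R ε gp cp Di KH ms Al IL1 IL2 IH1 IH2 N4 Np NQ IT1 IT2 Z I Pr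
      ≤ bcpPhi R ε gp' cp' Di' KH' ms' Al' IL1' IL2' IH1' IH2' N4' Np' NQ' IT1' IT2' Z' I' Pr' := by
  unfold bcpPhi
  have c0' := c0.trans c1
  have d0' := d0.trans d1
  have k0' := k0.trans k1
  have m0' := m0.trans m1
  have a0' := a0.trans a1
  have l0' := l0.trans l1
  have h0' := h0.trans h1
  have h20' := h20.trans h2
  have n40' := n40.trans n41
  have np0' := np0.trans np1
  have nq0' := nq0.trans nq1
  have t10' := t10.trans t11
  have t20' := t20.trans t21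
  have s : ∑ j ∈ Finset.range R, (Z j * I j + Di * Pr j) ≤ ∑ j ∈ Finset.range R, (Z' j * I' j + Di' * Pr' j) := by
    refine Finset.sum_le_sum fun j hj => ?_
    obtain ⟨x1, x2, x3⟩ := z0 j (Finset.mem_range.1 hj)
    obtain ⟨y1, y2, y3⟩ := z1 j (Finset.mem_range.1 hj)
    have x1' := x1.trans y1
    have x2' := x2.trans y2
    have x3' := x3.trans y3
    gcongr
  have e1 : cp * Di ^ 2 ≤ cp' * Di' ^ 2 := by gcongr
  have e2 : (KH + ms) * Al ≤ (KH' + ms') * Al' := by gcongr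
  have e3 : Di * IL1 ≤ Di' * IL1' := by gcongr
  have e4 : IL1 ^ 2 ≤ IL1' ^ 2 := by gcongr
  have e5 : IL1 * IH1 ≤ IL1' * IH1' := by gcongr
  have e6 : KH * (IH1 ^ 2 + IH2) ≤ KH' * (IH1' ^ 2 + IH2') := by gcongr
  have e7 : Di * N4 ^ 2 ≤ Di' * N4' ^ 2 := by gcongr
  have e8 : N4 ^ 2 * (IL1 + IH1) ≤ N4' ^ 2 * (IL1' + IH1') := by gcongr
  have e9 : (Np + NQ + KH) * (IT1 ^ 2 + IT2) ≤ (Np' + NQ' + KH') * (IT1' ^ 2 + IT2') := by gcongr
  linarith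

variable {X : BdFix} {W : BdWorld} {Q0 : ℝ} {i : BdI X}

/-- continuity of the enlarged right side -/
theorem bcp_psi_tendsto (W : BdWorld) (i : BdI X) (p : BclP) : Tendsto (bcpPsi W i p) (𝓝[>] 0) (𝓝 (bcpPsi W i p 0)) := by
  have : Continuous (bcpPsi W i p) := by
    unfold bcpPsi bcpPhi
    fun_prop
  exact (this.tendsto 0).mono_left nhdsWithin_le_nhds

theorem bcpz_iT_one (W : BdWorld) (i : BdI X) (a b : ℝ) : i.Q.iT W i.g 1 a b = i.Q.i1 W i.g a b := by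
  unfold BdQ.iT BdQ.i1
  simp only [Real.rpow_one]

theorem bcpz_Dq2_nonneg (h : BcpI X W Q0 i) {v : ℝ} (hv : v ∈ Ioo (0 : ℝ) 1) : 0 ≤ i.Q.Dq2 W i.g v := by
  have ha := h.hub.a1 i.F.m
  have := (W.ps i.F.m).S_sq_le (i.Q.bq i.g) (i.Q.hq i.g) (by rw [ha]; exact h.cb) (by rw [ha]; exact h.ch) v (by rw [ha]; exact hv)
  unfold BdQ.Dq2 BdQ.Bq BdQ.Sq
  linarith

theorem bcpz_iT_two (h : BcpI X W Q0 i) {a b : ℝ} (ha : 0 ≤ a) (hab : a ≤ b) (hb : b ≤ 1) :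
    i.Q.iT W i.g 2 a b = i.Q.i2 W i.g a b := by
  unfold BdQ.iT BdQ.i2
  rw [intervalIntegral.integral_of_le hab, intervalIntegral.integral_of_le hab, integral_Ioc_eq_integral_Ioo, integral_Ioc_eq_integral_Ioo]
  refine setIntegral_congr_fun measurableSet_Ioo fun v hv => ?_
  have hv' : v ∈ Ioo (0 : ℝ) 1 := ⟨ha.trans_lt hv.1, hv.2.trans_le hb⟩
  show i.Q.Dq W i.g v ^ (2 : ℝ) = i.Q.Dq2 W i.g v
  unfold BdQ.Dq
  rw [Real.rpow_two, Real.sq_sqrt (bcpz_Dq2_nonneg h hv')]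

theorem bcpz_iT_nonneg (W : BdWorld) (i : BdI X) (θ : ℝ) {a b : ℝ} (hab : a ≤ b) : 0 ≤ i.Q.iT W i.g θ a b :=
  intervalIntegral.integral_nonneg hab fun _ _ => Real.rpow_nonneg (Real.sqrt_nonneg _) _

/-- the algebra of `bcp_psi_zero` -/
theorem bcpz_alg (R : ℕ) {ε cp Di KH ms Al IL1 IL2 IH1 IH2 N4 Np NQ IT1 IT2 Pm : ℝ} {Z I : ℕ → ℝ}
    (e0 : 0 ≤ ε) (c0 : 0 ≤ cp) (d0 : 0 ≤ Di) (k0 : 0 ≤ KH) (m0 : 0 ≤ ms) (a0 : 0 ≤ Al) (l1 : 0 ≤ IL1) (l2 : 0 ≤ IL2)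
    (h1 : 0 ≤ IH1) (h2 : 0 ≤ IH2) (np : 0 ≤ Np) (nq : 0 ≤ NQ) (t2 : 0 ≤ IT2) (pm : 0 ≤ Pm)
    (z0 : ∀ k < R, 0 ≤ Z k) (i0 : ∀ k < R, 0 ≤ I k) :
    bcpPhi R ε 0 (cp + 0) (Di + 0) (KH + 0) (ms + 0) (Al + 0) (IL1 + 0) (IL2 + 0) (IH1 + 0) (IH2 + 0) (N4 + 0) (Np + 0) (NQ + 0)
        (IT1 + 0) (IT2 + 0) (fun k => Real.sqrt 2 * Z k + 0) (fun k => I k + 0) (fun _ => Pm + 0)
      ≤ 2 * (ε + cp * Di ^ 2 + (KH + ms) * Al + Di * IL1 + ∑ k ∈ Finset.range R, Z k * I k + (R : ℝ) * Di * Pm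
        + (IL2 + IL1 ^ 2) + IL1 * IH1 + KH * (IH1 ^ 2 + IH2) + Di * N4 ^ 2 + N4 ^ 2 * (IL1 + IH1)
        + (Np + NQ + KH) * (IT1 ^ 2 + IT2)) := by
  unfold bcpPhi
  simp only [add_zero]
  have s2 : Real.sqrt 2 ≤ 2 := by
    rw [Real.sqrt_le_left (by norm_num)]
    norm_num
  have hs : ∑ j ∈ Finset.range R, (Real.sqrt 2 * Z j * I j + Di * Pm) ≤ 2 * ∑ k ∈ Finset.range R, Z k * I k + (R : ℝ) * Di * Pm := by
    rw [Finset.sum_add_distrib, Finset.sum_const, Finset.card_range, nsmul_eq_mul, Finset.mul_sum, mul_assoc]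
    refine add_le_add_left (Finset.sum_le_sum fun j hj => ?_) _
    have := mul_nonneg (z0 j (Finset.mem_range.1 hj)) (i0 j (Finset.mem_range.1 hj))
    rw [mul_assoc]
    exact mul_le_mul_of_nonneg_right s2 this
  have p1 : 0 ≤ cp * Di ^ 2 := by positivity
  have p2 : 0 ≤ (KH + ms) * Al := by positivity
  have p3 : 0 ≤ Di * IL1 := by positivity
  have p4 : 0 ≤ (R : ℝ) * Di * Pm := by positivity
  have p5 : 0 ≤ IL2 + IL1 ^ 2 := by positivity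
  have p6 : 0 ≤ IL1 * IH1 := by positivity
  have p7 : 0 ≤ KH * (IH1 ^ 2 + IH2) := by positivity
  have p8 : 0 ≤ Di * N4 ^ 2 := by positivity
  have p9 : 0 ≤ N4 ^ 2 * (IL1 + IH1) := by positivity
  have p10 : 0 ≤ (Np + NQ + KH) * (IT1 ^ 2 + IT2) := by positivity
  linarith

/-- [#A, FREE] **the limit polynomial is the right side of `CloMI`** up to the factor `√2 ≤ 2` of the projection errors.   `iT 1 = i1` (`Real.rpow_one`), `iT 2 = i2` on subintervals of `[0,1]` (`Dq ^ (2:ℝ) = Dq2` where `Dq2 ≥ 0`: `PSys.S_sq_le`, `IsHub.a1`),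
`Dq v0 ^ 2 = Dq2 v0`; all the terms of `cloR` are `≥ 0` (`G2 ≥ 0` from `GsLip`, `KH ≥ Ks v1 ≥ 0`, `Pm0`, `Rl0`, integrals of nonnegative functions over ordered intervals). -/
theorem bcp_psi_zero (h : BcpI X W Q0 i) {p : BclP} (hp : i.Q.CloOk W i.g p) (hAl : 0 ≤ i.Q.alErr W i.g p.v0)
    (hZ : ∀ k < p.nd, 0 ≤ i.Q.mPr W i.g 1 p.v0 (p.w k / 2) ^ (1 / (2 * ((1 : ℕ) : ℝ))))
    (hNp : 0 ≤ i.Q.nQ W i.g (2 * (p.l : ℝ)) p.v0 (i.Q.Sq W i.g p.v0)) :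
    bcpPsi W i p 0 ≤ 2 * i.Q.cloR W i.g p := by
  have hv0 := hp.v0_pos
  have hvH0 : 0 ≤ p.vH := by have := hp.v0_vH; linarith
  have hvH1 : p.vH ≤ 1 := by have := hp.vH1; linarith
  have hv0m : p.v0 ∈ Ioo (0 : ℝ) 1 := ⟨hv0, by have := hp.v0_vH; linarith⟩
  have hG : 0 ≤ p.G2 := by
    obtain ⟨t1, t2, -, h1, h2, -, h3⟩ := hp.G2 1 one_pos
    have h4 : 0 ≤ p.G2 * (t2 - t1) := (abs_nonneg _).trans h3
    exact nonneg_of_mul_nonneg_left h4 (by linarith)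
  have hK : 0 ≤ p.KH := by
    obtain ⟨v1, h1, h2, h3⟩ := hp.KH
    have hv1 : v1 ∈ Ioo (0 : ℝ) 1 := ⟨hvH0.trans_lt h1, h2⟩
    have ha := h.hub.a1 i.F.m
    have hS : 0 ≤ i.Q.Sq W i.g v1 :=
      (W.ps i.F.m).S_nonneg (i.Q.bq i.g) (i.Q.hq i.g) (by rw [ha]; exact h.cb) (by rw [ha]; exact h.ch) v1 (by rw [ha]; exact hv1)
    refine le_trans ?_ h3
    unfold BdQ.Ks
    have := mul_nonneg (h.cb.nonneg v1 hv1) hS
    have := h.ch.nonneg v1 hv1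
    linarith
  have hw : ∀ k < p.nd, 0 ≤ p.w k ∧ p.w k ≤ min (2 * p.w k) 1 := by
    intro k hk
    have h0 : 0 ≤ p.w k := by unfold BclP.w; positivity
    refine ⟨h0, le_min (by linarith) ?_⟩
    have h1 : p.vH * 2 ^ (k + 1) ≤ p.vH * 2 ^ p.nd :=
      mul_le_mul_of_nonneg_left (pow_le_pow_right₀ (by norm_num) hk) hvH0
    have h2 := hp.nd_hi
    unfold BclP.w
    rw [pow_succ] at h1
    linarith
  have hD : i.Q.Dq W i.g p.v0 ^ 2 = i.Q.Dq2 W i.g p.v0 := by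
    unfold BdQ.Dq
    exact Real.sq_sqrt (bcpz_Dq2_nonneg h hv0m)
  unfold bcpPsi BdQ.cloR
  rw [← hD, ← bcpz_iT_two h le_rfl hvH0 hvH1, ← bcpz_iT_two h hvH0 hvH1 le_rfl]
  simp only [← bcpz_iT_one]
  exact bcpz_alg p.nd (by positivity) hG (Real.sqrt_nonneg _) hK hv0.le hAl (bcpz_iT_nonneg W i 1 hvH0) (bcpz_iT_nonneg W i 2 hvH0)
    (bcpz_iT_nonneg W i 1 hvH1) (bcpz_iT_nonneg W i 2 hvH1) hNp hp.Rl0 (bcpz_iT_nonneg W i _ hvH1) hp.Pm0 hZ
    fun k hk => bcpz_iT_nonneg W i 1 (hw k hk).2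

/-- a number which is `≥` nonnegative chain numbers up to every `δ` is nonnegative -/
theorem bcp_nonneg_of_ev {y : ℝ} {x : ℝ → List GhPos → ℝ} (h : ∀ δ : ℝ, 0 < δ → BmEv 1 fun ps => 0 ≤ x δ ps ∧ x δ ps ≤ y + δ) : 0 ≤ y := by
  refine le_of_forall_pos_le_add fun δ hδ => ?_
  obtain ⟨F, h1, h2⟩ := (h δ hδ).exists
  exact h1.trans h2

theorem bcp_adm (h : BcpI X W Q0 i) (F : Finset GhPos) : SkAdm 1 (i.pth (ghPs 1 F)) :=
  bud_pp_chain_adm one_pos (bud_pp_adm h.cb h.ch) F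

theorem bcp_Nf_nonneg (h : BcpI X W Q0 i) (F : Finset GhPos) (q : ℝ) (r : ℕ) (c : ℝ) : 0 ≤ b19Nf i.F.m 1 (i.pth (ghPs 1 F)) q r c :=
  Real.rpow_nonneg (b19c_Sk_nonneg one_pos (bcp_adm h F) _ _ fun _ => Real.rpow_nonneg (abs_nonneg _) _) _

/-- **one chain**: MASTER + the leaves -/
theorem bcp_chain (h : BcpI X W Q0 i) {p : BclP} (hp : i.Q.CloOk W i.g p) {C : ℝ} (hC : 0 ≤ C)
    (hm : ∀ (n : ℕ) (a : ℝ) (P : SkStp) (i H R : ℕ) (e κ : ℕ → ℕ) (Prim : ℕ → ℝ) (NQ : ℝ), B19Hyp n a P 1 (2 * Q0) i H →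
      B19Dy i H P.length R e κ → B19Prim n a P R e Prim → (∀ r, r < H → b19Nf n a P (2 * (p.l : ℝ)) r 0 ≤ NQ) →
      |obS n a P 0 i - b19Gam n a P i| ≤ C * b19RhsC n a P (2 * (p.l : ℝ)) i H R e κ Prim NQ)
    {δ : ℝ} (hδ : 0 < δ) :
    |i.Q.Sq W i.g p.v0 - i.Q.Gs W i.g (i.Q.Ks W i.g p.v0)| ≤ C * bcpPsi W i p δ + 2 * δ := by
  have hvH0 : 0 < p.vH := by have := hp.v0_pos; have := hp.v0_vH; linarith
  have hvH1 : p.vH < 1 := by have := hp.vH1; linarith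
  have hv0 : p.v0 ∈ Ioo (0 : ℝ) 1 := ⟨hp.v0_pos, by have := hp.v0_vH; have := hp.v0_pos; linarith⟩
  have hvH : p.vH ∈ Ioo (0 : ℝ) 1 := ⟨hvH0, hvH1⟩
  have hl1 : 1 ≤ p.l := le_trans (by norm_num) hp.l2
  have hlR : (2 : ℝ) ≤ (p.l : ℝ) := by exact_mod_cast hp.l2
  have hth0 : 0 < p.th := by
    unfold BclP.th
    have : 1 / (2 * (p.l : ℝ)) ≤ 1 / 4 := by
      rw [div_le_div_iff₀ (by positivity) (by norm_num)]; linarith
    linarith
  have hth1 : p.th ≤ 1 := by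
    unfold BclP.th
    have : 0 ≤ 1 / (2 * (p.l : ℝ)) := by positivity
    linarith
  obtain ⟨v1, hv1a, hv1b, hv1c⟩ := hp.KH
  obtain ⟨F, ⟨hH, hDy, hmH, hE⟩, hS, hG, ⟨hgp, hms⟩, hcp, hKH, hAl, hD, hN4, hNp, hNQ, hZ, hI1, hI2, hIt, hI2t, hPr⟩ :=
    ((bcp_hyp h hp).and ((bcp_S h hv0 hδ).and ((bcp_Gam h hp hδ).and ((bcp_gap h hv0 hδ).and ((bcp_cp h hp hδ).and
      ((bcp_KH h hvH0 hv1a hv1b hδ).and ((bcp_Al h hv0 hδ).and ((bcp_D h hv0 hδ).and ((bcp_Nf h hv0 2 (by norm_num) hδ).and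
      ((bcp_Nf h hv0 p.l hl1 hδ).and ((bcp_NQ h hvH p.l hl1 hδ).and ((bcp_Z h hv0 hδ).and
      ((bcp_IG h one_pos (by norm_num) hδ).and ((bcp_IG h two_pos le_rfl hδ).and ((bcp_IG h hth0 (by linarith) hδ).and
      ((bcp_IG h (s := 2 * p.th) (by linarith) (by linarith) hδ).and (bcp_prim h hp hδ))))))))))))))))).exists
  set ps := ghPs 1 F with hps
  set P := i.pth ps with hP
  have hadm : SkAdm 1 P := bcp_adm h F
  have hNQ' : ∀ r, r < bcpCut ps p.vH → b19Nf i.F.m 1 P (2 * (p.l : ℝ)) r 0 ≤ p.Rl + δ := fun r hr =>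
    (hNQ r hr).trans (by have := hp.Rl; linarith)
  have key := hm i.F.m 1 P (bcpCut ps p.v0) (bcpCut ps p.vH) p.nd (bcpE i p ps) (bcpKpth p ps) (fun _ => p.Pm + δ) (p.Rl + δ)
    hH hDy hPr hNQ'
  have hD0 : ∀ j, 0 ≤ bmD i.F.m 1 P j := fun j => Real.sqrt_nonneg _
  have hN : bmMs 1 P (P.length + 1) = 1 := by rw [bud_pp_bm_succ, bud_pp_ms_top P le_rfl]
  have h4 : (4 : ℝ) = 2 * ((2 : ℕ) : ℝ) := by norm_num
  have hHN : bcpCut ps p.vH ≤ P.length + 1 := hH.HN.trans (Nat.le_succ _)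
  have hR : b19RhsC i.F.m 1 P (2 * (p.l : ℝ)) (bcpCut ps p.v0) (bcpCut ps p.vH) p.nd (bcpE i p ps) (bcpKpth p ps) (fun _ => p.Pm + δ) (p.Rl + δ)
      ≤ bcpPsi W i p δ := by
    unfold b19RhsC bcpPsi
    rw [bcp_rhsG_eq]
    refine bcp_phi_mono p.nd _ (abs_nonneg _) (hD0 _) (b19c_K_nonneg one_pos hadm _) (bud_pp_ms_nonneg one_pos hadm _)
      (b19_Al_nonneg (by have := h.m2; omega) one_pos hadm (hH.iH.le.trans hH.HN)) (b19c_IG_nonneg one_pos hadm hD0 _ _ _)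
      (b19c_IG_nonneg one_pos hadm hD0 _ _ _) (b19c_IG_nonneg one_pos hadm hD0 _ _ _) (bcp_Nf_nonneg h F _ _ _) (bcp_Nf_nonneg h F _ _ _)
      (add_nonneg hp.Rl0 hδ.le) (b19c_IG_nonneg one_pos hadm hD0 _ _ _) (b19c_IG_nonneg one_pos hadm hD0 _ _ _)
      (fun j _ => ⟨Real.sqrt_nonneg _, b19c_IG_nonneg one_pos hadm hD0 _ _ _, add_nonneg hp.Pm0 hδ.le⟩)
      hgp hcp hD (hKH.trans (by linarith)) hms hAl ?_ ?_ ?_ ?_ ?_ hNp le_rfl ?_ ?_ ?_
    · have := hI1 0 _ (Nat.zero_le _) hHN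
      rwa [bud_pp_bm_zero, hmH] at this
    · have := hI2 0 _ (Nat.zero_le _) hHN
      rwa [bud_pp_bm_zero, hmH] at this
    · have := hI1 _ _ hHN le_rfl
      rwa [hN, hmH] at this
    · have := hI2 _ _ hHN le_rfl
      rwa [hN, hmH] at this
    · rw [h4]; exact hN4
    · have := hIt _ _ hHN le_rfl
      rwa [hN, hmH] at this
    · have := hI2t _ _ hHN le_rfl
      rwa [hN, hmH] at this
    · intro k hk
      obtain ⟨e1, e2, e3⟩ := hE k hk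
      refine ⟨?_, ?_, le_rfl⟩
      · have hw : p.v0 ≤ p.w k / 2 := by
          have h1 : p.vH ≤ p.w k := by
            unfold BclP.w
            have : (1 : ℝ) ≤ 2 ^ k := one_le_pow₀ (by norm_num)
            nlinarith
          have := hp.v0_vH; have := hp.v0_pos
          linarith
        have hw1 : p.w k / 2 < 1 := by
          have h1 : p.w k * 2 ≤ p.vH * 2 ^ p.nd := by
            unfold BclP.w
            have : (2 : ℝ) ^ (k + 1) ≤ 2 ^ p.nd := pow_le_pow_right₀ (by norm_num) hk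
            rw [pow_succ] at this
            nlinarith
          have := hp.nd_hi
          linarith
        exact hZ _ hw hw1
      · have := hI1 _ _ (hDy.mono k hk).le e1
        rwa [e2, e3] at this
  have t1 : |i.Q.Sq W i.g p.v0 - i.Q.Gs W i.g (i.Q.Ks W i.g p.v0)|
      ≤ |obS i.F.m 1 P 0 (bcpCut ps p.v0) - i.Q.Sq W i.g p.v0| + |obS i.F.m 1 P 0 (bcpCut ps p.v0) - b19Gam i.F.m 1 P (bcpCut ps p.v0)|
        + |b19Gam i.F.m 1 P (bcpCut ps p.v0) - i.Q.Gs W i.g (i.Q.Ks W i.g p.v0)| := by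
    have e : i.Q.Sq W i.g p.v0 - i.Q.Gs W i.g (i.Q.Ks W i.g p.v0)
        = -(obS i.F.m 1 P 0 (bcpCut ps p.v0) - i.Q.Sq W i.g p.v0) + (obS i.F.m 1 P 0 (bcpCut ps p.v0) - b19Gam i.F.m 1 P (bcpCut ps p.v0))
          + (b19Gam i.F.m 1 P (bcpCut ps p.v0) - i.Q.Gs W i.g (i.Q.Ks W i.g p.v0)) := by ring
    rw [e]
    refine (abs_add_le _ _).trans (add_le_add ((abs_add_le _ _).trans (add_le_add (abs_neg _).le le_rfl)) le_rfl)
  have t2 := key.trans (mul_le_mul_of_nonneg_left hR hC)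
  linarith

/-- **FLOOR 2: the master inequality at the path level** -/
theorem bcp_cloMI (hW : W.IsHub) (Q0 : ℝ) : BudB.CloMI X W Q0 := by
  intro l hl
  have hlR : (2 : ℝ) ≤ (l : ℝ) := by exact_mod_cast hl
  obtain ⟨C, hC, hm⟩ := b19_master_c (2 * (l : ℝ)) 1 (2 * Q0) (by linarith)
  refine ⟨C * 2, by positivity, fun i p hpl hm2 hb hh hbd hp => ?_⟩
  subst hpl
  have h : BcpI X W Q0 i := ⟨hW, hm2, hb, hh, hbd⟩
  have hv0 : p.v0 ∈ Ioo (0 : ℝ) 1 := ⟨hp.v0_pos, by have := hp.v0_vH; have := hp.v0_pos; have := hp.vH1; linarith⟩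
  have hl1 : 1 ≤ p.l := le_trans (by norm_num) hp.l2
  have key : ∀ δ : ℝ, 0 < δ → |i.Q.Sq W i.g p.v0 - i.Q.Gs W i.g (i.Q.Ks W i.g p.v0)| ≤ C * bcpPsi W i p δ + 2 * δ :=
    fun δ hδ => bcp_chain h hp hC hm hδ
  have lim : Tendsto (fun δ : ℝ => C * bcpPsi W i p δ + 2 * δ) (𝓝[>] 0) (𝓝 (C * bcpPsi W i p 0 + 2 * 0)) :=
    ((bcp_psi_tendsto W i p).const_mul C).add ((tendsto_id.mono_left nhdsWithin_le_nhds).const_mul 2)
  have h1 := ge_of_tendsto lim (Eventually.mono self_mem_nhdsWithin fun δ hδ => key δ hδ)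
  have hn : 0 < i.F.m := by omega
  have hAl : 0 ≤ i.Q.alErr W i.g p.v0 :=
    bcp_nonneg_of_ev (x := fun _ ps => b19Al i.F.m 1 (i.pth ps) (bcpCut ps p.v0)) fun δ hδ =>
      ((bcp_hyp h hp).and (bcp_Al h hv0 hδ)).mono fun ps hh =>
        ⟨b19_Al_nonneg hn one_pos hh.1.1.adm (hh.1.1.iH.le.trans hh.1.1.HN), hh.2⟩
  have hNp : 0 ≤ i.Q.nQ W i.g (2 * (p.l : ℝ)) p.v0 (i.Q.Sq W i.g p.v0) :=
    bcp_nonneg_of_ev (x := fun _ ps => b19Nf i.F.m 1 (i.pth ps) (2 * (p.l : ℝ)) (bcpCut ps p.v0) (obS i.F.m 1 (i.pth ps) 0 (bcpCut ps p.v0)))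
      fun δ hδ => ((bcp_hyp h hp).and (bcp_Nf h hv0 p.l hl1 hδ)).mono fun ps hh =>
        ⟨Real.rpow_nonneg (b19c_Sk_nonneg one_pos hh.1.1.adm _ _ fun _ => Real.rpow_nonneg (abs_nonneg _) _) _, hh.2⟩
  have hZ : ∀ k < p.nd, 0 ≤ i.Q.mPr W i.g 1 p.v0 (p.w k / 2) ^ (1 / (2 * ((1 : ℕ) : ℝ))) := by
    intro k hk
    have hvH0 : 0 < p.vH := by have := hp.v0_pos; have := hp.v0_vH; linarith
    have hw : p.v0 ≤ p.w k / 2 := by
      have h1 : p.vH ≤ p.w k := by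
        unfold BclP.w
        have : (1 : ℝ) ≤ 2 ^ k := one_le_pow₀ (by norm_num)
        nlinarith
      have := hp.v0_vH; have := hp.v0_pos
      linarith
    have hw1 : p.w k / 2 < 1 := by
      have h1 : p.w k * 2 ≤ p.vH * 2 ^ p.nd := by
        unfold BclP.w
        have : (2 : ℝ) ^ (k + 1) ≤ 2 ^ p.nd := pow_le_pow_right₀ (by norm_num) hk
        rw [pow_succ] at this
        nlinarith
      have := hp.nd_hi
      linarith
    have h2 : 0 ≤ Real.sqrt 2 * i.Q.mPr W i.g 1 p.v0 (p.w k / 2) ^ (1 / (2 * ((1 : ℕ) : ℝ))) :=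
      bcp_nonneg_of_ev (x := fun _ ps => b19Zf i.F.m 1 (i.pth ps) (bcpCut ps p.v0) (bcpCut ps (p.w k / 2))) fun δ hδ =>
        (bcp_Z h hv0 hδ).mono fun ps hh => ⟨Real.sqrt_nonneg _, hh _ hw hw1⟩
    exact nonneg_of_mul_nonneg_right h2 (Real.sqrt_pos.2 (by norm_num))
  have h2 := bcp_psi_zero h hp hAl hZ hNp
  calc |i.Q.Sq W i.g p.v0 - i.Q.Gs W i.g (i.Q.Ks W i.g p.v0)| ≤ C * bcpPsi W i p 0 + 2 * 0 := h1
    _ = C * bcpPsi W i p 0 := by ring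
    _ ≤ C * (2 * i.Q.cloR W i.g p) := mul_le_mul_of_nonneg_left h2 hC
    _ = C * 2 * i.Q.cloR W i.g p := by ring

/-- **the second world law of floor 3** (`E|X_v|⁴` nondecreasing in the cut, `E(Q_v - |X_v|²)² ≥ 0`).      OWNER helper61: splice `:= bcq_X4 hW` (`Bud/C19PathA.lean` §4) when it lands.   CONSUMER: `BudB.c19` (`Bud/HubB.lean`) -/
theorem bcp_cloX4 (hW : W.IsHub) : BudB.CloX4 X W := bcq_X4 hW

end assembly

end

end Claimed.Agent.R286
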