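import Claimed.Agent.R286.Bud.C19Defs
import Claimed.Agent.R286.Fd.Contract
import Claimed.Agent.R286.Cmp.InstNum
import Claimed.Agent.R286.Cmp.P5L8
import Claimed.Agent.R286.Macro.FinConc
import Claimed.Agent.R286.Brg.TrKit

/-!
# Row 286, LL sec. 7, node N17 = (C19), FLOOR 2 (`BudB.CloMI`): THE PRIMITIVES      (architect helper89; prefix `bcr_`, defs `bcr*`)

GOAL  **`bcr_prim`**: the field `B19Prim` of MASTER (`Bud/C19Ctr.lean`) on all sufficiently fine chains, from the hypothesis `CloOk.Pm` of `Bud/C19Box.lean`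
(`Q.nLc W g 2 κ ≤ Pm` for all measurable `|κ| ≤ 1` carried by the dyad; by `IsHub.nLc` this is an UPPER LIMIT along the chains of `‖∫ κ_v (L_v - E L_v) dv‖_2`).
WORLD FREE: `n` sites, `CkAdm 1 b h`, chains `ckStp 1 b h (ghPs 1 F) = skCStp 1 b h 0 0 (ghPs 1 F)`, cut at the mass `v` = `ghIdx ps (ghPosA v) = mvfCut P v` (`mvfc_chain_cut`).
The difficulty: `B19Prim` quantifies over ALL weights `k` on the cuts of the chain `F` (they depend on `F`), the hypothesis is a limsup for a FIXED `κ`.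

ROUTE
 §1 GRAM (one admissible step path `P`).   `bcrG n P v w` = the summand of `b19Pr2` = `Cov(L_v, L_w)`:   `bcr_gram`.
      `L_v = E[Q_01 - Q_12/2 | path 0]`, the labels `1, 2` leave the path `0` at `v`: spine tree `cmCat` of 247 (`cm5_cat_spine`, `Cmp/P5L8.lean`), products of coordinates, `fd_E_L`.
 §2 QUADRATIC FORM.   `‖∑_j c_j (L_j - E L_j)‖_2² = bcrQ n P c = ∑∑ c_v c_w G(v,w)` (`bcr_norm_sq`);   `∫ κ_v g(cut v) dv = ∑_j W_j(κ) g_j` (`bcr_int_sum`);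
      hence `‖∫ κ (L - EL)‖_2² = bcrQ n P (bcrW P κ) = bcrI P κ G = ∫∫ κ_u κ_u' G(cut u, cut u')`;   `b19Pr2 n 1 P k = bcrQ n P (gap · k)`, and `gap_j k_j = W_j(k ∘ cut)`.
 §3 COMPARISON of two step paths with kernels uniformly close in the MASSES: `bcr_I_close`.
 §4 UNIFORM CLOSENESS of the kernels of the chains to the limit kernel `bcrGi` (`cmk_unif_nu`, `cmk_unif_stat` of `Cmp/InstNum.lean`; dictionary `gh_tk_nu_raw`): `bcr_close`.
 §5 GLUE `bcr_prim`, index forms `bcr_prim_ix`, `bcr_prim_top`.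
Every sorried leaf is FREE (claim286 first): prove IN PLACE, auxiliary lemmas just above the leaf, prefix `bcr_`.
-/

set_option autoImplicit false

namespace Claimed.Agent.R286

open MeasureTheory Set Filter Topology

noncomputable section

/-! ## 0. Definitions -/

/-- **the Gram kernel** `Cov(L_v, L_w)` in tree form = the summand of `b19Pr2` -/
def bcrG (n : ℕ) (P : SkStp) (v w : ℕ) : ℝ :=
  b19Sk n 1 P 5 (b19T5 P.length v w)
      (fun σ => (skOv (σ 0) (σ 1) - skOv (σ 1) (σ 2) / 2) * (skOv (σ 0) (σ 3) - skOv (σ 3) (σ 4) / 2))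
    - obS n 1 P 0 v * obS n 1 P 0 w / 4

/-- the quadratic form of the Gram kernel -/
def bcrQ (n : ℕ) (P : SkStp) (c : ℕ → ℝ) : ℝ :=
  ∑ v ∈ Finset.range (P.length + 1), ∑ w ∈ Finset.range (P.length + 1), c v * c w * bcrG n P v w

/-- the weight which `κ` gives to the cut `j` -/
def bcrW (P : SkStp) (κ : ℝ → ℝ) (j : ℕ) : ℝ := ∫ v in (0 : ℝ)..1, κ v * (if mvfCut P v = j then 1 else 0)

/-- `∫∫ κ_u κ_u' G(cut u, cut u') du' du` -/
def bcrI (P : SkStp) (κ : ℝ → ℝ) (G : ℕ → ℕ → ℝ) : ℝ :=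
  ∫ u in (0 : ℝ)..1, κ u * ∫ u' in (0 : ℝ)..1, κ u' * G (mvfCut P u) (mvfCut P u')

/-- depths of the labels attached to the spine: `1, 2` at `v`, `3, 4` at `w` -/
def bcrD (v w : ℕ) (k : ℕ) : ℕ := if k < 2 then v else w

/-- the test `(Q_01 - Q_12/2)(Q_03 - Q_34/2)` on `Fin 5` -/
def bcrT (n : ℕ) (σ : Fin 5 → SkCfg n) : ℝ :=
  (skOv (σ 0) (σ 1) - skOv (σ 1) (σ 2) / 2) * (skOv (σ 0) (σ 3) - skOv (σ 3) (σ 4) / 2)

/-- fork masses of the five labels: `0` = the path, `1, 2` leave it at the mass `u`, `3, 4` at the mass `u'` -/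
def bcrCut (u u' : ℝ) : ℕ → ℕ → ℝ := fun x y =>
  min (if x = 0 then 1 else if x ≤ 2 then u else u') (if y = 0 then 1 else if y ≤ 2 then u else u')

/-- **the limit kernel** -/
def bcrGi (n : ℕ) (b h : ℝ → ℝ) (u u' : ℝ) : ℝ :=
  skCNu n 1 b h 5 (bmTree (bcrCut u u')) (bcrT n) - skCS n 1 b h (ghPosA u) * skCS n 1 b h (ghPosA u') / 4

theorem bcr_eqns_cite : True := by
  have := @bcrG.eq_1; have := @bcrQ.eq_1; have := @bcrW.eq_1; have := @bcrI.eq_1; have := @bcrD.eq_1; have := @bcrT.eq_1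
  have := @bcrCut.eq_1; have := @bcrGi.eq_1
  trivial

/-! ## 1. The Gram kernel of one step path -/

section gram
variable {n : ℕ} {P : SkStp}

theorem bcr_T5_isTr (N : ℕ) {v w : ℕ} (hv : v ≤ N) (hw : w ≤ N) : IsTr N 5 (b19T5 N v w) where
  le := fun x y _ _ => by
    unfold b19T5
    split_ifs <;> omega
  diag := fun x _ => by simp [b19T5]
  symm := fun x y _ _ => by
    unfold b19T5
    by_cases hxy : x = y
    · subst hxy; rfl
    · rw [if_neg hxy, if_neg (Ne.symm hxy), min_comm]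
  ultra := fun x y z _ _ _ => by
    unfold b19T5
    split_ifs <;> omega

theorem bcr_cat_rep (N : ℕ) {v w : ℕ} (hv : v ≤ N) (hw : w ≤ N) : ghRepN 5 (b19T5 N v w) = (cmCat (bcrD v w) 4).rep := by
  funext t a
  unfold ghRepN GhTree.rep
  congr 1
  ext c
  simp only [Finset.mem_filter, Finset.mem_univ, true_and]
  by_cases hc : c = a
  · simp [hc]
  · have key : b19T5 N v w a.1 c.1 = (cmCat (bcrD v w) 4).sh a c := by
      have hne : a.1 ≠ c.1 := fun h => hc (Fin.ext h.symm)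
      induction a using Fin.cases with
      | zero =>
        induction c using Fin.cases with
        | zero => exact absurd rfl hc
        | succ c =>
          rw [cm5_cat_sh0]
          unfold b19T5 bcrD
          fin_cases c <;> simp <;> omega
      | succ a =>
        induction c using Fin.cases with
        | zero =>
          rw [(cmCat (bcrD v w) 4).symm, cm5_cat_sh0]
          unfold b19T5 bcrD
          fin_cases a <;> simp <;> omega
        | succ c =>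
          rw [cm5_cat_sh _ _ _ _ (fun h => hc (by rw [h]))]
          unfold b19T5 bcrD
          fin_cases a <;> fin_cases c <;> simp at hne ⊢
    rw [key]

/-- the tree `b19T5` is the spine tree of 247.      `trNu = ghNu (trRep ..)`; `gh_tk_nu_raw` (needs `IsTr P.length 5 (b19T5 ..)`) gives `ghNu (ghRepN 5 (b19T5 ..))`;
`GhTree.nu = ghNu .. T.rep`; `ghRepN 5 sh = (cmCat d 4).rep` as in `cm5_cat_rep` (unfold, `cm5_cat_sh0`, `cm5_cat_sh`; `min (N+1) v = v`). -/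
theorem bcr_tree_cat (n : ℕ) (P : SkStp) {v w : ℕ} (hv : v ≤ P.length) (hw : w ≤ P.length) :
    b19Sk n 1 P 5 (b19T5 P.length v w)
        (fun σ => (skOv (σ 0) (σ 1) - skOv (σ 1) (σ 2) / 2) * (skOv (σ 0) (σ 3) - skOv (σ 3) (σ 4) / 2))
      = (cmCat (bcrD v w) 4).nu (skBase n 1) (skLvs n P) 0 fun _ σ => bcrT n σ := by
  unfold GhTree.nu b19Sk
  rw [← bcr_cat_rep P.length hv hw, gh_tk_nu_raw _ _ (bcr_T5_isTr P.length hv hw)]
  rfl

/-- sign and weight of the two terms of `Q_01 - Q_12/2` -/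
def bcrSg (e : Bool) : ℝ := if e then -1 / 2 else 1
/-- factor read on the spine -/
def bcrGs {n : ℕ} (α : Fin n × Bool) : SkCfg n → ℝ := if α.2 then fun _ => 1 else obY α.1
/-- factor read on the second attached label -/
def bcrF2 {n : ℕ} (α : Fin n × Bool) : SkCfg n → ℝ := if α.2 then obY α.1 else fun _ => 1
/-- the four factors of the attached labels -/
def bcrF {n : ℕ} (α β : Fin n × Bool) (k : ℕ) : SkCfg n → ℝ :=
  if k = 0 then obY α.1 else if k = 1 then bcrF2 α else if k = 2 then obY β.1 else bcrF2 β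

theorem bcr_LL_eqns_cite : True := by
  have := @bcrSg.eq_1; have := @bcrGs.eq_1; have := @bcrF2.eq_1; have := @bcrF.eq_1
  trivial

theorem bcr_half_spin {n : ℕ} (hn : 0 < n) (s0 s1 s2 : SkCfg n) :
    ∑ α : Fin n × Bool, bcrSg α.2 * (bcrGs α s0 * (obY α.1 s1 * bcrF2 α s2)) = skOv s0 s1 - skOv s1 s2 / 2 := by
  rw [Fintype.sum_prod_type, obt_ov hn, obt_ov hn, Finset.sum_div, ← Finset.sum_sub_distrib]
  refine Finset.sum_congr rfl fun i _ => ?_
  rw [Fintype.sum_bool]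
  simp only [bcrSg, bcrGs, bcrF2, if_true, Bool.false_eq_true, if_false]
  ring

theorem bcr_half_path {n : ℕ} (P : SkStp) (v : ℕ) (ξ : ℕ → SkDr n → ℝ) (s : SkCfg n) :
    ∑ α : Fin n × Bool, bcrSg α.2 * (bcrGs α s *
        (ghE (skBase n 1) ((skLvs n P).drop v) (obY α.1) (0 + ghPre (skLvs n P) ξ v)
          * ghE (skBase n 1) ((skLvs n P).drop v) (bcrF2 α) (0 + ghPre (skLvs n P) ξ v)))
      = obL n 1 P 0 v ξ s := by
  rw [Fintype.sum_prod_type]
  unfold obL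
  rw [Finset.sum_div, ← Finset.sum_sub_distrib]
  refine Finset.sum_congr rfl fun i _ => ?_
  rw [Fintype.sum_bool]
  simp only [bcrSg, bcrGs, bcrF2, if_true, Bool.false_eq_true, if_false, gh_cat_Xp,
    ghr_E_const (obt_base_ok n one_pos)]
  simp only [obY]
  ring

theorem bcr_b_spin {n : ℕ} (φ : SkCfg n → ℝ) : MvfB fun p : GhOm (SkCfg n) (SkDr n) => φ p.2 :=
  ⟨(Measurable.of_discrete (f := φ)).comp measurable_snd, ‖φ‖, fun p => gh_b_abs_le_norm φ p.2⟩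

/-- `E[L_v L_w]` is the number of the spine tree.      `skOv σ τ = ∑_i obY i σ * obY i τ` (`obt_ov hn`), so `bcrT n σ = ∑_{i,j} ∑_{e,e' : Bool} c_e c_e' G(σ 0) ∏_{k : Fin 4} f k (σ k.succ)` with
`f 0 = obY i`, `f 1 = if e then obY i else 1`, `f 2 = obY j`, `f 3 = if e' then obY j else 1`, `G s = (if e then 1 else obY i s) (if e' then 1 else obY j s)`, `c_e = if e then -1/2 else 1`;
each term: `cm5_cat_spine` + `gh_cat_Xp` + `ghr_E_const`;  additivity: left `gh_c4_sum`/`tr_b1_nu_sum`, `gh_n_smul`; right `mvfc_E_eq` + `integral_finsetSum` (`MvfB` kit of `Macro/FinConc`). -/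
theorem bcr_LL (hn : 0 < n) (hP : SkAdm 1 P) {v w : ℕ} (hv : v ≤ P.length) (hw : w ≤ P.length) :
    (cmCat (bcrD v w) 4).nu (skBase n 1) (skLvs n P) 0 (fun _ σ => bcrT n σ)
      = obE n 1 P 0 fun ξ σ => obL n 1 P 0 v ξ σ * obL n 1 P 0 w ξ σ := by
  have hB := obt_base_ok n (a := 1) one_pos
  have hls := obu_lvs_nn n hP
  have hlen : (skLvs n P).length = P.length := by simp [skLvs]
  have hd : ∀ k, k < 4 → bcrD v w k ≤ (skLvs n P).length := by
    intro k _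
    rw [hlen]; unfold bcrD; split_ifs <;> assumption
  have := mvfc_mu_prob (n := n) one_pos hP 0
  -- the test as a combination of products
  have e1 : (fun (_ : ℕ → Fin 5 → SkDr n → ℝ) (σ : Fin 5 → SkCfg n) => bcrT n σ)
      = fun _ σ => ∑ κ ∈ (Finset.univ : Finset ((Fin n × Bool) × (Fin n × Bool))), (bcrSg κ.1.2 * bcrSg κ.2.2) *
          ((fun (_ : ℕ → SkDr n → ℝ) (s : SkCfg n) => bcrGs κ.1 s * bcrGs κ.2 s) (fun _ => 0) (σ 0)
            * ∏ k : Fin 4, bcrF κ.1 κ.2 k (σ k.succ)) := by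
    funext _ σ
    unfold bcrT
    rw [← bcr_half_spin hn (σ 0) (σ 1) (σ 2), ← bcr_half_spin hn (σ 0) (σ 3) (σ 4), Finset.sum_mul_sum]
    conv_rhs => rw [Fintype.sum_prod_type]
    refine Finset.sum_congr rfl fun α _ => Finset.sum_congr rfl fun β _ => ?_
    rw [Fin.prod_univ_four]
    simp only [bcrF, Fin.val_zero, Fin.val_one, Fin.val_two, if_true, one_ne_zero, if_false, OfNat.ofNat_ne_zero,
      OfNat.ofNat_ne_one]
    have h3 : ((3 : Fin 4) : ℕ) = 3 := rfl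
    simp only [h3, OfNat.ofNat_ne_zero, OfNat.ofNat_ne_one, if_false]
    have a1 : (Fin.succ (0 : Fin 4) : Fin 5) = 1 := rfl
    have a2 : (Fin.succ (1 : Fin 4) : Fin 5) = 2 := rfl
    have a3 : (Fin.succ (2 : Fin 4) : Fin 5) = 3 := rfl
    have a4 : (Fin.succ (3 : Fin 4) : Fin 5) = 4 := rfl
    rw [a1, a2, a3, a4]
    norm_num
    ring
  unfold GhTree.nu
  rw [e1, tr_b1_nu_sum hB Finset.univ _ _ (skLvs n P) hls]
  have hb : ∀ κ : (Fin n × Bool) × (Fin n × Bool), MvfB fun p : GhOm (SkCfg n) (SkDr n) =>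
      (bcrGs κ.1 p.2 * bcrGs κ.2 p.2) * ∏ k : Fin 4, ghE (skBase n 1) ((skLvs n P).drop (bcrD v w k)) (bcrF κ.1 κ.2 k)
            (0 + ghPre (skLvs n P) p.1 (bcrD v w k)) := by
    intro κ
    obtain ⟨C, hC⟩ := gh_cat_prod_bdd (skBase n 1) hB (skLvs n P) hls 0 4 (bcrD v w) (bcrF κ.1 κ.2)
    exact ((bcr_b_spin (bcrGs κ.1)).mul (bcr_b_spin (bcrGs κ.2))).mul
      ⟨(gh_cat_prod_meas (skBase n 1) hB (skLvs n P) hls 0 4 (bcrD v w) (bcrF κ.1 κ.2)).comp measurable_fst, C, fun p => hC p.1⟩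
  -- each product
  have e2 : ∀ κ : (Fin n × Bool) × (Fin n × Bool),
      ghNu (skBase n 1) (skLvs n P) (cmCat (bcrD v w) 4).rep (fun _ => 0) (fun _ σ =>
          (fun (_ : ℕ → SkDr n → ℝ) (s : SkCfg n) => bcrGs κ.1 s * bcrGs κ.2 s) (fun _ => 0) (σ 0)
            * ∏ k : Fin 4, bcrF κ.1 κ.2 k (σ k.succ))
        = ∫ p, (bcrGs κ.1 p.2 * bcrGs κ.2 p.2) * ∏ k : Fin 4, ghE (skBase n 1) ((skLvs n P).drop (bcrD v w k)) (bcrF κ.1 κ.2 k)
            (0 + ghPre (skLvs n P) p.1 (bcrD v w k)) ∂(mvfMu n 1 P 0) := by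
    intro κ
    have h1 := cm5_cat_spine (skBase n 1) hB (skLvs n P) hls 0 (bcrD v w) 4 hd
      (fun _ s => bcrGs κ.1 s * bcrGs κ.2 s) (bcrF κ.1 κ.2)
    unfold GhTree.nu at h1
    refine h1.trans ?_
    refine mvfc_E_eq (z₀ := 0) one_pos hP (T := fun ξ s => (bcrGs κ.1 s * bcrGs κ.2 s) *
      ∏ k : Fin 4, ghE (skBase n 1) ((skLvs n P).drop (bcrD v w k)) (bcrF κ.1 κ.2 k) (0 + ghPre (skLvs n P) ξ (bcrD v w k))) ?_
    exact hb κ
  simp_rw [e2]
  rw [mvfc_E_eq (z₀ := 0) one_pos hP (T := fun ξ σ => obL n 1 P 0 v ξ σ * obL n 1 P 0 w ξ σ)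
    ((mvfc_b_L one_pos hP v).mul (mvfc_b_L one_pos hP w))]
  simp_rw [← integral_const_mul]
  rw [← integral_finsetSum _ fun κ _ => ((hb κ).const_mul _).integrable _]
  refine integral_congr_ae (Filter.Eventually.of_forall fun p => ?_)
  simp only
  rw [← bcr_half_path P v p.1 p.2, ← bcr_half_path P w p.1 p.2, Finset.sum_mul_sum]
  conv_lhs => rw [Fintype.sum_prod_type]
  refine Finset.sum_congr rfl fun α _ => Finset.sum_congr rfl fun β _ => ?_
  rw [Fin.prod_univ_four]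
  have h3 : ((3 : Fin 4) : ℕ) = 3 := rfl
  simp only [bcrF, bcrD, Fin.val_zero, Fin.val_one, Fin.val_two, h3, if_true, one_ne_zero, if_false, OfNat.ofNat_ne_zero,
    OfNat.ofNat_ne_one]
  norm_num
  ring

/-- [LEAF] centring: `mvfc_E_eq`, `mvfc_b_L`, `fd_E_L` (or `mvfc_int_L`), linearity of the integral, `mvfc_mu_prob` -/
theorem bcr_cov (hn : 0 < n) (hP : SkAdm 1 P) (v w : ℕ) :
    obE n 1 P 0 (fun ξ σ => bmLc n 1 P v ξ σ * bmLc n 1 P w ξ σ)
      = obE n 1 P 0 (fun ξ σ => obL n 1 P 0 v ξ σ * obL n 1 P 0 w ξ σ) - obS n 1 P 0 v * obS n 1 P 0 w / 4 := by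
  have h1 : (0 : ℝ) < 1 := one_pos
  have := mvfc_mu_prob (n := n) h1 hP 0
  have bL : ∀ c, MvfB fun p : GhOm (SkCfg n) (SkDr n) => obL n 1 P 0 c p.1 p.2 := fun c => mvfc_b_L h1 hP c
  have eL : ∀ c, obE n 1 P 0 (obL n 1 P 0 c) = obS n 1 P 0 c / 2 := fun c => mvfc_E_L h1 hP c
  have bc : ∀ c, MvfB fun p : GhOm (SkCfg n) (SkDr n) => bmLc n 1 P c p.1 p.2 := fun c => (bL c).sub (mvfc_b_const _)
  rw [mvfc_E_eq h1 hP (T := fun ξ σ => bmLc n 1 P v ξ σ * bmLc n 1 P w ξ σ) ((bc v).mul (bc w)),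
    mvfc_E_eq h1 hP (T := fun ξ σ => obL n 1 P 0 v ξ σ * obL n 1 P 0 w ξ σ) ((bL v).mul (bL w))]
  have e : (fun p : GhOm (SkCfg n) (SkDr n) => bmLc n 1 P v p.1 p.2 * bmLc n 1 P w p.1 p.2)
      = fun p => ((obL n 1 P 0 v p.1 p.2 * obL n 1 P 0 w p.1 p.2 - (obS n 1 P 0 w / 2) * obL n 1 P 0 v p.1 p.2)
          - (obS n 1 P 0 v / 2) * obL n 1 P 0 w p.1 p.2) + obS n 1 P 0 v / 2 * (obS n 1 P 0 w / 2) := by
    funext p
    unfold bmLc
    rw [eL, eL]
    ring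
  rw [e, integral_add ((((bL v).mul (bL w)).sub ((bL v).const_mul _)).sub ((bL w).const_mul _) |>.integrable _) ((mvfc_b_const _).integrable _),
    integral_sub ((((bL v).mul (bL w)).sub ((bL v).const_mul _)).integrable _) (((bL w).const_mul _).integrable _),
    integral_sub (((bL v).mul (bL w)).integrable _) (((bL v).const_mul _).integrable _),
    integral_const_mul, integral_const_mul, mvfc_int_L h1 hP, mvfc_int_L h1 hP, integral_const]
  simp
  ring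

/-- **the Gram kernel is the covariance of the `L`'s** -/
theorem bcr_gram (hn : 0 < n) (hP : SkAdm 1 P) {v w : ℕ} (hv : v ≤ P.length) (hw : w ≤ P.length) :
    obE n 1 P 0 (fun ξ σ => bmLc n 1 P v ξ σ * bmLc n 1 P w ξ σ) = bcrG n P v w := by
  rw [bcr_cov hn hP, ← bcr_LL hn hP hv hw, ← bcr_tree_cat n P hv hw]
  rfl

end gram

/-! ## 2. The quadratic form -/

section quad
variable {n : ℕ} {P : SkStp}

theorem bcr_b_Lc {n : ℕ} {P : SkStp} (hP : SkAdm 1 P) (j : ℕ) :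
    MvfB fun p : GhOm (SkCfg n) (SkDr n) => bmLc n 1 P j p.1 p.2 :=
  (mvfc_b_L one_pos hP j).sub (mvfc_b_const _)

/-- `‖∑ c_j (L_j - E L_j)‖_2² = ∑∑ c_v c_w G(v,w)`.      `bmN1 .. 2 f = (obE |f|^(2:ℝ))^(1/2)`; `mvfc_E_eq`, `MvfB` kit (`mvfc_b_L`), `Finset.sum_mul_sum`, `integral_finsetSum`, `bcr_gram`;
`Real.rpow_natCast`, `sq_abs`; the square of `x^(1/2)` is `x` for `x = ∫ f² ≥ 0`. -/
theorem bcr_norm_sq (hn : 0 < n) (hP : SkAdm 1 P) (c : ℕ → ℝ) :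
    bmN1 n 1 P 2 (fun ξ σ => ∑ j ∈ Finset.range (P.length + 1), c j * bmLc n 1 P j ξ σ) ^ 2 = bcrQ n P c := by
  have := mvfc_mu_prob (n := n) one_pos hP 0
  have hbs : MvfB fun p : GhOm (SkCfg n) (SkDr n) => ∑ j ∈ Finset.range (P.length + 1), c j * bmLc n 1 P j p.1 p.2 :=
    MvfB.sum _ fun j _ => (bcr_b_Lc hP j).const_mul _
  have e0 : (fun (ξ : ℕ → SkDr n → ℝ) (σ : SkCfg n) => |∑ j ∈ Finset.range (P.length + 1), c j * bmLc n 1 P j ξ σ| ^ (2 : ℝ))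
      = fun ξ σ => (∑ j ∈ Finset.range (P.length + 1), c j * bmLc n 1 P j ξ σ) ^ 2 := by
    funext ξ σ
    rw [Real.rpow_two, sq_abs]
  have hE : obE n 1 P 0 (fun ξ σ => |∑ j ∈ Finset.range (P.length + 1), c j * bmLc n 1 P j ξ σ| ^ (2 : ℝ))
      = ∫ p, (∑ j ∈ Finset.range (P.length + 1), c j * bmLc n 1 P j p.1 p.2) ^ 2 ∂(mvfMu n 1 P 0) := by
    rw [e0]
    exact mvfc_E_eq (z₀ := 0) one_pos hP
      (T := fun ξ σ => (∑ j ∈ Finset.range (P.length + 1), c j * bmLc n 1 P j ξ σ) ^ 2) hbs.sq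
  have hQ : ∫ p, (∑ j ∈ Finset.range (P.length + 1), c j * bmLc n 1 P j p.1 p.2) ^ 2 ∂(mvfMu n 1 P 0) = bcrQ n P c := by
    unfold bcrQ
    have e1 : ∀ p : GhOm (SkCfg n) (SkDr n), (∑ j ∈ Finset.range (P.length + 1), c j * bmLc n 1 P j p.1 p.2) ^ 2
        = ∑ v ∈ Finset.range (P.length + 1), ∑ w ∈ Finset.range (P.length + 1),
            c v * c w * (bmLc n 1 P v p.1 p.2 * bmLc n 1 P w p.1 p.2) := by
      intro p
      rw [sq, Finset.sum_mul_sum]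
      exact Finset.sum_congr rfl fun v _ => Finset.sum_congr rfl fun w _ => by ring
    simp_rw [e1]
    rw [integral_finsetSum _ fun v _ => (MvfB.sum _ fun w _ =>
      ((bcr_b_Lc hP v).mul (bcr_b_Lc hP w)).const_mul (c v * c w)).integrable _]
    refine Finset.sum_congr rfl fun v hv => ?_
    rw [integral_finsetSum _ fun w _ => (((bcr_b_Lc hP v).mul (bcr_b_Lc hP w)).const_mul (c v * c w)).integrable _]
    refine Finset.sum_congr rfl fun w hw => ?_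
    rw [integral_const_mul, ← bcr_gram hn hP (Nat.lt_succ_iff.1 (Finset.mem_range.1 hv)) (Nat.lt_succ_iff.1 (Finset.mem_range.1 hw)),
      mvfc_E_eq (z₀ := 0) one_pos hP (T := fun ξ σ => bmLc n 1 P v ξ σ * bmLc n 1 P w ξ σ) ((bcr_b_Lc hP v).mul (bcr_b_Lc hP w))]
  have h0 : 0 ≤ bcrQ n P c := by
    rw [← hQ]
    exact integral_nonneg fun p => sq_nonneg _
  unfold bmN1
  rw [hE, hQ, ← Real.sqrt_eq_rpow, Real.sq_sqrt h0]

/-- [LEAF] a bounded measurable weight against a function of the cut: `κ v * g (cut v) = ∑_j (κ v * 1[cut v = j]) * g j` (`mvfc_cut_le`), `intervalIntegral.integral_finset_sum`,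
integrability: `MvfB` (`mvfc_step_b`) on a finite interval as in `mvfc_step_int`. -/
theorem bcr_int_sum (P : SkStp) {κ : ℝ → ℝ} (hm : Measurable κ) (hb : ∀ v, |κ v| ≤ 1) (g : ℕ → ℝ) :
    ∫ v in (0 : ℝ)..1, κ v * g (mvfCut P v) = ∑ j ∈ Finset.range (P.length + 1), bcrW P κ j * g j := by
  have hκ : MvfB κ := ⟨hm, 1, hb⟩
  have hint : ∀ f : ℕ → ℝ, IntervalIntegrable (fun v => κ v * f (mvfCut P v)) volume 0 1 := by
    intro f
    rw [intervalIntegrable_iff]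
    have : IsFiniteMeasure ((volume : Measure ℝ).restrict (Set.uIoc 0 1)) := ⟨by
      rw [Measure.restrict_apply MeasurableSet.univ, univ_inter]; exact measure_Ioc_lt_top⟩
    exact (hκ.mul (mvfc_step_b P f)).integrable _
  have e : (fun v => κ v * g (mvfCut P v))
      = fun v => ∑ j ∈ Finset.range (P.length + 1), (κ v * (if mvfCut P v = j then 1 else 0)) * g j := by
    funext v
    rw [Finset.sum_eq_single (mvfCut P v)]
    · simp
    · intro j _ hj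
      rw [if_neg (Ne.symm hj)]; simp
    · intro h
      exact absurd (Finset.mem_range.2 (Nat.lt_succ_of_le (mvfc_cut_le P v))) h
  rw [e, intervalIntegral.integral_finsetSum]
  · refine Finset.sum_congr rfl fun j _ => ?_
    rw [intervalIntegral.integral_mul_const]
    rfl
  · intro j _
    exact (hint fun c => if c = j then 1 else 0).mul_const _

/-- `‖∫ κ (L - EL)‖_2²` is the quadratic form at the weights of `κ` -/
theorem bcr_norm_int (hn : 0 < n) (hP : SkAdm 1 P) {κ : ℝ → ℝ} (hm : Measurable κ) (hb : ∀ v, |κ v| ≤ 1) :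
    bmN1 n 1 P 2 (fun ξ σ => ∫ v in (0 : ℝ)..1, κ v * bmLc n 1 P (mvfCut P v) ξ σ) ^ 2 = bcrQ n P (bcrW P κ) := by
  rw [← bcr_norm_sq hn hP]
  congr 2
  funext ξ σ
  exact bcr_int_sum P hm hb fun j => bmLc n 1 P j ξ σ

/-- the quadratic form at the weights of `κ` is a double integral -/
theorem bcr_Q_int (n : ℕ) (P : SkStp) {κ : ℝ → ℝ} (hm : Measurable κ) (hb : ∀ v, |κ v| ≤ 1) :
    bcrQ n P (bcrW P κ) = bcrI P κ (bcrG n P) := by
  unfold bcrQ bcrI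
  have h1 : ∀ u : ℝ, ∫ u' in (0 : ℝ)..1, κ u' * bcrG n P (mvfCut P u) (mvfCut P u')
      = (fun c => ∑ w ∈ Finset.range (P.length + 1), bcrW P κ w * bcrG n P c w) (mvfCut P u) := fun u =>
    bcr_int_sum P hm hb fun w => bcrG n P (mvfCut P u) w
  simp_rw [h1]
  have h2 := bcr_int_sum P hm hb fun c => ∑ w ∈ Finset.range (P.length + 1), bcrW P κ w * bcrG n P c w
  refine Eq.trans ?_ h2.symm
  refine Finset.sum_congr rfl fun v _ => ?_
  rw [Finset.mul_sum]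
  exact Finset.sum_congr rfl fun w _ => by ring

/-- the lower ends of the cuts lie in `[0,1]` -/
theorem bcr_W_step_bd {P : SkStp} (hP : SkAdm 1 P) {c : ℕ} (hc : c ≤ P.length + 1) : 0 ≤ mvfBd 1 P c ∧ mvfBd 1 P c ≤ 1 := by
  have hm := mvfc_bd_mono one_pos hP
  have h0 : mvfBd 1 P 0 = 0 := by simp [mvfBd]
  have h1 : mvfBd 1 P (P.length + 1) = 1 := by rw [mvfc_bd_succ, pin_ms_ge 1 P le_rfl]
  have a := hm (Nat.zero_le c)
  have b := hm hc
  rw [h0] at a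
  rw [h1] at b
  exact ⟨a, b⟩

/-- the whole cut lies in `[0,1]` -/
theorem bcr_W_step_len {P : SkStp} (hP : SkAdm 1 P) {j : ℕ} (hj : j ≤ P.length) : mvfLen 1 P 0 1 j = skGap 1 P j := by
  obtain ⟨a0, a1⟩ := bcr_W_step_bd hP (c := j) (by omega)
  obtain ⟨b0, b1⟩ := bcr_W_step_bd hP (c := j + 1) (by omega)
  rw [mvfc_gap_eq]
  unfold mvfLen mvfCl
  rw [min_eq_left a1, min_eq_left b1, max_eq_right a0, max_eq_right b0]

/-- [LEAF] the weights of a function of the cut: `∫_0^1 (k c * 1[c = j])(cut v) dv = mvfLen 1 P 0 1 j * k j` (`mvfc_step_integral`, `intervalIntegral.integral_congr_ae` off the end points),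
`mvfLen 1 P 0 1 j = skGap 1 P j` (`mvfc_gap_eq`; `0 ≤ mvfBd ≤ 1`: `mvfc_bd_mono`, `mvfc_bd_succ`, `pin_ms_ge`). -/
theorem bcr_W_step (hP : SkAdm 1 P) {κ : ℝ → ℝ} {k : ℕ → ℝ} (hκ : ∀ u ∈ Ioo (0 : ℝ) 1, κ u = k (mvfCut P u)) {j : ℕ}
    (hj : j ≤ P.length) : bcrW P κ j = skGap 1 P j * k j := by
  unfold bcrW
  have e : ∫ v in (0 : ℝ)..1, κ v * (if mvfCut P v = j then 1 else 0)
      = ∫ v in (0 : ℝ)..1, (fun c : ℕ => k c * (if c = j then 1 else 0)) (mvfCut P v) := by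
    refine intervalIntegral.integral_congr_ae ?_
    have hne : ∀ᵐ v : ℝ, v ≠ 1 := compl_mem_ae_iff.2 (measure_singleton _)
    filter_upwards [hne] with v hv hmem
    rw [uIoc_of_le zero_le_one] at hmem
    show κ v * _ = k (mvfCut P v) * _
    rw [hκ v ⟨hmem.1, lt_of_le_of_ne hmem.2 hv⟩]
  rw [e]
  refine (mvfc_step_integral one_pos hP (fun c : ℕ => k c * (if c = j then 1 else 0)) le_rfl zero_le_one le_rfl).trans ?_
  rw [Finset.sum_eq_single j (fun c _ hc => by simp [hc]) (fun h => absurd (Finset.mem_range.2 (Nat.lt_succ_of_le hj)) h),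
    bcr_W_step_len hP hj]
  simp

/-- `b19Pr2` is the quadratic form at the weights `gap · k` -/
theorem bcr_pr2_eq (n : ℕ) (P : SkStp) (k : ℕ → ℝ) : b19Pr2 n 1 P k = bcrQ n P fun j => skGap 1 P j * k j := by
  unfold b19Pr2 bcrQ bcrG
  refine Finset.sum_congr rfl fun v _ => Finset.sum_congr rfl fun w _ => ?_
  ring

/-- **`b19Pr2` as a double integral** -/
theorem bcr_pr2_int (n : ℕ) (hP : SkAdm 1 P) {κ : ℝ → ℝ} (hm : Measurable κ) (hb : ∀ v, |κ v| ≤ 1) {k : ℕ → ℝ}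
    (hκ : ∀ u ∈ Ioo (0 : ℝ) 1, κ u = k (mvfCut P u)) : b19Pr2 n 1 P k = bcrI P κ (bcrG n P) := by
  rw [bcr_pr2_eq, ← bcr_Q_int n P hm hb]
  unfold bcrQ
  refine Finset.sum_congr rfl fun v hv => Finset.sum_congr rfl fun w hw => ?_
  rw [bcr_W_step hP hκ (Nat.lt_succ_iff.1 (Finset.mem_range.1 hv)), bcr_W_step hP hκ (Nat.lt_succ_iff.1 (Finset.mem_range.1 hw))]

end quad

/-! ## 3. Comparison of two step paths -/

/-- `κ · (function of the cut)` is interval integrable -/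
theorem bcr_I_close_int (P : SkStp) {κ : ℝ → ℝ} (hm : Measurable κ) (hb : ∀ v, |κ v| ≤ 1) (g : ℕ → ℝ) :
    IntervalIntegrable (fun v : ℝ => κ v * g (mvfCut P v)) volume 0 1 := by
  rw [intervalIntegrable_iff]
  have : IsFiniteMeasure ((volume : Measure ℝ).restrict (Set.uIoc (0 : ℝ) 1)) := ⟨by
    rw [Measure.restrict_apply MeasurableSet.univ, univ_inter]; exact measure_Ioc_lt_top⟩
  exact (MvfB.mul (⟨hm, 1, hb⟩ : MvfB κ) (mvfc_step_b P g)).integrable _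

/-- [LEAF] kernels which are uniformly close as functions of the MASSES give close double integrals.      Inner integral `J u = g (cut u)`, `g c = ∫ κ u' G c (cut u')`: all integrands are `κ · (step function)`, bounded
measurable, so interval integrable; `intervalIntegral.integral_sub`, `intervalIntegral.norm_integral_le_of_norm_le_const` twice (`Ι 0 1 = Ioc 0 1`: treat `u = 1` by `integral_congr_ae`, or bound on `Ioo` via
`intervalIntegral.integral_Ioc_eq_integral_Ioo`). -/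
theorem bcr_I_close (P P' : SkStp) {κ : ℝ → ℝ} (hm : Measurable κ) (hb : ∀ v, |κ v| ≤ 1) (G G' : ℕ → ℕ → ℝ) {ε : ℝ}
    (h : ∀ u ∈ Ioo (0 : ℝ) 1, ∀ u' ∈ Ioo (0 : ℝ) 1, |G (mvfCut P u) (mvfCut P u') - G' (mvfCut P' u) (mvfCut P' u')| ≤ ε) :
    |bcrI P κ G - bcrI P' κ G'| ≤ ε := by
  have hne : ∀ᵐ v : ℝ, v ≠ 1 := compl_mem_ae_iff.2 (measure_singleton _)
  have hε : 0 ≤ ε := (abs_nonneg _).trans (h (1 / 2) ⟨by norm_num, by norm_num⟩ (1 / 2) ⟨by norm_num, by norm_num⟩)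
  -- the inner integrals
  have hin : ∀ u ∈ Ioo (0 : ℝ) 1, |(∫ u' in (0 : ℝ)..1, κ u' * G (mvfCut P u) (mvfCut P u'))
      - ∫ u' in (0 : ℝ)..1, κ u' * G' (mvfCut P' u) (mvfCut P' u')| ≤ ε := by
    intro u hu
    rw [← intervalIntegral.integral_sub (bcr_I_close_int P hm hb _) (bcr_I_close_int P' hm hb _)]
    have := intervalIntegral.norm_integral_le_of_norm_le_const_ae (a := (0 : ℝ)) (b := 1) (C := ε)
      (f := fun u' => κ u' * G (mvfCut P u) (mvfCut P u') - κ u' * G' (mvfCut P' u) (mvfCut P' u')) (by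
        filter_upwards [hne] with v hv hmem
        rw [uIoc_of_le zero_le_one] at hmem
        rw [← mul_sub, Real.norm_eq_abs, abs_mul]
        calc |κ v| * |G (mvfCut P u) (mvfCut P v) - G' (mvfCut P' u) (mvfCut P' v)| ≤ 1 * ε :=
              mul_le_mul (hb v) (h u hu v ⟨hmem.1, lt_of_le_of_ne hmem.2 hv⟩) (abs_nonneg _) zero_le_one
          _ = ε := one_mul _)
    simpa using this
  unfold bcrI
  have i1 := bcr_I_close_int P hm hb fun c => ∫ u' in (0 : ℝ)..1, κ u' * G c (mvfCut P u')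
  have i2 := bcr_I_close_int P' hm hb fun c => ∫ u' in (0 : ℝ)..1, κ u' * G' c (mvfCut P' u')
  rw [← intervalIntegral.integral_sub i1 i2]
  have := intervalIntegral.norm_integral_le_of_norm_le_const_ae (a := (0 : ℝ)) (b := 1) (C := ε)
    (f := fun u => κ u * (∫ u' in (0 : ℝ)..1, κ u' * G (mvfCut P u) (mvfCut P u'))
      - κ u * ∫ u' in (0 : ℝ)..1, κ u' * G' (mvfCut P' u) (mvfCut P' u')) (by
      filter_upwards [hne] with v hv hmem
      rw [uIoc_of_le zero_le_one] at hmem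
      rw [← mul_sub, Real.norm_eq_abs, abs_mul]
      calc |κ v| * _ ≤ 1 * ε := mul_le_mul (hb v) (hin v ⟨hmem.1, lt_of_le_of_ne hmem.2 hv⟩) (abs_nonneg _) zero_le_one
        _ = ε := one_mul _)
  simpa using this

/-! ## 4. Uniform closeness of the kernels of the chains -/

section close
variable {n : ℕ} {b h : ℝ → ℝ}

/-- `ghPosA` is monotone -/
theorem bcr_rt_mono : Monotone ghPosA := by
  intro u v h
  rw [gh_os_pos_le_iff]
  rcases eq_or_lt_of_le h with h | h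
  · exact Or.inr ⟨h, le_rfl⟩
  · exact Or.inl h

/-- depth in mass of a label -/
theorem bcr_rt_cut (u u' : ℝ) (x y : ℕ) :
    bcrCut u u' x y = min (if x = 0 then 1 else if x ≤ 2 then u else u') (if y = 0 then 1 else if y ≤ 2 then u else u') := rfl

theorem bcr_rt_mem {u u' : ℝ} (hu : u ∈ Icc (0 : ℝ) 1) (hu' : u' ∈ Icc (0 : ℝ) 1) (x : ℕ) :
    (if x = 0 then (1 : ℝ) else if x ≤ 2 then u else u') ∈ Icc (0 : ℝ) 1 := by
  split_ifs
  · exact ⟨zero_le_one, le_rfl⟩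
  · exact hu
  · exact hu'

/-- [LEAF] the five labels form a real tree with forks after the jumps (`bmTree`, `bcrCut`; `x, y, z < 5`: the depths `m 0 = 1, m 1 = m 2 = u, m 3 = m 4 = u'`, `τ x y = A (min (m x) (m y))`, `ghPosA` is monotone) -/
theorem bcr_rt {u u' : ℝ} (hu : u ∈ Icc (0 : ℝ) 1) (hu' : u' ∈ Icc (0 : ℝ) 1) :
    GhIsRT 1 5 (bmTree (bcrCut u u')) ∧
      ∀ x y (p : GhPos), x < 5 → y < 5 → bmTree (bcrCut u u') x y = (p : WithTop GhPos) → p.lam = 1 := by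
  have key : ∀ x y (p : GhPos), bmTree (bcrCut u u') x y = (p : WithTop GhPos) → p = ghPosA (bcrCut u u' x y) := by
    intro x y p hp
    unfold bmTree at hp
    split_ifs at hp with hxy
    · exact absurd hp.symm (WithTop.coe_ne_top)
    · exact (WithTop.coe_injective hp).symm
  refine ⟨⟨fun x _ => by simp [bmTree], fun x y _ _ => ?_, fun x y z _ _ _ => ?_, fun x y _ _ p hp => ?_⟩, fun x y p _ _ hp => ?_⟩
  · unfold bmTree
    by_cases hxy : x = y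
    · rw [if_pos hxy, if_pos hxy.symm]
    · rw [if_neg hxy, if_neg (Ne.symm hxy), bcr_rt_cut, bcr_rt_cut, min_comm]
  · by_cases hxz : x = z
    · subst hxz; simp [bmTree]
    by_cases hxy : x = y
    · subst hxy; simp [bmTree]
    by_cases hyz : y = z
    · subst hyz; simp [bmTree]
    unfold bmTree
    rw [if_neg hxy, if_neg hyz, if_neg hxz, ← WithTop.coe_min, WithTop.coe_le_coe, ← bcr_rt_mono.map_min]
    apply bcr_rt_mono
    rw [bcr_rt_cut, bcr_rt_cut, bcr_rt_cut]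
    exact le_min ((min_le_left _ _).trans (min_le_left _ _)) ((min_le_right _ _).trans (min_le_right _ _))
  · rw [key x y p hp, bcr_rt_cut]
    have a := bcr_rt_mem hu hu' x
    have b := bcr_rt_mem hu hu' y
    exact ⟨le_min a.1 b.1, (min_le_left _ _).trans a.2, zero_le_one, le_rfl⟩
  · rw [key x y p hp]; rfl

/-- [LEAF] the discrete table of the five labels on a chain is `b19T5` (`gh_tk_idx_top`, `gh_tk_idx_mono` ⟹ `ghIdx` commutes with `min`, `gh_tk_idx_coe_le`; `min 1 u = u`) -/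
theorem bcr_disc (ps : List GhPos) {u u' : ℝ} (hu : u ∈ Icc (0 : ℝ) 1) (hu' : u' ∈ Icc (0 : ℝ) 1) (x y : ℕ) :
    ghDisc ps (bmTree (bcrCut u u')) x y
      = b19T5 ps.length (ghIdx ps ((ghPosA u : GhPos) : WithTop GhPos)) (ghIdx ps ((ghPosA u' : GhPos) : WithTop GhPos)) x y := by
  unfold ghDisc bmTree b19T5
  by_cases hxy : x = y
  · rw [if_pos hxy, if_pos hxy, gh_tk_idx_top]
  rw [if_neg hxy, if_neg hxy, bcr_rt_cut]
  have hmono : Monotone fun t : ℝ => ghIdx ps ((ghPosA t : GhPos) : WithTop GhPos) := fun s t hst =>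
    gh_tk_idx_mono ps (WithTop.coe_le_coe.2 (bcr_rt_mono hst))
  have hle : ∀ t : ℝ, ghIdx ps ((ghPosA t : GhPos) : WithTop GhPos) ≤ ps.length + 1 := fun t => (gh_tk_idx_coe_le ps _).trans (Nat.le_succ _)
  have hmm := hmono.map_min (a := if x = 0 then (1 : ℝ) else if x ≤ 2 then u else u') (b := if y = 0 then (1 : ℝ) else if y ≤ 2 then u else u')
  by_cases hx : x = 0
  · have hy : y ≠ 0 := fun h => hxy (hx.trans h.symm)
    rw [if_pos hx, if_pos hx, if_neg hy, if_neg hy]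
    by_cases hy2 : y ≤ 2
    · rw [if_pos hy2, if_pos hy2, min_eq_right hu.2, min_eq_right (hle u)]
    · rw [if_neg hy2, if_neg hy2, min_eq_right hu'.2, min_eq_right (hle u')]
  · by_cases hy : y = 0
    · rw [if_neg hx, if_neg hx, if_pos hy, if_pos hy]
      by_cases hx2 : x ≤ 2
      · rw [if_pos hx2, if_pos hx2, min_eq_left hu.2, min_eq_left (hle u)]
      · rw [if_neg hx2, if_neg hx2, min_eq_left hu'.2, min_eq_left (hle u')]
    · refine hmm.trans ?_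
      rw [if_neg hx, if_neg hx, if_neg hy, if_neg hy]
      by_cases hx2 : x ≤ 2 <;> by_cases hy2 : y ≤ 2 <;> simp only [hx2, hy2, if_true, if_false]

/-- [LEAF] the kernel of a chain at the cuts of two masses is a tree number of the chain (`ckNuF`, `gh_tk_nu_raw` with `gh_tk_disc_isTr (bcr_rt ..).1`, `bcr_disc` + `funext`, `cmk_stp_length`; the tests agree: `ghTkT (bcrT n)` unfolds) -/
theorem bcr_G_chain (n : ℕ) (b h : ℝ → ℝ) (ps : List GhPos) {u u' : ℝ} (hu : u ∈ Icc (0 : ℝ) 1) (hu' : u' ∈ Icc (0 : ℝ) 1) :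
    bcrG n (ckStp 1 b h ps) (ghIdx ps ((ghPosA u : GhPos) : WithTop GhPos)) (ghIdx ps ((ghPosA u' : GhPos) : WithTop GhPos))
      = ckNuF n 1 b h 5 (bmTree (bcrCut u u')) (bcrT n) ps
        - obS n 1 (ckStp 1 b h ps) 0 (ghIdx ps ((ghPosA u : GhPos) : WithTop GhPos))
          * obS n 1 (ckStp 1 b h ps) 0 (ghIdx ps ((ghPosA u' : GhPos) : WithTop GhPos)) / 4 := by
  unfold bcrG
  congr 1
  unfold ckNuF
  rw [gh_tk_nu_raw (skBase n 1) (skLvs n (ckStp 1 b h ps)) (gh_tk_disc_isTr (bcr_rt hu hu').1 ps) 0 (bcrT n)]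
  have e1 : ghDisc ps (bmTree (bcrCut u u'))
      = b19T5 ps.length (ghIdx ps ((ghPosA u : GhPos) : WithTop GhPos)) (ghIdx ps ((ghPosA u' : GhPos) : WithTop GhPos)) := by
    funext x y
    exact bcr_disc ps hu hu' x y
  have e2 : (ckStp 1 b h ps).length = ps.length := cmk_stp_length 1 b h ps 0 0
  rw [e1, e2]
  rfl

/-- [LEAF] `|Q| ≤ 1` (`skOv` of two configurations, `0 < n`) so `|bcrT| ≤ (3/2)²` -/
theorem bcr_T_abs (hn : 0 < n) (σ : Fin 5 → SkCfg n) : |bcrT n σ| ≤ 9 / 4 := by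
  unfold bcrT
  have h := fun a b => abs_le.1 (sk_pt_ov_abs hn (σ a) (σ b))
  rw [abs_mul]
  have h1 : |skOv (σ 0) (σ 1) - skOv (σ 1) (σ 2) / 2| ≤ 3 / 2 := by
    rw [abs_le]; constructor <;> linarith [(h 0 1).1, (h 0 1).2, (h 1 2).1, (h 1 2).2]
  have h2 : |skOv (σ 0) (σ 3) - skOv (σ 3) (σ 4) / 2| ≤ 3 / 2 := by
    rw [abs_le]; constructor <;> linarith [(h 0 3).1, (h 0 3).2, (h 3 4).1, (h 3 4).2]
  calc _ ≤ (3 / 2 : ℝ) * (3 / 2) := mul_le_mul h1 h2 (abs_nonneg _) (by norm_num)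
    _ = 9 / 4 := by norm_num

/-- [LEAF] **uniform closeness**: `cmk_unif_nu n hn H 5` (with `K = 9/4`, `bcr_rt`, `bcr_T_abs`), `cmk_unif_stat` (first component), `fd_S_range` (`0 ≤ obS ≤ 1`), `bcr_G_chain`;
`|S S' - s s'| ≤ |S - s| |S'| + |s| |S' - s'| ≤ η + (1 + η) η`. -/
theorem bcr_close (hn : 0 < n) (H : CkAdm 1 b h) {δ : ℝ} (hδ : 0 < δ) :
    ∃ F0 : Finset GhPos, ∀ F : Finset GhPos, F0 ⊆ F → ∀ u ∈ Icc (0 : ℝ) 1, ∀ u' ∈ Icc (0 : ℝ) 1,
      |bcrG n (ckStp 1 b h (ghPs 1 F)) (ghIdx (ghPs 1 F) ((ghPosA u : GhPos) : WithTop GhPos))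
          (ghIdx (ghPs 1 F) ((ghPosA u' : GhPos) : WithTop GhPos)) - bcrGi n b h u u'| ≤ δ := by
  classical
  obtain ⟨η, hη⟩ : ∃ η : ℝ, η = min (δ / 4) 1 := ⟨_, rfl⟩
  have hη0 : 0 < η := by rw [hη]; exact lt_min (by positivity) one_pos
  have hη1 : η ≤ 1 := hη ▸ min_le_right _ _
  have hη2 : η ≤ δ / 4 := hη ▸ min_le_left _ _
  obtain ⟨F1, h1⟩ := cmk_unif_nu n hn H 5 hη0
  obtain ⟨F2, h2⟩ := cmk_unif_stat n hn H hη0
  refine ⟨F1 ∪ F2, fun F hF u hu u' hu' => ?_⟩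
  have a1 := h1 F (Finset.union_subset_left hF) _ (bcr_rt hu hu').1 (bcr_rt hu hu').2 (bcrT n) (9 / 4) (bcr_T_abs hn)
  have a2 := (h2 F (Finset.union_subset_right hF) u hu).1
  have a3 := (h2 F (Finset.union_subset_right hF) u' hu').1
  have r2 := fd_S_range hn one_pos _ (cmk_chain_adm H F) 0 (ghIdx (ghPs 1 F) ((ghPosA u' : GhPos) : WithTop GhPos))
  rw [bcr_G_chain n b h _ hu hu']
  unfold bcrGi
  obtain ⟨S, hS⟩ : ∃ S, S = obS n 1 (ckStp 1 b h (ghPs 1 F)) 0 (ghIdx (ghPs 1 F) ((ghPosA u : GhPos) : WithTop GhPos)) := ⟨_, rfl⟩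
  obtain ⟨S', hS'⟩ : ∃ S', S' = obS n 1 (ckStp 1 b h (ghPs 1 F)) 0 (ghIdx (ghPs 1 F) ((ghPosA u' : GhPos) : WithTop GhPos)) := ⟨_, rfl⟩
  obtain ⟨s, hs⟩ : ∃ s, s = skCS n 1 b h (ghPosA u) := ⟨_, rfl⟩
  obtain ⟨s', hs'⟩ : ∃ s', s' = skCS n 1 b h (ghPosA u') := ⟨_, rfl⟩
  rw [← hS, ← hs] at a2
  rw [← hS', ← hs'] at a3
  rw [← hS'] at r2
  rw [← hS, ← hS', ← hs, ← hs']
  have r1 := fd_S_range hn one_pos _ (cmk_chain_adm H F) 0 (ghIdx (ghPs 1 F) ((ghPosA u : GhPos) : WithTop GhPos))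
  rw [← hS] at r1
  have b1 : |s| ≤ 1 + η := by
    have := abs_le.1 a2
    rw [abs_le]; constructor <;> linarith [r1.1, r1.2, this.1, this.2]
  have b2 : |S * S' - s * s'| ≤ η + (1 + η) * η := by
    have e : S * S' - s * s' = (S - s) * S' + s * (S' - s') := by ring
    rw [e]
    refine (abs_add_le _ _).trans ?_
    rw [abs_mul, abs_mul]
    have c1 : |S - s| * |S'| ≤ η * 1 := mul_le_mul a2 (by rw [abs_of_nonneg r2.1]; exact r2.2) (abs_nonneg _) hη0.le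
    have c2 : |s| * |S' - s'| ≤ (1 + η) * η := mul_le_mul b1 a3 (abs_nonneg _) (by linarith)
    linarith
  obtain ⟨A, hA⟩ : ∃ A, A = ckNuF n 1 b h 5 (bmTree (bcrCut u u')) (bcrT n) (ghPs 1 F) := ⟨_, rfl⟩
  obtain ⟨B, hB⟩ : ∃ B, B = skCNu n 1 b h 5 (bmTree (bcrCut u u')) (bcrT n) := ⟨_, rfl⟩
  rw [← hA, ← hB] at a1 ⊢
  have e : A - S * S' / 4 - (B - s * s' / 4) = (A - B) - (S * S' - s * s') / 4 := by ring
  rw [e]
  have c3 := abs_sub (A - B) ((S * S' - s * s') / 4)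
  have c4 : |(S * S' - s * s') / 4| = |S * S' - s * s'| / 4 := by rw [abs_div]; norm_num
  rw [c4] at c3
  nlinarith

end close

/-! ## 5. The primitives on all fine chains -/

section prim
variable {n : ℕ} {b h : ℝ → ℝ}

theorem bcr_ps_ok (F : Finset GhPos) : ∀ q ∈ ghPs 1 F, q.Ok 1 := fun _ hq => (gh_os_ps_mem.1 hq).2

/-- the norm of the hypothesis, on the vocabulary of §2 -/
theorem bcr_hub_norm (hn : 0 < n) (H : CkAdm 1 b h) (F : Finset GhPos) {κ : ℝ → ℝ} (hm : Measurable κ) (hb : ∀ v, |κ v| ≤ 1) :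
    bmN1 n 1 (skCStp 1 b h 0 0 (ghPs 1 F)) 2 (fun ξ σ => ∫ v in (0 : ℝ)..1, κ v * bmLc n 1 (skCStp 1 b h 0 0 (ghPs 1 F))
        (ghIdx (ghPs 1 F) ((ghPosA v : GhPos) : WithTop GhPos)) ξ σ) ^ 2
      = bcrI (ckStp 1 b h (ghPs 1 F)) κ (bcrG n (ckStp 1 b h (ghPs 1 F))) := by
  rw [← bcr_Q_int n _ hm hb, ← bcr_norm_int hn (cmk_chain_adm H F) hm hb]
  simp_rw [mvfc_chain_cut b h (bcr_ps_ok F)]
  rfl

/-- [LEAF] `bmN1 ≥ 0` (`Real.rpow_nonneg` needs `0 ≤ obE ..`; or: `x ^ (1/2)` is `≥ 0` for every real `x`?  NO: use `Real.rpow_nonneg` with `0 ≤ obE |f|^2`, positivity of the planted path `obt_path_nonneg`-type lemma;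
alternative without measurability: `ghPath` of a nonnegative test is nonnegative) -/
theorem bcr_N1_nonneg {P : SkStp} (hP : SkAdm 1 P) (f : (ℕ → SkDr n → ℝ) → SkCfg n → ℝ) : 0 ≤ bmN1 n 1 P 2 f := by
  unfold bmN1
  refine Real.rpow_nonneg ?_ _
  exact fd_path_nonneg (obu_base_ok n one_pos) _ _ _ fun ξ s => Real.rpow_nonneg (abs_nonneg _) _

/-- two fine chains give close norms, uniformly in the weight -/
theorem bcr_two (hn : 0 < n) (H : CkAdm 1 b h) {ε : ℝ} (hε : 0 < ε) :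
    ∃ F0 : Finset GhPos, ∀ F F' : Finset GhPos, F0 ⊆ F → F0 ⊆ F' → ∀ κ : ℝ → ℝ, Measurable κ → (∀ v, |κ v| ≤ 1) →
      |bcrI (ckStp 1 b h (ghPs 1 F)) κ (bcrG n (ckStp 1 b h (ghPs 1 F)))
        - bcrI (ckStp 1 b h (ghPs 1 F')) κ (bcrG n (ckStp 1 b h (ghPs 1 F')))| ≤ ε := by
  obtain ⟨F0, hF0⟩ := bcr_close hn H (δ := ε / 2) (by positivity)
  refine ⟨F0, fun F F' hF hF' κ hm hb => bcr_I_close _ _ hm hb _ _ fun u hu u' hu' => ?_⟩
  rw [mvfc_chain_cut b h (bcr_ps_ok F), mvfc_chain_cut b h (bcr_ps_ok F), mvfc_chain_cut b h (bcr_ps_ok F'),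
    mvfc_chain_cut b h (bcr_ps_ok F')]
  have h1 := hF0 F hF u ⟨hu.1.le, hu.2.le⟩ u' ⟨hu'.1.le, hu'.2.le⟩
  have h2 := hF0 F' hF' u ⟨hu.1.le, hu.2.le⟩ u' ⟨hu'.1.le, hu'.2.le⟩
  have h3 := abs_sub_le (bcrG n (ckStp 1 b h (ghPs 1 F)) (ghIdx (ghPs 1 F) ((ghPosA u : GhPos) : WithTop GhPos))
      (ghIdx (ghPs 1 F) ((ghPosA u' : GhPos) : WithTop GhPos))) (bcrGi n b h u u')
    (bcrG n (ckStp 1 b h (ghPs 1 F')) (ghIdx (ghPs 1 F') ((ghPosA u : GhPos) : WithTop GhPos))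
      (ghIdx (ghPs 1 F') ((ghPosA u' : GhPos) : WithTop GhPos)))
  rw [abs_sub_comm (bcrGi n b h u u')] at h3
  linarith

/-- **THE PRIMITIVES** (mass form of the support condition) -/
theorem bcr_prim (hn : 0 < n) (H : CkAdm 1 b h) {lo hi Pm : ℝ} (hPm : 0 ≤ Pm)
    (hyp : ∀ κ : ℝ → ℝ, Measurable κ → (∀ v, |κ v| ≤ 1) → (∀ v, v ∉ Icc lo hi → κ v = 0) →
      limsup (fun F : Finset GhPos => bmN1 n 1 (skCStp 1 b h 0 0 (ghPs 1 F)) 2 fun ξ σ =>
        ∫ v in (0 : ℝ)..1, κ v * bmLc n 1 (skCStp 1 b h 0 0 (ghPs 1 F))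
          (ghIdx (ghPs 1 F) ((ghPosA v : GhPos) : WithTop GhPos)) ξ σ) atTop ≤ Pm)
    {δ : ℝ} (hδ : 0 < δ) :
    BmEv 1 fun ps => ∀ k : ℕ → ℝ, (∀ v, |k v| ≤ 1) →
      (∀ u ∈ Ioo (0 : ℝ) 1, u ∉ Icc lo hi → k (ghIdx ps ((ghPosA u : GhPos) : WithTop GhPos)) = 0) →
      b19Pr2 n 1 (skCStp 1 b h 0 0 ps) k ≤ (Pm + δ) ^ 2 := by
  obtain ⟨F0, hF0⟩ := bcr_two hn H (ε := δ ^ 2 / 2) (by positivity)
  refine BmEv.of_superset F0 fun F hF k hk hsupp => ?_
  have hcut := mvfc_chain_cut b h (bcr_ps_ok F)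
  set κ : ℝ → ℝ := fun u => if u ∈ Icc lo hi then k (mvfCut (ckStp 1 b h (ghPs 1 F)) u) else 0 with hκdef
  have hκm : Measurable κ :=
    Measurable.ite measurableSet_Icc (mvfc_step_b (ckStp 1 b h (ghPs 1 F)) k).1 measurable_const
  have hκ1 : ∀ v, |κ v| ≤ 1 := by
    intro v
    simp only [hκdef]
    split_ifs
    · exact hk _
    · simp
  have hκ0 : ∀ v, v ∉ Icc lo hi → κ v = 0 := fun v hv => by simp only [hκdef]; rw [if_neg hv]
  have hκk : ∀ u ∈ Ioo (0 : ℝ) 1, κ u = k (mvfCut (ckStp 1 b h (ghPs 1 F)) u) := by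
    intro u hu
    simp only [hκdef]
    split_ifs with hc
    · rfl
    · rw [hcut]; exact (hsupp u hu hc).symm
  have e1 : b19Pr2 n 1 (skCStp 1 b h 0 0 (ghPs 1 F)) k
      = bcrI (ckStp 1 b h (ghPs 1 F)) κ (bcrG n (ckStp 1 b h (ghPs 1 F))) :=
    bcr_pr2_int n (cmk_chain_adm H F) hκm hκ1 hκk
  set Nf : Finset GhPos → ℝ := fun F' => bmN1 n 1 (skCStp 1 b h 0 0 (ghPs 1 F')) 2 fun ξ σ =>
        ∫ v in (0 : ℝ)..1, κ v * bmLc n 1 (skCStp 1 b h 0 0 (ghPs 1 F'))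
          (ghIdx (ghPs 1 F') ((ghPosA v : GhPos) : WithTop GhPos)) ξ σ with hNf
  have hN0 : ∀ F', 0 ≤ Nf F' := fun F' => bcr_N1_nonneg (cmk_chain_adm H F') _
  have hN2 : ∀ F', Nf F' ^ 2 = bcrI (ckStp 1 b h (ghPs 1 F')) κ (bcrG n (ckStp 1 b h (ghPs 1 F'))) := fun F' =>
    bcr_hub_norm hn H F' hκm hκ1
  have hlim : limsup Nf atTop ≤ Pm := hyp κ hκm hκ1 hκ0
  -- boundedness along the net
  have hbd : IsBoundedUnder (· ≤ ·) atTop Nf := by
    refine isBoundedUnder_of_eventually_le (a := Nf F0 + δ + 1) ((eventually_ge_atTop F0).mono fun F' hF' => ?_)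
    have h1 := hF0 F0 F' le_rfl hF' κ hκm hκ1
    rw [← hN2, ← hN2] at h1
    have h2 := (abs_le.1 h1).1
    have h3 := hN0 F'
    have h4 := hN0 F0
    nlinarith
  have hev : ∀ᶠ F' in atTop, Nf F' < Pm + δ / 2 :=
    eventually_lt_of_limsup_lt (lt_of_le_of_lt hlim (by linarith)) hbd
  obtain ⟨F', hF'1, hF'2⟩ := (hev.and (eventually_ge_atTop F0)).exists
  have h1 := hF0 F F' hF hF'2 κ hκm hκ1
  rw [← e1, ← hN2] at h1
  have h2 := (abs_le.1 h1).2
  have h3 := hN0 F'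
  nlinarith

/-- [LEAF] on a chain through `ghPosA lo` the masses `< lo` have strictly smaller cuts (`mvfc_idx_eq`: plain counts; `ghPosA lo` is counted at `lo`, not at `u`: `gh_os_ps_mem`, `gh_os_pos_le_iff`;
`List.countP`/`List.filter` monotone + one more element) -/
theorem bcr_idx_lt {F : Finset GhPos} {lo u : ℝ} (hlo : lo ∈ Icc (0 : ℝ) 1) (hF : ghPosA lo ∈ F) (hu : u < lo) :
    ghIdx (ghPs 1 F) ((ghPosA u : GhPos) : WithTop GhPos) < ghIdx (ghPs 1 F) ((ghPosA lo : GhPos) : WithTop GhPos) := by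
  rw [mvfc_idx_eq, mvfc_idx_eq]
  have hle : ghPosA u ≤ ghPosA lo := (gh_os_pos_le_iff _ _).2 (Or.inl hu)
  have hnl : ¬ ghPosA lo ≤ ghPosA u := by
    rw [gh_os_pos_le_iff]
    rintro (h | h)
    · exact absurd (show lo < u from h) (not_lt.2 hu.le)
    · exact absurd (show lo = u from h.1) (ne_of_gt hu)
  have hmem : ghPosA lo ∈ ghPs 1 F := gh_os_ps_mem.2 ⟨hF, ?_⟩
  · have hsub : ((ghPs 1 F).filter fun x => decide (x ≤ ghPosA u)).Sublist ((ghPs 1 F).filter fun x => decide (x ≤ ghPosA lo)) :=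
      List.monotone_filter_right _ fun x hx => by
        have : x ≤ ghPosA u := by simpa using hx
        simpa using this.trans hle
    refine lt_of_le_of_ne hsub.length_le fun he => ?_
    have := hsub.eq_of_length he
    have h1 : ghPosA lo ∈ (ghPs 1 F).filter fun x => decide (x ≤ ghPosA lo) := List.mem_filter.2 ⟨hmem, by simp⟩
    rw [← this] at h1
    exact hnl (by simpa using (List.mem_filter.1 h1).2)
  · exact ⟨hlo.1, hlo.2, zero_le_one, le_rfl⟩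

/-- [LEAF] `ghPosA` is monotone (`gh_os_pos_le_iff`), `gh_tk_idx_mono` -/
theorem bcr_idx_mono (ps : List GhPos) {u u' : ℝ} (h : u ≤ u') :
    ghIdx ps ((ghPosA u : GhPos) : WithTop GhPos) ≤ ghIdx ps ((ghPosA u' : GhPos) : WithTop GhPos) := by
  refine gh_tk_idx_mono ps (WithTop.coe_le_coe.2 ?_)
  rw [gh_os_pos_le_iff]
  rcases h.lt_or_eq with h | h
  · exact Or.inl h
  · exact Or.inr ⟨h, le_rfl⟩

/-- **THE PRIMITIVES, index form**: weights carried by the cuts `[idx lo, E)`, where `E ≤ idx hi`, or `E` arbitrary if `hi ≥ 1` -/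
theorem bcr_prim_ix (hn : 0 < n) (H : CkAdm 1 b h) {lo hi Pm : ℝ} (hlo : lo ∈ Icc (0 : ℝ) 1) (hPm : 0 ≤ Pm)
    (hyp : ∀ κ : ℝ → ℝ, Measurable κ → (∀ v, |κ v| ≤ 1) → (∀ v, v ∉ Icc lo hi → κ v = 0) →
      limsup (fun F : Finset GhPos => bmN1 n 1 (skCStp 1 b h 0 0 (ghPs 1 F)) 2 fun ξ σ =>
        ∫ v in (0 : ℝ)..1, κ v * bmLc n 1 (skCStp 1 b h 0 0 (ghPs 1 F))
          (ghIdx (ghPs 1 F) ((ghPosA v : GhPos) : WithTop GhPos)) ξ σ) atTop ≤ Pm)
    {δ : ℝ} (hδ : 0 < δ) :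
    BmEv 1 fun ps => ∀ E : ℕ, (E ≤ ghIdx ps ((ghPosA hi : GhPos) : WithTop GhPos) ∨ 1 ≤ hi) → ∀ k : ℕ → ℝ, (∀ v, |k v| ≤ 1) →
      (∀ v, v ∉ Finset.Ico (ghIdx ps ((ghPosA lo : GhPos) : WithTop GhPos)) E → k v = 0) →
      b19Pr2 n 1 (skCStp 1 b h 0 0 ps) k ≤ (Pm + δ) ^ 2 := by
  obtain ⟨F0, hF0⟩ := (bcr_prim hn H hPm hyp hδ).exists_base
  refine BmEv.of_superset (F0 ∪ {ghPosA lo}) fun F hF E hE k hk hk0 => ?_
  refine hF0 F (Finset.union_subset_left hF) k hk fun u hu hout => hk0 _ fun hmem => ?_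
  rw [Finset.mem_Ico] at hmem
  rw [mem_Icc, not_and_or, not_le, not_le] at hout
  rcases hout with h1 | h1
  · have := bcr_idx_lt hlo (hF (Finset.mem_union_right _ (Finset.mem_singleton_self _))) h1
    omega
  · rcases hE with h2 | h2
    · have := bcr_idx_mono (ghPs 1 F) h1.le
      omega
    · linarith [hu.2]

/-- **the field `B19Prim` of MASTER on all fine chains**: dyads `[lo j, hi j]`, `j < R`; `e j` = the cut of `lo j`; `e (j+1)` at most the cut of `hi j`, or arbitrary if `hi j ≥ 1` -/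
theorem bcr_B19Prim (hn : 0 < n) (H : CkAdm 1 b h) (R : ℕ) (lo hi : ℕ → ℝ) (hlo : ∀ j, j < R → lo j ∈ Icc (0 : ℝ) 1) {Pm : ℝ}
    (hPm : 0 ≤ Pm)
    (hyp : ∀ j, j < R → ∀ κ : ℝ → ℝ, Measurable κ → (∀ v, |κ v| ≤ 1) → (∀ v, v ∉ Icc (lo j) (hi j) → κ v = 0) →
      limsup (fun F : Finset GhPos => bmN1 n 1 (skCStp 1 b h 0 0 (ghPs 1 F)) 2 fun ξ σ =>
        ∫ v in (0 : ℝ)..1, κ v * bmLc n 1 (skCStp 1 b h 0 0 (ghPs 1 F))
          (ghIdx (ghPs 1 F) ((ghPosA v : GhPos) : WithTop GhPos)) ξ σ) atTop ≤ Pm)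
    {δ : ℝ} (hδ : 0 < δ) :
    BmEv 1 fun ps => ∀ e : ℕ → ℕ,
      (∀ j, j < R → e j = ghIdx ps ((ghPosA (lo j) : GhPos) : WithTop GhPos) ∧
        (e (j + 1) ≤ ghIdx ps ((ghPosA (hi j) : GhPos) : WithTop GhPos) ∨ 1 ≤ hi j)) →
      B19Prim n 1 (skCStp 1 b h 0 0 ps) R e fun _ => Pm + δ := by
  have hall : ∀ᶠ F : Finset GhPos in atTop, ∀ j ∈ Finset.range R, ∀ E : ℕ,
      (E ≤ ghIdx (ghPs 1 F) ((ghPosA (hi j) : GhPos) : WithTop GhPos) ∨ 1 ≤ hi j) → ∀ k : ℕ → ℝ, (∀ v, |k v| ≤ 1) →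
      (∀ v, v ∉ Finset.Ico (ghIdx (ghPs 1 F) ((ghPosA (lo j) : GhPos) : WithTop GhPos)) E → k v = 0) →
      b19Pr2 n 1 (skCStp 1 b h 0 0 (ghPs 1 F)) k ≤ (Pm + δ) ^ 2 :=
    (Filter.eventually_all_finset _).2 fun j hj =>
      bcr_prim_ix hn H (hlo j (Finset.mem_range.1 hj)) hPm (hyp j (Finset.mem_range.1 hj)) hδ
  refine hall.mono fun F hF e he j hj => ⟨by positivity, fun k hk hk0 => ?_⟩
  refine hF j (Finset.mem_range.2 hj) (e (j + 1)) (he j hj).2 k hk ?_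
  rw [← (he j hj).1]
  exact hk0

end prim

end

end Claimed.Agent.R286
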