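import Claimed.Agent.R286.Bud.Defs

/-!
# Row 286, LL 07-budgets l.1403-1440, node N12: scalar curvature in a buffer, (C14)
OWNER helper6 (ADV helper248).   Consumers: 184 (N17 l.2012, N18 = fields `g_der`, `g1_eq` of `RigD.Ok`).

FORM.  ONE instance, deterministic.  The scalar model enters only through the MOMENT CURVES `BudCv` of a clock (functions of the scalar time `t ∈ [0,Q0]`):
`al = α_t = |{K ≤ t}|`, `G = Γ`, `G1 = Γ' = E V_zz²`, `e3 = E V_zz³`, `f2 = E V_zzz²`, with `Γ'' = f2 - 2 α e3` in INTEGRATED form (no a.e. second derivative).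
(C14) is typed INTEGRATED (N4 of 248):  `φ = Γ_s ∘ k_* - id`, `φ' = φ1`, `|φ1 r₂ - φ1 r₁ + A₀ ∫ (α~ - β₀)| ≤ Err (r₂ - r₁)`.

EXITS
* `BudScReq`           **THE REQUEST TO BOX-C (183 / 197 S4-S5)**: curves of every clock + two-clock comparison
* `bud_n12_IJ`         the comparison integrals `I, J` against the transport integral `Tr = ∫ min(u,t)|δα_t| dt` of N11
* `bud_n12_deriv`      `φ' = φ1`
* `bud_n12_curv`       (C14), error in terms of `η1, η2`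
* `bud_n12_curv_tr`    (C14), error `C (Tr + (tb - ta) dmax)`
* `bud_n12_G2`         `|Γ_s'(t₂) - Γ_s'(t₁)| ≤ C (u + ..)(t₂ - t₁)`-type bound used at l.2012
* `bud_n12_ident_s, bud_n12_ident_st`      `α^s_{k_*(r)} = α~(r)`, `α^*_{k_*(r)} = β₀(r)`
-/

set_option autoImplicit false

open MeasureTheory Set Filter Topology

namespace Claimed.Agent.R286

/-! ## 0. moment curves of a scalar clock -/

/-- the moment curves of ONE scalar clock, as functions of the scalar time -/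
structure BudCv where
  /-- `α_t`, the mass reached at time `t` -/
  al : ℝ → ℝ
  /-- `Γ(t) = E V_z(t,Z_t)²` -/
  G : ℝ → ℝ
  /-- `Γ'(t) = E V_zz(t,Z_t)²` -/
  G1 : ℝ → ℝ
  /-- `E V_zz(t,Z_t)³` -/
  e3 : ℝ → ℝ
  /-- `E V_zzz(t,Z_t)²` -/
  f2 : ℝ → ℝ

/-- a-priori properties on `[0,Q0]` (PE Lemma 5.3; SC1-SC4 of 24) -/
structure BudCv.Ok (c : BudCv) (Q0 Cc : ℝ) : Prop where
  al_mono : MonotoneOn c.al (Icc 0 Q0)
  al_mem : ∀ t ∈ Icc 0 Q0, c.al t ∈ Icc (0:ℝ) 1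
  der : ∀ t ∈ Ioo 0 Q0, HasDerivAt c.G (c.G1 t) t
  G_cont : ContinuousOn c.G (Icc 0 Q0)
  e3_cont : ContinuousOn c.e3 (Icc 0 Q0)
  f2_cont : ContinuousOn c.f2 (Icc 0 Q0)
  /-- `Γ'' = E V_zzz² - 2 α_t E V_zz³`, integrated -/
  der2 : ∀ t1 ∈ Icc 0 Q0, ∀ t2 ∈ Icc 0 Q0, c.G1 t2 - c.G1 t1 = ∫ t in t1..t2, (c.f2 t - 2 * c.al t * c.e3 t)
  G1_nonneg : ∀ t ∈ Icc 0 Q0, 0 ≤ c.G1 t
  G1_le : ∀ t ∈ Icc 0 Q0, c.G1 t ≤ Cc
  e3_le : ∀ t ∈ Icc 0 Q0, |c.e3 t| ≤ Cc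
  /-- oddness of `V_zzz` and `E Z_t² ≤ C t` -/
  f2_le : ∀ t ∈ Icc 0 Q0, |c.f2 t| ≤ Cc * t
  /-- drift of `V_zz³` is `3 V_zz V_zzz² - 3 α V_zz⁴`, bounded -/
  e3_lip : ∀ t ∈ Icc 0 Q0, ∀ t' ∈ Icc 0 Q0, |c.e3 t - c.e3 t'| ≤ Cc * |t - t'|
  /-- `Γ(0) = V_z(0,0)² = 0` -/
  G_zero : c.G 0 = 0
  /-- `Γ' = E V_zz² ≥ c > 0` on the bounded horizon (`sc_x_pos`) -/
  G1_ge : ∀ t ∈ Icc 0 Q0, 1 / Cc ≤ c.G1 t
  /-- at time `0` the law of `Z` is the point mass at `0` (`sc_x_zero`): `Γ'(0) = V_zz(0,0)²`, `E V_zz³ = V_zz(0,0)³`      (identifies `A_* = 2/V_zz(0,0)`) -/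
  zero : ∃ s : ℝ, 0 ≤ s ∧ c.G1 0 = s ^ 2 ∧ c.e3 0 = s ^ 3

/-- `I(t) = ∫_t^{Q0} |δα|` -/
noncomputable def budI (da : ℝ → ℝ) (Q0 t : ℝ) : ℝ := ∫ s in t..Q0, |da s|
/-- `J(t) = ∫_0^t v (|δα_v| + I(v)) dv` -/
noncomputable def budJ (da : ℝ → ℝ) (Q0 t : ℝ) : ℝ := ∫ v in (0:ℝ)..t, v * (|da v| + budI da Q0 v)

/-- two-clock comparison (l.1409-1425).   `|∂_z^k (V¹ - V²)(t,·)| ≤ C I(t)` (odd `k`: `≤ C |z| I(t)`), change of the forward law on even bounded smooth tests `≤ C J(t)`. -/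
structure BudCmp (c1 c2 : BudCv) (Q0 Cc : ℝ) : Prop where
  cG1 : ∀ t ∈ Icc 0 Q0, |c1.G1 t - c2.G1 t|
    ≤ Cc * (budI (fun s => c1.al s - c2.al s) Q0 t + budJ (fun s => c1.al s - c2.al s) Q0 t)
  ce3 : ∀ t ∈ Icc 0 Q0, |c1.e3 t - c2.e3 t|
    ≤ Cc * (budI (fun s => c1.al s - c2.al s) Q0 t + budJ (fun s => c1.al s - c2.al s) Q0 t)
  cf2 : ∀ t ∈ Icc 0 Q0, |c1.f2 t - c2.f2 t|
    ≤ Cc * (t * budI (fun s => c1.al s - c2.al s) Q0 t + budJ (fun s => c1.al s - c2.al s) Q0 t)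

/-- a scalar clock on `(0,1)` with total time at most `Q0` (extended to `[0,Q0]` at the terminal mass `1`) -/
def BudClk (Q0 : ℝ) (K : ℝ → ℝ) : Prop := MonotoneOn K (Ioo 0 1) ∧ ∀ v ∈ Ioo (0:ℝ) 1, K v ∈ Icc 0 Q0

/-- **REQUEST TO BOX-C**: for the response functional `Gam` (terminal mass `1`, terminal datum `log cosh`), time horizon `Q0`, ONE constant `Cc`:
every clock has moment curves with the a-priori properties, and any two clocks satisfy the comparison.   To be supplied as `∀ Q0 > 0, ∃ Cc, BudScReq Gam Q0 Cc`. -/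
def BudScReq (Gam : (ℝ → ℝ) → ℝ → ℝ) (Q0 Cc : ℝ) : Prop :=
  ∃ cv : (ℝ → ℝ) → BudCv,
    (∀ K, BudClk Q0 K → (cv K).Ok Q0 Cc ∧ (∀ t ∈ Icc 0 Q0, (cv K).G t = Gam K t) ∧
      ∀ t ∈ Icc 0 Q0, (cv K).al t = bdDist K t) ∧
    ∀ K1 K2, BudClk Q0 K1 → BudClk Q0 K2 → BudCmp (cv K1) (cv K2) Q0 Cc

/-! ## 1. `I`, `J` against the transport integral -/

/-- Fubini on the triangle: `∫_0^t v ∫_v^{Q0} a ≤ ∫_0^{Q0} min(t,s)²/2 a(s) ds` -/
theorem bud_n12_IJ_fub {a : ℝ → ℝ} {Q0 t : ℝ} (ha : IntervalIntegrable a volume 0 Q0) (ha0 : ∀ s, 0 ≤ a s)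
    (ht0 : 0 ≤ t) (htQ : t ≤ Q0) :
    ∫ v in (0:ℝ)..t, v * (∫ s in v..Q0, a s) ≤ ∫ s in (0:ℝ)..Q0, (min t s) ^ 2 / 2 * a s := by
  have hQ0 : 0 ≤ Q0 := ht0.trans htQ
  have haI : IntegrableOn a (Ioc 0 Q0) := (intervalIntegrable_iff_integrableOn_Ioc_of_le hQ0).1 ha
  set f : ℝ → ℝ → ℝ := fun v s => v * (Ioi v).indicator a s with hf
  have hint : Integrable (Function.uncurry f) ((volume.restrict (Ioc 0 t)).prod (volume.restrict (Ioc 0 Q0))) := by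
    have h1 : Integrable (fun p : ℝ × ℝ => p.1 * a p.2) ((volume.restrict (Ioc 0 t)).prod (volume.restrict (Ioc 0 Q0))) :=
      Integrable.mul_prod (f := fun v : ℝ => v) (g := a) (continuous_id.integrableOn_Ioc) haI
    have h2 := h1.indicator (measurableSet_lt measurable_fst measurable_snd)
    refine h2.congr (Filter.Eventually.of_forall fun p => ?_)
    obtain ⟨v, s⟩ := p
    by_cases hvs : v < s
    · simp [Function.uncurry, hf, indicator, hvs]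
    · simp [Function.uncurry, hf, indicator, hvs]
  have e1 : ∫ v in (0:ℝ)..t, v * (∫ s in v..Q0, a s) = ∫ v in Ioc 0 t, ∫ s in Ioc 0 Q0, f v s := by
    rw [intervalIntegral.integral_of_le ht0]
    refine setIntegral_congr_fun measurableSet_Ioc fun v hv => ?_
    show v * (∫ s in v..Q0, a s) = ∫ s in Ioc 0 Q0, v * (Ioi v).indicator a s
    have hset : Ioc 0 Q0 ∩ Ioi v = Ioc v Q0 := by
      ext s
      simp only [mem_inter_iff, mem_Ioc, mem_Ioi]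
      constructor
      · rintro ⟨⟨_, h2⟩, h3⟩; exact ⟨h3, h2⟩
      · rintro ⟨h1, h2⟩; exact ⟨⟨hv.1.trans h1, h2⟩, h1⟩
    rw [integral_const_mul, setIntegral_indicator measurableSet_Ioi, intervalIntegral.integral_of_le (hv.2.trans htQ), hset]
  rw [e1, integral_integral_swap hint, intervalIntegral.integral_of_le hQ0]
  have hR : IntegrableOn (fun s => (min t s) ^ 2 / 2 * a s) (Ioc 0 Q0) := by
    have := ha.continuousOn_mul (g := fun s => (min t s) ^ 2 / 2) (by fun_prop)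
    exact (intervalIntegrable_iff_integrableOn_Ioc_of_le hQ0).1 this
  refine setIntegral_mono_on hint.integral_prod_right hR measurableSet_Ioc fun s hs => ?_
  have e2 : ∫ v in Ioc 0 t, f v s = (∫ v in Ioc 0 t ∩ Iio s, v) * a s := by
    rw [← setIntegral_indicator measurableSet_Iio, ← integral_mul_const]
    refine integral_congr_ae (Filter.Eventually.of_forall fun v => ?_)
    by_cases hvs : v < s
    · simp [hf, indicator, hvs]
    · simp [hf, indicator, hvs]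
  rw [e2]
  refine mul_le_mul_of_nonneg_right ?_ (ha0 s)
  have hm0 : 0 ≤ min t s := le_min ht0 hs.1.le
  have e3 : ∫ v in Ioc 0 (min t s), v = (min t s) ^ 2 / 2 := by
    rw [← intervalIntegral.integral_of_le hm0, integral_id]
    ring
  rw [← e3]
  refine setIntegral_mono_set (continuous_id.integrableOn_Ioc) ?_ ?_
  · exact (ae_restrict_iff' measurableSet_Ioc).2 (Filter.Eventually.of_forall fun v hv => hv.1.le)
  · refine Filter.Eventually.of_forall ?_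
    rintro v ⟨hv1, hv2⟩
    exact ⟨hv1.1, le_min hv1.2 (le_of_lt hv2)⟩

/-- **N12.1**  for `t ∈ [c1 u, C1 u]`:  `I(t) ≤ Tr/(c1 u)`, `t I(t) ≤ (C1/c1) Tr`, `J(t) ≤ (C1 + C1² u/2) Tr`.
Proof: `s ≥ t ≥ c1 u` gives `min(u,s) ≥ c1 u`;  `v ≤ t ≤ C1 u` gives `v ≤ C1 min(u,v)`;  Fubini: `∫_0^t v I(v) dv = ∫ |δα_s| min(t,s)²/2 ds`, `min(t,s) ≤ C1 min(u,s)`, `min(t,s) ≤ C1 u`. -/
theorem bud_n12_IJ {da : ℝ → ℝ} {Q0 u c1 C1 t : ℝ} (hda : IntervalIntegrable da volume 0 Q0) (hu : 0 < u)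
    (hc1 : 0 < c1) (hc11 : c1 ≤ 1) (hC1 : 1 ≤ C1) (ht : t ∈ Icc (c1 * u) (C1 * u)) (htQ : t ≤ Q0) :
    budI da Q0 t ≤ (∫ s in (0:ℝ)..Q0, min u s * |da s|) / (c1 * u) ∧
    t * budI da Q0 t ≤ C1 / c1 * (∫ s in (0:ℝ)..Q0, min u s * |da s|) ∧
    budJ da Q0 t ≤ (C1 + C1 ^ 2 * u / 2) * ∫ s in (0:ℝ)..Q0, min u s * |da s| := by
  set a : ℝ → ℝ := fun s => |da s| with ha
  have ha0 : ∀ s, 0 ≤ a s := fun s => abs_nonneg _
  have hai : IntervalIntegrable a volume 0 Q0 := hda.abs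
  have hcu : 0 < c1 * u := mul_pos hc1 hu
  have ht0 : 0 < t := hcu.trans_le ht.1
  have hQ0 : 0 ≤ Q0 := ht0.le.trans htQ
  have hC0 : 0 < C1 := zero_lt_one.trans_le hC1
  set Tr : ℝ := ∫ s in (0:ℝ)..Q0, min u s * a s with hTr
  have hmi : IntervalIntegrable (fun s => min u s * a s) volume 0 Q0 :=
    hai.continuousOn_mul (g := fun s => min u s) (by fun_prop)
  have hm0 : ∀ s ∈ Ioc 0 Q0, 0 ≤ min u s * a s := fun s hs => mul_nonneg (le_min hu.le hs.1.le) (ha0 s)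
  have hsubint : ∀ x y : ℝ, 0 ≤ x → x ≤ y → y ≤ Q0 → ∫ s in x..y, min u s * a s ≤ Tr := fun x y hx hxy hy =>
    intervalIntegral.integral_mono_interval hx hxy hy
      ((ae_restrict_iff' measurableSet_Ioc).2 (Filter.Eventually.of_forall hm0)) hmi
  have hTr0 : 0 ≤ Tr := intervalIntegral.integral_nonneg hQ0 fun s hs =>
    mul_nonneg (le_min hu.le hs.1) (ha0 s)
  have hsub : ∀ x y : ℝ, 0 ≤ x → x ≤ y → y ≤ Q0 → ∀ g : ℝ → ℝ, IntervalIntegrable g volume 0 Q0 → IntervalIntegrable g volume x y :=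
    fun x y hx hxy hy g hg => hg.mono_set (by
      rw [uIcc_of_le hxy, uIcc_of_le hQ0]; exact Icc_subset_Icc hx hy)
  -- (1)
  have h1 : c1 * u * budI da Q0 t ≤ Tr := by
    unfold budI
    rw [← intervalIntegral.integral_const_mul]
    refine le_trans ?_ (hsubint t Q0 ht0.le htQ le_rfl)
    refine intervalIntegral.integral_mono_on htQ ((hsub t Q0 ht0.le htQ le_rfl a hai).const_mul _)
      (hsub t Q0 ht0.le htQ le_rfl _ hmi) fun s hs => ?_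
    refine mul_le_mul_of_nonneg_right (le_min ?_ (ht.1.trans hs.1)) (ha0 s)
    nlinarith
  have hI : budI da Q0 t ≤ Tr / (c1 * u) := by
    rw [le_div_iff₀ hcu]; linarith
  refine ⟨hI, ?_, ?_⟩
  · calc t * budI da Q0 t ≤ (C1 * u) * (Tr / (c1 * u)) := by
          refine mul_le_mul ht.2 hI ?_ (by positivity)
          exact intervalIntegral.integral_nonneg htQ fun s _ => ha0 s
      _ = C1 / c1 * Tr := by field_simp
  · -- (3)
    have hIc : ContinuousOn (fun v => budI da Q0 v) (Icc 0 Q0) := by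
      have hp : ContinuousOn (fun x => ∫ s in (0:ℝ)..x, a s) (uIcc 0 Q0) :=
        intervalIntegral.continuousOn_primitive_interval
          (by rw [uIcc_of_le hQ0]; exact (intervalIntegrable_iff_integrableOn_Icc_of_le hQ0).1 hai)
      rw [uIcc_of_le hQ0] at hp
      have : ∀ v ∈ Icc 0 Q0, budI da Q0 v = (∫ s in (0:ℝ)..Q0, a s) - ∫ s in (0:ℝ)..v, a s := by
        intro v hv
        unfold budI
        rw [eq_sub_iff_add_eq, add_comm]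
        exact intervalIntegral.integral_add_adjacent_intervals (hsub 0 v le_rfl hv.1 hv.2 a hai)
          (hsub v Q0 hv.1 hv.2 le_rfl a hai)
      exact (continuousOn_const.sub hp).congr this
    have i1 : IntervalIntegrable (fun v => v * a v) volume 0 t :=
      (hsub 0 t le_rfl ht0.le htQ a hai).continuousOn_mul (g := fun v => v) (by fun_prop)
    have i2 : IntervalIntegrable (fun v => v * budI da Q0 v) volume 0 t := by
      refine ContinuousOn.intervalIntegrable ?_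
      rw [uIcc_of_le ht0.le]
      exact continuousOn_id.mul (hIc.mono (Icc_subset_Icc le_rfl htQ))
    have eJ : budJ da Q0 t = (∫ v in (0:ℝ)..t, v * a v) + ∫ v in (0:ℝ)..t, v * budI da Q0 v := by
      unfold budJ
      rw [← intervalIntegral.integral_add i1 i2]
      refine intervalIntegral.integral_congr fun v _ => ?_
      simp only [ha]
      ring
    have b1 : ∫ v in (0:ℝ)..t, v * a v ≤ C1 * Tr := by
      calc ∫ v in (0:ℝ)..t, v * a v ≤ ∫ v in (0:ℝ)..t, C1 * (min u v * a v) := by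
            refine intervalIntegral.integral_mono_on ht0.le i1 ((hsub 0 t le_rfl ht0.le htQ _ hmi).const_mul C1) fun v hv => ?_
            rw [← mul_assoc]
            refine mul_le_mul_of_nonneg_right ?_ (ha0 v)
            rcases le_total u v with huv | huv
            · rw [min_eq_left huv]; exact hv.2.trans ht.2
            · rw [min_eq_right huv]; nlinarith [hv.1]
        _ = C1 * ∫ v in (0:ℝ)..t, min u v * a v := intervalIntegral.integral_const_mul _ _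
        _ ≤ C1 * Tr := mul_le_mul_of_nonneg_left (hsubint 0 t le_rfl ht0.le htQ) hC0.le
    have b2 : ∫ v in (0:ℝ)..t, v * budI da Q0 v ≤ C1 ^ 2 * u / 2 * Tr := by
      have hF := bud_n12_IJ_fub hai ha0 ht0.le htQ
      refine le_trans hF ?_
      rw [hTr, ← intervalIntegral.integral_const_mul]
      refine intervalIntegral.integral_mono_on hQ0 (hai.continuousOn_mul (g := fun s => (min t s) ^ 2 / 2) (by fun_prop))
        (hmi.const_mul _) fun s hs => ?_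
      rw [← mul_assoc]
      refine mul_le_mul_of_nonneg_right ?_ (ha0 s)
      have m0 : 0 ≤ min t s := le_min ht0.le hs.1
      have m1 : min t s ≤ C1 * u := (min_le_left _ _).trans ht.2
      have m2 : min t s ≤ C1 * min u s := by
        rcases le_total u s with hus | hus
        · rw [min_eq_left hus]; exact m1
        · rw [min_eq_right hus]
          refine (min_le_right _ _).trans ?_
          nlinarith [hs.1]
      have m3 : 0 ≤ min u s := le_min hu.le hs.1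
      have : (min t s) ^ 2 ≤ (C1 * u) * (C1 * min u s) := by
        rw [sq]; exact mul_le_mul m1 m2 m0 (by positivity)
      nlinarith
    rw [eJ, add_mul]
    exact add_le_add b1 b2

/-! ## 2. (C14) -/

/-- the standing hypotheses of (C14): `c` = reference curves (`Γ_*`), `cs` = sampled curves (`Γ_s`), `k = k_* = Γ_*⁻¹` on the radius window `(ra,rb)`,
whose times lie in `(ta,tb) ⊆ (0,Q0)`; `Γ_*' ≥ cΓ` there -/
structure BudC14 (cs c : BudCv) (k : ℝ → ℝ) (Q0 Cc cΓ ta tb ra rb : ℝ) : Prop where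
  cs_ok : cs.Ok Q0 Cc
  c_ok : c.Ok Q0 Cc
  ta0 : 0 < ta
  tab : ta ≤ tb
  tbQ : tb < Q0
  cΓ0 : 0 < cΓ
  G1_ge : ∀ t ∈ Icc ta tb, cΓ ≤ c.G1 t
  k_mem : ∀ r ∈ Ioo ra rb, k r ∈ Ioo ta tb
  k_inv : ∀ r ∈ Ioo ra rb, c.G (k r) = r

/-- `φ(r) = Γ_s(k_*(r)) - r` -/
noncomputable def budPhi (cs : BudCv) (k : ℝ → ℝ) (r : ℝ) : ℝ := cs.G (k r) - r
/-- `φ'(r) = Γ_s'(k_*(r)) / Γ_*'(k_*(r)) - 1` -/
noncomputable def budPhi1 (cs c : BudCv) (k : ℝ → ℝ) (r : ℝ) : ℝ := cs.G1 (k r) / c.G1 (k r) - 1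

theorem bud_n12_sub {cs c : BudCv} {k : ℝ → ℝ} {Q0 Cc cΓ ta tb ra rb : ℝ} (h : BudC14 cs c k Q0 Cc cΓ ta tb ra rb) :
    Icc ta tb ⊆ Ioo 0 Q0 := fun _ ht => ⟨h.ta0.trans_le ht.1, ht.2.trans_lt h.tbQ⟩

/-- lower bound for the increments of `Γ_*` on the time window -/
theorem bud_n12_G_incr {cs c : BudCv} {k : ℝ → ℝ} {Q0 Cc cΓ ta tb ra rb : ℝ} (h : BudC14 cs c k Q0 Cc cΓ ta tb ra rb)
    {x y : ℝ} (hx : x ∈ Icc ta tb) (hy : y ∈ Icc ta tb) (hxy : x ≤ y) : cΓ * (y - x) ≤ c.G y - c.G x := by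
  have hsub := bud_n12_sub h
  refine Convex.mul_sub_le_image_sub_of_le_deriv (convex_Icc ta tb)
    (fun t ht => (h.c_ok.der t (hsub ht)).continuousAt.continuousWithinAt)
    (fun t ht => (h.c_ok.der t (hsub (interior_subset ht))).differentiableAt.differentiableWithinAt)
    (fun t ht => ?_) x hx y hy hxy
  rw [(h.c_ok.der t (hsub (interior_subset ht))).deriv]
  exact h.G1_ge t (interior_subset ht)

theorem bud_n12_k_lip {cs c : BudCv} {k : ℝ → ℝ} {Q0 Cc cΓ ta tb ra rb : ℝ} (h : BudC14 cs c k Q0 Cc cΓ ta tb ra rb)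
    {r1 r2 : ℝ} (h1 : r1 ∈ Ioo ra rb) (h2 : r2 ∈ Ioo ra rb) (h12 : r1 ≤ r2) :
    0 ≤ k r2 - k r1 ∧ k r2 - k r1 ≤ (r2 - r1) / cΓ := by
  have m1 := Ioo_subset_Icc_self (h.k_mem r1 h1)
  have m2 := Ioo_subset_Icc_self (h.k_mem r2 h2)
  have hle : k r1 ≤ k r2 := by
    by_contra hcon
    push Not at hcon
    have := bud_n12_G_incr h m2 m1 hcon.le
    rw [h.k_inv r1 h1, h.k_inv r2 h2] at this
    have hpos : 0 < cΓ * (k r1 - k r2) := mul_pos h.cΓ0 (sub_pos.2 hcon)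
    linarith
  refine ⟨sub_nonneg.2 hle, ?_⟩
  have := bud_n12_G_incr h m1 m2 hle
  rw [h.k_inv r1 h1, h.k_inv r2 h2] at this
  rw [le_div_iff₀ h.cΓ0]
  linarith

theorem bud_n12_k_cont {cs c : BudCv} {k : ℝ → ℝ} {Q0 Cc cΓ ta tb ra rb : ℝ} (h : BudC14 cs c k Q0 Cc cΓ ta tb ra rb)
    {r : ℝ} (hr : r ∈ Ioo ra rb) : ContinuousAt k r := by
  rw [Metric.continuousAt_iff]
  intro ε hε
  obtain ⟨δ, hδ, hball⟩ := Metric.mem_nhds_iff.1 (Ioo_mem_nhds hr.1 hr.2)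
  refine ⟨min δ (ε * cΓ), lt_min hδ (mul_pos hε h.cΓ0), fun y hy => ?_⟩
  have hy' : y ∈ Ioo ra rb := hball (Metric.mem_ball.2 (hy.trans_le (min_le_left _ _)))
  have hy2 : |y - r| < ε * cΓ := by
    rw [← Real.dist_eq]; exact hy.trans_le (min_le_right _ _)
  rw [Real.dist_eq]
  rcases le_total r y with hry | hry
  · obtain ⟨a1, a2⟩ := bud_n12_k_lip h hr hy' hry
    rw [abs_of_nonneg a1]
    refine a2.trans_lt ?_
    rw [div_lt_iff₀ h.cΓ0]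
    exact (le_abs_self _).trans_lt hy2
  · obtain ⟨a1, a2⟩ := bud_n12_k_lip h hy' hr hry
    rw [abs_sub_comm, abs_of_nonneg a1]
    refine a2.trans_lt ?_
    rw [div_lt_iff₀ h.cΓ0]
    rw [abs_sub_comm] at hy2
    exact (le_abs_self _).trans_lt hy2

/-- N12.2a `k_*` is differentiable with derivative `1/Γ_*'`.
Proof: `c.G` is strictly increasing on `[ta,tb]` (derivative `≥ cΓ`), so `k` is strictly increasing and `cΓ⁻¹`-Lipschitz on `(ra,rb)`, hence continuous; `HasDerivAt.of_local_left_inverse`. -/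
theorem bud_n12_k_deriv {cs c : BudCv} {k : ℝ → ℝ} {Q0 Cc cΓ ta tb ra rb : ℝ} (h : BudC14 cs c k Q0 Cc cΓ ta tb ra rb)
    {r : ℝ} (hr : r ∈ Ioo ra rb) : HasDerivAt k (c.G1 (k r))⁻¹ r := by
  have hm := Ioo_subset_Icc_self (h.k_mem r hr)
  refine HasDerivAt.of_local_left_inverse (bud_n12_k_cont h hr) (h.c_ok.der _ (bud_n12_sub h hm))
    (h.cΓ0.trans_le (h.G1_ge _ hm)).ne' ?_
  filter_upwards [Ioo_mem_nhds hr.1 hr.2] with y hy using h.k_inv y hy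

/-- **N12.2** `φ' = φ1` -/
theorem bud_n12_deriv {cs c : BudCv} {k : ℝ → ℝ} {Q0 Cc cΓ ta tb ra rb : ℝ} (h : BudC14 cs c k Q0 Cc cΓ ta tb ra rb)
    {r : ℝ} (hr : r ∈ Ioo ra rb) : HasDerivAt (budPhi cs k) (budPhi1 cs c k r) r := by
  have hm := Ioo_subset_Icc_self (h.k_mem r hr)
  have h1 := (h.cs_ok.der _ (bud_n12_sub h hm)).comp r (bud_n12_k_deriv h hr)
  have h2 := h1.sub (hasDerivAt_id r)
  exact h2

/-- N12.3a change of variables `t = k_*(r)`:  `∫_{k r₁}^{k r₂} F(t) dt = ∫_{r₁}^{r₂} F(k r)/Γ_*'(k r) dr` for bounded measurable `F`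
(`MeasureTheory.integral_image_eq_integral_abs_deriv_smul` on `Icc r₁ r₂`, `k` injective). -/
theorem bud_n12_cov {cs c : BudCv} {k : ℝ → ℝ} {Q0 Cc cΓ ta tb ra rb : ℝ} (h : BudC14 cs c k Q0 Cc cΓ ta tb ra rb)
    {r1 r2 : ℝ} (h1 : r1 ∈ Ioo ra rb) (h2 : r2 ∈ Ioo ra rb) (h12 : r1 ≤ r2) (F : ℝ → ℝ) :
    ∫ t in (k r1)..(k r2), F t = ∫ r in r1..r2, F (k r) / c.G1 (k r) := by
  have hsub : Icc r1 r2 ⊆ Ioo ra rb := fun x hx => ⟨h1.1.trans_le hx.1, hx.2.trans_lt h2.2⟩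
  have hk12 : k r1 ≤ k r2 := sub_nonneg.1 (bud_n12_k_lip h h1 h2 h12).1
  have himg : k '' Icc r1 r2 = Icc (k r1) (k r2) := by
    apply Subset.antisymm
    · rintro _ ⟨x, hx, rfl⟩
      exact ⟨sub_nonneg.1 (bud_n12_k_lip h h1 (hsub hx) hx.1).1, sub_nonneg.1 (bud_n12_k_lip h (hsub hx) h2 hx.2).1⟩
    · exact intermediate_value_Icc h12 fun x hx => (bud_n12_k_cont h (hsub hx)).continuousWithinAt
  have hinj : InjOn k (Icc r1 r2) := by
    intro x hx y hy hxy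
    rw [← h.k_inv x (hsub hx), ← h.k_inv y (hsub hy), hxy]
  have key := integral_image_eq_integral_abs_deriv_smul (s := Icc r1 r2) (f := k)
    (f' := fun x => (c.G1 (k x))⁻¹) measurableSet_Icc
    (fun x hx => (bud_n12_k_deriv h (hsub hx)).hasDerivWithinAt) hinj F
  rw [himg] at key
  rw [intervalIntegral.integral_of_le hk12, intervalIntegral.integral_of_le h12,
    ← integral_Icc_eq_integral_Ioc, ← integral_Icc_eq_integral_Ioc, key]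
  refine setIntegral_congr_fun measurableSet_Icc fun x hx => ?_
  have hpos : 0 < c.G1 (k x) := h.cΓ0.trans_le (h.G1_ge _ (Ioo_subset_Icc_self (h.k_mem x (hsub hx))))
  simp only [smul_eq_mul]
  rw [abs_of_pos (inv_pos.2 hpos)]
  field_simp

/-- integrability of the curves on a subinterval -/
theorem bud_n12_int {c : BudCv} {Q0 Cc : ℝ} (hc : c.Ok Q0 Cc) {t1 t2 : ℝ} (h1 : t1 ∈ Icc 0 Q0) (h2 : t2 ∈ Icc 0 Q0) :
    IntervalIntegrable c.al volume t1 t2 ∧ IntervalIntegrable c.e3 volume t1 t2 ∧ IntervalIntegrable c.f2 volume t1 t2 := by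
  have hsub : uIcc t1 t2 ⊆ Icc 0 Q0 := uIcc_subset_Icc h1 h2
  exact ⟨(hc.al_mono.mono hsub).intervalIntegrable, (hc.e3_cont.mono hsub).intervalIntegrable,
    (hc.f2_cont.mono hsub).intervalIntegrable⟩

/-- N12.3b the second difference of `Δ = Γ_s' - Γ_*'` in time.   Proof: `der2` for both curves;
`(f2ˢ - 2 αˢ e3ˢ) - (f2 - 2 α e3) = (f2ˢ - f2) - 2 αˢ (e3ˢ - e3) - 2 (αˢ - α) e3`. -/
theorem bud_n12_second {cs c : BudCv} {Q0 Cc ta tb η1 η2 amax : ℝ} (hcs : cs.Ok Q0 Cc) (hc : c.Ok Q0 Cc)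
    (hta : 0 ≤ ta) (htb : tb ≤ Q0)
    (he3 : ∀ t ∈ Icc ta tb, |cs.e3 t - c.e3 t| ≤ η1) (hf2 : ∀ t ∈ Icc ta tb, |cs.f2 t - c.f2 t| ≤ η2)
    (ham : ∀ t ∈ Icc ta tb, cs.al t ≤ amax) {t1 t2 : ℝ} (h1 : t1 ∈ Icc ta tb) (h2 : t2 ∈ Icc ta tb) (h12 : t1 ≤ t2) :
    |(cs.G1 t2 - c.G1 t2) - (cs.G1 t1 - c.G1 t1) + ∫ t in t1..t2, 2 * (cs.al t - c.al t) * c.e3 t|
      ≤ (η2 + 2 * amax * η1) * (t2 - t1) := by
  have hW : Icc ta tb ⊆ Icc 0 Q0 := Icc_subset_Icc hta htb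
  have g1 := hW h1
  have g2 := hW h2
  have hsubU : uIcc t1 t2 ⊆ Icc 0 Q0 := uIcc_subset_Icc g1 g2
  obtain ⟨ia, ie, iF⟩ := bud_n12_int hc g1 g2
  obtain ⟨ias, ies, iFs⟩ := bud_n12_int hcs g1 g2
  have ec : ContinuousOn c.e3 (uIcc t1 t2) := hc.e3_cont.mono hsubU
  have ecs : ContinuousOn cs.e3 (uIcc t1 t2) := hcs.e3_cont.mono hsubU
  have j1 : IntervalIntegrable (fun t => cs.f2 t - 2 * cs.al t * cs.e3 t) volume t1 t2 :=
    iFs.sub ((ias.const_mul 2).mul_continuousOn ecs)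
  have j2 : IntervalIntegrable (fun t => c.f2 t - 2 * c.al t * c.e3 t) volume t1 t2 :=
    iF.sub ((ia.const_mul 2).mul_continuousOn ec)
  have j3 : IntervalIntegrable (fun t => 2 * (cs.al t - c.al t) * c.e3 t) volume t1 t2 :=
    ((ias.sub ia).const_mul 2).mul_continuousOn ec
  have e : (cs.G1 t2 - c.G1 t2) - (cs.G1 t1 - c.G1 t1) + ∫ t in t1..t2, 2 * (cs.al t - c.al t) * c.e3 t
      = ∫ t in t1..t2, ((cs.f2 t - c.f2 t) - 2 * cs.al t * (cs.e3 t - c.e3 t)) := by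
    have a1 := hcs.der2 t1 g1 t2 g2
    have a2 := hc.der2 t1 g1 t2 g2
    have : (cs.G1 t2 - c.G1 t2) - (cs.G1 t1 - c.G1 t1) = (cs.G1 t2 - cs.G1 t1) - (c.G1 t2 - c.G1 t1) := by ring
    rw [this, a1, a2, ← intervalIntegral.integral_sub j1 j2, ← intervalIntegral.integral_add (j1.sub j2) j3]
    refine intervalIntegral.integral_congr fun t _ => ?_
    ring
  rw [e, ← Real.norm_eq_abs]
  have hb := intervalIntegral.norm_integral_le_of_norm_le_const (a := t1) (b := t2) (C := η2 + 2 * amax * η1)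
    (f := fun t => (cs.f2 t - c.f2 t) - 2 * cs.al t * (cs.e3 t - c.e3 t)) (fun t ht => ?_)
  · rwa [abs_of_nonneg (sub_nonneg.2 h12)] at hb
  · rw [uIoc_of_le h12] at ht
    have htW : t ∈ Icc ta tb := ⟨h1.1.trans ht.1.le, ht.2.trans h2.2⟩
    have b0 : 0 ≤ cs.al t := (hcs.al_mem t (hW htW)).1
    have b1 := ham t htW
    have b2 := he3 t htW
    have b3 := hf2 t htW
    rw [Real.norm_eq_abs]
    calc |(cs.f2 t - c.f2 t) - 2 * cs.al t * (cs.e3 t - c.e3 t)|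
        ≤ |cs.f2 t - c.f2 t| + |2 * cs.al t * (cs.e3 t - c.e3 t)| := abs_sub _ _
      _ = |cs.f2 t - c.f2 t| + 2 * cs.al t * |cs.e3 t - c.e3 t| := by
          rw [abs_mul, abs_of_nonneg (by positivity : (0:ℝ) ≤ 2 * cs.al t)]
      _ ≤ η2 + 2 * amax * η1 := by
          have : 2 * cs.al t * |cs.e3 t - c.e3 t| ≤ 2 * amax * η1 :=
            mul_le_mul (by linarith) b2 (abs_nonneg _) (by linarith)
          linarith

/-- Lipschitz bound of `Γ'` on a time window -/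
theorem bud_n12_curv_lip {c : BudCv} {Q0 Cc ta tb amax : ℝ} (hc : c.Ok Q0 Cc) (hta : 0 ≤ ta) (htb : tb ≤ Q0)
    (ham : ∀ t ∈ Icc ta tb, c.al t ≤ amax) {x y : ℝ} (hx : x ∈ Icc ta tb) (hy : y ∈ Icc ta tb) :
    |c.G1 y - c.G1 x| ≤ Cc * (tb + 2 * amax) * |y - x| := by
  have hW : Icc ta tb ⊆ Icc 0 Q0 := Icc_subset_Icc hta htb
  rw [hc.der2 x (hW hx) y (hW hy), ← Real.norm_eq_abs]
  refine intervalIntegral.norm_integral_le_of_norm_le_const fun t ht => ?_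
  have htW : t ∈ Icc ta tb := by
    have : t ∈ uIcc x y := uIoc_subset_uIcc ht
    exact uIcc_subset_Icc hx hy this
  have b0 := (hc.al_mem t (hW htW)).1
  have b1 := ham t htW
  have b2 := hc.e3_le t (hW htW)
  have b3 := hc.f2_le t (hW htW)
  have hCc : 0 ≤ Cc := (abs_nonneg _).trans b2
  rw [Real.norm_eq_abs]
  calc |c.f2 t - 2 * c.al t * c.e3 t| ≤ |c.f2 t| + |2 * c.al t * c.e3 t| := abs_sub _ _
    _ = |c.f2 t| + 2 * c.al t * |c.e3 t| := by rw [abs_mul, abs_of_nonneg (by positivity : (0:ℝ) ≤ 2 * c.al t)]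
    _ ≤ Cc * tb + 2 * amax * Cc := by
        have e1 : Cc * t ≤ Cc * tb := mul_le_mul_of_nonneg_left htW.2 hCc
        have e2 : 2 * c.al t * |c.e3 t| ≤ 2 * amax * Cc := mul_le_mul (by linarith) b2 (abs_nonneg _) (by linarith)
        linarith
    _ = Cc * (tb + 2 * amax) := by ring

/-- continuity of `Γ'` -/
theorem bud_n12_curv_cont {c : BudCv} {Q0 Cc : ℝ} (hc : c.Ok Q0 Cc) (hQ : 0 ≤ Q0) : ContinuousOn c.G1 (Icc 0 Q0) := by
  have h0 : (0:ℝ) ∈ Icc 0 Q0 := ⟨le_rfl, hQ⟩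
  have hQm : Q0 ∈ Icc 0 Q0 := ⟨hQ, le_rfl⟩
  obtain ⟨ia, ie, iF⟩ := bud_n12_int hc h0 hQm
  have j : IntervalIntegrable (fun t => c.f2 t - 2 * c.al t * c.e3 t) volume 0 Q0 :=
    iF.sub ((ia.const_mul 2).mul_continuousOn (by rw [uIcc_of_le hQ]; exact hc.e3_cont))
  have hp : ContinuousOn (fun x => ∫ t in (0:ℝ)..x, (c.f2 t - 2 * c.al t * c.e3 t)) (uIcc 0 Q0) :=
    intervalIntegral.continuousOn_primitive_interval
      (by rw [uIcc_of_le hQ]; exact (intervalIntegrable_iff_integrableOn_Icc_of_le hQ).1 j)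
  rw [uIcc_of_le hQ] at hp
  refine (continuousOn_const.add hp).congr (f := fun x => c.G1 0 + ∫ t in (0:ℝ)..x, (c.f2 t - 2 * c.al t * c.e3 t)) fun x hx => ?_
  have := hc.der2 0 h0 x hx
  linarith

/-- freezing the coefficient -/
theorem bud_n12_curv_coef {Cc cΓ w e0 es g0 gs g2 : ℝ} (hcΓ : 0 < cΓ) (hw : 0 ≤ w)
    (h0 : cΓ ≤ g0) (hs : cΓ ≤ gs) (h2 : cΓ ≤ g2) (h0' : g0 ≤ Cc) (h2' : g2 ≤ Cc)
    (he : |e0 - es| ≤ Cc * w) (hes : |es| ≤ Cc) (hgs : |gs - g0| ≤ 3 * Cc * w) (hg2 : |g2 - g0| ≤ 3 * Cc * w) :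
    |2 * e0 / g0 ^ 2 - 2 * es / (gs * g2)| ≤ (2 * Cc / cΓ ^ 2 + 12 * Cc ^ 3 / cΓ ^ 4) * w := by
  have p0 : 0 < g0 := hcΓ.trans_le h0
  have ps : 0 < gs := hcΓ.trans_le hs
  have p2 : 0 < g2 := hcΓ.trans_le h2
  have hCc : 0 < Cc := p0.trans_le h0'
  have id : 2 * e0 / g0 ^ 2 - 2 * es / (gs * g2)
      = 2 * (e0 - es) / g0 ^ 2 + 2 * es * ((gs - g0) * g2 + g0 * (g2 - g0)) / (g0 ^ 2 * gs * g2) := by
    field_simp
    ring
  rw [id]
  have q1 : cΓ ^ 2 ≤ g0 ^ 2 := pow_le_pow_left₀ hcΓ.le h0 2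
  have q2 : cΓ ^ 4 ≤ g0 ^ 2 * gs * g2 := by
    calc cΓ ^ 4 = cΓ ^ 2 * cΓ * cΓ := by ring
      _ ≤ g0 ^ 2 * gs * g2 := by
          refine mul_le_mul (mul_le_mul q1 hs hcΓ.le (by positivity)) h2 hcΓ.le (by positivity)
  have b1 : |2 * (e0 - es) / g0 ^ 2| ≤ 2 * Cc * w / cΓ ^ 2 := by
    rw [abs_div, abs_of_pos (by positivity : 0 < g0 ^ 2), abs_mul, abs_of_pos (by norm_num : (0:ℝ) < 2)]
    refine div_le_div₀ (by positivity) (by linarith) (by positivity) q1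
  have b2 : |2 * es * ((gs - g0) * g2 + g0 * (g2 - g0)) / (g0 ^ 2 * gs * g2)| ≤ 12 * Cc ^ 3 * w / cΓ ^ 4 := by
    rw [abs_div, abs_of_pos (by positivity : 0 < g0 ^ 2 * gs * g2)]
    refine div_le_div₀ (by positivity) ?_ (by positivity) q2
    rw [abs_mul, abs_mul, abs_of_pos (by norm_num : (0:ℝ) < 2)]
    have c1 : |(gs - g0) * g2 + g0 * (g2 - g0)| ≤ 3 * Cc * w * Cc + Cc * (3 * Cc * w) := by
      refine (abs_add_le _ _).trans (add_le_add ?_ ?_)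
      · rw [abs_mul, abs_of_pos p2]
        exact mul_le_mul hgs h2' p2.le (by positivity)
      · rw [abs_mul, abs_of_pos p0]
        exact mul_le_mul h0' hg2 (abs_nonneg _) hCc.le
    calc 2 * |es| * |(gs - g0) * g2 + g0 * (g2 - g0)| ≤ 2 * Cc * (3 * Cc * w * Cc + Cc * (3 * Cc * w)) :=
          mul_le_mul (by linarith) c1 (abs_nonneg _) (by positivity)
      _ = 12 * Cc ^ 3 * w := by ring
  refine (abs_add_le _ _).trans ?_
  calc _ ≤ 2 * Cc * w / cΓ ^ 2 + 12 * Cc ^ 3 * w / cΓ ^ 4 := add_le_add b1 b2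
    _ = _ := by ring


set_option maxHeartbeats 1600000 in
/-- **N12.3 = (C14), integrated.**   `A₀ = 2 E V_zz³ / (Γ_*')²` at the reference time `t0`.
`η1` bounds `|Γ_s' - Γ_*'|`, `|e3ˢ - e3|`; `η2` bounds `|f2ˢ - f2|`; `amax` bounds both masses; `dmax` bounds `|αˢ - α|` on the time window.
Proof: `ψ = Δ/Γ_*'`, `ψ(t₂) - ψ(t₁) = (Δ(t₂) - Δ(t₁))/Γ_*'(t₂) + Δ(t₁)(1/Γ_*'(t₂) - 1/Γ_*'(t₁))`;  `|Γ_*'(t₂) - Γ_*'(t₁)| ≤ Cc (tb + 2 amax)(t₂ - t₁)`;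
N12.3b, N12.3a;  freeze the coefficient `2 e3(k r)/(Γ_*'(k r) Γ_*'(t₂))` at `t0` (`e3_lip`, the Lipschitz bound of `Γ_*'`);  `t₂ - t₁ ≤ (r₂ - r₁)/cΓ`. -/
theorem bud_n12_curv (Cc cΓ : ℝ) (hCc : 0 < Cc) (hcΓ : 0 < cΓ) :
    ∃ C : ℝ, 0 < C ∧ ∀ (cs c : BudCv) (k : ℝ → ℝ) (Q0 ta tb ra rb t0 η1 η2 amax dmax : ℝ),
      BudC14 cs c k Q0 Cc cΓ ta tb ra rb → t0 ∈ Icc ta tb → tb ≤ 1 → amax ≤ 1 →
      (∀ t ∈ Icc ta tb, |cs.G1 t - c.G1 t| ≤ η1) → (∀ t ∈ Icc ta tb, |cs.e3 t - c.e3 t| ≤ η1) →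
      (∀ t ∈ Icc ta tb, |cs.f2 t - c.f2 t| ≤ η2) →
      (∀ t ∈ Icc ta tb, cs.al t ≤ amax) → (∀ t ∈ Icc ta tb, c.al t ≤ amax) →
      (∀ t ∈ Icc ta tb, |cs.al t - c.al t| ≤ dmax) →
      ∀ r1 ∈ Ioo ra rb, ∀ r2 ∈ Ioo ra rb, r1 ≤ r2 →
        |budPhi1 cs c k r2 - budPhi1 cs c k r1
            + 2 * c.e3 t0 / c.G1 t0 ^ 2 * ∫ r in r1..r2, (cs.al (k r) - c.al (k r))|
          ≤ C * (η1 * (tb + amax) + η2 + (tb - ta) * dmax) * (r2 - r1) := by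
  set K3 : ℝ := 2 * Cc / cΓ ^ 2 + 12 * Cc ^ 3 / cΓ ^ 4 with hK3
  have hK3pos : 0 < K3 := by positivity
  refine ⟨2 / cΓ ^ 2 + 2 * Cc / cΓ ^ 3 + K3, by positivity, ?_⟩
  intro cs c k Q0 ta tb ra rb t0 η1 η2 amax dmax H ht0 htb1 ham1 hG1 he3 hf2 hams ham hd r1 hr1 r2 hr2 h12
  have hta : 0 ≤ ta := H.ta0.le
  have htb : tb ≤ Q0 := H.tbQ.le
  have hQ : 0 ≤ Q0 := hta.trans (H.tab.trans htb)
  have hW : Icc ta tb ⊆ Icc 0 Q0 := Icc_subset_Icc hta htb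
  have hη1 : 0 ≤ η1 := (abs_nonneg _).trans (hG1 t0 ht0)
  have hη2 : 0 ≤ η2 := (abs_nonneg _).trans (hf2 t0 ht0)
  have hdm : 0 ≤ dmax := (abs_nonneg _).trans (hd t0 ht0)
  have ham0 : 0 ≤ amax := (H.cs_ok.al_mem t0 (hW ht0)).1.trans (hams t0 ht0)
  have hw : 0 ≤ tb - ta := sub_nonneg.2 H.tab
  have htb0 : 0 ≤ tb := hta.trans H.tab
  have hsub : Icc r1 r2 ⊆ Ioo ra rb := fun x hx => ⟨hr1.1.trans_le hx.1, hx.2.trans_lt hr2.2⟩
  have hkm : ∀ r ∈ Icc r1 r2, k r ∈ Icc ta tb := fun r hr => Ioo_subset_Icc_self (H.k_mem r (hsub hr))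
  set t1 := k r1 with ht1
  set t2 := k r2 with ht2
  have m1 : t1 ∈ Icc ta tb := Ioo_subset_Icc_self (H.k_mem r1 hr1)
  have m2 : t2 ∈ Icc ta tb := Ioo_subset_Icc_self (H.k_mem r2 hr2)
  obtain ⟨hk0, hk1⟩ := bud_n12_k_lip H hr1 hr2 h12
  have ht12 : t1 ≤ t2 := sub_nonneg.1 hk0
  have hδr : 0 ≤ r2 - r1 := sub_nonneg.2 h12
  -- notation
  set g1 := c.G1 t1 with hg1
  set g2 := c.G1 t2 with hg2
  have g1c : cΓ ≤ g1 := H.G1_ge t1 m1
  have g2c : cΓ ≤ g2 := H.G1_ge t2 m2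
  have g1p : 0 < g1 := hcΓ.trans_le g1c
  have g2p : 0 < g2 := hcΓ.trans_le g2c
  set Y : ℝ := ∫ t in t1..t2, 2 * (cs.al t - c.al t) * c.e3 t with hY
  set P : ℝ := ∫ r in r1..r2, (cs.al (k r) - c.al (k r)) with hP
  set A0 : ℝ := 2 * c.e3 t0 / c.G1 t0 ^ 2 with hA0
  set X1 : ℝ := (cs.G1 t2 - c.G1 t2) - (cs.G1 t1 - c.G1 t1) + Y with hX1
  have eT : budPhi1 cs c k r2 - budPhi1 cs c k r1 + A0 * P
      = X1 / g2 + (cs.G1 t1 - g1) * (1 / g2 - 1 / g1) + (A0 * P - Y / g2) := by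
    simp only [budPhi1, hX1, ← ht1, ← ht2, ← hg1, ← hg2]
    field_simp
    ring
  -- term 1
  have B1 : |X1 / g2| ≤ (η2 + 2 * amax * η1) * ((r2 - r1) / cΓ) / cΓ := by
    have a1 := bud_n12_second H.cs_ok H.c_ok hta htb he3 hf2 hams m1 m2 ht12
    rw [abs_div, abs_of_pos g2p]
    refine div_le_div₀ (by positivity) (a1.trans ?_) hcΓ g2c
    exact mul_le_mul_of_nonneg_left hk1 (by positivity)
  -- term 2
  have B2 : |(cs.G1 t1 - g1) * (1 / g2 - 1 / g1)| ≤ η1 * (Cc * (tb + 2 * amax) * ((r2 - r1) / cΓ) / cΓ ^ 2) := by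
    rw [abs_mul]
    refine mul_le_mul (hG1 t1 m1) ?_ (abs_nonneg _) hη1
    have e : 1 / g2 - 1 / g1 = (g1 - g2) / (g2 * g1) := by field_simp
    rw [e, abs_div, abs_of_pos (mul_pos g2p g1p)]
    refine div_le_div₀ (by positivity) ?_ (by positivity) ?_
    · have := bud_n12_curv_lip H.c_ok hta htb ham m2 m1
      rw [abs_sub_comm t1 t2, abs_of_nonneg hk0] at this
      exact this.trans (mul_le_mul_of_nonneg_left hk1 (by positivity))
    · rw [sq]; exact mul_le_mul g2c g1c hcΓ.le g2p.le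
  -- term 3
  have hkmono : MonotoneOn k (Icc r1 r2) := fun x hx y hy hxy =>
    sub_nonneg.1 (bud_n12_k_lip H (hsub hx) (hsub hy) hxy).1
  have hkc : ContinuousOn k (Icc r1 r2) := fun x hx => (bud_n12_k_cont H (hsub hx)).continuousWithinAt
  have hkW : MapsTo k (Icc r1 r2) (Icc 0 Q0) := fun x hx => hW (hkm x hx)
  have iD : IntervalIntegrable (fun r => cs.al (k r) - c.al (k r)) volume r1 r2 := by
    have a1 : MonotoneOn (fun r => cs.al (k r)) (uIcc r1 r2) := by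
      rw [uIcc_of_le h12]; exact H.cs_ok.al_mono.comp hkmono hkW
    have a2 : MonotoneOn (fun r => c.al (k r)) (uIcc r1 r2) := by
      rw [uIcc_of_le h12]; exact H.c_ok.al_mono.comp hkmono hkW
    exact a1.intervalIntegrable.sub a2.intervalIntegrable
  have ce : ContinuousOn (fun r => c.e3 (k r)) (uIcc r1 r2) := by
    rw [uIcc_of_le h12]; exact H.c_ok.e3_cont.comp hkc hkW
  have cg : ContinuousOn (fun r => c.G1 (k r)) (uIcc r1 r2) := by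
    rw [uIcc_of_le h12]; exact (bud_n12_curv_cont H.c_ok hQ).comp hkc hkW
  have cq : ContinuousOn (fun r => 2 * c.e3 (k r) / c.G1 (k r)) (uIcc r1 r2) := by
    refine (continuousOn_const.mul ce).div cg fun r hr => ?_
    rw [uIcc_of_le h12] at hr
    exact (hcΓ.trans_le (H.G1_ge _ (hkm r hr))).ne'
  have iQ : IntervalIntegrable (fun r => (cs.al (k r) - c.al (k r)) * (2 * c.e3 (k r) / c.G1 (k r))) volume r1 r2 :=
    iD.mul_continuousOn cq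
  have eY : Y = ∫ r in r1..r2, (cs.al (k r) - c.al (k r)) * (2 * c.e3 (k r) / c.G1 (k r)) := by
    rw [hY, bud_n12_cov H hr1 hr2 h12 (fun t => 2 * (cs.al t - c.al t) * c.e3 t)]
    refine intervalIntegral.integral_congr fun r _ => ?_
    ring
  have eZ : A0 * P - Y / g2 = ∫ r in r1..r2, (cs.al (k r) - c.al (k r)) * (A0 - 2 * c.e3 (k r) / (c.G1 (k r) * g2)) := by
    rw [eY, hP, ← intervalIntegral.integral_const_mul, ← intervalIntegral.integral_div,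
      ← intervalIntegral.integral_sub (iD.const_mul A0) (iQ.div_const g2)]
    refine intervalIntegral.integral_congr fun r hr => ?_
    rw [uIcc_of_le h12] at hr
    have : c.G1 (k r) ≠ 0 := (hcΓ.trans_le (H.G1_ge _ (hkm r hr))).ne'
    field_simp
  have B3 : |A0 * P - Y / g2| ≤ dmax * (K3 * (tb - ta)) * (r2 - r1) := by
    rw [eZ, ← Real.norm_eq_abs]
    have hb := intervalIntegral.norm_integral_le_of_norm_le_const (a := r1) (b := r2) (C := dmax * (K3 * (tb - ta)))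
      (f := fun r => (cs.al (k r) - c.al (k r)) * (A0 - 2 * c.e3 (k r) / (c.G1 (k r) * g2))) (fun r hr => ?_)
    · rwa [abs_of_nonneg hδr] at hb
    · rw [uIoc_of_le h12] at hr
      have hrI : r ∈ Icc r1 r2 := ⟨hr.1.le, hr.2⟩
      have ms := hkm r hrI
      rw [Real.norm_eq_abs, abs_mul]
      refine mul_le_mul (hd _ ms) ?_ (abs_nonneg _) hdm
      have hdist : ∀ x ∈ Icc ta tb, ∀ y ∈ Icc ta tb, |y - x| ≤ tb - ta := by
        intro x hx y hy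
        rw [abs_le]; constructor <;> linarith [hx.1, hx.2, hy.1, hy.2]
      have hlip : ∀ x ∈ Icc ta tb, ∀ y ∈ Icc ta tb, |c.G1 y - c.G1 x| ≤ 3 * Cc * (tb - ta) := by
        intro x hx y hy
        refine (bud_n12_curv_lip H.c_ok hta htb ham hx hy).trans ?_
        refine mul_le_mul ?_ (hdist x hx y hy) (abs_nonneg _) (by positivity)
        nlinarith
      refine bud_n12_curv_coef hcΓ hw (H.G1_ge t0 ht0) (H.G1_ge _ ms) g2c (H.c_ok.G1_le t0 (hW ht0))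
        (H.c_ok.G1_le t2 (hW m2)) ?_ (H.c_ok.e3_le _ (hW ms)) (hlip t0 ht0 _ ms) (hlip t0 ht0 t2 m2)
      refine (H.c_ok.e3_lip t0 (hW ht0) _ (hW ms)).trans (mul_le_mul_of_nonneg_left ?_ hCc.le)
      exact hdist _ ms t0 ht0
  rw [eT]
  refine (abs_add_three _ _ _).trans ?_
  refine (add_le_add (add_le_add B1 B2) B3).trans ?_
  -- arithmetic
  have z1 : (η2 + 2 * amax * η1) * ((r2 - r1) / cΓ) / cΓ = (1 / cΓ ^ 2) * (η2 + 2 * amax * η1) * (r2 - r1) := by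
    field_simp
  have z2 : η1 * (Cc * (tb + 2 * amax) * ((r2 - r1) / cΓ) / cΓ ^ 2) = (Cc / cΓ ^ 3) * (η1 * (tb + 2 * amax)) * (r2 - r1) := by
    field_simp
  rw [z1, z2, ← add_mul, ← add_mul]
  refine mul_le_mul_of_nonneg_right ?_ hδr
  set i2 : ℝ := 1 / cΓ ^ 2 with hi2
  set i3 : ℝ := Cc / cΓ ^ 3 with hi3
  have hi2p : 0 < i2 := by positivity
  have hi3p : 0 < i3 := by positivity
  have ec : 2 / cΓ ^ 2 + 2 * Cc / cΓ ^ 3 + K3 = 2 * i2 + 2 * i3 + K3 := by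
    rw [hi2, hi3]; ring
  rw [ec]
  have n1 : 0 ≤ η1 * tb := mul_nonneg hη1 htb0
  have n2 : 0 ≤ η1 * amax := mul_nonneg hη1 ham0
  have n3 : 0 ≤ (tb - ta) * dmax := mul_nonneg hw hdm
  have n4 : 0 ≤ i2 * (η1 * tb) := mul_nonneg hi2p.le n1
  have n5 : 0 ≤ i2 * η2 := mul_nonneg hi2p.le hη2
  have n6 : 0 ≤ i2 * ((tb - ta) * dmax) := mul_nonneg hi2p.le n3
  have n7 : 0 ≤ i3 * (η1 * tb) := mul_nonneg hi3p.le n1
  have n8 : 0 ≤ i3 * η2 := mul_nonneg hi3p.le hη2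
  have n9 : 0 ≤ i3 * ((tb - ta) * dmax) := mul_nonneg hi3p.le n3
  have n10 : 0 ≤ K3 * (η1 * tb) := mul_nonneg hK3pos.le n1
  have n11 : 0 ≤ K3 * (η1 * amax) := mul_nonneg hK3pos.le n2
  have n12 : 0 ≤ K3 * η2 := mul_nonneg hK3pos.le hη2
  nlinarith


/-- **N12.4 = (C14) with the transport integral.**   Window of times in `[c1 u, C1 u]`, masses `≤ C1 u`. -/
theorem bud_n12_curv_tr (Cc cΓ c1 C1 : ℝ) (hCc : 0 < Cc) (hcΓ : 0 < cΓ) (hc1 : 0 < c1) (hc11 : c1 ≤ 1) (hC1 : 1 ≤ C1) :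
    ∃ C : ℝ, 0 < C ∧ ∀ (cs c : BudCv) (k : ℝ → ℝ) (Q0 ta tb ra rb t0 u dmax : ℝ),
      BudC14 cs c k Q0 Cc cΓ ta tb ra rb → BudCmp cs c Q0 Cc → t0 ∈ Icc ta tb → 0 < u → C1 * u ≤ 1 →
      c1 * u ≤ ta → tb ≤ C1 * u →
      (∀ t ∈ Icc ta tb, cs.al t ≤ C1 * u) → (∀ t ∈ Icc ta tb, c.al t ≤ C1 * u) →
      (∀ t ∈ Icc ta tb, |cs.al t - c.al t| ≤ dmax) →
      ∀ r1 ∈ Ioo ra rb, ∀ r2 ∈ Ioo ra rb, r1 ≤ r2 →
        |budPhi1 cs c k r2 - budPhi1 cs c k r1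
            + 2 * c.e3 t0 / c.G1 t0 ^ 2 * ∫ r in r1..r2, (cs.al (k r) - c.al (k r))|
          ≤ C * ((∫ s in (0:ℝ)..Q0, min u s * |cs.al s - c.al s|) + (tb - ta) * dmax) * (r2 - r1) := by
  obtain ⟨C0, hC0, hcurv⟩ := bud_n12_curv Cc cΓ hCc hcΓ
  have hC10 : 0 < C1 := zero_lt_one.trans_le hC1
  set M : ℝ := 2 * C1 * Cc * (1 / c1 + 3 / 2) + Cc * (C1 / c1 + 3 * C1 / 2) with hM
  have hMpos : 0 < M := by positivity
  refine ⟨C0 * (M + 1), by positivity, ?_⟩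
  intro cs c k Q0 ta tb ra rb t0 u dmax H hcmp ht0 hu hCu hta' htb' hams ham hd r1 hr1 r2 hr2 h12
  have hta : 0 ≤ ta := H.ta0.le
  have htb : tb ≤ Q0 := H.tbQ.le
  have hQ : 0 ≤ Q0 := hta.trans (H.tab.trans htb)
  have hW : Icc ta tb ⊆ Icc 0 Q0 := Icc_subset_Icc hta htb
  have hw : 0 ≤ tb - ta := sub_nonneg.2 H.tab
  have hdm : 0 ≤ dmax := (abs_nonneg _).trans (hd t0 ht0)
  have hδr : 0 ≤ r2 - r1 := sub_nonneg.2 h12
  set da : ℝ → ℝ := fun s => cs.al s - c.al s with hda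
  have ida : IntervalIntegrable da volume 0 Q0 :=
    (bud_n12_int H.cs_ok ⟨le_rfl, hQ⟩ ⟨hQ, le_rfl⟩).1.sub (bud_n12_int H.c_ok ⟨le_rfl, hQ⟩ ⟨hQ, le_rfl⟩).1
  set Tr : ℝ := ∫ s in (0:ℝ)..Q0, min u s * |da s| with hTr
  have hTr0 : 0 ≤ Tr := intervalIntegral.integral_nonneg hQ fun s hs =>
    mul_nonneg (le_min hu.le hs.1) (abs_nonneg _)
  have hIJ : ∀ t ∈ Icc ta tb, budI da Q0 t ≤ Tr / (c1 * u) ∧ t * budI da Q0 t ≤ C1 / c1 * Tr ∧
      budJ da Q0 t ≤ (C1 + C1 ^ 2 * u / 2) * Tr := fun t ht =>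
    bud_n12_IJ ida hu hc1 hc11 hC1 ⟨hta'.trans ht.1, ht.2.trans htb'⟩ (ht.2.trans htb)
  set η1 : ℝ := Cc * (Tr / (c1 * u) + (C1 + C1 ^ 2 * u / 2) * Tr) with hη1
  set η2 : ℝ := Cc * (C1 / c1 * Tr + (C1 + C1 ^ 2 * u / 2) * Tr) with hη2
  have b1 : ∀ t ∈ Icc ta tb, |cs.G1 t - c.G1 t| ≤ η1 := fun t ht =>
    (hcmp.cG1 t (hW ht)).trans (mul_le_mul_of_nonneg_left (add_le_add (hIJ t ht).1 (hIJ t ht).2.2) hCc.le)
  have b2 : ∀ t ∈ Icc ta tb, |cs.e3 t - c.e3 t| ≤ η1 := fun t ht =>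
    (hcmp.ce3 t (hW ht)).trans (mul_le_mul_of_nonneg_left (add_le_add (hIJ t ht).1 (hIJ t ht).2.2) hCc.le)
  have b3 : ∀ t ∈ Icc ta tb, |cs.f2 t - c.f2 t| ≤ η2 := fun t ht =>
    (hcmp.cf2 t (hW ht)).trans (mul_le_mul_of_nonneg_left (add_le_add (hIJ t ht).2.1 (hIJ t ht).2.2) hCc.le)
  have key := hcurv cs c k Q0 ta tb ra rb t0 η1 η2 (C1 * u) dmax H ht0 (htb'.trans hCu) hCu b1 b2 b3 hams ham hd
    r1 hr1 r2 hr2 h12
  refine key.trans (mul_le_mul_of_nonneg_right ?_ hδr)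
  rw [mul_assoc C0]
  refine mul_le_mul_of_nonneg_left ?_ hC0.le
  -- `η1 (tb + C1 u) + η2 ≤ M Tr`
  have hη1n : 0 ≤ η1 := (abs_nonneg _).trans (b1 t0 ht0)
  have e1 : η1 * (tb + C1 * u) ≤ 2 * C1 * Cc * (1 / c1 + 3 / 2) * Tr := by
    calc η1 * (tb + C1 * u) ≤ η1 * (2 * (C1 * u)) := mul_le_mul_of_nonneg_left (by linarith) hη1n
      _ = 2 * C1 * Cc * (1 / c1 + (C1 * u + (C1 * u) ^ 2 / 2)) * Tr := by
          rw [hη1]; field_simp
      _ ≤ 2 * C1 * Cc * (1 / c1 + 3 / 2) * Tr := by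
          refine mul_le_mul_of_nonneg_right (mul_le_mul_of_nonneg_left ?_ (by positivity)) hTr0
          have : 0 ≤ C1 * u := by positivity
          nlinarith
  have e2 : η2 ≤ Cc * (C1 / c1 + 3 * C1 / 2) * Tr := by
    calc η2 = Cc * (C1 / c1 + (C1 + C1 * (C1 * u) / 2)) * Tr := by rw [hη2]; ring
      _ ≤ Cc * (C1 / c1 + 3 * C1 / 2) * Tr := by
          refine mul_le_mul_of_nonneg_right (mul_le_mul_of_nonneg_left ?_ hCc.le) hTr0
          nlinarith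
  have n3 : 0 ≤ (tb - ta) * dmax := mul_nonneg hw hdm
  have e3 : η1 * (tb + C1 * u) + η2 ≤ M * Tr := by
    rw [hM, add_mul]; exact add_le_add e1 e2
  nlinarith [mul_nonneg hMpos.le n3]

/-- **N12.5** (l.2012) `Γ_s'' = O(d₀ + Γ_*'' + o(d₀))`, integrated:  increments of `Γ_s'` against those of `Γ_*'`. -/
theorem bud_n12_G2 {cs c : BudCv} {Q0 Cc ta tb η1 η2 amax dmax : ℝ} (hcs : cs.Ok Q0 Cc) (hc : c.Ok Q0 Cc)
    (hta : 0 ≤ ta) (htb : tb ≤ Q0)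
    (he3 : ∀ t ∈ Icc ta tb, |cs.e3 t - c.e3 t| ≤ η1) (hf2 : ∀ t ∈ Icc ta tb, |cs.f2 t - c.f2 t| ≤ η2)
    (ham : ∀ t ∈ Icc ta tb, cs.al t ≤ amax) (hd : ∀ t ∈ Icc ta tb, |cs.al t - c.al t| ≤ dmax)
    {t1 t2 : ℝ} (h1 : t1 ∈ Icc ta tb) (h2 : t2 ∈ Icc ta tb) (h12 : t1 ≤ t2) :
    |(cs.G1 t2 - cs.G1 t1) - (c.G1 t2 - c.G1 t1)| ≤ (η2 + 2 * amax * η1 + 2 * Cc * dmax) * (t2 - t1) := by
  have hW : Icc ta tb ⊆ Icc 0 Q0 := Icc_subset_Icc hta htb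
  have a1 := bud_n12_second hcs hc hta htb he3 hf2 ham h1 h2 h12
  have a2 : |∫ t in t1..t2, 2 * (cs.al t - c.al t) * c.e3 t| ≤ (2 * Cc * dmax) * (t2 - t1) := by
    rw [← Real.norm_eq_abs]
    have hb := intervalIntegral.norm_integral_le_of_norm_le_const (a := t1) (b := t2) (C := 2 * Cc * dmax)
      (f := fun t => 2 * (cs.al t - c.al t) * c.e3 t) (fun t ht => ?_)
    · rwa [abs_of_nonneg (sub_nonneg.2 h12)] at hb
    · rw [uIoc_of_le h12] at ht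
      have htW : t ∈ Icc ta tb := ⟨h1.1.trans ht.1.le, ht.2.trans h2.2⟩
      have b1 := hd t htW
      have b2 := hc.e3_le t (hW htW)
      rw [Real.norm_eq_abs, abs_mul, abs_mul, abs_of_pos (by norm_num : (0:ℝ) < 2)]
      calc 2 * |cs.al t - c.al t| * |c.e3 t| ≤ 2 * dmax * Cc :=
            mul_le_mul (by linarith) b2 (abs_nonneg _) (by linarith [abs_nonneg (cs.al t - c.al t)])
        _ = 2 * Cc * dmax := by ring
  have e : (cs.G1 t2 - cs.G1 t1) - (c.G1 t2 - c.G1 t1)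
      = ((cs.G1 t2 - c.G1 t2) - (cs.G1 t1 - c.G1 t1) + ∫ t in t1..t2, 2 * (cs.al t - c.al t) * c.e3 t)
        - ∫ t in t1..t2, 2 * (cs.al t - c.al t) * c.e3 t := by ring
  rw [e]
  refine (abs_sub _ _).trans ?_
  linarith

/-! ## 3. identification of the masses at `t = k_*(r)` -/

/-- `α^s_{k_*(r)} = α~(r)`:  `{K_s ≤ k r} = {Γ_*(K_s) ≤ r}` -/
theorem bud_n12_ident_s {Γ Ks : ℝ → ℝ} {Q0 t r : ℝ} (hΓ : StrictMonoOn Γ (Icc 0 Q0))
    (hKs : ∀ v ∈ Ioo (0:ℝ) 1, Ks v ∈ Icc 0 Q0) (ht : t ∈ Icc 0 Q0) (hr : Γ t = r) :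
    bdDist Ks t = bdDist (fun v => Γ (Ks v)) r := by
  unfold bdDist
  congr 2
  ext v
  simp only [mem_ofPred_eq]
  refine and_congr_right fun hv => ?_
  rw [← hr, hΓ.le_iff_le (hKs v hv) ht]

/-- `α^*_{k_*(r)} = β₀(r)`:  `{v ∈ (0,1) : q v ≤ r} = (0, β]` if `q β = r`, `q` strictly increasing -/
theorem bud_n12_ident_st {q : ℝ → ℝ} {β r : ℝ} (hq : StrictMonoOn q (Ioo 0 1)) (hβ : β ∈ Ioo (0:ℝ) 1) (hr : q β = r) :
    bdDist q r = β := by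
  unfold bdDist
  have : {v : ℝ | v ∈ Ioo (0 : ℝ) 1 ∧ q v ≤ r} = Ioc 0 β := by
    ext v
    simp only [mem_ofPred_eq, mem_Ioc]
    constructor
    · rintro ⟨hv, hle⟩
      rw [← hr, hq.le_iff_le hv hβ] at hle
      exact ⟨hv.1, hle⟩
    · rintro ⟨h0, hle⟩
      have hv : v ∈ Ioo (0:ℝ) 1 := ⟨h0, hle.trans_lt hβ.2⟩
      refine ⟨hv, ?_⟩
      rw [← hr, hq.le_iff_le hv hβ]
      exact hle
  rw [this, Real.volume_Ioc, sub_zero, ENNReal.toReal_ofReal hβ.1.le]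

theorem bud_n12_eqns_cite : True := by
  have := @budI.eq_1; have := @budJ.eq_1; have := @BudClk.eq_1; have := @BudScReq.eq_1
  have := @budPhi.eq_1; have := @budPhi1.eq_1
  trivial

end Claimed.Agent.R286
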