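import Claimed.Agent.R286.Fd.CTr
import Claimed.Agent.R286.Sc.LinkTr
import Claimed.Agent.R286.Sc.CurvStep
import Claimed.Agent.R286.Sc.LinkClk
import Claimed.Agent.R286.Sc.TwoX

/-!
# Row 286, LL sec. 7, node N17 = (C19): THE SCALAR BLOCK, step level      (written by helper15, 0 sorry; HANDED OVER to helper184 by 180's ruling of 04:45Z: 184 appends `b19s_cpin` + Drift here; prefix `b19s`)

Blueprint: `origin/helper180:notes/R286/N17_180.md`, sec. 3 (SIGN), sec. 4 (c) (ZSUM, `cpin`).   TEX[LL:bud:closure] l.1959-2007 (the coefficient `Γ_s''/2`).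
The scalar site law `sc` of the blueprint = the ONE-SITE hierarchy `trNu (skBase 1 a) (skLvs 1 P)` of a step path `P` with `db = 0` (`SlkOk P`), field clock `K` (`dh_j = K_{j+1} - K_j`),
so that BOX-C applies through `Sc/Link*.lean` (`slkPi P`, `slkT P j = skCumH P j = K_j`).   `b19Sc n a P q τ A = b19sNu a (b19KP n a P) q τ A`.

ALL PROVED:
* `b19Star N i` (= `b19St`), `b19sNu a P q τ A` = `sc_τ[∏_{x ∈ A} s_x]`, `b19sCpin a P i` = `(1/8) D²[1[τ23 = i] 1[τ45 = i] sc[012345]]` (diagonal included)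
* `b19s_zsum`, `b19s_zsum4`      ZSUM: the pairs of new labels which split at a given depth have total signed weight `0`
* `b19s_collapse`        REFINEMENT INVARIANCE of the signed sums `trSumK`: a stage of ANY mass `μ` may be inserted at any place if the summand does not see it (`b19Col`, `b19Ins`)
* `b19s_gc`, `b19s_gcMs`, `b19s_trV`, `b19s_adm`      one-site affine families `b19sHs L` (`L` = list of (mass, dh at θ=0, slope)): `gcNu = trNu` on `skLvs 1 (b19sStp L θ)`, insertion `trV = b19sDv L (min r n) s s'`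
* **`b19s_sign`**        SIGN: `|sc[∏_A s]| ≤ 2 A0² q (q+1) K_t` if a class of `{τ > t}` contains an odd number of labels of `A`   (=> `b19_sign` of `Bud/C19Tree` at `r = t + 1`, with `K_{r-1} ≤ K_r`)

PLAN for `b19s_cpin` : `|2 cpin_i - (scN3 - 2 m_i scM3)(scLC a)(slkPi P)(slkT P i)| ≤ C gap_i`  (`N₃ - 2 α M₃ = Γ''`, `scc_M2_sub`):
 1. family `L := (P.take i).map (m,dh,0) ++ (m_i,0,s) :: (m_i,s,-s) :: (P.drop (i+1)).map (m,dh,0)`, `s = dh_i`; `b19sDv L r = s 1[r = i+1]`.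
 2. `φ(θ) = gcNu .. θ 2 (b19Star (N+1) (i+1)) 0 (s0 s1) = scGam (scLC a) (slkPi P) (slkT P i + θ s)`: `b19s_gc`, `slk_nu_ov`, split invariance (`sc_app_Pt_cross`, `sc_app_D_right`, `sc_app_Vt_right`, `sc_V_split`, `sc_step_step`).
 3. second derivative at `θ = 0`: `scm_Gam`, `scm_M2`/`scc_M2_sub` on one side, `tr_cov_deriv_iter` (`j = 2`) on the other.
 4. `b19s_collapse` (`t = i`, `μ = m_i`) + `tr_nu_insert_empty` / `tr_nu_empty_side`; the difference of the indicators costs `C gap_i` (`tr_split_density`).   With 180's trick (an EMPTY level of mass `m_i` before the cut) step 4 is not needed.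
-/

set_option autoImplicit false

namespace Claimed.Agent.R286

open MeasureTheory Set Filter Topology

/-! ## 0. definitions -/

/-- the star: all the labels split at the depth `i` -/
def b19Star (N i : ℕ) : ℕ → ℕ → ℕ := fun x y => if x = y then N + 1 else i

/-- the scalar tree moment `sc_τ[∏_{x ∈ A} s_x]` of the one-site path `P` -/
noncomputable def b19sNu (a : ℝ) (P : SkStp) (q : ℕ) (τ : ℕ → ℕ → ℕ) (A : Finset ℕ) : ℝ :=
  trNu (skBase 1 a) (skLvs 1 P) q τ 0 fun σ => ∏ x ∈ A, slkSp (σ x)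

/-- `cpin_i`: the total signed scalar coefficient of the two pairs pinned at the LEVEL `i` -/
noncomputable def b19sCpin (a : ℝ) (P : SkStp) (i : ℕ) : ℝ :=
  1 / 8 * trSumK (skMs a P) P.length 4 2 (b19Star P.length i) fun τ =>
    if τ 2 3 = i ∧ τ 4 5 = i then b19sNu a P 6 τ (Finset.range 6) else 0

/-- collapse of the stage `t`: the depths `t` and `t + 1` are identified -/
def b19Col (t r : ℕ) : ℕ := if r ≤ t then r else r - 1

/-- masses with one more stage, of mass `μ`, inserted at the place `t` -/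
def b19Ins (ms : ℕ → ℝ) (t : ℕ) (μ : ℝ) (j : ℕ) : ℝ := if j < t then ms j else if j = t then μ else ms (j - 1)

theorem b19s_eqns_cite : True := by
  have := @b19Star.eq_1
  have := @b19sNu.eq_1
  have := @b19sCpin.eq_1
  have := @b19Col.eq_1
  have := @b19Ins.eq_1
  trivial

theorem b19_star_isTr {N i : ℕ} (hi : i ≤ N + 1) (q : ℕ) : IsTr N q (b19Star N i) := by
  refine ⟨?_, ?_, ?_, ?_⟩
  · intro x y _ _
    unfold b19Star
    split_ifs <;> omega
  · intro x _
    simp [b19Star]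
  · intro x y _ _
    unfold b19Star
    by_cases h : x = y
    · rw [if_pos h, if_pos h.symm]
    · rw [if_neg h, if_neg (Ne.symm h)]
  · intro x y z _ _ _
    unfold b19Star
    by_cases h1 : x = y <;> by_cases h2 : y = z <;> by_cases h3 : x = z <;> simp only [h1, h2, h3, if_true, if_false] <;>
      omega

/-! ## 1. ZSUM -/

/-- the attachments of one label which split from the leaf `x` exactly at the depth `i` have the total weight `m_{i-1} - m_i` -/
theorem b19s_row_eq {N q : ℕ} {τ : ℕ → ℕ → ℕ} {ms : ℕ → ℝ} (hτ : IsTr N q τ) {x i : ℕ} (hx : x < q) (hi : i ≤ N) :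
    trSum ms N q τ (fun τ' => if τ' x q = i then 1 else 0) = trPm ms i - trPm ms (i + 1) := by
  have hval : ∀ y j, (trAtt N q τ y j) x q = min j (τ x y) := by
    intro y j
    unfold trAtt
    rw [if_neg (by omega), if_pos rfl]
  have key : ∀ j0, j0 ≤ N + 1 → trSum ms N q τ (fun τ' => if j0 ≤ τ' x q then 1 else 0) = trPm ms j0 := by
    intro j0 hj0
    rw [← tr_row_sum (ms := ms) hτ hx hj0]
    unfold trSum
    rw [Finset.sum_filter]
    refine Finset.sum_congr rfl fun y _ => ?_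
    by_cases hy : j0 ≤ τ x y
    · rw [if_pos hy]
      have hsub : Finset.Icc j0 (N + 1) ⊆ Finset.range (N + 2) := by
        intro j hj
        rw [Finset.mem_Icc] at hj
        rw [Finset.mem_range]
        omega
      rw [← Finset.sum_subset hsub]
      · refine Finset.sum_congr rfl fun j hj => ?_
        rw [Finset.mem_Icc] at hj
        beta_reduce
        rw [hval, if_pos (by omega), mul_one]
      · intro j hj2 hj
        rw [Finset.mem_Icc] at hj
        rw [Finset.mem_range] at hj2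
        beta_reduce
        rw [hval, if_neg (by omega), mul_zero]
    · rw [if_neg hy]
      refine Finset.sum_eq_zero fun j _ => ?_
      beta_reduce
      rw [hval, if_neg (by omega), mul_zero]
  rw [← key i (by omega), ← key (i + 1) (by omega)]
  unfold trSum
  rw [← Finset.sum_sub_distrib]
  refine Finset.sum_congr rfl fun y _ => ?_
  rw [← Finset.sum_sub_distrib]
  refine Finset.sum_congr rfl fun j _ => ?_
  rw [← mul_sub]
  congr 1
  beta_reduce
  by_cases h1 : trAtt N q τ y j x q = i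
  · rw [if_pos h1, if_pos (by omega), if_neg (by omega)]; ring
  · by_cases h2 : i ≤ trAtt N q τ y j x q
    · rw [if_neg h1, if_pos h2, if_pos (by omega)]; ring
    · rw [if_neg h1, if_neg h2, if_neg (by omega)]; ring

/-- **ZSUM**: the pairs of new labels which split exactly at the depth `i` have total signed weight `0` -/
theorem b19s_zsum {N q : ℕ} {τ : ℕ → ℕ → ℕ} {ms : ℕ → ℝ} (hτ : IsTr N q τ) {i : ℕ} (hi : i ≤ N) :
    trSumK ms N 2 q τ (fun τ' => if τ' q (q + 1) = i then 1 else 0) = 0 := by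
  show trSum ms N q τ (fun τ₁ => trSum ms N (q + 1) τ₁ fun τ₂ => if τ₂ q (q + 1) = i then (1 : ℝ) else 0) = 0
  refine tr_sum_const' hτ _ (trPm ms i - trPm ms (i + 1)) fun x j hx hj => ?_
  exact b19s_row_eq (tr_att_isTr hτ hx hj) (Nat.lt_succ_self q) hi

theorem b19s_sumK_mul_left (ms : ℕ → ℝ) (N : ℕ) (k : ℕ) (q : ℕ) (τ : ℕ → ℕ → ℕ) (c : ℝ) (Φ : (ℕ → ℕ → ℕ) → ℝ) :
    trSumK ms N k q τ (fun τ' => c * Φ τ') = c * trSumK ms N k q τ Φ :=
  (tcb_sumK_mul_left ms N k q τ c Φ).symm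

/-- ZSUM with a coefficient which does not see the last pair -/
theorem b19s_zsum4 {N q : ℕ} {τ : ℕ → ℕ → ℕ} {ms : ℕ → ℝ} (hτ : IsTr N q τ) {i : ℕ} (hi : i ≤ N) (g : (ℕ → ℕ → ℕ) → ℝ)
    (hg : ∀ τ₁ τ₂ : ℕ → ℕ → ℕ, (∀ y z, y < q + 2 → z < q + 2 → τ₁ y z = τ₂ y z) → g τ₁ = g τ₂) :
    trSumK ms N 4 q τ (fun τ' => if τ' (q + 2) (q + 3) = i then g τ' else 0) = 0 := by
  rw [show (4 : ℕ) = 2 + 2 from rfl, tr_sumK_add]
  have h0 : trSumK ms N 2 q τ (fun _ => (0 : ℝ)) = 0 := by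
    have := b19s_sumK_mul_left ms N 2 q τ 0 fun _ => 0
    simpa using this
  refine Eq.trans ?_ h0
  refine tr_sumK_congr hτ 2 _ _ fun τ₁ hτ₁ _ => ?_
  have h1 : trSumK ms N 2 (q + 2) τ₁ (fun τ' => if τ' (q + 2) (q + 3) = i then g τ' else 0)
      = trSumK ms N 2 (q + 2) τ₁ fun τ' => g τ₁ * (if τ' (q + 2) (q + 2 + 1) = i then 1 else 0) := by
    refine tr_sumK_congr hτ₁ 2 _ _ fun τ' _ hag => ?_
    rw [hg τ' τ₁ hag]
    by_cases h : τ' (q + 2) (q + 3) = i
    · rw [if_pos h, if_pos h, mul_one]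
    · rw [if_neg h, if_neg h, mul_zero]
  rw [h1, b19s_sumK_mul_left, b19s_zsum hτ₁ hi, mul_zero]

/-! ## 2. refinement invariance of the signed sums -/

theorem b19_col_min (t r s : ℕ) : b19Col t (min r s) = min (b19Col t r) (b19Col t s) := by
  unfold b19Col
  split_ifs <;> omega

theorem b19_col_isTr {N q t : ℕ} (ht : t ≤ N) {τ : ℕ → ℕ → ℕ} (hτ : IsTr (N + 1) q τ) :
    IsTr N q fun x y => b19Col t (τ x y) := by
  refine ⟨?_, ?_, ?_, ?_⟩
  · intro x y hx hy
    have := hτ.le x y hx hy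
    show b19Col t (τ x y) ≤ N + 1
    unfold b19Col
    split_ifs <;> omega
  · intro x hx
    show b19Col t (τ x x) = N + 1
    rw [hτ.diag x hx]
    unfold b19Col
    rw [if_neg (by omega)]
    omega
  · intro x y hx hy
    show b19Col t (τ x y) = b19Col t (τ y x)
    rw [hτ.symm x y hx hy]
  · intro x y z hx hy hz
    have := hτ.ultra x y z hx hy hz
    show min (b19Col t (τ x y)) (b19Col t (τ y z)) ≤ b19Col t (τ x z)
    unfold b19Col
    split_ifs <;> omega

theorem b19_col_att {N t : ℕ} (ht : t ≤ N) (q : ℕ) (τ : ℕ → ℕ → ℕ) (x j : ℕ) :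
    (fun y z => b19Col t (trAtt (N + 1) q τ x j y z)) = trAtt N q (fun x y => b19Col t (τ x y)) x (b19Col t j) := by
  funext y z
  unfold trAtt
  split_ifs with h1 h2 h2
  · unfold b19Col
    rw [if_neg (by omega)]
    omega
  · exact b19_col_min t _ _
  · exact b19_col_min t _ _
  · rfl

theorem b19_col_isMin_low {t j : ℕ} (hj : j ≤ t) (τ : ℕ → ℕ → ℕ) (x : ℕ) :
    trIsMin (fun x y => b19Col t (τ x y)) j x ↔ trIsMin τ j x := by
  unfold trIsMin
  refine forall_congr' fun y => forall_congr' fun _ => ?_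
  show b19Col t (τ x y) < j ↔ τ x y < j
  unfold b19Col
  split_ifs <;> omega

theorem b19_col_isMin_high {t j : ℕ} (hj : t + 1 ≤ j) (τ : ℕ → ℕ → ℕ) (x : ℕ) :
    trIsMin (fun x y => b19Col t (τ x y)) j x ↔ trIsMin τ (j + 1) x := by
  unfold trIsMin
  refine forall_congr' fun y => forall_congr' fun _ => ?_
  show b19Col t (τ x y) < j ↔ τ x y < j + 1
  unfold b19Col
  split_ifs <;> omega

theorem b19_sum_insert (f : ℕ → ℝ) {t N : ℕ} (ht : t ≤ N) :
    ∑ j ∈ Finset.range (N + 2), f j = ∑ j ∈ Finset.range (N + 1), (if j < t then f j else f (j + 1)) + f t := by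
  obtain ⟨d, rfl⟩ := Nat.exists_eq_add_of_le ht
  induction d with
  | zero =>
    rw [Nat.add_zero, Finset.sum_range_succ, Finset.sum_range_succ, Finset.sum_range_succ, if_neg (lt_irrefl t)]
    have : ∑ j ∈ Finset.range t, (if j < t then f j else f (j + 1)) = ∑ j ∈ Finset.range t, f j :=
      Finset.sum_congr rfl fun j hj => by rw [if_pos (Finset.mem_range.mp hj)]
    rw [this]
    ring
  | succ d ih =>
    have e1 : ∑ j ∈ Finset.range (t + (d + 1) + 2), f j = ∑ j ∈ Finset.range (t + d + 2), f j + f (t + d + 2) :=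
      Finset.sum_range_succ f (t + d + 2)
    have e2 : ∑ j ∈ Finset.range (t + (d + 1) + 1), (if j < t then f j else f (j + 1))
        = ∑ j ∈ Finset.range (t + d + 1), (if j < t then f j else f (j + 1)) + f (t + d + 2) := by
      have := Finset.sum_range_succ (fun j => if j < t then f j else f (j + 1)) (t + d + 1)
      rw [if_neg (by omega)] at this
      exact this
    rw [e1, e2, ih (by omega)]
    ring

/-- one label: a stage of ANY mass may be inserted if the summand does not distinguish the depths `t` and `t + 1` -/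
theorem b19s_collapse1 {N q : ℕ} {ms : ℕ → ℝ} {t : ℕ} (ht : t ≤ N) (μ : ℝ) {τ : ℕ → ℕ → ℕ} (hτ : IsTr (N + 1) q τ)
    (Φ : (ℕ → ℕ → ℕ) → ℝ)
    (hΦ : ∀ τ₁ τ₂ : ℕ → ℕ → ℕ, (∀ y z, y < q + 1 → z < q + 1 → τ₁ y z = τ₂ y z) → Φ τ₁ = Φ τ₂) :
    trSum (b19Ins ms t μ) (N + 1) q τ (fun τ' => Φ fun x y => b19Col t (τ' x y))
      = trSum ms N q (fun x y => b19Col t (τ x y)) Φ := by
  rw [tr_sum_abel hτ _ (fun τ₁ τ₂ h => hΦ _ _ fun y z hy hz => by rw [h y z hy hz]),
    tr_sum_abel (b19_col_isTr ht hτ) Φ hΦ, b19_sum_insert _ ht]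
  simp only [b19_col_att ht]
  have h0 : b19Col t (t + 1) = b19Col t t := by
    unfold b19Col
    rw [if_neg (by omega), if_pos le_rfl]
    omega
  rw [h0]
  simp only [sub_self, mul_zero, Finset.sum_const_zero, add_zero]
  refine Finset.sum_congr rfl fun j _ => ?_
  by_cases hj : j < t
  · rw [if_pos hj]
    have e1 : b19Col t (j + 1) = j + 1 := by unfold b19Col; rw [if_pos (by omega)]
    have e2 : b19Col t j = j := by unfold b19Col; rw [if_pos (by omega)]
    have e3 : b19Ins ms t μ j = ms j := by unfold b19Ins; rw [if_pos hj]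
    rw [e1, e2, e3]
    refine Finset.sum_congr (Finset.filter_congr fun x _ => ?_) fun _ _ => rfl
    exact (b19_col_isMin_low (by omega) τ x).symm
  · rw [if_neg hj]
    have e1 : b19Col t (j + 1 + 1) = j + 1 := by unfold b19Col; rw [if_neg (by omega)]; omega
    have e2 : b19Col t (j + 1) = j := by unfold b19Col; rw [if_neg (by omega)]; omega
    have e3 : b19Ins ms t μ (j + 1) = ms j := by
      unfold b19Ins
      rw [if_neg (by omega), if_neg (by omega)]
      congr 1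
    rw [e1, e2, e3]
    refine Finset.sum_congr (Finset.filter_congr fun x _ => ?_) fun _ _ => rfl
    exact (b19_col_isMin_high (by omega) τ x).symm

/-- **REFINEMENT INVARIANCE** of the signed sums (`k` labels) -/
theorem b19s_collapse {N : ℕ} {ms : ℕ → ℝ} {t : ℕ} (ht : t ≤ N) (μ : ℝ) (k : ℕ) : ∀ {q : ℕ} {τ : ℕ → ℕ → ℕ}, IsTr (N + 1) q τ →
    ∀ (Φ : (ℕ → ℕ → ℕ) → ℝ), (∀ τ₁ τ₂ : ℕ → ℕ → ℕ, (∀ y z, y < q + k → z < q + k → τ₁ y z = τ₂ y z) → Φ τ₁ = Φ τ₂) →
    trSumK (b19Ins ms t μ) (N + 1) k q τ (fun τ' => Φ fun x y => b19Col t (τ' x y))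
      = trSumK ms N k q (fun x y => b19Col t (τ x y)) Φ := by
  induction k with
  | zero => intro q τ _ Φ _; rfl
  | succ k ih =>
    intro q τ hτ Φ hΦ
    have hΦ' : ∀ τ₁ τ₂ : ℕ → ℕ → ℕ, (∀ y z, y < q + 1 + k → z < q + 1 + k → τ₁ y z = τ₂ y z) → Φ τ₁ = Φ τ₂ := by
      intro τ₁ τ₂ h
      exact hΦ τ₁ τ₂ (by rwa [show q + (k + 1) = q + 1 + k by omega])
    rw [trSumK, trSumK, ← b19s_collapse1 ht μ hτ (fun τ' => trSumK ms N k (q + 1) τ' Φ)
      (fun τ₁ τ₂ h => tr_sumK_tree_congr h k Φ hΦ')]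
    unfold trSum
    refine Finset.sum_congr rfl fun x hx => Finset.sum_congr rfl fun j hj => ?_
    rw [Finset.mem_range] at hx hj
    beta_reduce
    rw [ih (tr_att_isTr hτ hx (show j ≤ N + 1 + 1 by omega)) Φ hΦ']

/-! ## 3. affine families of one-site paths -/

/-- the spin feature of the one-site model -/
def b19sFeat : Unit → SkCfg 1 → Unit → ℝ := fun _ σ _ => slkSp σ

/-- an affine family of one-site paths is coded by the list of (mass, variance at `θ = 0`, derivative of the variance) -/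
def b19sHs (L : List (ℝ × ℝ × ℝ)) : List (ℝ × (Unit → ℝ) × (Unit → ℝ)) :=
  L.map fun p => (p.1, fun _ => p.2.1, fun _ => p.2.2)

/-- the one-site step path at the parameter `θ` -/
def b19sStp (L : List (ℝ × ℝ × ℝ)) (θ : ℝ) : SkStp := L.map fun p => ⟨p.1, 0, p.2.1 + θ * p.2.2⟩

/-- admissibility on `[0,1]` -/
def B19sAdm (a : ℝ) (L : List (ℝ × ℝ × ℝ)) : Prop :=
  (L.map Prod.fst).Pairwise (· ≤ ·) ∧ ∀ p ∈ L, 0 ≤ p.1 ∧ p.1 ≤ a ∧ 0 ≤ p.2.1 ∧ 0 ≤ p.2.1 + p.2.2

/-- partial sums of the derivatives of the variances -/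
def b19sDv (L : List (ℝ × ℝ × ℝ)) (r : ℕ) : ℝ := ∑ j ∈ Finset.range r, ((L.map fun p => p.2.2)[j]?).getD 0

theorem b19s_eqns_cite2 : True := by
  have := @b19sFeat.eq_1
  have := @b19sHs.eq_1
  have := @b19sStp.eq_1
  have := @B19sAdm.eq_1
  have := @b19sDv.eq_1
  trivial

theorem b19s_hs_length (L : List (ℝ × ℝ × ℝ)) : (b19sHs L).length = L.length := by simp [b19sHs]

theorem b19s_stp_length (L : List (ℝ × ℝ × ℝ)) (θ : ℝ) : (b19sStp L θ).length = L.length := by simp [b19sStp]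

theorem b19s_ker (r : Unit) (s t : SkCfg 1) : gcKer b19sFeat r s t = slkSp s * slkSp t := by
  simp [gcKer, b19sFeat]

theorem b19s_adm {a : ℝ} {L : List (ℝ × ℝ × ℝ)} (h : B19sAdm a L) : GcAffAdm a (b19sHs L) := by
  refine ⟨?_, ?_⟩
  · have : (b19sHs L).map Prod.fst = L.map Prod.fst := by simp [b19sHs, List.map_map, Function.comp_def]
    rw [this]
    exact h.1
  · intro x hx
    unfold b19sHs at hx
    rw [List.mem_map] at hx
    obtain ⟨p, hp, rfl⟩ := hx
    obtain ⟨h1, h2, h3, h4⟩ := h.2 p hp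
    exact ⟨⟨h1, h2⟩, fun _ => ⟨h3, h4⟩⟩

theorem b19s_var_nonneg {a : ℝ} {L : List (ℝ × ℝ × ℝ)} (h : B19sAdm a L) {θ : ℝ} (hθ : θ ∈ Icc (0 : ℝ) 1) {p : ℝ × ℝ × ℝ}
    (hp : p ∈ L) : 0 ≤ p.2.1 + θ * p.2.2 := by
  obtain ⟨_, _, h3, h4⟩ := h.2 p hp
  have : p.2.1 + θ * p.2.2 = (1 - θ) * p.2.1 + θ * (p.2.1 + p.2.2) := by ring
  rw [this]
  exact add_nonneg (mul_nonneg (by linarith [hθ.2]) h3) (mul_nonneg hθ.1 h4)

theorem b19s_ov (s t : SkCfg 1) : skOv s t = slkSp s * slkSp t := by simp [skOv, slkSp]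

/-- the `gc` coding and the `Sk` coding of the family have the same masses and kernels -/
theorem b19s_ecov {a : ℝ} {L : List (ℝ × ℝ × ℝ)} (h : B19sAdm a L) {θ : ℝ} (hθ : θ ∈ Icc (0 : ℝ) 1) :
    TrECov (gcLs b19sFeat (gcAff (b19sHs L) θ)) (skLvs 1 (b19sStp L θ)) := by
  unfold TrECov gcLs gcAff b19sHs skLvs b19sStp
  simp only [List.map_map]
  rw [List.forall₂_map_left_iff, List.forall₂_map_right_iff, List.forall₂_same]
  intro p hp
  have hv := b19s_var_nonneg h hθ hp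
  refine ⟨rfl, fun s t => ?_⟩
  simp only [Function.comp]
  rw [gc_cov b19sFeat _ _ (fun _ => hv), sk_d_cov 1 (by norm_num) _ le_rfl hv, b19s_ov]
  simp [b19s_ker]

theorem b19s_gc {a : ℝ} {L : List (ℝ × ℝ × ℝ)} (h : B19sAdm a L) {θ : ℝ} (hθ : θ ∈ Icc (0 : ℝ) 1) (q : ℕ) (τ : ℕ → ℕ → ℕ)
    (z : SkCfg 1 → ℝ) (T : (ℕ → SkCfg 1) → ℝ) :
    gcNu (skBase 1 a) b19sFeat (b19sHs L) θ q τ z T = trNu (skBase 1 a) (skLvs 1 (b19sStp L θ)) q τ z T :=
  tr_e_nu_cov (skBase 1 a) (fun σ => T (trExt σ)) (b19s_ecov h hθ) _ _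

theorem b19s_gcMs (a : ℝ) (L : List (ℝ × ℝ × ℝ)) (θ : ℝ) (j : ℕ) : gcMs a (b19sHs L) j = skMs a (b19sStp L θ) j := by
  unfold gcMs b19sHs skMs b19sStp
  rw [List.getD_eq_getElem?_getD]
  simp only [List.getElem?_map, List.map_map]
  cases L[j]? <;> rfl

theorem b19s_trV (L : List (ℝ × ℝ × ℝ)) (n r : ℕ) (s s' : SkCfg 1) :
    trV (gcDK b19sFeat (b19sHs L)) n r s s' = b19sDv L (min r n) * (slkSp s * slkSp s') := by
  unfold trV b19sDv
  rw [Finset.sum_mul]
  refine Finset.sum_congr rfl fun j _ => ?_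
  unfold gcDK b19sHs
  simp only [Finset.univ_unique, Finset.sum_singleton, b19s_ker, List.getElem?_map]
  cases L[j]? <;> rfl

/-! ## 4. SIGN -/

/-- the flip of the one-site spin -/
def b19sFlip : SkCfg 1 ≃ SkCfg 1 where
  toFun σ := fun i => !σ i
  invFun σ := fun i => !σ i
  left_inv σ := by funext i; simp
  right_inv σ := by funext i; simp

theorem b19s_flip_sp (σ : SkCfg 1) : slkSp (b19sFlip σ) = - slkSp σ := by
  show skSp (fun i => !σ i) 0 = - skSp σ 0
  unfold skSp Claims.C0461.pmSpin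
  cases h : σ 0 <;> simp [h]

theorem b19s_sp_abs (σ : SkCfg 1) : |slkSp σ| = 1 := by
  have h : slkSp σ * slkSp σ = 1 := sk_d_sp_mul σ 0
  have h2 : |slkSp σ| * |slkSp σ| = 1 := by rw [← abs_mul, h, abs_one]
  nlinarith [abs_nonneg (slkSp σ)]

theorem b19s_prod_abs (A : Finset ℕ) (σ : ℕ → SkCfg 1) : |∏ x ∈ A, slkSp (σ x)| = 1 := by
  rw [Finset.abs_prod]
  exact Finset.prod_eq_one fun x _ => b19s_sp_abs _

theorem b19s_prod_uses {q : ℕ} {A : Finset ℕ} (hA : ∀ x ∈ A, x < q) : TrUses q fun σ : ℕ → SkCfg 1 => ∏ x ∈ A, slkSp (σ x) := by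
  intro σ σ' h
  exact Finset.prod_congr rfl fun x hx => by rw [h x (hA x hx)]

/-- partial sums of a nonnegative list -/
theorem b19s_psum (l : List ℝ) (h : ∀ x ∈ l, 0 ≤ x) (n : ℕ) :
    0 ≤ ∑ j ∈ Finset.range n, (l[j]?).getD 0 ∧ ∑ j ∈ Finset.range n, (l[j]?).getD 0 ≤ l.sum := by
  induction l generalizing n with
  | nil => simp
  | cons x l ih =>
    have hx : 0 ≤ x := h x List.mem_cons_self
    have hl : ∀ y ∈ l, 0 ≤ y := fun y hy => h y (List.mem_cons_of_mem _ hy)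
    cases n with
    | zero =>
      simp only [Finset.range_zero, Finset.sum_empty, List.sum_cons]
      exact ⟨le_rfl, add_nonneg hx (List.sum_nonneg hl)⟩
    | succ n =>
      rw [Finset.sum_range_succ']
      simp only [List.getElem?_cons_succ, List.getElem?_cons_zero, Option.getD_some, List.sum_cons]
      obtain ⟨h1, h2⟩ := ih hl n
      exact ⟨by linarith, by linarith⟩

/-- the family which switches on the revelations `0 .. t-1` -/
def b19sOn (P : SkStp) (t : ℕ) : List (ℝ × ℝ × ℝ) :=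
  (P.take t).map (fun e => (e.m, 0, e.dh)) ++ (P.drop t).map fun e => (e.m, e.dh, 0)

theorem b19s_eqns_cite3 : True := by
  have := @b19sFlip.eq_1
  have := @b19sOn.eq_1
  trivial

theorem b19s_on_length (P : SkStp) (t : ℕ) : (b19sOn P t).length = P.length := by
  unfold b19sOn
  rw [List.length_append, List.length_map, List.length_map, ← List.length_append, List.take_append_drop]

theorem b19s_on_adm {a : ℝ} {P : SkStp} (hP : SkAdm a P) (t : ℕ) : B19sAdm a (b19sOn P t) := by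
  refine ⟨?_, ?_⟩
  · have : (b19sOn P t).map Prod.fst = P.map SkInc.m := by
      unfold b19sOn
      rw [List.map_append, List.map_map, List.map_map]
      have e1 : (Prod.fst ∘ fun e : SkInc => (e.m, (0 : ℝ), e.dh)) = SkInc.m := rfl
      have e2 : (Prod.fst ∘ fun e : SkInc => (e.m, e.dh, (0 : ℝ))) = SkInc.m := rfl
      rw [e1, e2, ← List.map_append, List.take_append_drop]
    rw [this, List.pairwise_map]
    exact hP.1
  · intro p hp
    unfold b19sOn at hp
    rw [List.mem_append, List.mem_map, List.mem_map] at hp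
    rcases hp with ⟨e, he, rfl⟩ | ⟨e, he, rfl⟩
    · obtain ⟨h1, h2, _, h4⟩ := hP.2 e (List.mem_of_mem_take he)
      exact ⟨h1, h2, le_rfl, by simpa using h4⟩
    · obtain ⟨h1, h2, _, h4⟩ := hP.2 e (List.mem_of_mem_drop he)
      exact ⟨h1, h2, h4, by simpa using h4⟩

theorem b19s_on_one {P : SkStp} (hP : SlkOk P) (t : ℕ) : b19sStp (b19sOn P t) 1 = P := by
  unfold b19sStp b19sOn
  rw [List.map_append, List.map_map, List.map_map]
  have e1 : (P.take t).map ((fun p : ℝ × ℝ × ℝ => (⟨p.1, 0, p.2.1 + 1 * p.2.2⟩ : SkInc)) ∘ fun e : SkInc => (e.m, (0 : ℝ), e.dh))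
      = P.take t := by
    conv_rhs => rw [← List.map_id (P.take t)]
    refine List.map_congr_left fun e he => ?_
    have := hP e (List.mem_of_mem_take he)
    cases e
    simp_all
  have e2 : (P.drop t).map ((fun p : ℝ × ℝ × ℝ => (⟨p.1, 0, p.2.1 + 1 * p.2.2⟩ : SkInc)) ∘ fun e : SkInc => (e.m, e.dh, (0 : ℝ)))
      = P.drop t := by
    conv_rhs => rw [← List.map_id (P.drop t)]
    refine List.map_congr_left fun e he => ?_
    have := hP e (List.mem_of_mem_drop he)
    cases e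
    simp_all
  rw [e1, e2, List.take_append_drop]

theorem b19s_on_dv {a : ℝ} {P : SkStp} (hP : SkAdm a P) (t r : ℕ) : |b19sDv (b19sOn P t) r| ≤ skCumH P t := by
  have hl : (b19sOn P t).map (fun p => p.2.2) = (P.take t).map SkInc.dh ++ (P.drop t).map fun _ => (0 : ℝ) := by
    unfold b19sOn
    rw [List.map_append, List.map_map, List.map_map]
    rfl
  have hnn : ∀ x ∈ (b19sOn P t).map (fun p => p.2.2), 0 ≤ x := by
    rw [hl]
    intro x hx
    rw [List.mem_append, List.mem_map, List.mem_map] at hx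
    rcases hx with ⟨e, he, rfl⟩ | ⟨e, _, rfl⟩
    · exact (hP.2 e (List.mem_of_mem_take he)).2.2.2
    · exact le_rfl
  obtain ⟨h1, h2⟩ := b19s_psum _ hnn r
  unfold b19sDv
  rw [abs_of_nonneg h1]
  refine h2.trans (le_of_eq ?_)
  rw [hl, List.sum_append]
  simp [skCumH]

/-- the low levels are switched off at `θ = 0` -/
theorem b19s_on_low (P : SkStp) {t j : ℕ} (ht : t ≤ P.length) (hj : j < (b19sOn P t).length) (hjt : j < t) :
    ((b19sOn P t)[j]).2.1 = 0 := by
  have h1 : j < ((P.take t).map (fun e : SkInc => (e.m, (0 : ℝ), e.dh))).length := by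
    rw [List.length_map, List.length_take]
    omega
  have h2 : (b19sOn P t)[j] = ((P.take t).map (fun e : SkInc => (e.m, (0 : ℝ), e.dh)))[j] := List.getElem_append_left h1
  rw [h2]
  simp

/-- **SIGN**: if a class of `{τ > t}` contains an odd number of labels of `A`, then `|sc[∏_A s]| ≤ C K_t` -/
theorem b19s_sign (A0 : ℝ) (q : ℕ) : ∃ C : ℝ, 0 ≤ C ∧ ∀ (a : ℝ) (P : SkStp), 0 < a → a ≤ A0 → SkAdm a P → SlkOk P →
    ∀ τ : ℕ → ℕ → ℕ, IsTr P.length q τ → ∀ A : Finset ℕ, (∀ x ∈ A, x < q) → ∀ t x0 : ℕ, t ≤ P.length → x0 < q →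
      Odd (A.filter fun x => t < τ x0 x).card → |b19sNu a P q τ A| ≤ C * skCumH P t := by
  refine ⟨2 * A0 ^ 2 * ((q : ℝ) * (q + 1)), by positivity, ?_⟩
  intro a P ha haA hP hS τ hτ A hA t x0 ht hx0 hodd
  set L := b19sOn P t with hL
  have hadm : B19sAdm a L := b19s_on_adm hP t
  have hB : (skBase 1 a).Ok := slk_base_ok ha
  have hlen : (b19sHs L).length = P.length := by rw [b19s_hs_length, hL, b19s_on_length]
  have hτ' : IsTr (b19sHs L).length q τ := by rw [hlen]; exact hτ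
  set T : (ℕ → SkCfg 1) → ℝ := fun σ => ∏ x ∈ A, slkSp (σ x) with hT
  have hTu : TrUses q T := b19s_prod_uses hA
  set f : ℝ → ℝ := fun θ => gcNu (skBase 1 a) b19sFeat (b19sHs L) θ q τ 0 T with hf
  have hK0 : 0 ≤ skCumH P t := (abs_nonneg _).trans (b19s_on_dv hP t 0)
  -- the end point 1
  have h1 : f 1 = b19sNu a P q τ A := by
    show gcNu (skBase 1 a) b19sFeat (b19sHs L) 1 q τ 0 T = _
    rw [b19s_gc hadm (by simp), hL, b19s_on_one hS]
    rfl
  -- the end point 0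
  have h0 : f 0 = 0 := by
    have hgadm := gc_adm (B := skBase 1 a) b19sFeat (b19s_adm hadm) 0
    have hcov : ∀ j (h : j < (gcLs b19sFeat (gcAff (b19sHs L) 0)).length) (s s' : SkCfg 1),
        ((gcLs b19sFeat (gcAff (b19sHs L) 0))[j]).cov s s'
          = (L[j]'(by rw [hgadm.2.1, b19s_hs_length] at h; exact h)).2.1 * (slkSp s * slkSp s') := by
      intro j h s s'
      have hj : j < L.length := by rw [hgadm.2.1, b19s_hs_length] at h; exact h
      have e : (gcLs b19sFeat (gcAff (b19sHs L) 0))[j] = gcLv b19sFeat (L[j]).1 fun _ => (L[j]).2.1 + 0 * (L[j]).2.2 := by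
        simp [gcLs, gcAff, b19sHs]
      rw [e, gc_cov b19sFeat _ _ (fun _ => b19s_var_nonneg hadm (by simp) (List.getElem_mem hj))]
      simp [b19s_ker]
    have hsym := tr_nu_block_sym hB hgadm.1 (q := q) (τ := τ) (by rw [hgadm.2.1]; exact hτ') 0 b19sFlip (fun _ => rfl) (fun _ => rfl) t
      (by rw [hgadm.2.1, hlen]; exact ht)
      (fun j h hjt s s' => by
        have e0 : (L[j]'(by rw [hgadm.2.1, b19s_hs_length] at h; exact h)).2.1 = 0 := b19s_on_low P ht _ hjt
        rw [hcov j h, hcov j h, e0]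
        ring)
      (fun j h _ s s' => by
        rw [hcov j h, hcov j h, b19s_flip_sp, b19s_flip_sp]
        ring)
      (fun x => t < τ x0 x)
      (fun x y hx hy h1 h2 => lt_of_lt_of_le (lt_min h1 h2) (hτ.ultra x0 x y hx0 hx hy)) T hTu
    have hneg : (fun σ : ℕ → SkCfg 1 => T fun x => if t < τ x0 x then b19sFlip (σ x) else σ x) = fun σ => - T σ := by
      funext σ
      show ∏ x ∈ A, slkSp (if t < τ x0 x then b19sFlip (σ x) else σ x) = - ∏ x ∈ A, slkSp (σ x)
      have e : ∀ x ∈ A, slkSp (if t < τ x0 x then b19sFlip (σ x) else σ x) = (if t < τ x0 x then (-1 : ℝ) else 1) * slkSp (σ x) := by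
        intro x _
        by_cases h : t < τ x0 x
        · rw [if_pos h, if_pos h, b19s_flip_sp]; ring
        · rw [if_neg h, if_neg h, one_mul]
      rw [Finset.prod_congr rfl e, Finset.prod_mul_distrib, Finset.prod_ite, Finset.prod_const_one, mul_one, Finset.prod_const,
        hodd.neg_one_pow]
      ring
    rw [hneg, tcb_nu_neg hB hgadm.1] at hsym
    show trNu (skBase 1 a) (gcLs b19sFeat (gcAff (b19sHs L) 0)) q τ 0 T = 0
    linarith
  -- the derivative
  have hM : ∀ r s s', |trV (gcDK b19sFeat (b19sHs L)) (b19sHs L).length r s s'| ≤ skCumH P t := by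
    intro r s s'
    rw [b19s_trV, abs_mul, abs_mul, b19s_sp_abs, b19s_sp_abs, mul_one, mul_one]
    exact b19s_on_dv hP t _
  have hbd : ∀ θ ∈ Icc (0 : ℝ) 1, ‖derivWithin f (Icc 0 1) θ‖ ≤ 2 * A0 ^ 2 * ((q : ℝ) * (q + 1)) * skCumH P t := by
    intro θ hθ
    have := tr_taylor hB b19sFeat (b19s_adm hadm) hτ' 0 T hTu (skCumH P t) 1 hM (fun σ => (b19s_prod_abs A σ).le) 1 hθ
    rw [iteratedDerivWithin_one] at this
    rw [Real.norm_eq_abs]
    refine this.trans ?_
    have ea : (skBase 1 a).a = a := rfl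
    rw [ea]
    simp only [pow_one, mul_one, Finset.prod_range_succ, Finset.range_zero, Finset.prod_empty, one_mul, Nat.cast_zero, add_zero,
      Nat.cast_one]
    have : a ^ 2 ≤ A0 ^ 2 := by nlinarith
    have hq : 0 ≤ (q : ℝ) * (q + 1) := by positivity
    have h3 : 2 * a ^ 2 * ((q : ℝ) * (q + 1)) ≤ 2 * A0 ^ 2 * ((q : ℝ) * (q + 1)) := by nlinarith
    exact mul_le_mul_of_nonneg_right h3 hK0
  have hdiff : DifferentiableOn ℝ f (Icc 0 1) :=
    (tr_cov_contDiffOn hB b19sFeat (b19s_adm hadm) hτ' 0 T hTu).differentiableOn (by simp)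
  have := Convex.norm_image_sub_le_of_norm_derivWithin_le hdiff hbd (convex_Icc 0 1) (x := 0) (y := 1) (by simp) (by simp)
  rw [h1, h0, sub_zero, sub_zero, norm_one, mul_one, Real.norm_eq_abs] at this
  exact this

/-! ## 5. INDEX FORM of the one-site paths      (OWNER helper184) -/

/-- the one-site path with the masses `ms j` and the cumulative field clock `T j`, `j < N` -/
def b19sMk (N : ℕ) (ms T : ℕ → ℝ) : SkStp := (List.range N).map fun j => ⟨ms j, 0, T (j + 1) - T j⟩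

/-- admissible data -/
structure B19sOk (a : ℝ) (N : ℕ) (ms T : ℕ → ℝ) : Prop where
  T0 : T 0 = 0
  Tm : ∀ j, j < N → T j ≤ T (j + 1)
  m0 : ∀ j, j < N → 0 ≤ ms j
  ma : ∀ j, j < N → ms j ≤ a
  mm : ∀ j, j + 1 < N → ms j ≤ ms (j + 1)

/-- masses after the insertion of a copy of the level `i` -/
def b19sIm (i : ℕ) (ms : ℕ → ℝ) (j : ℕ) : ℝ := if j ≤ i then ms j else ms (j - 1)

/-- clock after the insertion of an EMPTY level at the place `i`; the old level `i` (now `i + 1`) is lengthened by `σ` -/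
def b19sIt (i : ℕ) (σ : ℝ) (T : ℕ → ℝ) (j : ℕ) : ℝ := if j ≤ i then T j else if j = i + 1 then T i else T (j - 1) + σ

theorem b19s_eqns_cite5 : True := by
  have := @b19sMk.eq_1
  have := @b19sIm.eq_1
  have := @b19sIt.eq_1
  trivial

theorem b19s_mk_length (N : ℕ) (ms T : ℕ → ℝ) : (b19sMk N ms T).length = N := by simp [b19sMk]

theorem b19s_mk_ok (N : ℕ) (ms T : ℕ → ℝ) : SlkOk (b19sMk N ms T) := by
  intro e he
  unfold b19sMk at he
  rw [List.mem_map] at he
  obtain ⟨j, _, rfl⟩ := he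
  rfl

theorem B19sOk.mono_ms {a : ℝ} {N : ℕ} {ms T : ℕ → ℝ} (h : B19sOk a N ms T) {j k : ℕ} (hjk : j ≤ k) (hk : k < N) : ms j ≤ ms k := by
  induction k, hjk using Nat.le_induction with
  | base => exact le_rfl
  | succ k _ ih => exact (ih (by omega)).trans (h.mm k hk)

theorem B19sOk.mono_T {a : ℝ} {N : ℕ} {ms T : ℕ → ℝ} (h : B19sOk a N ms T) {j k : ℕ} (hjk : j ≤ k) (hk : k ≤ N) : T j ≤ T k := by
  induction k, hjk using Nat.le_induction with
  | base => exact le_rfl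
  | succ k _ ih => exact (ih (by omega)).trans (h.Tm k hk)

theorem B19sOk.T_nonneg {a : ℝ} {N : ℕ} {ms T : ℕ → ℝ} (h : B19sOk a N ms T) {k : ℕ} (hk : k ≤ N) : 0 ≤ T k := by
  have := h.mono_T (Nat.zero_le k) hk
  rwa [h.T0] at this

theorem b19s_mk_adm {a : ℝ} {N : ℕ} {ms T : ℕ → ℝ} (h : B19sOk a N ms T) : SkAdm a (b19sMk N ms T) := by
  refine ⟨?_, ?_⟩
  · unfold b19sMk
    rw [List.pairwise_map]
    refine List.Pairwise.imp_of_mem ?_ (List.pairwise_lt_range)
    intro j k _ hk hjk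
    exact h.mono_ms hjk.le (List.mem_range.1 hk)
  · intro e he
    unfold b19sMk at he
    rw [List.mem_map] at he
    obtain ⟨j, hj, rfl⟩ := he
    rw [List.mem_range] at hj
    exact ⟨h.m0 j hj, h.ma j hj, le_rfl, sub_nonneg.2 (h.Tm j hj)⟩

theorem b19s_mk_ms (a : ℝ) (N : ℕ) (ms T : ℕ → ℝ) (j : ℕ) : skMs a (b19sMk N ms T) j = if j < N then ms j else a := by
  unfold skMs b19sMk
  rw [List.getD_eq_getElem?_getD]
  simp only [List.map_map, List.getElem?_map]
  by_cases hj : j < N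
  · rw [List.getElem?_range hj, if_pos hj]; rfl
  · rw [if_neg hj, List.getElem?_eq_none (by simpa using hj)]; rfl

theorem b19s_mk_take (N : ℕ) (ms T : ℕ → ℝ) {j : ℕ} (hj : j ≤ N) : (b19sMk N ms T).take j = b19sMk j ms T := by
  unfold b19sMk
  rw [← List.map_take, List.take_range, min_eq_left hj]

theorem b19s_mk_len (N : ℕ) (ms T : ℕ → ℝ) : scLen (slkPi (b19sMk N ms T)) = T N - T 0 := by
  induction N with
  | zero => simp [b19sMk, slkPi, scLen]
  | succ N ih =>
    have e : slkPi (b19sMk (N + 1) ms T) = slkPi (b19sMk N ms T) ++ [(ms N, T (N + 1) - T N)] := by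
      unfold b19sMk slkPi
      rw [List.range_succ, List.map_append, List.map_append]
      rfl
    rw [e, sc_len_append, ih]
    simp [scLen]

theorem b19s_mk_T {a : ℝ} {N : ℕ} {ms T : ℕ → ℝ} (h : B19sOk a N ms T) {j : ℕ} (hj : j ≤ N) : slkT (b19sMk N ms T) j = T j := by
  unfold slkT
  rw [b19s_mk_take N ms T hj, b19s_mk_len, h.T0, sub_zero]

theorem b19s_ins_ok {a : ℝ} {N : ℕ} {ms T : ℕ → ℝ} (h : B19sOk a N ms T) {i : ℕ} (hi : i < N) {σ : ℝ} (hσ : 0 ≤ σ) :
    B19sOk a (N + 1) (b19sIm i ms) (b19sIt i σ T) := by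
  refine ⟨?_, fun j hj => ?_, fun j hj => ?_, fun j hj => ?_, fun j hj => ?_⟩
  · unfold b19sIt; rw [if_pos (Nat.zero_le i)]; exact h.T0
  · unfold b19sIt
    by_cases h1 : j + 1 ≤ i
    · rw [if_pos (by omega), if_pos h1]; exact h.Tm j (by omega)
    · by_cases h2 : j = i
      · subst h2; rw [if_pos le_rfl, if_neg h1, if_pos rfl]
      · by_cases h3 : j = i + 1
        · subst h3
          rw [if_neg (by omega), if_pos rfl, if_neg (by omega), if_neg (by omega)]
          have := h.Tm i hi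
          simp only [Nat.add_sub_cancel]
          linarith
        · rw [if_neg (by omega), if_neg h3, if_neg (by omega), if_neg (by omega)]
          have := h.Tm (j - 1) (by omega)
          rw [show j - 1 + 1 = j by omega] at this
          simp only [Nat.add_sub_cancel]
          linarith
  · unfold b19sIm; split_ifs
    · exact h.m0 j (by omega)
    · exact h.m0 _ (by omega)
  · unfold b19sIm; split_ifs
    · exact h.ma j (by omega)
    · exact h.ma _ (by omega)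
  · unfold b19sIm
    by_cases h1 : j + 1 ≤ i
    · rw [if_pos (by omega), if_pos h1]; exact h.mm j (by omega)
    · by_cases h2 : j = i
      · subst h2; rw [if_pos le_rfl, if_neg h1]; simp
      · rw [if_neg (by omega), if_neg h1]
        have := h.mm (j - 1) (by omega)
        rw [show j - 1 + 1 = j by omega] at this
        simpa using this

theorem b19s_mk_pi_succ (N : ℕ) (ms T : ℕ → ℝ) : slkPi (b19sMk (N + 1) ms T) = slkPi (b19sMk N ms T) ++ [(ms N, T (N + 1) - T N)] := by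
  unfold b19sMk slkPi
  rw [List.range_succ, List.map_append, List.map_append]
  rfl

theorem b19s_mk_pi_mem {N : ℕ} {ms T : ℕ → ℝ} {p : ℝ × ℝ} (hp : p ∈ slkPi (b19sMk N ms T)) :
    ∃ j, j < N ∧ p = (ms j, T (j + 1) - T j) := by
  unfold slkPi b19sMk at hp
  rw [List.map_map, List.mem_map] at hp
  obtain ⟨j, hj, rfl⟩ := hp
  exact ⟨j, List.mem_range.1 hj, rfl⟩

theorem b19s_mk_pos {a : ℝ} {N : ℕ} {ms T : ℕ → ℝ} (h : B19sOk a N ms T) : ScPos (slkPi (b19sMk N ms T)) := by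
  intro p hp
  obtain ⟨j, hj, rfl⟩ := b19s_mk_pi_mem hp
  exact sub_nonneg.2 (h.Tm j hj)

/-- the level of a time -/
theorem b19s_find {a : ℝ} {N : ℕ} {ms T : ℕ → ℝ} (h : B19sOk a N ms T) {r : ℝ} (hr : 0 ≤ r) :
    (∃ j, j < N ∧ T j ≤ r ∧ r < T (j + 1)) ∨ T N ≤ r := by
  by_cases hN : T N ≤ r
  · exact Or.inr hN
  · left
    rw [not_le] at hN
    classical
    have hex : ∃ k, r < T k := ⟨N, hN⟩
    have hk : r < T (Nat.find hex) := Nat.find_spec hex
    have hkN : Nat.find hex ≤ N := Nat.find_min' hex hN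
    have hk0 : Nat.find hex ≠ 0 := by
      intro h0
      rw [h0, h.T0] at hk
      linarith
    refine ⟨Nat.find hex - 1, by omega, ?_, ?_⟩
    · exact not_lt.1 (Nat.find_min hex (by omega))
    · rwa [show Nat.find hex - 1 + 1 = Nat.find hex by omega]

theorem b19s_mk_al {a : ℝ} {ms T : ℕ → ℝ} : ∀ {N : ℕ}, B19sOk a N ms T → ∀ j, j < N → ∀ r, T j ≤ r → r < T (j + 1) →
    scAl (slkPi (b19sMk N ms T)) r = ms j := by
  intro N
  induction N with
  | zero => intro _ j hj; omega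
  | succ N ih =>
    intro h j hj r h1 h2
    have h' : B19sOk a N ms T := ⟨h.T0, fun j hj => h.Tm j (by omega), fun j hj => h.m0 j (by omega), fun j hj => h.ma j (by omega),
      fun j hj => h.mm j (by omega)⟩
    have hl : scLen (slkPi (b19sMk N ms T)) = T N := by rw [b19s_mk_len, h.T0, sub_zero]
    rw [b19s_mk_pi_succ]
    by_cases hjN : j < N
    · rw [sc_app_Al_left _ _ ((h'.T_nonneg hjN.le).trans h1) (by rw [hl]; exact h2.trans_le (h'.mono_T hjN le_rfl))]
      exact ih h' j hjN r h1 h2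
    · have e : j = N := by omega
      subst e
      have e2 : r = scLen (slkPi (b19sMk j ms T)) + (r - T j) := by rw [hl]; ring
      rw [e2, sc_app_Al_right (b19s_mk_pos h') _ (by linarith)]
      simp only [scAl]
      rw [if_neg (by linarith)]

/-! ### affine families in index form -/

/-- the affine family with the masses `ms`, the clock `T` at `θ = 0` and the slopes `sl` of the lengths -/
def b19sFam (N : ℕ) (ms T sl : ℕ → ℝ) : List (ℝ × ℝ × ℝ) := (List.range N).map fun j => (ms j, T (j + 1) - T j, sl j)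

/-- the slopes which move the boundary between the levels `e` and `e + 1` -/
def b19sSl (e : ℕ) (s : ℝ) (j : ℕ) : ℝ := if j = e then s else if j = e + 1 then -s else 0

/-- the clock with the time `e + 1` moved by `c` -/
def b19sTm (e : ℕ) (c : ℝ) (T : ℕ → ℝ) (j : ℕ) : ℝ := T j + if j = e + 1 then c else 0

theorem b19s_eqns_cite8 : True := by
  have := @b19sFam.eq_1
  have := @b19sSl.eq_1
  have := @b19sTm.eq_1
  trivial

theorem b19s_fam_length (N : ℕ) (ms T sl : ℕ → ℝ) : (b19sFam N ms T sl).length = N := by simp [b19sFam]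

theorem b19s_fam_stp {N : ℕ} {ms T sl T' : ℕ → ℝ} {θ : ℝ} (h : ∀ j, j < N → T (j + 1) - T j + θ * sl j = T' (j + 1) - T' j) :
    b19sStp (b19sFam N ms T sl) θ = b19sMk N ms T' := by
  unfold b19sStp b19sFam b19sMk
  rw [List.map_map]
  refine List.map_congr_left fun j hj => ?_
  simp only [Function.comp]
  rw [h j (List.mem_range.1 hj)]

theorem b19s_fam_adm {a : ℝ} {N : ℕ} {ms T sl : ℕ → ℝ} (h : B19sOk a N ms T) (hs : ∀ j, j < N → 0 ≤ T (j + 1) - T j + sl j) :
    B19sAdm a (b19sFam N ms T sl) := by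
  refine ⟨?_, ?_⟩
  · unfold b19sFam
    rw [List.map_map, List.pairwise_map]
    refine List.Pairwise.imp_of_mem ?_ (List.pairwise_lt_range)
    intro j k _ hk hjk
    exact h.mono_ms hjk.le (List.mem_range.1 hk)
  · intro p hp
    unfold b19sFam at hp
    rw [List.mem_map] at hp
    obtain ⟨j, hj, rfl⟩ := hp
    rw [List.mem_range] at hj
    exact ⟨h.m0 j hj, h.ma j hj, sub_nonneg.2 (h.Tm j hj), hs j hj⟩

theorem b19s_fam_dv (N : ℕ) (ms T sl : ℕ → ℝ) (r : ℕ) :
    b19sDv (b19sFam N ms T sl) r = ∑ j ∈ Finset.range r, if j < N then sl j else 0 := by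
  unfold b19sDv b19sFam
  refine Finset.sum_congr rfl fun j _ => ?_
  simp only [List.map_map, List.getElem?_map]
  by_cases hj : j < N
  · rw [List.getElem?_range hj, if_pos hj]; rfl
  · rw [if_neg hj, List.getElem?_eq_none (by simpa using hj)]; rfl

theorem b19s_sl_dv {N e : ℕ} (he : e + 1 < N) (ms T : ℕ → ℝ) (s : ℝ) (r : ℕ) :
    b19sDv (b19sFam N ms T (b19sSl e s)) r = if r = e + 1 then s else 0 := by
  rw [b19s_fam_dv]
  have e1 : ∀ j, (if j < N then b19sSl e s j else 0) = (if j = e then s else 0) + (if j = e + 1 then -s else 0) := by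
    intro j
    unfold b19sSl
    by_cases h1 : j = e
    · subst h1; rw [if_pos (by omega), if_pos rfl, if_pos rfl, if_neg (by omega), add_zero]
    · by_cases h2 : j = e + 1
      · subst h2; simp [he]
      · simp [h1, h2]
  simp only [e1]
  rw [Finset.sum_add_distrib, Finset.sum_ite_eq', Finset.sum_ite_eq']
  simp only [Finset.mem_range]
  by_cases h1 : r = e + 1
  · subst h1; rw [if_pos (by omega), if_neg (by omega), if_pos rfl, add_zero]
  · rw [if_neg h1]
    by_cases h2 : e < r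
    · rw [if_pos h2, if_pos (by omega)]; ring
    · rw [if_neg h2, if_neg (by omega)]; ring

theorem b19s_tm_ok {a : ℝ} {N : ℕ} {ms T : ℕ → ℝ} (h : B19sOk a N ms T) {e : ℕ} (he : e + 1 < N) {c : ℝ} (h0 : 0 ≤ c)
    (h1 : c ≤ T (e + 2) - T (e + 1)) : B19sOk a N ms (b19sTm e c T) := by
  refine ⟨?_, fun j hj => ?_, h.m0, h.ma, h.mm⟩
  · unfold b19sTm; rw [if_neg (by omega), add_zero]; exact h.T0
  · unfold b19sTm
    have := h.Tm j hj
    by_cases h2 : j = e
    · subst h2; rw [if_neg (by omega), if_pos rfl]; linarith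
    · by_cases h3 : j = e + 1
      · subst h3; rw [if_pos rfl, if_neg (by omega)]; linarith
      · rw [if_neg h3, if_neg (by omega)]; linarith

theorem b19s_sl_stp {N : ℕ} (ms T : ℕ → ℝ) (e : ℕ) (s θ : ℝ) :
    b19sStp (b19sFam N ms T (b19sSl e s)) θ = b19sMk N ms (b19sTm e (θ * s) T) := by
  refine b19s_fam_stp fun j _ => ?_
  unfold b19sSl b19sTm
  by_cases h2 : j = e
  · subst h2; rw [if_pos rfl, if_pos rfl, if_neg (by omega)]; ring
  · by_cases h3 : j = e + 1
    · subst h3; rw [if_neg h2, if_pos rfl, if_pos rfl, if_neg (by omega)]; ring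
    · rw [if_neg h2, if_neg h3, if_neg (by omega), if_neg h3]; ring

theorem b19s_tm_zero (e : ℕ) (T : ℕ → ℝ) : b19sTm e 0 T = T := by
  funext j; simp [b19sTm]

theorem b19s_sl_adm {a : ℝ} {N : ℕ} {ms T : ℕ → ℝ} (h : B19sOk a N ms T) {e : ℕ} {s : ℝ} (hs0 : 0 ≤ s)
    (hs : s ≤ T (e + 2) - T (e + 1)) : B19sAdm a (b19sFam N ms T (b19sSl e s)) := by
  refine b19s_fam_adm h fun j hj => ?_
  have := h.Tm j hj
  unfold b19sSl
  by_cases h2 : j = e
  · rw [if_pos h2]; linarith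
  · by_cases h3 : j = e + 1
    · subst h3; rw [if_neg h2, if_pos rfl]; linarith
    · rw [if_neg h2, if_neg h3]; linarith

/-- (i) the second derivative of the overlap along the family is `2 s² cpin` -/
theorem b19s_a1_left {a : ℝ} (ha : 0 < a) {N : ℕ} {ms T : ℕ → ℝ} (h : B19sOk a N ms T) {e : ℕ} (he : e + 1 < N) {s : ℝ}
    (hs0 : 0 ≤ s) (hs : s ≤ T (e + 2) - T (e + 1)) :
    iteratedDerivWithin 2 (fun θ => gcNu (skBase 1 a) b19sFeat (b19sHs (b19sFam N ms T (b19sSl e s))) θ 2 (b19Star N (e + 1)) 0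
        fun σ => slkSp (σ 0) * slkSp (σ 1)) (Icc 0 1) 0
      = 2 * s ^ 2 * b19sCpin a (b19sMk N ms T) (e + 1) := by
  obtain ⟨L, hL⟩ : ∃ L, L = b19sFam N ms T (b19sSl e s) := ⟨_, rfl⟩
  rw [← hL]
  have hadm : B19sAdm a L := by rw [hL]; exact b19s_sl_adm h hs0 hs
  have hB : (skBase 1 a).Ok := slk_base_ok ha
  have hlen : (b19sHs L).length = N := by rw [b19s_hs_length, hL, b19s_fam_length]
  have hτ : IsTr (b19sHs L).length 2 (b19Star N (e + 1)) := by rw [hlen]; exact b19_star_isTr (by omega) 2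
  have hP : TrUses 2 fun σ : ℕ → SkCfg 1 => slkSp (σ 0) * slkSp (σ 1) := by
    intro σ σ' hσ
    simp only
    rw [hσ 0 (by norm_num), hσ 1 (by norm_num)]
  have h0 : (0 : ℝ) ∈ Icc (0 : ℝ) 1 := by simp
  have hstp : b19sStp L 0 = b19sMk N ms T := by rw [hL, b19s_sl_stp, zero_mul, b19s_tm_zero]
  have ems : gcMs (skBase 1 a).a (b19sHs L) = skMs a (b19sMk N ms T) := by
    funext j
    rw [← hstp]
    exact b19s_gcMs a L 0 j
  have hgadm := gc_adm (B := skBase 1 a) b19sFeat (b19s_adm hadm) 0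
  rw [tr_cov_deriv_iter hB b19sFeat (b19s_adm hadm) hτ 0 _ hP 2 h0, ems]
  unfold b19sCpin
  rw [b19s_mk_length, hlen]
  have hτ' : IsTr N 2 (b19Star N (e + 1)) := b19_star_isTr (by omega) 2
  have key : trSumK (skMs a (b19sMk N ms T)) N (2 * 2) 2 (b19Star N (e + 1)) (fun τ' =>
        gcNu (skBase 1 a) b19sFeat (b19sHs L) 0 (2 + 2 * 2) τ' 0 fun σ => slkSp (σ 0) * slkSp (σ 1) * ∏ i ∈ Finset.range 2,
          trV (gcDK b19sFeat (b19sHs L)) N (τ' (2 + 2 * i) (2 + 2 * i + 1)) (σ (2 + 2 * i)) (σ (2 + 2 * i + 1)))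
      = trSumK (skMs a (b19sMk N ms T)) N 4 2 (b19Star N (e + 1)) fun τ' =>
        s ^ 2 * (if τ' 2 3 = e + 1 ∧ τ' 4 5 = e + 1 then b19sNu a (b19sMk N ms T) 6 τ' (Finset.range 6) else 0) := by
    refine tr_sumK_congr hτ' 4 _ _ fun τ' _ _ => ?_
    have ef : (fun σ : ℕ → SkCfg 1 => slkSp (σ 0) * slkSp (σ 1) * ∏ i ∈ Finset.range 2,
          trV (gcDK b19sFeat (b19sHs L)) N (τ' (2 + 2 * i) (2 + 2 * i + 1)) (σ (2 + 2 * i)) (σ (2 + 2 * i + 1)))
        = fun σ => (b19sDv L (min (τ' 2 3) N) * b19sDv L (min (τ' 4 5) N)) * ∏ x ∈ Finset.range 6, slkSp (σ x) := by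
      funext σ
      simp only [b19s_trV, Finset.prod_range_succ, Finset.range_zero, Finset.prod_empty, one_mul, Nat.mul_zero, Nat.mul_one,
        Nat.add_zero]
      ring
    rw [ef]
    unfold gcNu
    rw [tcb_nu_mul_const hB hgadm.1]
    have e2 := b19s_gc hadm h0 (2 + 2 * 2) τ' 0 (fun σ => ∏ x ∈ Finset.range 6, slkSp (σ x))
    unfold gcNu at e2
    rw [e2, hstp, hL, b19s_sl_dv he, b19s_sl_dv he]
    have m1 : ∀ r : ℕ, (min r N = e + 1) ↔ r = e + 1 := fun r => by omega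
    simp only [m1]
    by_cases c1 : τ' 2 3 = e + 1
    · by_cases c2 : τ' 4 5 = e + 1
      · rw [if_pos c1, if_pos c2, if_pos ⟨c1, c2⟩]
        unfold b19sNu
        ring
      · rw [if_neg c2, if_neg (show ¬ (τ' 2 3 = e + 1 ∧ τ' 4 5 = e + 1) from fun hc => c2 hc.2)]; ring
    · rw [if_neg c1, if_neg (show ¬ (τ' 2 3 = e + 1 ∧ τ' 4 5 = e + 1) from fun hc => c1 hc.1)]; ring
  rw [key, tr_c3_sumK_const_mul]
  ring

/-- FTC on a closed interval, one sided at the ends -/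
theorem b19s_ftc {ψ ψ1 : ℝ → ℝ} {t1 t2 : ℝ} (c1 : ContinuousOn ψ1 (Icc t1 t2))
    (e1 : ∀ u ∈ Icc t1 t2, ψ u - ψ t1 = ∫ r in t1..u, ψ1 r) {x : ℝ} (hx : x ∈ Icc t1 t2) :
    HasDerivWithinAt ψ (ψ1 x) (Icc t1 t2) x := by
  have : Fact (x ∈ Icc t1 t2) := ⟨hx⟩
  have hi : IntervalIntegrable ψ1 volume t1 x :=
    (c1.mono (by rw [uIcc_of_le hx.1]; exact Icc_subset_Icc le_rfl hx.2)).intervalIntegrable
  have h := intervalIntegral.integral_hasDerivWithinAt_right hi (s := Icc t1 t2) (t := Icc t1 t2)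
    (c1.stronglyMeasurableAtFilter_nhdsWithin measurableSet_Icc x) (c1 x hx)
  have h2 := h.const_add (ψ t1)
  refine h2.congr (fun u hu => ?_) ?_
  · rw [← e1 u hu]; ring
  · rw [← e1 x hx]; ring

theorem b19s_calc {ψ ψ1 g : ℝ → ℝ} {t1 s : ℝ} (hs : 0 < s) (c1 : ContinuousOn ψ1 (Icc t1 (t1 + s))) (cg : ContinuousOn g (Icc t1 (t1 + s)))
    (e1 : ∀ u ∈ Icc t1 (t1 + s), ψ u - ψ t1 = ∫ r in t1..u, ψ1 r) (e2 : ∀ u ∈ Icc t1 (t1 + s), ψ1 u - ψ1 t1 = ∫ r in t1..u, g r) :
    iteratedDerivWithin 2 (fun θ => ψ (t1 + θ * s)) (Icc 0 1) 0 = s ^ 2 * g t1 := by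
  have hmap : MapsTo (fun θ : ℝ => t1 + θ * s) (Icc 0 1) (Icc t1 (t1 + s)) := by
    intro θ hθ
    exact ⟨by nlinarith [hθ.1], by nlinarith [hθ.2]⟩
  have hin : ∀ θ : ℝ, HasDerivWithinAt (fun θ : ℝ => t1 + θ * s) s (Icc 0 1) θ := fun θ => by
    have := ((hasDerivAt_id θ).mul_const s).const_add t1
    simpa using this.hasDerivWithinAt
  have H1 : ∀ θ ∈ Icc (0 : ℝ) 1, HasDerivWithinAt (fun θ => ψ (t1 + θ * s)) (ψ1 (t1 + θ * s) * s) (Icc 0 1) θ := fun θ hθ =>
    (b19s_ftc c1 e1 (hmap hθ)).comp θ (hin θ) hmap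
  have H2 : ∀ θ ∈ Icc (0 : ℝ) 1, HasDerivWithinAt (fun θ => ψ1 (t1 + θ * s)) (g (t1 + θ * s) * s) (Icc 0 1) θ := fun θ hθ =>
    (b19s_ftc cg e2 (hmap hθ)).comp θ (hin θ) hmap
  have hu := uniqueDiffOn_Icc (zero_lt_one' ℝ)
  have h0 : (0 : ℝ) ∈ Icc (0 : ℝ) 1 := by simp
  rw [iteratedDerivWithin_succ, iteratedDerivWithin_one]
  have hc : EqOn (derivWithin (fun θ => ψ (t1 + θ * s)) (Icc 0 1)) (fun θ => ψ1 (t1 + θ * s) * s) (Icc 0 1) :=
    fun θ hθ => (H1 θ hθ).derivWithin (hu θ hθ)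
  rw [derivWithin_congr hc (hc h0), ((H2 0 h0).mul_const s).derivWithin (hu 0 h0)]
  simp only [zero_mul, add_zero]
  ring

theorem b19s_rep_lt {N k t : ℕ} (hk : k ≤ N) (ht : t < k) (b : Fin 2) : trRep 2 (b19Star N k) t b = 0 := by
  unfold trRep
  have : List.finRange 2 = [0, 1] := rfl
  rw [this]
  fin_cases b
  · have : t < b19Star N k 0 0 := by simp [b19Star]; omega
    simp [List.find?, this]
  · have : t < b19Star N k 1 0 := by simp [b19Star]; omega
    simp [List.find?, this]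

theorem b19s_rep_ge {N k t : ℕ} (ht : k ≤ t) (b : Fin 2) : trRep 2 (b19Star N k) t b = b := by
  unfold trRep
  have : List.finRange 2 = [0, 1] := rfl
  rw [this]
  fin_cases b
  · by_cases h1 : t < N + 1
    · have : t < b19Star N k 0 0 := by simp [b19Star]; omega
      simp [List.find?, this]
    · have h2 : ¬ t < b19Star N k 0 0 := by simp [b19Star]; omega
      have h3 : ¬ t < b19Star N k 0 1 := by simp [b19Star]; omega
      simp [List.find?, h2, h3]
  · have h2 : ¬ t < b19Star N k 1 0 := by simp [b19Star]; omega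
    by_cases h1 : t < N + 1
    · have : t < b19Star N k 1 1 := by simp [b19Star]; omega
      simp [List.find?, this, h2]
    · have h3 : ¬ t < b19Star N k 1 1 := by simp [b19Star]; omega
      simp [List.find?, h2, h3]

/-- the overlap of two labels which split at the depth `k` -/
theorem b19s_star_ov {a : ℝ} (ha : 0 < a) {N : ℕ} {ms T : ℕ → ℝ} (h : B19sOk a N ms T) {k : ℕ} (hk : k ≤ N) :
    trNu (skBase 1 a) (skLvs 1 (b19sMk N ms T)) 2 (b19Star N k) 0 (fun σ => slkSp (σ 0) * slkSp (σ 1))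
      = scGam (scLC a) (slkPi (b19sMk N ms T)) (T k) := by
  have e := slk_nu_ov ha.ne' (b19s_mk_ok N ms T) (fun e he => ((b19s_mk_adm h).2 e he).2.2.2) (rep := fun t => trRep 2 (b19Star N k) t)
    (k := k) (by rw [b19s_mk_length]; exact hk) (fun t ht b => b19s_rep_lt hk ht b) (fun t ht b => b19s_rep_ge ht b)
  rw [b19s_mk_T h hk] at e
  rw [← e]
  unfold trNu
  congr 1
  funext _ σ
  rw [b19s_ov]
  simp [trExt]


theorem b19s_mk_sc {a : ℝ} {N : ℕ} {ms T : ℕ → ℝ} (h : B19sOk a N ms T) :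
    ScAdm a (slkPi (b19sMk N ms T)) ∧ ScInc (slkPi (b19sMk N ms T)) ∧ scLen (slkPi (b19sMk N ms T)) = T N := by
  refine ⟨?_, ?_, by rw [b19s_mk_len, h.T0, sub_zero]⟩
  · intro p hp
    obtain ⟨j, hj, rfl⟩ := b19s_mk_pi_mem hp
    exact ⟨h.m0 j hj, h.ma j hj, sub_nonneg.2 (h.Tm j hj)⟩
  · unfold ScInc slkPi b19sMk
    rw [List.map_map, List.pairwise_map]
    refine List.Pairwise.imp_of_mem ?_ (List.pairwise_lt_range)
    intro j k _ hk hjk
    exact h.mono_ms hjk.le (List.mem_range.1 hk)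

/-- two index data with the same mass profile have the same `Γ` -/
theorem b19s_gam_congr {a : ℝ} (ha : 0 < a) {N : ℕ} {ms T T' : ℕ → ℝ} (h : B19sOk a N ms T) (h' : B19sOk a N ms T') (hN : T' N = T N)
    (hal : ∀ r ∈ Ico 0 (T N), scAl (slkPi (b19sMk N ms T')) r = scAl (slkPi (b19sMk N ms T)) r) {t : ℝ} (h0 : 0 ≤ t) (ht : t ≤ T N) :
    scGam (scLC a) (slkPi (b19sMk N ms T')) t = scGam (scLC a) (slkPi (b19sMk N ms T)) t := by
  obtain ⟨hadm, hinc, hlen⟩ := b19s_mk_sc h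
  obtain ⟨hadm', hinc', hlen'⟩ := b19s_mk_sc h'
  have hτ : 0 ≤ T N := h.T_nonneg le_rfl
  have hco : ScCoef a (T N) (fun r => if r < T N then scAl (slkPi (b19sMk N ms T)) r else a) := by
    refine ⟨fun x _ y _ hxy => ?_, fun r _ => ?_⟩
    · show (if x < T N then scAl (slkPi (b19sMk N ms T)) x else a) ≤ (if y < T N then scAl (slkPi (b19sMk N ms T)) y else a)
      by_cases hy : y < T N
      · rw [if_pos hy, if_pos (lt_of_le_of_lt hxy hy)]
        exact sc_Al_mono hadm.pos hinc (by rw [hlen]; exact lt_of_le_of_lt hxy hy) (by rw [hlen]; exact hy) hxy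
      · rw [if_neg hy]
        by_cases hx : x < T N
        · rw [if_pos hx]; exact (sc_Al_mem ha.le hadm x).2
        · rw [if_neg hx]
    · show 0 ≤ (if r < T N then scAl (slkPi (b19sMk N ms T)) r else a) ∧ (if r < T N then scAl (slkPi (b19sMk N ms T)) r else a) ≤ a
      by_cases hr : r < T N
      · rw [if_pos hr]; exact sc_Al_mem ha.le hadm r
      · rw [if_neg hr]; exact ⟨ha.le, le_rfl⟩
  have hF : ScBI (scLC a) := sc_logcosh_BI a
  rw [← slc_Gam_step hF hτ hco hadm hinc hlen (fun r hr => if_pos hr.2) h0 ht,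
    ← slc_Gam_step hF hτ hco hadm' hinc' (by rw [hlen', hN]) (fun r hr => by rw [if_pos hr.2, hal r hr]) h0 ht]

/-- moving the boundary between two levels of equal mass does not change the mass profile -/
theorem b19s_tm_al {a : ℝ} {N : ℕ} {ms T : ℕ → ℝ} (h : B19sOk a N ms T) {e : ℕ} (he : e + 1 < N) (hm : ms (e + 1) = ms e) {c : ℝ}
    (h0 : 0 ≤ c) (h1 : c ≤ T (e + 2) - T (e + 1)) {r : ℝ} (hr : r ∈ Ico 0 (T N)) :
    scAl (slkPi (b19sMk N ms (b19sTm e c T))) r = scAl (slkPi (b19sMk N ms T)) r := by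
  have h' := b19s_tm_ok h he h0 h1
  have hN : b19sTm e c T N = T N := by unfold b19sTm; rw [if_neg (by omega), add_zero]
  rcases b19s_find h' hr.1 with ⟨j, hj, j1, j2⟩ | hc
  · rw [b19s_mk_al h' j hj r j1 j2]
    unfold b19sTm at j1 j2
    by_cases c1 : j = e
    · subst c1
      rw [if_neg (by omega), add_zero] at j1
      rw [if_pos rfl] at j2
      by_cases c3 : r < T (j + 1)
      · exact (b19s_mk_al h j hj r j1 c3).symm
      · rw [b19s_mk_al h (j + 1) he r (not_lt.1 c3) (by linarith), hm]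
    · by_cases c2 : j = e + 1
      · subst c2
        rw [if_pos rfl] at j1
        rw [if_neg (by omega), add_zero] at j2
        exact (b19s_mk_al h (e + 1) hj r (by linarith) j2).symm
      · rw [if_neg c2, add_zero] at j1
        rw [if_neg (by omega), add_zero] at j2
        exact (b19s_mk_al h j hj r j1 j2).symm
  · rw [hN] at hc
    exact absurd hr.2 (not_lt.2 hc)

/-! ### the three leaves on `cpin` -/

/-- **(A1) STEP IDENTITY.**   If the level `e` is EMPTY, has the mass of the level `e + 1`, and the level `e + 1` is not empty, then `2 cpin_{e+1} = Γ''(T_{e+1}) = (N₃ - 2 m M₃)(T_{e+1})` EXACTLY.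
PROOF.  `s := T (e+2) - T (e+1) > 0`;  `L := (List.range N).map fun j => (ms j, T (j+1) - T j, if j = e then s else if j = e + 1 then -s else 0)`:  `B19sAdm a L`,  `b19sStp L 0 = b19sMk N ms T`,
`b19sDv L r = if r = e + 1 then s else 0` (`r ≤ N`).   `φ θ := gcNu (skBase 1 a) b19sFeat (b19sHs L) θ 2 (b19Star N (e+1)) 0 (s₀ s₁)`.
(i) `tr_cov_deriv_iter` (`j = 2`, `θ = 0`) + `b19s_trV` + `b19s_gc` + `b19s_gcMs`:  `iteratedDerivWithin 2 φ (Icc 0 1) 0 = (1/4) s² trSumK .. 1[τ23 = e+1 ∧ τ45 = e+1] sc[012345] = 2 s² cpin_{e+1}`.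
(ii) `b19s_gc` + `slk_nu_ov` (`rep = trRep 2 (b19Star ..)`, `k = e + 1`):  `φ θ = scGam (scLC a) (slkPi (b19sStp L θ)) (T (e+1) + θ s)`;   the profiles `slkPi (b19sStp L θ)` have the same `scAl` on `[0, T N)` (the boundary moves between two levels
of EQUAL mass), hence the same `scGam` (`slc_Gam_step` twice, coefficient `fun r => if r < T N then scAl π r else a` as in `sc_x_step`):  `φ θ = ψ (T (e+1) + θ s)`, `ψ = scGam (scLC a) π`.
(iii) `scm_Gam`, `scm_M2` (integral forms), `sc2_step_cont` / `scm_M_cont` (continuity), `scAl π = ms e` on `[T (e+1), T (e+2))`, FTC on the right:  `ψ' = scM2`, `ψ''(T (e+1)+) = scN3 - 2 ms e scM3`. -/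
theorem b19s_cpin_pos {a : ℝ} (ha : 0 < a) {N : ℕ} {ms T : ℕ → ℝ} (h : B19sOk a N ms T) {e : ℕ} (he : e + 1 < N)
    (_hT : T (e + 1) = T e) (hm : ms (e + 1) = ms e) (hs : T (e + 1) < T (e + 2)) :
    2 * b19sCpin a (b19sMk N ms T) (e + 1)
      = scN3 (scLC a) (slkPi (b19sMk N ms T)) (T (e + 1)) - 2 * ms e * scM3 (scLC a) (slkPi (b19sMk N ms T)) (T (e + 1)) := by
  obtain ⟨s, hsd⟩ : ∃ s, s = (T (e + 2) - T (e + 1)) / 2 := ⟨_, rfl⟩
  have hs0 : 0 < s := by rw [hsd]; linarith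
  have hs1 : s ≤ T (e + 2) - T (e + 1) := by rw [hsd]; linarith
  have hs2 : T (e + 1) + s < T (e + 2) := by rw [hsd]; linarith
  obtain ⟨π, hπ⟩ : ∃ π, π = slkPi (b19sMk N ms T) := ⟨_, rfl⟩
  obtain ⟨hadm, hinc, hlen⟩ := b19s_mk_sc h
  rw [← hπ] at hadm hinc hlen ⊢
  have hF : ScBI (scLC a) := sc_logcosh_BI a
  have hL := b19s_a1_left ha h he hs0.le hs1
  have ht10 : 0 ≤ T (e + 1) := h.T_nonneg (by omega)
  have ht2N : T (e + 2) ≤ T N := h.mono_T (by omega) le_rfl
  have hsub : Icc (T (e + 1)) (T (e + 1) + s) ⊆ Icc 0 (scLen π) := by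
    rw [hlen]; exact Icc_subset_Icc ht10 (by linarith)
  -- the family in variance time
  have hφ : EqOn (fun θ => gcNu (skBase 1 a) b19sFeat (b19sHs (b19sFam N ms T (b19sSl e s))) θ 2 (b19Star N (e + 1)) 0
        fun σ => slkSp (σ 0) * slkSp (σ 1)) (fun θ => scGam (scLC a) π (T (e + 1) + θ * s)) (Icc 0 1) := by
    intro θ hθ
    have c0 : 0 ≤ θ * s := mul_nonneg hθ.1 hs0.le
    have c1 : θ * s ≤ T (e + 2) - T (e + 1) := by nlinarith [hθ.2]
    have h' := b19s_tm_ok h he c0 c1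
    have hN : b19sTm e (θ * s) T N = T N := by unfold b19sTm; rw [if_neg (by omega), add_zero]
    have he1 : b19sTm e (θ * s) T (e + 1) = T (e + 1) + θ * s := by unfold b19sTm; rw [if_pos rfl]
    show gcNu _ _ _ θ _ _ _ _ = _
    rw [b19s_gc (b19s_sl_adm h hs0.le hs1) hθ, b19s_sl_stp, b19s_star_ov ha h' (by omega), he1,
      b19s_gam_congr ha h h' hN (fun r hr => b19s_tm_al h he hm c0 c1 hr) (by linarith) (by linarith), hπ]
  have h00 : (0 : ℝ) ∈ Icc (0 : ℝ) 1 := by simp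
  rw [iteratedDerivWithin_congr hφ h00] at hL
  obtain ⟨c2, c3, cN, -⟩ := sc2_step_cont hF hadm.pos
  have hcalc := b19s_calc (ψ := scGam (scLC a) π) (ψ1 := scM2 (scLC a) π)
    (g := fun r => scN3 (scLC a) π r - 2 * ms e * scM3 (scLC a) π r) (t1 := T (e + 1)) hs0 (c2.mono hsub)
    ((cN.mono hsub).sub (continuousOn_const.mul (c3.mono hsub)))
    (fun u hu => scm_Gam hF hadm.pos ht10 hu.1 (hsub hu).2)
    (fun u hu => by
      rw [scm_M2 hF hadm.pos ht10 hu.1 (hsub hu).2]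
      refine intervalIntegral.integral_congr fun r hr => ?_
      rw [uIcc_of_le hu.1] at hr
      show _ - 2 * scAl π r * _ = _
      rw [hπ, b19s_mk_al h (e + 1) he r hr.1 (by linarith [hr.2, hu.2]), hm])
  rw [hcalc] at hL
  have hs2' : s ^ 2 ≠ 0 := by positivity
  have : s ^ 2 * (2 * b19sCpin a (b19sMk N ms T) (e + 1)) = s ^ 2 * (scN3 (scLC a) π (T (e + 1)) - 2 * ms e * scM3 (scLC a) π (T (e + 1))) := by
    rw [hL]; ring
  exact mul_left_cancel₀ hs2' this

theorem b19s_cpin_gap_absK_add (ms : ℕ → ℝ) (N k : ℕ) : ∀ (q : ℕ) (τ : ℕ → ℕ → ℕ) (Φ Ψ : (ℕ → ℕ → ℕ) → ℝ),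
    trAbsK ms N k q τ (fun τ' => Φ τ' + Ψ τ') = trAbsK ms N k q τ Φ + trAbsK ms N k q τ Ψ := by
  induction k with
  | zero => intro q τ Φ Ψ; rfl
  | succ k ih =>
    intro q τ Φ Ψ
    simp only [trAbsK, trAbs, ih, mul_add, Finset.sum_add_distrib]

theorem b19s_cpin_gap_sumK_sub (ms : ℕ → ℝ) (N k : ℕ) : ∀ (q : ℕ) (τ : ℕ → ℕ → ℕ) (Φ Ψ : (ℕ → ℕ → ℕ) → ℝ),
    trSumK ms N k q τ (fun τ' => Φ τ' - Ψ τ') = trSumK ms N k q τ Φ - trSumK ms N k q τ Ψ := by
  induction k with
  | zero => intro q τ Φ Ψ; rfl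
  | succ k ih =>
    intro q τ Φ Ψ
    simp only [trSumK, trSum, ih, mul_sub, Finset.sum_sub_distrib]

/-- the two paths as lists -/
theorem b19s_cpin_gap_split (ms T : ℕ → ℝ) (i d : ℕ) :
    b19sMk (i + d) ms T = b19sMk i ms T ++ (List.range d).map (fun j => (⟨ms (i + j), 0, T (i + j + 1) - T (i + j)⟩ : SkInc)) ∧
    b19sMk (i + d + 1) (b19sIm i ms) (b19sIt i 0 T)
      = b19sMk i ms T ++ (⟨ms i, 0, 0⟩ : SkInc) :: (List.range d).map (fun j => (⟨ms (i + j), 0, T (i + j + 1) - T (i + j)⟩ : SkInc)) := by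
  constructor
  · unfold b19sMk
    rw [List.range_add, List.map_append, List.map_map]
    rfl
  · unfold b19sMk
    rw [show i + d + 1 = i + (d + 1) by omega, List.range_add, List.map_append, List.range_succ_eq_map, List.map_cons, List.map_cons,
      List.map_map, List.map_map]
    congr 1
    · refine List.map_congr_left fun j hj => ?_
      rw [List.mem_range] at hj
      unfold b19sIm b19sIt
      rw [if_pos (by omega), if_pos (by omega), if_pos (by omega)]
    · congr 1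
      · unfold b19sIm b19sIt
        simp
      · refine List.map_congr_left fun j _ => ?_
        simp only [Function.comp]
        unfold b19sIm b19sIt
        rw [if_neg (by omega), if_neg (by omega), if_neg (by omega), if_neg (by omega)]
        have e1 : i + (j + 1) - 1 = i + j := by omega
        have e2 : i + (j + 1) + 1 - 1 = i + j + 1 := by omega
        rw [e1, e2]
        by_cases hj : j = 0
        · subst hj
          rw [if_pos rfl]
          simp
        · rw [if_neg (by omega)]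
          simp

theorem b19s_cpin_gap_empty (m : ℝ) (s : SkCfg 1) (x : SkDr 1) : ((⟨m, 0, 0⟩ : SkInc).lv 1).A s x = 0 := by
  unfold SkInc.lv ghLvF
  cases x <;> simp

theorem b19s_cpin_gap_adm {a : ℝ} {P : SkStp} (hP : SkAdm a P) : GhAdm (skBase 1 a) 0 (skLvs 1 P) := by
  constructor
  · unfold skLvs
    rw [List.pairwise_map]
    exact hP.1
  · intro l hl
    unfold skLvs at hl
    obtain ⟨e, he, rfl⟩ := List.mem_map.1 hl
    exact ⟨(hP.2 e he).1, (hP.2 e he).2.1⟩

/-- the tree which does not use the depth `i + 1` -/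
theorem b19s_cpin_gap_isTr {N q i : ℕ} (hi : i ≤ N) {τ : ℕ → ℕ → ℕ} (hτ : IsTr (N + 1) q τ) :
    IsTr (N + 1) q fun x y => if i < b19Col i (τ x y) then b19Col i (τ x y) + 1 else b19Col i (τ x y) := by
  refine ⟨?_, ?_, ?_, ?_⟩
  · intro x y hx hy
    have := hτ.le x y hx hy
    show (if i < b19Col i (τ x y) then b19Col i (τ x y) + 1 else b19Col i (τ x y)) ≤ N + 1 + 1
    unfold b19Col
    split_ifs <;> omega
  · intro x hx
    show (if i < b19Col i (τ x x) then b19Col i (τ x x) + 1 else b19Col i (τ x x)) = N + 1 + 1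
    rw [hτ.diag x hx]
    unfold b19Col
    split_ifs <;> omega
  · intro x y hx hy
    show (if i < b19Col i (τ x y) then b19Col i (τ x y) + 1 else b19Col i (τ x y))
      = if i < b19Col i (τ y x) then b19Col i (τ y x) + 1 else b19Col i (τ y x)
    rw [hτ.symm x y hx hy]
  · intro x y z hx hy hz
    have := hτ.ultra x y z hx hy hz
    show min (if i < b19Col i (τ x y) then b19Col i (τ x y) + 1 else b19Col i (τ x y))
      (if i < b19Col i (τ y z) then b19Col i (τ y z) + 1 else b19Col i (τ y z))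
      ≤ if i < b19Col i (τ x z) then b19Col i (τ x z) + 1 else b19Col i (τ x z)
    unfold b19Col
    split_ifs <;> omega

/-- the scalar tree moments do not see the empty level -/
theorem b19s_cpin_gap_nu {a : ℝ} (ha : 0 < a) {N : ℕ} {ms T : ℕ → ℝ} (h : B19sOk a N ms T) {i : ℕ} (hi : i < N) {q : ℕ}
    {τ' : ℕ → ℕ → ℕ} (hτ' : IsTr (N + 1) q τ') (A : Finset ℕ) :
    b19sNu a (b19sMk N ms T) q (fun x y => b19Col i (τ' x y)) A
      = b19sNu a (b19sMk (N + 1) (b19sIm i ms) (b19sIt i 0 T)) q τ' A := by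
  obtain ⟨d, rfl⟩ := Nat.exists_eq_add_of_le hi.le
  have hB : (skBase 1 a).Ok := slk_base_ok ha
  have hadm := b19s_cpin_gap_adm (b19s_mk_adm (b19s_ins_ok h hi (le_refl (0 : ℝ))))
  obtain ⟨e1, e2⟩ := b19s_cpin_gap_split ms T i d
  rw [e2] at hadm
  unfold b19sNu
  rw [e1, e2]
  set l₂ : SkStp := (List.range d).map (fun j => (⟨ms (i + j), 0, T (i + j + 1) - T (i + j)⟩ : SkInc)) with hl₂
  have f1 : skLvs 1 (b19sMk i ms T ++ l₂) = skLvs 1 (b19sMk i ms T) ++ skLvs 1 l₂ := by simp [skLvs]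
  have f2 : skLvs 1 (b19sMk i ms T ++ (⟨ms i, 0, 0⟩ : SkInc) :: l₂)
      = skLvs 1 (b19sMk i ms T) ++ (⟨ms i, 0, 0⟩ : SkInc).lv 1 :: skLvs 1 l₂ := by simp [skLvs]
  have hlen1 : (skLvs 1 (b19sMk i ms T)).length = i := by simp [skLvs, b19sMk]
  have hlen2 : (skLvs 1 l₂).length = d := by simp [skLvs, hl₂]
  rw [f2] at hadm
  rw [f1, f2]
  have hcol : IsTr (skLvs 1 (b19sMk i ms T) ++ skLvs 1 l₂).length q fun x y => b19Col i (τ' x y) := by
    rw [List.length_append, hlen1, hlen2]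
    exact b19_col_isTr hi.le hτ'
  have hL : (skLvs 1 (b19sMk i ms T) ++ (⟨ms i, 0, 0⟩ : SkInc).lv 1 :: skLvs 1 l₂).length = i + d + 1 := by
    rw [List.length_append, List.length_cons, hlen1, hlen2]; omega
  rw [← tr_nu_insert_empty hB (b19s_cpin_gap_empty (ms i)) hadm hcol 0 _, hlen1]
  refine tr_nu_empty_side hB (b19s_cpin_gap_empty (ms i)) hadm (by rw [hL]; exact b19s_cpin_gap_isTr hi.le hτ') (by rw [hL]; exact hτ')
    (fun x y _ _ => ?_) 0 _
  rw [hlen1]
  unfold b19Col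
  split_ifs <;> omega

theorem b19s_cpin_gap_ms (a : ℝ) {N : ℕ} (ms T : ℕ → ℝ) {i : ℕ} (hi : i < N) :
    b19Ins (skMs a (b19sMk N ms T)) i (ms i) = skMs a (b19sMk (N + 1) (b19sIm i ms) (b19sIt i 0 T)) := by
  funext j
  unfold b19Ins
  rw [b19s_mk_ms, b19s_mk_ms, b19s_mk_ms]
  unfold b19sIm
  split_ifs <;> first | rfl | (exfalso; omega) | (congr 1; omega)

theorem b19s_cpin_gap_star (N i : ℕ) (hi : i ≤ N) : (fun x y => b19Col i (b19Star (N + 1) (i + 1) x y)) = b19Star N i := by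
  funext x y
  unfold b19Col b19Star
  split_ifs <;> omega

theorem b19s_cpin_gap_isMs {a : ℝ} (ha : 0 < a) {N : ℕ} {ms T : ℕ → ℝ} (h : B19sOk a N ms T) : IsMs N (skMs a (b19sMk N ms T)) := by
  refine ⟨fun j => ?_, fun j k hjk hk => ?_⟩
  · rw [b19s_mk_ms]
    split_ifs with hj
    · exact h.m0 j hj
    · exact ha.le
  · rw [b19s_mk_ms, b19s_mk_ms]
    by_cases hkN : k < N
    · rw [if_pos hkN, if_pos (by omega)]
      exact h.mono_ms hjk hkN
    · rw [if_neg hkN]
      split_ifs with hj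
      · exact h.ma j hj
      · exact le_rfl

/-- the coefficient of the plain path, written on the refined path -/
theorem b19s_cpin_gap_e1 {a : ℝ} (ha : 0 < a) {N : ℕ} {ms T : ℕ → ℝ} (h : B19sOk a N ms T) {i : ℕ} (hi : i < N) :
    b19sCpin a (b19sMk N ms T) i
      = 1 / 8 * trSumK (skMs a (b19sMk (N + 1) (b19sIm i ms) (b19sIt i 0 T))) (N + 1) 4 2 (b19Star (N + 1) (i + 1)) fun τ' =>
        if b19Col i (τ' 2 3) = i ∧ b19Col i (τ' 4 5) = i then
          b19sNu a (b19sMk (N + 1) (b19sIm i ms) (b19sIt i 0 T)) 6 τ' (Finset.range 6) else 0 := by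
  have hst : IsTr (N + 1) 2 (b19Star (N + 1) (i + 1)) := b19_star_isTr (by omega) 2
  have hΦc : ∀ τ₁ τ₂ : ℕ → ℕ → ℕ, (∀ y z, y < 2 + 4 → z < 2 + 4 → τ₁ y z = τ₂ y z) →
      (if τ₁ 2 3 = i ∧ τ₁ 4 5 = i then b19sNu a (b19sMk N ms T) 6 τ₁ (Finset.range 6) else 0)
        = if τ₂ 2 3 = i ∧ τ₂ 4 5 = i then b19sNu a (b19sMk N ms T) 6 τ₂ (Finset.range 6) else 0 := by
    intro τ₁ τ₂ hh
    have n1 : b19sNu a (b19sMk N ms T) 6 τ₁ (Finset.range 6) = b19sNu a (b19sMk N ms T) 6 τ₂ (Finset.range 6) :=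
      tr_nu_congr _ _ (fun x y hx hy => hh x y hx hy) _ _
    rw [hh 2 3 (by norm_num) (by norm_num), hh 4 5 (by norm_num) (by norm_num), n1]
  have c := b19s_collapse (ms := skMs a (b19sMk N ms T)) hi.le (ms i) 4 hst
    (fun τ => if τ 2 3 = i ∧ τ 4 5 = i then b19sNu a (b19sMk N ms T) 6 τ (Finset.range 6) else 0) hΦc
  rw [b19s_cpin_gap_star N i hi.le, b19s_cpin_gap_ms a ms T hi] at c
  have e0 : b19sCpin a (b19sMk N ms T) i = 1 / 8 * trSumK (skMs a (b19sMk N ms T)) N 4 2 (b19Star N i) fun τ =>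
      if τ 2 3 = i ∧ τ 4 5 = i then b19sNu a (b19sMk N ms T) 6 τ (Finset.range 6) else 0 := by
    unfold b19sCpin
    rw [b19s_mk_length]
  rw [e0, ← c]
  refine congrArg (fun t : ℝ => 1 / 8 * t) ?_
  refine tr_sumK_congr hst 4 _ _ fun τ' hτ' _ => ?_
  have n2 := b19s_cpin_gap_nu ha h hi (q := 6) hτ' (Finset.range 6)
  simp only [n2]

/-- the difference of the two indicators -/
theorem b19s_cpin_gap_ind {i r s : ℕ} {x : ℝ} (hx : |x| ≤ 1) :
    |(if b19Col i r = i ∧ b19Col i s = i then x else 0) - (if r = i + 1 ∧ s = i + 1 then x else 0)|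
      ≤ (if r = i then 1 else 0) + (if s = i then 1 else 0) := by
  have c1 : ∀ r : ℕ, b19Col i r = i ↔ (r = i ∨ r = i + 1) := by
    intro r; unfold b19Col; split_ifs <;> omega
  simp only [c1]
  by_cases h23 : r = i
  · rw [if_pos h23]
    have z1 : (0 : ℝ) ≤ if s = i then 1 else 0 := by split_ifs <;> norm_num
    rw [if_neg (by omega : ¬ (r = i + 1 ∧ s = i + 1)), sub_zero]
    by_cases hc : (r = i ∨ r = i + 1) ∧ (s = i ∨ s = i + 1)
    · rw [if_pos hc]; linarith
    · rw [if_neg hc, abs_zero]; linarith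
  · rw [if_neg h23]
    by_cases h45 : s = i
    · rw [if_pos h45, if_neg (by omega : ¬ (r = i + 1 ∧ s = i + 1)), sub_zero]
      by_cases hc : (r = i ∨ r = i + 1) ∧ (s = i ∨ s = i + 1)
      · rw [if_pos hc]; linarith
      · rw [if_neg hc, abs_zero]; linarith
    · rw [if_neg h45]
      have : ((r = i ∨ r = i + 1) ∧ (s = i ∨ s = i + 1)) ↔ (r = i + 1 ∧ s = i + 1) := by omega
      simp only [this, sub_self, abs_zero, add_zero, le_refl]

/-- **(A2) INSERTION OF AN EMPTY LEVEL** of the mass `ms i` at the place `i` costs `C gap_i`.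
PROOF.  `b19s_collapse` (`t = i`, `μ = ms i`, `k = 4`, `q = 2`, `τ = b19Star (N+1) (i+1)`, `Φ τ = 1[τ23 = i ∧ τ45 = i] sc_P[τ]`):  `b19Ins (skMs a P) i (ms i) = skMs a P'`, `b19Col i ∘ b19Star (N+1) (i+1) = b19Star N i`;
`sc_P[b19Col i ∘ τ'] = sc_{P'}[τ']` (`tr_nu_insert_empty` + `tr_nu_empty_side`, `l₁ = ` the first `i` levels);   the two indicators differ only if `τ' 2 3 = i` or `τ' 4 5 = i`;   `|sc| ≤ 1`;
`|trSumK| ≤ trAbsK`, `tr_split_density 2 4 A0` (`j = i` is not a fork of the star at `i + 1`):  each of the two events has total mass `≤ C (ms' i - trPm ms' i) = C gap_i`. -/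
theorem b19s_cpin_gap (A0 : ℝ) : ∃ C : ℝ, 0 ≤ C ∧ ∀ (a : ℝ) (N : ℕ) (ms T : ℕ → ℝ) (i : ℕ), 0 < a → a ≤ A0 → B19sOk a N ms T → i < N →
    |b19sCpin a (b19sMk N ms T) i - b19sCpin a (b19sMk (N + 1) (b19sIm i ms) (b19sIt i 0 T)) (i + 1)|
      ≤ C * (ms i - if i = 0 then 0 else ms (i - 1)) := by
  obtain ⟨C, hC⟩ := tr_split_density 2 4 A0
  refine ⟨|C|, abs_nonneg _, fun a N ms T i ha haA h hi => ?_⟩
  have hok' := b19s_ins_ok h hi (le_refl (0 : ℝ))
  have hB : (skBase 1 a).Ok := slk_base_ok ha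
  have hadm' := b19s_cpin_gap_adm (b19s_mk_adm hok')
  have hst : IsTr (N + 1) 2 (b19Star (N + 1) (i + 1)) := b19_star_isTr (by omega) 2
  have hms' := b19s_cpin_gap_isMs ha hok'
  have e2 : b19sCpin a (b19sMk (N + 1) (b19sIm i ms) (b19sIt i 0 T)) (i + 1)
      = 1 / 8 * trSumK (skMs a (b19sMk (N + 1) (b19sIm i ms) (b19sIt i 0 T))) (N + 1) 4 2 (b19Star (N + 1) (i + 1)) fun τ' =>
      if τ' 2 3 = i + 1 ∧ τ' 4 5 = i + 1 then b19sNu a (b19sMk (N + 1) (b19sIm i ms) (b19sIt i 0 T)) 6 τ' (Finset.range 6) else 0 := by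
    unfold b19sCpin
    rw [b19s_mk_length]
  rw [b19s_cpin_gap_e1 ha h hi, e2, ← mul_sub, ← b19s_cpin_gap_sumK_sub, abs_mul, abs_of_nonneg (by norm_num : (0 : ℝ) ≤ 1 / 8)]
  generalize hP' : b19sMk (N + 1) (b19sIm i ms) (b19sIt i 0 T) = P' at *
  have htop : skMs a P' (N + 1) ≤ A0 := by rw [← hP', b19s_mk_ms, if_neg (by omega)]; exact haA
  have hgap : skMs a P' i - trPm (skMs a P') i = ms i - if i = 0 then 0 else ms (i - 1) := by
    unfold trPm
    rw [← hP', b19s_mk_ms, if_pos (by omega)]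
    have : b19sIm i ms i = ms i := by unfold b19sIm; rw [if_pos le_rfl]
    rw [this]
    by_cases h0 : i = 0
    · rw [if_pos h0, if_pos h0]
    · rw [if_neg h0, if_neg h0, b19s_mk_ms, if_pos (by omega)]
      unfold b19sIm
      rw [if_pos (by omega)]
  have hg0 : 0 ≤ skMs a P' i - trPm (skMs a P') i := sub_nonneg.2 (tra2_pm_le hms' (by omega))
  have hno : ∀ u v, u < 2 → v < 2 → b19Star (N + 1) (i + 1) u v ≠ i := fun u v _ _ => by
    unfold b19Star; split_ifs <;> omega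
  have d1 := hC (N + 1) _ _ hst hms' htop 2 3 i (by norm_num) (by norm_num) (by norm_num) (by norm_num) (by omega) hno
  have d2 := hC (N + 1) _ _ hst hms' htop 4 5 i (by norm_num) (by norm_num) (by norm_num) (by norm_num) (by omega) hno
  have hle : trAbsK (skMs a P') (N + 1) 4 2 (b19Star (N + 1) (i + 1)) (fun τ' =>
      |(if b19Col i (τ' 2 3) = i ∧ b19Col i (τ' 4 5) = i then b19sNu a P' 6 τ' (Finset.range 6) else 0)
        - (if τ' 2 3 = i + 1 ∧ τ' 4 5 = i + 1 then b19sNu a P' 6 τ' (Finset.range 6) else 0)|)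
      ≤ trAbsK (skMs a P') (N + 1) 4 2 (b19Star (N + 1) (i + 1)) (fun τ' =>
        (if τ' 2 3 = i then 1 else 0) + (if τ' 4 5 = i then 1 else 0)) :=
    trw_absK_mono _ _ _ _ _ fun τ' =>
      b19s_cpin_gap_ind (tcb_nu_abs_le hB hadm' 6 τ' 0 fun σ => (b19s_prod_abs _ σ).le)
  rw [b19s_cpin_gap_absK_add] at hle
  have hfin := (tr_sumK_le (ms := skMs a P') (N := N + 1) (q := 2) (τ := b19Star (N + 1) (i + 1)) 4 _).trans hle
  rw [← hgap]
  have hCa : C * (skMs a P' i - trPm (skMs a P') i) ≤ |C| * (skMs a P' i - trPm (skMs a P') i) :=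
    mul_le_mul_of_nonneg_right (le_abs_self _) hg0
  have hCb : 0 ≤ |C| * (skMs a P' i - trPm (skMs a P') i) := mul_nonneg (abs_nonneg _) hg0
  linarith

/-- the affine family which lengthens the level `i + 1` -/
def b19sCL (i N : ℕ) (ms T : ℕ → ℝ) : List (ℝ × ℝ × ℝ) :=
  (List.range (N + 1)).map fun j => (b19sIm i ms j, b19sIt i 0 T (j + 1) - b19sIt i 0 T j, if j = i + 1 then 1 else 0)

theorem b19s_cpin_cont_stp (i N : ℕ) (ms T : ℕ → ℝ) (θ : ℝ) :
    b19sStp (b19sCL i N ms T) θ = b19sMk (N + 1) (b19sIm i ms) (b19sIt i θ T) := by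
  unfold b19sStp b19sCL b19sMk
  rw [List.map_map]
  refine List.map_congr_left fun j _ => ?_
  simp only [Function.comp]
  congr 1
  unfold b19sIt
  split_ifs
  all_goals first | (exfalso; omega) | ring

theorem b19s_cpin_cont_adm {a : ℝ} {N : ℕ} {ms T : ℕ → ℝ} (h : B19sOk a N ms T) {i : ℕ} (hi : i < N) : B19sAdm a (b19sCL i N ms T) := by
  have hok := b19s_ins_ok h hi (le_refl (0 : ℝ))
  refine ⟨?_, ?_⟩
  · unfold b19sCL
    rw [List.map_map, List.pairwise_map]
    refine List.Pairwise.imp_of_mem ?_ (List.pairwise_lt_range)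
    intro j k _ hk hjk
    exact hok.mono_ms hjk.le (List.mem_range.1 hk)
  · intro p hp
    unfold b19sCL at hp
    rw [List.mem_map] at hp
    obtain ⟨j, hj, rfl⟩ := hp
    rw [List.mem_range] at hj
    have h1 := sub_nonneg.2 (hok.Tm j hj)
    refine ⟨hok.m0 j hj, hok.ma j hj, h1, ?_⟩
    show 0 ≤ b19sIt i 0 T (j + 1) - b19sIt i 0 T j + if j = i + 1 then 1 else 0
    split_ifs <;> linarith

/-- **(A3) CONTINUITY** in the length of the level which follows the cut.
PROOF.  `L := (List.range (N+1)).map fun j => (b19sIm i ms j, b19sIt i 0 T (j+1) - b19sIt i 0 T j, if j = i + 1 then 1 else 0)`:  `b19sStp L θ = b19sMk (N+1) (b19sIm i ms) (b19sIt i θ T)`, `B19sAdm a L`;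
`b19s_gc`, `b19s_gcMs`, `tr_c3_contDiffOn_nat` (`n = 0`) and `tr_c3_sumK_contDiffOn`:  continuity on `Icc 0 1`. -/
theorem b19s_cpin_cont {a : ℝ} (ha : 0 < a) {N : ℕ} {ms T : ℕ → ℝ} (h : B19sOk a N ms T) {i : ℕ} (hi : i < N) :
    Tendsto (fun σ => b19sCpin a (b19sMk (N + 1) (b19sIm i ms) (b19sIt i σ T)) (i + 1)) (𝓝[>] 0)
      (𝓝 (b19sCpin a (b19sMk (N + 1) (b19sIm i ms) (b19sIt i 0 T)) (i + 1))) := by
  set L := b19sCL i N ms T with hL
  have hadm : B19sAdm a L := b19s_cpin_cont_adm h hi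
  have hB : (skBase 1 a).Ok := slk_base_ok ha
  have hlen : (b19sHs L).length = N + 1 := by rw [b19s_hs_length, hL]; simp [b19sCL]
  have hTu : TrUses 6 fun σ : ℕ → SkCfg 1 => ∏ x ∈ Finset.range 6, slkSp (σ x) := b19s_prod_uses fun x hx => Finset.mem_range.1 hx
  -- the `gc` form
  set f : ℝ → ℝ := fun θ => 1 / 8 * trSumK (gcMs a (b19sHs L)) (N + 1) 4 2 (b19Star (N + 1) (i + 1)) fun τ =>
    if τ 2 3 = i + 1 ∧ τ 4 5 = i + 1 then gcNu (skBase 1 a) b19sFeat (b19sHs L) θ 6 τ 0 (fun σ => ∏ x ∈ Finset.range 6, slkSp (σ x)) else 0 with hf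
  have hEq : ∀ θ ∈ Icc (0 : ℝ) 1, b19sCpin a (b19sMk (N + 1) (b19sIm i ms) (b19sIt i θ T)) (i + 1) = f θ := by
    intro θ hθ
    rw [← b19s_cpin_cont_stp i N ms T θ]
    unfold b19sCpin b19sNu
    rw [b19s_stp_length, show (b19sCL i N ms T).length = N + 1 by simp [b19sCL]]
    have e1 : skMs a (b19sStp (b19sCL i N ms T) θ) = gcMs a (b19sHs L) := funext fun j => (b19s_gcMs a L θ j).symm
    rw [e1]
    simp only [hf, b19s_gc hadm hθ]
    rfl
  have hc : ContinuousOn f (Icc 0 1) := by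
    have := tr_c3_sumK_contDiffOn (ms := gcMs a (b19sHs L)) (b19_star_isTr (N := N + 1) (i := i + 1) (by omega) 2) 4
      (fun τ θ => if τ 2 3 = i + 1 ∧ τ 4 5 = i + 1 then
        gcNu (skBase 1 a) b19sFeat (b19sHs L) θ 6 τ 0 (fun σ => ∏ x ∈ Finset.range 6, slkSp (σ x)) else 0) (Icc (0 : ℝ) 1) 0
      (fun τ' hτ' => by
        by_cases hc : τ' 2 3 = i + 1 ∧ τ' 4 5 = i + 1
        · simp only [if_pos hc]
          have := tr_c3_contDiffOn_nat hB b19sFeat (b19s_adm hadm) 0 0 (q := 6) (τ := τ') (by rw [hlen]; exact hτ') _ hTu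
          simpa using this
        · simp only [if_neg hc]
          exact contDiffOn_const)
    exact continuousOn_const.mul this.continuousOn
  have h0 : (0 : ℝ) ∈ Icc (0 : ℝ) 1 := by simp
  have ht : Tendsto f (𝓝[>] 0) (𝓝 (f 0)) :=
    (hc 0 h0).tendsto.mono_left (nhdsWithin_le_of_mem (Icc_mem_nhdsGT zero_lt_one))
  rw [hEq 0 h0]
  refine ht.congr' ?_
  filter_upwards [Ioo_mem_nhdsGT (zero_lt_one' ℝ)] with σ hσ
  exact (hEq σ (Ioo_subset_Icc_self hσ)).symm

end Claimed.Agent.R286
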