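import Claimed.Agent.R286.Bud.C19Sc

/-!
# Row 286, LL sec. 7, node N17 = (C19): THE SCALAR BLOCK, stability      (OWNER helper184; prefix `b19s`)

TEX[LL:bud:closure] l.1959-2007: the coefficient of `D²` is `Γ_s''/2`.      Everything here is SCALAR (no chains, no world): index data `(N, ms, T)` of `Bud/C19Sc.lean` sec. 5 against a coefficient `α`.
Tools: `Sc/Two.lean`, `Sc/TwoX.lean` (helper250, PROVED: `sc2_T4`, `sc2_mom_lim`, `sc2_cont`, `sc2_M2_eq`, `sc2_gen`), `Sc/App.lean` (`sc_ann_*`), `Sc/Contract.lean` (`sc_x_hz_Al_*`).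

* `B19sCl a α δ μ N ms T`   the mass profile of `(N, ms, T)` is sandwiched:  `α(r - δ) ≤ profile(r) ≤ α(r + δ) + μ`  (index form)
* `b19s_cl_l1`     ⟹ `∫_0^τ |scAl (completed profile) - α| ≤ 2 δ a + μ τ`
* `b19s_stab`      Lipschitz dependence of `M2, M3, N3, Γ` (step profile against a general coefficient) on the `L¹` distance
* `b19s_eval`      `|2 cpin_{e+1} - (N₃ - 2 m_e M₃)_α(T_e)| ≤ C (δ + μ)` behind an empty level
* `b19s_path`      secant bound on `Γ' = M2` across a continuity point `t0` of `α` ⟹ `|N₃ - 2 α M₃|(t0) ≤ G`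
* **`b19s_main`**  `|2 cpin_i| ≤ G + δ0` for all data which are `ε`-close to `(α, t0, v0)`
-/

set_option autoImplicit false

namespace Claimed.Agent.R286

open MeasureTheory Set Filter Topology

/-- the mass profile of `(N, ms, T)` (completed by the mass `a`) is sandwiched between `α(· - δ)` and `α(· + δ) + μ` -/
structure B19sCl (a : ℝ) (α : ℝ → ℝ) (δ μ : ℝ) (N : ℕ) (ms T : ℕ → ℝ) : Prop where
  up : ∀ j, j < N → ∀ r, r + δ < T (j + 1) → α r ≤ ms j
  lo : ∀ j, j < N → ∀ r, T j ≤ r → ms j - μ ≤ α (r + δ)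
  top : ∀ r, T N ≤ r → a - μ ≤ α (r + δ)

/-- the scalar profile of `(N, ms, T)`, completed up to the horizon `τ` by an annealed step -/
def b19sPc (a τ : ℝ) (N : ℕ) (ms T : ℕ → ℝ) : List (ℝ × ℝ) := slkPi (b19sMk N ms T) ++ [(a, τ - T N)]

theorem b19s_eqns_cite6 : True := by
  have := @b19sPc.eq_1
  trivial

/-! ## 1. the completed profile -/

theorem b19s_pc_adm {a τ : ℝ} (ha : 0 ≤ a) {N : ℕ} {ms T : ℕ → ℝ} (h : B19sOk a N ms T) (hτ : T N ≤ τ) :
    ScAdm a (b19sPc a τ N ms T) ∧ ScInc (b19sPc a τ N ms T) ∧ scLen (b19sPc a τ N ms T) = τ := by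
  refine ⟨?_, ?_, ?_⟩
  · intro p hp
    unfold b19sPc at hp
    rw [List.mem_append, List.mem_singleton] at hp
    rcases hp with hp | rfl
    · obtain ⟨j, hj, rfl⟩ := b19s_mk_pi_mem hp
      exact ⟨h.m0 j hj, h.ma j hj, sub_nonneg.2 (h.Tm j hj)⟩
    · exact ⟨ha, le_rfl, sub_nonneg.2 hτ⟩
  · unfold ScInc b19sPc
    rw [List.pairwise_append]
    refine ⟨?_, List.pairwise_singleton _ _, ?_⟩
    · unfold slkPi b19sMk
      rw [List.map_map, List.pairwise_map]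
      refine List.Pairwise.imp_of_mem ?_ (List.pairwise_lt_range)
      intro j k _ hk hjk
      exact h.mono_ms hjk.le (List.mem_range.1 hk)
    · intro p hp q hq
      rw [List.mem_singleton] at hq
      subst hq
      obtain ⟨j, hj, rfl⟩ := b19s_mk_pi_mem hp
      exact h.ma j hj
  · unfold b19sPc
    rw [sc_len_append, b19s_mk_len, h.T0]
    simp [scLen]

/-- horizon independence (`sc_ann_Ex`, `sc_ann_D`) -/
theorem b19s_pc_mom {a τ : ℝ} (ha : 0 < a) {N : ℕ} {ms T : ℕ → ℝ} (h : B19sOk a N ms T) (hτ : T N ≤ τ) {t : ℝ} (h0 : 0 ≤ t) (ht : t ≤ T N) :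
    scN3 (scLC a) (b19sPc a τ N ms T) t = scN3 (scLC a) (slkPi (b19sMk N ms T)) t ∧
      scM3 (scLC a) (b19sPc a τ N ms T) t = scM3 (scLC a) (slkPi (b19sMk N ms T)) t := by
  have hl : t ≤ scLen (slkPi (b19sMk N ms T)) := by rw [b19s_mk_len, h.T0, sub_zero]; exact ht
  unfold scN3 scM3 b19sPc
  rw [sc_ann_Ex ha.ne' (sub_nonneg.2 hτ) _ hl, sc_ann_Ex ha.ne' (sub_nonneg.2 hτ) _ hl, sc_ann_D ha.ne' (sub_nonneg.2 hτ) 2 _ h0 hl,
    sc_ann_D ha.ne' (sub_nonneg.2 hτ) 1 _ h0 hl]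
  exact ⟨rfl, rfl⟩

/-- the mass at the time `r` (`sc_x_hz_Al_lt`, `sc_x_hz_Al_ge`; induction on `N` from the right: `slkPi (b19sMk (N+1) ..) = slkPi (b19sMk N ..) ++ [(ms N, T (N+1) - T N)]`) -/
theorem b19s_pc_al {a τ : ℝ} {N : ℕ} {ms T : ℕ → ℝ} (h : B19sOk a N ms T) :
    (∀ j, j < N → ∀ r, T j ≤ r → r < T (j + 1) → scAl (b19sPc a τ N ms T) r = ms j) ∧
      ∀ r, T N ≤ r → r < τ → scAl (b19sPc a τ N ms T) r = a := by
  have hl : scLen (slkPi (b19sMk N ms T)) = T N := by rw [b19s_mk_len, h.T0, sub_zero]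
  refine ⟨fun j hj r h1 h2 => ?_, fun r h1 h2 => ?_⟩
  · unfold b19sPc
    rw [sc_app_Al_left _ _ ((h.T_nonneg hj.le).trans h1) (by rw [hl]; exact h2.trans_le (h.mono_T hj le_rfl))]
    exact b19s_mk_al h j hj r h1 h2
  · unfold b19sPc
    have e2 : r = scLen (slkPi (b19sMk N ms T)) + (r - T N) := by rw [hl]; ring
    rw [e2, sc_app_Al_right (b19s_mk_pos h) _ (by linarith)]
    simp only [scAl]
    rw [if_neg (by linarith)]

/-! ## 2. `L¹` closeness -/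

/-- a function which is sandwiched between two translates of a monotone function is `L¹`-close to it:
`|β - α| ≤ α(· + δ) - α(· - δ) + μ`, and `∫_0^τ (α(r + δ) - α(r - δ)) dr = ∫_{τ-δ}^{τ+δ} α - ∫_{-δ}^{δ} α ≤ 2 δ a` -/
theorem b19s_l1 {a τ δ μ : ℝ} {α β : ℝ → ℝ} (hα : Monotone α) (hr : ∀ r, 0 ≤ α r ∧ α r ≤ a) (hτ : 0 ≤ τ) (hδ : 0 ≤ δ) (hμ : 0 ≤ μ)
    (hβ : IntervalIntegrable β volume 0 τ) (lo : ∀ r ∈ Ico 0 τ, α (r - δ) ≤ β r) (hi : ∀ r ∈ Ico 0 τ, β r ≤ α (r + δ) + μ) :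
    ∫ r in (0 : ℝ)..τ, |β r - α r| ≤ 2 * δ * a + μ * τ := by
  have iα : ∀ x y : ℝ, IntervalIntegrable α volume x y := fun x y => hα.intervalIntegrable
  have i1 : IntervalIntegrable (fun r => α (r + δ)) volume 0 τ :=
    (hα.comp (fun x y h => by linarith : Monotone fun r : ℝ => r + δ)).intervalIntegrable
  have i2 : IntervalIntegrable (fun r => α (r - δ)) volume 0 τ :=
    (hα.comp (fun x y h => by linarith : Monotone fun r : ℝ => r - δ)).intervalIntegrable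
  have hle : ∫ r in (0 : ℝ)..τ, |β r - α r| ≤ ∫ r in (0 : ℝ)..τ, (α (r + δ) - α (r - δ) + μ) := by
    refine intervalIntegral.integral_mono_on_of_le_Ioo hτ (hβ.sub (iα 0 τ)).abs ((i1.sub i2).add intervalIntegrable_const) fun r hr' => ?_
    have h1 := lo r ⟨hr'.1.le, hr'.2⟩
    have h2 := hi r ⟨hr'.1.le, hr'.2⟩
    have h3 : α (r - δ) ≤ α r := hα (by linarith)
    have h4 : α r ≤ α (r + δ) := hα (by linarith)
    rw [abs_le]
    constructor <;> linarith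
  refine hle.trans ?_
  rw [intervalIntegral.integral_add (i1.sub i2) intervalIntegrable_const, intervalIntegral.integral_sub i1 i2,
    intervalIntegral.integral_comp_add_right, intervalIntegral.integral_comp_sub_right, intervalIntegral.integral_const,
    smul_eq_mul, sub_zero, zero_add, zero_sub,
    intervalIntegral.integral_interval_sub_interval_comm (iα _ _) (iα _ _) (iα _ _)]
  have u1 : ∫ r in (τ - δ)..(τ + δ), α r ≤ ∫ _r in (τ - δ)..(τ + δ), a :=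
    intervalIntegral.integral_mono_on (by linarith) (iα _ _) intervalIntegrable_const fun r _ => (hr r).2
  have u2 : 0 ≤ ∫ r in (-δ)..δ, α r := intervalIntegral.integral_nonneg (by linarith) fun r _ => (hr r).1
  rw [intervalIntegral.integral_const, smul_eq_mul] at u1
  rw [intervalIntegral.integral_symm (-δ) δ, intervalIntegral.integral_symm (τ - δ) (τ + δ)]
  nlinarith

theorem b19s_cl_l1 {a τ δ μ : ℝ} (ha : 0 ≤ a) {α : ℝ → ℝ} (hα : Monotone α) (hr : ∀ r, 0 ≤ α r ∧ α r ≤ a) (hδ : 0 ≤ δ) (hμ : 0 ≤ μ)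
    {N : ℕ} {ms T : ℕ → ℝ} (h : B19sOk a N ms T) (hτ : T N ≤ τ) (hc : B19sCl a α δ μ N ms T) :
    ∫ r in (0 : ℝ)..τ, |scAl (b19sPc a τ N ms T) r - α r| ≤ 2 * δ * a + μ * τ := by
  have hτ0 : 0 ≤ τ := (h.T_nonneg le_rfl).trans hτ
  obtain ⟨hadm, -, -⟩ := b19s_pc_adm ha h hτ
  obtain ⟨al1, al2⟩ := b19s_pc_al (a := a) (τ := τ) h
  refine b19s_l1 hα hr hτ0 hδ hμ (scg_al_int _ 0 τ) (fun r hr' => ?_) (fun r hr' => ?_)
  · rcases b19s_find h hr'.1 with ⟨j, hj, h1, h2⟩ | h1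
    · rw [al1 j hj r h1 h2]
      exact hc.up j hj _ (by linarith)
    · rw [al2 r h1 hr'.2]
      exact (hr _).2
  · rcases b19s_find h hr'.1 with ⟨j, hj, h1, h2⟩ | h1
    · rw [al1 j hj r h1 h2]
      linarith [hc.lo j hj r h1]
    · rw [al2 r h1 hr'.2]
      linarith [hc.top r h1]

/-- the sandwich survives the insertion of an empty level and the lengthening by `σ` -/
theorem b19s_ins_cl {a δ μ σ : ℝ} {α : ℝ → ℝ} (hα : Monotone α) (hσ : 0 ≤ σ) {N : ℕ} {ms T : ℕ → ℝ} (h : B19sOk a N ms T)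
    {i : ℕ} (hi : i < N) (hc : B19sCl a α δ μ N ms T) : B19sCl a α (δ + σ) μ (N + 1) (b19sIm i ms) (b19sIt i σ T) := by
  refine ⟨fun j hj r hr => ?_, fun j hj r hr => ?_, fun r hr => ?_⟩
  · unfold b19sIt at hr
    unfold b19sIm
    by_cases h1 : j + 1 ≤ i
    · rw [if_pos h1] at hr
      rw [if_pos (by omega)]
      exact hc.up j (by omega) r (by linarith)
    · rw [if_neg h1] at hr
      by_cases h2 : j = i
      · subst h2
        rw [if_pos rfl] at hr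
        rw [if_pos le_rfl]
        exact hc.up j hi r (by linarith [h.Tm j hi])
      · rw [if_neg (by omega)] at hr
        rw [if_neg (by omega)]
        simp only [Nat.add_sub_cancel] at hr
        refine hc.up (j - 1) (by omega) r ?_
        rw [show j - 1 + 1 = j by omega]
        linarith
  · unfold b19sIt at hr
    unfold b19sIm
    have hmono : α (r + δ) ≤ α (r + (δ + σ)) := hα (by linarith)
    by_cases h1 : j ≤ i
    · rw [if_pos h1] at hr
      rw [if_pos h1]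
      exact (hc.lo j (by omega) r hr).trans hmono
    · rw [if_neg h1] at hr
      rw [if_neg h1]
      by_cases h2 : j = i + 1
      · subst h2
        rw [if_pos rfl] at hr
        simp only [Nat.add_sub_cancel]
        exact (hc.lo i hi r hr).trans hmono
      · rw [if_neg h2] at hr
        exact (hc.lo (j - 1) (by omega) r (by linarith)).trans hmono
  · unfold b19sIt at hr
    rw [if_neg (by omega), if_neg (by omega)] at hr
    simp only [Nat.add_sub_cancel] at hr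
    exact (hc.top r (by linarith)).trans (hα (by linarith))

/-! ## 3. stability of the moment curves -/

/-- **a step profile against a general coefficient** (copy of the proof of `sc2_unif`: `sc2_T4` for the pair `(π, scDy α τ m)`, `sc2_JW_le`, `m → ∞` with `sc2_mom_lim`, `scg_dy_apx`) -/
theorem b19s_stab {a τ : ℝ} (ha : 0 < a) (hτ : 0 < τ) : ∃ C : ℝ, 0 ≤ C ∧
    ∀ α : ℝ → ℝ, ScCoef a τ α → ∀ π : List (ℝ × ℝ), ScAdm a π → ScInc π → scLen π = τ → ∀ t ∈ Icc 0 τ,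
      |scM2 (scLC a) π t - scaM2 (scLC a) α τ t| ≤ C * ∫ r in (0 : ℝ)..τ, |scAl π r - α r| ∧
      |scM3 (scLC a) π t - scaM3 (scLC a) α τ t| ≤ C * ∫ r in (0 : ℝ)..τ, |scAl π r - α r| ∧
      |scN3 (scLC a) π t - scaN3 (scLC a) α τ t| ≤ C * ∫ r in (0 : ℝ)..τ, |scAl π r - α r| ∧
      |scGam (scLC a) π t - scaGam (scLC a) α τ t| ≤ C * ∫ r in (0 : ℝ)..τ, |scAl π r - α r| := by
  obtain ⟨A, hA0, HH⟩ := sc2_dy_H ha hτ
  obtain ⟨C, hC0, H4⟩ := sc2_T4 ha.le hτ.le hA0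
  refine ⟨C * (1 + 2 * τ + τ ^ 2), by positivity, fun α hα π hadm hinc hlen t ht => ?_⟩
  have hX := scg_dy_apx hτ.le hα
  set e : ℕ → ℝ := fun n => ∫ r in (0 : ℝ)..τ, |scAl (scDy α τ n) r - α r| with he
  set E : ℝ := ∫ r in (0 : ℝ)..τ, |scAl π r - α r| with hE
  have he0 : ∀ n, 0 ≤ e n := fun n => intervalIntegral.integral_nonneg hτ.le fun _ _ => abs_nonneg _
  have hE0 : 0 ≤ E := intervalIntegral.integral_nonneg hτ.le fun _ _ => abs_nonneg _
  have iE : IntervalIntegrable (fun r => |scAl π r - α r|) volume 0 τ := ((scg_al_int π 0 τ).sub hX.int).abs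
  obtain ⟨a1, a2, a3, a4⟩ := sc2_mom_lim ha hτ hα ht
  have hlim : Tendsto (fun m => C * (1 + 2 * τ + τ ^ 2) * (E + e m)) atTop (𝓝 (C * (1 + 2 * τ + τ ^ 2) * E)) := by
    have := (hX.l1.const_add E).const_mul (C * (1 + 2 * τ + τ ^ 2))
    rwa [add_zero] at this
  have key : ∀ m, sc2J (scAl π) (scAl (scDy α τ m)) τ t ≤ E + e m ∧
      sc2W (scAl π) (scAl (scDy α τ m)) τ t ≤ (τ + τ ^ 2) * (E + e m) := by
    intro m
    refine sc2_JW_le hτ.le (sc2_al_int ha.le hadm (hX.adm m) 0 τ) ?_ ht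
    simp only [he, hE]
    rw [← intervalIntegral.integral_add iE (hX.int_abs m le_rfl hτ.le le_rfl)]
    refine intervalIntegral.integral_mono_on hτ.le (sc2_al_int ha.le hadm (hX.adm m) 0 τ)
      (iE.add (hX.int_abs m le_rfl hτ.le le_rfl)) fun r _ => ?_
    have h2 : scAl π r - scAl (scDy α τ m) r = (scAl π r - α r) - (scAl (scDy α τ m) r - α r) := by ring
    rw [h2]
    exact abs_sub _ _
  have HP : ∀ m, Sc2H a τ A (scLC a) π (scDy α τ m) := fun m =>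
    ⟨(HH α α hα hα m m).bi, (HH α α hα hα m m).ev, (HH α α hα hα m m).nF, hadm, (HH α α hα hα m m).adm', hinc,
      (HH α α hα hα m m).inc', hlen, (HH α α hα hα m m).len'⟩
  have K := fun m => H4 (scLC a) _ _ (HP m) t ht
  have hJ0 : ∀ m, 0 ≤ sc2J (scAl π) (scAl (scDy α τ m)) τ t := fun m => sc2J_nonneg _ _ ht.2
  have b1 : ∀ m, C * (sc2J (scAl π) (scAl (scDy α τ m)) τ t + sc2W (scAl π) (scAl (scDy α τ m)) τ t)
      ≤ C * (1 + 2 * τ + τ ^ 2) * (E + e m) := fun m => by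
    rw [mul_assoc]
    refine mul_le_mul_of_nonneg_left ?_ hC0
    have := key m
    have h3 : 0 ≤ τ * (E + e m) := mul_nonneg hτ.le (add_nonneg hE0 (he0 m))
    nlinarith [this.1, this.2]
  have b2 : ∀ m, C * (t * sc2J (scAl π) (scAl (scDy α τ m)) τ t + sc2W (scAl π) (scAl (scDy α τ m)) τ t)
      ≤ C * (1 + 2 * τ + τ ^ 2) * (E + e m) := fun m => by
    rw [mul_assoc]
    refine mul_le_mul_of_nonneg_left ?_ hC0
    have := key m
    have h3 : t * sc2J (scAl π) (scAl (scDy α τ m)) τ t ≤ τ * (E + e m) :=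
      mul_le_mul ht.2 this.1 (hJ0 m) hτ.le
    have h4 : 0 ≤ E + e m := add_nonneg hE0 (he0 m)
    nlinarith [this.2]
  exact ⟨le_of_tendsto_of_tendsto' (a1.const_sub _).abs hlim (fun m => ((K m).1).trans (b1 m)),
    le_of_tendsto_of_tendsto' (a2.const_sub _).abs hlim (fun m => ((K m).2.1).trans (b1 m)),
    le_of_tendsto_of_tendsto' (a3.const_sub _).abs hlim (fun m => ((K m).2.2.1).trans (b2 m)),
    le_of_tendsto_of_tendsto' (a4.const_sub _).abs hlim (fun m => ((K m).2.2.2.1).trans (b2 m))⟩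

/-- **evaluation of `cpin` behind an empty level** -/
theorem b19s_eval {a τ : ℝ} (ha : 0 < a) (hτ : 0 < τ) : ∃ C : ℝ, 0 ≤ C ∧
    ∀ α : ℝ → ℝ, Monotone α → (∀ r, 0 ≤ α r ∧ α r ≤ a) → ∀ (δ μ : ℝ) (N : ℕ) (ms T : ℕ → ℝ) (e : ℕ), 0 ≤ δ → 0 ≤ μ →
      B19sOk a N ms T → e + 1 < N → T (e + 1) = T e → ms (e + 1) = ms e → T (e + 1) < T (e + 2) → T N ≤ τ → B19sCl a α δ μ N ms T →
      |2 * b19sCpin a (b19sMk N ms T) (e + 1) - (scaN3 (scLC a) α τ (T e) - 2 * ms e * scaM3 (scLC a) α τ (T e))| ≤ C * (δ + μ) := by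
  obtain ⟨C, hC0, H⟩ := b19s_stab ha hτ
  refine ⟨C * (1 + 2 * a) * (2 * a + τ), by positivity, fun α hα hr δ μ N ms T e hδ hμ h he hT hm hs hτN hc => ?_⟩
  have hco : ScCoef a τ α := ⟨hα.monotoneOn _, fun t _ => hr t⟩
  obtain ⟨hadm, hinc, hlen⟩ := b19s_pc_adm ha.le h hτN
  have hl1 := b19s_cl_l1 ha.le hα hr hδ hμ h hτN hc
  have hTe0 : 0 ≤ T e := h.T_nonneg (by omega)
  have hTeN : T e ≤ T N := h.mono_T (by omega) le_rfl
  obtain ⟨-, k3, kN, -⟩ := H α hco _ hadm hinc hlen (T e) ⟨hTe0, hTeN.trans hτN⟩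
  obtain ⟨eN, e3⟩ := b19s_pc_mom ha h hτN hTe0 hTeN
  rw [b19s_cpin_pos ha h he hT hm hs, hT, ← eN, ← e3]
  set I := ∫ r in (0 : ℝ)..τ, |scAl (b19sPc a τ N ms T) r - α r| with hI
  have hI0 : 0 ≤ I := intervalIntegral.integral_nonneg hτ.le fun _ _ => abs_nonneg _
  have hme : 0 ≤ ms e ∧ ms e ≤ a := ⟨h.m0 e (by omega), h.ma e (by omega)⟩
  have e1 : scN3 (scLC a) (b19sPc a τ N ms T) (T e) - 2 * ms e * scM3 (scLC a) (b19sPc a τ N ms T) (T e)
      - (scaN3 (scLC a) α τ (T e) - 2 * ms e * scaM3 (scLC a) α τ (T e))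
      = (scN3 (scLC a) (b19sPc a τ N ms T) (T e) - scaN3 (scLC a) α τ (T e))
        - 2 * ms e * (scM3 (scLC a) (b19sPc a τ N ms T) (T e) - scaM3 (scLC a) α τ (T e)) := by ring
  rw [e1]
  have h2 : |2 * ms e * (scM3 (scLC a) (b19sPc a τ N ms T) (T e) - scaM3 (scLC a) α τ (T e))| ≤ 2 * a * (C * I) := by
    rw [abs_mul, abs_of_nonneg (by linarith [hme.1] : (0 : ℝ) ≤ 2 * ms e)]
    exact mul_le_mul (by linarith [hme.2]) k3 (abs_nonneg _) (by positivity)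
  have h3 := abs_sub (scN3 (scLC a) (b19sPc a τ N ms T) (T e) - scaN3 (scLC a) α τ (T e))
    (2 * ms e * (scM3 (scLC a) (b19sPc a τ N ms T) (T e) - scaM3 (scLC a) α τ (T e)))
  have h4 : I ≤ (2 * a + τ) * (δ + μ) := by nlinarith [mul_nonneg ha.le hμ, mul_nonneg hτ.le hδ]
  have h5 : C * (1 + 2 * a) * I ≤ C * (1 + 2 * a) * ((2 * a + τ) * (δ + μ)) :=
    mul_le_mul_of_nonneg_left h4 (by positivity)
  nlinarith

/-! ## 4. the path -/

/-- **`|Γ''(t0)| ≤ G`** at a continuity point of the coefficient, from secants of `Γ' = M2` ACROSS `t0` at arbitrarily small scales.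
PROOF. `sc2_M2_eq`: `M2 t2 - M2 t1 = ∫_{t1}^{t2} (N₃ - 2 α M₃)`;   the integrand is continuous at `t0` (`sc2_cont`, `hc`): within `ε` of its value `L` at `t0` on `(t0 - η, t0 + η)`;  so `|M2 t2 - M2 t1 - L (t2 - t1)| ≤ ε (t2 - t1)`, `|L| ≤ G + ε`. -/
theorem b19s_path {a τ : ℝ} (ha : 0 < a) (hτ : 0 < τ) {α : ℝ → ℝ} (hα : ScCoef a τ α) {t0 G : ℝ} (ht0 : t0 ∈ Ioo 0 τ)
    (hc : ContinuousAt α t0)
    (hG : ∀ η : ℝ, 0 < η → ∃ t1 t2 : ℝ, t0 - η < t1 ∧ t1 < t0 ∧ t0 < t2 ∧ t2 < t0 + η ∧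
      |scaM2 (scLC a) α τ t2 - scaM2 (scLC a) α τ t1| ≤ G * (t2 - t1)) :
    |scaN3 (scLC a) α τ t0 - 2 * α t0 * scaM3 (scLC a) α τ t0| ≤ G := by
  obtain ⟨-, c3, cN, -⟩ := sc2_cont ha hτ hα
  have hnh : Icc 0 τ ∈ 𝓝 t0 := Icc_mem_nhds ht0.1 ht0.2
  have c3' : ContinuousAt (scaM3 (scLC a) α τ) t0 := c3.continuousAt hnh
  have cN' : ContinuousAt (scaN3 (scLC a) α τ) t0 := cN.continuousAt hnh
  set g : ℝ → ℝ := fun r => scaN3 (scLC a) α τ r - 2 * α r * scaM3 (scLC a) α τ r with hg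
  have cg : ContinuousAt g t0 := cN'.sub ((continuousAt_const.mul hc).mul c3')
  refine le_of_forall_pos_le_add fun ε hε => ?_
  obtain ⟨η0, hη0, Hη⟩ := Metric.continuousAt_iff.1 cg ε hε
  set η := min η0 (min t0 (τ - t0)) with hη
  have hηpos : 0 < η := lt_min hη0 (lt_min ht0.1 (sub_pos.2 ht0.2))
  have hη1 : η ≤ η0 := min_le_left _ _
  have hη2 : η ≤ t0 := (min_le_right _ _).trans (min_le_left _ _)
  have hη3 : η ≤ τ - t0 := (min_le_right _ _).trans (min_le_right _ _)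
  obtain ⟨t1, t2, h1, h2, h3, h4, h5⟩ := hG η hηpos
  have m1 : t1 ∈ Icc 0 τ := ⟨by linarith, by linarith⟩
  have m2 : t2 ∈ Icc 0 τ := ⟨by linarith, by linarith⟩
  have h12 : t1 < t2 := h2.trans h3
  have hsub : Icc t1 t2 ⊆ Icc 0 τ := Icc_subset_Icc m1.1 m2.2
  have eq := sc2_M2_eq ha hτ hα m1 m2
  have hX := scg_dy_apx hτ.le hα
  have ig : IntervalIntegrable g volume t1 t2 := by
    have i1 : IntervalIntegrable α volume t1 t2 := by
      refine hX.int.mono_set ?_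
      rw [uIcc_of_le h12.le, uIcc_of_le hτ.le]; exact hsub
    have i2 : IntervalIntegrable (fun r => 2 * α r * scaM3 (scLC a) α τ r) volume t1 t2 := by
      refine (i1.const_mul 2).mul_continuousOn ?_
      rw [uIcc_of_le h12.le]; exact c3.mono hsub
    have i3 : IntervalIntegrable (scaN3 (scLC a) α τ) volume t1 t2 := by
      refine ContinuousOn.intervalIntegrable ?_
      rw [uIcc_of_le h12.le]; exact cN.mono hsub
    exact i3.sub i2
  have hb : ‖∫ r in t1..t2, (g r - g t0)‖ ≤ ε * |t2 - t1| := by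
    refine intervalIntegral.norm_integral_le_of_norm_le_const fun r hr => ?_
    rw [uIoc_of_le h12.le] at hr
    have : dist r t0 < η0 := by
      rw [Real.dist_eq, abs_lt]
      constructor <;> linarith [hr.1, hr.2]
    have := Hη this
    rw [Real.dist_eq] at this
    rw [Real.norm_eq_abs]
    exact this.le
  rw [intervalIntegral.integral_sub ig intervalIntegrable_const, intervalIntegral.integral_const, smul_eq_mul, ← eq,
    Real.norm_eq_abs, abs_of_pos (sub_pos.2 h12)] at hb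
  have hd : 0 < t2 - t1 := sub_pos.2 h12
  have h6 : |(t2 - t1) * g t0| ≤ (G + ε) * (t2 - t1) := by
    have e1 : (t2 - t1) * g t0 = (scaM2 (scLC a) α τ t2 - scaM2 (scLC a) α τ t1)
        - (scaM2 (scLC a) α τ t2 - scaM2 (scLC a) α τ t1 - (t2 - t1) * g t0) := by ring
    rw [e1]
    have := abs_sub (scaM2 (scLC a) α τ t2 - scaM2 (scLC a) α τ t1)
      (scaM2 (scLC a) α τ t2 - scaM2 (scLC a) α τ t1 - (t2 - t1) * g t0)
    linarith
  rw [abs_mul, abs_of_pos hd, mul_comm] at h6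
  exact le_of_mul_le_mul_right h6 hd

/-- continuity of `(m, t) ↦ N₃(t) - 2 m M₃(t)` at `(v0, t0)` (`sc2_cont`, `sc2_gen` for the bound of `M₃`) -/
theorem b19s_cont {a τ : ℝ} (ha : 0 < a) (hτ : 0 < τ) {α : ℝ → ℝ} (hα : ScCoef a τ α) {t0 : ℝ} (ht0 : t0 ∈ Ioo 0 τ) (v0 : ℝ)
    {ε : ℝ} (hε : 0 < ε) : ∃ η > 0, ∀ m t : ℝ, |m - v0| ≤ η → |t - t0| ≤ η →
      |(scaN3 (scLC a) α τ t - 2 * m * scaM3 (scLC a) α τ t) - (scaN3 (scLC a) α τ t0 - 2 * v0 * scaM3 (scLC a) α τ t0)| ≤ ε := by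
  obtain ⟨-, c3, cN, -⟩ := sc2_cont ha hτ hα
  have hnh : Icc 0 τ ∈ 𝓝 t0 := Icc_mem_nhds ht0.1 ht0.2
  have c3' : ContinuousAt (scaM3 (scLC a) α τ) t0 := c3.continuousAt hnh
  have cN' : ContinuousAt (scaN3 (scLC a) α τ) t0 := cN.continuousAt hnh
  have cg : ContinuousAt (fun p : ℝ × ℝ => scaN3 (scLC a) α τ p.2 - 2 * p.1 * scaM3 (scLC a) α τ p.2) (v0, t0) := by
    have k3 : ContinuousAt (fun p : ℝ × ℝ => scaM3 (scLC a) α τ p.2) (v0, t0) :=
      ContinuousAt.comp (f := Prod.snd) (x := (v0, t0)) c3' continuousAt_snd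
    have kN : ContinuousAt (fun p : ℝ × ℝ => scaN3 (scLC a) α τ p.2) (v0, t0) :=
      ContinuousAt.comp (f := Prod.snd) (x := (v0, t0)) cN' continuousAt_snd
    exact kN.sub ((continuousAt_const.mul continuousAt_fst).mul k3)
  obtain ⟨η0, hη0, Hη⟩ := Metric.continuousAt_iff.1 cg ε hε
  refine ⟨η0 / 2, half_pos hη0, fun m t hm ht => ?_⟩
  have hd : dist ((m, t) : ℝ × ℝ) (v0, t0) < η0 := by
    rw [Prod.dist_eq, max_lt_iff, Real.dist_eq, Real.dist_eq]
    constructor <;> linarith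
  have := Hη hd
  rw [Real.dist_eq] at this
  exact this.le

/-- **THE SCALAR BLOCK**: all index data close to `(α, t0, v0)` have `|2 cpin_i| ≤ G + δ0` -/
theorem b19s_main {a τ : ℝ} (ha : 0 < a) (hτ : 0 < τ) {α : ℝ → ℝ} (hα : Monotone α) (hr : ∀ r, 0 ≤ α r ∧ α r ≤ a)
    {t0 v0 G : ℝ} (ht0 : t0 ∈ Ioo 0 τ) (hc : ContinuousAt α t0) (hv : α t0 = v0)
    (hG : ∀ η : ℝ, 0 < η → ∃ t1 t2 : ℝ, t0 - η < t1 ∧ t1 < t0 ∧ t0 < t2 ∧ t2 < t0 + η ∧
      |scaM2 (scLC a) α τ t2 - scaM2 (scLC a) α τ t1| ≤ G * (t2 - t1)) {δ0 : ℝ} (hδ0 : 0 < δ0) :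
    ∃ ε > 0, ∀ (N : ℕ) (ms T : ℕ → ℝ) (i : ℕ), B19sOk a N ms T → i < N → T N + 1 ≤ τ → B19sCl a α ε ε N ms T →
      |ms i - v0| ≤ ε → |T i - t0| ≤ ε → (ms i - if i = 0 then 0 else ms (i - 1)) ≤ ε →
      |2 * b19sCpin a (b19sMk N ms T) i| ≤ G + δ0 := by
  have hco : ScCoef a τ α := ⟨hα.monotoneOn _, fun t _ => hr t⟩
  obtain ⟨C2, hC2, H2⟩ := b19s_cpin_gap a
  obtain ⟨C1, hC1, H1⟩ := b19s_eval ha hτ
  obtain ⟨η, hη, Hη⟩ := b19s_cont ha hτ hco ht0 v0 (ε := δ0 / 4) (by positivity)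
  have hL := b19s_path ha hτ hco ht0 hc hG
  rw [hv] at hL
  refine ⟨min η (δ0 / (8 * (C1 + C2 + 1))), lt_min hη (by positivity), fun N ms T i h hi hτN hcl hm hT hgap => ?_⟩
  set ε := min η (δ0 / (8 * (C1 + C2 + 1))) with hε
  have hε0 : 0 < ε := lt_min hη (by positivity)
  have hε1 : ε ≤ η := min_le_left _ _
  have hε2 : ε * (8 * (C1 + C2 + 1)) ≤ δ0 := by
    have := min_le_right η (δ0 / (8 * (C1 + C2 + 1)))
    rwa [le_div_iff₀ (by positivity)] at this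
  -- behind the empty level, lengthened by `σ`
  have key : ∀ σ ∈ Ioo (0 : ℝ) 1, |2 * b19sCpin a (b19sMk (N + 1) (b19sIm i ms) (b19sIt i σ T)) (i + 1)|
      ≤ G + δ0 / 4 + C1 * (2 * ε + σ) := by
    intro σ hσ
    have hok := b19s_ins_ok h hi hσ.1.le
    have hcl' := b19s_ins_cl hα hσ.1.le h hi hcl
    have t1 : b19sIt i σ T (i + 1) = T i := by unfold b19sIt; rw [if_neg (by omega), if_pos rfl]
    have t0' : b19sIt i σ T i = T i := by unfold b19sIt; rw [if_pos le_rfl]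
    have t2 : b19sIt i σ T (i + 2) = T (i + 1) + σ := by
      unfold b19sIt; rw [if_neg (by omega), if_neg (by omega)]; rfl
    have tN : b19sIt i σ T (N + 1) = T N + σ := by
      unfold b19sIt; rw [if_neg (by omega), if_neg (by omega)]; rfl
    have m1 : b19sIm i ms (i + 1) = ms i := by unfold b19sIm; rw [if_neg (by omega)]; rfl
    have m0 : b19sIm i ms i = ms i := by unfold b19sIm; rw [if_pos le_rfl]
    have := H1 α hα hr (ε + σ) ε (N + 1) (b19sIm i ms) (b19sIt i σ T) i (by linarith [hσ.1]) hε0.le hok (by omega)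
      (by rw [t1, t0']) (by rw [m1, m0]) (by rw [t1, t2]; linarith [h.Tm i hi, hσ.1]) (by rw [tN]; linarith [hσ.2]) hcl'
    rw [t0', m0] at this
    have h3 := Hη (ms i) (T i) (hm.trans hε1) (hT.trans hε1)
    have h4 := abs_le.1 this
    have h5 := abs_le.1 h3
    have h6 := abs_le.1 hL
    rw [abs_le]
    constructor <;> nlinarith [h4.1, h4.2, h5.1, h5.2, h6.1, h6.2]
  -- `σ → 0`
  have lim : |2 * b19sCpin a (b19sMk (N + 1) (b19sIm i ms) (b19sIt i 0 T)) (i + 1)| ≤ G + δ0 / 4 + C1 * (2 * ε + 0) := by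
    have l1 := ((b19s_cpin_cont ha h hi).const_mul 2).abs
    have l2 : Tendsto (fun σ : ℝ => G + δ0 / 4 + C1 * (2 * ε + σ)) (𝓝[>] 0) (𝓝 (G + δ0 / 4 + C1 * (2 * ε + 0))) := by
      refine Tendsto.mono_left ?_ nhdsWithin_le_nhds
      exact (Continuous.tendsto (by fun_prop) 0)
    refine le_of_tendsto_of_tendsto l1 l2 ?_
    filter_upwards [Ioo_mem_nhdsGT (zero_lt_one' ℝ)] with σ hσ
    exact key σ hσ
  have g := H2 a N ms T i ha le_rfl h hi
  have g2 : C2 * (ms i - if i = 0 then 0 else ms (i - 1)) ≤ C2 * ε := mul_le_mul_of_nonneg_left hgap hC2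
  have g3 := abs_le.1 (g.trans g2)
  have g4 := abs_le.1 lim
  have g5 : C1 * ε + C2 * ε ≤ δ0 / 8 := by nlinarith
  rw [abs_le]
  constructor <;> nlinarith [g3.1, g3.2, g4.1, g4.2]

end Claimed.Agent.R286
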