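import Claimed.Agent.R286.Bud.C19Comb

/-!
# Row 286, N17 = (C19), `Bud/C19Tree.lean`: PER-TREE BOUNDS      (architect helper180; prover helper209: ALL PROVED, 0 own sorry; uses the leaves of C19Row, C19Comb)

One fixed tree `τ`; tools of `Bud/C19Row.lean` only.   Blueprint sec.3 (`git show origin/helper180:notes/R286/N17_180.md`).
GROUPS   #A the tests (`b19_J_*`, `b19_JJ_*`, `b19_Sp_*`, `b19_Sc_*`, `b19_c6_abs`): boundedness, labels used, independence of the site;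
         #B HOLD: Hoelder + marginals under the SK law (`b19_hold2`, `b19_hold3`, `b19_holdp`);
         #C SIGN (`b19_sign`): a scalar moment with an odd node of depth `r` is `≤ C K_r`;
         #D transfer `b19_T3_le`, FLIP `b19_flip3`;
         #E exits `b19_tree2`, `b19_tree3` (used by `Bud/C19Ctr.lean`).
-/

set_option autoImplicit false

namespace Claimed.Agent.R286

open MeasureTheory Set Filter Topology

noncomputable section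

variable {n : ℕ}

/-! ## #A the tests -/

theorem b19_Dl_abs (hn : 0 < n) (k0 : Fin n) {a : ℝ} (ha : 0 < a) {P : SkStp} (hP : SkAdm a P) {r : ℕ} (hr : r ≤ P.length) (c d : ℕ)
    (σ : ℕ → SkCfg n) : |b19Dl k0 a P r c d σ| ≤ 2 := by
  have h1 := abs_le.1 (b19_Qm_abs hn k0 (σ c) (σ d))
  have h2 := b19_S_mem hn ha hP hr
  unfold b19Dl
  rw [abs_le]
  constructor <;> linarith [h1.1, h1.2, h2.1, h2.2]

theorem b19_J_abs (k0 : Fin n) {a : ℝ} {P : SkStp} {A0 M0 : ℝ} {i H : ℕ} (h : B19Hyp n a P A0 M0 i H) {τ : ℕ → ℕ → ℕ} {c d : ℕ}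
    (hcd : τ c d ≤ P.length) (σ : ℕ → SkCfg n) :
    |b19J k0 a P τ c d σ| ≤ M0 * |b19Dl k0 a P (τ c d) c d σ| ∧ |b19J k0 a P τ c d σ| ≤ 2 * M0 := by
  have hn : 0 < n := by have := h.n2; omega
  have hb0 : 0 ≤ skCumB P (τ c d) := by
    have := (b19_cumB_mono h.adm (Nat.zero_le (τ c d))).1
    rwa [(b19_cum_zero P).1] at this
  have hb1 : skCumB P (τ c d) ≤ M0 := ((b19_cumB_mono h.adm hcd).1).trans h.bM
  have hd := b19_Dl_abs hn k0 h.a0 h.adm hcd c d σ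
  have e : |b19J k0 a P τ c d σ| = skCumB P (τ c d) * |b19Dl k0 a P (τ c d) c d σ| := by
    unfold b19J
    rw [abs_mul, abs_of_nonneg hb0]
  rw [e]
  refine ⟨mul_le_mul_of_nonneg_right hb1 (abs_nonneg _), ?_⟩
  calc skCumB P (τ c d) * |b19Dl k0 a P (τ c d) c d σ| ≤ M0 * 2 :=
        mul_le_mul hb1 hd (abs_nonneg _) (hb0.trans hb1)
    _ = 2 * M0 := by ring

theorem b19_J_rest (k0 : Fin n) (a : ℝ) (P : SkStp) (τ : ℕ → ℕ → ℕ) (c d : ℕ) : B19Rest k0 (b19J k0 a P τ c d) := by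
  intro σ σ' h
  unfold b19J b19Dl
  rw [b19_Qm_eq, b19_Qm_eq]
  have : ∑ k ∈ Finset.univ.erase k0, skSp (σ c) k * skSp (σ d) k = ∑ k ∈ Finset.univ.erase k0, skSp (σ' c) k * skSp (σ' d) k := by
    refine Finset.sum_congr rfl fun k hk => ?_
    have hk' : k ≠ k0 := (Finset.mem_erase.1 hk).1
    unfold skSp
    rw [h c k hk', h d k hk']
  rw [this]

theorem b19_JJ_rest (k0 : Fin n) (a : ℝ) (P : SkStp) (τ : ℕ → ℕ → ℕ) (k : ℕ) : B19Rest k0 (b19JJ k0 a P τ k) := by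
  intro σ σ' h
  unfold b19JJ
  exact Finset.prod_congr rfl fun m _ => b19_J_rest k0 a P τ _ _ σ σ' h

theorem b19_JJ_uses (k0 : Fin n) (a : ℝ) (P : SkStp) (τ : ℕ → ℕ → ℕ) (k : ℕ) {q : ℕ} (hq : 2 + 2 * k ≤ q) :
    TrUses q (b19JJ k0 a P τ k) := by
  intro σ σ' h
  unfold b19JJ
  refine Finset.prod_congr rfl fun m hm => ?_
  have hm' := Finset.mem_range.1 hm
  unfold b19J b19Dl
  rw [h (2 + 2 * m) (by omega), h (3 + 2 * m) (by omega)]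

theorem b19_Sp_uses (k0 : Fin n) {A : Finset ℕ} {q : ℕ} (hA : ∀ x ∈ A, x < q) : TrUses q (b19Sp k0 A) := by
  intro σ σ' h
  unfold b19Sp
  exact Finset.prod_congr rfl fun x hx => by rw [h x (hA x hx)]

theorem b19_Sp_abs (k0 : Fin n) (A : Finset ℕ) (σ : ℕ → SkCfg n) : |b19Sp k0 A σ| = 1 := by
  unfold b19Sp
  rw [Finset.abs_prod]
  exact Finset.prod_eq_one fun x _ => b19_sp_abs _ _

theorem b19_Sc_abs (hn : 0 < n) {a : ℝ} (ha : 0 < a) {P : SkStp} (hP : SkAdm a P) (q : ℕ) (τ : ℕ → ℕ → ℕ) (A : Finset ℕ) :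
    |b19Sc n a P q τ A| ≤ 1 := by
  unfold b19Sc
  refine b19_tr_le_const (b19_base_ok 1 ha) (sk_sy_adm (b19_KP_adm hn ha hP).1) q τ 0 fun σ => ?_
  rw [Finset.abs_prod]
  exact (Finset.prod_eq_one fun x _ => b19_sp_abs _ _).le

/-- unused labels are pruned (`tr_nu_prune`) -/
theorem b19_Sc_prune (hn : 0 < n) {a : ℝ} (ha : 0 < a) {P : SkStp} (hP : SkAdm a P) {q q' : ℕ} (hq : q ≤ q') {τ : ℕ → ℕ → ℕ}
    (hτ : IsTr P.length q' τ) {A : Finset ℕ} (hA : ∀ x ∈ A, x < q) : b19Sc n a P q' τ A = b19Sc n a P q τ A := by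
  unfold b19Sc
  have hK := b19_KP_adm hn ha hP
  have hlen : (skLvs 1 (b19KP n a P)).length = P.length := by
    simp only [skLvs, List.length_map]; exact hK.2.1
  have := tr_nu_comap (b19_base_ok 1 ha) (sk_sy_adm (n := 1) hK.1) (q := q') (p := q) (τ := τ) (by rw [hlen]; exact hτ) 0
    (fun x => x) (fun x hx => lt_of_lt_of_le hx hq) (fun σ => ∏ x ∈ A, skSp (σ x) 0)
    (fun σ σ' h => Finset.prod_congr rfl fun x hx => by rw [h x (hA x hx)])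
  exact this

/-- only the values of the tree on the labels matter (`tr_nu_congr`) -/
theorem b19_Sc_congr (a : ℝ) (P : SkStp) {q : ℕ} {τ τ' : ℕ → ℕ → ℕ} (h : ∀ x y, x < q → y < q → τ x y = τ' x y) (A : Finset ℕ) :
    b19Sc n a P q τ A = b19Sc n a P q τ' A := by
  unfold b19Sc
  exact tr_nu_congr _ _ h 0 _

theorem b19_c6_abs (hn : 0 < n) {a : ℝ} (ha : 0 < a) {P : SkStp} (hP : SkAdm a P) (τ : ℕ → ℕ → ℕ) : |b19c6 n a P τ| ≤ 3 / 2 := by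
  unfold b19c6
  have h1 := b19_Sc_abs hn ha hP 6 τ (Finset.range 6)
  have h2 := b19_Sc_abs hn ha hP 6 τ (Finset.range 4)
  have h3 := b19_Sc_abs hn ha hP 6 τ {4, 5}
  have h4 : |b19Sc n a P 6 τ (Finset.range 4) * b19Sc n a P 6 τ {4, 5}| ≤ 1 := by
    rw [abs_mul]
    calc _ ≤ (1 : ℝ) * 1 := mul_le_mul h2 h3 (abs_nonneg _) zero_le_one
      _ = 1 := by ring
  rw [abs_le] at h1 h4 ⊢
  constructor <;> linarith [h1.1, h1.2, h4.1, h4.2]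

/-! ## #B HOLD -/

/-- the `L^p` norm of a centred deleted overlap depends on its level only -/
theorem b19_Nm_marg (k0 : Fin n) {a : ℝ} (ha : 0 < a) {P : SkStp} (hP : SkAdm a P) {q : ℕ} {τ : ℕ → ℕ → ℕ}
    (hτ : IsTr P.length q τ) {c d : ℕ} (h : c < q ∧ d < q ∧ c ≠ d) (p : ℝ) :
    (b19Sk n a P q τ fun σ => |b19Dl k0 a P (τ c d) c d σ| ^ p) ^ (1 / p) = b19Nm k0 a P p (τ c d) := by
  unfold b19Nm
  congr 1
  exact b19_marg ha hP hτ h.1 h.2.1 h.2.2 fun s s' => |b19Qm k0 s s' - obS n a P 0 (τ c d)| ^ p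

/-- interpolation with the sup norm: `‖δ‖_s ≤ 2 ‖δ‖_2^(2/s)` for `s ≥ 2` -/
theorem b19_Nm_interp (hn : 0 < n) (k0 : Fin n) {a : ℝ} (ha : 0 < a) {P : SkStp} (hP : SkAdm a P) {s : ℝ} (hs : 2 ≤ s) {r : ℕ}
    (hr : r ≤ P.length) : b19Nm k0 a P s r ≤ 2 * b19Dm k0 a P r ^ (2 / s) := by
  have hB := b19_base_ok n ha
  have hls : GhAdm (skBase n a) 0 (skLvs n P) := sk_sy_adm hP
  have hs0 : 0 < s := by linarith
  set E2 : ℝ := b19Sk n a P 2 (b19St P.length r) fun σ => |b19Dl k0 a P r 0 1 σ| ^ (2 : ℝ) with hE2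
  have hE20 : 0 ≤ E2 := b19_tr_nonneg hB hls _ _ _ fun σ => Real.rpow_nonneg (abs_nonneg _) _
  have h1 : (b19Sk n a P 2 (b19St P.length r) fun σ => |b19Dl k0 a P r 0 1 σ| ^ s) ≤ 2 ^ (s - 2) * E2 := by
    rw [hE2]
    unfold b19Sk
    rw [← b19_tr_smul hB hls]
    refine b19_tr_mono hB hls _ _ _ fun σ => ?_
    have hd := b19_Dl_abs hn k0 ha hP hr 0 1 σ
    have hd0 := abs_nonneg (b19Dl k0 a P r 0 1 σ)
    rcases hd0.eq_or_lt with h0 | h0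
    · rw [← h0, Real.zero_rpow hs0.ne', Real.zero_rpow (by norm_num)]; simp
    · calc |b19Dl k0 a P r 0 1 σ| ^ s = |b19Dl k0 a P r 0 1 σ| ^ (s - 2) * |b19Dl k0 a P r 0 1 σ| ^ (2 : ℝ) := by
            rw [← Real.rpow_add h0]; congr 1; ring
        _ ≤ 2 ^ (s - 2) * |b19Dl k0 a P r 0 1 σ| ^ (2 : ℝ) :=
            mul_le_mul_of_nonneg_right (Real.rpow_le_rpow hd0 hd (by linarith)) (Real.rpow_nonneg hd0 _)
  have h0 : 0 ≤ b19Sk n a P 2 (b19St P.length r) fun σ => |b19Dl k0 a P r 0 1 σ| ^ s :=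
    b19_tr_nonneg hB hls _ _ _ fun σ => Real.rpow_nonneg (abs_nonneg _) _
  have e1 : b19Dm k0 a P r ^ (2 / s) = E2 ^ (1 / s) := by
    unfold b19Dm b19Nm
    rw [← hE2, ← Real.rpow_mul hE20]
    congr 1
    field_simp
  rw [e1]
  unfold b19Nm
  calc _ ≤ (2 ^ (s - 2) * E2) ^ (1 / s) := Real.rpow_le_rpow h0 h1 (by positivity)
    _ = (2 ^ (s - 2)) ^ (1 / s) * E2 ^ (1 / s) := Real.mul_rpow (by positivity) hE20
    _ ≤ 2 * E2 ^ (1 / s) := by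
        refine mul_le_mul_of_nonneg_right ?_ (Real.rpow_nonneg hE20 _)
        rw [← Real.rpow_mul (by norm_num)]
        calc (2 : ℝ) ^ ((s - 2) * (1 / s)) ≤ 2 ^ (1 : ℝ) := by
              refine Real.rpow_le_rpow_of_exponent_le (by norm_num) ?_
              rw [mul_one_div, div_le_one hs0]; linarith
          _ = 2 := Real.rpow_one 2

/-- Cauchy-Schwarz + marginals (`b19_tr_cs`, `b19_marg`) -/
theorem b19_hold2 (hn : 0 < n) (k0 : Fin n) {a : ℝ} (ha : 0 < a) {P : SkStp} (hP : SkAdm a P) {q : ℕ} {τ : ℕ → ℕ → ℕ}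
    (hτ : IsTr P.length q τ) {c1 d1 c2 d2 : ℕ} (h1 : c1 < q ∧ d1 < q ∧ c1 ≠ d1) (h2 : c2 < q ∧ d2 < q ∧ c2 ≠ d2) :
    b19Sk n a P q τ (fun σ => |b19Dl k0 a P (τ c1 d1) c1 d1 σ| * |b19Dl k0 a P (τ c2 d2) c2 d2 σ|)
      ≤ b19Dm k0 a P (τ c1 d1) * b19Dm k0 a P (τ c2 d2) := by
  have hB := b19_base_ok n ha
  have hls : GhAdm (skBase n a) 0 (skLvs n P) := sk_sy_adm hP
  have key := tr_nu_holder hB hls q τ 0 (fun σ => |b19Dl k0 a P (τ c1 d1) c1 d1 σ|) (fun σ => |b19Dl k0 a P (τ c2 d2) c2 d2 σ|)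
    2 2 Real.HolderConjugate.two_two
  simp only [abs_abs] at key
  have e1 := b19_Nm_marg k0 ha hP hτ h1 2
  have e2 := b19_Nm_marg k0 ha hP hτ h2 2
  unfold b19Sk at e1 e2 ⊢
  rw [e1, e2] at key
  exact (le_abs_self _).trans key

/-- Hoelder (2,4,4) + marginals -/
theorem b19_hold3 (hn : 0 < n) (k0 : Fin n) {a : ℝ} (ha : 0 < a) {P : SkStp} (hP : SkAdm a P) {q : ℕ} {τ : ℕ → ℕ → ℕ}
    (hτ : IsTr P.length q τ) {c1 d1 c2 d2 c3 d3 : ℕ} (h1 : c1 < q ∧ d1 < q ∧ c1 ≠ d1) (h2 : c2 < q ∧ d2 < q ∧ c2 ≠ d2)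
    (h3 : c3 < q ∧ d3 < q ∧ c3 ≠ d3) :
    b19Sk n a P q τ (fun σ => |b19Dl k0 a P (τ c1 d1) c1 d1 σ| * |b19Dl k0 a P (τ c2 d2) c2 d2 σ| * |b19Dl k0 a P (τ c3 d3) c3 d3 σ|)
      ≤ b19Dm k0 a P (τ c1 d1) * b19Nm k0 a P 4 (τ c2 d2) * b19Nm k0 a P 4 (τ c3 d3) := by
  have hB := b19_base_ok n ha
  have hls : GhAdm (skBase n a) 0 (skLvs n P) := sk_sy_adm hP
  have key := b19_tr_holder3 hB hls q τ 0 (fun σ => |b19Dl k0 a P (τ c1 d1) c1 d1 σ|) (fun σ => |b19Dl k0 a P (τ c2 d2) c2 d2 σ|)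
    (fun σ => |b19Dl k0 a P (τ c3 d3) c3 d3 σ|) (p1 := 2) (p2 := 4) (p3 := 4) (by norm_num) (by norm_num) (by norm_num) (by norm_num)
  simp only [abs_abs] at key
  have e1 := b19_Nm_marg k0 ha hP hτ h1 2
  have e2 := b19_Nm_marg k0 ha hP hτ h2 4
  have e3 := b19_Nm_marg k0 ha hP hτ h3 4
  unfold b19Sk at e1 e2 e3 ⊢
  rw [e1, e2, e3] at key
  exact (le_abs_self _).trans key

/-- Hoelder `(p, 2p', 2p')` + marginals + `E|δ|^{2p'} ≤ 2^{2p'-2} E δ²`:   `‖δ‖_{2p'} ≤ 2 D^θ`, `θ = 1/p' = 1 - 1/p` -/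
theorem b19_holdp (hn : 0 < n) (k0 : Fin n) {a : ℝ} (ha : 0 < a) {P : SkStp} (hP : SkAdm a P) {p : ℝ} (hp : 2 ≤ p) {q : ℕ}
    {τ : ℕ → ℕ → ℕ} (hτ : IsTr P.length q τ) (X : (ℕ → SkCfg n) → ℝ) {c1 d1 c2 d2 : ℕ} (h1 : c1 < q ∧ d1 < q ∧ c1 ≠ d1)
    (h2 : c2 < q ∧ d2 < q ∧ c2 ≠ d2) (hr1 : τ c1 d1 ≤ P.length) (hr2 : τ c2 d2 ≤ P.length) :
    b19Sk n a P q τ (fun σ => |X σ| * |b19Dl k0 a P (τ c1 d1) c1 d1 σ| * |b19Dl k0 a P (τ c2 d2) c2 d2 σ|)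
      ≤ 4 * (b19Sk n a P q τ fun σ => |X σ| ^ p) ^ (1 / p) * b19Dm k0 a P (τ c1 d1) ^ (1 - 1 / p) * b19Dm k0 a P (τ c2 d2) ^ (1 - 1 / p) := by
  have hB := b19_base_ok n ha
  have hls : GhAdm (skBase n a) 0 (skLvs n P) := sk_sy_adm hP
  have hp0 : 0 < p := by linarith
  have hp1 : 0 < p - 1 := by linarith
  set s : ℝ := 2 * p / (p - 1) with hs
  have hs2 : 2 ≤ s := by
    rw [hs, le_div_iff₀ hp1]; linarith
  have hss : 2 / s = 1 - 1 / p := by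
    rw [hs]; field_simp
  have key := b19_tr_holder3 hB hls q τ 0 (fun σ => |X σ|) (fun σ => |b19Dl k0 a P (τ c1 d1) c1 d1 σ|)
    (fun σ => |b19Dl k0 a P (τ c2 d2) c2 d2 σ|) (p1 := p) (p2 := s) (p3 := s) (by linarith) (by linarith) (by linarith)
    (by rw [hs]; field_simp; ring)
  simp only [abs_abs] at key
  have e1 := b19_Nm_marg k0 ha hP hτ h1 s
  have e2 := b19_Nm_marg k0 ha hP hτ h2 s
  have i1 := b19_Nm_interp hn k0 ha hP hs2 hr1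
  have i2 := b19_Nm_interp hn k0 ha hP hs2 hr2
  rw [hss] at i1 i2
  have hX0 : 0 ≤ (b19Sk n a P q τ fun σ => |X σ| ^ p) ^ (1 / p) :=
    Real.rpow_nonneg (b19_tr_nonneg hB hls _ _ _ fun σ => Real.rpow_nonneg (abs_nonneg _) _) _
  have hN1 := (b19_num_nonneg hn k0 ha hP s (τ c1 d1) 0).1
  have hN2 := (b19_num_nonneg hn k0 ha hP s (τ c2 d2) 0).1
  have hD1 : 0 ≤ b19Dm k0 a P (τ c1 d1) ^ (1 - 1 / p) := Real.rpow_nonneg (b19_num_nonneg hn k0 ha hP s (τ c1 d1) 0).2.1 _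
  unfold b19Sk at e1 e2 hX0 ⊢
  rw [e1, e2] at key
  refine ((le_abs_self _).trans key).trans ?_
  calc _ ≤ (trNu (skBase n a) (skLvs n P) q τ 0 fun σ => |X σ| ^ p) ^ (1 / p) * (2 * b19Dm k0 a P (τ c1 d1) ^ (1 - 1 / p))
          * (2 * b19Dm k0 a P (τ c2 d2) ^ (1 - 1 / p)) :=
        mul_le_mul (mul_le_mul_of_nonneg_left i1 hX0) i2 hN2 (mul_nonneg hX0 (by positivity))
    _ = _ := by ring

/-! ## #C SIGN -/

/-- **SIGN**.   `G(s) = b19Nu k0 a P (b19C n a P (b19Lam r s) 0) q τ (b19Sp k0 A)`:   `G(1) = b19Sc` (`b19_C_seg`, `b19_fact0` with `g = 1`), `G(0) = 0` (`b19_flip`, `H := r`),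
`|G'(s)| ≤ b19A[K_r] ≤ 2 a² q (q+1) K_r` (`b19_deriv`, `b19_V_s` at `t = 0`: `|V| ≤ K_{r'} ≤ K_r` for `r' < r`; `b19_A_const`), `b19_taylor1`. -/
theorem b19_sign (q : ℕ) (A0 : ℝ) : ∃ C : ℝ, 0 ≤ C ∧ ∀ (n : ℕ) (a : ℝ) (P : SkStp), 0 < n → 0 < a → a ≤ A0 → SkAdm a P →
    ∀ τ, IsTr P.length q τ → ∀ A : Finset ℕ, (∀ x ∈ A, x < q) → ∀ r, r ≤ P.length → ∀ x0, x0 < q →
      Odd (A.filter fun y => r ≤ τ x0 y).card → |b19Sc n a P q τ A| ≤ C * b19K n a P r := by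
  refine ⟨2 * A0 ^ 2 * q * (q + 1), by positivity, fun n a P hn ha haA hP τ hτ A hA r hr x0 hx0 hodd => ?_⟩
  have hB := b19_base_ok n ha
  let k0 : Fin n := ⟨0, hn⟩
  have hm := b19_C_mono hn ha hP r (s := 0) (t := 0) (by simp) (by simp)
  have hK0 : ∀ j, j ≤ P.length → 0 ≤ b19K n a P j := fun j hj => by
    have := b19_K_mono hn ha hP (Nat.zero_le j) hj
    rwa [b19_K_zero] at this
  have hf : TrUses q (b19Sp k0 A) := b19_Sp_uses k0 hA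
  obtain ⟨hms, hmsN⟩ := b19_isMs ha hP
  have hbound : ∀ θ ∈ Icc (0 : ℝ) 1, |b19D (skMs a P) P.length q τ fun τ' =>
      b19Nu k0 a P (b19Seg (b19C n a P (b19Lam r 0) 0) (b19Ct n a P 0) θ) (q + 2) τ' fun σ =>
        b19Sp k0 A σ * b19V k0 (fun j x => b19Ct n a P 0 j x - b19C n a P (b19Lam r 0) 0 j x) P.length (τ' q (q + 1)) (σ q) (σ (q + 1))|
      ≤ 2 * a ^ 2 * q * (q + 1) * b19K n a P r := by
    intro θ _
    refine (b19_D_abs _).trans ?_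
    have h2 := b19_A_const hτ hms (hK0 r hr)
    rw [hmsN] at h2
    refine (b19_A_mono hτ fun τ' _ _ hoff => ?_).trans h2
    unfold b19Nu
    refine b19_tr_le_const hB (b19_adm k0 ha hP _).1 _ _ _ fun σ => ?_
    rw [abs_mul, b19_Sp_abs, one_mul, b19_V_s k0 a P r 0 hoff]
    split_ifs with hlt
    · rw [abs_mul, abs_mul, b19_sp_abs, b19_sp_abs]
      have h3 := hK0 _ hoff
      have h4 := b19_K_mono hn ha hP hlt.le hr
      have e : (0 : ℝ) * skCumB P (τ' q (q + 1)) * b19Qm k0 (σ q) (σ (q + 1)) + 0 * skCumH P (τ' q (q + 1))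
          + (1 - 0) * b19K n a P (τ' q (q + 1)) = b19K n a P (τ' q (q + 1)) := by ring
      rw [e, abs_of_nonneg h3]
      linarith
    · rw [abs_zero]; exact hK0 r hr
  have key := b19_taylor1 (fun θ hθ => b19_deriv hn k0 ha hP hm.1 hm.2 hτ (b19Sp k0 A) hf (θ := θ) hθ) hbound
  have s1 : b19Seg (b19C n a P (b19Lam r 0) 0) (b19Ct n a P 0) 1 = b19Ct n a P 0 := by
    funext j x; simp [b19Seg]
  have s0 : b19Seg (b19C n a P (b19Lam r 0) 0) (b19Ct n a P 0) 0 = b19C n a P (b19Lam r 0) 0 := by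
    funext j x; simp [b19Seg]
  have e1 : b19Nu k0 a P (b19Ct n a P 0) q τ (b19Sp k0 A) = b19Sc n a P q τ A := by
    have := b19_fact0 hn k0 ha hP hτ A hA (fun _ => 1) (fun _ _ _ => rfl) (fun _ _ _ => rfl)
    simp only [mul_one] at this
    rw [this]
    unfold b19Nu
    rw [b19_tr_const hB (b19_adm k0 ha hP _).1, mul_one]
  have e0 : b19Nu k0 a P (b19C n a P (b19Lam r 0) 0) q τ (b19Sp k0 A) = 0 := by
    have := b19_flip hn k0 ha hP hm.1 hr (fun j hj => by simp [b19C, b19Lam, hj]) hτ A hA hx0 hodd (fun _ => 1)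
      (fun _ _ _ => rfl) (fun _ _ _ => rfl)
    simpa only [mul_one] using this
  rw [s1, s0, e1, e0, sub_zero] at key
  refine key.trans ?_
  have ha2 : a ^ 2 ≤ A0 ^ 2 := pow_le_pow_left₀ ha.le haA 2
  have hq : (0 : ℝ) ≤ q * (q + 1) * b19K n a P r := by
    have := hK0 r hr
    positivity
  nlinarith

/-- the scalar coefficients in the class "every inserted pair is high": the node of depth `H` of the label `0` contains `0`, not `1`, and each pair entirely or not at all -/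
theorem b19_sign_H (A0 M0 : ℝ) : ∃ C : ℝ, 0 ≤ C ∧ ∀ (n : ℕ) (a : ℝ) (P : SkStp) (i H : ℕ), B19Hyp n a P A0 M0 i H →
    ∀ τ, IsTr P.length 6 τ → τ 0 1 = i → H ≤ τ 2 3 → H ≤ τ 4 5 →
      |b19Sc n a P 4 τ (Finset.range 4)| ≤ C * b19K n a P H ∧ |b19c6 n a P τ| ≤ C * b19K n a P H := by
  obtain ⟨C4, hC4, h4⟩ := b19_sign 4 A0
  obtain ⟨C6, hC6, h6⟩ := b19_sign 6 A0
  refine ⟨C4 + 2 * C6, by positivity, fun n a P i H h τ hτ h01 h23 h45 => ?_⟩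
  have hn : 0 < n := by have := h.n2; omega
  have hK : 0 ≤ b19K n a P H := by
    have := b19_K_mono hn h.a0 h.adm (Nat.zero_le H) h.HN
    rwa [b19_K_zero] at this
  have g0 : H ≤ τ 0 0 := by rw [hτ.diag 0 (by norm_num)]; have := h.HN; omega
  have g1 : ¬ H ≤ τ 0 1 := by rw [h01]; have := h.iH; omega
  have g23 : H ≤ τ 0 2 ↔ H ≤ τ 0 3 := by
    constructor
    · intro h2
      exact (le_min h2 h23).trans (hτ.ultra 0 2 3 (by norm_num) (by norm_num) (by norm_num))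
    · intro h3
      have := hτ.ultra 0 3 2 (by norm_num) (by norm_num) (by norm_num)
      rw [hτ.symm 3 2 (by norm_num) (by norm_num)] at this
      exact (le_min h3 h23).trans this
  have g45 : H ≤ τ 0 4 ↔ H ≤ τ 0 5 := by
    constructor
    · intro h2
      exact (le_min h2 h45).trans (hτ.ultra 0 4 5 (by norm_num) (by norm_num) (by norm_num))
    · intro h3
      have := hτ.ultra 0 5 4 (by norm_num) (by norm_num) (by norm_num)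
      rw [hτ.symm 5 4 (by norm_num) (by norm_num)] at this
      exact (le_min h3 h45).trans this
  have odd4 : Odd ((Finset.range 4).filter fun y => H ≤ τ 0 y).card := by
    rw [Finset.card_filter]
    simp only [Finset.sum_range_succ, Finset.sum_range_zero]
    by_cases h2 : H ≤ τ 0 2
    · have h3 := g23.1 h2
      simp only [g0, g1, h2, h3, if_true, if_false]; decide
    · have h3 := mt g23.2 h2
      simp only [g0, g1, h2, h3, if_true, if_false]; decide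
  have odd6 : Odd ((Finset.range 6).filter fun y => H ≤ τ 0 y).card := by
    rw [Finset.card_filter]
    simp only [Finset.sum_range_succ, Finset.sum_range_zero]
    by_cases h2 : H ≤ τ 0 2 <;> by_cases h4' : H ≤ τ 0 4
    · have h3 := g23.1 h2
      have h5 := g45.1 h4'
      simp only [g0, g1, h2, h3, h4', h5, if_true, if_false]; decide
    · have h3 := g23.1 h2
      have h5 := mt g45.2 h4'
      simp only [g0, g1, h2, h3, h4', h5, if_true, if_false]; decide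
    · have h3 := mt g23.2 h2
      have h5 := g45.1 h4'
      simp only [g0, g1, h2, h3, h4', h5, if_true, if_false]; decide
    · have h3 := mt g23.2 h2
      have h5 := mt g45.2 h4'
      simp only [g0, g1, h2, h3, h4', h5, if_true, if_false]; decide
  have b4 := h4 n a P hn h.a0 h.aA h.adm τ (tr_isTr_mono hτ (by norm_num)) (Finset.range 4)
    (fun x hx => Finset.mem_range.1 hx) H h.HN 0 (by norm_num) odd4
  have b6 := h6 n a P hn h.a0 h.aA h.adm τ hτ (Finset.range 6) (fun x hx => Finset.mem_range.1 hx) H h.HN 0 (by norm_num) odd6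
  have b64 := h6 n a P hn h.a0 h.aA h.adm τ hτ (Finset.range 4)
    (fun x hx => lt_trans (Finset.mem_range.1 hx) (by norm_num)) H h.HN 0 (by norm_num) odd4
  have b45 := b19_Sc_abs hn h.a0 h.adm 6 τ {4, 5}
  constructor
  · nlinarith
  · unfold b19c6
    have m1 : |b19Sc n a P 6 τ (Finset.range 4) * b19Sc n a P 6 τ {4, 5}| ≤ C6 * b19K n a P H := by
      rw [abs_mul]
      calc _ ≤ C6 * b19K n a P H * 1 := mul_le_mul b64 b45 (abs_nonneg _) (by positivity)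
        _ = _ := by ring
    have m2 : 0 ≤ C4 * b19K n a P H := by positivity
    have m3 : 0 ≤ C6 * b19K n a P H := by positivity
    rw [abs_le] at b6 m1 ⊢
    constructor <;> nlinarith [b6.1, b6.2, m1.1, m1.2]

/-! ## #D transfer and FLIP -/

/-- three centred deleted overlaps under the SK law -/
def b19X3 (k0 : Fin n) (a : ℝ) (P : SkStp) (τ : ℕ → ℕ → ℕ) : ℝ :=
  b19Sk n a P 8 τ fun σ => |b19Dl k0 a P (τ 2 3) 2 3 σ| * |b19Dl k0 a P (τ 4 5) 4 5 σ| * |b19Dl k0 a P (τ 6 7) 6 7 σ|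

theorem b19_tree_eqns_cite : True := by
  have := @b19X3.eq_1
  trivial

theorem b19_JJ_two (k0 : Fin n) (a : ℝ) (P : SkStp) (τ : ℕ → ℕ → ℕ) (σ : ℕ → SkCfg n) :
    b19JJ k0 a P τ 2 σ = b19J k0 a P τ 2 3 σ * b19J k0 a P τ 4 5 σ := by
  simp [b19JJ, Finset.prod_range_succ]

theorem b19_JJ_three (k0 : Fin n) (a : ℝ) (P : SkStp) (τ : ℕ → ℕ → ℕ) (σ : ℕ → SkCfg n) :
    b19JJ k0 a P τ 3 σ = b19J k0 a P τ 2 3 σ * b19J k0 a P τ 4 5 σ * b19J k0 a P τ 6 7 σ := by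
  simp [b19JJ, Finset.prod_range_succ]

/-- the facts contained in `B19Tr N i 3 τ` -/
theorem b19_Tr_three {N i : ℕ} {τ : ℕ → ℕ → ℕ} (h : B19Tr N i 3 τ) :
    IsTr N 8 τ ∧ τ 0 1 = i ∧ τ 2 3 ≤ N ∧ τ 4 5 ≤ N ∧ τ 6 7 ≤ N :=
  ⟨h.1, h.2.1, h.2.2 0 (by norm_num), h.2.2 1 (by norm_num), h.2.2 2 (by norm_num)⟩

/-- the facts contained in `B19Tr N i 2 τ` -/
theorem b19_Tr_two {N i : ℕ} {τ : ℕ → ℕ → ℕ} (h : B19Tr N i 2 τ) :
    IsTr N 6 τ ∧ τ 0 1 = i ∧ τ 2 3 ≤ N ∧ τ 4 5 ≤ N :=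
  ⟨h.1, h.2.1, h.2.2 0 (by norm_num), h.2.2 1 (by norm_num)⟩

theorem b19_M0_nonneg {a : ℝ} {P : SkStp} {A0 M0 : ℝ} {i H : ℕ} (h : B19Hyp n a P A0 M0 i H) : 0 ≤ M0 := by
  have := (b19_cumB_mono h.adm (Nat.zero_le P.length)).1
  rw [(b19_cum_zero P).1] at this
  exact this.trans h.bM

/-- `|J J J| ≤ M0³ |δ δ δ|` -/
theorem b19_JJ_three_le (k0 : Fin n) {a : ℝ} {P : SkStp} {A0 M0 : ℝ} {i H : ℕ} (h : B19Hyp n a P A0 M0 i H) {τ : ℕ → ℕ → ℕ}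
    (hτ : B19Tr P.length i 3 τ) (σ : ℕ → SkCfg n) :
    |b19JJ k0 a P τ 3 σ| ≤ M0 ^ 3 * (|b19Dl k0 a P (τ 2 3) 2 3 σ| * |b19Dl k0 a P (τ 4 5) 4 5 σ| * |b19Dl k0 a P (τ 6 7) 6 7 σ|) := by
  obtain ⟨-, -, h23, h45, h67⟩ := b19_Tr_three hτ
  have hM := b19_M0_nonneg h
  rw [b19_JJ_three, abs_mul, abs_mul]
  have j1 := (b19_J_abs k0 h h23 σ).1
  have j2 := (b19_J_abs k0 h h45 σ).1
  have j3 := (b19_J_abs k0 h h67 σ).1
  calc _ ≤ (M0 * |b19Dl k0 a P (τ 2 3) 2 3 σ|) * (M0 * |b19Dl k0 a P (τ 4 5) 4 5 σ|) * (M0 * |b19Dl k0 a P (τ 6 7) 6 7 σ|) :=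
        mul_le_mul (mul_le_mul j1 j2 (abs_nonneg _) (by positivity)) j3 (abs_nonneg _) (by positivity)
    _ = _ := by ring

/-- `|ν_t[spins J J J]| ≤ ν_t[|J J J|] ≤ C ν_1[|J J J|] ≤ C M0³ X3` (`b19_tr_abs`, `b19_Sp_abs`, `b19_gron_t` with `q = 8`, `b19_J_abs`) -/
theorem b19_T3_le (A0 M0 : ℝ) : ∃ C : ℝ, 0 ≤ C ∧ ∀ (n : ℕ) (k0 : Fin n) (a : ℝ) (P : SkStp) (i H : ℕ), B19Hyp n a P A0 M0 i H →
    ∀ t ∈ Icc (0 : ℝ) 1, ∀ τ, B19Tr P.length i 3 τ → ∀ A : Finset ℕ, (∀ x ∈ A, x < 8) →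
      |b19T3 k0 a P A t τ| ≤ C * b19X3 k0 a P τ := by
  obtain ⟨Cg, hCg, hg⟩ := b19_gron_t 8 A0 M0
  refine ⟨Cg * |M0| ^ 3, by positivity, fun n k0 a P i H h t ht τ hτ A _ => ?_⟩
  have hn : 0 < n := by have := h.n2; omega
  have hB := b19_base_ok n h.a0
  have hls : GhAdm (skBase n a) 0 (skLvs n P) := sk_sy_adm h.adm
  have hτ8 := (b19_Tr_three hτ).1
  have hM := b19_M0_nonneg h
  have s1 : |b19T3 k0 a P A t τ| ≤ b19Nu k0 a P (b19Ct n a P t) 8 τ fun σ => |b19JJ k0 a P τ 3 σ| := by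
    unfold b19T3 b19Nu
    refine (b19_tr_abs hB (b19_adm k0 h.a0 h.adm _).1 _ _ _ _).trans (le_of_eq ?_)
    congr 1
    funext σ
    rw [abs_mul, b19_Sp_abs, one_mul]
  have s2 := hg n k0 a P i H h τ hτ8 (fun σ => |b19JJ k0 a P τ 3 σ|)
    (fun σ σ' hσ => congrArg abs (b19_JJ_uses k0 a P τ 3 (q := 8) (by norm_num) σ σ' hσ)) (fun σ => abs_nonneg _) t ht
  have s3 : b19Sk n a P 8 τ (fun σ => |b19JJ k0 a P τ 3 σ|) ≤ M0 ^ 3 * b19X3 k0 a P τ := by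
    unfold b19X3 b19Sk
    rw [← b19_tr_smul hB hls]
    exact b19_tr_mono hB hls _ _ _ fun σ => b19_JJ_three_le k0 h hτ σ
  rw [abs_of_nonneg hM]
  calc _ ≤ Cg * b19Sk n a P 8 τ (fun σ => |b19JJ k0 a P τ 3 σ|) := s1.trans s2
    _ ≤ Cg * (M0 ^ 3 * b19X3 k0 a P τ) := mul_le_mul_of_nonneg_left s3 hCg
    _ = _ := by ring

/-- a pair which splits at depth `≥ H` lies entirely inside or entirely outside a node of depth `H` -/
theorem b19_pair_iff {N q : ℕ} {τ : ℕ → ℕ → ℕ} (hτ : IsTr N q τ) {x c d H : ℕ} (hx : x < q) (hc : c < q) (hd : d < q)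
    (h : H ≤ τ c d) : H ≤ τ x c ↔ H ≤ τ x d := by
  constructor
  · intro h2
    exact (le_min h2 h).trans (hτ.ultra x c d hx hc hd)
  · intro h3
    have := hτ.ultra x d c hx hd hc
    rw [hτ.symm d c hd hc] at this
    exact (le_min h3 h).trans this

theorem b19_K_nonneg (hn : 0 < n) {a : ℝ} (ha : 0 < a) {P : SkStp} (hP : SkAdm a P) {j : ℕ} (hj : j ≤ P.length) :
    0 ≤ b19K n a P j := by
  have := b19_K_mono hn ha hP (Nat.zero_le j) hj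
  rwa [b19_K_zero] at this

/-- the insertion of the `s`-family is bounded by `(M0 |Qm| + K_H) 1[r < H]` -/
theorem b19_Vs_abs (k0 : Fin n) {a : ℝ} {P : SkStp} {A0 M0 : ℝ} {i H : ℕ} (h : B19Hyp n a P A0 M0 i H) {t : ℝ}
    (ht : t ∈ Icc (0 : ℝ) 1) {r : ℕ} (hr : r ≤ P.length) (σ σ' : SkCfg n) :
    |b19V k0 (fun j x => b19Ct n a P t j x - b19C n a P (b19Lam H 0) t j x) P.length r σ σ'|
      ≤ if r < H then M0 * |b19Qm k0 σ σ'| + b19K n a P H else 0 := by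
  have hn : 0 < n := by have := h.n2; omega
  rw [b19_V_s k0 a P H t hr]
  split_ifs with hlt
  · rw [abs_mul, abs_mul, b19_sp_abs, b19_sp_abs, one_mul, one_mul]
    have hb0 : 0 ≤ skCumB P r := by
      have := (b19_cumB_mono h.adm (Nat.zero_le r)).1
      rwa [(b19_cum_zero P).1] at this
    have hh0 : 0 ≤ skCumH P r := by
      have := (b19_cumB_mono h.adm (Nat.zero_le r)).2
      rwa [(b19_cum_zero P).2] at this
    have hb1 : skCumB P r ≤ M0 := ((b19_cumB_mono h.adm hr).1).trans h.bM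
    have hS := b19_S_mem hn h.a0 h.adm hr
    have hK1 : skCumH P r ≤ b19K n a P r := by
      unfold b19K
      have := mul_nonneg hb0 hS.1
      linarith
    have hK2 := b19_K_mono hn h.a0 h.adm hlt.le h.HN
    have hq := abs_nonneg (b19Qm k0 σ σ')
    have e1 : |t * skCumB P r * b19Qm k0 σ σ'| ≤ M0 * |b19Qm k0 σ σ'| := by
      rw [abs_mul, abs_of_nonneg (mul_nonneg ht.1 hb0)]
      refine mul_le_mul_of_nonneg_right ?_ hq
      calc t * skCumB P r ≤ 1 * M0 := mul_le_mul ht.2 hb1 hb0 zero_le_one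
        _ = M0 := one_mul _
    have e2 : |t * skCumH P r + (1 - t) * b19K n a P r| ≤ b19K n a P H := by
      have hK0 := hh0.trans hK1
      rw [abs_of_nonneg (add_nonneg (mul_nonneg ht.1 hh0) (mul_nonneg (by linarith [ht.2]) hK0))]
      nlinarith [ht.1, ht.2]
    calc |t * skCumB P r * b19Qm k0 σ σ' + t * skCumH P r + (1 - t) * b19K n a P r|
        = |t * skCumB P r * b19Qm k0 σ σ' + (t * skCumH P r + (1 - t) * b19K n a P r)| := by rw [add_assoc]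
      _ ≤ _ := (abs_add_le _ _).trans (add_le_add e1 e2)
  · rw [abs_zero]

/-- the SK number behind FLIP: three mismatch factors and the inserted low pair `(8,9)` -/
theorem b19_flip_core (k0 : Fin n) {a : ℝ} {P : SkStp} {p A0 M0 : ℝ} (hp : 2 ≤ p) {i H : ℕ} (h : B19Hyp n a P A0 M0 i H) {NQ : ℝ}
    (hNQ : ∀ r, r < H → b19NQ k0 a P p r ≤ NQ) {τ τ' : ℕ → ℕ → ℕ} (hτ : B19Tr P.length i 3 τ) (hτ' : IsTr P.length 10 τ')
    (hag : ∀ y z, y < 8 → z < 8 → τ' y z = τ y z) (h89 : τ' 8 9 < H) :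
    b19Sk n a P 10 τ' (fun σ => |b19JJ k0 a P τ 3 σ| * (M0 * |b19Qm k0 (σ 8) (σ 9)| + b19K n a P H))
      ≤ 8 * M0 ^ 3 * (M0 * NQ + b19K n a P H) * (b19Dm k0 a P (τ 2 3) ^ (1 - 1 / p) * b19Dm k0 a P (τ 4 5) ^ (1 - 1 / p)) := by
  have hn : 0 < n := by have := h.n2; omega
  have hB := b19_base_ok n h.a0
  have hls : GhAdm (skBase n a) 0 (skLvs n P) := sk_sy_adm h.adm
  obtain ⟨-, -, h23, h45, h67⟩ := b19_Tr_three hτ
  have hM := b19_M0_nonneg h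
  have hK := b19_K_nonneg hn h.a0 h.adm h.HN
  have a23 : τ' 2 3 = τ 2 3 := hag 2 3 (by norm_num) (by norm_num)
  have a45 : τ' 4 5 = τ 4 5 := hag 4 5 (by norm_num) (by norm_num)
  have p1 := b19_holdp hn k0 h.a0 h.adm hp hτ' (fun σ => b19Qm k0 (σ 8) (σ 9)) (c1 := 2) (d1 := 3) (c2 := 4) (d2 := 5)
    (by norm_num) (by norm_num) (by rw [a23]; exact h23) (by rw [a45]; exact h45)
  have p2 := b19_holdp hn k0 h.a0 h.adm hp hτ' (fun _ => 1) (c1 := 2) (d1 := 3) (c2 := 4) (d2 := 5)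
    (by norm_num) (by norm_num) (by rw [a23]; exact h23) (by rw [a45]; exact h45)
  rw [a23, a45] at p1 p2
  have q1 : (b19Sk n a P 10 τ' fun σ => |b19Qm k0 (σ 8) (σ 9)| ^ p) ^ (1 / p) ≤ NQ := by
    have := b19_marg (n := n) h.a0 h.adm hτ' (c := 8) (d := 9) (by norm_num) (by norm_num) (by norm_num)
      fun s s' => |b19Qm k0 s s'| ^ p
    rw [this]
    exact hNQ _ h89
  have q2 : (b19Sk n a P 10 τ' fun _ => |(1 : ℝ)| ^ p) ^ (1 / p) = 1 := by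
    unfold b19Sk
    simp only [abs_one, Real.one_rpow]
    rw [b19_tr_const hB hls, Real.one_rpow]
  rw [q2] at p2
  set DD : ℝ := b19Dm k0 a P (τ 2 3) ^ (1 - 1 / p) * b19Dm k0 a P (τ 4 5) ^ (1 - 1 / p) with hDD
  have hDD0 : 0 ≤ DD := mul_nonneg (Real.rpow_nonneg (b19_num_nonneg hn k0 h.a0 h.adm 2 _ 0).2.1 _)
    (Real.rpow_nonneg (b19_num_nonneg hn k0 h.a0 h.adm 2 _ 0).2.1 _)
  have p1' : b19Sk n a P 10 τ' (fun σ => |b19Qm k0 (σ 8) (σ 9)| * |b19Dl k0 a P (τ 2 3) 2 3 σ| * |b19Dl k0 a P (τ 4 5) 4 5 σ|)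
      ≤ 4 * NQ * DD := by
    refine p1.trans ?_
    rw [hDD]
    have := mul_le_mul_of_nonneg_right (mul_le_mul_of_nonneg_left q1 (by norm_num : (0 : ℝ) ≤ 4)) hDD0
    rw [hDD] at this
    linarith
  have p2' : b19Sk n a P 10 τ' (fun σ => |(1 : ℝ)| * |b19Dl k0 a P (τ 2 3) 2 3 σ| * |b19Dl k0 a P (τ 4 5) 4 5 σ|) ≤ 4 * DD := by
    refine p2.trans (le_of_eq ?_)
    rw [hDD]; ring
  have hW : b19Sk n a P 10 τ' (fun σ => |b19JJ k0 a P τ 3 σ| * (M0 * |b19Qm k0 (σ 8) (σ 9)| + b19K n a P H))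
      ≤ 2 * M0 ^ 3 * M0 * b19Sk n a P 10 τ'
            (fun σ => |b19Qm k0 (σ 8) (σ 9)| * |b19Dl k0 a P (τ 2 3) 2 3 σ| * |b19Dl k0 a P (τ 4 5) 4 5 σ|)
        + 2 * M0 ^ 3 * b19K n a P H * b19Sk n a P 10 τ'
            (fun σ => |(1 : ℝ)| * |b19Dl k0 a P (τ 2 3) 2 3 σ| * |b19Dl k0 a P (τ 4 5) 4 5 σ|) := by
    unfold b19Sk
    rw [← b19_tr_smul hB hls, ← b19_tr_smul hB hls, ← b19_tr_add hB hls]
    refine b19_tr_mono hB hls _ _ _ fun σ => ?_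
    have j := b19_JJ_three_le k0 h hτ σ
    have d3 := b19_Dl_abs hn k0 h.a0 h.adm h67 6 7 σ
    have n1 := abs_nonneg (b19Dl k0 a P (τ 2 3) 2 3 σ)
    have n2 := abs_nonneg (b19Dl k0 a P (τ 4 5) 4 5 σ)
    have n3 := abs_nonneg (b19Dl k0 a P (τ 6 7) 6 7 σ)
    have nq := abs_nonneg (b19Qm k0 (σ 8) (σ 9))
    have j' : |b19JJ k0 a P τ 3 σ| ≤ 2 * M0 ^ 3 * (|b19Dl k0 a P (τ 2 3) 2 3 σ| * |b19Dl k0 a P (τ 4 5) 4 5 σ|) := by
      refine j.trans ?_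
      have := mul_le_mul_of_nonneg_left d3 (mul_nonneg (pow_nonneg hM 3) (mul_nonneg n1 n2))
      linarith
    calc _ ≤ 2 * M0 ^ 3 * (|b19Dl k0 a P (τ 2 3) 2 3 σ| * |b19Dl k0 a P (τ 4 5) 4 5 σ|)
          * (M0 * |b19Qm k0 (σ 8) (σ 9)| + b19K n a P H) := mul_le_mul_of_nonneg_right j' (by positivity)
      _ = _ := by rw [abs_one]; ring
  refine hW.trans ?_
  have c1 : 0 ≤ 2 * M0 ^ 3 * M0 := by positivity
  have c2 : 0 ≤ 2 * M0 ^ 3 * b19K n a P H := by positivity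
  calc _ ≤ 2 * M0 ^ 3 * M0 * (4 * NQ * DD) + 2 * M0 ^ 3 * b19K n a P H * (4 * DD) :=
        add_le_add (mul_le_mul_of_nonneg_left p1' c1) (mul_le_mul_of_nonneg_left p2' c2)
    _ = _ := by ring

/-- **FLIP** (class HHH, the term which keeps `s_0 s_1` in the interpolated test).   `G(s) = b19Nu k0 a P (b19C n a P (b19Lam H s) t) 8 τ (Sp (range 8) * JJ 3)`:   `G(1) = b19T3`, `G(0) = 0` (`b19_flip`:
the node of depth `H` of `0` contains an odd number of the 8 labels), `G'(s) = b19D[ν_s[.. V_89]]` (`b19_deriv`, `b19_V_s`), `|V_89| ≤ (M0 |Qm_89| + K_H) 1[τ' 8 9 < H]`;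
`b19_gron_s` (`q = 10`), drop `J_67`, `b19_holdp` with `X = Qm_89` (`‖X‖_p = b19NQ` at a level `< H`: `b19_marg`) and `b19_hold2` for the `K_H` part (`D ≤ 2 D^θ`), `b19_A_const`, `b19_taylor1`. -/
theorem b19_flip3 (p A0 M0 : ℝ) (hp : 2 ≤ p) : ∃ C : ℝ, 0 ≤ C ∧ ∀ (n : ℕ) (k0 : Fin n) (a : ℝ) (P : SkStp) (i H : ℕ) (NQ : ℝ),
    B19Hyp n a P A0 M0 i H → (∀ r, r < H → b19NQ k0 a P p r ≤ NQ) →
    ∀ t ∈ Icc (0 : ℝ) 1, ∀ τ, B19Tr P.length i 3 τ → H ≤ τ 2 3 → H ≤ τ 4 5 → H ≤ τ 6 7 →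
      |b19T3 k0 a P (Finset.range 8) t τ|
        ≤ C * ((NQ + b19K n a P H) * (b19Dm k0 a P (τ 2 3) ^ (1 - 1 / p) * b19Dm k0 a P (τ 4 5) ^ (1 - 1 / p))) := by
  obtain ⟨Cs, hCs, hs⟩ := b19_gron_s 10 A0 M0
  refine ⟨2 * A0 ^ 2 * 8 * (8 + 1) * (Cs * (8 * |M0| ^ 3 * (|M0| + 1))), by positivity,
    fun n k0 a P i H NQ h hNQ t ht τ hτ H23 H45 H67 => ?_⟩
  have hn : 0 < n := by have := h.n2; omega
  have hB := b19_base_ok n h.a0
  obtain ⟨hτ8, h01, h23, h45, h67⟩ := b19_Tr_three hτ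
  have hM := b19_M0_nonneg h
  have hK := b19_K_nonneg hn h.a0 h.adm h.HN
  have hNQ0 : 0 ≤ NQ := ((b19_num_nonneg hn k0 h.a0 h.adm p i 0).2.2.1).trans (hNQ i h.iH)
  rw [abs_of_nonneg hM]
  have hm := b19_C_mono hn h.a0 h.adm H (s := 0) (t := t) (by simp) ht
  obtain ⟨hms, hmsN⟩ := b19_isMs h.a0 h.adm
  set DD : ℝ := b19Dm k0 a P (τ 2 3) ^ (1 - 1 / p) * b19Dm k0 a P (τ 4 5) ^ (1 - 1 / p) with hDD
  have hDD0 : 0 ≤ DD := mul_nonneg (Real.rpow_nonneg (b19_num_nonneg hn k0 h.a0 h.adm 2 _ 0).2.1 _)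
    (Real.rpow_nonneg (b19_num_nonneg hn k0 h.a0 h.adm 2 _ 0).2.1 _)
  set Bd : ℝ := Cs * (8 * M0 ^ 3 * (M0 * NQ + b19K n a P H) * DD) with hBd
  have hBd0 : 0 ≤ Bd := by positivity
  have hf : TrUses 8 fun σ => b19Sp k0 (Finset.range 8) σ * b19JJ k0 a P τ 3 σ := fun σ σ' hσ => by
    show b19Sp k0 (Finset.range 8) σ * b19JJ k0 a P τ 3 σ = b19Sp k0 (Finset.range 8) σ' * b19JJ k0 a P τ 3 σ'
    rw [b19_Sp_uses k0 (q := 8) (fun x hx => Finset.mem_range.1 hx) σ σ' hσ, b19_JJ_uses k0 a P τ 3 (q := 8) (by norm_num) σ σ' hσ]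
  have hbound : ∀ θ ∈ Icc (0 : ℝ) 1, |b19D (skMs a P) P.length 8 τ fun τ' =>
      b19Nu k0 a P (b19Seg (b19C n a P (b19Lam H 0) t) (b19Ct n a P t) θ) (8 + 2) τ' fun σ =>
        (b19Sp k0 (Finset.range 8) σ * b19JJ k0 a P τ 3 σ)
          * b19V k0 (fun j x => b19Ct n a P t j x - b19C n a P (b19Lam H 0) t j x) P.length (τ' 8 (8 + 1)) (σ 8) (σ (8 + 1))|
      ≤ 2 * a ^ 2 * 8 * (8 + 1) * Bd := by
    intro θ hθ
    refine (b19_D_abs _).trans ?_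
    have h2 := b19_A_const hτ8 hms hBd0
    rw [hmsN] at h2
    refine (b19_A_mono hτ8 fun τ' hτ' hag hoff => ?_).trans (by exact_mod_cast h2)
    rw [← b19_C_seg]
    by_cases hlt : τ' 8 (8 + 1) < H
    · have s1 : |b19Nu k0 a P (b19C n a P (b19Lam H θ) t) (8 + 2) τ' fun σ =>
          (b19Sp k0 (Finset.range 8) σ * b19JJ k0 a P τ 3 σ)
            * b19V k0 (fun j x => b19Ct n a P t j x - b19C n a P (b19Lam H 0) t j x) P.length (τ' 8 (8 + 1)) (σ 8) (σ (8 + 1))|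
          ≤ b19Nu k0 a P (b19C n a P (b19Lam H θ) t) 10 τ' fun σ =>
            |b19JJ k0 a P τ 3 σ| * (M0 * |b19Qm k0 (σ 8) (σ 9)| + b19K n a P H) := by
        unfold b19Nu
        refine (b19_tr_abs hB (b19_adm k0 h.a0 h.adm _).1 _ _ _ _).trans (b19_tr_mono hB (b19_adm k0 h.a0 h.adm _).1 _ _ _ fun σ => ?_)
        rw [abs_mul, abs_mul, b19_Sp_abs, one_mul]
        have hv := b19_Vs_abs k0 h ht hoff (σ 8) (σ (8 + 1))
        rw [if_pos hlt] at hv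
        exact mul_le_mul_of_nonneg_left hv (abs_nonneg _)
      have s2 := hs n k0 a P i H h τ' hτ' (fun σ => |b19JJ k0 a P τ 3 σ| * (M0 * |b19Qm k0 (σ 8) (σ 9)| + b19K n a P H))
        (fun σ σ' hσ => by
          show |b19JJ k0 a P τ 3 σ| * (M0 * |b19Qm k0 (σ 8) (σ 9)| + b19K n a P H)
            = |b19JJ k0 a P τ 3 σ'| * (M0 * |b19Qm k0 (σ' 8) (σ' 9)| + b19K n a P H)
          rw [b19_JJ_uses k0 a P τ 3 (q := 10) (by norm_num) σ σ' hσ, hσ 8 (by norm_num), hσ 9 (by norm_num)])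
        (fun σ => by positivity) θ hθ t ht
      have s3 := b19_flip_core k0 hp h hNQ hτ hτ' hag hlt
      calc _ ≤ Cs * b19Sk n a P 10 τ' (fun σ => |b19JJ k0 a P τ 3 σ| * (M0 * |b19Qm k0 (σ 8) (σ 9)| + b19K n a P H)) := s1.trans s2
        _ ≤ Bd := mul_le_mul_of_nonneg_left s3 hCs
    · have z : (fun σ : ℕ → SkCfg n => (b19Sp k0 (Finset.range 8) σ * b19JJ k0 a P τ 3 σ)
            * b19V k0 (fun j x => b19Ct n a P t j x - b19C n a P (b19Lam H 0) t j x) P.length (τ' 8 (8 + 1)) (σ 8) (σ (8 + 1)))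
          = fun _ => 0 := by
        funext σ
        rw [b19_V_s k0 a P H t hoff, if_neg hlt, mul_zero]
      rw [z]
      unfold b19Nu
      rw [b19_tr_const hB (b19_adm k0 h.a0 h.adm _).1, abs_zero]
      exact hBd0
  have key := b19_taylor1 (fun θ hθ => b19_deriv hn k0 h.a0 h.adm hm.1 hm.2 hτ8 _ hf (θ := θ) hθ) hbound
  have s1 : b19Seg (b19C n a P (b19Lam H 0) t) (b19Ct n a P t) 1 = b19Ct n a P t := by
    funext j x; simp [b19Seg]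
  have s0 : b19Seg (b19C n a P (b19Lam H 0) t) (b19Ct n a P t) 0 = b19C n a P (b19Lam H 0) t := by
    funext j x; simp [b19Seg]
  have g0 : H ≤ τ 0 0 := by rw [hτ8.diag 0 (by norm_num)]; have := h.HN; omega
  have g1 : ¬ H ≤ τ 0 1 := by rw [h01]; have := h.iH; omega
  have g23 := b19_pair_iff hτ8 (x := 0) (c := 2) (d := 3) (by norm_num) (by norm_num) (by norm_num) H23
  have g45 := b19_pair_iff hτ8 (x := 0) (c := 4) (d := 5) (by norm_num) (by norm_num) (by norm_num) H45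
  have g67 := b19_pair_iff hτ8 (x := 0) (c := 6) (d := 7) (by norm_num) (by norm_num) (by norm_num) H67
  have odd8 : Odd ((Finset.range 8).filter fun y => H ≤ τ 0 y).card := by
    rw [Finset.card_filter]
    simp only [Finset.sum_range_succ, Finset.sum_range_zero]
    by_cases h2 : H ≤ τ 0 2 <;> by_cases h4 : H ≤ τ 0 4 <;> by_cases h6 : H ≤ τ 0 6 <;>
      simp only [g0, g1, ← g23, ← g45, ← g67, h2, h4, h6, if_true, if_false] <;> decide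
  have e0 : b19Nu k0 a P (b19C n a P (b19Lam H 0) t) 8 τ (fun σ => b19Sp k0 (Finset.range 8) σ * b19JJ k0 a P τ 3 σ) = 0 :=
    b19_flip hn k0 h.a0 h.adm hm.1 h.HN (fun j hj => by simp [b19C, b19Lam, hj]) hτ8 (Finset.range 8)
      (fun x hx => Finset.mem_range.1 hx) (by norm_num) odd8 _ (b19_JJ_uses k0 a P τ 3 (by norm_num)) (b19_JJ_rest k0 a P τ 3)
  rw [s1, s0, e0, sub_zero] at key
  have key' : |b19T3 k0 a P (Finset.range 8) t τ| ≤ 2 * a ^ 2 * 8 * (8 + 1) * Bd := key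
  refine key'.trans ?_
  have ha2 : a ^ 2 ≤ A0 ^ 2 := pow_le_pow_left₀ h.a0.le h.aA 2
  have hb : Bd ≤ Cs * (8 * M0 ^ 3 * (M0 + 1)) * ((NQ + b19K n a P H) * DD) := by
    rw [hBd]
    have e : M0 * NQ + b19K n a P H ≤ (M0 + 1) * (NQ + b19K n a P H) := by nlinarith
    have := mul_le_mul_of_nonneg_left (mul_le_mul_of_nonneg_right e hDD0) (by positivity : 0 ≤ Cs * (8 * M0 ^ 3))
    linarith
  have hR0 : 0 ≤ Cs * (8 * M0 ^ 3 * (M0 + 1)) * ((NQ + b19K n a P H) * DD) := by positivity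
  calc 2 * a ^ 2 * 8 * (8 + 1) * Bd ≤ 2 * A0 ^ 2 * 8 * (8 + 1) * (Cs * (8 * M0 ^ 3 * (M0 + 1)) * ((NQ + b19K n a P H) * DD)) := by
        refine mul_le_mul ?_ hb hBd0 (by positivity)
        nlinarith
    _ = _ := by ring

/-! ## #E exits -/

/-- the three classes of a level -/
theorem b19_cls (i H r : ℕ) : r = i ∨ (r < H ∧ r ≠ i) ∨ H ≤ r := by omega

theorem b19_cls_p (k0 : Fin n) (a : ℝ) (P : SkStp) {i H : ℕ} (hiH : i < H) (s : ℝ) :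
    b19dL k0 a P i H i = 0 ∧ b19dH k0 a P H s i = 0 ∧ b19dp i i = 1 := by
  refine ⟨?_, ?_, ?_⟩
  · unfold b19dL; rw [if_neg (by simp)]
  · unfold b19dH; rw [if_neg (by omega)]
  · unfold b19dp; rw [if_pos rfl]

theorem b19_cls_L (k0 : Fin n) (a : ℝ) (P : SkStp) {i H r : ℕ} (h : r < H ∧ r ≠ i) (s : ℝ) :
    b19dL k0 a P i H r = b19Dm k0 a P r ∧ b19dH k0 a P H s r = 0 ∧ b19dp i r = 0 := by
  refine ⟨?_, ?_, ?_⟩
  · unfold b19dL; rw [if_pos h]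
  · unfold b19dH; rw [if_neg (by omega)]
  · unfold b19dp; rw [if_neg h.2]

theorem b19_cls_H (k0 : Fin n) (a : ℝ) (P : SkStp) {i H r : ℕ} (hiH : i < H) (h : H ≤ r) (s : ℝ) :
    b19dL k0 a P i H r = 0 ∧ b19dH k0 a P H s r = b19Dm k0 a P r ^ s ∧ b19dp i r = 0 := by
  refine ⟨?_, ?_, ?_⟩
  · unfold b19dL; rw [if_neg (by omega)]
  · unfold b19dH; rw [if_pos h]
  · unfold b19dp; rw [if_neg (by omega)]

/-- `|χ| ≤ M0² D D` -/
theorem b19_Chi_le (k0 : Fin n) {a : ℝ} {P : SkStp} {A0 M0 : ℝ} {i H : ℕ} (h : B19Hyp n a P A0 M0 i H) {τ : ℕ → ℕ → ℕ}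
    (hτ : B19Tr P.length i 2 τ) : |b19Chi k0 a P τ| ≤ M0 ^ 2 * (b19Dm k0 a P (τ 2 3) * b19Dm k0 a P (τ 4 5)) := by
  have hn : 0 < n := by have := h.n2; omega
  have hB := b19_base_ok n h.a0
  have hls : GhAdm (skBase n a) 0 (skLvs n P) := sk_sy_adm h.adm
  obtain ⟨hτ6, -, h23, h45⟩ := b19_Tr_two hτ
  have hM := b19_M0_nonneg h
  have h2 := b19_hold2 hn k0 h.a0 h.adm hτ6 (c1 := 2) (d1 := 3) (c2 := 4) (d2 := 5) (by norm_num) (by norm_num)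
  have s1 : |b19Chi k0 a P τ| ≤ M0 ^ 2 * b19Sk n a P 6 τ (fun σ => |b19Dl k0 a P (τ 2 3) 2 3 σ| * |b19Dl k0 a P (τ 4 5) 4 5 σ|) := by
    unfold b19Chi b19Sk
    rw [← b19_tr_smul hB hls]
    refine (b19_tr_abs hB hls _ _ _ _).trans (b19_tr_mono hB hls _ _ _ fun σ => ?_)
    rw [b19_JJ_two, abs_mul]
    have j1 := (b19_J_abs k0 h h23 σ).1
    have j2 := (b19_J_abs k0 h h45 σ).1
    calc _ ≤ (M0 * |b19Dl k0 a P (τ 2 3) 2 3 σ|) * (M0 * |b19Dl k0 a P (τ 4 5) 4 5 σ|) :=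
          mul_le_mul j1 j2 (abs_nonneg _) (by positivity)
      _ = _ := by ring
  exact s1.trans (mul_le_mul_of_nonneg_left h2 (by positivity))

/-- **per-tree majorant, degree two**, outside the classes pp, pH, Hp:   `|χ| ≤ M0² D D` (`b19_J_abs`, `b19_hold2`), `|c6| ≤ 3/2`, and `|c6| ≤ C K_H` in the class HH (`b19_sign_H`).
Each level is in exactly one of the classes p (`= i`), L (`< H`, `≠ i`), H (`≥ H`); pick the corresponding term of `b19Maj2`. -/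
theorem b19_tree2 (A0 M0 : ℝ) : ∃ C : ℝ, 0 ≤ C ∧ ∀ (n : ℕ) (k0 : Fin n) (a : ℝ) (P : SkStp) (i H : ℕ),
    B19Hyp n a P A0 M0 i H → ∀ τ, B19Tr P.length i 2 τ →
      ¬ (τ 2 3 = i ∧ τ 4 5 = i) → ¬ (τ 2 3 = i ∧ H ≤ τ 4 5) → ¬ (H ≤ τ 2 3 ∧ τ 4 5 = i) →
      |b19c6 n a P τ * b19Chi k0 a P τ| ≤ C * b19Maj2 k0 a P i H (τ 2 3) (τ 4 5) := by
  obtain ⟨Cs, hCs, hs⟩ := b19_sign_H A0 M0
  refine ⟨(3 / 2 + Cs) * M0 ^ 2, by positivity, fun n k0 a P i H h τ hτ npp npH nHp => ?_⟩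
  have hn : 0 < n := by have := h.n2; omega
  obtain ⟨hτ6, h01, h23, h45⟩ := b19_Tr_two hτ
  have hK : 0 ≤ b19K n a P H := by
    have := b19_K_mono hn h.a0 h.adm (Nat.zero_le H) h.HN
    rwa [b19_K_zero] at this
  have hχ := b19_Chi_le k0 h hτ
  have hc := b19_c6_abs hn h.a0 h.adm τ
  have hD1 := (b19_num_nonneg hn k0 h.a0 h.adm 2 (τ 2 3) 0).2.1
  have hD2 := (b19_num_nonneg hn k0 h.a0 h.adm 2 (τ 4 5) 0).2.1
  have hDD : 0 ≤ b19Dm k0 a P (τ 2 3) * b19Dm k0 a P (τ 4 5) := mul_nonneg hD1 hD2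
  have hM2 : 0 ≤ M0 ^ 2 := by positivity
  -- the generic bound
  have gen : |b19c6 n a P τ * b19Chi k0 a P τ| ≤ (3 / 2 + Cs) * M0 ^ 2 * (b19Dm k0 a P (τ 2 3) * b19Dm k0 a P (τ 4 5)) := by
    rw [abs_mul]
    calc _ ≤ 3 / 2 * (M0 ^ 2 * (b19Dm k0 a P (τ 2 3) * b19Dm k0 a P (τ 4 5))) :=
          mul_le_mul hc hχ (abs_nonneg _) (by norm_num)
      _ ≤ _ := by nlinarith [mul_nonneg hCs (mul_nonneg hM2 hDD)]
  unfold b19Maj2
  rcases b19_cls i H (τ 2 3) with c1 | c1 | c1 <;> rcases b19_cls i H (τ 4 5) with c2 | c2 | c2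
  · exact absurd ⟨c1, c2⟩ npp
  · obtain ⟨a1, a2, a3⟩ := b19_cls_p k0 a P h.iH 1
    obtain ⟨b1, b2, b3⟩ := b19_cls_L k0 a P c2 1
    rw [c1] at gen ⊢
    rw [a1, a2, a3, b1, b2, b3]
    refine gen.trans (le_of_eq ?_)
    ring
  · exact absurd ⟨c1, c2⟩ npH
  · obtain ⟨a1, a2, a3⟩ := b19_cls_L k0 a P c1 1
    obtain ⟨b1, b2, b3⟩ := b19_cls_p k0 a P h.iH 1
    rw [c2] at gen ⊢
    rw [a1, a2, a3, b1, b2, b3]
    refine gen.trans (le_of_eq ?_)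
    ring
  · obtain ⟨a1, a2, a3⟩ := b19_cls_L k0 a P c1 1
    obtain ⟨b1, b2, b3⟩ := b19_cls_L k0 a P c2 1
    rw [a1, a2, a3, b1, b2, b3]
    refine gen.trans (le_of_eq ?_)
    ring
  · obtain ⟨a1, a2, a3⟩ := b19_cls_L k0 a P c1 1
    obtain ⟨b1, b2, b3⟩ := b19_cls_H k0 a P h.iH c2 1
    rw [a1, a2, a3, b1, b2, b3, Real.rpow_one]
    refine gen.trans (le_of_eq ?_)
    ring
  · exact absurd ⟨c1, c2⟩ nHp
  · obtain ⟨a1, a2, a3⟩ := b19_cls_H k0 a P h.iH c1 1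
    obtain ⟨b1, b2, b3⟩ := b19_cls_L k0 a P c2 1
    rw [a1, a2, a3, b1, b2, b3, Real.rpow_one]
    refine gen.trans (le_of_eq ?_)
    ring
  · obtain ⟨a1, a2, a3⟩ := b19_cls_H k0 a P h.iH c1 1
    obtain ⟨b1, b2, b3⟩ := b19_cls_H k0 a P h.iH c2 1
    rw [a1, a2, a3, b1, b2, b3, Real.rpow_one, Real.rpow_one]
    have hc6 := (hs n a P i H h τ hτ6 h01 c1 c2).2
    rw [abs_mul]
    calc _ ≤ (Cs * b19K n a P H) * (M0 ^ 2 * (b19Dm k0 a P (τ 2 3) * b19Dm k0 a P (τ 4 5))) :=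
          mul_le_mul hc6 hχ (abs_nonneg _) (by positivity)
      _ ≤ _ := by nlinarith [mul_nonneg hK (mul_nonneg hM2 hDD)]

/-- each of the six terms of a symmetrisation of nonnegative functions is bounded by the whole -/
theorem b19_Sym3_ge {f g h : ℕ → ℝ} (hf : ∀ r, 0 ≤ f r) (hg : ∀ r, 0 ≤ g r) (hh : ∀ r, 0 ≤ h r) (r1 r2 r3 : ℕ) :
    f r1 * g r2 * h r3 ≤ b19Sym3 f g h r1 r2 r3 ∧ f r1 * g r3 * h r2 ≤ b19Sym3 f g h r1 r2 r3 ∧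
    f r2 * g r1 * h r3 ≤ b19Sym3 f g h r1 r2 r3 ∧ f r2 * g r3 * h r1 ≤ b19Sym3 f g h r1 r2 r3 ∧
    f r3 * g r1 * h r2 ≤ b19Sym3 f g h r1 r2 r3 ∧ f r3 * g r2 * h r1 ≤ b19Sym3 f g h r1 r2 r3 ∧
    0 ≤ b19Sym3 f g h r1 r2 r3 := by
  unfold b19Sym3
  have t1 := mul_nonneg (mul_nonneg (hf r1) (hg r2)) (hh r3)
  have t2 := mul_nonneg (mul_nonneg (hf r1) (hg r3)) (hh r2)
  have t3 := mul_nonneg (mul_nonneg (hf r2) (hg r1)) (hh r3)
  have t4 := mul_nonneg (mul_nonneg (hf r2) (hg r3)) (hh r1)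
  have t5 := mul_nonneg (mul_nonneg (hf r3) (hg r1)) (hh r2)
  have t6 := mul_nonneg (mul_nonneg (hf r3) (hg r2)) (hh r1)
  refine ⟨?_, ?_, ?_, ?_, ?_, ?_, ?_⟩ <;> linarith

/-- the algebra of `b19_tree3` outside the class HHH: `x` = the number `ν[|δ δ δ|]`, with its nine Hoelder bounds -/
theorem b19_maj3_alg (i H : ℕ) (L H1 Hθ H0 pp D F G T : ℕ → ℝ) (A4 x : ℝ) (r1 r2 r3 : ℕ)
    (vp : ∀ r, r = i → L r = 0 ∧ H1 r = 0 ∧ Hθ r = 0 ∧ pp r = 1)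
    (vL : ∀ r, r < H ∧ r ≠ i → L r = D r ∧ H1 r = 0 ∧ Hθ r = 0 ∧ pp r = 0)
    (vH : ∀ r, H ≤ r → L r = 0 ∧ H1 r = D r ∧ Hθ r = T r ∧ pp r = 0)
    (hD : ∀ r, 0 ≤ D r) (hT : ∀ r, 0 ≤ T r) (hH0 : ∀ r, 0 ≤ H0 r) (hG : 0 ≤ G i) (hA4 : 0 ≤ A4)
    (a12 : x ≤ 2 * (D r1 * D r2)) (a13 : x ≤ 2 * (D r1 * D r3)) (a23 : x ≤ 2 * (D r2 * D r3))
    (b1 : x ≤ D r1 * F r2 * F r3) (b2 : x ≤ D r2 * F r1 * F r3) (b3 : x ≤ D r3 * F r1 * F r2)
    (c'1 : x ≤ 4 * G r1 * T r2 * T r3) (c'2 : x ≤ 4 * G r2 * T r1 * T r3) (c'3 : x ≤ 4 * G r3 * T r1 * T r2)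
    (hnot : ¬ (H ≤ r1 ∧ H ≤ r2 ∧ H ≤ r3)) :
    x ≤ 4 * (b19Sym3 L L (fun _ => 1) r1 r2 r3 + b19Sym3 L H1 (fun _ => 1) r1 r2 r3
      + D i * F i ^ 2 * (pp r1 * pp r2 * pp r3) + F i ^ 2 * b19Sym3 pp pp (fun r => L r + H1 r) r1 r2 r3
      + G i * b19Sym3 pp Hθ Hθ r1 r2 r3 + A4 * b19Sym3 Hθ Hθ H0 r1 r2 r3) := by
  have hL0 : ∀ r, 0 ≤ L r := fun r => by
    rcases b19_cls i H r with c | c | c
    · rw [(vp r c).1]
    · rw [(vL r c).1]; exact hD r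
    · rw [(vH r c).1]
  have hH10 : ∀ r, 0 ≤ H1 r := fun r => by
    rcases b19_cls i H r with c | c | c
    · rw [(vp r c).2.1]
    · rw [(vL r c).2.1]
    · rw [(vH r c).2.1]; exact hD r
  have hHθ0 : ∀ r, 0 ≤ Hθ r := fun r => by
    rcases b19_cls i H r with c | c | c
    · rw [(vp r c).2.2.1]
    · rw [(vL r c).2.2.1]
    · rw [(vH r c).2.2.1]; exact hT r
  have hpp0 : ∀ r, 0 ≤ pp r := fun r => by
    rcases b19_cls i H r with c | c | c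
    · rw [(vp r c).2.2.2]; exact zero_le_one
    · rw [(vL r c).2.2.2]
    · rw [(vH r c).2.2.2]
  have hF2 : 0 ≤ F i ^ 2 := by positivity
  obtain ⟨g1a, g1b, g1c, g1d, g1e, g1f, n1⟩ := b19_Sym3_ge hL0 hL0 (fun _ => zero_le_one) r1 r2 r3
  obtain ⟨g2a, g2b, g2c, g2d, g2e, g2f, n2⟩ := b19_Sym3_ge hL0 hH10 (fun _ => zero_le_one) r1 r2 r3
  obtain ⟨g4a, g4b, g4c, g4d, g4e, g4f, n4⟩ := b19_Sym3_ge hpp0 hpp0 (fun r => add_nonneg (hL0 r) (hH10 r)) r1 r2 r3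
  obtain ⟨g5a, g5b, g5c, g5d, g5e, g5f, n5⟩ := b19_Sym3_ge hpp0 hHθ0 hHθ0 r1 r2 r3
  obtain ⟨-, -, -, -, -, -, n6⟩ := b19_Sym3_ge hHθ0 hHθ0 hH0 r1 r2 r3
  obtain ⟨S1, hS1⟩ : ∃ S, S = b19Sym3 L L (fun _ => 1) r1 r2 r3 := ⟨_, rfl⟩
  obtain ⟨S2, hS2⟩ : ∃ S, S = b19Sym3 L H1 (fun _ => 1) r1 r2 r3 := ⟨_, rfl⟩
  obtain ⟨S3, hS3⟩ : ∃ S, S = D i * F i ^ 2 * (pp r1 * pp r2 * pp r3) := ⟨_, rfl⟩
  obtain ⟨S4, hS4⟩ : ∃ S, S = b19Sym3 pp pp (fun r => L r + H1 r) r1 r2 r3 := ⟨_, rfl⟩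
  obtain ⟨S5, hS5⟩ : ∃ S, S = b19Sym3 pp Hθ Hθ r1 r2 r3 := ⟨_, rfl⟩
  obtain ⟨S6, hS6⟩ : ∃ S, S = b19Sym3 Hθ Hθ H0 r1 r2 r3 := ⟨_, rfl⟩
  have n3 : 0 ≤ S3 := by
    rw [hS3]
    exact mul_nonneg (mul_nonneg (hD i) hF2) (mul_nonneg (mul_nonneg (hpp0 _) (hpp0 _)) (hpp0 _))
  rw [← hS1, ← hS2, ← hS3, ← hS4, ← hS5, ← hS6]
  rw [← hS1] at g1a g1b g1c g1d g1e g1f n1
  rw [← hS2] at g2a g2b g2c g2d g2e g2f n2
  rw [← hS4] at g4a g4b g4c g4d g4e g4f n4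
  rw [← hS5] at g5a g5b g5c g5d g5e g5f n5
  rw [← hS6] at n6
  have m4 : 0 ≤ F i ^ 2 * S4 := mul_nonneg hF2 n4
  have m5 : 0 ≤ G i * S5 := mul_nonneg hG n5
  have m6 : 0 ≤ A4 * S6 := mul_nonneg hA4 n6
  rcases b19_cls i H r1 with c1 | c1 | c1 <;> rcases b19_cls i H r2 with c2 | c2 | c2 <;>
    rcases b19_cls i H r3 with c3 | c3 | c3
  · have t := b1   -- ppp
    rw [c1, c2, c3] at t
    have u : S3 = D i * F i ^ 2 * (1 * 1 * 1) := by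
      rw [hS3, (vp _ c1).2.2.2, (vp _ c2).2.2.2, (vp _ c3).2.2.2]
    linarith
  · have t : pp r1 * pp r2 * (L r3 + H1 r3) ≤ S4 := g4a   -- ppL
    rw [(vp _ c1).2.2.2, (vp _ c2).2.2.2, (vL _ c3).1, (vL _ c3).2.1] at t
    have t2 := mul_le_mul_of_nonneg_left t hF2
    have u := b3
    rw [c1, c2] at u
    linarith
  · have t : pp r1 * pp r2 * (L r3 + H1 r3) ≤ S4 := g4a   -- ppH
    rw [(vp _ c1).2.2.2, (vp _ c2).2.2.2, (vH _ c3).1, (vH _ c3).2.1] at t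
    have t2 := mul_le_mul_of_nonneg_left t hF2
    have u := b3
    rw [c1, c2] at u
    linarith
  · have t : pp r1 * pp r3 * (L r2 + H1 r2) ≤ S4 := g4b   -- pLp
    rw [(vp _ c1).2.2.2, (vp _ c3).2.2.2, (vL _ c2).1, (vL _ c2).2.1] at t
    have t2 := mul_le_mul_of_nonneg_left t hF2
    have u := b2
    rw [c1, c3] at u
    linarith
  · have t : L r2 * L r3 * 1 ≤ S1 := g1d   -- pLL
    rw [(vL _ c2).1, (vL _ c3).1] at t
    linarith [a23]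
  · have t : L r2 * H1 r3 * 1 ≤ S2 := g2d   -- pLH
    rw [(vL _ c2).1, (vH _ c3).2.1] at t
    linarith [a23]
  · have t : pp r1 * pp r3 * (L r2 + H1 r2) ≤ S4 := g4b   -- pHp
    rw [(vp _ c1).2.2.2, (vp _ c3).2.2.2, (vH _ c2).1, (vH _ c2).2.1] at t
    have t2 := mul_le_mul_of_nonneg_left t hF2
    have u := b2
    rw [c1, c3] at u
    linarith
  · have t : L r3 * H1 r2 * 1 ≤ S2 := g2f   -- pHL
    rw [(vL _ c3).1, (vH _ c2).2.1] at t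
    linarith [a23]
  · have t : pp r1 * Hθ r2 * Hθ r3 ≤ S5 := g5a   -- pHH
    rw [(vp _ c1).2.2.2, (vH _ c2).2.2.1, (vH _ c3).2.2.1] at t
    have t2 := mul_le_mul_of_nonneg_left t hG
    have u := c'1
    rw [c1] at u
    linarith
  · have t : pp r2 * pp r3 * (L r1 + H1 r1) ≤ S4 := g4d   -- Lpp
    rw [(vp _ c2).2.2.2, (vp _ c3).2.2.2, (vL _ c1).1, (vL _ c1).2.1] at t
    have t2 := mul_le_mul_of_nonneg_left t hF2
    have u := b1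
    rw [c2, c3] at u
    linarith
  · have t : L r1 * L r3 * 1 ≤ S1 := g1b   -- LpL
    rw [(vL _ c1).1, (vL _ c3).1] at t
    linarith [a13]
  · have t : L r1 * H1 r3 * 1 ≤ S2 := g2b   -- LpH
    rw [(vL _ c1).1, (vH _ c3).2.1] at t
    linarith [a13]
  · have t : L r1 * L r2 * 1 ≤ S1 := g1a   -- LLp
    rw [(vL _ c1).1, (vL _ c2).1] at t
    linarith [a12]
  · have t : L r1 * L r2 * 1 ≤ S1 := g1a   -- LLL
    rw [(vL _ c1).1, (vL _ c2).1] at t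
    linarith [a12]
  · have t : L r1 * L r2 * 1 ≤ S1 := g1a   -- LLH
    rw [(vL _ c1).1, (vL _ c2).1] at t
    linarith [a12]
  · have t : L r1 * H1 r2 * 1 ≤ S2 := g2a   -- LHp
    rw [(vL _ c1).1, (vH _ c2).2.1] at t
    linarith [a12]
  · have t : L r1 * L r3 * 1 ≤ S1 := g1b   -- LHL
    rw [(vL _ c1).1, (vL _ c3).1] at t
    linarith [a13]
  · have t : L r1 * H1 r2 * 1 ≤ S2 := g2a   -- LHH
    rw [(vL _ c1).1, (vH _ c2).2.1] at t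
    linarith [a12]
  · have t : pp r2 * pp r3 * (L r1 + H1 r1) ≤ S4 := g4d   -- Hpp
    rw [(vp _ c2).2.2.2, (vp _ c3).2.2.2, (vH _ c1).1, (vH _ c1).2.1] at t
    have t2 := mul_le_mul_of_nonneg_left t hF2
    have u := b1
    rw [c2, c3] at u
    linarith
  · have t : L r3 * H1 r1 * 1 ≤ S2 := g2e   -- HpL
    rw [(vL _ c3).1, (vH _ c1).2.1] at t
    linarith [a13]
  · have t : pp r2 * Hθ r1 * Hθ r3 ≤ S5 := g5c   -- HpH
    rw [(vp _ c2).2.2.2, (vH _ c1).2.2.1, (vH _ c3).2.2.1] at t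
    have t2 := mul_le_mul_of_nonneg_left t hG
    have u := c'2
    rw [c2] at u
    linarith
  · have t : L r2 * H1 r1 * 1 ≤ S2 := g2c   -- HLp
    rw [(vL _ c2).1, (vH _ c1).2.1] at t
    linarith [a12]
  · have t : L r2 * L r3 * 1 ≤ S1 := g1d   -- HLL
    rw [(vL _ c2).1, (vL _ c3).1] at t
    linarith [a23]
  · have t : L r2 * H1 r1 * 1 ≤ S2 := g2c   -- HLH
    rw [(vL _ c2).1, (vH _ c1).2.1] at t
    linarith [a12]
  · have t : pp r3 * Hθ r1 * Hθ r2 ≤ S5 := g5e   -- HHp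
    rw [(vp _ c3).2.2.2, (vH _ c1).2.2.1, (vH _ c2).2.2.1] at t
    have t2 := mul_le_mul_of_nonneg_left t hG
    have u := c'3
    rw [c3] at u
    linarith
  · have t : L r3 * H1 r1 * 1 ≤ S2 := g2e   -- HHL
    rw [(vL _ c3).1, (vH _ c1).2.1] at t
    linarith [a13]
  · exact absurd ⟨c1, c2, c3⟩ hnot   -- HHH

/-- the nine Hoelder bounds of `ν[|δ δ δ|]` -/
theorem b19_X3_bounds (k0 : Fin n) {a : ℝ} {P : SkStp} {p A0 M0 : ℝ} (hp : 2 ≤ p) {i H : ℕ} (h : B19Hyp n a P A0 M0 i H)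
    {τ : ℕ → ℕ → ℕ} (hτ : B19Tr P.length i 3 τ) :
    (b19X3 k0 a P τ ≤ 2 * (b19Dm k0 a P (τ 2 3) * b19Dm k0 a P (τ 4 5)) ∧
      b19X3 k0 a P τ ≤ 2 * (b19Dm k0 a P (τ 2 3) * b19Dm k0 a P (τ 6 7)) ∧
      b19X3 k0 a P τ ≤ 2 * (b19Dm k0 a P (τ 4 5) * b19Dm k0 a P (τ 6 7))) ∧
    (b19X3 k0 a P τ ≤ b19Dm k0 a P (τ 2 3) * b19Nm k0 a P 4 (τ 4 5) * b19Nm k0 a P 4 (τ 6 7) ∧
      b19X3 k0 a P τ ≤ b19Dm k0 a P (τ 4 5) * b19Nm k0 a P 4 (τ 2 3) * b19Nm k0 a P 4 (τ 6 7) ∧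
      b19X3 k0 a P τ ≤ b19Dm k0 a P (τ 6 7) * b19Nm k0 a P 4 (τ 2 3) * b19Nm k0 a P 4 (τ 4 5)) ∧
    (b19X3 k0 a P τ ≤ 4 * b19Nm k0 a P p (τ 2 3) * b19Dm k0 a P (τ 4 5) ^ (1 - 1 / p) * b19Dm k0 a P (τ 6 7) ^ (1 - 1 / p) ∧
      b19X3 k0 a P τ ≤ 4 * b19Nm k0 a P p (τ 4 5) * b19Dm k0 a P (τ 2 3) ^ (1 - 1 / p) * b19Dm k0 a P (τ 6 7) ^ (1 - 1 / p) ∧
      b19X3 k0 a P τ ≤ 4 * b19Nm k0 a P p (τ 6 7) * b19Dm k0 a P (τ 2 3) ^ (1 - 1 / p) * b19Dm k0 a P (τ 4 5) ^ (1 - 1 / p)) := by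
  have hn : 0 < n := by have := h.n2; omega
  have hB := b19_base_ok n h.a0
  have hls : GhAdm (skBase n a) 0 (skLvs n P) := sk_sy_adm h.adm
  obtain ⟨hτ8, -, h23, h45, h67⟩ := b19_Tr_three hτ
  have l1 : (2 : ℕ) < 8 ∧ 3 < 8 ∧ 2 ≠ 3 := by norm_num
  have l2 : (4 : ℕ) < 8 ∧ 5 < 8 ∧ 4 ≠ 5 := by norm_num
  have l3 : (6 : ℕ) < 8 ∧ 7 < 8 ∧ 6 ≠ 7 := by norm_num
  have d1 := fun σ => b19_Dl_abs hn k0 h.a0 h.adm h23 2 3 σ
  have d2 := fun σ => b19_Dl_abs hn k0 h.a0 h.adm h45 4 5 σ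
  have d3 := fun σ => b19_Dl_abs hn k0 h.a0 h.adm h67 6 7 σ
  -- the permuted forms of the number
  have e2 : b19X3 k0 a P τ = b19Sk n a P 8 τ fun σ =>
      |b19Dl k0 a P (τ 4 5) 4 5 σ| * |b19Dl k0 a P (τ 2 3) 2 3 σ| * |b19Dl k0 a P (τ 6 7) 6 7 σ| := by
    unfold b19X3; congr 1; funext σ; ring
  have e3 : b19X3 k0 a P τ = b19Sk n a P 8 τ fun σ =>
      |b19Dl k0 a P (τ 6 7) 6 7 σ| * |b19Dl k0 a P (τ 2 3) 2 3 σ| * |b19Dl k0 a P (τ 4 5) 4 5 σ| := by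
    unfold b19X3; congr 1; funext σ; ring
  refine ⟨⟨?_, ?_, ?_⟩, ⟨?_, ?_, ?_⟩, ⟨?_, ?_, ?_⟩⟩
  · refine le_trans ?_ (mul_le_mul_of_nonneg_left (b19_hold2 hn k0 h.a0 h.adm hτ8 l1 l2) (by norm_num : (0 : ℝ) ≤ 2))
    unfold b19X3 b19Sk
    rw [← b19_tr_smul hB hls]
    refine b19_tr_mono hB hls _ _ _ fun σ => ?_
    have := mul_le_mul_of_nonneg_left (d3 σ) (mul_nonneg (abs_nonneg (b19Dl k0 a P (τ 2 3) 2 3 σ)) (abs_nonneg (b19Dl k0 a P (τ 4 5) 4 5 σ)))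
    linarith
  · refine le_trans ?_ (mul_le_mul_of_nonneg_left (b19_hold2 hn k0 h.a0 h.adm hτ8 l1 l3) (by norm_num : (0 : ℝ) ≤ 2))
    unfold b19X3 b19Sk
    rw [← b19_tr_smul hB hls]
    refine b19_tr_mono hB hls _ _ _ fun σ => ?_
    have := mul_le_mul_of_nonneg_left (d2 σ) (mul_nonneg (abs_nonneg (b19Dl k0 a P (τ 2 3) 2 3 σ)) (abs_nonneg (b19Dl k0 a P (τ 6 7) 6 7 σ)))
    linarith
  · refine le_trans ?_ (mul_le_mul_of_nonneg_left (b19_hold2 hn k0 h.a0 h.adm hτ8 l2 l3) (by norm_num : (0 : ℝ) ≤ 2))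
    unfold b19X3 b19Sk
    rw [← b19_tr_smul hB hls]
    refine b19_tr_mono hB hls _ _ _ fun σ => ?_
    have := mul_le_mul_of_nonneg_left (d1 σ) (mul_nonneg (abs_nonneg (b19Dl k0 a P (τ 4 5) 4 5 σ)) (abs_nonneg (b19Dl k0 a P (τ 6 7) 6 7 σ)))
    linarith
  · exact b19_hold3 hn k0 h.a0 h.adm hτ8 l1 l2 l3
  · rw [e2]; exact b19_hold3 hn k0 h.a0 h.adm hτ8 l2 l1 l3
  · rw [e3]; exact b19_hold3 hn k0 h.a0 h.adm hτ8 l3 l1 l2
  · have := b19_holdp hn k0 h.a0 h.adm hp hτ8 (fun σ => b19Dl k0 a P (τ 2 3) 2 3 σ) l2 l3 h45 h67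
    rw [b19_Nm_marg k0 h.a0 h.adm hτ8 l1 p] at this
    exact this
  · have := b19_holdp hn k0 h.a0 h.adm hp hτ8 (fun σ => b19Dl k0 a P (τ 4 5) 4 5 σ) l1 l3 h23 h67
    rw [b19_Nm_marg k0 h.a0 h.adm hτ8 l2 p] at this
    rw [e2]; exact this
  · have := b19_holdp hn k0 h.a0 h.adm hp hτ8 (fun σ => b19Dl k0 a P (τ 6 7) 6 7 σ) l1 l2 h23 h45
    rw [b19_Nm_marg k0 h.a0 h.adm hτ8 l3 p] at this
    rw [e3]; exact this

/-- **per-tree majorant, degree three** (blueprint sec.3).   `b19_T3_le`, then cases on the classes of the three levels: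
two L, or L and H: drop the third factor (`|δ| ≤ 2`), `b19_hold2`;   ppp, ppL, ppH: `b19_hold3` (the factor with the exponent 2 = a pinned one, resp. the free one);   pHH: `b19_holdp` with `X` = the pinned factor;
HHH: `b19_flip3` for the first number, `b19_sign_H` + `b19_hold2` + `D ≤ 2 D^θ` for the other two.   All scalar coefficients are `≤ 3/2` otherwise. -/
theorem b19_tree3 (p A0 M0 : ℝ) (hp : 2 ≤ p) : ∃ C : ℝ, 0 ≤ C ∧ ∀ (n : ℕ) (k0 : Fin n) (a : ℝ) (P : SkStp) (i H : ℕ) (NQ : ℝ),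
    B19Hyp n a P A0 M0 i H → (∀ r, r < H → b19NQ k0 a P p r ≤ NQ) →
    ∀ t ∈ Icc (0 : ℝ) 1, ∀ τ, B19Tr P.length i 3 τ →
      |b19T3 k0 a P (Finset.range 8) t τ| ≤ C * b19Maj3 k0 a P p i H NQ (τ 2 3) (τ 4 5) (τ 6 7) ∧
      |b19Sc n a P 4 τ (Finset.range 4)| * |b19T3 k0 a P {4, 5, 6, 7} t τ| ≤ C * b19Maj3 k0 a P p i H NQ (τ 2 3) (τ 4 5) (τ 6 7) ∧
      |b19c6 n a P τ| * |b19T3 k0 a P {6, 7} t τ| ≤ C * b19Maj3 k0 a P p i H NQ (τ 2 3) (τ 4 5) (τ 6 7) := by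
  obtain ⟨CT, hCT, hT⟩ := b19_T3_le A0 M0
  obtain ⟨CF, hCF, hF⟩ := b19_flip3 p A0 M0 hp
  obtain ⟨Cs, hCs, hs⟩ := b19_sign_H A0 M0
  refine ⟨6 * CT + CF + 8 * Cs * CT, by positivity, fun n k0 a P i H NQ h hNQ t ht τ hτ => ?_⟩
  have hn : 0 < n := by have := h.n2; omega
  obtain ⟨hτ8, h01, h23, h45, h67⟩ := b19_Tr_three hτ
  have hK := b19_K_nonneg hn h.a0 h.adm h.HN
  have hNQ0 : 0 ≤ NQ := ((b19_num_nonneg hn k0 h.a0 h.adm p i 0).2.2.1).trans (hNQ i h.iH)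
  have hD : ∀ r, 0 ≤ b19Dm k0 a P r := fun r => (b19_num_nonneg hn k0 h.a0 h.adm 2 r 0).2.1
  have hTθ : ∀ r, 0 ≤ b19Dm k0 a P r ^ (1 - 1 / p) := fun r => Real.rpow_nonneg (hD r) _
  obtain ⟨⟨a12, a13, a23⟩, ⟨b1, b2, b3⟩, ⟨c1, c2, c3⟩⟩ := b19_X3_bounds k0 hp h hτ
  have t1 := hT n k0 a P i H h t ht τ hτ (Finset.range 8) (fun x hx => Finset.mem_range.1 hx)
  have t2 := hT n k0 a P i H h t ht τ hτ {4, 5, 6, 7} (fun x hx => by
    simp only [Finset.mem_insert, Finset.mem_singleton] at hx; omega)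
  have t3 := hT n k0 a P i H h t ht τ hτ {6, 7} (fun x hx => by
    simp only [Finset.mem_insert, Finset.mem_singleton] at hx; omega)
  have hsc := b19_Sc_abs hn h.a0 h.adm 4 τ (Finset.range 4)
  have hc6 := b19_c6_abs hn h.a0 h.adm τ
  have hH00 : ∀ r, 0 ≤ b19dH k0 a P H 0 r := fun r => by
    unfold b19dH; split_ifs
    · exact Real.rpow_nonneg (hD r) _
    · exact le_rfl
  have hHθ0 : ∀ r, 0 ≤ b19dH k0 a P H (1 - 1 / p) r := fun r => by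
    unfold b19dH; split_ifs
    · exact hTθ r
    · exact le_rfl
  have hx0 : 0 ≤ b19X3 k0 a P τ := by
    unfold b19X3 b19Sk
    exact b19_tr_nonneg (b19_base_ok n h.a0) (sk_sy_adm h.adm) _ _ _ fun σ => by positivity
  by_cases hHHH : H ≤ τ 2 3 ∧ H ≤ τ 4 5 ∧ H ≤ τ 6 7
  · obtain ⟨H1, H2, H3⟩ := hHHH
    -- lower bound of the majorant
    set DD : ℝ := b19Dm k0 a P (τ 2 3) ^ (1 - 1 / p) * b19Dm k0 a P (τ 4 5) ^ (1 - 1 / p) with hDD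
    have hDD0 : 0 ≤ DD := mul_nonneg (hTθ _) (hTθ _)
    have hMaj : (NQ + b19K n a P H) * DD ≤ b19Maj3 k0 a P p i H NQ (τ 2 3) (τ 4 5) (τ 6 7) := by
      have v1 := b19_cls_H k0 a P h.iH H1
      have v2 := b19_cls_H k0 a P h.iH H2
      have v3 := b19_cls_H k0 a P h.iH H3
      unfold b19Maj3 b19Sym3
      simp only [(v1 1).1, (v2 1).1, (v3 1).1, (v1 1).2.2, (v2 1).2.2, (v3 1).2.2, (v1 (1 - 1 / p)).2.1, (v2 (1 - 1 / p)).2.1,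
        (v3 (1 - 1 / p)).2.1, (v1 0).2.1, (v2 0).2.1, (v3 0).2.1, Real.rpow_zero, mul_zero, zero_mul, add_zero, zero_add, mul_one]
      have q1 := hTθ (τ 2 3)
      have q2 := hTθ (τ 4 5)
      have q3 := hTθ (τ 6 7)
      have hA : 0 ≤ NQ + b19K n a P H := by positivity
      refine mul_le_mul_of_nonneg_left ?_ hA
      rw [hDD]
      nlinarith [mul_nonneg q1 q2, mul_nonneg q1 q3, mul_nonneg q2 q3]
    have hMaj0 : 0 ≤ b19Maj3 k0 a P p i H NQ (τ 2 3) (τ 4 5) (τ 6 7) := le_trans (by positivity) hMaj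
    have hx : b19X3 k0 a P τ ≤ 8 * DD := by
      refine c3.trans ?_
      have := b19_Dm_le hn k0 h.a0 h.adm (p := p) (by linarith) h67
      have := mul_le_mul_of_nonneg_right this hDD0
      rw [hDD] at this ⊢
      linarith
    obtain ⟨s4, s6⟩ := hs n a P i H h τ (tr_isTr_mono hτ8 (by norm_num)) h01 H1 H2
    have hKD : b19K n a P H * DD ≤ b19Maj3 k0 a P p i H NQ (τ 2 3) (τ 4 5) (τ 6 7) := by
      refine le_trans ?_ hMaj
      exact mul_le_mul_of_nonneg_right (by linarith) hDD0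
    have gen : ∀ c T : ℝ, |c| ≤ Cs * b19K n a P H → |T| ≤ CT * b19X3 k0 a P τ →
        |c| * |T| ≤ (6 * CT + CF + 8 * Cs * CT) * b19Maj3 k0 a P p i H NQ (τ 2 3) (τ 4 5) (τ 6 7) := by
      intro c T hc hT'
      calc |c| * |T| ≤ (Cs * b19K n a P H) * (CT * (8 * DD)) :=
            mul_le_mul hc (hT'.trans (mul_le_mul_of_nonneg_left hx hCT)) (abs_nonneg _) (by positivity)
        _ = 8 * Cs * CT * (b19K n a P H * DD) := by ring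
        _ ≤ 8 * Cs * CT * b19Maj3 k0 a P p i H NQ (τ 2 3) (τ 4 5) (τ 6 7) := mul_le_mul_of_nonneg_left hKD (by positivity)
        _ ≤ _ := by nlinarith [mul_nonneg hCT hMaj0, mul_nonneg hCF hMaj0]
    refine ⟨?_, gen _ _ s4 t2, gen _ _ s6 t3⟩
    calc _ ≤ CF * ((NQ + b19K n a P H) * DD) := hF n k0 a P i H NQ h hNQ t ht τ hτ H1 H2 H3
      _ ≤ CF * b19Maj3 k0 a P p i H NQ (τ 2 3) (τ 4 5) (τ 6 7) := mul_le_mul_of_nonneg_left hMaj hCF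
      _ ≤ _ := by nlinarith [mul_nonneg hCT hMaj0, mul_nonneg (mul_nonneg hCs hCT) hMaj0]
  · have main : b19X3 k0 a P τ ≤ 4 * b19Maj3 k0 a P p i H NQ (τ 2 3) (τ 4 5) (τ 6 7) :=
      b19_maj3_alg i H (b19dL k0 a P i H) (b19dH k0 a P H 1) (b19dH k0 a P H (1 - 1 / p)) (b19dH k0 a P H 0) (b19dp i)
        (b19Dm k0 a P) (b19Nm k0 a P 4) (b19Nm k0 a P p) (fun r => b19Dm k0 a P r ^ (1 - 1 / p)) (NQ + b19K n a P H)
        (b19X3 k0 a P τ) (τ 2 3) (τ 4 5) (τ 6 7)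
        (fun r hr => by
          subst hr
          exact ⟨(b19_cls_p k0 a P h.iH 1).1, (b19_cls_p k0 a P h.iH 1).2.1, (b19_cls_p k0 a P h.iH (1 - 1 / p)).2.1,
            (b19_cls_p k0 a P h.iH 1).2.2⟩)
        (fun r hr => ⟨(b19_cls_L k0 a P hr 1).1, (b19_cls_L k0 a P hr 1).2.1, (b19_cls_L k0 a P hr (1 - 1 / p)).2.1,
            (b19_cls_L k0 a P hr 1).2.2⟩)
        (fun r hr => ⟨(b19_cls_H k0 a P h.iH hr 1).1, by rw [(b19_cls_H k0 a P h.iH hr 1).2.1, Real.rpow_one],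
            (b19_cls_H k0 a P h.iH hr (1 - 1 / p)).2.1, (b19_cls_H k0 a P h.iH hr 1).2.2⟩)
        hD hTθ hH00 (b19_num_nonneg hn k0 h.a0 h.adm p i 0).1 (by positivity) a12 a13 a23 b1 b2 b3 c1 c2 c3 hHHH
    have hMaj0 : 0 ≤ b19Maj3 k0 a P p i H NQ (τ 2 3) (τ 4 5) (τ 6 7) := by linarith
    have gen : ∀ c T : ℝ, |c| ≤ 3 / 2 → |T| ≤ CT * b19X3 k0 a P τ →
        |c| * |T| ≤ (6 * CT + CF + 8 * Cs * CT) * b19Maj3 k0 a P p i H NQ (τ 2 3) (τ 4 5) (τ 6 7) := by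
      intro c T hc hT'
      calc |c| * |T| ≤ 3 / 2 * (CT * (4 * b19Maj3 k0 a P p i H NQ (τ 2 3) (τ 4 5) (τ 6 7))) :=
            mul_le_mul hc (hT'.trans (mul_le_mul_of_nonneg_left main hCT)) (abs_nonneg _) (by norm_num)
        _ = 6 * CT * b19Maj3 k0 a P p i H NQ (τ 2 3) (τ 4 5) (τ 6 7) := by ring
        _ ≤ _ := by nlinarith [mul_nonneg hCF hMaj0, mul_nonneg (mul_nonneg hCs hCT) hMaj0]
    refine ⟨?_, gen _ _ (hsc.trans (by norm_num)) t2, gen _ _ hc6 t3⟩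
    have := gen 1 _ (by rw [abs_one]; norm_num) t1
    rwa [abs_one, one_mul] at this

end

end Claimed.Agent.R286
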