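import Claimed.Agent.R286.Pe6.Contract

/-!
# Row 286, LL sec. 7, package L07, STEP 1 of the proof of (C7) (`07-budgets.tex` l.905-908): PE LEMMA 6.2 AND THE SUCCESS OF THE CHILD FOR A PARENT WITHOUT A CLASS      (owner helper129; head of the package helper12; prefix `bd7wa_`, types `Bd7WPar`, `Bd7WWk`)
TEX[LL:bud:coarse-profile]#step1-child

LL l.907: "The data verification in that lemma [PE L6.2] uses (3) and the parent strength, cutoff and outer bound (not the parent's optimization constraints); hence (3)-(4) hold in the child."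
This file makes that sentence a theorem.   `Bd7WPar`, `Bd7WWk` = `P6Par`, `P6Wk` of `Pe6/Defs.lean` WITHOUT the fields `fam`, `min` (class (5) of PE, minimality): what remains of the parent quantile `r` is
`adm` (its changed path is admissible), `rmono`, `rmem` (monotone, values in `[0,1]`), `outer`.      The clock bound of the changed parent path is a separate constant `K1` (`K1 + c0² + 1 ≤ c.K` is needed for the child's own propagation).
The proofs of sec. 1-3 are the proofs of `Pe6/Asy`, `Pe6/ChildFix`, `Pe6/Child`, `Pe6/NoSep`, `Pe6/Succ` (14, 1, 264, 259) with the weaker hypothesis.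
* sec. 1  `bd7wa_x_pos, _a_x, _a_o, _e_x, _u0, _lam` (`λ = o(x²)`), `bd7wa_reg_le`
* sec. 2  `bd7wa_ok, _gain, _N1, _N2, _ep4`, **`bd7wa_seq`** (`P6Seq` for the child), `bd7wa_ord`
* sec. 3  `bd7wa_min_ge` (`min(e y, 𝒟 y) y³ ≳ e(x) x³`), `bd7wa_ty` (`t_y e(r u) ≲ 𝒟 y`), `bd7wa_direct_num` (direct-test conditions of the child at `x`)
* sec. 4  NEW: **`bd7wa_succ`** (PE Prop. 6.6 for the child: a final minimiser `z` exists and its error is `≤ n^{20δ} E'`), **`bd7wa_prof`** (`z` is comparable to the mass above `n^δ c0 x`: "the child is already comparable above `m^δ d'` by finite propagation", LL l.958),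
          `bd7wa_z` (monotone, values in `[0,1]`), `bd7wa_err` (`n^{20δ}E' ≤ n^{-80δ} e(x)x³`), `bd7wa_of_wk` (a PE parent is a special case).
-/

set_option autoImplicit false

namespace Claimed.Agent.R286

open Filter Topology Set MeasureTheory Asymptotics

/-- `P6Par` without the class of the parent -/
structure Bd7WPar (U : Ultrafilter ℕ) (c : P6C) (D : ℕ → P6D) (lam x : ℕ → ℝ) (r : ℕ → ℝ → ℝ) (cl Ch C0 : ℝ) : Prop where
  seq : P6Seq U c D
  lam_rng : ∀ᶠ k in U, 0 < lam k ∧ lam k ≤ (D k).P.d ^ 2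
  adm : ∀ᶠ k in U, P6Adm ((D k).Pb (lam k) (r k)) ((D k).Ph (lam k) (r k))
  rmono : ∀ᶠ k in U, MonotoneOn (r k) (Icc (D k).P.u0 1)
  rmem : ∀ᶠ k in U, ∀ u ∈ Icc (D k).P.u0 1, 0 ≤ r k u ∧ r k u ≤ 1
  x_rng : ∀ᶠ k in U, (D k).P.Al (lam k) ≤ x k ∧ x k ≤ 1
  outer : ∀ᶠ k in U, P6Reg (D k).P.u0 (r k) cl Ch C0 (x k)

/-- `P6Wk` without the class of the parent; `K1` = clock bound of the changed parent path -/
structure Bd7WWk (U : Ultrafilter ℕ) (c : P6C) (D : ℕ → P6D) (lam x : ℕ → ℝ) (r : ℕ → ℝ → ℝ) (cl Ch C0 β K1 : ℝ) (j0 : ℕ → ℝ) : Prop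
    extends Bd7WPar U c D lam x r cl Ch C0 where
  weak : (fun k => (D k).P.e (lam k) (x k)) =o[U] (fun k => x k ^ 2)
  j0_rng : ∀ᶠ k in U, 0 ≤ j0 k ∧ j0 k ≤ (D k).P.u0
  marg : ∀ᶠ k in U, P6Marg ((D k).Pb (lam k) (r k)) (j0 k) β
  clkP : ∀ᶠ k in U, P6Bd ((D k).Pb (lam k) (r k)) ((D k).Ph (lam k) (r k)) K1

variable {fn : ℕ → (ℝ → ℝ) → (ℝ → ℝ) → ℝ} {U : Ultrafilter ℕ} {c : P6C} {D : ℕ → P6D} {lam x : ℕ → ℝ} {r : ℕ → ℝ → ℝ} {cl Ch C0 c0 β K1 : ℝ} {j0 : ℕ → ℝ}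

/-! ## 1. the parent -/

/-- outer bound + monotonicity: `r u ≤ Ch max(u, C0 x)` on the whole working interval -/
theorem bd7wa_reg_le {u0 : ℝ} {r : ℝ → ℝ} (hm : MonotoneOn r (Icc u0 1)) (h1 : ∀ v ∈ Icc u0 1, r v ≤ 1) {cl Ch C0 x : ℝ} (hCh : 1 ≤ Ch)
    (hu0 : u0 ≤ C0 * x) (hreg : P6Reg u0 r cl Ch C0 x) {u : ℝ} (hu : u ∈ Icc u0 1) : r u ≤ Ch * max u (C0 * x) := by
  rcases le_total (C0 * x) u with h2 | h2
  · rw [max_eq_left h2]
    exact (hreg u h2 hu.2 hu.1).2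
  · rw [max_eq_right h2]
    rcases le_total (C0 * x) 1 with h3 | h3
    · exact (hm hu ⟨hu0, h3⟩ h2).trans (hreg (C0 * x) le_rfl h3 hu0).2
    · calc r u ≤ 1 := h1 u hu
        _ ≤ Ch * (C0 * x) := by nlinarith

theorem bd7wa_x_pos (hc : c.Ok) (h : Bd7WPar U c D lam x r cl Ch C0) : ∀ᶠ k in U, 0 < x k := by
  filter_upwards [h.seq.ok, h.lam_rng, h.x_rng] with k hk hl hx
  have h1 := cm_Al_ge hc.cE_pos hk hl.1 hl.2
  have h2 : 0 < (D k).P.N ^ (D k).P.dl * (D k).P.a :=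
    mul_pos (Real.rpow_pos_of_pos (cm_N_pos hk) _) (cm_a_pos hc.cE_pos hk)
  linarith [hx.1]

/-- `x ≥ n^δ a` -/
theorem bd7wa_a_x (hc : c.Ok) (h : Bd7WPar U c D lam x r cl Ch C0) : ∀ᶠ k in U, (D k).P.N ^ (D k).P.dl * (D k).P.a ≤ x k := by
  filter_upwards [h.seq.ok, h.lam_rng, h.x_rng] with k hk hl hx
  exact (cm_Al_ge hc.cE_pos hk hl.1 hl.2).trans hx.1

theorem bd7wa_a_o (hc : c.Ok) (h : Bd7WPar U c D lam x r cl Ch C0) : (fun k => (D k).P.a) =o[U] x := by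
  refine aq_o_of_le fun ε hε => ?_
  have hdl : 0 < c.dl := by have := hc.m_pos; unfold P6C.dl; positivity
  filter_upwards [h.seq.ok, bd7wa_a_x hc h, p6_seq_dl h.seq, p6_seq_pow_small h.seq hdl hε] with k hk h1 h2 h3
  have hN := cm_N_pos hk
  have ha := cm_a_pos hc.cE_pos hk
  rw [abs_of_pos ha]
  rw [h2] at h1
  have hp : 0 < (D k).P.N ^ c.dl := Real.rpow_pos_of_pos hN _
  have hx : 0 ≤ x k := le_trans (by positivity) h1
  calc (D k).P.a = (D k).P.N ^ (-c.dl) * ((D k).P.N ^ c.dl * (D k).P.a) := by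
        rw [Real.rpow_neg hN.le]; field_simp
    _ ≤ (D k).P.N ^ (-c.dl) * x k := mul_le_mul_of_nonneg_left h1 (Real.rpow_nonneg hN.le _)
    _ ≤ ε * x k := mul_le_mul_of_nonneg_right h3 hx

/-- `e(x) x² ≥ n^δ n E²` -/
theorem bd7wa_e_x (hc : c.Ok) (h : Bd7WPar U c D lam x r cl Ch C0) :
    ∀ᶠ k in U, (D k).P.N ^ (D k).P.dl * ((D k).P.N * (D k).P.E ^ 2) ≤ (D k).P.e (lam k) (x k) * x k ^ 2 := by
  filter_upwards [h.seq.ok, h.lam_rng, h.x_rng] with k hk hl hx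
  exact cm_e_Al hc.cE_pos hk hl.1 hl.2 hx.1

theorem bd7wa_u0 (hc : c.Ok) (h : Bd7WPar U c D lam x r cl Ch C0) : (fun k => (D k).P.u0) =o[U] x :=
  h.seq.u0_small.trans (bd7wa_a_o hc h)

/-- `e(0) = λ = o(x²)` (PE l.215-225).   Proof for `ε`: if `d² ≤ ε x²` use `λ ≤ d²`; otherwise `λ x/d³ ≤ x/d < ε^{-1/2}`, so `e(x) ≥ λ f(ε^{-1/2})`. -/
theorem bd7wa_lam (hc : c.Ok) (h : Bd7WWk U c D lam x r cl Ch C0 β K1 j0) : lam =o[U] (fun k => x k ^ 2) := by
  refine aq_o_of_le fun ε hε => ?_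
  set t0 : ℝ := 1 / Real.sqrt ε with ht0
  have hs : 0 < Real.sqrt ε := Real.sqrt_pos.2 hε
  have hf : 0 < cmF t0 := cm_f_pos t0
  have hw := aq_o_bound h.weak (Eventually.of_forall fun k => sq_nonneg (x k)) (show 0 < ε * cmF t0 by positivity)
  filter_upwards [h.seq.ok, h.lam_rng, bd7wa_x_pos hc h.toBd7WPar, hw] with k hk hl hx hw
  have hd := hk.d0
  rw [abs_of_pos hl.1]
  rcases le_total ((D k).P.d ^ 2) (ε * x k ^ 2) with h1 | h1
  · exact hl.2.trans h1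
  · -- x/d ≤ t0
    have h2 : x k / (D k).P.d ≤ t0 := by
      rw [ht0, div_le_div_iff₀ hd hs, one_mul]
      have : (x k * Real.sqrt ε) ^ 2 ≤ (D k).P.d ^ 2 := by
        rw [mul_pow, Real.sq_sqrt hε.le]; linarith
      exact abs_le_of_sq_le_sq' this hd.le |>.2
    have h3 : lam k * x k / (D k).P.d ^ 3 ≤ t0 := by
      refine le_trans ?_ h2
      rw [div_le_div_iff₀ (by positivity) hd]
      have : lam k * x k * (D k).P.d ≤ (D k).P.d ^ 2 * x k * (D k).P.d := by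
        apply mul_le_mul_of_nonneg_right _ hd.le
        exact mul_le_mul_of_nonneg_right hl.2 hx.le
      nlinarith
    have h4 : lam k * cmF t0 ≤ (D k).P.e (lam k) (x k) := by
      unfold CmCall.e
      exact mul_le_mul_of_nonneg_left (cm_f_anti h3) hl.1.le
    have h5 : (D k).P.e (lam k) (x k) ≤ ε * cmF t0 * x k ^ 2 := (le_abs_self _).trans hw
    have h6 : lam k * cmF t0 ≤ (ε * x k ^ 2) * cmF t0 := by linarith
    exact le_of_mul_le_mul_right h6 hf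

theorem bd7wa_ok (hk : P6K c cl Ch C0 c0 β) (h : Bd7WWk U c D lam x r cl Ch C0 β K1 j0) :
    ∀ᶠ k in U, (p6Child c0 D lam x r j0 k).P.Ok c.cE c.D0 := by
  filter_upwards [h.seq.ok, h.lam_rng, h.x_rng, h.j0_rng, p6_ch_ev_thr hk.ok h.seq hk.c0_pos one_pos] with k ok hl hx hj thr
  exact p6_ch_ok hk.ok.cE_pos ok hl.1 hl.2 hx.1 hx.2 hk.c0_pos hk.c0_D hj.1 hj.2 thr.1 thr.2.1

theorem bd7wa_gain (hk : P6K c cl Ch C0 c0 β) (h : Bd7WWk U c D lam x r cl Ch C0 β K1 j0) :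
    ∀ᶠ k in U, (D k).P.N ^ ((D k).P.dl / 4) * (D k).P.E ≤ (p6Child c0 D lam x r j0 k).P.E ∧ (D k).P.a ≤ (p6Child c0 D lam x r j0 k).P.a := by
  have hw := aq_o_bound h.weak (Eventually.of_forall fun k => sq_nonneg (x k)) one_pos
  filter_upwards [h.seq.ok, h.lam_rng, h.x_rng, hw, p6_ch_ev_thr hk.ok h.seq hk.c0_pos one_pos] with k ok hl hx hw thr
  have hw' : (D k).P.e (lam k) (x k) ≤ x k ^ 2 := by
    have := (le_abs_self _).trans hw
    linarith
  exact p6_ch_gain hk.ok.cE_pos ok hl.1 hl.2 hx.1 hk.c0_pos hw' thr.1 thr.2.1 thr.2.2.1 thr.2.2.2.1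

/-- (N1) `e(x) x = o(a'³)` -/
theorem bd7wa_N1 (hk : P6K c cl Ch C0 c0 β) (h : Bd7WWk U c D lam x r cl Ch C0 β K1 j0) :
    (fun k => (D k).P.e (lam k) (x k) * x k) =o[U] (fun k => (p6Child c0 D lam x r j0 k).P.a ^ 3) := by
  refine aq_o_of_le fun ε hε => ?_
  have hc0 := hk.c0_pos
  have hcE := hk.ok.cE_pos
  -- `t = min 1 ε`: `t³ ≤ ε`
  have ht : 0 < min 1 ε := lt_min one_pos hε
  have hw := aq_o_bound h.weak (Eventually.of_forall fun k => sq_nonneg (x k)) (show 0 < ε * c0 ^ 3 by positivity)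
  filter_upwards [h.seq.ok, h.lam_rng, h.x_rng, hw, p6_ch_ev_thr hk.ok h.seq hc0 ht] with k ok hl hx hw thr
  have A := p6_ch_A hcE ok hl.1 hl.2 hx.1
  have hx0 := A.x0
  have he0 := A.ex0
  have hs0 := p6_ch_s_pos hcE ok hl.1 hl.2 hx.1 hc0
  have hst := p6_ch_star hcE ok hl.1 hl.2 hx.1 hc0 thr.2.2.2.2
  rw [abs_of_pos (by positivity)]
  show _ ≤ ε * ((D k).child (lam k) (r k) (x k) c0 (j0 k)).P.a ^ 3
  rw [p6_ch_a_eq (cm_N_pos ok) hx0 hc0]
  rcases le_total (c0 * x k) (p6ChS (D k).P (lam k) (x k) c0) with hm | hm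
  · rw [min_eq_left hm]
    have hw' : (D k).P.e (lam k) (x k) ≤ ε * c0 ^ 3 * x k ^ 2 := (le_abs_self _).trans hw
    calc (D k).P.e (lam k) (x k) * x k ≤ (ε * c0 ^ 3 * x k ^ 2) * x k := by gcongr
      _ = ε * (c0 * x k) ^ 3 := by ring
  · rw [min_eq_right hm]
    have h3 : (min 1 ε) ^ 3 ≤ ε := by
      calc (min 1 ε) ^ 3 ≤ (min 1 ε) ^ 1 := pow_le_pow_of_le_one ht.le (min_le_left _ _) (by norm_num)
        _ = min 1 ε := pow_one _
        _ ≤ ε := min_le_right _ _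
    calc (D k).P.e (lam k) (x k) * x k ≤ (min 1 ε * p6ChS (D k).P (lam k) (x k) c0) ^ 3 := hst
      _ = (min 1 ε) ^ 3 * p6ChS (D k).P (lam k) (x k) c0 ^ 3 := by ring
      _ ≤ ε * p6ChS (D k).P (lam k) (x k) c0 ^ 3 := by gcongr

/-- (N2) `λ = o(a'²)` -/
theorem bd7wa_N2 (hk : P6K c cl Ch C0 c0 β) (h : Bd7WWk U c D lam x r cl Ch C0 β K1 j0) :
    lam =o[U] (fun k => (p6Child c0 D lam x r j0 k).P.a ^ 2) := by
  refine aq_o_of_le fun ε hε => ?_
  have hc0 := hk.c0_pos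
  have hcE := hk.ok.cE_pos
  have ht : 0 < min 1 (ε / (c0 + 1)) := lt_min one_pos (by positivity)
  have hw := aq_o_bound (bd7wa_lam hk.ok h) (Eventually.of_forall fun k => sq_nonneg (x k)) (show 0 < ε * c0 ^ 2 by positivity)
  filter_upwards [h.seq.ok, h.lam_rng, h.x_rng, hw, p6_ch_ev_thr hk.ok h.seq hc0 ht] with k ok hl hx hw thr
  have A := p6_ch_A hcE ok hl.1 hl.2 hx.1
  have hx0 := A.x0
  have hs0 := p6_ch_s_pos hcE ok hl.1 hl.2 hx.1 hc0
  rw [abs_of_pos hl.1]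
  show _ ≤ ε * ((D k).child (lam k) (r k) (x k) c0 (j0 k)).P.a ^ 2
  rw [p6_ch_a_eq (cm_N_pos ok) hx0 hc0]
  rcases le_total (c0 * x k) (p6ChS (D k).P (lam k) (x k) c0) with hm | hm
  · rw [min_eq_left hm]
    calc lam k ≤ ε * c0 ^ 2 * x k ^ 2 := (le_abs_self _).trans hw
      _ = ε * (c0 * x k) ^ 2 := by ring
  · rw [min_eq_right hm]
    have hl3 := p6_ch_lam2 hcE ok hl.1 hl.2 hx.1 hc0 thr.2.2.2.2 (min_le_left _ _) hm
    have h3 : (c0 + 1) * (min 1 (ε / (c0 + 1))) ^ 2 ≤ ε := by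
      have h4 : (min 1 (ε / (c0 + 1))) ^ 2 ≤ ε / (c0 + 1) := by
        calc (min 1 (ε / (c0 + 1))) ^ 2 ≤ (min 1 (ε / (c0 + 1))) ^ 1 := pow_le_pow_of_le_one ht.le (min_le_left _ _) (by norm_num)
          _ = min 1 (ε / (c0 + 1)) := pow_one _
          _ ≤ _ := min_le_right _ _
      calc (c0 + 1) * (min 1 (ε / (c0 + 1))) ^ 2 ≤ (c0 + 1) * (ε / (c0 + 1)) := by gcongr
        _ = ε := by field_simp
    calc lam k ≤ (c0 + 1) * (min 1 (ε / (c0 + 1))) ^ 2 * p6ChS (D k).P (lam k) (x k) c0 ^ 2 := hl3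
      _ ≤ ε * p6ChS (D k).P (lam k) (x k) c0 ^ 2 := by gcongr

/-- (4) for the child -/
theorem bd7wa_ep4 (hk : P6K c cl Ch C0 c0 β) (h : Bd7WWk U c D lam x r cl Ch C0 β K1 j0) :
    ∀ κ ε : ℝ, 1 ≤ κ → 0 < ε → ∀ᶠ k in U, ∀ z u : ℝ, (p6Child c0 D lam x r j0 k).P.a / κ ≤ z → z ≤ 1 → j0 k < u → u < 1 → z / κ ≤ u → u ≤ κ * z →
      |(D k).Pb (lam k) (r k) u - (D k).T| ≤ ε * z ^ 2 ∧ |(D k).Ph (lam k) (r k) u| ≤ ε * z ^ 3 := by
  intro κ ε hκ hε
  have hc := hk.ok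
  have hκ0 : 0 < κ := by linarith
  have hCh0 : 0 < Ch := by linarith [hk.Ch_ge]
  have hC00 : 0 < C0 := by linarith [hk.C0_ge]
  set C' : ℝ := Ch * max κ C0 with hC'
  have hmx : 1 ≤ max κ C0 := hκ.trans (le_max_left _ _)
  have hC'1 : 1 ≤ C' := by rw [hC']; nlinarith [hk.Ch_ge]
  have hC'0 : 0 < C' := by linarith
  have hapos : ∀ᶠ k in U, 0 ≤ (p6Child c0 D lam x r j0 k).P.a := by
    filter_upwards [((bd7wa_gain hk h).mono fun _ h => h.2), p6_seq_a_pos hc h.seq] with k h1 h2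
    linarith
  have n1 := aq_o_bound (bd7wa_N1 hk h) (hapos.mono fun k hk => pow_nonneg hk 3)
    (show 0 < ε / (2 * C' * κ ^ 3) by positivity)
  have n2 := aq_o_bound (bd7wa_N2 hk h) (hapos.mono fun k hk => pow_nonneg hk 2)
    (show 0 < ε / (2 * κ ^ 2) by positivity)
  have n3 := aq_o_bound (bd7wa_lam hc h) (Eventually.of_forall fun k => sq_nonneg (x k))
    (show 0 < ε / (2 * C') by positivity)
  have u0a := aq_o_bound h.seq.u0_small ((p6_seq_a_pos hc h.seq).mono fun k hk => hk.le)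
    (show 0 < 1 / (2 * κ ^ 2) by positivity)
  have u0x := aq_o_bound (bd7wa_u0 hc h.toBd7WPar) ((bd7wa_x_pos hc h.toBd7WPar).mono fun k hk => hk.le) one_pos
  filter_upwards [n1, n2, n3, u0a, u0x, h.seq.ep4 κ (ε / 2) hκ (by positivity), ((bd7wa_gain hk h).mono fun _ h => h.2), p6_seq_a_pos hc h.seq,
    h.seq.ok, h.lam_rng, h.rmono, h.rmem, h.outer, bd7wa_x_pos hc h.toBd7WPar] with k n1 n2 n3 u0a u0x ep4 haa ha hok hl hrm hrr hreg hx
  intro z u hz hz1 hj hu1 hzu huz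
  set a' := (p6Child c0 D lam x r j0 k).P.a with ha'
  have ha'0 : 0 < a' := lt_of_lt_of_le ha haa
  have hz0 : 0 < z := lt_of_lt_of_le (by positivity) hz
  have ha'z : a' ≤ κ * z := by rw [div_le_iff₀ hκ0] at hz; linarith
  -- the mass is above the omitted interval of the parent
  have hu0u : (D k).P.u0 < u := by
    have h1 : (D k).P.u0 ≤ 1 / (2 * κ ^ 2) * (D k).P.a := (le_abs_self _).trans u0a
    have h2 : (D k).P.a / κ ^ 2 ≤ u := by
      calc (D k).P.a / κ ^ 2 ≤ a' / κ ^ 2 := div_le_div_of_nonneg_right haa (by positivity)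
        _ = a' / κ / κ := by field_simp
        _ ≤ z / κ := div_le_div_of_nonneg_right hz hκ0.le
        _ ≤ u := hzu
    have h3 : 1 / (2 * κ ^ 2) * (D k).P.a < (D k).P.a / κ ^ 2 := by
      have : 1 / (2 * κ ^ 2) * (D k).P.a = (D k).P.a / κ ^ 2 / 2 := by field_simp
      rw [this]
      have : 0 < (D k).P.a / κ ^ 2 := by positivity
      linarith
    linarith
  obtain ⟨eb, eh⟩ := ep4 z u ((div_le_div_of_nonneg_right haa hκ0.le).trans hz) hz1 hu0u hu1 hzu huz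
  have huI : u ∈ Icc (D k).P.u0 1 := ⟨hu0u.le, hu1.le⟩
  have hr0 : 0 ≤ r k u := (hrr u huI).1
  have he0 : 0 ≤ (D k).P.e (lam k) (r k u) := cm_e_nonneg _ hl.1.le _
  have hel : (D k).P.e (lam k) (r k u) ≤ lam k := cm_e_le _ hl.1.le _
  have hlam2 : lam k ≤ ε / 2 * z ^ 2 := by
    have h1 : lam k ≤ ε / (2 * κ ^ 2) * a' ^ 2 := (le_abs_self _).trans n2
    have h2 : a' ^ 2 ≤ (κ * z) ^ 2 := pow_le_pow_left₀ ha'0.le ha'z 2
    calc lam k ≤ ε / (2 * κ ^ 2) * a' ^ 2 := h1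
      _ ≤ ε / (2 * κ ^ 2) * (κ * z) ^ 2 := mul_le_mul_of_nonneg_left h2 (by positivity)
      _ = ε / 2 * z ^ 2 := by field_simp
  have hu0x : (D k).P.u0 ≤ C0 * x k := by
    have h1 : (D k).P.u0 ≤ 1 * x k := (le_abs_self _).trans u0x
    nlinarith [hk.C0_ge]
  have hrle := bd7wa_reg_le hrm (fun v hv => (hrr v hv).2) hk.Ch_ge hu0x hreg huI
  have her : (D k).P.e (lam k) (r k u) * r k u ≤ ε / 2 * z ^ 3 := by
    rcases le_total (x k) z with hxz | hxz
    · have h1 : max u (C0 * x k) ≤ max κ C0 * z := by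
        apply max_le
        · exact huz.trans (mul_le_mul_of_nonneg_right (le_max_left _ _) hz0.le)
        · exact (mul_le_mul_of_nonneg_left hxz hC00.le).trans (mul_le_mul_of_nonneg_right (le_max_right _ _) hz0.le)
      have h2 : r k u ≤ C' * z := by
        calc r k u ≤ Ch * max u (C0 * x k) := hrle
          _ ≤ Ch * (max κ C0 * z) := mul_le_mul_of_nonneg_left h1 hCh0.le
          _ = C' * z := by rw [hC']; ring
      have h3 : lam k ≤ ε / (2 * C') * z ^ 2 := by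
        have h4 : lam k ≤ ε / (2 * C') * x k ^ 2 := (le_abs_self _).trans n3
        exact h4.trans (mul_le_mul_of_nonneg_left (pow_le_pow_left₀ hx.le hxz 2) (by positivity))
      calc (D k).P.e (lam k) (r k u) * r k u ≤ (ε / (2 * C') * z ^ 2) * (C' * z) :=
            mul_le_mul (hel.trans h3) h2 hr0 (by positivity)
        _ = ε / 2 * z ^ 3 := by field_simp
    · have h1 : max u (C0 * x k) ≤ max κ C0 * x k := by
        apply max_le
        · exact huz.trans ((mul_le_mul_of_nonneg_left hxz hκ0.le).trans (mul_le_mul_of_nonneg_right (le_max_left _ _) hx.le))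
        · exact mul_le_mul_of_nonneg_right (le_max_right _ _) hx.le
      have h2 : r k u ≤ C' * x k := by
        calc r k u ≤ Ch * max u (C0 * x k) := hrle
          _ ≤ Ch * (max κ C0 * x k) := mul_le_mul_of_nonneg_left h1 hCh0.le
          _ = C' * x k := by rw [hC']; ring
      have h3 : r k u * (D k).P.e (lam k) (r k u) ≤ C' * x k * (D k).P.e (lam k) (C' * x k) :=
        cm_re_mono (P := (D k).P) hok.d0 hl.1.le (mem_Ici.2 hr0) (mem_Ici.2 (by positivity)) h2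
      have h4 : (D k).P.e (lam k) (C' * x k) ≤ (D k).P.e (lam k) (x k) :=
        cm_e_anti (P := (D k).P) hok.d0 hl.1.le (by nlinarith)
      have h5 : (D k).P.e (lam k) (x k) * x k ≤ ε / (2 * C' * κ ^ 3) * a' ^ 3 := (le_abs_self _).trans n1
      have h6 : a' ^ 3 ≤ (κ * z) ^ 3 := pow_le_pow_left₀ ha'0.le ha'z 3
      calc (D k).P.e (lam k) (r k u) * r k u = r k u * (D k).P.e (lam k) (r k u) := mul_comm _ _
        _ ≤ C' * x k * (D k).P.e (lam k) (C' * x k) := h3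
        _ ≤ C' * x k * (D k).P.e (lam k) (x k) := mul_le_mul_of_nonneg_left h4 (by positivity)
        _ = C' * ((D k).P.e (lam k) (x k) * x k) := by ring
        _ ≤ C' * (ε / (2 * C' * κ ^ 3) * (κ * z) ^ 3) :=
            mul_le_mul_of_nonneg_left (h5.trans (mul_le_mul_of_nonneg_left h6 (by positivity))) hC'0.le
        _ = ε / 2 * z ^ 3 := by field_simp
  constructor
  · have e1 : (D k).Pb (lam k) (r k) u = (D k).b0 u - (D k).P.e (lam k) (r k u) := by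
      unfold P6D.Pb; rw [if_pos hu0u.le]
    rw [e1]
    have : |(D k).b0 u - (D k).P.e (lam k) (r k u) - (D k).T| ≤ |(D k).b0 u - (D k).T| + (D k).P.e (lam k) (r k u) := by
      have e2 : (D k).b0 u - (D k).P.e (lam k) (r k u) - (D k).T = ((D k).b0 u - (D k).T) - (D k).P.e (lam k) (r k u) := by ring
      rw [e2]
      calc _ ≤ |(D k).b0 u - (D k).T| + |(D k).P.e (lam k) (r k u)| := abs_sub _ _
        _ = _ := by rw [abs_of_nonneg he0]
    linarith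
  · have e1 : (D k).Ph (lam k) (r k) u = (D k).h0 u + (D k).P.e (lam k) (r k u) * r k u := by
      unfold P6D.Ph; rw [if_pos hu0u.le]
    rw [e1]
    have : |(D k).h0 u + (D k).P.e (lam k) (r k u) * r k u| ≤ |(D k).h0 u| + (D k).P.e (lam k) (r k u) * r k u := by
      calc _ ≤ |(D k).h0 u| + |(D k).P.e (lam k) (r k u) * r k u| := abs_add_le _ _
        _ = _ := by rw [abs_of_nonneg (mul_nonneg he0 hr0)]
    linarith

/-- **PE Lemma 6.2 without the class of the parent**: the child data satisfy all the sequence hypotheses, with the same constants -/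
theorem bd7wa_seq (hk : P6K c cl Ch C0 c0 β) (h : Bd7WWk U c D lam x r cl Ch C0 β K1 j0) (hK1 : K1 ≤ c.K) :
    P6Seq U c (p6Child c0 D lam x r j0) := by
  have hc := hk.ok
  refine ⟨h.seq.n_top, h.seq.m_eq, bd7wa_ok hk h, h.seq.T_lim, ?_, ?_, bd7wa_ep4 hk h, h.clkP.mono fun k hk' u hu => ⟨(hk' u hu).1.trans hK1, (hk' u hu).2.trans hK1⟩, ?_⟩
  · filter_upwards [h.seq.T_lim.eventually_const_lt (show c0 ^ 2 + c.ρ < c.Tinf by linarith [hk.c0_T]), h.x_rng,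
      bd7wa_x_pos hc h.toBd7WPar] with k hT hx hx0
    show (c0 * x k) ^ 2 ≤ (D k).T - c.ρ
    have h1 : (c0 * x k) ^ 2 ≤ c0 ^ 2 := by
      rw [mul_pow]
      have : x k ^ 2 ≤ 1 := by nlinarith [hx.2]
      nlinarith [sq_nonneg c0]
    linarith
  · refine aq_o_of_le fun ε hε => ?_
    filter_upwards [aq_o_bound h.seq.u0_small ((p6_seq_a_pos hc h.seq).mono fun k hk => hk.le) hε, h.j0_rng,
      ((bd7wa_gain hk h).mono fun _ h => h.2)] with k h1 h2 h3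
    show |j0 k| ≤ _
    rw [abs_of_nonneg h2.1]
    calc j0 k ≤ (D k).P.u0 := h2.2
      _ ≤ ε * (D k).P.a := (le_abs_self _).trans h1
      _ ≤ _ := mul_le_mul_of_nonneg_left h3 hε.le
  · filter_upwards [h.adm, h.j0_rng] with k hadm hj
    have hsub : Icc (j0 k) 1 ⊆ Icc (0:ℝ) 1 := Icc_subset_Icc_left hj.1
    exact ⟨hadm.1.1.mono hsub, hadm.2.1.mono hsub⟩

/-- the child is eventually an ordinary family (C3 along the sequence) -/
theorem bd7wa_ord (hk : P6K c cl Ch C0 c0 β) (h : Bd7WWk U c D lam x r cl Ch C0 β K1 j0) :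
    ∀ᶠ k in U, (p6Child c0 D lam x r j0 k).Ord := by
  have hc := hk.ok
  filter_upwards [bd7wa_ok hk h, h.adm, h.x_rng, bd7wa_x_pos hc h.toBd7WPar, h.marg] with k hok hadm hx hx0 hmg
  exact p6_child_ord hc.cE_pos hok hadm hx0 hx.2 hk.c0_pos hk.c0_β hmg

/-- `min(e(y), 𝒟(y)) y³ ≳ e(x) x³` for `y ≳ x` -/
theorem bd7wa_min_ge (hk : P6K c cl Ch C0 c0 β) (h : Bd7WWk U c D lam x r cl Ch C0 β K1 j0) {y : ℕ → ℝ} {G : ℝ} (hG : 1 ≤ G)
    (hxy : ∀ᶠ k in U, x k ≤ G * y k) :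
    ∀ᶠ k in U, (D k).P.e (lam k) (x k) * x k ^ 3 ≤
      G ^ 3 * (min ((D k).P.e (lam k) (y k)) ((p6Child c0 D lam x r j0 k).P.e ((p6Child c0 D lam x r j0 k).P.d ^ 2) (y k)) * y k ^ 3) := by
  have hc := hk.ok
  have hcf : 0 < c0 ^ 2 * cmF (1 / c0) := by
    have := hk.c0_pos
    have := cm_f_pos (1 / c0)
    positivity
  have hweak := aq_o_bound h.weak (Eventually.of_forall fun k => sq_nonneg (x k)) hcf
  filter_upwards [h.seq.ok, bd7wa_ok hk h, h.lam_rng, bd7wa_x_pos hc h.toBd7WPar, hxy, hweak] with k ok ok' lamr xpos hxyk hw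
  set P' := (p6Child c0 D lam x r j0 k).P with hP'
  have h1 := p6_e_cube (P := (D k).P) ok.d0 lamr.1.le hG xpos.le hxyk
  have h2 := p6_e_cube (P := P') ok'.d0 (sq_nonneg P'.d) hG xpos.le hxyk
  have hDx : P'.e (P'.d ^ 2) (x k) = c0 ^ 2 * cmF (1 / c0) * x k ^ 2 := p6_child_D_x xpos hk.c0_pos
  have h3 : (D k).P.e (lam k) (x k) ≤ P'.e (P'.d ^ 2) (x k) := by
    rw [hDx]; exact (le_abs_self _).trans hw
  have h4 : (D k).P.e (lam k) (x k) * x k ^ 3 ≤ P'.e (P'.d ^ 2) (x k) * x k ^ 3 :=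
    mul_le_mul_of_nonneg_right h3 (by positivity)
  rcases le_total ((D k).P.e (lam k) (y k)) (P'.e (P'.d ^ 2) (y k)) with hm | hm
  · rw [min_eq_left hm]; exact h1
  · rw [min_eq_right hm]; exact h4.trans h2

/-- `t_y e(r u) ≤ C3 𝒟(y)` at all masses `u ≥ c1 y` -/
theorem bd7wa_ty (hk : P6K c cl Ch C0 c0 β) (h : Bd7WWk U c D lam x r cl Ch C0 β K1 j0) {y : ℕ → ℝ} {c1 : ℝ} (hc1 : 0 < c1)
    (hxy : x =O[U] y) (hy : ∀ᶠ k in U, 0 < y k ∧ y k ≤ 1 / c1) :
    ∃ C3 : ℝ, 0 < C3 ∧ ∀ᶠ k in U, ∀ u, c1 * y k ≤ u → u ≤ 1 →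
      min ((D k).P.e (lam k) (y k)) ((p6Child c0 D lam x r j0 k).P.e ((p6Child c0 D lam x r j0 k).P.d ^ 2) (y k)) * (D k).P.e (lam k) (r k u) ≤
        C3 * ((D k).P.e (lam k) (y k) * (p6Child c0 D lam x r j0 k).P.e ((p6Child c0 D lam x r j0 k).P.d ^ 2) (y k)) := by
  have hc := hk.ok
  have hypos : ∀ᶠ k in U, 0 ≤ y k := hy.mono fun k hk => hk.1.le
  obtain ⟨G, hG0, hG⟩ := aq_O_bound_le hxy hypos
  have hcl := hk.cl_pos
  have hC0 : 0 < C0 := lt_of_lt_of_le one_pos hk.C0_ge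
  refine ⟨max 1 (1 / (cl * c1)), lt_of_lt_of_le one_pos (le_max_left _ _), ?_⟩
  have hcf : 0 < min 1 (1 / (C0 / c1)) * (c0 ^ 2 * cmF (1 / c0)) := by
    have := hk.c0_pos
    have := cm_f_pos (1 / c0)
    have : 0 < min 1 (1 / (C0 / c1)) := lt_min one_pos (by positivity)
    positivity
  have hlam := aq_o_bound (bd7wa_lam hc h) (Eventually.of_forall fun k => sq_nonneg (x k)) hcf
  have hxpos := bd7wa_x_pos hc h.toBd7WPar
  have hu0 := aq_o_bound (bd7wa_u0 hc h.toBd7WPar) (hxpos.mono fun k hk => hk.le) (ε := c1 / G) (by positivity)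
  filter_upwards [h.seq.ok, bd7wa_ok hk h, h.lam_rng, hxpos, hG, hlam, hu0, hy, h.outer] with k ok ok' lamr xpos hGk hlamk hu0k hyk hreg
  intro u hu1 hu2
  set P' := (p6Child c0 D lam x r j0 k).P with hP'
  set ey := (D k).P.e (lam k) (y k) with hey
  set Dy := P'.e (P'.d ^ 2) (y k) with hDy
  have ey0 : 0 < ey := cm_e_pos _ lamr.1 _
  have hd'2 : 0 < P'.d ^ 2 := by have := ok'.d0; positivity
  have Dy0 : 0 < Dy := cm_e_pos _ hd'2 _
  have er0 : 0 ≤ (D k).P.e (lam k) (r k u) := cm_e_nonneg _ lamr.1.le _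
  have hC31 : (1:ℝ) ≤ max 1 (1 / (cl * c1)) := le_max_left _ _
  rcases le_or_gt (C0 * x k) (c1 * y k) with hcase | hcase
  · -- regular region
    have hu0u : (D k).P.u0 ≤ u := by
      have h1 : (D k).P.u0 ≤ c1 / G * x k := (le_abs_self _).trans hu0k
      have h2 : c1 / G * x k ≤ c1 * y k := by
        rw [div_mul_eq_mul_div, div_le_iff₀ hG0]
        nlinarith
      linarith
    have hr := (hreg u (hcase.trans hu1) hu2 hu0u).1
    have h3 : cl * c1 * y k ≤ r k u := by nlinarith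
    have h4 : (D k).P.e (lam k) (r k u) ≤ (D k).P.e (lam k) (cl * c1 * y k) := cm_e_anti _ ok.d0 lamr.1.le h3
    have h5 := p6_e_scale_le (P := (D k).P) ok.d0 lamr.1.le (s := cl * c1) (by positivity) hyk.1.le
    have h6 : (D k).P.e (lam k) (r k u) ≤ max 1 (1 / (cl * c1)) * ey := h4.trans h5
    calc min ey Dy * (D k).P.e (lam k) (r k u) ≤ Dy * (max 1 (1 / (cl * c1)) * ey) :=
          mul_le_mul (min_le_right _ _) h6 er0 Dy0.le
      _ = max 1 (1 / (cl * c1)) * (ey * Dy) := by ring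
  · -- `y ≲ x`
    have hyx : y k ≤ C0 / c1 * x k := by
      rw [div_mul_eq_mul_div, le_div_iff₀ hc1]; linarith
    have h1 : P'.e (P'.d ^ 2) (C0 / c1 * x k) ≤ Dy := cm_e_anti _ ok'.d0 hd'2.le hyx
    have h2 := p6_e_scale_ge (P := P') ok'.d0 hd'2.le (s := C0 / c1) (by positivity) xpos.le
    have hDx : P'.e (P'.d ^ 2) (x k) = c0 ^ 2 * cmF (1 / c0) * x k ^ 2 := p6_child_D_x xpos hk.c0_pos
    rw [hDx] at h2
    have h3 : (D k).P.e (lam k) (r k u) ≤ lam k := cm_e_le _ lamr.1.le _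
    have h4 : lam k ≤ min 1 (1 / (C0 / c1)) * (c0 ^ 2 * cmF (1 / c0)) * x k ^ 2 := (le_abs_self _).trans hlamk
    have h5 : (D k).P.e (lam k) (r k u) ≤ Dy := by
      calc _ ≤ _ := h3
        _ ≤ _ := h4
        _ = min 1 (1 / (C0 / c1)) * (c0 ^ 2 * cmF (1 / c0) * x k ^ 2) := by ring
        _ ≤ _ := h2
        _ ≤ _ := h1
    calc min ey Dy * (D k).P.e (lam k) (r k u) ≤ ey * Dy := mul_le_mul (min_le_left _ _) h5 er0 ey0.le
      _ ≤ max 1 (1 / (cl * c1)) * (ey * Dy) := by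
          have : 0 < ey * Dy := mul_pos ey0 Dy0
          nlinarith

/-- (a2): numerical direct-test conditions of the child at `x` -/
theorem bd7wa_direct_num (hk : P6K c cl Ch 2 c0 β) (h : Bd7WWk U c D lam x r cl Ch 2 β K1 j0) :
    (fun k => (p6Child c0 D lam x r j0 k).P.a) =O[U] x ∧
    (fun k => (p6Child c0 D lam x r j0 k).P.N * (p6Child c0 D lam x r j0 k).P.E ^ 2) =O[U]
      (fun k => (p6Child c0 D lam x r j0 k).P.e ((p6Child c0 D lam x r j0 k).P.d ^ 2) (x k) * x k ^ 2) ∧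
    (fun k => x k ^ 2) =O[U] (fun k => (p6Child c0 D lam x r j0 k).P.e ((p6Child c0 D lam x r j0 k).P.d ^ 2) (x k)) := by
  have hc := hk.ok
  have hc0 := hk.c0_pos
  have hf : 0 < cmF (1 / c0) := cm_f_pos _
  have hDx : ∀ᶠ k in U, (p6Child c0 D lam x r j0 k).P.e ((p6Child c0 D lam x r j0 k).P.d ^ 2) (x k)
      = c0 ^ 2 * cmF (1 / c0) * x k ^ 2 := by
    filter_upwards [bd7wa_x_pos hc h.toBd7WPar] with k hx
    exact p6_child_D_x hx hc0
  refine ⟨?_, ?_, ?_⟩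
  · refine aq_O_of_le c0 ?_
    filter_upwards [bd7wa_ok hk h] with k hok
    rw [abs_of_pos (cm_a_pos hc.cE_pos hok)]
    exact cm_a_le_d hc.cE_pos hok
  · refine aq_O_of_le (c0 ^ 2 / cmF (1 / c0)) ?_
    filter_upwards [bd7wa_ok hk h, hDx, bd7wa_x_pos hc h.toBd7WPar] with k hok hDx hx
    rw [hDx]
    have hN := cm_N_pos hok
    have hE := cm_E_pos hc.cE_pos hok
    rw [abs_of_pos (by positivity)]
    have hE2 : (p6Child c0 D lam x r j0 k).P.E ≤ (p6Child c0 D lam x r j0 k).P.N ^ (-(1 / 2 : ℝ)) * (c0 * x k) ^ 2 := hok.E2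
    set N := (p6Child c0 D lam x r j0 k).P.N with hNdef
    have hq : 0 < N ^ (-(1 / 2 : ℝ)) := Real.rpow_pos_of_pos hN _
    have hqq : N * (N ^ (-(1 / 2 : ℝ))) ^ 2 = 1 := by
      rw [← Real.rpow_natCast, ← Real.rpow_mul hN.le]
      have : (-(1 / 2 : ℝ)) * ((2 : ℕ) : ℝ) = -1 := by norm_num
      rw [this, Real.rpow_neg_one]
      field_simp
    calc N * (p6Child c0 D lam x r j0 k).P.E ^ 2 ≤ N * (N ^ (-(1 / 2 : ℝ)) * (c0 * x k) ^ 2) ^ 2 :=
          mul_le_mul_of_nonneg_left (pow_le_pow_left₀ hE.le hE2 2) hN.le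
      _ = (N * (N ^ (-(1 / 2 : ℝ))) ^ 2) * (c0 * x k) ^ 4 := by ring
      _ = (c0 * x k) ^ 4 := by rw [hqq, one_mul]
      _ = c0 ^ 2 / cmF (1 / c0) * (c0 ^ 2 * cmF (1 / c0) * x k ^ 2 * x k ^ 2) := by field_simp
  · refine aq_O_of_le (1 / (c0 ^ 2 * cmF (1 / c0))) ?_
    filter_upwards [hDx] with k hDx
    rw [hDx, abs_of_nonneg (sq_nonneg _)]
    apply le_of_eq
    field_simp

/-! ## 4. the success of the child (PE Prop. 6.6 applied to the child) -/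

section succ

variable {cκ Cκ cT CT : ℝ}

/-- every changed child path keeps the margin `β - c0²` and the clock bound `K1 + c0²` -/
theorem bd7wa_marg (hk : P6K c cl Ch C0 c0 β) (h : Bd7WWk U c D lam x r cl Ch C0 β K1 j0) :
    ∀ᶠ k in U, ∀ l s, 0 ≤ l → l ≤ (p6Child c0 D lam x r j0 k).P.d ^ 2 → (p6Child c0 D lam x r j0 k).P.Fe s →
      P6Marg ((p6Child c0 D lam x r j0 k).Pb l s) (j0 k) (β - c0 ^ 2) ∧
      P6Bd ((p6Child c0 D lam x r j0 k).Pb l s) ((p6Child c0 D lam x r j0 k).Ph l s) (K1 + c0 ^ 2) := by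
  filter_upwards [bd7wa_ok hk h, h.x_rng, bd7wa_x_pos hk.ok h.toBd7WPar, h.marg, h.clkP] with k hok hx hx0 hm hκ
  exact p6_child_marg hk.ok.cE_pos hok hx0 hx.2 hk.c0_pos hm hκ

/-- the final strength of the child is positive -/
theorem bd7wa_d_pos (hk : P6K c cl Ch C0 c0 β) (h : Bd7WWk U c D lam x r cl Ch C0 β K1 j0) :
    ∀ᶠ k in U, 0 < (p6Child c0 D lam x r j0 k).P.d ^ 2 ∧ (p6Child c0 D lam x r j0 k).P.d ^ 2 ≤ (p6Child c0 D lam x r j0 k).P.d ^ 2 := by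
  filter_upwards [bd7wa_ok hk h] with k hok
  exact ⟨by have := hok.d0; positivity, le_rfl⟩

/-- **the child succeeds** (LL l.907: "Its final error is at most `m^{20δ}E'`; write `z` for a final minimizing quantile") -/
theorem bd7wa_succ (hI : P6Imports fn c cκ Cκ cT CT) (hk : P6K c cl Ch C0 c0 β) (h : Bd7WWk U c D lam x r cl Ch C0 β K1 j0)
    (hβ : c0 ^ 2 < β) (hK : K1 + c0 ^ 2 + 1 ≤ c.K) : ∃ z : ℕ → ℝ → ℝ, P6Succ fn U (p6Child c0 D lam x r j0) z := by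
  classical
  have hK1 : K1 ≤ c.K := by nlinarith [sq_nonneg c0]
  have seq' := bd7wa_seq hk h hK1
  have ord := bd7wa_ord hk h
  have hex : ∀ᶠ k in U, ∃ z, (p6Child c0 D lam x r j0 k).IsMin fn ((p6Child c0 D lam x r j0 k).P.d ^ 2) z := by
    filter_upwards [hI.exMin U _ seq', ord] with k h1 h2
    exact h1 _ (sq_nonneg _) le_rfl (h2.2 _ (sq_nonneg _) le_rfl)
  have herr := p6_error hI hk.ok (sub_pos.2 hβ) hK (j0 := j0) seq' ord (h.j0_rng.mono fun k hk' => ⟨hk'.1, le_rfl⟩)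
    ((bd7wa_marg hk h).mono fun k hk' l s hl hl2 hs => hk' l s hl.le hl2 hs)
  refine ⟨fun k => if hz : ∃ z, (p6Child c0 D lam x r j0 k).IsMin fn ((p6Child c0 D lam x r j0 k).P.d ^ 2) z then hz.choose else fun _ => 0, ?_, ?_⟩
  · filter_upwards [hex] with k hz
    simp only [dif_pos hz]
    exact hz.choose_spec
  · filter_upwards [hex, herr] with k hz he
    simp only [dif_pos hz]
    exact (he _ _ (sq_nonneg _) le_rfl hz.choose_spec).2

/-- `A'_{d'²} = n^δ a' ≤ n^δ c0 x` -/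
theorem bd7wa_Al_le (hk : P6K c cl Ch C0 c0 β) (h : Bd7WWk U c D lam x r cl Ch C0 β K1 j0) :
    ∀ᶠ k in U, (p6Child c0 D lam x r j0 k).P.Al ((p6Child c0 D lam x r j0 k).P.d ^ 2) ≤ (D k).P.N ^ (D k).P.dl * (c0 * x k) := by
  filter_upwards [bd7wa_ok hk h] with k hok
  have hd := hok.d0
  have hN := cm_N_pos hok
  have ha := cm_a_le_d hk.ok.cE_pos hok
  have e : (p6Child c0 D lam x r j0 k).P.Al ((p6Child c0 D lam x r j0 k).P.d ^ 2)
      = (p6Child c0 D lam x r j0 k).P.N ^ (p6Child c0 D lam x r j0 k).P.dl * (p6Child c0 D lam x r j0 k).P.a := by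
    unfold CmCall.Al CmCall.a
    rw [Real.sqrt_sq hd.le]; ring
  rw [e]
  exact mul_le_mul_of_nonneg_left ha (Real.rpow_nonneg hN.le _)

/-- **the child is comparable to the mass above `n^δ d'`** (LL l.958, "by finite propagation") -/
theorem bd7wa_prof (hI : P6Imports fn c cκ Cκ cT CT) (hk : P6K c cl Ch C0 c0 β) (h : Bd7WWk U c D lam x r cl Ch C0 β K1 j0)
    (hβ : c0 ^ 2 < β) (hK : K1 + c0 ^ 2 + 1 ≤ c.K) {z : ℕ → ℝ → ℝ} (hz : P6Succ fn U (p6Child c0 D lam x r j0) z) :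
    ∀ᶠ k in U, ∀ u, (D k).P.N ^ (D k).P.dl * (c0 * x k) ≤ u → u ≤ 1 → p6Lo Cκ cT * u ≤ z k u ∧ z k u ≤ p6Hi cκ CT * u := by
  have hK1 : K1 ≤ c.K := by nlinarith [sq_nonneg c0]
  have seq' := bd7wa_seq hk h hK1
  have ord := bd7wa_ord hk h
  have hm := bd7wa_marg hk h
  have hp := p6_profile hI hk.ok (sub_pos.2 hβ) hK (j0 := j0) seq' (bd7wa_d_pos hk h)
    (ord.mono fun k h2 => h2.2 _ (sq_nonneg _) le_rfl) hz.min (h.j0_rng.mono fun k hk' => ⟨hk'.1, le_rfl⟩)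
    (by filter_upwards [hm, hz.min] with k h1 h2 using (h1 _ _ (sq_nonneg _) le_rfl h2.1).1)
    (by filter_upwards [hm, hz.min] with k h1 h2 using (h1 _ _ (sq_nonneg _) le_rfl h2.1).2)
  filter_upwards [hp, bd7wa_Al_le hk h] with k h1 h2 u hu hu1
  exact h1 u (h2.trans hu) hu1

/-- the child's quantile is monotone with values in `[0,1]` on its working interval -/
theorem bd7wa_z (hk : P6K c cl Ch C0 c0 β) (h : Bd7WWk U c D lam x r cl Ch C0 β K1 j0) {z : ℕ → ℝ → ℝ}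
    (hz : P6Succ fn U (p6Child c0 D lam x r j0) z) :
    ∀ᶠ k in U, MonotoneOn (z k) (Icc (j0 k) 1) ∧ ∀ u ∈ Icc (j0 k) 1, 0 ≤ z k u ∧ z k u ≤ 1 := by
  filter_upwards [bd7wa_ok hk h, hz.min] with k hok hm
  exact p6f_fe hk.ok.cE_pos hok hm.1

/-- a successful child error is negligible compared with the cost of a separation: `err ≤ n^{-80δ} e(x) x³` -/
theorem bd7wa_err (h : Bd7WWk U c D lam x r cl Ch C0 β K1 j0) {c0 : ℝ} {z : ℕ → ℝ → ℝ}
    (hz : P6Succ fn U (p6Child c0 D lam x r j0) z) :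
    ∀ᶠ k in U, (p6Child c0 D lam x r j0 k).err fn ((p6Child c0 D lam x r j0 k).P.d ^ 2) (z k)
      ≤ (D k).P.N ^ (-(80 * (D k).P.dl)) * ((D k).P.e (lam k) (x k) * x k ^ 3) := by
  filter_upwards [h.seq.ok, hz.succ] with k ok hs
  exact hs.trans (p6_child_err (cm_N_pos ok))

/-- a PE parent is a special case -/
theorem bd7wa_of_wk (hc : c.Ok) (h : P6Wk fn U c D lam x r cl Ch C0 β j0) : Bd7WWk U c D lam x r cl Ch C0 β c.K j0 where
  seq := h.seq
  lam_rng := h.lam_rng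
  adm := by filter_upwards [h.fam, h.min] with k hf hm using hf _ hm.1
  rmono := by filter_upwards [h.seq.ok, h.min] with k hok hm using (p6f_fe hc.cE_pos hok hm.1).1
  rmem := by
    filter_upwards [h.seq.ok, h.min] with k hok hm u hu
    exact ⟨hok.r0.trans ((p6f_fe hc.cE_pos hok hm.1).2 u hu).1, ((p6f_fe hc.cE_pos hok hm.1).2 u hu).2⟩
  x_rng := h.x_rng
  outer := h.outer
  weak := h.weak
  j0_rng := h.j0_rng
  marg := h.marg
  clkP := h.clkP

end succ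

end Claimed.Agent.R286
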