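import Claimed.Agent.R286.Bud.L07S
import Claimed.Agent.R286.Bud.L8Defs
import Claimed.Agent.R286.Pe6.Agree
import Claimed.Agent.R286.Pe6.Contract
import Claimed.Agent.R286.Bud.L07Wa
import Claimed.Agent.R286.Bud.PSysA
import Claimed.Agent.R286.Cmp.P6Defs

/-!
# Row 286, LL sec. 7, package L07: END OF STEP 1 (`07-budgets.tex` l.960-985) AND STEP 3 (l.1107-1150) of the proof of (C7): CONTRACT + CUT      (owner helper286; head of the package helper12; ADV helper186; prefix `bcp_`, types `Bcp*`)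
TEX[LL:bud:modified-closure]#960-1168      TEX[LL:bud:coarse-profile]

EXITS (names of helper12, `Bud/L07.lean`):  `bcp_weak : … → Bd7Weak X W Fam cL CL`,  `bcp_C7b : … → Bd7C7b X W Fam`,  `bcp_C7c : … → Bd7C7c X W Fam`,  and `bcp_C7al : … → BudC7al X W Fam` (the form of helper212).

FRAME.  Exits are UNIFORM; inside, sequences of instances along an ultrafilter `U` on `ℕ` (the frame of PE Sec. 6, `Pe6/Defs.lean`): `bcp_unif_of_seq`.
The PE child of l.889-900 is a GENUINE PE instance `(i.chd c0 : P6D)` for the abstract pressure `bcpFn W = fun m => (W.ps m).f`; its bare endpoint is the changed path of the optimiser, closed at both ends (`bcpCl`).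
"Agreement in normalised measure + Helly" of the paper is replaced (as in `Pe6/Agree.lean`, helper101) by NO THRESHOLD SEPARATION + monotone bracketing.
Separation tests are needed only on mass intervals below `Y = min(1, m^{2δ} w)` (l.951: "the child is already comparable above `m^δ d'` by finite propagation"): `BcpNS`.

IMPORTS (each a `def/structure … : Prop`; OWNER in brackets)
* `BcpPE`      PE Sec. 6 for the pressure of the world: `P6Imports`, `P6Exit`                                  [helper14 / helper207: `pec_imports`, `p6_exit` + BRIDGE-1 below]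
* `BcpChild`   l.889-900 = PE Lemma 6.2 for the LL parent: the child is a PE sequence, ordinary, with margins         [helper129]
* `BcpNoSep`   l.902-960: barriers + movement: no threshold separation below `Y`                                       [helper186]
* `BcpDirK`    PE Thm 5.1 with the EXPLICIT slope (29): `κ = A/B`, `A = T³a4²`, `B = 2T²a2³` of the scalar clock of the changed path      [helper98 / helper24]
* `BcpMacQ`    PE Prop. 5.9 with the EXPLICIT limit `q_T`  (= what `mac_p6_macro` proves)                              [helper155 / helper67]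
* `BcpS18`     PE (18) + Lemma 3.3 on macroscopic bands: `S - r → 0` in `L¹_loc(0,1)`                                   [PE Sec. 3: helper295 / helper294]
* `BcpStab`    bounded-clock stability of `a2, a4` in `L¹` (LL at (G3))                                                 [BOX-C: helper183 / helper100]
* `BcpP2`      (P2) + normalised inverse construction: `q(v) = v/κ_T + o(u)`                                            [LL03: helper272]
* `BcpGeo`     Lemma 7.2: floor mass, `|S - r| ≤ 2/M_j` at nonfloor radii of the constant region (`BudGeo.flat_nonfloor`)      [helper109]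
* `Bd7P9`, `Bd7Adm`  of `Bud/L07S.lean`.
INSTANCE DEBTS (world = `skWorld`):  BRIDGE-1  `skCPr n 1 b h = skPf n 1 b h` for ALL `P6Adm b h` (a jump at the terminal mass `1` is an annealed level: it is cancelled by the self correction; `bw_pf_eq` needs `ClkEnd`, which fails for `h0 + e(z) z`, `z(1-) < 1 = z(1)`);
BRIDGE-2  the same for `skCS` at positions `< 1`.   With BRIDGE-1, `bcp_imports_congr` turns `pec_imports` into `BcpPE.imp`.

STATUS 05:25Z: 0 SORRY.   ASSEMBLY (sec. G): record `BcpAll` (all imports, loose constants free) ⇒ `bcp_all_weak` (= `Bd7In.weak`), `bcp_all_c7b` (= `Bd7In.c7b`), `bcp_all_c7c`.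
CUT.  A vocabulary | B model-free bracketing with `BcpNS` | C sequences, supplies | D Step 1 tail ⇒ `bcp_weak` | E slope of a PE direct test with vanishing `d` (PE level) | F Step 3 ⇒ `bcp_C7b`, `bcp_C7c`, `bcp_C7al`.
-/

set_option autoImplicit false

namespace Claimed.Agent.R286

open MeasureTheory Set Filter Topology Asymptotics

noncomputable section

/-! ## A. Vocabulary -/

/-- the pressure of the world, as the abstract pressure of PE Sec. 6 -/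
def bcpFn (W : BdWorld) : ℕ → (ℝ → ℝ) → (ℝ → ℝ) → ℝ := fun m => (W.ps m).f

/-- a clock on `(0,1)` closed at both ends: right limit at `0`, left limit at `1` -/
def bcpCl (c : ℝ → ℝ) (u : ℝ) : ℝ :=
  if u ≤ 0 then sInf (c '' Ioo 0 1) else if u < 1 then c u else sSup (c '' Ioo 0 1)

namespace Bd7I

variable {X : BdFix} (i : Bd7I X)

/-- **the LL parent as a PE instance WITHOUT class** (dictionary of helper129): call `F.call X` (strength `C0`), base `T_m`, bare clocks closed at both ends -/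
def par : P6D := ⟨i.F.call X, i.F.Tm, bcpCl (i.F.b i.g), bcpCl (i.F.h i.g)⟩

/-- **the PE child of Step 1** (l.889-900): `d' = c0 w`, `E' = min(m^{-1/2} d'², m^{-100δ} C(w) w³)`, all masses, no wall, bare endpoint = the changed path of the optimiser.
BY DEFINITION the child `P6D.child` of `i.par` at the strength `C0`, quantile `Q.r`, scale `w`: `fun k => (i k).chd c0 = p6Child c0 (fun k => (i k).par) (fun k => (i k).F.C0) (fun k => (i k).w) (fun k => (i k).Q.r) 0` by `rfl` -/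
def chd (c0 : ℝ) : P6D := i.par.child i.F.C0 i.Q.r i.w c0 0

/-- the same instance tested at the scale `u` (Step 3) -/
def atU : Bd7I X := ⟨i.F, i.g, i.Q, i.F.u⟩

/-- separation tests are made on mass intervals below `Y = min(1, m^{2δ} w)` -/
def Ysep : ℝ := min 1 ((i.F.m : ℝ) ^ (2 * (X.mPE / 10000)) * i.w)

end Bd7I

/-- the scalar clock `K = h + b S` of the changed path of a PE instance, in the world `W` -/
def P6D.Kc (D : P6D) (W : BdWorld) (lam : ℝ) (r : ℝ → ℝ) (v : ℝ) : ℝ :=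
  D.Ph lam r v + D.Pb lam r v * (W.ps D.P.n).S (D.Pb lam r) (D.Ph lam r) v

/-- the slope `κ = T a4²/(2 a2³)` of PE (29) at the scalar clock `K` -/
def bcpKap (Sc : Bd7Sc) (T : ℝ) (K : ℝ → ℝ) : ℝ := T * Sc.a4 K ^ 2 / (2 * Sc.a2 K ^ 3)

/-- from sequences to uniform statements -/
theorem bcp_unif_of_seq {ι : Type} {N : ι → ℕ} {P Φ : ι → Prop}
    (h : ∀ i : ℕ → ι, (∀ k, P (i k)) → Tendsto (fun k => N (i k)) atTop atTop → ∃ k, Φ (i k)) :
    ∃ N0 : ℕ, ∀ i, P i → N0 ≤ N i → Φ i := by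
  by_contra hcon
  have hc : ∀ N0 : ℕ, ∃ i, P i ∧ N0 ≤ N i ∧ ¬ Φ i := by
    intro N0
    by_contra hc
    exact hcon ⟨N0, fun i h1 h2 => by
      by_contra h3
      exact hc ⟨i, h1, h2, h3⟩⟩
  choose i h1 h2 h3 using hc
  obtain ⟨k, hk⟩ := h i h1 (tendsto_atTop_mono h2 tendsto_id)
  exact h3 k hk

/-! ## B. Model-free bracketing (monotone functions along an ultrafilter) -/

/-- no threshold separation between `r` and `z` at any scale `x ≲ y ≤ 1`, on mass intervals `[c1 y, c2 y]` BELOW `Y`      (`Y = 1`: `P6NoSep` of `Pe6/Agree.lean`) -/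
def BcpNS (U : Ultrafilter ℕ) (r z : ℕ → ℝ → ℝ) (x Y : ℕ → ℝ) : Prop :=
  ∀ (y : ℕ → ℝ) (G : ℝ), 0 < G → (∀ᶠ k in U, x k ≤ G * y k ∧ y k ≤ 1) →
    (∀ θ1 θ2 c1 c2 : ℝ, 0 < θ1 → θ1 < θ2 → 0 < c1 → c1 < c2 → (∀ᶠ k in U, c2 * y k ≤ Y k) →
      ¬ ∀ᶠ k in U, P6SepUp (r k) (z k) (y k) θ1 θ2 c1 c2) ∧
    (∀ θ1 θ2 c1 c2 Cr : ℝ, 0 < θ1 → θ1 < θ2 → 0 < c1 → c1 < c2 → (∀ᶠ k in U, c2 * y k ≤ Y k) →
      ¬ ∀ᶠ k in U, P6SepDn (r k) (z k) (y k) θ1 θ2 c1 c2 Cr)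

/-- standing hypotheses of the bracketing lemmas -/
structure BcpAg (U : Ultrafilter ℕ) (r z : ℕ → ℝ → ℝ) (x Y : ℕ → ℝ) : Prop where
  x_rng : ∀ᶠ k in U, 0 < x k ∧ x k ≤ 1
  Y_le : ∀ᶠ k in U, Y k ≤ 1
  r_mono : ∀ᶠ k in U, MonotoneOn (r k) (Icc 0 1)
  z_mono : ∀ᶠ k in U, MonotoneOn (z k) (Icc 0 1)
  r_rng : ∀ᶠ k in U, ∀ u ∈ Icc (0 : ℝ) 1, 0 ≤ r k u ∧ r k u ≤ 1
  z_rng : ∀ᶠ k in U, ∀ u ∈ Icc (0 : ℝ) 1, 0 ≤ z k u ∧ z k u ≤ 1
  nosep : BcpNS U r z x Y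

section bracket

variable {U : Ultrafilter ℕ} {r z : ℕ → ℝ → ℝ} {x Y : ℕ → ℝ}

/-- if `Y = 1` eventually, this is the setting of `Pe6/Agree.lean` -/
theorem bcp_ag_p6 (h : BcpAg U r z x Y) (hY : ∀ᶠ k in U, Y k = 1) : P6Ag U r z x (fun _ => 0) := by
  refine ⟨h.x_rng, fun ε hε => ?_, h.r_mono, h.z_mono, h.r_rng, h.z_rng, ?_⟩
  · filter_upwards [h.x_rng] with k hk
    exact mul_nonneg hε.le hk.1.le
  · intro y G hG hy
    have H := h.nosep y G hG hy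
    refine ⟨fun θ1 θ2 c1 c2 h1 h2 h3 h4 h5 => H.1 θ1 θ2 c1 c2 h1 h2 h3 h4 ?_,
      fun θ1 θ2 c1 c2 Cr h1 h2 h3 h4 h5 => H.2 θ1 θ2 c1 c2 Cr h1 h2 h3 h4 ?_⟩
    · filter_upwards [h5, hY] with k a b
      rw [b]; exact a
    · filter_upwards [h5, hY] with k a b
      rw [b]; exact a

/-- the form of `BcpNS` which is used below -/
theorem bcp_ns (h : BcpNS U r z x Y) (y : ℕ → ℝ) (θ1 θ2 c1 c2 Cr : ℝ) (h1 : 0 < θ1) (h2 : θ1 < θ2) (h3 : 0 < c1) (h4 : c1 < c2)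
    (hy : ∀ᶠ k in U, c2 * y k ≤ Y k) (hxy : ∀ᶠ k in U, x k ≤ y k ∧ y k ≤ 1) :
    ∀ᶠ k in U, ¬ P6SepUp (r k) (z k) (y k) θ1 θ2 c1 c2 ∧ ¬ P6SepDn (r k) (z k) (y k) θ1 θ2 c1 c2 Cr := by
  have H := h y 1 one_pos (hxy.mono fun k hk => ⟨by rw [one_mul]; exact hk.1, hk.2⟩)
  have a := H.1 θ1 θ2 c1 c2 h1 h2 h3 h4 hy
  have b := H.2 θ1 θ2 c1 c2 Cr h1 h2 h3 h4 hy
  rw [← Ultrafilter.eventually_not] at a b
  exact a.and b

/-- **l.966-968: the child inherits the outer regularity above `x`.**   Below `Y` by no separation (upper violation at `u`: `P6SepUp` on `[u,2u]`, `θ = 2Ch, 4Ch`; lower violation: `P6SepDn` on `[u/2,u]`, `θ = cl/4, cl/2`, `Cr = Ch`;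
as `p6_ag_reg`), above `Y/2` resp. `Y` by the hypotheses `hup`, `hlo` (finite propagation). -/
theorem bcp_reg (h : BcpAg U r z x Y) {cl Ch C0 c' C' : ℝ} (hcl : 0 < cl) (hCh : 1 ≤ Ch) (hC0 : 1 ≤ C0)
    (hreg : ∀ᶠ k in U, P6Reg 0 (r k) cl Ch C0 (x k))
    (hup : ∀ᶠ k in U, ∀ u, Y k / 2 < u → u ≤ 1 → z k u ≤ C' * u)
    (hlo : ∀ᶠ k in U, ∀ u, Y k < u → u ≤ 1 → c' * u ≤ z k u) :
    ∀ᶠ k in U, P6Reg 0 (z k) (min (cl / 4) c') (max (4 * Ch) C') (2 * C0) (x k) := by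
  classical
  by_contra hcon
  rw [← Ultrafilter.eventually_not] at hcon
  have hex : ∀ k, ∃ u : ℝ, (¬ P6Reg 0 (z k) (min (cl / 4) c') (max (4 * Ch) C') (2 * C0) (x k)) →
      (2 * C0 * x k ≤ u ∧ u ≤ 1 ∧ (z k u < min (cl / 4) c' * u ∨ max (4 * Ch) C' * u < z k u)) := by
    intro k
    by_cases hk : P6Reg 0 (z k) (min (cl / 4) c') (max (4 * Ch) C') (2 * C0) (x k)
    · exact ⟨0, fun h' => absurd hk h'⟩
    · have hk' := hk
      simp only [P6Reg, not_forall] at hk'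
      obtain ⟨u, h1, h2, _, h4⟩ := hk'
      refine ⟨u, fun _ => ⟨h1, h2, ?_⟩⟩
      by_contra h5
      rw [not_or, not_lt, not_lt] at h5
      exact h4 ⟨h5.1, h5.2⟩
  choose u hu using hex
  have hu' : ∀ᶠ k in U, 2 * C0 * x k ≤ u k ∧ u k ≤ 1 ∧ (z k (u k) < min (cl / 4) c' * u k ∨ max (4 * Ch) C' * u k < z k (u k)) :=
    hcon.mono fun k hk => hu k hk
  have hxu : ∀ᶠ k in U, 0 < x k ∧ x k ≤ u k ∧ C0 * x k ≤ u k / 2 := by
    filter_upwards [hu', h.x_rng] with k h1 h2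
    refine ⟨h2.1, ?_, by linarith [h1.1]⟩
    have : x k ≤ C0 * x k := le_mul_of_one_le_left h2.1.le hC0
    have h3 : 0 ≤ C0 * x k := mul_nonneg (by linarith) h2.1.le
    linarith [h1.1]
  have hO : ∀ᶠ k in U, x k ≤ u k ∧ u k ≤ 1 := by
    filter_upwards [hxu, hu'] with k h1 h2
    exact ⟨h1.2.1, h2.2.1⟩
  have hsplit : (∀ᶠ k in U, z k (u k) < min (cl / 4) c' * u k) ∨ (∀ᶠ k in U, max (4 * Ch) C' * u k < z k (u k)) :=
    Ultrafilter.eventually_or.1 (hu'.mono fun k hk => hk.2.2)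
  rcases hsplit with hA | hB
  · -- downward separation on `[u/2, u]`
    have hY : ∀ᶠ k in U, 1 * u k ≤ Y k := by
      filter_upwards [hA, hlo, hxu, hu'] with k h1 h2 h3 h4
      by_contra hc
      rw [one_mul, not_le] at hc
      have hu0 : 0 < u k := lt_of_lt_of_le h3.1 h3.2.1
      have h5 := h2 (u k) hc h4.2.1
      have h6 : min (cl / 4) c' * u k ≤ c' * u k := mul_le_mul_of_nonneg_right (min_le_right _ _) hu0.le
      linarith
    have hns := bcp_ns h.nosep u (cl / 4) (cl / 2) (1 / 2) 1 Ch (by positivity) (by linarith) (by norm_num) (by norm_num) hY hO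
    refine p6_ag_false (U := U) ?_
    filter_upwards [hns, hA, hu', hxu, hreg, h.z_mono] with k h1 h2 h3 h4 h6 h7
    refine h1.2 fun v hv1 hv2 => ?_
    have hu0 : 0 < u k := lt_of_lt_of_le h4.1 h4.2.1
    have hv1' : u k / 2 ≤ v := by linarith
    have hv2' : v ≤ u k := by linarith
    have hv3 : v ≤ 1 := hv2'.trans h3.2.1
    have hv0 : 0 ≤ v := by linarith
    have hr := h6 v (h4.2.2.trans hv1') hv3 hv0
    have hz := h7 ⟨hv0, hv3⟩ ⟨hu0.le, h3.2.1⟩ hv2'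
    have h8 : min (cl / 4) c' * u k ≤ cl / 4 * u k := mul_le_mul_of_nonneg_right (min_le_left _ _) hu0.le
    refine ⟨hz.trans (h2.le.trans h8), ?_, ?_⟩
    · have : cl * (u k / 2) ≤ cl * v := mul_le_mul_of_nonneg_left hv1' hcl.le
      linarith [hr.1]
    · have : Ch * v ≤ Ch * u k := mul_le_mul_of_nonneg_left hv2' (by linarith)
      linarith [hr.2]
  · -- upward separation on `[u, 2u]`
    have hY : ∀ᶠ k in U, 2 * u k ≤ Y k := by
      filter_upwards [hB, hup, hxu, hu'] with k h1 h2 h3 h4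
      by_contra hc
      rw [not_le] at hc
      have hu0 : 0 < u k := lt_of_lt_of_le h3.1 h3.2.1
      have h5 := h2 (u k) (by linarith) h4.2.1
      have h6 : C' * u k ≤ max (4 * Ch) C' * u k := mul_le_mul_of_nonneg_right (le_max_right _ _) hu0.le
      linarith
    have hns := bcp_ns h.nosep u (2 * Ch) (4 * Ch) 1 2 1 (by linarith) (by linarith) (by norm_num) (by norm_num) hY hO
    refine p6_ag_false (U := U) ?_
    filter_upwards [hns, hB, hu', hxu, hreg, h.z_mono, hY, h.Y_le] with k h1 h2 h3 h4 h6 h7 h8 h9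
    refine h1.1 fun v hv1 hv2 => ?_
    have hu0 : 0 < u k := lt_of_lt_of_le h4.1 h4.2.1
    have hv1' : u k ≤ v := by linarith
    have hv3 : v ≤ 1 := by linarith
    have hv0 : 0 ≤ v := by linarith
    have hr := h6 v (by linarith [h4.2.2]) hv3 hv0
    have hz := h7 ⟨hu0.le, h3.2.1⟩ ⟨hv0, hv3⟩ hv1'
    have h10 : 4 * Ch * u k ≤ max (4 * Ch) C' * u k := mul_le_mul_of_nonneg_right (le_max_left _ _) hu0.le
    refine ⟨?_, (h10.trans h2.le).trans hz⟩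
    have : Ch * v ≤ Ch * (2 * u k) := mul_le_mul_of_nonneg_left hv2 (by linarith)
    linarith [hr.2]

/-- **l.972-978: transfer of the linear limit from the child to the parent** (only the scale `y = x` is tested; as `p6_ag_transfer`) -/
theorem bcp_transfer (h : BcpAg U r z x Y) (hx : Tendsto x U (𝓝 0)) (hY : ∀ c : ℝ, ∀ᶠ k in U, c * x k ≤ Y k)
    {cl Ch C0 κ : ℝ} (hCh : 0 < Ch) (hC0 : 0 < C0) (hreg : ∀ᶠ k in U, P6Reg 0 (r k) cl Ch C0 (x k)) (hκ : 0 < κ)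
    (hz : ∀ v : ℝ, 0 < v → Tendsto (fun k => z k (x k * v) / x k) U (𝓝 (v / κ))) :
    ∀ v : ℝ, 0 < v → Tendsto (fun k => r k (x k * v) / x k) U (𝓝 (v / κ)) := by
  intro v hv
  have hO : ∀ᶠ k in U, x k ≤ x k ∧ x k ≤ 1 := h.x_rng.mono fun k hk => ⟨le_rfl, hk.2⟩
  have hxs : ∀ c : ℝ, ∀ᶠ k in U, c * x k ≤ 1 := by
    intro c
    filter_upwards [hY c, h.Y_le] with k h1 h2
    exact h1.trans h2
  have hL : 0 < v / κ := div_pos hv hκ
  refine tendsto_order.2 ⟨fun a ha => ?_, fun b hb => ?_⟩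
  · -- lower bound: upward separation on `[(v-ρ) x, v x]`
    by_contra hcon
    rw [← Ultrafilter.eventually_not] at hcon
    set a' := max a (v / κ / 2) with ha'
    have ha1 : a' < v / κ := max_lt ha (by linarith)
    have ha0 : 0 < a' := lt_of_lt_of_le (by linarith) (le_max_right _ _)
    set ε := v / κ - a' with hε
    have hε0 : 0 < ε := by linarith
    set ρ := min (v / 2) (κ * ε / 6) with hρ
    have hρ0 : 0 < ρ := lt_min (by linarith) (by positivity)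
    have hρv : 0 < v - ρ := by have := min_le_left (v / 2) (κ * ε / 6); linarith
    have hρκ : v / κ - ε / 6 ≤ (v - ρ) / κ := by
      have h1 : ρ / κ ≤ ε / 6 := by
        rw [div_le_iff₀ hκ]
        have := min_le_right (v / 2) (κ * ε / 6)
        linarith
      have e : (v - ρ) / κ = v / κ - ρ / κ := sub_div _ _ _
      rw [e]
      linarith
    have hz1 : ∀ᶠ k in U, v / κ - ε / 3 < z k (x k * (v - ρ)) / x k :=
      (tendsto_order.1 (hz _ hρv)).1 _ (by linarith)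
    have hns := bcp_ns h.nosep x a' (v / κ - ε / 3) (v - ρ) v 1 ha0 (by linarith) hρv (by linarith) (hY v) hO
    refine p6_ag_false (U := U) ?_
    filter_upwards [hns, hcon, hz1, h.x_rng, hxs v, h.r_mono, h.z_mono] with k h1 h2 h3 h4 h5 h7 h8
    refine h1.1 fun u hu1 hu2 => ?_
    have hx0 := h4.1
    have h6 : 0 ≤ (v - ρ) * x k := mul_nonneg hρv.le hx0.le
    have hu3 : u ≤ 1 := hu2.trans h5
    have hwu : 0 ≤ u := h6.trans hu1
    have e1 : x k * v = v * x k := mul_comm _ _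
    have e2 : x k * (v - ρ) = (v - ρ) * x k := mul_comm _ _
    have hr := h7 ⟨hwu, hu3⟩ ⟨hwu.trans hu2, h5⟩ hu2
    have hzz := h8 ⟨h6, hu1.trans hu3⟩ ⟨hwu, hu3⟩ hu1
    rw [not_lt, div_le_iff₀ hx0, e1] at h2
    rw [lt_div_iff₀ hx0, e2] at h3
    refine ⟨hr.trans (h2.trans ?_), h3.le.trans hzz⟩
    exact mul_le_mul_of_nonneg_right (le_max_left _ _) hx0.le
  · -- upper bound: downward separation on `[v x, (v+ρ) x]`
    by_contra hcon
    rw [← Ultrafilter.eventually_not] at hcon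
    set ε := b - v / κ with hε
    have hε0 : 0 < ε := by linarith
    set ρ := κ * ε / 6 with hρ
    have hρ0 : 0 < ρ := by positivity
    have hρκ : (v + ρ) / κ = v / κ + ε / 6 := by
      rw [hρ]
      field_simp
    have hz1 : ∀ᶠ k in U, z k (x k * (v + ρ)) / x k < v / κ + ε / 3 :=
      (tendsto_order.1 (hz _ (by linarith))).2 _ (by linarith)
    set Cr := Ch * max C0 (v + ρ) with hCr
    have hCr0 : 0 < Cr := mul_pos hCh (lt_max_of_lt_left hC0)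
    have hns := bcp_ns h.nosep x (v / κ + ε / 3) b v (v + ρ) Cr (by linarith) (by linarith) hv (by linarith) (hY (v + ρ)) hO
    refine p6_ag_false (U := U) ?_
    filter_upwards [hns, hcon, hz1, h.x_rng, hxs (v + ρ), h.r_mono, h.z_mono, hreg, hxs C0]
      with k h1 h2 h3 h4 h5 h7 h8 h9 h10
    refine h1.2 fun u hu1 hu2 => ?_
    have hx0 := h4.1
    have h6 : 0 ≤ v * x k := mul_nonneg hv.le hx0.le
    have hu3 : u ≤ 1 := hu2.trans h5
    have hwu : 0 ≤ u := h6.trans hu1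
    have e1 : x k * v = v * x k := mul_comm _ _
    have e2 : x k * (v + ρ) = (v + ρ) * x k := mul_comm _ _
    have hr := h7 ⟨h6, hu1.trans hu3⟩ ⟨hwu, hu3⟩ hu1
    have hzz := h8 ⟨hwu, hu3⟩ ⟨hwu.trans hu2, h5⟩ hu2
    rw [not_lt, le_div_iff₀ hx0, e1] at h2
    rw [div_lt_iff₀ hx0, e2] at h3
    refine ⟨hzz.trans h3.le, h2.trans hr, ?_⟩
    rcases le_total (C0 * x k) u with hc | hc
    · have h11 := (h9 u hc hu3 hwu).2
      have h12 : Ch * u ≤ Ch * ((v + ρ) * x k) := mul_le_mul_of_nonneg_left hu2 hCh.le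
      have h13 : Ch * ((v + ρ) * x k) ≤ Cr * x k := by
        rw [hCr, mul_assoc]
        exact mul_le_mul_of_nonneg_left (mul_le_mul_of_nonneg_right (le_max_right _ _) hx0.le) hCh.le
      linarith
    · have h11 := (h9 (C0 * x k) le_rfl h10 (hwu.trans hc)).2
      have h12 := h7 ⟨hwu, hu3⟩ ⟨hwu.trans hc, h10⟩ hc
      have h13 : Ch * (C0 * x k) ≤ Cr * x k := by
        rw [hCr, mul_assoc]
        exact mul_le_mul_of_nonneg_left (mul_le_mul_of_nonneg_right (le_max_left _ _) hx0.le) hCh.le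
      linarith

/-- **l.1126-1132: transfer of a CONTINUOUS macroscopic limit** (scale `y = 1`):  `r v0 > q v0 + 3ε` ⇒ `P6SepDn` on `[v0, v0+δ]` with `θ = q v0 + 2ε, q v0 + 3ε`, `Cr = 1`;   `r v0 < q v0 - 3ε` ⇒ `P6SepUp` on `[v0-δ, v0]`. -/
theorem bcp_macro_cont {w : ℕ → ℝ} (h : P6Ag U r z x w) {q : ℝ → ℝ} (hq : ContinuousOn q (Ioo 0 1))
    (hq0 : ∀ v ∈ Ioo (0 : ℝ) 1, 0 ≤ q v)
    (hz : ∀ v : ℝ, 0 < v → v < 1 → Tendsto (fun k => z k v) U (𝓝 (q v))) :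
    ∀ v : ℝ, 0 < v → v < 1 → Tendsto (fun k => r k v) U (𝓝 (q v)) := by
  intro v hv0 hv1
  have hO : ∀ᶠ k in U, x k ≤ (fun _ : ℕ => (1 : ℝ)) k ∧ (fun _ : ℕ => (1 : ℝ)) k ≤ 1 := h.x_rng.mono fun k hk => ⟨hk.2, le_rfl⟩
  have hws : ∀ c : ℝ, 0 < c → ∀ᶠ k in U, w k ≤ c := by
    intro c hc
    filter_upwards [h.w_small c hc, h.x_rng] with k h1 h2
    have : c * x k ≤ c * 1 := mul_le_mul_of_nonneg_left h2.2 hc.le
    linarith
  have hcont : ContinuousAt q v := hq.continuousAt (Ioo_mem_nhds hv0 hv1)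
  rw [Metric.continuousAt_iff] at hcont
  refine tendsto_order.2 ⟨fun a ha => ?_, fun b hb => ?_⟩
  · rcases (hq0 v ⟨hv0, hv1⟩).eq_or_lt with hq00 | hqv
    · filter_upwards [h.r_rng, hws v hv0] with k h1 h2
      have := (h1 v ⟨h2, hv1.le⟩).1
      linarith
    by_contra hcon
    rw [← Ultrafilter.eventually_not] at hcon
    set a' := max a (q v / 2) with ha'
    have ha1 : a' < q v := max_lt ha (by linarith)
    have ha0 : 0 < a' := lt_of_lt_of_le (by linarith) (le_max_right _ _)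
    set ε := q v - a' with hε
    have hε0 : 0 < ε := by linarith
    obtain ⟨δ, hδ0, hδ⟩ := hcont (ε / 3) (by linarith)
    set η := min (v / 2) (δ / 2) with hη
    have hη0 : 0 < η := lt_min (by linarith) (by linarith)
    have hηv : 0 < v - η := by have := min_le_left (v / 2) (δ / 2); linarith
    have hv'1 : v - η < 1 := by linarith
    have hqs : q v - ε / 3 < q (v - η) := by
      have h1 : dist (v - η) v < δ := by
        rw [Real.dist_eq, show v - η - v = -η by ring, abs_neg, abs_of_pos hη0]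
        have := min_le_right (v / 2) (δ / 2); linarith
      have h2 := hδ h1
      rw [Real.dist_eq] at h2
      linarith [(abs_lt.1 h2).1]
    have hz1 : ∀ᶠ k in U, q v - 2 * ε / 3 < z k (v - η) :=
      (tendsto_order.1 (hz _ hηv hv'1)).1 _ (by linarith)
    have hns := p6_ag_ns h.nosep (fun _ => 1) a' (q v - 2 * ε / 3) (v - η) v 1 ha0 (by linarith) hηv (by linarith)
      (Eventually.of_forall fun _ => by linarith) hO
    refine p6_ag_false (U := U) ?_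
    filter_upwards [hns, hz1, hcon, hws _ hηv, h.r_mono, h.z_mono] with k h1 h2 h3 h4 h5 h6
    refine h1.1 fun u hu1 hu2 => ?_
    rw [mul_one] at hu1 hu2
    have hu3 : u ≤ 1 := hu2.trans hv1.le
    have hwu : w k ≤ u := h4.trans hu1
    have hr := h5 ⟨hwu, hu3⟩ ⟨hwu.trans hu2, hv1.le⟩ hu2
    have hzz := h6 ⟨h4, hv'1.le⟩ ⟨hwu, hu3⟩ hu1
    rw [mul_one, mul_one]
    rw [not_lt] at h3
    exact ⟨hr.trans (h3.trans (le_max_left _ _)), h2.le.trans hzz⟩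
  · by_contra hcon
    rw [← Ultrafilter.eventually_not] at hcon
    have hqv := hq0 v ⟨hv0, hv1⟩
    set ε := b - q v with hε
    have hε0 : 0 < ε := by linarith
    obtain ⟨δ, hδ0, hδ⟩ := hcont (ε / 3) (by linarith)
    set η := min ((1 - v) / 2) (δ / 2) with hη
    have hη0 : 0 < η := lt_min (by linarith) (by linarith)
    have hηv : v + η < 1 := by have := min_le_left ((1 - v) / 2) (δ / 2); linarith
    have hv'0 : 0 < v + η := by linarith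
    have hqs : q (v + η) < q v + ε / 3 := by
      have h1 : dist (v + η) v < δ := by
        rw [Real.dist_eq, show v + η - v = η by ring, abs_of_pos hη0]
        have := min_le_right ((1 - v) / 2) (δ / 2); linarith
      have h2 := hδ h1
      rw [Real.dist_eq] at h2
      linarith [(abs_lt.1 h2).2]
    have hz1 : ∀ᶠ k in U, z k (v + η) < q v + 2 * ε / 3 :=
      (tendsto_order.1 (hz _ hv'0 hηv)).2 _ (by linarith)
    have hns := p6_ag_ns h.nosep (fun _ => 1) (q v + 2 * ε / 3) b v (v + η) 1 (by linarith) (by linarith) hv0 (by linarith)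
      (Eventually.of_forall fun _ => by linarith) hO
    refine p6_ag_false (U := U) ?_
    filter_upwards [hns, hz1, hcon, hws _ hv0, h.r_mono, h.z_mono, h.r_rng] with k h1 h2 h3 h4 h5 h6 h7
    refine h1.2 fun u hu1 hu2 => ?_
    rw [mul_one] at hu1 hu2
    have hu3 : u ≤ 1 := hu2.trans hηv.le
    have hwu : w k ≤ u := h4.trans hu1
    have hr := h5 ⟨h4, hv1.le⟩ ⟨hwu, hu3⟩ hu1
    have hzz := h6 ⟨hwu, hu3⟩ ⟨hwu.trans hu2, hηv.le⟩ hu2
    rw [mul_one, mul_one, mul_one]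
    rw [not_lt] at h3
    exact ⟨hzz.trans h2.le, h3.trans hr, (h7 u ⟨hwu, hu3⟩).2⟩

/-- pointwise limits of monotone functions at a moving point: `f k (x k v)/x k → φ v` for all `v > 0`, `φ` continuous at `v∞ > 0`, `v k → v∞` ⇒ `f k (x k v k)/x k → φ v∞` -/
theorem bcp_moving {f : ℕ → ℝ → ℝ} {φ : ℝ → ℝ} {v : ℕ → ℝ} {vinf : ℝ} (hx : ∀ᶠ k in U, 0 < x k)
    (hx1 : ∀ c : ℝ, ∀ᶠ k in U, c * x k ≤ 1) (hf : ∀ᶠ k in U, MonotoneOn (f k) (Icc 0 1)) (hv0 : 0 < vinf)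
    (hv : Tendsto v U (𝓝 vinf)) (hφ : ContinuousAt φ vinf)
    (hlim : ∀ s : ℝ, 0 < s → Tendsto (fun k => f k (x k * s) / x k) U (𝓝 (φ s))) :
    Tendsto (fun k => f k (x k * v k) / x k) U (𝓝 (φ vinf)) := by
  rw [Metric.continuousAt_iff] at hφ
  refine tendsto_order.2 ⟨fun a ha => ?_, fun b hb => ?_⟩
  · set ε := φ vinf - a with hε
    have hε0 : 0 < ε := by linarith
    obtain ⟨δ, hδ0, hδ⟩ := hφ (ε / 3) (by linarith)
    set η := min (vinf / 2) (δ / 2) with hη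
    have hη0 : 0 < η := lt_min (by linarith) (by linarith)
    have hs0 : 0 < vinf - η := by have := min_le_left (vinf / 2) (δ / 2); linarith
    have hqs : φ vinf - ε / 3 < φ (vinf - η) := by
      have h1 : dist (vinf - η) vinf < δ := by
        rw [Real.dist_eq, show vinf - η - vinf = -η by ring, abs_neg, abs_of_pos hη0]
        have := min_le_right (vinf / 2) (δ / 2); linarith
      have h2 := hδ h1
      rw [Real.dist_eq] at h2
      linarith [(abs_lt.1 h2).1]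
    have h1 : ∀ᶠ k in U, a < f k (x k * (vinf - η)) / x k := (tendsto_order.1 (hlim _ hs0)).1 _ (by linarith)
    have h2 : ∀ᶠ k in U, vinf - η < v k := (tendsto_order.1 hv).1 _ (by linarith)
    have h3 : ∀ᶠ k in U, v k < vinf + 1 := (tendsto_order.1 hv).2 _ (by linarith)
    filter_upwards [h1, h2, h3, hx, hx1 (vinf + 1), hf] with k a1 a2 a3 a4 a5 a6
    have e1 : x k * (vinf - η) ≤ x k * v k := mul_le_mul_of_nonneg_left a2.le a4.le
    have e2 : x k * v k ≤ 1 := by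
      have := mul_le_mul_of_nonneg_left a3.le a4.le
      rw [mul_comm] at a5
      linarith
    have e0 : 0 ≤ x k * (vinf - η) := mul_nonneg a4.le hs0.le
    have e3 := a6 ⟨e0, e1.trans e2⟩ ⟨e0.trans e1, e2⟩ e1
    exact a1.trans_le (div_le_div_of_nonneg_right e3 a4.le)
  · set ε := b - φ vinf with hε
    have hε0 : 0 < ε := by linarith
    obtain ⟨δ, hδ0, hδ⟩ := hφ (ε / 3) (by linarith)
    set η := δ / 2 with hη
    have hη0 : 0 < η := by linarith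
    have hs0 : 0 < vinf + η := by linarith
    have hqs : φ (vinf + η) < φ vinf + ε / 3 := by
      have h1 : dist (vinf + η) vinf < δ := by
        rw [Real.dist_eq, show vinf + η - vinf = η by ring, abs_of_pos hη0]
        linarith
      have h2 := hδ h1
      rw [Real.dist_eq] at h2
      linarith [(abs_lt.1 h2).2]
    have h1 : ∀ᶠ k in U, f k (x k * (vinf + η)) / x k < b := (tendsto_order.1 (hlim _ hs0)).2 _ (by linarith)
    have h2 : ∀ᶠ k in U, v k < vinf + η := (tendsto_order.1 hv).2 _ (by linarith)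
    have h3 : ∀ᶠ k in U, 0 < v k := (tendsto_order.1 hv).1 _ hv0
    filter_upwards [h1, h2, h3, hx, hx1 (vinf + η), hf] with k a1 a2 a3 a4 a5 a6
    have e1 : x k * v k ≤ x k * (vinf + η) := mul_le_mul_of_nonneg_left a2.le a4.le
    have e2 : x k * (vinf + η) ≤ 1 := by
      rw [mul_comm] at a5
      exact a5
    have e0 : 0 ≤ x k * v k := mul_nonneg a4.le a3.le
    have e3 := a6 ⟨e0, e1.trans e2⟩ ⟨e0.trans e1, e2⟩ e1
    exact (div_le_div_of_nonneg_right e3 a4.le).trans_lt a1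

end bracket

/-! ## C. Weak sequences; the supplies of helper129 and helper186 -/

section seqs

variable (X : BdFix) (W : BdWorld) (Fam : BdFr → Prop)

/-- a sequence of instances with outer regularity above `2w` and WEAK removal `C(w) = o(w²)`, sizes tending to infinity along `U` -/
structure BcpWk (cL CL : ℝ) (U : Ultrafilter ℕ) (i : ℕ → Bd7I X) : Prop where
  out : ∀ᶠ k in U, (i k).Out W Fam cL CL
  N_top : Tendsto (fun k => (i k).F.N) (U : Filter ℕ) atTop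
  weak : ∀ ε : ℝ, 0 < ε → ∀ᶠ k in U, (i k).F.C X (i k).w ≤ ε * (i k).w ^ 2

/-- [SUPPLY, owner helper129]  **l.889-900 = PE Lemma 6.2 for the LL parent**: the children form a PE sequence ((3), (4) with the common base `T_m`, bounded monotone bare clocks), an ordinary family,
with a fixed positive all-mass matrix margin `β0` and clock bound `κ0` for every changed child path.      TEX[LL:bud:modified-closure]#889-900 -/
structure BcpChild (c : P6C) (c0 β0 κ0 cL CL : ℝ) : Prop where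
  seq : ∀ (U : Ultrafilter ℕ) (i : ℕ → Bd7I X), BcpWk X W Fam cL CL U i → P6Seq U c (fun k => (i k).chd c0)
  ord : ∀ (U : Ultrafilter ℕ) (i : ℕ → Bd7I X), BcpWk X W Fam cL CL U i → ∀ᶠ k in U, ((i k).chd c0).Ord
  marg : ∀ (U : Ultrafilter ℕ) (i : ℕ → Bd7I X), BcpWk X W Fam cL CL U i →
    ∀ᶠ k in U, ∀ l s, 0 < l → l ≤ ((i k).chd c0).P.d ^ 2 → ((i k).chd c0).P.Fe s →
      P6Marg (((i k).chd c0).Pb l s) 0 β0 ∧ P6Bd (((i k).chd c0).Pb l s) (((i k).chd c0).Ph l s) κ0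

/-- [SUPPLY, owner helper186]  **l.902-960: no fixed threshold separation** between the optimiser and a successful child, on mass intervals below `Y = min(1, m^{2δ} w)`.      TEX[LL:bud:modified-closure]#902-960 -/
def BcpNoSep (c0 cL CL : ℝ) : Prop :=
  ∀ (U : Ultrafilter ℕ) (i : ℕ → Bd7I X) (z : ℕ → ℝ → ℝ), BcpWk X W Fam cL CL U i →
    P6Succ (bcpFn W) U (fun k => (i k).chd c0) z →
    BcpNS U (fun k => (i k).Q.r) z (fun k => (i k).w) (fun k => (i k).Ysep)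

end seqs

/-- [IMPORT, owner helper14 / helper207]  PE Sec. 6 for the pressure of the world -/
structure BcpPE (W : BdWorld) (c : P6C) (cκ Cκ cT CT : ℝ) : Prop where
  imp : P6Imports (bcpFn W) c cκ Cκ cT CT
  ext : P6Exit (bcpFn W) c (p6Lo Cκ cT) (p6Hi cκ CT)

/-- the constants of Steps 1 and 3: the loose constants lie outside the PE constants -/
structure BcpK (X : BdFix) (c : P6C) (c0 β0 κ0 cκ Cκ cT CT cL CL : ℝ) : Prop where
  hX : X.Ok
  ok : c.Ok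
  m_eq : c.m = X.mPE
  T_eq : c.Tinf = X.T
  c0_pos : 0 < c0
  β0_pos : 0 < β0
  K_le : κ0 + 1 ≤ c.K
  cL_pos : 0 < cL
  cL_le : cL ≤ p6Lo Cκ cT
  CL_ge : p6Hi cκ CT ≤ CL

theorem bcp_obj_congr {fn fn' : ℕ → (ℝ → ℝ) → (ℝ → ℝ) → ℝ} (hf : ∀ n b h, 0 < n → P6Adm b h → fn n b h = fn' n b h)
    {D : P6D} (hn : 0 < D.P.n) {lam : ℝ} (hfam : D.Fam lam) {r : ℝ → ℝ} (hr : D.P.Fe r) : D.obj fn lam r = D.obj fn' lam r := by
  unfold P6D.obj
  rw [hf _ _ _ hn (hfam r hr)]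

theorem bcp_isMin_congr {fn fn' : ℕ → (ℝ → ℝ) → (ℝ → ℝ) → ℝ} (hf : ∀ n b h, 0 < n → P6Adm b h → fn n b h = fn' n b h)
    {D : P6D} (hn : 0 < D.P.n) {lam : ℝ} (hfam : D.Fam lam) {r : ℝ → ℝ} (hr : D.IsMin fn lam r) : D.IsMin fn' lam r := by
  refine ⟨hr.1, fun r' hr' => ?_⟩
  rw [← bcp_obj_congr hf hn hfam hr.1, ← bcp_obj_congr hf hn hfam hr']
  exact hr.2 r' hr'

/-- sizes are positive along a PE sequence -/
theorem bcp_seq_n_pos {U : Ultrafilter ℕ} {c : P6C} {D : ℕ → P6D} (h : P6Seq U c D) : ∀ᶠ k in U, 0 < (D k).P.n :=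
  h.ok.mono fun _ hk => lt_of_lt_of_le (by norm_num) hk.n3

/-- the imports of PE Sec. 6 only see the pressure on admissible paths, at POSITIVE sizes (the size `0` of `skWorld` is a dummy: remark of helper1) -/
theorem bcp_imports_congr {fn fn' : ℕ → (ℝ → ℝ) → (ℝ → ℝ) → ℝ} (hf : ∀ n b h, 0 < n → P6Adm b h → fn n b h = fn' n b h)
    {c : P6C} {cκ Cκ cT CT : ℝ} (h : P6Imports fn c cκ Cκ cT CT) : P6Imports fn' c cκ Cκ cT CT := by
  have hf' : ∀ n b h, 0 < n → P6Adm b h → fn' n b h = fn n b h := fun n b h hn hh => (hf n b h hn hh).symm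
  refine ⟨?_, ?_, ?_, ?_, ?_, h.κ_rng, h.T_rng⟩
  · intro n b hh b' h' a cc hn h1 h2 h3 h4 h5
    rw [← hf n b' h' hn h2, ← hf n b hh hn h1]
    exact h.chord n b hh b' h' a cc hn h1 h2 h3 h4 h5
  · intro U D hD
    filter_upwards [h.exMin U D hD, bcp_seq_n_pos hD] with k hk hn lam h1 h2 h3
    obtain ⟨r, hr⟩ := hk lam h1 h2 h3
    exact ⟨r, bcp_isMin_congr hf hn h3 hr⟩
  · intro U D c1 C1 h1 h2 hD hO hreg
    have key := h.sweep U D c1 C1 h1 h2 hD hO (by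
      filter_upwards [hreg, hO, bcp_seq_n_pos hD] with k a1 a2 hn lam r b1 b2 b3
      have h0 : 0 ≤ lam := (Real.rpow_nonneg (by unfold CmCall.N; positivity) _).trans b1
      exact a1 lam r b1 b2 (bcp_isMin_congr hf hn (a2.2 lam h0 b2) b3))
    filter_upwards [key, hO, bcp_seq_n_pos hD] with k a1 a2 hn lam r b1 b2 b3
    have hfam := a2.2 lam b1 b2
    have e : (D k).err fn' lam r = (D k).err fn lam r := by
      unfold P6D.err
      rw [bcp_obj_congr hf' hn hfam b3.1, hf' _ _ _ hn a2.1]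
    rw [e]
    exact a1 lam r b1 b2 (bcp_isMin_congr hf' hn hfam b3)
  · intro U D lam x r c1 C1 C0 h1 h2 h3 hD h4 h5 h6
    refine h.direct U D lam x r c1 C1 C0 h1 h2 h3 hD h4 h5 ?_
    filter_upwards [h5, h6, bcp_seq_n_pos hD] with k a1 a2 hn
    exact bcp_isMin_congr hf' hn a1 a2
  · intro U D lam x r c1 h1 hD h4 h5 h6
    refine h.macr U D lam x r c1 h1 hD h4 h5 ?_
    filter_upwards [h5, h6, bcp_seq_n_pos hD] with k a1 a2 hn
    exact bcp_isMin_congr hf' hn a1 a2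

/-! ## D. End of Step 1 -/

section step1

variable {X : BdFix} {W : BdWorld} {Fam : BdFr → Prop} {c : P6C} {c0 β0 κ0 cκ Cκ cT CT cL CL : ℝ}
  {U : Ultrafilter ℕ} {i : ℕ → Bd7I X}

theorem bcp_Lam_nonneg (F : BdFr) : 0 ≤ F.Lam := by
  unfold BdFr.Lam
  rcases le_or_gt 0 F.lam with h | h
  · exact Real.rpow_nonneg h _
  · rw [Real.rpow_def_of_neg h]
    refine mul_nonneg (Real.exp_pos _).le (Real.cos_nonneg_of_mem_Icc ⟨?_, ?_⟩)
    · nlinarith [Real.pi_pos]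
    · nlinarith [Real.pi_pos]

theorem bcp_C_nonneg (F : BdFr) (X : BdFix) (r : ℝ) : 0 ≤ F.C X r :=
  cm_e_nonneg _ (mul_nonneg (sq_nonneg _) (bcp_Lam_nonneg F)) r

/-- `0 ≤ E'` and `√m E' ≤ d'²` -/
theorem bcp_chd_E (j : Bd7I X) (hm : 0 < j.F.m) (hw : 0 ≤ j.w) :
    0 ≤ (j.chd c0).P.E ∧ Real.sqrt (j.F.m : ℝ) * (j.chd c0).P.E ≤ (c0 * j.w) ^ 2 := by
  have hN : (0 : ℝ) < j.F.m := by exact_mod_cast hm
  have eE : (j.chd c0).P.E = min ((j.F.m : ℝ) ^ (-(1 / 2 : ℝ)) * (c0 * j.w) ^ 2)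
      ((j.F.m : ℝ) ^ (-(100 * (X.mPE / 10000))) * j.F.C X j.w * j.w ^ 3) := rfl
  constructor
  · rw [eE]
    refine le_min (mul_nonneg (Real.rpow_nonneg hN.le _) (sq_nonneg _)) ?_
    exact mul_nonneg (mul_nonneg (Real.rpow_nonneg hN.le _) (bcp_C_nonneg _ _ _)) (pow_nonneg hw 3)
  · have h1 : (j.chd c0).P.E ≤ (j.F.m : ℝ) ^ (-(1 / 2 : ℝ)) * (c0 * j.w) ^ 2 := by rw [eE]; exact min_le_left _ _
    have h2 : Real.sqrt (j.F.m : ℝ) * (j.F.m : ℝ) ^ (-(1 / 2 : ℝ)) = 1 := by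
      rw [Real.sqrt_eq_rpow, ← Real.rpow_add hN]
      norm_num
    calc Real.sqrt (j.F.m : ℝ) * (j.chd c0).P.E
        ≤ Real.sqrt (j.F.m : ℝ) * ((j.F.m : ℝ) ^ (-(1 / 2 : ℝ)) * (c0 * j.w) ^ 2) :=
          mul_le_mul_of_nonneg_left h1 (Real.sqrt_nonneg _)
      _ = (c0 * j.w) ^ 2 := by rw [← mul_assoc, h2, one_mul]

/-- fixed size numerics of the child call: `a' ≤ c0 w`, `m E'² ≤ c0⁴ w⁴`, `𝒟(w) = c0² f(1/c0) w²`, `A' = m^δ a' ≤ m^δ c0 w` -/
theorem bcp_chd_num (j : Bd7I X) (hc0 : 0 < c0) (hw : 0 < j.w) (hm : 0 < j.F.m) :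
    (j.chd c0).P.a ≤ c0 * j.w ∧ (j.chd c0).P.N * (j.chd c0).P.E ^ 2 ≤ c0 ^ 4 * j.w ^ 4 ∧
    (j.chd c0).P.e ((j.chd c0).P.d ^ 2) j.w = c0 ^ 2 * cmF (1 / c0) * j.w ^ 2 ∧
    (j.chd c0).P.Al ((j.chd c0).P.d ^ 2) ≤ (j.F.m : ℝ) ^ (X.mPE / 10000) * (c0 * j.w) := by
  obtain ⟨hE0, hsE⟩ := bcp_chd_E (c0 := c0) j hm hw.le
  have hd : 0 < c0 * j.w := mul_pos hc0 hw
  have eN : (j.chd c0).P.N = (j.F.m : ℝ) := rfl
  have ed : (j.chd c0).P.d = c0 * j.w := rfl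
  have edl : (j.chd c0).P.dl = X.mPE / 10000 := rfl
  have hs0 : 0 ≤ Real.sqrt (j.F.m : ℝ) := Real.sqrt_nonneg _
  have ha : (j.chd c0).P.a ≤ c0 * j.w := by
    unfold CmCall.a
    rw [eN, ed, div_le_iff₀ hd]
    calc Real.sqrt (j.F.m : ℝ) * (j.chd c0).P.E ≤ (c0 * j.w) ^ 2 := hsE
      _ = c0 * j.w * (c0 * j.w) := by ring
  refine ⟨ha, ?_, ?_, ?_⟩
  · rw [eN]
    have h1 : (j.F.m : ℝ) * (j.chd c0).P.E ^ 2 = (Real.sqrt (j.F.m : ℝ) * (j.chd c0).P.E) ^ 2 := by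
      rw [mul_pow, Real.sq_sqrt (Nat.cast_nonneg _)]
    rw [h1]
    calc (Real.sqrt (j.F.m : ℝ) * (j.chd c0).P.E) ^ 2 ≤ ((c0 * j.w) ^ 2) ^ 2 :=
          pow_le_pow_left₀ (mul_nonneg hs0 hE0) hsE 2
      _ = c0 ^ 4 * j.w ^ 4 := by ring
  · unfold CmCall.e
    rw [ed]
    have h1 : (c0 * j.w) ^ 2 * j.w / (c0 * j.w) ^ 3 = 1 / c0 := by
      field_simp
    rw [h1]
    ring
  · unfold CmCall.Al
    rw [eN, ed, edl, Real.sqrt_sq hd.le, mul_assoc, mul_div_assoc]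
    refine mul_le_mul_of_nonneg_left ?_ (Real.rpow_nonneg (Nat.cast_nonneg _) _)
    exact ha

/-- `0 < w ≤ 1`, `0 < m`, the frame is ok: eventually -/
theorem bcp_wk_basic (hK : BcpK X c c0 β0 κ0 cκ Cκ cT CT cL CL) (h : BcpWk X W Fam cL CL U i) :
    ∀ᶠ k in U, 0 < (i k).w ∧ (i k).w ≤ 1 ∧ 0 < (i k).F.m ∧ (i k).F.Ok X := by
  filter_upwards [h.out] with k hk
  refine ⟨lt_of_lt_of_le (BdFr.wc_pos' hK.hX hk.ok) hk.w_lo, hk.w_hi, ?_, hk.ok⟩
  have h1 := hk.ok.m_lo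
  have h2 : (0 : ℝ) < (i k).F.N := by
    have := hk.ok.N2
    exact_mod_cast (by omega : 0 < (i k).F.N)
  have h3 : (0 : ℝ) < (i k).F.m := by linarith
  exact_mod_cast h3

/-- **finite propagation for the child** (l.893: "its final error is at most `m^{20δ} E'`"): `P6ImpMin` at the final strength + `P6Exit.error` -/
theorem bcp_succ (hK : BcpK X c c0 β0 κ0 cκ Cκ cT CT cL CL) (hP : BcpPE W c cκ Cκ cT CT)
    (hC : BcpChild X W Fam c c0 β0 κ0 cL CL) (h : BcpWk X W Fam cL CL U i) :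
    ∃ z : ℕ → ℝ → ℝ, P6Succ (bcpFn W) U (fun k => (i k).chd c0) z := by
  classical
  have hseq := hC.seq U i h
  have hord := hC.ord U i h
  have hmarg := hC.marg U i h
  have hmin := hP.imp.exMin U _ hseq
  have herr := hP.ext.error U β0 κ0 _ (fun _ => 0) hK.β0_pos hK.K_le hseq hord
    (Eventually.of_forall fun k => ⟨le_rfl, le_rfl⟩) hmarg
  have hex : ∀ᶠ k in U, ∃ r, ((i k).chd c0).IsMin (bcpFn W) (((i k).chd c0).P.d ^ 2) r := by
    filter_upwards [hmin, hord] with k h1 h2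
    exact h1 _ (sq_nonneg _) le_rfl (h2.2 _ (sq_nonneg _) le_rfl)
  refine ⟨fun k => if hk : ∃ r, ((i k).chd c0).IsMin (bcpFn W) (((i k).chd c0).P.d ^ 2) r then hk.choose else 0, ?_, ?_⟩
  · filter_upwards [hex] with k hk
    simp only [dif_pos hk]
    exact hk.choose_spec
  · filter_upwards [hex, herr] with k hk h2
    simp only [dif_pos hk]
    exact (h2 _ _ (sq_nonneg _) le_rfl hk.choose_spec).2

/-- a successful child is monotone with values in `[0,1]` -/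
theorem bcp_z_basic (hK : BcpK X c c0 β0 κ0 cκ Cκ cT CT cL CL) (hC : BcpChild X W Fam c c0 β0 κ0 cL CL)
    (h : BcpWk X W Fam cL CL U i) {z : ℕ → ℝ → ℝ} (hz : P6Succ (bcpFn W) U (fun k => (i k).chd c0) z) :
    ∀ᶠ k in U, MonotoneOn (z k) (Icc 0 1) ∧ ∀ u ∈ Icc (0 : ℝ) 1, 0 ≤ z k u ∧ z k u ≤ 1 := by
  filter_upwards [hz.min, (hC.seq U i h).ok] with k h1 h2
  have hfw := p6_fw_of_fe hK.ok.cE_pos h2 h1.1
  exact ⟨hfw.mono hK.ok.cE_pos h2, fun u hu => hfw.mem hK.ok.cE_pos h2 hu⟩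

/-- the bracketing setting for the optimiser and a successful child -/
theorem bcp_ag (hK : BcpK X c c0 β0 κ0 cκ Cκ cT CT cL CL) (hC : BcpChild X W Fam c c0 β0 κ0 cL CL)
    (hN : BcpNoSep X W Fam c0 cL CL) (h : BcpWk X W Fam cL CL U i) {z : ℕ → ℝ → ℝ}
    (hz : P6Succ (bcpFn W) U (fun k => (i k).chd c0) z) :
    BcpAg U (fun k => (i k).Q.r) z (fun k => (i k).w) (fun k => (i k).Ysep) where
  x_rng := (bcp_wk_basic hK h).mono fun k hk => ⟨hk.1, hk.2.1⟩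
  Y_le := Eventually.of_forall fun k => min_le_left _ _
  r_mono := (bcp_wk_basic hK h).mono fun k hk => bd7_q_r_mono (i k).Q hk.2.2.2
  z_mono := (bcp_z_basic hK hC h hz).mono fun k hk => hk.1
  r_rng := Eventually.of_forall fun k u hu => (i k).Q.r_mem u hu
  z_rng := (bcp_z_basic hK hC h hz).mono fun k hk => hk.2
  nosep := hN U i z h hz

/-- `m^δ → ∞` -/
theorem bcp_mdl_top (hK : BcpK X c c0 β0 κ0 cκ Cκ cT CT cL CL) (h : BcpWk X W Fam cL CL U i) (C : ℝ) :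
    ∀ᶠ k in U, C ≤ ((i k).F.m : ℝ) ^ (X.mPE / 10000) := by
  have h1 : Tendsto (fun k => (((i k).F.N : ℕ) : ℝ) / 2) U atTop :=
    (tendsto_natCast_atTop_atTop.comp h.N_top).atTop_div_const (by norm_num)
  have h2 : Tendsto (fun k => ((i k).F.m : ℝ)) U atTop :=
    tendsto_atTop_mono' _ (h.out.mono fun k hk => hk.ok.m_lo) h1
  have hδ : 0 < X.mPE / 10000 := div_pos hK.hX.mPE_pos (by norm_num)
  exact ((tendsto_rpow_atTop hδ).comp h2).eventually_ge_atTop C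

/-- the final strength of the child is positive -/
theorem bcp_chd_d (hK : BcpK X c c0 β0 κ0 cκ Cκ cT CT cL CL) (h : BcpWk X W Fam cL CL U i) :
    ∀ᶠ k in U, 0 < ((i k).chd c0).P.d ^ 2 ∧ ((i k).chd c0).P.d ^ 2 ≤ ((i k).chd c0).P.d ^ 2 := by
  filter_upwards [bcp_wk_basic hK h] with k hk
  have : 0 < c0 * (i k).w := mul_pos hK.c0_pos hk.1
  exact ⟨pow_pos this 2, le_rfl⟩

/-- finite propagation for the final minimiser of the child -/
theorem bcp_chd_prof (hK : BcpK X c c0 β0 κ0 cκ Cκ cT CT cL CL) (hP : BcpPE W c cκ Cκ cT CT)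
    (hC : BcpChild X W Fam c c0 β0 κ0 cL CL) (h : BcpWk X W Fam cL CL U i) {z : ℕ → ℝ → ℝ}
    (hz : P6Succ (bcpFn W) U (fun k => (i k).chd c0) z) :
    ∀ᶠ k in U, ∀ u, ((i k).F.m : ℝ) ^ (X.mPE / 10000) * (c0 * (i k).w) ≤ u → u ≤ 1 →
      p6Lo Cκ cT * u ≤ z k u ∧ z k u ≤ p6Hi cκ CT * u := by
  have hd : ∀ᶠ k in U, 0 < ((i k).chd c0).P.d ^ 2 := by
    filter_upwards [bcp_wk_basic hK h] with k hk
    have : 0 < c0 * (i k).w := mul_pos hK.c0_pos hk.1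
    exact pow_pos this 2
  have hprof := hP.ext.profile U β0 κ0 (fun k => (i k).chd c0) (fun k => ((i k).chd c0).P.d ^ 2) z (fun _ => 0)
    hK.β0_pos hK.K_le (hC.seq U i h) (hd.mono fun k hk => ⟨hk, le_rfl⟩)
    ((hC.ord U i h).mono fun k hk => hk.2 _ (sq_nonneg _) le_rfl) hz.min
    (Eventually.of_forall fun k => ⟨le_rfl, le_rfl⟩)
    (by filter_upwards [hC.marg U i h, hd, hz.min] with k h1 h2 h3 using (h1 _ _ h2 le_rfl h3.1).1)
    (by filter_upwards [hC.marg U i h, hd, hz.min] with k h1 h2 h3 using (h1 _ _ h2 le_rfl h3.1).2)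
  filter_upwards [hprof, bcp_wk_basic hK h] with k h1 h2 u hu1 hu2
  exact h1 u ((bcp_chd_num (i k) hK.c0_pos h2.1 h2.2.2.1).2.2.2.trans hu1) hu2

/-- the child is comparable above `m^δ d'` by finite propagation (`P6Exit.profile`), hence above `Y/2` (if `Y = 1`: `z ≤ 1 ≤ 2u`) -/
theorem bcp_chd_far (hK : BcpK X c c0 β0 κ0 cκ Cκ cT CT cL CL) (hP : BcpPE W c cκ Cκ cT CT)
    (hC : BcpChild X W Fam c c0 β0 κ0 cL CL) (h : BcpWk X W Fam cL CL U i) {z : ℕ → ℝ → ℝ}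
    (hz : P6Succ (bcpFn W) U (fun k => (i k).chd c0) z) :
    (∀ᶠ k in U, ∀ u, (i k).Ysep / 2 < u → u ≤ 1 → z k u ≤ p6Hi cκ CT * u) ∧
    (∀ᶠ k in U, ∀ u, (i k).Ysep < u → u ≤ 1 → p6Lo Cκ cT * u ≤ z k u) := by
  have key : ∀ᶠ k in U, ((i k).F.m : ℝ) ^ (X.mPE / 10000) * (c0 * (i k).w) ≤
      ((i k).F.m : ℝ) ^ (2 * (X.mPE / 10000)) * (i k).w / 2 := by
    filter_upwards [bcp_mdl_top hK h (2 * c0), bcp_wk_basic hK h] with k h1 h2
    have hm : (0 : ℝ) < (i k).F.m := by exact_mod_cast h2.2.2.1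
    rw [two_mul, Real.rpow_add hm]
    have h3 : 0 < ((i k).F.m : ℝ) ^ (X.mPE / 10000) := Real.rpow_pos_of_pos hm _
    have h4 : 0 < ((i k).F.m : ℝ) ^ (X.mPE / 10000) * (i k).w := mul_pos h3 h2.1
    nlinarith
  constructor
  · filter_upwards [key, bcp_chd_prof hK hP hC h hz, bcp_z_basic hK hC h hz, bcp_wk_basic hK h] with k h1 h2 h3 h4 u hu1 hu2
    have hu0 : 0 < u := by
      have : 0 < (i k).Ysep := by
        have hm : (0 : ℝ) < (i k).F.m := by exact_mod_cast h4.2.2.1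
        exact lt_min one_pos (mul_pos (Real.rpow_pos_of_pos hm _) h4.1)
      linarith
    rcases le_total 1 (((i k).F.m : ℝ) ^ (2 * (X.mPE / 10000)) * (i k).w) with h5 | h5
    · have h6 : (i k).Ysep = 1 := min_eq_left h5
      rw [h6] at hu1
      have h7 := (h3.2 u ⟨hu0.le, hu2⟩).2
      have h8 : (3 : ℝ) ≤ p6Hi cκ CT := le_max_left _ _
      nlinarith
    · have h6 : (i k).Ysep = ((i k).F.m : ℝ) ^ (2 * (X.mPE / 10000)) * (i k).w := min_eq_right h5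
      rw [h6] at hu1
      exact (h2 u (h1.trans hu1.le) hu2).2
  · filter_upwards [key, bcp_chd_prof hK hP hC h hz, bcp_wk_basic hK h] with k h1 h2 h4 u hu1 hu2
    have hm : (0 : ℝ) < (i k).F.m := by exact_mod_cast h4.2.2.1
    have h5 : ((i k).F.m : ℝ) ^ (2 * (X.mPE / 10000)) * (i k).w < u := by
      by_contra h5
      rw [not_lt] at h5
      have : u ≤ (i k).Ysep := le_min hu2 h5
      linarith
    have h6 : 0 < ((i k).F.m : ℝ) ^ (2 * (X.mPE / 10000)) * (i k).w := mul_pos (Real.rpow_pos_of_pos hm _) h4.1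
    exact (h2 u (by linarith) hu2).1

/-- the outer regularity of the optimiser in the PE form -/
theorem bcp_out_reg (h : BcpWk X W Fam cL CL U i) : ∀ᶠ k in U, P6Reg 0 (i k).Q.r cL CL 2 (i k).w :=
  h.out.mono fun _ hk u h1 h2 _ => hk.reg u h1 h2

theorem bcp_CL_ge (hK : BcpK X c c0 β0 κ0 cκ Cκ cT CT cL CL) : 3 ≤ CL := le_trans (le_max_left _ _) hK.CL_ge

/-- **l.966-968**: the child has a regular outer region above `w` -/
theorem bcp_chd_reg (hK : BcpK X c c0 β0 κ0 cκ Cκ cT CT cL CL) (hP : BcpPE W c cκ Cκ cT CT)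
    (hC : BcpChild X W Fam c c0 β0 κ0 cL CL) (hN : BcpNoSep X W Fam c0 cL CL) (h : BcpWk X W Fam cL CL U i)
    {z : ℕ → ℝ → ℝ} (hz : P6Succ (bcpFn W) U (fun k => (i k).chd c0) z) :
    ∀ᶠ k in U, P6Reg 0 (z k) (cL / 4) (4 * CL) 4 ((i k).w) := by
  have h3 := bcp_CL_ge hK
  have hf := bcp_chd_far hK hP hC h hz
  have := bcp_reg (bcp_ag hK hC hN h hz) hK.cL_pos (by linarith) (by norm_num : (1 : ℝ) ≤ 2) (bcp_out_reg h) hf.1 hf.2
  rw [min_eq_left (by linarith [hK.cL_pos, hK.cL_le]), max_eq_left (by linarith [hK.CL_ge])] at this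
  norm_num at this
  exact this

/-- **l.969-971**: the direct-test hypotheses of the child at `w`: `a' ≲ w`, `m E'² ≲ 𝒟(w) w²`, `w² ≲ 𝒟(w)` -/
theorem bcp_chd_direct_num (hK : BcpK X c c0 β0 κ0 cκ Cκ cT CT cL CL) (h : BcpWk X W Fam cL CL U i) :
    (fun k => ((i k).chd c0).P.a) =O[U] (fun k => (i k).w) ∧
    (fun k => ((i k).chd c0).P.N * ((i k).chd c0).P.E ^ 2) =O[U]
      (fun k => ((i k).chd c0).P.e (((i k).chd c0).P.d ^ 2) (i k).w * (i k).w ^ 2) ∧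
    (fun k => (i k).w ^ 2) =O[U] (fun k => ((i k).chd c0).P.e (((i k).chd c0).P.d ^ 2) (i k).w) := by
  have hb := bcp_wk_basic hK h
  have hc0 := hK.c0_pos
  have hf : 0 < cmF (1 / c0) := cm_f_pos _
  refine ⟨?_, ?_, ?_⟩
  · refine IsBigO.of_bound c0 ?_
    filter_upwards [hb] with k hk
    have num := bcp_chd_num (c0 := c0) (i k) hc0 hk.1 hk.2.2.1
    have hE := bcp_chd_E (c0 := c0) (i k) hk.2.2.1 hk.1.le
    have ha0 : 0 ≤ ((i k).chd c0).P.a := by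
      unfold CmCall.a
      exact div_nonneg (mul_nonneg (Real.sqrt_nonneg _) hE.1) (mul_pos hc0 hk.1).le
    rw [Real.norm_of_nonneg ha0, Real.norm_of_nonneg hk.1.le]
    exact num.1
  · refine IsBigO.of_bound (c0 ^ 2 / cmF (1 / c0)) ?_
    filter_upwards [hb] with k hk
    have num := bcp_chd_num (c0 := c0) (i k) hc0 hk.1 hk.2.2.1
    have hN0 : 0 ≤ ((i k).chd c0).P.N := by
      show (0 : ℝ) ≤ ((i k).F.m : ℝ)
      positivity
    rw [num.2.2.1, Real.norm_of_nonneg (mul_nonneg hN0 (sq_nonneg _)), Real.norm_of_nonneg (by positivity)]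
    refine num.2.1.trans (le_of_eq ?_)
    field_simp
  · refine IsBigO.of_bound (1 / (c0 ^ 2 * cmF (1 / c0))) ?_
    filter_upwards [hb] with k hk
    have num := bcp_chd_num (c0 := c0) (i k) hc0 hk.1 hk.2.2.1
    rw [num.2.2.1, Real.norm_of_nonneg (sq_nonneg _), Real.norm_of_nonneg (by positivity)]
    refine le_of_eq ?_
    field_simp

/-- `Y/w → ∞` -/
theorem bcp_Ysep_big (hK : BcpK X c c0 β0 κ0 cκ Cκ cT CT cL CL) (h : BcpWk X W Fam cL CL U i)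
    (hw : Tendsto (fun k => (i k).w) U (𝓝 0)) (C : ℝ) : ∀ᶠ k in U, C * (i k).w ≤ (i k).Ysep := by
  have hb := bcp_wk_basic hK h
  have hN : Tendsto (fun k => ((i k).F.N : ℝ) / 2) U atTop :=
    (tendsto_natCast_atTop_atTop.comp h.N_top).atTop_div_const (by norm_num)
  have hm : Tendsto (fun k => ((i k).F.m : ℝ)) U atTop := by
    refine tendsto_atTop_mono' _ ?_ hN
    filter_upwards [hb] with k hk
    exact hk.2.2.2.m_lo
  have hδ : 0 < 2 * (X.mPE / 10000) := by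
    have := hK.hX.mPE_pos
    positivity
  have hp : Tendsto (fun k => ((i k).F.m : ℝ) ^ (2 * (X.mPE / 10000))) U atTop := (tendsto_rpow_atTop hδ).comp hm
  have h1 : ∀ᶠ k in U, C * (i k).w < 1 := by
    have : Tendsto (fun k => C * (i k).w) U (𝓝 (C * 0)) := hw.const_mul C
    rw [mul_zero] at this
    exact (tendsto_order.1 this).2 _ one_pos
  filter_upwards [hb, h1, hp.eventually_ge_atTop C] with k a1 a2 a3
  unfold Bd7I.Ysep
  exact le_min a2.le (mul_le_mul_of_nonneg_right a3 a1.1.le)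

/-- case `w → 0` (l.966-980): PE Thm 5.1 for the child + transfer at `v = 1`: `r(w)/w → 1/κ ∈ [1/Cκ, 1/cκ] ⊂ (cL, CL)` -/
theorem bcp_weak_small (hK : BcpK X c c0 β0 κ0 cκ Cκ cT CT cL CL) (hP : BcpPE W c cκ Cκ cT CT)
    (hC : BcpChild X W Fam c c0 β0 κ0 cL CL) (hN : BcpNoSep X W Fam c0 cL CL) (h : BcpWk X W Fam cL CL U i)
    (hw : Tendsto (fun k => (i k).w) U (𝓝 0)) : ∀ᶠ k in U, (i k).Good cL CL := by
  obtain ⟨z, hz⟩ := bcp_succ hK hP hC h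
  have h3 := bcp_CL_ge hK
  have hnum := bcp_chd_direct_num (c0 := c0) hK h
  obtain ⟨κ, hκ1, hκ2, hlim⟩ := hP.imp.direct U (fun k => (i k).chd c0) (fun k => ((i k).chd c0).P.d ^ 2) (fun k => (i k).w) z
    (cL / 4) (4 * CL) 4 (by linarith [hK.cL_pos]) (by linarith) (by norm_num) (hC.seq U i h) (bcp_chd_d hK h)
    ((hC.ord U i h).mono fun k hk => hk.2 _ (sq_nonneg _) le_rfl) hz.min ((bcp_wk_basic hK h).mono fun k hk => hk.1) hw
    hnum.1 hnum.2.1 hnum.2.2 (bcp_chd_reg hK hP hC hN h hz)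
  have hcκ := hP.imp.κ_rng.1
  have hκ : 0 < κ := lt_of_lt_of_le hcκ hκ1
  have hCκ : 0 < Cκ := lt_of_lt_of_le hκ hκ2
  have htr := bcp_transfer (bcp_ag hK hC hN h hz) hw (bcp_Ysep_big hK h hw) (by linarith : 0 < CL) (by norm_num : (0 : ℝ) < 2)
    (bcp_out_reg h) hκ hlim 1 one_pos
  have hlo : cL < 1 / κ := by
    have h1 : cL ≤ 1 / (2 * Cκ) := hK.cL_le.trans ((min_le_right _ _).trans (min_le_right _ _))
    have h2 : 1 / (2 * Cκ) < 1 / Cκ := one_div_lt_one_div_of_lt hCκ (by linarith)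
    have h4 : 1 / Cκ ≤ 1 / κ := one_div_le_one_div_of_le hκ hκ2
    linarith
  have hhi : 1 / κ < CL := by
    have h1 : 2 / cκ ≤ CL := le_trans ((le_max_right _ _).trans (le_max_right _ _)) hK.CL_ge
    have h2 : 1 / κ ≤ 1 / cκ := one_div_le_one_div_of_le hcκ hκ1
    have h4 : 1 / cκ < 2 / cκ := div_lt_div_of_pos_right (by norm_num) hcκ
    linarith
  filter_upwards [(tendsto_order.1 htr).1 _ hlo, (tendsto_order.1 htr).2 _ hhi, bcp_wk_basic hK h] with k h1 h2 h4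
  rw [mul_one] at h1 h2
  rw [lt_div_iff₀ h4.1] at h1
  rw [div_lt_iff₀ h4.1] at h2
  exact ⟨h1.le, h2.le⟩

/-- case `w ≥ c1 > 0` (l.980-982, "near mass one use `r ≤ 1` as well"): PE Prop. 5.9 for the child + `p6_ag_macro` + bracketing `r(0.9 w∞) ≤ r(w) ≤ r(1.1 w∞)` -/
theorem bcp_weak_macro (hK : BcpK X c c0 β0 κ0 cκ Cκ cT CT cL CL) (hP : BcpPE W c cκ Cκ cT CT)
    (hC : BcpChild X W Fam c c0 β0 κ0 cL CL) (hN : BcpNoSep X W Fam c0 cL CL) (h : BcpWk X W Fam cL CL U i)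
    {c1 : ℝ} (hc1 : 0 < c1) (hw : ∀ᶠ k in U, c1 ≤ (i k).w) : ∀ᶠ k in U, (i k).Good cL CL := by
  obtain ⟨z, hz⟩ := bcp_succ hK hP hC h
  have h3 := bcp_CL_ge hK
  have hb := bcp_wk_basic hK h
  -- `Y = 1` eventually
  have hY : ∀ᶠ k in U, (i k).Ysep = 1 := by
    filter_upwards [bcp_mdl_top hK h (max 1 (1 / c1)), hb, hw] with k h1 h2 h4
    have hm : (0 : ℝ) < (i k).F.m := by exact_mod_cast h2.2.2.1
    refine min_eq_left ?_
    rw [two_mul, Real.rpow_add hm]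
    have h5 : 1 ≤ ((i k).F.m : ℝ) ^ (X.mPE / 10000) := (le_max_left _ _).trans h1
    have h6 : 1 / c1 ≤ ((i k).F.m : ℝ) ^ (X.mPE / 10000) := (le_max_right _ _).trans h1
    have h7 : 1 ≤ ((i k).F.m : ℝ) ^ (X.mPE / 10000) * c1 := by
      rw [div_le_iff₀ hc1] at h6
      exact h6
    have h8 : ((i k).F.m : ℝ) ^ (X.mPE / 10000) * c1 ≤ ((i k).F.m : ℝ) ^ (X.mPE / 10000) * (i k).w :=
      mul_le_mul_of_nonneg_left h4 (by linarith)
    nlinarith
  have hAg := bcp_ag_p6 (bcp_ag hK hC hN h hz) hY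
  have hf0 : 0 < c0 ^ 2 * cmF (1 / c0) := mul_pos (pow_pos hK.c0_pos 2) (cm_f_pos _)
  obtain ⟨q, hq, hlim⟩ := hP.imp.macr U (fun k => (i k).chd c0) (fun k => ((i k).chd c0).P.d ^ 2) (fun k => (i k).w) z
    (min c1 (c0 ^ 2 * cmF (1 / c0))) (lt_min hc1 hf0) (hC.seq U i h) (bcp_chd_d hK h)
    ((hC.ord U i h).mono fun k hk => hk.2 _ (sq_nonneg _) le_rfl) hz.min
    (by filter_upwards [hw, hb] with k h1 h2 using ⟨(min_le_left _ _).trans h1, h2.2.1⟩)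
    (by
      filter_upwards [hb] with k h2
      rw [(bcp_chd_num (i k) hK.c0_pos h2.1 h2.2.2.1).2.2.1]
      exact mul_le_mul_of_nonneg_right (min_le_right _ _) (sq_nonneg _))
  have hcT := hP.imp.T_rng.1
  have hCT : 0 < CT := lt_of_lt_of_le hcT hP.imp.T_rng.2
  obtain ⟨q', hq', hlim'⟩ := p6_ag_macro hAg hcT hq hlim
  obtain ⟨w0, hw0, hwl⟩ := aq_ultra_lim_Icc U (f := fun k => (i k).w) (a := c1) (b := 1)
    (by filter_upwards [hw, hb] with k h1 h2 using ⟨h1, h2.2.1⟩)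
  have hw0p : 0 < w0 := lt_of_lt_of_le hc1 hw0.1
  have hwlo : ∀ᶠ k in U, 2 / 3 * w0 < (i k).w := (tendsto_order.1 hwl).1 _ (by linarith)
  have hwhi : ∀ᶠ k in U, (i k).w < 3 / 2 * w0 := (tendsto_order.1 hwl).2 _ (by linarith)
  have hmono : ∀ᶠ k in U, MonotoneOn (i k).Q.r (Icc 0 1) := hb.mono fun k hk => bd7_q_r_mono (i k).Q hk.2.2.2
  -- lower bound
  have hlow : ∀ᶠ k in U, cL * (i k).w ≤ (i k).Q.r (i k).w := by
    have hv1 : 2 / 3 * w0 < 1 := by linarith [hw0.2]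
    have hv0 : 0 < 2 / 3 * w0 := by linarith
    have h5 := hq' _ hv0 hv1
    have h6 : cT * (1 / 2 * w0) < q' (2 / 3 * w0) := by nlinarith
    have hcL3 : cL ≤ cT / 3 := hK.cL_le.trans ((min_le_right _ _).trans (min_le_left _ _))
    filter_upwards [(tendsto_order.1 (hlim' _ hv0 hv1)).1 _ h6, hwlo, hwhi, hmono, hb] with k h7 h8 h9 h10 h11
    have h12 := h10 ⟨hv0.le, hv1.le⟩ ⟨h11.1.le, h11.2.1⟩ h8.le
    have h13 : cL * (i k).w ≤ cT / 3 * (i k).w := mul_le_mul_of_nonneg_right hcL3 h11.1.le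
    nlinarith
  -- upper bound
  have hupp : ∀ᶠ k in U, (i k).Q.r (i k).w ≤ CL * (i k).w := by
    rcases le_or_gt w0 (1 / 2) with h4 | h4
    · have hv1 : 3 / 2 * w0 < 1 := by linarith
      have hv0 : 0 < 3 / 2 * w0 := by linarith
      have h5 := hq' _ hv0 hv1
      have h6 : q' (3 / 2 * w0) < CT * (2 * w0) := by nlinarith
      have hCL3 : 3 * CT ≤ CL := le_trans ((le_max_left _ _).trans (le_max_right _ _)) hK.CL_ge
      filter_upwards [(tendsto_order.1 (hlim' _ hv0 hv1)).2 _ h6, hwlo, hwhi, hmono, hb] with k h7 h8 h9 h10 h11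
      have h12 := h10 ⟨h11.1.le, h11.2.1⟩ ⟨hv0.le, hv1.le⟩ h9.le
      have h13 : 3 * CT * (i k).w ≤ CL * (i k).w := mul_le_mul_of_nonneg_right hCL3 h11.1.le
      nlinarith
    · filter_upwards [hwlo, hb] with k h8 h11
      have h12 := ((i k).Q.r_mem (i k).w ⟨h11.1.le, h11.2.1⟩).2
      nlinarith
  exact hlow.and hupp

/-- along every weak sequence the tested scale is eventually good -/
theorem bcp_weak_seq (hK : BcpK X c c0 β0 κ0 cκ Cκ cT CT cL CL) (hP : BcpPE W c cκ Cκ cT CT)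
    (hC : BcpChild X W Fam c c0 β0 κ0 cL CL) (hN : BcpNoSep X W Fam c0 cL CL) (h : BcpWk X W Fam cL CL U i) :
    ∀ᶠ k in U, (i k).Good cL CL := by
  rcases aq_ultra_zero_or_pos U (fun k => (i k).w) with h0 | ⟨c1, hc1, h1⟩
  · exact bcp_weak_small hK hP hC hN h h0
  · refine bcp_weak_macro hK hP hC hN h hc1 ?_
    filter_upwards [h1, bcp_wk_basic hK h] with k hk hb
    rwa [abs_of_pos hb.1] at hk

/-- **EXIT: Step 1** (weak removal violations are impossible).      TEX[LL:bud:modified-closure]#960-985 -/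
theorem bcp_weak (hK : BcpK X c c0 β0 κ0 cκ Cκ cT CT cL CL) (hP : BcpPE W c cκ Cκ cT CT)
    (hC : BcpChild X W Fam c c0 β0 κ0 cL CL) (hN : BcpNoSep X W Fam c0 cL CL) : Bd7Weak X W Fam cL CL := by
  by_contra hcon
  have hc : ∀ n : ℕ, ∃ j : Bd7I X, j.Out W Fam cL CL ∧ n ≤ j.F.N ∧ j.F.C X j.w ≤ (1 / ((n : ℝ) + 1)) * j.w ^ 2 ∧
      ¬ j.Good cL CL := by
    intro n
    by_contra hc
    exact hcon ⟨1 / ((n : ℝ) + 1), by positivity, n, fun j h1 h2 h3 => by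
      by_contra h4
      exact hc ⟨j, h1, h2, h3, h4⟩⟩
  choose i h1 h2 h3 h4 using hc
  let U : Ultrafilter ℕ := Filter.hyperfilter ℕ
  have hU : (U : Filter ℕ) ≤ atTop := Nat.hyperfilter_le_atTop
  have hwk : BcpWk X W Fam cL CL U i :=
    { out := Eventually.of_forall h1
      N_top := Tendsto.mono_left (tendsto_atTop_mono h2 tendsto_id) hU
      weak := by
        intro ε hε
        have h5 : ∀ᶠ n : ℕ in atTop, 1 / ((n : ℝ) + 1) ≤ ε := by
          have := (tendsto_one_div_add_atTop_nhds_zero_nat (𝕜 := ℝ)).eventually (ge_mem_nhds hε)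
          exact this
        filter_upwards [hU h5] with n hn
        exact (h3 n).trans (mul_le_mul_of_nonneg_right hn (sq_nonneg _)) }
  obtain ⟨k, hk⟩ := (bcp_weak_seq hK hP hC hN hwk).exists
  exact h4 k hk

end step1

/-! ## E. The slope of a PE direct test with vanishing `d`  (PE level; l.1110-1141) -/

section imports3

variable (W : BdWorld) (Sc : Bd7Sc) (c : P6C)

/-- [IMPORT, owner helper98 / helper24]  **PE Thm 5.1 with the explicit slope (29)**: hypotheses of `P6ImpDirect`; if `T³ a4(K)² → A`, `2 T² a2(K)³ → B` for the scalar clocks `K = h + b S` of the changed paths, then `r(x v)/x → (B/A) v`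
(`rg_main` gives exactly this).      TEX[PE:prof:direct-profile] -/
def BcpDirK : Prop :=
  ∀ (U : Ultrafilter ℕ) (D : ℕ → P6D) (lam x : ℕ → ℝ) (r : ℕ → ℝ → ℝ) (c1 C1 C0 A B : ℝ), 0 < c1 → 0 < C1 → 0 < C0 → P6Seq U c D →
    (∀ᶠ k in U, 0 < lam k ∧ lam k ≤ (D k).P.d ^ 2) → (∀ᶠ k in U, (D k).Fam (lam k)) →
    (∀ᶠ k in U, (D k).IsMin (bcpFn W) (lam k) (r k)) →
    (∀ᶠ k in U, 0 < x k) → Tendsto x U (𝓝 0) →
    (fun k => (D k).P.a) =O[U] x →
    (fun k => (D k).P.N * (D k).P.E ^ 2) =O[U] (fun k => (D k).P.e (lam k) (x k) * x k ^ 2) →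
    (fun k => x k ^ 2) =O[U] (fun k => (D k).P.e (lam k) (x k)) →
    (∀ᶠ k in U, P6Reg (D k).P.u0 (r k) c1 C1 C0 (x k)) →
    Tendsto (fun k => (D k).T ^ 3 * Sc.a4 ((D k).Kc W (lam k) (r k)) ^ 2) U (𝓝 A) →
    Tendsto (fun k => 2 * (D k).T ^ 2 * Sc.a2 ((D k).Kc W (lam k) (r k)) ^ 3) U (𝓝 B) →
    ∀ v : ℝ, 0 < v → Tendsto (fun k => r k (x k * v) / x k) U (𝓝 (B / A * v))

/-- [IMPORT, owner helper155 / helper67]  **PE Prop. 5.9 with the explicit limit**: hypotheses of `P6ImpMacro`, the limit is THE Parisi quantile `qT` at `T = c.Tinf` (this is what the proof of `mac_p6_macro` shows).      TEX[PE:prof:macro-profile] -/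
def BcpMacQ (qT : ℝ → ℝ) : Prop :=
  ∀ (U : Ultrafilter ℕ) (D : ℕ → P6D) (lam x : ℕ → ℝ) (r : ℕ → ℝ → ℝ) (c1 : ℝ), 0 < c1 → P6Seq U c D →
    (∀ᶠ k in U, 0 < lam k ∧ lam k ≤ (D k).P.d ^ 2) → (∀ᶠ k in U, (D k).Fam (lam k)) →
    (∀ᶠ k in U, (D k).IsMin (bcpFn W) (lam k) (r k)) →
    (∀ᶠ k in U, c1 ≤ x k ∧ x k ≤ 1) → (∀ᶠ k in U, c1 * x k ^ 2 ≤ (D k).P.e (lam k) (x k)) →
    ∀ v : ℝ, 0 < v → v < 1 → Tendsto (fun k => r k v) U (𝓝 (qT v))

/-- [IMPORT, owner PE Sec. 3: helper295 / helper294]  **PE (18) + Lemma 3.3 on macroscopic bands** (l.1110-1117): at a minimiser which is regular above `x → 0`, if the bracket `R18` of (18) is power small on `[κ,1]`, then `S - r → 0` in `L¹_loc(0,1)`.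
Proof: off the floor `(S - r)² ≲ n^{o(1)} (D² + ℓ²)` ((9), (10)), `ℓ ≲ n^{-δ} L log n`, floor mass `≤ n^{-δ} u_*`, `∫_{[v/2,2v]} D² ≲ n^{2ε} v R18(v)²`.      TEX[PE:comp:direct-moments] TEX[PE:comp:geometry] -/
def BcpS18 : Prop :=
  ∀ (U : Ultrafilter ℕ) (D : ℕ → P6D) (lam x : ℕ → ℝ) (r : ℕ → ℝ → ℝ) (c1 C1 C0 : ℝ), 0 < c1 → 0 < C1 → 0 < C0 → P6Seq U c D →
    (∀ᶠ k in U, 0 < lam k ∧ lam k ≤ (D k).P.d ^ 2) → (∀ᶠ k in U, (D k).Fam (lam k)) →
    (∀ᶠ k in U, (D k).IsMin (bcpFn W) (lam k) (r k)) →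
    (∀ᶠ k in U, 0 < x k) → Tendsto x U (𝓝 0) →
    (fun k => (D k).P.a) =O[U] x →
    (fun k => (D k).P.N * (D k).P.E ^ 2) =O[U] (fun k => (D k).P.e (lam k) (x k) * x k ^ 2) →
    (∀ᶠ k in U, P6Reg (D k).P.u0 (r k) c1 C1 C0 (x k)) →
    (∀ κ : ℝ, 0 < κ → ∃ s : ℝ, 0 < s ∧ ∀ᶠ k in U, ∀ v, κ ≤ v → v ≤ 1 → (D k).P.R18 (lam k) v ≤ (D k).P.N ^ (-s)) →
    ∀ κ : ℝ, 0 < κ → κ < 1 / 2 →
      Tendsto (fun k => ∫ v in κ..(1 - κ), |(W.ps (D k).P.n).S ((D k).Pb (lam k) (r k)) ((D k).Ph (lam k) (r k)) v - r k v|) U (𝓝 0)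

/-- [IMPORT, owner BOX-C: helper183 / helper100]  **bounded-clock stability** (l.1134-1137, "as at (G3)"): `a2 = V_zz(0,0)`, `a4 = V_zzzz(0,0)` are continuous for the `L¹(0,1)` convergence of clocks bounded by `Kmax` -/
def BcpStab (Kmax : ℝ) : Prop :=
  ∀ (U : Ultrafilter ℕ) (K : ℕ → ℝ → ℝ) (K0 : ℝ → ℝ), (∀ᶠ k in U, IsClock 1 (K k) ∧ ∀ v ∈ Ioo (0 : ℝ) 1, K k v ≤ Kmax) →
    IsClock 1 K0 → (∀ v ∈ Ioo (0 : ℝ) 1, K0 v ≤ Kmax) →
    Tendsto (fun k => ∫ v in (0 : ℝ)..1, |K k v - K0 v|) U (𝓝 0) →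
    Tendsto (fun k => Sc.a2 (K k)) U (𝓝 (Sc.a2 K0)) ∧ Tendsto (fun k => Sc.a4 (K k)) U (𝓝 (Sc.a4 K0))

end imports3

/-- what is used of the Parisi quantile (`MacPar` of `Exit/Par.lean`) -/
structure BcpQT (qT : ℝ → ℝ) : Prop where
  mono : MonotoneOn qT (Icc 0 1)
  mem : ∀ v ∈ Icc (0 : ℝ) 1, qT v ∈ Icc (0 : ℝ) 1
  cont : ContinuousOn qT (Ioo 0 1)

/-- **a PE direct test at the final strength of an ordinary all-mass family with margins and `d → 0`** -/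
structure BcpDir (fn : ℕ → (ℝ → ℝ) → (ℝ → ℝ) → ℝ) (U : Ultrafilter ℕ) (c : P6C) (D : ℕ → P6D) (x : ℕ → ℝ) (z : ℕ → ℝ → ℝ)
    (c1 C1 C0 β0 κ0 : ℝ) : Prop where
  c1_pos : 0 < c1
  C1_pos : 0 < C1
  C0_pos : 0 < C0
  seq : P6Seq U c D
  ord : ∀ᶠ k in U, (D k).Ord
  u0 : ∀ᶠ k in U, (D k).P.u0 = 0
  marg : ∀ᶠ k in U, ∀ l s, 0 < l → l ≤ (D k).P.d ^ 2 → (D k).P.Fe s →
    P6Marg ((D k).Pb l s) 0 β0 ∧ P6Bd ((D k).Pb l s) ((D k).Ph l s) κ0
  min : ∀ᶠ k in U, (D k).IsMin fn ((D k).P.d ^ 2) (z k)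
  d_lim : Tendsto (fun k => (D k).P.d) U (𝓝 0)
  /-- `A_λ = n^δ a ≤ 1` at the final strength (so that `x = 1` is a test scale of (8)) -/
  al1 : ∀ᶠ k in U, (D k).P.Al ((D k).P.d ^ 2) ≤ 1
  x_pos : ∀ᶠ k in U, 0 < x k
  x_lim : Tendsto x U (𝓝 0)
  ax : (fun k => (D k).P.a) =O[U] x
  nE : (fun k => (D k).P.N * (D k).P.E ^ 2) =O[U] (fun k => (D k).P.e ((D k).P.d ^ 2) (x k) * x k ^ 2)
  xe : (fun k => x k ^ 2) =O[U] (fun k => (D k).P.e ((D k).P.d ^ 2) (x k))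
  reg : ∀ᶠ k in U, P6Reg (D k).P.u0 (z k) c1 C1 C0 (x k)
  /-- the error estimates of l.1113-1117 -/
  r18 : ∀ κ : ℝ, 0 < κ → ∃ s : ℝ, 0 < s ∧ ∀ᶠ k in U, ∀ v, κ ≤ v → v ≤ 1 → (D k).P.R18 ((D k).P.d ^ 2) v ≤ (D k).P.N ^ (-s)

/-- all the imports of Step 3 at the PE level -/
structure BcpIn3 (W : BdWorld) (Sc : Bd7Sc) (k : Bd7ScC) (c : P6C) (cκ Cκ cT CT : ℝ) (qT : ℝ → ℝ) : Prop where
  a1 : ∀ m, (W.ps m).a = 1
  pe : BcpPE W c cκ Cκ cT CT
  dirK : BcpDirK W Sc c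
  macQ : BcpMacQ W c qT
  s18 : BcpS18 W c
  stab : BcpStab Sc k.Kmax
  sc : Sc.Ok W k
  qt : BcpQT qT
  Kmax : 2 * c.K ≤ k.Kmax ∧ c.Tinf ≤ k.Kmax

section slope

variable {W : BdWorld} {Sc : Bd7Sc} {k : Bd7ScC} {c : P6C} {cκ Cκ cT CT c1 C1 C0 β0 κ0 : ℝ} {qT : ℝ → ℝ}
  {U : Ultrafilter ℕ} {D : ℕ → P6D} {x : ℕ → ℝ} {z : ℕ → ℝ → ℝ}

/-- **K2 (l.1118-1132): `z → q_T` on `(0,1)`.**   The further PE minimiser = the PE child of `D` at `x = 1` (`P6D.child`, `d'' = c0''`, `E'' = min(m^{-1/2} d''², m^{-100δ} 𝒟(1))`): `P6Wk` holds for the parent `(D, d², z)` at `x = 1`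
(`𝒟(1) ≤ d² → 0`; outer regularity above `2·1` is void), so `p6_child_seq`, `p6_child_ord_ev`, `p6_child_marg`, `P6ImpMin`, `P6Exit.error` give a successful `zz`; `p6_nosep_up/dn` (`Pe6/NoSep.lean`) give `P6NoSep U z zz 1`;
`BcpMacQ` gives `zz → q_T`; `bcp_macro_cont` transfers.      PROOF FILE: `Bud/CpK.lean` (imports `Pe6/Contract`). -/
def BcpK2 (W : BdWorld) (c : P6C) (qT : ℝ → ℝ) : Prop :=
  ∀ (U : Ultrafilter ℕ) (D : ℕ → P6D) (x : ℕ → ℝ) (z : ℕ → ℝ → ℝ) (c1 C1 C0 β0 κ0 : ℝ), 0 < β0 → κ0 + 2 ≤ c.K →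
    BcpDir (bcpFn W) U c D x z c1 C1 C0 β0 κ0 → ∀ v : ℝ, 0 < v → v < 1 → Tendsto (fun k => z k v) U (𝓝 (qT v))

/-- the direct test, seen as a weak PE parent at the scale `1` -/
theorem bcp_k2_wk (hc : c.Ok) (hκ0 : κ0 ≤ c.K) (h : BcpDir (bcpFn W) U c D x z c1 C1 C0 β0 κ0) :
    P6Wk (bcpFn W) U c D (fun j => (D j).P.d ^ 2) (fun _ => 1) z 1 1 2 β0 (fun _ => 0) where
  seq := h.seq
  lam_rng := h.seq.ok.mono fun j hj => ⟨pow_pos hj.d0 2, le_rfl⟩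
  fam := h.ord.mono fun j hj => hj.2 _ (sq_nonneg _) le_rfl
  min := h.min
  x_rng := h.al1.mono fun j hj => ⟨hj, le_rfl⟩
  outer := Eventually.of_forall fun j u h1 h2 _ => by linarith
  weak := by
    refine aq_o_of_le fun ε hε => ?_
    have hd1 : ∀ᶠ j in U, (D j).P.d < min 1 ε := (tendsto_order.1 h.d_lim).2 _ (lt_min one_pos hε)
    filter_upwards [hd1, h.seq.ok] with j hd hok
    have hd0 := hok.d0
    have h1 : (D j).P.d < 1 := hd.trans_le (min_le_left _ _)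
    have h2 : (D j).P.d < ε := hd.trans_le (min_le_right _ _)
    rw [abs_of_nonneg (cm_e_nonneg (P := (D j).P) (sq_nonneg (D j).P.d) 1)]
    have := cm_e_le (P := (D j).P) (sq_nonneg (D j).P.d) 1
    nlinarith
  j0_rng := h.seq.ok.mono fun j hj => ⟨le_rfl, hj.u00⟩
  marg := by
    filter_upwards [h.marg, h.seq.ok, h.min] with j h1 h2 h3
    exact (h1 _ _ (pow_pos h2.d0 2) le_rfl h3.1).1
  clkP := by
    filter_upwards [h.marg, h.seq.ok, h.min] with j h1 h2 h3 u hu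
    have := (h1 _ _ (pow_pos h2.d0 2) le_rfl h3.1).2 u hu
    exact ⟨this.1.trans hκ0, this.2.trans hκ0⟩

/-- **K2 (l.1118-1132): `z → q_T` on `(0,1)`** -/
theorem bcp_k2 (hI : BcpIn3 W Sc k c cκ Cκ cT CT qT) (hc : c.Ok) : BcpK2 W c qT := by
  intro U D x z c1 C1 C0 β0 κ0 hβ0 hκ0 h
  obtain ⟨n0, c0, hn0, hc0, h1, h2, h3, h4⟩ := p6ch_consts hc hβ0
  have hdl : 0 < c.dl := by unfold P6C.dl; linarith [hc.m_pos]
  have hn1 : (1 : ℝ) ≤ n0 := by
    rcases Nat.eq_zero_or_pos n0 with h0 | h0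
    · rw [h0] at hn0; norm_num at hn0
    · exact_mod_cast h0
  have hc2 : 0 < c0 ^ 2 := pow_pos hc0 2
  have hc1 : 2 * c0 ^ 2 ≤ 1 := by nlinarith
  have hcβ : 2 * c0 ^ 2 ≤ β0 := by nlinarith
  have hk : P6K c 1 1 2 c0 β0 := ⟨hc, one_pos, le_rfl, le_rfl, by norm_num, hc0, h3, h4, by linarith⟩
  have hwk := bcp_k2_wk hc (by linarith : κ0 ≤ c.K) h
  have hww : Bd7WWk U c D (fun j => (D j).P.d ^ 2) (fun _ => 1) z 1 1 2 β0 κ0 (fun _ => 0) :=
    { (bd7wa_of_wk hc hwk) with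
      clkP := by
        filter_upwards [h.marg, h.seq.ok, h.min] with j h1 h2 h3
        exact (h1 _ _ (pow_pos h2.d0 2) le_rfl h3.1).2 }
  obtain ⟨zz, hzz⟩ := bd7wa_succ hI.pe.imp hk hww (by linarith) (by linarith)
  have hseq' := bd7wa_seq hk hww (by linarith : κ0 ≤ c.K)
  have hord' := bd7wa_ord hk hww
  -- no separation at the scale `1`
  have hns : P6NoSep U z zz (fun _ => 1) := by
    intro y G hG hy
    have hO : (fun _ : ℕ => (1 : ℝ)) =O[U] y := by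
      refine aq_O_of_le G ?_
      filter_upwards [hy] with j hj
      rw [abs_one]; exact hj.1
    have hy0 : ∀ᶠ j in U, 0 < y j := by
      filter_upwards [hy] with j hj
      by_contra hc
      rw [not_lt] at hc
      nlinarith [hj.1]
    refine ⟨fun θ1 θ2 c1 c2 a1 a2 a3 a4 a5 => ?_, fun θ1 θ2 c1 c2 Cr a1 a2 a3 a4 a5 => ?_⟩
    · rw [← Ultrafilter.eventually_not]
      exact p6_nosep_up hI.pe.imp.chord hk hwk hzz a1 a2 a3 a4 hO (hy0.and a5)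
    · rw [← Ultrafilter.eventually_not]
      exact p6_nosep_dn hI.pe.imp.chord hk hwk hzz a1 a2 a3 a4 hO (hy0.and a5)
  have hz1 : ∀ᶠ j in U, MonotoneOn (z j) (Icc 0 1) ∧ ∀ u ∈ Icc (0 : ℝ) 1, 0 ≤ z j u ∧ z j u ≤ 1 := by
    filter_upwards [h.seq.ok, h.u0, h.min] with j hok hu0 hmin
    have hfw := p6_fw_of_fe hc.cE_pos hok hmin.1
    constructor
    · have := hfw.mono hc.cE_pos hok
      rwa [hu0] at this
    · intro u hu
      have := hfw.mem hc.cE_pos hok (u := u) (by rw [hu0]; exact hu)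
      exact ⟨hok.r0.trans this.1, this.2⟩
  have hz2 := bd7wa_z hk hww hzz
  have hAg : P6Ag U z zz (fun _ => 1) (fun _ => 0) :=
    { x_rng := Eventually.of_forall fun _ => ⟨one_pos, le_rfl⟩
      w_small := fun ε hε => Eventually.of_forall fun _ => by linarith
      r_mono := hz1.mono fun _ hj => hj.1
      z_mono := hz2.mono fun _ hj => hj.1
      r_rng := hz1.mono fun _ hj => hj.2
      z_rng := hz2.mono fun _ hj => hj.2
      nosep := hns }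
  have hf0 : 0 < c0 ^ 2 * cmF (1 / c0) := mul_pos hc2 (cm_f_pos _)
  have hlim := hI.macQ U (p6Child c0 D (fun j => (D j).P.d ^ 2) (fun _ => 1) z (fun _ => 0))
    (fun j => (p6Child c0 D (fun j => (D j).P.d ^ 2) (fun _ => 1) z (fun _ => 0) j).P.d ^ 2) (fun _ => 1) zz
    (min 1 (c0 ^ 2 * cmF (1 / c0))) (lt_min one_pos hf0) hseq' (bd7wa_d_pos hk hww)
    (hord'.mono fun j hj => hj.2 _ (sq_nonneg _) le_rfl) hzz.min
    (Eventually.of_forall fun _ => ⟨min_le_left _ _, le_rfl⟩)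
    (by
      filter_upwards [hseq'.ok] with j hok
      rw [p6_e_final hok.d0]
      have e : (p6Child c0 D (fun j => (D j).P.d ^ 2) (fun _ => 1) z (fun _ => 0) j).P.d = c0 := mul_one c0
      rw [e]
      have := min_le_right 1 (c0 ^ 2 * cmF (1 / c0))
      linarith)
  exact bcp_macro_cont hAg hI.qt.cont (fun v hv => (hI.qt.mem v ⟨hv.1.le, hv.2.le⟩).1) hlim

/-- K4: the changed clocks converge uniformly on `[κ,1)`: `b0 - 𝒟(z) → T`, `h0 + 𝒟(z) z → 0`  (`P6Seq.ep4` at the scale `1`, `𝒟 ≤ d² → 0`, `T_k → Tinf`) -/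
theorem bcp_k_clk (hc : c.Ok) (h : BcpDir (bcpFn W) U c D x z c1 C1 C0 β0 κ0) {κ ε : ℝ} (hκ : 0 < κ) (hε : 0 < ε) :
    ∀ᶠ j in U, ∀ v, κ ≤ v → v < 1 →
      |(D j).Pb ((D j).P.d ^ 2) (z j) v - c.Tinf| ≤ ε ∧ |(D j).Ph ((D j).P.d ^ 2) (z j) v| ≤ ε := by
  have hd1 : ∀ᶠ j in U, (D j).P.d < min 1 (ε / 3) := (tendsto_order.1 h.d_lim).2 _ (lt_min one_pos (by positivity))
  have hT : ∀ᶠ j in U, |(D j).T - c.Tinf| < ε / 3 := by
    have := (tendsto_sub_nhds_zero_iff.2 h.seq.T_lim).abs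
    rw [abs_zero] at this
    exact (tendsto_order.1 this).2 _ (by positivity)
  filter_upwards [h.seq.ep4 (max 1 (1 / κ)) (ε / 3) (le_max_left _ _) (by positivity), hd1, hT, h.seq.ok, h.u0, h.min]
    with j h4 hd hT hok hu0 hmin v hv1 hv2
  have hκ' : (1 : ℝ) ≤ max 1 (1 / κ) := le_max_left _ _
  have hκ'0 : (0 : ℝ) < max 1 (1 / κ) := by linarith
  have hd0 := hok.d0
  have hdl : (D j).P.d < 1 := hd.trans_le (min_le_left _ _)
  have hde : (D j).P.d < ε / 3 := hd.trans_le (min_le_right _ _)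
  have hd2 : (D j).P.d ^ 2 ≤ ε / 3 := by nlinarith
  have ha : (D j).P.a / max 1 (1 / κ) ≤ 1 := by
    rw [div_le_iff₀ hκ'0]
    have := cm_a_le_d hc.cE_pos hok
    linarith
  have hv0 : 0 < v := hκ.trans_le hv1
  have h5 : 1 / max 1 (1 / κ) ≤ v := by
    rw [div_le_iff₀ hκ'0]
    have h6 : 1 / κ ≤ max 1 (1 / κ) := le_max_right _ _
    have h7 : 1 ≤ κ * max 1 (1 / κ) := by
      rw [div_le_iff₀ hκ] at h6
      linarith
    nlinarith
  have h6 := h4 1 v ha le_rfl (by rw [hu0]; exact hv0) hv2 h5 (by linarith)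
  have hfw := p6_fw_of_fe hc.cE_pos hok hmin.1
  have hz := hfw.mem hc.cE_pos hok (u := v) (by rw [hu0]; exact ⟨hv0.le, hv2.le⟩)
  have hz0 : 0 ≤ z j v := hok.r0.trans hz.1
  have he0 := cm_e_nonneg (P := (D j).P) (sq_nonneg (D j).P.d) (z j v)
  have he1 := cm_e_le (P := (D j).P) (sq_nonneg (D j).P.d) (z j v)
  have hu : (D j).P.u0 ≤ v := by rw [hu0]; exact hv0.le
  have h7 := abs_le.1 h6.1
  have h8 := abs_le.1 h6.2
  have h9 := abs_le.1 hT.le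
  have h10 : (D j).P.e ((D j).P.d ^ 2) (z j v) * z j v ≤ (D j).P.d ^ 2 := by nlinarith [hz.2]
  have h11 : 0 ≤ (D j).P.e ((D j).P.d ^ 2) (z j v) * z j v := mul_nonneg he0 hz0
  constructor
  · unfold P6D.Pb
    rw [if_pos hu, abs_le]
    constructor <;> nlinarith
  · unfold P6D.Ph
    rw [if_pos hu, abs_le]
    constructor <;> nlinarith

/-- an admissible bounded clock on `[0,1]` is a clock on `(0,1)` -/
theorem bcp_clk_of_adm {b : ℝ → ℝ} {κ : ℝ} (h : GhClk1 1 b) (hb : ∀ u ∈ Icc (0 : ℝ) 1, |b u| ≤ κ) : IsClock 1 b where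
  mono := h.1.mono Ioo_subset_Icc_self
  nonneg := fun v hv => h.2.trans (h.1 ⟨le_rfl, zero_le_one⟩ ⟨hv.1.le, hv.2.le⟩ hv.1.le)
  bdd := ⟨κ, fun v hv => (le_abs_self _).trans (hb v ⟨hv.1.le, hv.2.le⟩)⟩

/-- the facts at a fixed index which Section E uses -/
structure BcpDf (W : BdWorld) (c : P6C) (D : P6D) (z : ℝ → ℝ) (β0 κ0 : ℝ) : Prop where
  ok : D.P.Ok c.cE c.D0
  u0 : D.P.u0 = 0
  zM : MonotoneOn z (Icc 0 1)
  zR : ∀ u ∈ Icc (0 : ℝ) 1, 0 ≤ z u ∧ z u ≤ 1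
  bC : IsClock 1 (D.Pb (D.P.d ^ 2) z)
  hC : IsClock 1 (D.Ph (D.P.d ^ 2) z)
  bd : P6Bd (D.Pb (D.P.d ^ 2) z) (D.Ph (D.P.d ^ 2) z) κ0
  SM : MonotoneOn ((W.ps D.P.n).S (D.Pb (D.P.d ^ 2) z) (D.Ph (D.P.d ^ 2) z)) (Ioo 0 1)
  SR : ∀ v ∈ Ioo (0 : ℝ) 1, 0 ≤ (W.ps D.P.n).S (D.Pb (D.P.d ^ 2) z) (D.Ph (D.P.d ^ 2) z) v ∧
    (W.ps D.P.n).S (D.Pb (D.P.d ^ 2) z) (D.Ph (D.P.d ^ 2) z) v ≤ 1

theorem bcp_dir_df (hc : c.Ok) (ha1 : ∀ m, (W.ps m).a = 1) (h : BcpDir (bcpFn W) U c D x z c1 C1 C0 β0 κ0) :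
    ∀ᶠ j in U, BcpDf W c (D j) (z j) β0 κ0 := by
  filter_upwards [h.seq.ok, h.u0, h.ord, h.marg, h.min] with j hok hu0 hord hmarg hmin
  have hd : 0 < (D j).P.d ^ 2 := pow_pos hok.d0 2
  have hfw := p6_fw_of_fe hc.cE_pos hok hmin.1
  have hadm := hord.2 _ hd.le le_rfl _ hmin.1
  have hbd := (hmarg _ _ hd le_rfl hmin.1).2
  have hb : IsClock 1 ((D j).Pb ((D j).P.d ^ 2) (z j)) := bcp_clk_of_adm hadm.1 fun u hu => (hbd u hu).1
  have hh : IsClock 1 ((D j).Ph ((D j).P.d ^ 2) (z j)) := bcp_clk_of_adm hadm.2 fun u hu => (hbd u hu).2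
  have ha := ha1 (D j).P.n
  have hb' : IsClock (W.ps (D j).P.n).a ((D j).Pb ((D j).P.d ^ 2) (z j)) := by rw [ha]; exact hb
  have hh' : IsClock (W.ps (D j).P.n).a ((D j).Ph ((D j).P.d ^ 2) (z j)) := by rw [ha]; exact hh
  refine ⟨hok, hu0, ?_, ?_, hb, hh, hbd, ?_, ?_⟩
  · have := hfw.mono hc.cE_pos hok
    rwa [hu0] at this
  · intro u hu
    have := hfw.mem hc.cE_pos hok (u := u) (by rw [hu0]; exact hu)
    exact ⟨hok.r0.trans this.1, this.2⟩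
  · have := (W.ps (D j).P.n).S_mono _ _ hb' hh'
    rwa [ha] at this
  · intro v hv
    have hv' : v ∈ Ioo 0 (W.ps (D j).P.n).a := by rw [ha]; exact hv
    exact ⟨(W.ps (D j).P.n).S_nonneg _ _ hb' hh' v hv', (W.ps (D j).P.n).S_le_one hb' hh' hv'⟩

theorem BcpDf.kc_le {D : P6D} {z : ℝ → ℝ} (h : BcpDf W c D z β0 κ0) {v : ℝ} (hv : v ∈ Ioo (0 : ℝ) 1) :
    D.Kc W (D.P.d ^ 2) z v ≤ 2 * κ0 := by
  have h1 := h.bd v ⟨hv.1.le, hv.2.le⟩
  have h2 := h.SR v hv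
  have h3 := h.bC.nonneg v hv
  have h4 : D.Pb (D.P.d ^ 2) z v ≤ κ0 := (le_abs_self _).trans h1.1
  have h5 : D.Ph (D.P.d ^ 2) z v ≤ κ0 := (le_abs_self _).trans h1.2
  have h6 : D.Pb (D.P.d ^ 2) z v * (W.ps D.P.n).S (D.Pb (D.P.d ^ 2) z) (D.Ph (D.P.d ^ 2) z) v ≤ κ0 * 1 :=
    mul_le_mul h4 h2.2 h2.1 (h3.trans h4)
  unfold P6D.Kc
  linarith

theorem BcpDf.kc_clock {D : P6D} {z : ℝ → ℝ} (h : BcpDf W c D z β0 κ0) : IsClock 1 (D.Kc W (D.P.d ^ 2) z) where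
  mono := by
    intro v hv v' hv' hvv
    unfold P6D.Kc
    have h1 := h.hC.mono hv hv' hvv
    have h2 := mul_le_mul (h.bC.mono hv hv' hvv) (h.SM hv hv' hvv) (h.SR v hv).1 (h.bC.nonneg v' hv')
    linarith
  nonneg := by
    intro v hv
    unfold P6D.Kc
    have := mul_nonneg (h.bC.nonneg v hv) (h.SR v hv).1
    linarith [h.hC.nonneg v hv]
  bdd := ⟨2 * κ0, fun v hv => h.kc_le hv⟩

/-- the scalar clocks of the changed paths are clocks bounded by `Kmax` -/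
theorem bcp_k_isclock (hI : BcpIn3 W Sc k c cκ Cκ cT CT qT) (hc : c.Ok) (hκ0 : κ0 ≤ c.K) (h : BcpDir (bcpFn W) U c D x z c1 C1 C0 β0 κ0) :
    ∀ᶠ j in U, IsClock 1 ((D j).Kc W ((D j).P.d ^ 2) (z j)) ∧ ∀ v ∈ Ioo (0 : ℝ) 1, (D j).Kc W ((D j).P.d ^ 2) (z j) v ≤ k.Kmax := by
  filter_upwards [bcp_dir_df hc hI.a1 h] with j hj
  exact ⟨hj.kc_clock, fun v hv => (hj.kc_le hv).trans (by linarith [hI.Kmax.1])⟩

/-- the ends `(0,κ)`, `(1-κ,1)` cost `2κM` -/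
theorem bcp_L1_ends {f : ℝ → ℝ} {κ M : ℝ} (hκ0 : 0 < κ) (hκ : κ < 1 / 2) (hf : IntervalIntegrable f volume 0 1)
    (hM : ∀ v ∈ Ioo (0 : ℝ) 1, |f v| ≤ M) : ∫ v in (0 : ℝ)..1, |f v| ≤ 2 * κ * M + ∫ v in κ..(1 - κ), |f v| := by
  have hfa := hf.abs
  have i1 : IntervalIntegrable (fun v => |f v|) volume 0 κ :=
    hfa.mono_set (by rw [uIcc_of_le hκ0.le, uIcc_of_le zero_le_one]; exact Icc_subset_Icc le_rfl (by linarith))
  have i2 : IntervalIntegrable (fun v => |f v|) volume κ (1 - κ) :=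
    hfa.mono_set (by rw [uIcc_of_le (by linarith), uIcc_of_le zero_le_one]; exact Icc_subset_Icc hκ0.le (by linarith))
  have i3 : IntervalIntegrable (fun v => |f v|) volume (1 - κ) 1 :=
    hfa.mono_set (by rw [uIcc_of_le (by linarith), uIcc_of_le zero_le_one]; exact Icc_subset_Icc (by linarith) le_rfl)
  have e : ∫ v in (0 : ℝ)..1, |f v| = (∫ v in (0 : ℝ)..κ, |f v|) + (∫ v in κ..(1 - κ), |f v|) + ∫ v in (1 - κ)..1, |f v| := by
    rw [intervalIntegral.integral_add_adjacent_intervals i1 i2, intervalIntegral.integral_add_adjacent_intervals (i1.trans i2) i3]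
  have b1 : ∫ v in (0 : ℝ)..κ, |f v| ≤ M * κ := by
    have := intervalIntegral.norm_integral_le_of_norm_le_const (a := 0) (b := κ) (C := M) (f := fun v => |f v|) (by
      intro v hv
      rw [uIoc_of_le hκ0.le] at hv
      rw [Real.norm_eq_abs, abs_abs]
      exact hM v ⟨hv.1, by linarith [hv.2]⟩)
    rw [sub_zero, abs_of_pos hκ0] at this
    exact (le_abs_self _).trans this
  have b3 : ∫ v in (1 - κ)..1, |f v| ≤ M * κ := by
    have := intervalIntegral.norm_integral_le_of_norm_le_const_ae (a := 1 - κ) (b := 1) (C := M) (f := fun v => |f v|) (by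
      have h1 : ∀ᵐ v : ℝ, v ≠ 1 := by
        have : ({1}ᶜ : Set ℝ) ∈ ae volume := compl_mem_ae_iff.2 (measure_singleton 1)
        exact this
      filter_upwards [h1] with v hv1 hv
      rw [uIoc_of_le (by linarith)] at hv
      rw [Real.norm_eq_abs, abs_abs]
      exact hM v ⟨by linarith [hv.1], lt_of_le_of_ne hv.2 hv1⟩)
    rw [show (1 : ℝ) - (1 - κ) = κ by ring, abs_of_pos hκ0] at this
    exact (le_abs_self _).trans this
  rw [e]
  linarith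

/-- **K5 (l.1132-1133): `h_child + b_child S_child → T q_T` in macroscopic `L¹`**  (K2 + `tl_114_mono_L1`, K3 = `BcpS18`, K4; `|S|, |z|, q_T ≤ 1`, ends `(0,κ)`, `(1-κ,1)` cost `O(κ)`) -/
theorem bcp_k_clock (hI : BcpIn3 W Sc k c cκ Cκ cT CT qT) (hc : c.Ok) (hβ0 : 0 < β0) (hκ0 : κ0 + 2 ≤ c.K)
    (h : BcpDir (bcpFn W) U c D x z c1 C1 C0 β0 κ0) :
    Tendsto (fun j => ∫ v in (0 : ℝ)..1, |(D j).Kc W ((D j).P.d ^ 2) (z j) v - c.Tinf * qT v|) U (𝓝 0) := by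
  have hT : 0 < c.Tinf := lt_trans one_pos hc.T_gt
  have hdf := bcp_dir_df hc hI.a1 h
  have hk2 := bcp_k2 hI hc U D x z c1 C1 C0 β0 κ0 hβ0 hκ0 h
  have hlam : ∀ᶠ j in U, 0 < (D j).P.d ^ 2 ∧ (D j).P.d ^ 2 ≤ (D j).P.d ^ 2 := h.seq.ok.mono fun j hj => ⟨pow_pos hj.d0 2, le_rfl⟩
  have hfam : ∀ᶠ j in U, (D j).Fam ((D j).P.d ^ 2) := h.ord.mono fun j hj => hj.2 _ (sq_nonneg _) le_rfl
  have hs18 := hI.s18 U D (fun j => (D j).P.d ^ 2) x z c1 C1 C0 h.c1_pos h.C1_pos h.C0_pos h.seq hlam hfam h.min h.x_pos h.x_lim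
    h.ax h.nE h.reg h.r18
  refine tendsto_order.2 ⟨fun a ha => Eventually.of_forall fun j =>
    ha.trans_le (intervalIntegral.integral_nonneg zero_le_one fun v _ => abs_nonneg _), fun ε0 hε0 => ?_⟩
  set M : ℝ := 2 * κ0 + c.Tinf with hM
  set κ : ℝ := min (1 / 4) (ε0 / (8 * (|M| + 1))) with hκ
  have hκ0' : 0 < κ := lt_min (by norm_num) (by positivity)
  have hκ2 : κ < 1 / 2 := lt_of_le_of_lt (min_le_left _ _) (by norm_num)
  have hκM : 2 * κ * M ≤ ε0 / 4 := by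
    have h1 : κ ≤ ε0 / (8 * (|M| + 1)) := min_le_right _ _
    rw [le_div_iff₀ (by positivity)] at h1
    have h2 : M ≤ |M| := le_abs_self M
    nlinarith [abs_nonneg M]
  have hab : κ ≤ 1 - κ := by linarith
  have hsub : Icc κ (1 - κ) ⊆ Ioo (0 : ℝ) 1 := fun v hv => ⟨by linarith [hv.1], by linarith [hv.2]⟩
  have hzq := tl_114_mono_L1 (U : Filter ℕ) (f := z) (g := qT) hab
    (hdf.mono fun j hj => hj.zM.mono (hsub.trans Ioo_subset_Icc_self))
    (fun v hv => hk2 v (hsub hv).1 (hsub hv).2)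
  have e1 : ∀ᶠ j in U, ∫ v in κ..(1 - κ), |(W.ps (D j).P.n).S ((D j).Pb ((D j).P.d ^ 2) (z j)) ((D j).Ph ((D j).P.d ^ 2) (z j)) v - z j v|
      < ε0 / (8 * c.Tinf) := (tendsto_order.1 (hs18 κ hκ0' hκ2)).2 _ (by positivity)
  have e2 : ∀ᶠ j in U, ∫ v in κ..(1 - κ), |z j v - qT v| < ε0 / (8 * c.Tinf) := (tendsto_order.1 hzq).2 _ (by positivity)
  filter_upwards [hdf, e1, e2, bcp_k_clk hc h hκ0' (show 0 < ε0 / 8 by positivity)] with j hj a1 a2 a3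
  set S := (W.ps (D j).P.n).S ((D j).Pb ((D j).P.d ^ 2) (z j)) ((D j).Ph ((D j).P.d ^ 2) (z j)) with hS
  have hqM : MonotoneOn qT (Icc 0 1) := hI.qt.mono
  -- integrability
  have iK : IntervalIntegrable ((D j).Kc W ((D j).P.d ^ 2) (z j)) volume 0 1 :=
    (intervalIntegrable_iff_integrableOn_Ioo_of_le zero_le_one).2 hj.kc_clock.integrableOn
  have iq : IntervalIntegrable qT volume 0 1 := MonotoneOn.intervalIntegrable (by rw [uIcc_of_le zero_le_one]; exact hqM)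
  have iF : IntervalIntegrable (fun v => (D j).Kc W ((D j).P.d ^ 2) (z j) v - c.Tinf * qT v) volume 0 1 := iK.sub (iq.const_mul _)
  have hu : uIcc κ (1 - κ) = Icc κ (1 - κ) := uIcc_of_le hab
  have iS' : IntervalIntegrable S volume κ (1 - κ) := MonotoneOn.intervalIntegrable (by rw [hu]; exact hj.SM.mono hsub)
  have iz' : IntervalIntegrable (z j) volume κ (1 - κ) := MonotoneOn.intervalIntegrable (by rw [hu]; exact hj.zM.mono (hsub.trans Ioo_subset_Icc_self))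
  have iq' : IntervalIntegrable qT volume κ (1 - κ) := MonotoneOn.intervalIntegrable (by rw [hu]; exact hqM.mono (hsub.trans Ioo_subset_Icc_self))
  have iF' : IntervalIntegrable (fun v => |(D j).Kc W ((D j).P.d ^ 2) (z j) v - c.Tinf * qT v|) volume κ (1 - κ) :=
    iF.abs.mono_set (by rw [hu, uIcc_of_le zero_le_one]; exact hsub.trans Ioo_subset_Icc_self)
  have i1 : IntervalIntegrable (fun v => |S v - z j v|) volume κ (1 - κ) := (iS'.sub iz').abs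
  have i2 : IntervalIntegrable (fun v => |z j v - qT v|) volume κ (1 - κ) := (iz'.sub iq').abs
  -- the ends
  have hends := bcp_L1_ends (f := fun v => (D j).Kc W ((D j).P.d ^ 2) (z j) v - c.Tinf * qT v) (M := M) hκ0' hκ2 iF (by
    intro v hv
    have h1 := hj.kc_le hv
    have h2 := hj.kc_clock.nonneg v hv
    have h3 := hI.qt.mem v ⟨hv.1.le, hv.2.le⟩
    have h4 : 0 ≤ c.Tinf * qT v := mul_nonneg hT.le h3.1
    have h5 : c.Tinf * qT v ≤ c.Tinf := by nlinarith [h3.2]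
    rw [abs_le, hM]
    constructor <;> linarith)
  -- the middle
  have hmid : ∫ v in κ..(1 - κ), |(D j).Kc W ((D j).P.d ^ 2) (z j) v - c.Tinf * qT v| ≤
      ∫ v in κ..(1 - κ), (ε0 / 4 + c.Tinf * |S v - z j v| + c.Tinf * |z j v - qT v|) := by
    refine intervalIntegral.integral_mono_on hab iF' (((intervalIntegrable_const).add (i1.const_mul _)).add (i2.const_mul _)) ?_
    intro v hv
    have hv' := hsub hv
    have b1 := a3 v hv.1 hv'.2
    have b2 := hj.SR v hv'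
    have e : (D j).Kc W ((D j).P.d ^ 2) (z j) v - c.Tinf * qT v =
        (D j).Ph ((D j).P.d ^ 2) (z j) v + ((D j).Pb ((D j).P.d ^ 2) (z j) v - c.Tinf) * S v + c.Tinf * (S v - z j v)
          + c.Tinf * (z j v - qT v) := by
      unfold P6D.Kc
      rw [← hS]
      ring
    rw [e]
    have c1 : |((D j).Pb ((D j).P.d ^ 2) (z j) v - c.Tinf) * S v| ≤ ε0 / 8 := by
      rw [abs_mul, abs_of_nonneg b2.1]
      calc |(D j).Pb ((D j).P.d ^ 2) (z j) v - c.Tinf| * S v ≤ ε0 / 8 * 1 := mul_le_mul b1.1 b2.2 b2.1 (by positivity)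
        _ = ε0 / 8 := mul_one _
    have c2 : |c.Tinf * (S v - z j v)| = c.Tinf * |S v - z j v| := by rw [abs_mul, abs_of_pos hT]
    have c3 : |c.Tinf * (z j v - qT v)| = c.Tinf * |z j v - qT v| := by rw [abs_mul, abs_of_pos hT]
    calc _ ≤ |(D j).Ph ((D j).P.d ^ 2) (z j) v| + |((D j).Pb ((D j).P.d ^ 2) (z j) v - c.Tinf) * S v| + |c.Tinf * (S v - z j v)|
          + |c.Tinf * (z j v - qT v)| := (abs_add_le _ _).trans (add_le_add_left (abs_add_three _ _ _) _)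
      _ ≤ _ := by rw [c2, c3]; linarith [b1.2]
  have hcomp : ∫ v in κ..(1 - κ), (ε0 / 4 + c.Tinf * |S v - z j v| + c.Tinf * |z j v - qT v|) =
      ε0 / 4 * (1 - κ - κ) + c.Tinf * (∫ v in κ..(1 - κ), |S v - z j v|) + c.Tinf * ∫ v in κ..(1 - κ), |z j v - qT v| := by
    rw [intervalIntegral.integral_add ((intervalIntegrable_const).add (i1.const_mul _)) (i2.const_mul _),
      intervalIntegral.integral_add (intervalIntegrable_const) (i1.const_mul _), intervalIntegral.integral_const,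
      intervalIntegral.integral_const_mul, intervalIntegral.integral_const_mul, smul_eq_mul]
    ring
  have d1 : c.Tinf * (∫ v in κ..(1 - κ), |S v - z j v|) < ε0 / 8 := by
    have := mul_lt_mul_of_pos_left a1 hT
    have e : c.Tinf * (ε0 / (8 * c.Tinf)) = ε0 / 8 := by field_simp
    rwa [e] at this
  have d2 : c.Tinf * (∫ v in κ..(1 - κ), |z j v - qT v|) < ε0 / 8 := by
    have := mul_lt_mul_of_pos_left a2 hT
    have e : c.Tinf * (ε0 / (8 * c.Tinf)) = ε0 / 8 := by field_simp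
    rwa [e] at this
  have d3 : ε0 / 4 * (1 - κ - κ) ≤ ε0 / 4 := by nlinarith
  linarith

/-- **K7 (l.1134-1141): the slope of the direct test is `κ_T = T a4²/(2 a2³)` at the clock `T q_T`** -/
theorem bcp_k_slope (hI : BcpIn3 W Sc k c cκ Cκ cT CT qT) (hc : c.Ok) (hβ0 : 0 < β0) (hκ0 : κ0 + 2 ≤ c.K)
    (h : BcpDir (bcpFn W) U c D x z c1 C1 C0 β0 κ0) :
    ∀ v : ℝ, 0 < v → Tendsto (fun j => z j (x j * v) / x j) U (𝓝 (v / bcpKap Sc c.Tinf (fun s => c.Tinf * qT s))) := by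
  have hT : 0 < c.Tinf := lt_trans one_pos hc.T_gt
  have hsub : Ioo (0 : ℝ) 1 ⊆ Icc 0 1 := Ioo_subset_Icc_self
  have hclk : IsClock 1 (fun s => c.Tinf * qT s) := by
    refine ⟨fun a ha b hb hab => ?_, fun v hv => ?_, ⟨c.Tinf, fun v hv => ?_⟩⟩
    · exact mul_le_mul_of_nonneg_left (hI.qt.mono (hsub ha) (hsub hb) hab) hT.le
    · exact mul_nonneg hT.le (hI.qt.mem v (hsub hv)).1
    · have := (hI.qt.mem v (hsub hv)).2
      nlinarith
  have hbd : ∀ v ∈ Ioo (0 : ℝ) 1, c.Tinf * qT v ≤ k.Kmax := by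
    intro v hv
    have := (hI.qt.mem v (hsub hv)).2
    have h2 := hI.Kmax.2
    nlinarith
  have hst := hI.stab U (fun j => (D j).Kc W ((D j).P.d ^ 2) (z j)) (fun s => c.Tinf * qT s)
    (bcp_k_isclock hI hc (by linarith) h) hclk hbd (bcp_k_clock hI hc hβ0 hκ0 h)
  have hA := (h.seq.T_lim.pow 3).mul (hst.2.pow 2)
  have hB := ((h.seq.T_lim.pow 2).const_mul 2).mul (hst.1.pow 3)
  have hdk := hI.dirK U D (fun j => (D j).P.d ^ 2) x z c1 C1 C0 _ _ h.c1_pos h.C1_pos h.C0_pos h.seq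
    (h.seq.ok.mono fun j hj => ⟨pow_pos hj.d0 2, le_rfl⟩) (h.ord.mono fun j hj => hj.2 _ (sq_nonneg _) le_rfl) h.min h.x_pos h.x_lim
    h.ax h.nE h.xe h.reg hA hB
  intro v hv
  have h2 := (hI.sc.a2_mem _ hclk hbd).1
  have h4 := (hI.sc.a4_mem _ hclk hbd).1
  have h2' : Sc.a2 (fun s => c.Tinf * qT s) ≠ 0 := (lt_of_lt_of_le hI.sc.c2_pos h2).ne'
  have h4' : Sc.a4 (fun s => c.Tinf * qT s) ≠ 0 := by
    intro h0
    rw [h0, neg_zero] at h4
    exact absurd h4 (not_le.2 hI.sc.c4_pos)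
  have e : v / bcpKap Sc c.Tinf (fun s => c.Tinf * qT s) =
      2 * c.Tinf ^ 2 * Sc.a2 (fun s => c.Tinf * qT s) ^ 3 / (c.Tinf ^ 3 * Sc.a4 (fun s => c.Tinf * qT s) ^ 2) * v := by
    unfold bcpKap
    field_simp
  rw [e]
  exact hdk v hv

end slope

/-! ## F. Step 3 -/

section step3

variable (X : BdFix) (W : BdWorld) (Fam : BdFr → Prop)

/-- [IMPORT, owner helper272 (LL03)]  **(P2) + the normalised inverse construction** (l.1142): `q(v) = v/κ + o(u)` on compact positive bands of scale `u` -/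
def BcpP2 (κ : ℝ) : Prop :=
  ∀ c C η : ℝ, 0 < c → c ≤ C → 0 < η → ∃ N0 : ℕ, ∀ F : BdFr, Fam F → F.Ok X → N0 ≤ F.N →
    ∀ v ∈ Icc (c * F.u) (C * F.u), |F.q v - v / κ| ≤ η * F.u

/-- what Step 3 uses of Lemma 7.2 -/
structure Bd7I.Flat {X : BdFix} (i : Bd7I X) (W : BdWorld) (H : ℝ → ℝ) : Prop where
  fl_mass : ∀ s t, 0 ≤ s → s ≤ t → t ≤ 1 →
    volume (i.Q.al '' ({r | 0 < H r} ∩ Icc s t)) ≤ ENNReal.ofReal (∫ r in s..t, i.F.kbar X r)
  flat : ∀ ρ, 0 < ρ → ρ + 1 / i.F.Mj ≤ X.cI * i.F.u → H ρ ≤ 0 → |i.Q.Sq W i.g (i.Q.al ρ) - ρ| ≤ 2 / i.F.Mj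

/-- [IMPORT, owner helper109 (N4)]  Lemma 7.2: floor mass; every nonfloor radius of the constant region (`BudGeo.flat_nonfloor`) -/
def BcpGeo : Prop :=
  ∃ N0 : ℕ, ∀ i : Bd7I X, i.Std W Fam → N0 ≤ i.F.N → ∃ H : ℝ → ℝ, i.Flat W H

end step3

section step3b

variable {X : BdFix} {W : BdWorld} {Fam : BdFr → Prop} {Sc : Bd7Sc} {k : Bd7ScC} {c : P6C}
  {c0 β0 κ0 cκ Cκ cT CT cL CL Kb : ℝ} {qT : ℝ → ℝ} {U : Ultrafilter ℕ} {i : ℕ → Bd7I X}

/-- positive powers of `x` are small -/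
theorem bcp3_num_wc_x {e : ℝ} (he : 0 < e) (K : ℝ) {ε : ℝ} (hε : 0 < ε) : ∃ N0 : ℕ, ∀ F : BdFr, N0 ≤ F.N → K * F.x ^ e ≤ ε := by
  have h1 : Tendsto (fun n : ℕ => K * ((n : ℝ) ^ (-(e / 6)))) atTop (𝓝 (K * 0)) :=
    ((tendsto_rpow_neg_atTop (by positivity)).comp tendsto_natCast_atTop_atTop).const_mul K
  rw [mul_zero] at h1
  obtain ⟨N0, h0⟩ := eventually_atTop.1 (h1.eventually_le_const hε)
  refine ⟨N0, fun F hN => ?_⟩
  have e1 : F.x ^ e = (F.N : ℝ) ^ (-(e / 6)) := by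
    unfold BdFr.x
    rw [← Real.rpow_mul (Nat.cast_nonneg _)]
    congr 1; ring
  rw [e1]; exact h0 F.N hN

/-- elementary facts on a frame -/
theorem bcp3_num_wc_base (hX : X.Ok) {F : BdFr} (h : F.Ok X) :
    0 < F.x ∧ F.x < 1 ∧ 0 < F.lam ∧ F.lam ≤ 1 ∧ 0 < F.u ∧ F.x ≤ X.CU * F.u ∧ (∀ e : ℝ, 0 ≤ e → F.lam ^ e ≤ F.x ^ (X.pS * e)) ∧
      F.u ≤ F.x ^ (X.pS * X.bl) ∧ F.Xr ≤ X.CU * F.lam ^ (X.sS / 2) := by
  have hx0 : 0 < F.x := BdFr.x_pos' h
  have hx1 : F.x < 1 := by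
    unfold BdFr.x
    refine Real.rpow_lt_one_of_one_lt_of_neg ?_ (by norm_num)
    have := h.N2
    exact_mod_cast (by omega : 1 < F.N)
  have hl0 : 0 < F.lam := BdFr.lam_pos' h
  have hl1 : F.lam ≤ 1 := h.lam_hi.trans (Real.rpow_le_one hx0.le hx1.le hX.pS_pos.le)
  have hu0 : 0 < F.u := BdFr.u_pos' hX h
  have hs : 0 ≤ X.sS / 2 := by
    have := hX.tau_le
    unfold BdFix.sS; linarith
  have hle : ∀ e : ℝ, 0 ≤ e → F.lam ^ e ≤ F.x ^ (X.pS * e) := fun e he => by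
    rw [Real.rpow_mul hx0.le]
    exact Real.rpow_le_rpow hl0.le h.lam_hi he
  refine ⟨hx0, hx1, hl0, hl1, hu0, ?_, hle, h.u_hi.trans (hle _ hX.bl_pos.le), ?_⟩
  · refine le_trans ?_ h.u_lo
    unfold BdFr.U
    have : 1 ≤ F.lam ^ (-(X.sS / 2)) := Real.one_le_rpow_of_pos_of_le_one_of_nonpos hl0 hl1 (by linarith)
    nlinarith
  · have h1 := h.u_lo
    unfold BdFr.U at h1
    unfold BdFr.Xr
    rw [div_le_iff₀ hu0]
    have h2 : 0 < F.lam ^ (X.sS / 2) := Real.rpow_pos_of_pos hl0 _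
    have h3 : F.lam ^ (-(X.sS / 2)) * F.lam ^ (X.sS / 2) = 1 := by
      rw [← Real.rpow_add hl0]; simp
    calc F.x = F.x * F.lam ^ (-(X.sS / 2)) * F.lam ^ (X.sS / 2) := by rw [mul_assoc, h3, mul_one]
      _ ≤ X.CU * F.u * F.lam ^ (X.sS / 2) := mul_le_mul_of_nonneg_right h1 h2.le
      _ = X.CU * F.lam ^ (X.sS / 2) * F.u := by ring

/-- smallness of the small exponents -/
theorem bcp3_num_wc_exp (hX : X.Ok) : X.zeta ≤ X.pS * X.bl / 100000 ∧ X.zeta ≤ X.pS / 100000 ∧ X.mPE ≤ X.pS * X.bl / 10000000 ∧ X.mPE ≤ 1 / 10000000 ∧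
    X.bl ≤ 1 ∧ X.pS ≤ 1 := by
  have h1 := hX.tau0_pos
  have h2 := hX.tau0_le
  have h3 := hX.eta_le
  have h4 := hX.tau_le
  have h5 := hX.bl_pos
  have h6 := hX.bl_le
  have h7 := hX.bs_le
  have h8 := hX.pS_pos
  have h9 := hX.zeta_le
  have h10 := hX.mPE_le
  have h11 := hX.pS_le
  have h12 := hX.he_le
  have t1 : X.tau0 ≤ 1 := by linarith
  have b1 : X.bl ≤ 1 := by linarith
  have p1 : X.pS ≤ 1 := by linarith
  have a1 : X.pS * X.tau0 * X.bl ≤ X.pS * X.bl := by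
    have : 0 ≤ X.pS * X.bl := by positivity
    nlinarith
  have a2 : X.pS * X.bl ≤ X.pS := by nlinarith
  refine ⟨by linarith, by linarith, by linarith, by linarith, b1, p1⟩

/-- numerics at the scale `u`: `w_c = y_c u = o(u)`      (`X ≤ C_U λ^{s_*/2}`, `λ ≤ x^{p_*}`, `ζ ≪ p_*`) -/
theorem bcp3_num_wc (hX : X.Ok) {ε : ℝ} (hε : 0 < ε) : ∃ N0 : ℕ, ∀ F : BdFr, F.Ok X → N0 ≤ F.N → F.wc X ≤ ε * F.u := by
  obtain ⟨z1, z2, -, -, -, -⟩ := bcp3_num_wc_exp hX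
  have hpS := hX.pS_pos
  obtain ⟨N0, h0⟩ := bcp3_num_wc_x (e := X.pS * 0.12 + -(10 * X.zeta)) (by linarith) (X.CU + X.CU ^ (3 / 4 : ℝ)) hε
  refine ⟨N0, fun F h hN => ?_⟩
  obtain ⟨hx0, hx1, hl0, hl1, hu0, -, hle, -, hXr⟩ := bcp3_num_wc_base hX h
  have hCU := hX.CU_pos
  have hXr0 : 0 < F.Xr := div_pos hx0 hu0
  have hs : (0.125 : ℝ) ≤ X.sS / 2 + -0.005 := by
    have := hX.tau_le
    unfold BdFix.sS; linarith
  have hl12 : 0 < F.lam ^ (0.12 : ℝ) := Real.rpow_pos_of_pos hl0 _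
  have t1 : F.Xr * F.Lam ^ (-(1 / 6) : ℝ) ≤ X.CU * F.lam ^ (0.12 : ℝ) := by
    have e1 : F.Lam ^ (-(1 / 6) : ℝ) = F.lam ^ (-0.005 : ℝ) := by
      unfold BdFr.Lam
      rw [← Real.rpow_mul hl0.le]; norm_num
    rw [e1]
    calc F.Xr * F.lam ^ (-0.005 : ℝ) ≤ X.CU * F.lam ^ (X.sS / 2) * F.lam ^ (-0.005 : ℝ) :=
          mul_le_mul_of_nonneg_right hXr (Real.rpow_pos_of_pos hl0 _).le
      _ = X.CU * F.lam ^ (X.sS / 2 + -0.005) := by rw [mul_assoc, ← Real.rpow_add hl0]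
      _ ≤ X.CU * F.lam ^ (0.12 : ℝ) :=
          mul_le_mul_of_nonneg_left (Real.rpow_le_rpow_of_exponent_ge hl0 hl1 (by linarith)) hCU.le
  have t2 : F.Xr ^ (3 / 4 : ℝ) * F.lam ^ (0.12 : ℝ) ≤ X.CU ^ (3 / 4 : ℝ) * F.lam ^ (0.12 : ℝ) := by
    refine mul_le_mul_of_nonneg_right (Real.rpow_le_rpow hXr0.le ?_ (by norm_num)) hl12.le
    refine hXr.trans (mul_le_of_le_one_right hCU.le (Real.rpow_le_one hl0.le hl1 ?_))
    linarith
  have hy : F.yc X ≤ ε := by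
    unfold BdFr.yc
    calc F.x ^ (-(10 * X.zeta)) * (F.Xr * F.Lam ^ (-(1 / 6) : ℝ) + F.Xr ^ (3 / 4 : ℝ) * F.lam ^ (0.12 : ℝ))
        ≤ F.x ^ (-(10 * X.zeta)) * ((X.CU + X.CU ^ (3 / 4 : ℝ)) * F.x ^ (X.pS * 0.12)) := by
          refine mul_le_mul_of_nonneg_left ?_ (Real.rpow_pos_of_pos hx0 _).le
          have := hle 0.12 (by norm_num)
          have hK : 0 ≤ X.CU + X.CU ^ (3 / 4 : ℝ) := by positivity
          nlinarith [mul_le_mul_of_nonneg_left this hK]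
      _ = (X.CU + X.CU ^ (3 / 4 : ℝ)) * F.x ^ (X.pS * 0.12 + -(10 * X.zeta)) := by
          rw [Real.rpow_add hx0]; ring
      _ ≤ ε := h0 F hN
  unfold BdFr.wc
  exact mul_le_mul_of_nonneg_right hy hu0.le

/-- `m ≍ x^{-6}` -/
theorem bcp3_num_al_m {F : BdFr} (h : F.Ok X) : F.x ^ (-6 : ℝ) / 2 ≤ (F.m : ℝ) ∧ (F.m : ℝ) ≤ 3 * F.x ^ (-6 : ℝ) ∧ 1 ≤ (F.m : ℝ) := by
  have e1 : F.x ^ (-6 : ℝ) = (F.N : ℝ) := by
    unfold BdFr.x
    rw [← Real.rpow_mul (Nat.cast_nonneg _)]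
    norm_num
  rw [e1]
  refine ⟨h.m_lo, h.m_hi, ?_⟩
  have : (2 : ℝ) ≤ F.N := by exact_mod_cast h.N2
  linarith [h.m_lo]

/-- numerics at the scale `u`: `m^δ c0 u ≤ 1`      (`u ≤ λ^{b_ℓ} ≤ x^{p_* b_ℓ}`, `δ ≪ p_* b_ℓ`) -/
theorem bcp3_num_al (hX : X.Ok) (C : ℝ) : ∃ N0 : ℕ, ∀ F : BdFr, F.Ok X → N0 ≤ F.N → (F.m : ℝ) ^ (X.mPE / 10000) * (C * F.u) ≤ 1 := by
  obtain ⟨-, -, z3, -, -, -⟩ := bcp3_num_wc_exp hX
  have hpb : 0 < X.pS * X.bl := mul_pos hX.pS_pos hX.bl_pos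
  have hm := hX.mPE_pos
  obtain ⟨N0, h0⟩ := bcp3_num_wc_x (e := -6 * (X.mPE / 10000) + X.pS * X.bl) (by linarith) ((3 : ℝ) ^ (X.mPE / 10000) * |C|) one_pos
  refine ⟨N0, fun F h hN => ?_⟩
  obtain ⟨hx0, hx1, hl0, hl1, hu0, -, hle, hu, -⟩ := bcp3_num_wc_base hX h
  obtain ⟨-, m2, m3⟩ := bcp3_num_al_m h
  have hm0 : (0 : ℝ) ≤ F.m := by linarith
  have a1 : (F.m : ℝ) ^ (X.mPE / 10000) ≤ (3 : ℝ) ^ (X.mPE / 10000) * F.x ^ (-6 * (X.mPE / 10000)) := by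
    rw [Real.rpow_mul hx0.le, ← Real.mul_rpow (by norm_num) (Real.rpow_pos_of_pos hx0 _).le]
    exact Real.rpow_le_rpow hm0 m2 (by positivity)
  have hp : 0 ≤ (F.m : ℝ) ^ (X.mPE / 10000) := Real.rpow_nonneg hm0 _
  calc (F.m : ℝ) ^ (X.mPE / 10000) * (C * F.u) ≤ (F.m : ℝ) ^ (X.mPE / 10000) * (|C| * F.u) :=
        mul_le_mul_of_nonneg_left (mul_le_mul_of_nonneg_right (le_abs_self C) hu0.le) hp
    _ ≤ ((3 : ℝ) ^ (X.mPE / 10000) * F.x ^ (-6 * (X.mPE / 10000))) * (|C| * F.x ^ (X.pS * X.bl)) :=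
        mul_le_mul a1 (mul_le_mul_of_nonneg_left hu (abs_nonneg _)) (by positivity) (by positivity)
    _ = (3 : ℝ) ^ (X.mPE / 10000) * |C| * F.x ^ (-6 * (X.mPE / 10000) + X.pS * X.bl) := by
        rw [Real.rpow_add hx0]; ring
    _ ≤ 1 := h0 F hN

/-- numerics at the scale `u`: `C(u) ≤ C0 = u² Λ = o(u²)`, `u → 0` -/
theorem bcp3_num_weak (hX : X.Ok) {ε : ℝ} (hε : 0 < ε) :
    ∃ N0 : ℕ, ∀ F : BdFr, F.Ok X → N0 ≤ F.N → F.C X F.u ≤ ε * F.u ^ 2 ∧ F.u ≤ ε := by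
  have hpb : 0 < X.pS * X.bl := mul_pos hX.pS_pos hX.bl_pos
  have hpS := hX.pS_pos
  obtain ⟨N1, h1⟩ := bcp3_num_wc_x (e := X.pS * 0.03) (by positivity) 1 hε
  obtain ⟨N2, h2⟩ := bcp3_num_wc_x (e := X.pS * X.bl) hpb 1 hε
  refine ⟨max N1 N2, fun F h hN => ?_⟩
  obtain ⟨hx0, hx1, hl0, hl1, hu0, -, hle, hu, -⟩ := bcp3_num_wc_base hX h
  have a1 := h1 F ((le_max_left _ _).trans hN)
  have a2 := h2 F ((le_max_right _ _).trans hN)
  rw [one_mul] at a1 a2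
  refine ⟨?_, hu.trans a2⟩
  have hL : F.Lam ≤ ε := (hle 0.03 (by norm_num)).trans a1
  have hC0 : 0 ≤ F.C0 := by
    unfold BdFr.C0 BdFr.Lam
    have := Real.rpow_pos_of_pos hl0 (0.03 : ℝ)
    positivity
  calc F.C X F.u ≤ F.C0 := cm_e_le _ hC0 _
    _ = F.Lam * F.u ^ 2 := by unfold BdFr.C0; ring
    _ ≤ ε * F.u ^ 2 := mul_le_mul_of_nonneg_right hL (sq_nonneg _)

/-- the floor of (C5) is uniformly small -/
theorem bcp3_num_floor_pt (hX : X.Ok) {ε : ℝ} (hε : 0 < ε) :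
    ∃ N0 : ℕ, ∀ F : BdFr, F.Ok X → N0 ≤ F.N → ∀ r : ℝ, 0 ≤ r → F.kbar X r ≤ ε := by
  have hpS := hX.pS_pos
  have hm := hX.mPE_pos
  obtain ⟨N1, h1⟩ := bcp3_num_wc_x (e := X.pS * 0.9) (by positivity) 1 (half_pos hε)
  obtain ⟨N2, h2⟩ := bcp3_num_wc_x (e := -6 * -(3 * (X.mPE / 10000))) (by linarith) ((1 / 2 : ℝ) ^ (-(3 * (X.mPE / 10000)))) (half_pos hε)
  refine ⟨max N1 N2, fun F h hN r hr => ?_⟩
  obtain ⟨hx0, hx1, hl0, hl1, hu0, -, hle, hu, -⟩ := bcp3_num_wc_base hX h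
  obtain ⟨m1, m2, m3⟩ := bcp3_num_al_m h
  have a1 := h1 F ((le_max_left _ _).trans hN)
  have a2 := h2 F ((le_max_right _ _).trans hN)
  rw [one_mul] at a1
  have hs0 : (0.49 : ℝ) ≤ X.s0 := by
    have := hX.tau_le; have := hX.eta_le; have := hX.tau0_le
    unfold BdFix.s0 BdFix.sS; linarith
  have k1 : F.kap ≤ ε / 2 := by
    refine h.kap1.trans (le_trans ?_ ((hle 0.9 (by norm_num)).trans a1))
    have e1 : F.Lam ^ (-(2 / 3) : ℝ) = F.lam ^ (-0.02 : ℝ) := by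
      unfold BdFr.Lam
      rw [← Real.rpow_mul hl0.le]; norm_num
    rw [e1, ← Real.rpow_add hl0]
    exact Real.rpow_le_rpow_of_exponent_ge hl0 hl1 (by linarith)
  have k2 : F.k X r ≤ ε / 2 := by
    have hM0 : (0 : ℝ) < F.m := by linarith
    have hk : F.k X r = (F.m : ℝ) ^ (X.mPE / 10000) * (F.call X).us ^ 2 / (r + (F.m : ℝ) ^ (2 * (X.mPE / 10000)) * (F.call X).us) ^ 2 := rfl
    have hk3 : F.k X r ≤ (F.m : ℝ) ^ (-(3 * (X.mPE / 10000))) := by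
      rw [hk]
      set δ := X.mPE / 10000 with hδ
      set us := (F.call X).us with hus
      have p1 : 0 < (F.m : ℝ) ^ δ := Real.rpow_pos_of_pos hM0 _
      have p2 : 0 < (F.m : ℝ) ^ (2 * δ) := Real.rpow_pos_of_pos hM0 _
      by_cases hz : us = 0
      · rw [hz]; simp only [ne_eq, OfNat.ofNat_ne_zero, not_false_eq_true, zero_pow, mul_zero, zero_div]
        exact (Real.rpow_pos_of_pos hM0 _).le
      · have hus2 : 0 < us ^ 2 := by positivity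
        by_cases hneg : 0 < us
        · have hB : 0 < (F.m : ℝ) ^ (2 * δ) * us := mul_pos p2 hneg
          calc (F.m : ℝ) ^ δ * us ^ 2 / (r + (F.m : ℝ) ^ (2 * δ) * us) ^ 2
              ≤ (F.m : ℝ) ^ δ * us ^ 2 / ((F.m : ℝ) ^ (2 * δ) * us) ^ 2 :=
                div_le_div_of_nonneg_left (by positivity) (by positivity) (pow_le_pow_left₀ hB.le (by linarith) 2)
            _ = (F.m : ℝ) ^ (-(3 * δ)) := by
                have e3 : (F.m : ℝ) ^ (-(3 * δ)) = (F.m : ℝ) ^ δ / ((F.m : ℝ) ^ (2 * δ)) ^ 2 := by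
                  rw [← Real.rpow_natCast ((F.m : ℝ) ^ (2 * δ)) 2, ← Real.rpow_mul hM0.le, ← Real.rpow_sub hM0]
                  congr 1; push_cast; ring
                rw [e3, mul_pow]
                field_simp
        · exfalso
          apply hneg
          have hE : 0 < F.E X := by
            unfold BdFr.E BdFr.dPE BdFr.Lam
            have := hX.cd_pos
            have := Real.rpow_pos_of_pos hl0 (0.03 : ℝ)
            have := Real.rpow_pos_of_pos this (1 / 3 : ℝ)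
            have := Real.rpow_pos_of_pos hx0 (4 - X.zeta)
            positivity
          have : us = 1 / ((F.m : ℝ) * F.E X) := rfl
          rw [this]; positivity
    refine hk3.trans (le_trans ?_ a2)
    rw [Real.rpow_mul hx0.le, ← Real.mul_rpow (by norm_num) (Real.rpow_pos_of_pos hx0 _).le]
    refine Real.rpow_le_rpow_of_nonpos (by have := Real.rpow_pos_of_pos hx0 (-6 : ℝ); positivity) ?_ (by linarith)
    linarith
  unfold BdFr.kbar
  split_ifs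
  · linarith
  · linarith

/-- numerics: the floor mass of the constant region is `o(u)`:  `∫_0^1 k ≤ m^{-δ} v_*`, `v_* = o(u)`, `κ c_I u = o(u)` -/
theorem bcp3_num_floor (hX : X.Ok) {ε : ℝ} (hε : 0 < ε) :
    ∃ N0 : ℕ, ∀ F : BdFr, F.Ok X → N0 ≤ F.N → ∀ s t : ℝ, 0 ≤ s → s ≤ t → t ≤ X.cI * F.u → ∫ ρ in s..t, F.kbar X ρ ≤ ε * F.u := by
  have hcI := hX.cI_pos
  obtain ⟨N0, h0⟩ := bcp3_num_floor_pt hX (ε := ε / X.cI) (by positivity)
  refine ⟨N0, fun F h hN s t hs hst ht => ?_⟩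
  have hu0 : 0 < F.u := BdFr.u_pos' hX h
  have h1 : ‖∫ ρ in s..t, F.kbar X ρ‖ ≤ ε / X.cI * |t - s| := by
    refine intervalIntegral.norm_integral_le_of_norm_le_const fun ρ hρ => ?_
    rw [uIoc_of_le hst] at hρ
    have hρ0 : 0 ≤ ρ := hs.trans hρ.1.le
    rw [Real.norm_eq_abs, abs_of_nonneg (bd7_q_kbar_nonneg h ρ)]
    exact h0 F h hN ρ hρ0
  calc ∫ ρ in s..t, F.kbar X ρ ≤ ‖∫ ρ in s..t, F.kbar X ρ‖ := le_abs_self _
    _ ≤ ε / X.cI * |t - s| := h1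
    _ ≤ ε / X.cI * (X.cI * F.u) := by
        refine mul_le_mul_of_nonneg_left ?_ (by positivity)
        rw [abs_of_nonneg (by linarith)]; linarith
    _ = ε * F.u := by field_simp

/-- numerics: `1/M_j = o(u)` -/
theorem bcp3_num_cap (hX : X.Ok) {ε : ℝ} (hε : 0 < ε) :
    ∃ N0 : ℕ, ∀ F : BdFr, F.Ok X → N0 ≤ F.N → 1 / F.Mj ≤ ε * F.u := by
  obtain ⟨N0, h0⟩ := bcp3_num_wc_x (e := 99) (by norm_num) X.CU hε
  refine ⟨N0, fun F h hN => ?_⟩
  obtain ⟨hx0, hx1, hl0, hl1, hu0, hxu, -, -, -⟩ := bcp3_num_wc_base hX h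
  have hp : 0 < F.x ^ (-(100 : ℝ)) := Real.rpow_pos_of_pos hx0 _
  have h1 : F.x ^ (-(100 : ℝ)) ≤ F.Mj := by
    unfold BdFr.Mj
    have : (1 : ℝ) ≤ 2 ^ F.st := one_le_pow₀ (by norm_num)
    nlinarith
  calc 1 / F.Mj ≤ 1 / F.x ^ (-(100 : ℝ)) := one_div_le_one_div_of_le hp h1
    _ = F.x ^ (99 : ℝ) * F.x := by
        rw [Real.rpow_neg hx0.le, one_div, inv_inv, show (100 : ℝ) = 99 + 1 by norm_num, Real.rpow_add hx0, Real.rpow_one]
    _ ≤ F.x ^ (99 : ℝ) * (X.CU * F.u) := mul_le_mul_of_nonneg_left hxu (Real.rpow_pos_of_pos hx0 _).le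
    _ = X.CU * F.x ^ (99 : ℝ) * F.u := by ring
    _ ≤ ε * F.u := mul_le_mul_of_nonneg_right (h0 F hN) hu0.le

theorem bcp3_num_r18_hi {x c A a z : ℝ} (hx0 : 0 < x) (hc : 0 ≤ c) (hA0 : 0 ≤ A) (hA : A ≤ c * x ^ a) (hz : 0 ≤ z) :
    A ^ z ≤ c ^ z * x ^ (a * z) := by
  rw [Real.rpow_mul hx0.le, ← Real.mul_rpow hc (Real.rpow_pos_of_pos hx0 _).le]
  exact Real.rpow_le_rpow hA0 hA hz

theorem bcp3_num_r18_hin {x c A a z : ℝ} (hx0 : 0 < x) (hc : 0 < c) (hA : c * x ^ a ≤ A) (hz : z ≤ 0) :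
    A ^ z ≤ c ^ z * x ^ (a * z) := by
  rw [Real.rpow_mul hx0.le, ← Real.mul_rpow hc.le (Real.rpow_pos_of_pos hx0 _).le]
  exact Real.rpow_le_rpow_of_nonpos (mul_pos hc (Real.rpow_pos_of_pos hx0 _)) hA hz

theorem bcp3_num_r18_lon {x c A a z : ℝ} (hx0 : 0 < x) (hc : 0 ≤ c) (hA0 : 0 < A) (hA : A ≤ c * x ^ a) (hz : z ≤ 0) :
    c ^ z * x ^ (a * z) ≤ A ^ z := by
  rw [Real.rpow_mul hx0.le, ← Real.mul_rpow hc (Real.rpow_pos_of_pos hx0 _).le]
  exact Real.rpow_le_rpow_of_nonpos hA0 hA hz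

/-- the four terms of the bracket of (18), on real numbers -/
theorem bcp3_num_r18_abs {c0 CU κ δ cC : ℝ} (hc0 : 0 < c0) (hCU : 0 < CU) (hκ : 0 < κ) (hδ0 : 0 ≤ δ) (hδ : 603 * δ ≤ 0.14) (hcC : 0 < cC) :
    ∃ K : ℝ, ∀ x u M v Cu : ℝ, 0 < x → x ≤ 1 → x ^ (-6 : ℝ) / 2 ≤ M → M ≤ 3 * x ^ (-6 : ℝ) → 1 ≤ M → 0 < u → x ≤ CU * u → c0 * u ≤ κ → κ ≤ v →
      cC * x ^ (2.36 : ℝ) ≤ Cu →
      (M * ((c0 * u) ^ 2 * cmF ((c0 * u) ^ 2 * v / (c0 * u) ^ 3)) * v) ^ (-(1 / 3 : ℝ))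
        + (M * ((c0 * u) ^ 2 * cmF ((c0 * u) ^ 2 * v / (c0 * u) ^ 3)) * v ^ 2) ^ (-(1 / 2 : ℝ))
        + (M ^ (-δ) * min (M ^ (-(1 / 2 : ℝ)) * (c0 * u) ^ 2) (M ^ (-(100 * δ)) * Cu * u ^ 3) / (c0 * u) ^ 3) ^ (1 / 2 : ℝ)
        + M ^ (δ / 2) * (1 / (M * min (M ^ (-(1 / 2 : ℝ)) * (c0 * u) ^ 2) (M ^ (-(100 * δ)) * Cu * u ^ 3))) ≤ K * x ^ (1 / 2 : ℝ) := by
  set ca : ℝ := c0 ^ 3 / (2 * CU ^ 3) with hca
  set cc : ℝ := (1 / 2 : ℝ) ^ (-(1 / 2 : ℝ)) * (CU / c0) with hcc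
  set k1 : ℝ := (3 : ℝ) ^ (-(1 / 2 : ℝ)) * (c0 / CU) ^ 2 with hk1
  set k2 : ℝ := (3 : ℝ) ^ (-(100 * δ)) * cC / CU ^ 3 with hk2
  set kE : ℝ := min k1 k2 with hkE
  have hca0 : 0 < ca := by positivity
  have hcc0 : 0 < cc := by positivity
  have hk10 : 0 < k1 := by positivity
  have hk20 : 0 < k2 := by positivity
  have hkE0 : 0 < kE := lt_min hk10 hk20
  refine ⟨ca ^ (-(1 / 3 : ℝ)) + (ca * κ) ^ (-(1 / 2 : ℝ)) + cc ^ (1 / 2 : ℝ) + (3 : ℝ) ^ (δ / 2) * (2 / kE), ?_⟩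
  intro x u M v Cu hx0 hx1 hM1 hM2 hM3 hu0 hxu hd hv hCu
  have hM0 : 0 < M := by linarith
  have hv0 : 0 < v := hκ.trans_le hv
  set d : ℝ := c0 * u with hd_def
  have hd0 : 0 < d := by positivity
  set e : ℝ := d ^ 2 * cmF (d ^ 2 * v / d ^ 3) with he_def
  set E : ℝ := min (M ^ (-(1 / 2 : ℝ)) * d ^ 2) (M ^ (-(100 * δ)) * Cu * u ^ 3) with hE_def
  have hxp : ∀ a : ℝ, 0 < x ^ a := fun a => Real.rpow_pos_of_pos hx0 a
  have hhalf : ∀ a : ℝ, 1 / 2 ≤ a → x ^ a ≤ x ^ (1 / 2 : ℝ) := fun a ha => Real.rpow_le_rpow_of_exponent_ge hx0 hx1 ha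
  have hxn : ∀ (a : ℝ) (n : ℕ), x ^ a * x ^ n = x ^ (a + n) := fun a n => by
    rw [Real.rpow_add hx0, Real.rpow_natCast]
  -- `u ≥ x/CU`, `d ≥ (c0/CU) x`
  have hux : x / CU ≤ u := by rw [div_le_iff₀ hCU]; linarith
  have hdx : c0 / CU * x ≤ d := by
    have := mul_le_mul_of_nonneg_left hux hc0.le
    calc c0 / CU * x = c0 * (x / CU) := by ring
      _ ≤ d := this
  -- `e v ≥ d³`
  have hev : d ^ 3 ≤ e * v := by
    have ht : d ^ 2 * v / d ^ 3 = v / d := by field_simp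
    have h1 : 1 ≤ v / d := by rw [le_div_iff₀ hd0]; linarith
    have h2 := cm_f_ge_inv h1
    rw [he_def, ht]
    calc d ^ 3 = d ^ 2 * (1 / (v / d)) * v := by field_simp
      _ ≤ d ^ 2 * cmF (v / d) * v := by gcongr
  have hMd : ca * x ^ (-3 : ℝ) ≤ M * d ^ 3 := by
    have h1 : (c0 / CU * x) ^ 3 ≤ d ^ 3 := pow_le_pow_left₀ (by positivity) hdx 3
    calc ca * x ^ (-3 : ℝ) = x ^ (-6 : ℝ) / 2 * (c0 / CU * x) ^ 3 := by
          have : x ^ (-3 : ℝ) = x ^ (-6 : ℝ) * x ^ 3 := by rw [hxn]; norm_num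
          rw [this, hca]; field_simp
      _ ≤ M * d ^ 3 := mul_le_mul hM1 h1 (by positivity) hM0.le
  have hMev : ca * x ^ (-3 : ℝ) ≤ M * e * v := by
    calc ca * x ^ (-3 : ℝ) ≤ M * d ^ 3 := hMd
      _ ≤ M * (e * v) := mul_le_mul_of_nonneg_left hev hM0.le
      _ = M * e * v := by ring
  -- term a
  have ta : (M * e * v) ^ (-(1 / 3 : ℝ)) ≤ ca ^ (-(1 / 3 : ℝ)) * x ^ (1 / 2 : ℝ) := by
    refine (bcp3_num_r18_hin hx0 hca0 hMev (by norm_num)).trans ?_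
    exact mul_le_mul_of_nonneg_left (hhalf _ (by norm_num)) (Real.rpow_pos_of_pos hca0 _).le
  -- term b
  have tb : (M * e * v ^ 2) ^ (-(1 / 2 : ℝ)) ≤ (ca * κ) ^ (-(1 / 2 : ℝ)) * x ^ (1 / 2 : ℝ) := by
    have h1 : ca * κ * x ^ (-3 : ℝ) ≤ M * e * v ^ 2 := by
      calc ca * κ * x ^ (-3 : ℝ) = ca * x ^ (-3 : ℝ) * κ := by ring
        _ ≤ M * e * v * v := mul_le_mul hMev hv hκ.le (le_trans (by positivity) hMev)
        _ = M * e * v ^ 2 := by ring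
    refine (bcp3_num_r18_hin hx0 (by positivity) h1 (by norm_num)).trans ?_
    exact mul_le_mul_of_nonneg_left (hhalf _ (by norm_num)) (Real.rpow_pos_of_pos (by positivity) _).le
  -- bounds of powers of `M`
  have hMh : M ^ (-(1 / 2 : ℝ)) ≤ (1 / 2 : ℝ) ^ (-(1 / 2 : ℝ)) * x ^ (3 : ℝ) := by
    have h6 : (1 / 2 : ℝ) * x ^ (-6 : ℝ) ≤ M := by linarith
    have := bcp3_num_r18_hin (c := 1 / 2) (a := -6) (z := -(1 / 2 : ℝ)) hx0 (by norm_num) h6 (by norm_num)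
    have e3 : (-6 : ℝ) * -(1 / 2 : ℝ) = 3 := by norm_num
    rwa [e3] at this
  have hMp : ∀ z : ℝ, 0 < M ^ z := fun z => Real.rpow_pos_of_pos hM0 z
  have hE0 : 0 < E := by
    have : 0 < Cu := lt_of_lt_of_le (mul_pos hcC (hxp _)) hCu
    exact lt_min (mul_pos (hMp _) (by positivity)) (mul_pos (mul_pos (hMp _) this) (by positivity))
  -- term c
  have tc : (M ^ (-δ) * E / d ^ 3) ^ (1 / 2 : ℝ) ≤ cc ^ (1 / 2 : ℝ) * x ^ (1 / 2 : ℝ) := by
    have h1 : M ^ (-δ) * E / d ^ 3 ≤ cc * x ^ (2 : ℝ) := by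
      have a1 : M ^ (-δ) ≤ 1 := Real.rpow_le_one_of_one_le_of_nonpos hM3 (by linarith)
      have a2 : E ≤ M ^ (-(1 / 2 : ℝ)) * d ^ 2 := min_le_left _ _
      have a3 : 1 / d ≤ CU / c0 / x := by
        rw [div_le_div_iff₀ hd0 hx0]
        calc 1 * x = CU / c0 * (c0 / CU * x) := by field_simp
          _ ≤ CU / c0 * d := mul_le_mul_of_nonneg_left hdx (by positivity)
      calc M ^ (-δ) * E / d ^ 3 ≤ 1 * (M ^ (-(1 / 2 : ℝ)) * d ^ 2) / d ^ 3 := by gcongr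
        _ = M ^ (-(1 / 2 : ℝ)) * (1 / d) := by field_simp
        _ ≤ ((1 / 2 : ℝ) ^ (-(1 / 2 : ℝ)) * x ^ (3 : ℝ)) * (CU / c0 / x) := mul_le_mul hMh a3 (by positivity) (by positivity)
        _ = cc * x ^ (2 : ℝ) := by
            have : x ^ (3 : ℝ) = x ^ (2 : ℝ) * x := by
              rw [show (3 : ℝ) = 2 + 1 by norm_num, Real.rpow_add hx0, Real.rpow_one]
            rw [this, hcc]; field_simp
    refine (bcp3_num_r18_hi hx0 hcc0.le (by positivity) h1 (by norm_num)).trans ?_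
    exact mul_le_mul_of_nonneg_left (hhalf _ (by norm_num)) (Real.rpow_pos_of_pos hcc0 _).le
  -- term d
  have hE1 : k1 * x ^ (5 : ℝ) ≤ M ^ (-(1 / 2 : ℝ)) * d ^ 2 := by
    have b1 := bcp3_num_r18_lon (c := 3) (a := -6) (z := -(1 / 2 : ℝ)) hx0 (by norm_num) hM0 hM2 (by norm_num)
    have b2 : (c0 / CU * x) ^ 2 ≤ d ^ 2 := pow_le_pow_left₀ (by positivity) hdx 2
    calc k1 * x ^ (5 : ℝ) = ((3 : ℝ) ^ (-(1 / 2 : ℝ)) * x ^ ((-6 : ℝ) * -(1 / 2 : ℝ))) * (c0 / CU * x) ^ 2 := by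
          have : x ^ (5 : ℝ) = x ^ ((-6 : ℝ) * -(1 / 2 : ℝ)) * x ^ 2 := by rw [hxn]; norm_num
          rw [this, hk1]; ring
      _ ≤ M ^ (-(1 / 2 : ℝ)) * d ^ 2 := mul_le_mul b1 b2 (by positivity) (hMp _).le
  have hE2 : k2 * x ^ (5.36 + 600 * δ) ≤ M ^ (-(100 * δ)) * Cu * u ^ 3 := by
    have b1 := bcp3_num_r18_lon (c := 3) (a := -6) (z := -(100 * δ)) hx0 (by norm_num) hM0 hM2 (by linarith)
    have b2 : (x / CU) ^ 3 ≤ u ^ 3 := pow_le_pow_left₀ (by positivity) hux 3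
    calc k2 * x ^ (5.36 + 600 * δ) = ((3 : ℝ) ^ (-(100 * δ)) * x ^ ((-6 : ℝ) * -(100 * δ))) * (cC * x ^ (2.36 : ℝ)) * (x / CU) ^ 3 := by
          have : x ^ (5.36 + 600 * δ) = x ^ ((-6 : ℝ) * -(100 * δ)) * x ^ (2.36 : ℝ) * x ^ 3 := by
            rw [← Real.rpow_add hx0, hxn]; congr 1; push_cast; ring
          rw [this, hk2]; field_simp
      _ ≤ M ^ (-(100 * δ)) * Cu * u ^ 3 :=
          mul_le_mul (mul_le_mul b1 hCu (by positivity) (hMp _).le) b2 (by positivity)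
            (mul_nonneg (hMp _).le (le_trans (by positivity) hCu))
  have hEl : kE * x ^ (5.36 + 600 * δ) ≤ E := by
    refine le_min ?_ ?_
    · refine le_trans ?_ hE1
      exact mul_le_mul (min_le_left _ _) (Real.rpow_le_rpow_of_exponent_ge hx0 hx1 (by linarith)) (hxp _).le hk10.le
    · exact le_trans (mul_le_mul_of_nonneg_right (min_le_right _ _) (hxp _).le) hE2
  have hME : kE / 2 * x ^ (-0.64 + 600 * δ) ≤ M * E := by
    calc kE / 2 * x ^ (-0.64 + 600 * δ) = x ^ (-6 : ℝ) / 2 * (kE * x ^ (5.36 + 600 * δ)) := by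
          have : x ^ (-0.64 + 600 * δ) = x ^ (-6 : ℝ) * x ^ (5.36 + 600 * δ) := by
            rw [← Real.rpow_add hx0]; congr 1; ring
          rw [this]; ring
      _ ≤ M * E := mul_le_mul hM1 hEl (by positivity) hM0.le
  have td : M ^ (δ / 2) * (1 / (M * E)) ≤ (3 : ℝ) ^ (δ / 2) * (2 / kE) * x ^ (1 / 2 : ℝ) := by
    have b1 := bcp3_num_r18_hi (c := 3) (a := -6) (z := δ / 2) hx0 (by norm_num) hM0.le hM2 (by linarith)
    have b2 : 1 / (M * E) ≤ 2 / kE * x ^ (0.64 - 600 * δ) := by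
      calc 1 / (M * E) ≤ 1 / (kE / 2 * x ^ (-0.64 + 600 * δ)) := one_div_le_one_div_of_le (by positivity) hME
        _ = 2 / kE * x ^ (0.64 - 600 * δ) := by
            have : x ^ (0.64 - 600 * δ) = (x ^ (-0.64 + 600 * δ))⁻¹ := by
              rw [← Real.rpow_neg hx0.le]; congr 1; ring
            rw [this]; field_simp
    calc M ^ (δ / 2) * (1 / (M * E)) ≤ ((3 : ℝ) ^ (δ / 2) * x ^ ((-6 : ℝ) * (δ / 2))) * (2 / kE * x ^ (0.64 - 600 * δ)) :=
          mul_le_mul b1 b2 (by positivity) (by positivity)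
      _ = (3 : ℝ) ^ (δ / 2) * (2 / kE) * x ^ ((-6 : ℝ) * (δ / 2) + (0.64 - 600 * δ)) := by
          rw [Real.rpow_add hx0]; ring
      _ ≤ (3 : ℝ) ^ (δ / 2) * (2 / kE) * x ^ (1 / 2 : ℝ) :=
          mul_le_mul_of_nonneg_left (hhalf _ (by linarith)) (by positivity)
  calc (M * e * v) ^ (-(1 / 3 : ℝ)) + (M * e * v ^ 2) ^ (-(1 / 2 : ℝ)) + (M ^ (-δ) * E / d ^ 3) ^ (1 / 2 : ℝ) + M ^ (δ / 2) * (1 / (M * E))
      ≤ ca ^ (-(1 / 3 : ℝ)) * x ^ (1 / 2 : ℝ) + (ca * κ) ^ (-(1 / 2 : ℝ)) * x ^ (1 / 2 : ℝ) + cc ^ (1 / 2 : ℝ) * x ^ (1 / 2 : ℝ)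
        + (3 : ℝ) ^ (δ / 2) * (2 / kE) * x ^ (1 / 2 : ℝ) := by linarith
    _ = _ := by ring

/-- numerics (l.1113-1117): the bracket of (18) of the child at `w = u` is power small on macroscopic bands:
`m 𝒟(v) v ≥ m d'³ = c0³ m u³ ≥ c m^{1/2}`, `E'/d'³ ≤ m^{-1/2}/(c0 u)`, `m^{δ/2}/(m E') → 0` with a power -/
theorem bcp3_num_r18 (hX : X.Ok) (hc0 : 0 < c0) {κ : ℝ} (hκ : 0 < κ) :
    ∃ s : ℝ, 0 < s ∧ ∃ N0 : ℕ, ∀ j : Bd7I X, j.F.Ok X → N0 ≤ j.F.N → ∀ v, κ ≤ v → v ≤ 1 →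
      (j.atU.chd c0).P.R18 ((j.atU.chd c0).P.d ^ 2) v ≤ (j.atU.chd c0).P.N ^ (-s) := by
  obtain ⟨-, -, -, z4, -, -⟩ := bcp3_num_wc_exp hX
  have hm := hX.mPE_pos
  have hCU := hX.CU_pos
  have hcd := hX.cd_pos
  have hf0 : 0 < cmF (1 / X.cd ^ 3) := cm_f_pos _
  obtain ⟨K, hK⟩ := bcp3_num_r18_abs (δ := X.mPE / 10000) (cC := cmF (1 / X.cd ^ 3) / X.CU ^ 2) hc0 hCU hκ (by positivity) (by linarith) (by positivity)
  obtain ⟨N1, h1⟩ := bcp3_num_weak hX (ε := κ / c0) (by positivity)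
  obtain ⟨N2, h2⟩ := bcp3_num_wc_x (e := 0.2) (by norm_num) K (ε := (3 : ℝ) ^ (-(0.05 : ℝ))) (by positivity)
  refine ⟨0.05, by norm_num, max N1 N2, fun j h hN v hv hv1 => ?_⟩
  obtain ⟨hx0, hx1, hl0, hl1, hu0, hxu, hle, hu, -⟩ := bcp3_num_wc_base hX h
  obtain ⟨m1, m2, m3⟩ := bcp3_num_al_m h
  have hM0 : (0 : ℝ) < j.F.m := by linarith
  have a1 := (h1 j.F h ((le_max_left _ _).trans hN)).2
  have a2 := h2 j.F ((le_max_right _ _).trans hN)
  have hd : c0 * j.F.u ≤ κ := by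
    calc c0 * j.F.u ≤ c0 * (κ / c0) := mul_le_mul_of_nonneg_left a1 hc0.le
      _ = κ := by field_simp
  -- the removal profile at `u`
  have hLam0 : 0 < j.F.Lam := Real.rpow_pos_of_pos hl0 _
  have hCu : cmF (1 / X.cd ^ 3) / X.CU ^ 2 * j.F.x ^ (2.36 : ℝ) ≤ j.F.C X j.F.u := by
    have e1 : j.F.C X j.F.u = j.F.C0 * cmF (j.F.C0 * j.F.u / j.F.dPE X ^ 3) := rfl
    have e2 : j.F.C0 * j.F.u / j.F.dPE X ^ 3 = 1 / X.cd ^ 3 := by
      unfold BdFr.C0 BdFr.dPE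
      have : (j.F.Lam ^ (1 / 3 : ℝ)) ^ 3 = j.F.Lam := by
        rw [← Real.rpow_natCast, ← Real.rpow_mul hLam0.le]; norm_num
      rw [mul_pow, mul_pow, this]
      field_simp
    have e3 : j.F.x ^ (0.36 : ℝ) ≤ j.F.Lam := by
      unfold BdFr.Lam
      calc j.F.x ^ (0.36 : ℝ) = (j.F.x ^ (12 : ℝ)) ^ (0.03 : ℝ) := by rw [← Real.rpow_mul hx0.le]; norm_num
        _ ≤ j.F.lam ^ (0.03 : ℝ) := Real.rpow_le_rpow (Real.rpow_pos_of_pos hx0 _).le h.lam_lo (by norm_num)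
    have e4 : (j.F.x / X.CU) ^ 2 ≤ j.F.u ^ 2 := by
      refine pow_le_pow_left₀ (by positivity) ?_ 2
      rw [div_le_iff₀ hCU]; linarith
    rw [e1, e2]
    unfold BdFr.C0
    calc cmF (1 / X.cd ^ 3) / X.CU ^ 2 * j.F.x ^ (2.36 : ℝ) = (j.F.x / X.CU) ^ 2 * j.F.x ^ (0.36 : ℝ) * cmF (1 / X.cd ^ 3) := by
          have : j.F.x ^ (2.36 : ℝ) = j.F.x ^ (0.36 : ℝ) * j.F.x ^ 2 := by
            rw [← Real.rpow_natCast j.F.x 2, ← Real.rpow_add hx0]; norm_num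
          rw [this]; field_simp
      _ ≤ j.F.u ^ 2 * j.F.Lam * cmF (1 / X.cd ^ 3) :=
          mul_le_mul_of_nonneg_right (mul_le_mul e4 e3 (Real.rpow_pos_of_pos hx0 _).le (by positivity)) hf0.le
  have key := hK j.F.x j.F.u j.F.m v (j.F.C X j.F.u) hx0 hx1.le m1 m2 m3 hu0 hxu hd hv hCu
  have hlow := bcp3_num_r18_lon (c := 3) (a := -6) (z := -(0.05 : ℝ)) hx0 (by norm_num) hM0 m2 (by norm_num)
  have hfin : K * j.F.x ^ (1 / 2 : ℝ) ≤ (j.F.m : ℝ) ^ (-(0.05 : ℝ)) := by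
    refine le_trans ?_ hlow
    have : j.F.x ^ (1 / 2 : ℝ) = j.F.x ^ (0.2 : ℝ) * j.F.x ^ ((-6 : ℝ) * -(0.05 : ℝ)) := by
      rw [← Real.rpow_add hx0]; norm_num
    rw [this, ← mul_assoc]
    exact mul_le_mul_of_nonneg_right a2 (Real.rpow_pos_of_pos hx0 _).le
  exact key.trans hfin

/-- uniform statements on frames hold eventually along a sequence of standard instances -/
theorem bcp3_ev (hi : ∀ j, (i j).Std W Fam) (hN : Tendsto (fun j => (i j).F.N) (U : Filter ℕ) atTop) {Φ : BdFr → Prop}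
    (hΦ : ∃ N0 : ℕ, ∀ F : BdFr, F.Ok X → N0 ≤ F.N → Φ F) : ∀ᶠ j in U, Φ (i j).F := by
  obtain ⟨N0, h0⟩ := hΦ
  filter_upwards [hN.eventually_ge_atTop N0] with j hj
  exact h0 _ (hi j).ok hj

/-- "repeat the weak-removal transfer at `w = u`, now without assuming a violation": standard instances tested at `u` form a weak sequence -/
theorem bcp3_wk (hX : X.Ok) (h7 : Bd7C7a X W Fam cL CL) (hi : ∀ j, (i j).Std W Fam)
    (hN : Tendsto (fun j => (i j).F.N) (U : Filter ℕ) atTop) : BcpWk X W Fam cL CL U (fun j => (i j).atU) where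
  out := by
    obtain ⟨N0, h0⟩ := h7
    filter_upwards [hN.eventually_ge_atTop N0, bcp3_ev hi hN (bcp3_num_wc hX one_pos)] with j hj hwc
    rw [one_mul] at hwc
    have hu0 := BdFr.u_pos' hX (hi j).ok
    exact
      { fam := (hi j).fam
        ok := (hi j).ok
        g_mem := (hi j).g_mem
        opt := (hi j).opt
        w_lo := hwc
        w_hi := bd7_ar_u_le_one hX (hi j).ok
        reg := fun v hv1 hv2 => by
          have hv1' : 2 * (i j).F.u ≤ v := hv1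
          exact h0 ⟨(i j).F, (i j).g, (i j).Q, v⟩ ⟨(hi j).fam, (hi j).ok, (hi j).g_mem, (hi j).opt⟩ hj
            ⟨hwc.trans (by linarith), hv2⟩ }
  N_top := hN
  weak := fun ε hε => (bcp3_ev hi hN (bcp3_num_weak hX hε)).mono fun _ hj => hj.1

/-- the child at `w = u` with a successful minimiser is a PE direct test with `d → 0` -/
theorem bcp3_dir (hK : BcpK X c c0 β0 κ0 cκ Cκ cT CT cL CL) (hP : BcpPE W c cκ Cκ cT CT)
    (hC : BcpChild X W Fam c c0 β0 κ0 cL CL) (hN : BcpNoSep X W Fam c0 cL CL)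
    (h : BcpWk X W Fam cL CL U (fun j => (i j).atU)) {z : ℕ → ℝ → ℝ}
    (hz : P6Succ (bcpFn W) U (fun j => (i j).atU.chd c0) z) :
    BcpDir (bcpFn W) U c (fun j => (i j).atU.chd c0) (fun j => (i j).F.u) z (cL / 4) (4 * CL) 4 β0 κ0 := by
  have hX := hK.hX
  have hev : ∀ {Φ : BdFr → Prop}, (∃ N0 : ℕ, ∀ F : BdFr, F.Ok X → N0 ≤ F.N → Φ F) → ∀ᶠ j in U, Φ (i j).F := by
    rintro Φ ⟨N0, h0⟩
    filter_upwards [h.N_top.eventually_ge_atTop N0, h.out] with j hj ho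
    exact h0 _ ho.ok hj
  have hb := bcp_wk_basic hK h
  have hu : Tendsto (fun j => (i j).F.u) U (𝓝 0) := by
    refine tendsto_order.2 ⟨fun a ha => ?_, fun b hb' => ?_⟩
    · filter_upwards [hb] with j hj
      exact ha.trans hj.1
    · filter_upwards [hev (bcp3_num_weak hX (half_pos hb'))] with j hj
      linarith [hj.2]
  have hnum := bcp_chd_direct_num (c0 := c0) hK h
  exact
    { c1_pos := by linarith [hK.cL_pos]
      C1_pos := by linarith [bcp_CL_ge hK]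
      C0_pos := by norm_num
      seq := hC.seq U _ h
      ord := hC.ord U _ h
      u0 := Eventually.of_forall fun _ => rfl
      marg := hC.marg U _ h
      min := hz.min
      d_lim := by
        have := hu.const_mul c0
        rw [mul_zero] at this
        exact this
      al1 := by
        filter_upwards [hb, hev (bcp3_num_al hX c0)] with j hj h1
        exact (bcp_chd_num (i j).atU hK.c0_pos hj.1 hj.2.2.1).2.2.2.trans h1
      x_pos := hb.mono fun _ hj => hj.1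
      x_lim := hu
      ax := hnum.1
      nE := hnum.2.1
      xe := hnum.2.2
      reg := bcp_chd_reg hK hP hC hN h hz
      r18 := fun κ hκ => by
        obtain ⟨s, hs, N0, h0⟩ := bcp3_num_r18 (c0 := c0) hX hK.c0_pos hκ
        refine ⟨s, hs, ?_⟩
        filter_upwards [h.N_top.eventually_ge_atTop N0, h.out] with j hj ho
        exact h0 (i j) ho.ok hj }

/-- `κ_T > 0` -/
theorem bcp3_kap_pos (hK : BcpK X c c0 β0 κ0 cκ Cκ cT CT cL CL) (hI : BcpIn3 W Sc k c cκ Cκ cT CT qT) :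
    0 < bcpKap Sc X.T (fun s => X.T * qT s) := by
  have hT : 0 < X.T := lt_trans one_pos hK.hX.T1
  have hsub : Ioo (0 : ℝ) 1 ⊆ Icc 0 1 := Ioo_subset_Icc_self
  have hclk : IsClock 1 (fun s => X.T * qT s) := by
    refine ⟨fun a ha b hb hab => ?_, fun v hv => ?_, ⟨X.T, fun v hv => ?_⟩⟩
    · exact mul_le_mul_of_nonneg_left (hI.qt.mono (hsub ha) (hsub hb) hab) hT.le
    · exact mul_nonneg hT.le (hI.qt.mem v (hsub hv)).1
    · exact mul_le_of_le_one_right hT.le (hI.qt.mem v (hsub hv)).2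
  have hbd : ∀ v ∈ Ioo (0 : ℝ) 1, (fun s => X.T * qT s) v ≤ k.Kmax := fun v hv => by
    have h1 : X.T * qT v ≤ X.T := mul_le_of_le_one_right hT.le (hI.qt.mem v (hsub hv)).2
    have h2 := hI.Kmax.2
    rw [hK.T_eq] at h2
    exact h1.trans h2
  have h2 := (hI.sc.a2_mem _ hclk hbd).1
  have h4 := (hI.sc.a4_mem _ hclk hbd).1
  have p2 : 0 < Sc.a2 (fun s => X.T * qT s) := lt_of_lt_of_le hI.sc.c2_pos h2
  have p4 : 0 < -Sc.a4 (fun s => X.T * qT s) := lt_of_lt_of_le hI.sc.c4_pos h4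
  have p4' : 0 < Sc.a4 (fun s => X.T * qT s) ^ 2 := by
    have : Sc.a4 (fun s => X.T * qT s) ≠ 0 := by intro h; rw [h] at p4; simp at p4
    positivity
  unfold bcpKap
  positivity

/-- **the linear quantile limit of the optimiser at the scale `u`** (l.1141: "agreement transfers its linear quantile limit to `r`") -/
theorem bcp3_lim (hK : BcpK X c c0 β0 κ0 cκ Cκ cT CT cL CL) (hκ0 : κ0 + 2 ≤ c.K) (hI : BcpIn3 W Sc k c cκ Cκ cT CT qT)
    (hC : BcpChild X W Fam c c0 β0 κ0 cL CL) (hN : BcpNoSep X W Fam c0 cL CL) (h7 : Bd7C7a X W Fam cL CL)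
    (hi : ∀ j, (i j).Std W Fam) (hNt : Tendsto (fun j => (i j).F.N) (U : Filter ℕ) atTop) :
    ∀ v : ℝ, 0 < v → Tendsto (fun j => (i j).Q.r ((i j).F.u * v) / (i j).F.u) U
      (𝓝 (v / bcpKap Sc X.T (fun s => X.T * qT s))) := by
  have h := bcp3_wk hK.hX h7 hi hNt
  obtain ⟨z, hz⟩ := bcp_succ hK hI.pe hC h
  have hdir := bcp3_dir hK hI.pe hC hN h hz
  have hsl := bcp_k_slope hI hK.ok hK.β0_pos hκ0 hdir
  rw [hK.T_eq] at hsl
  exact bcp_transfer (bcp_ag hK hC hN h hz) hdir.x_lim (bcp_Ysep_big hK h hdir.x_lim) (by linarith [bcp_CL_ge hK] : 0 < CL)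
    (by norm_num : (0 : ℝ) < 2) (bcp_out_reg h) (bcp3_kap_pos hK hI) hsl

/-- **EXIT: (C7), second half.**      TEX[LL:bud:modified-closure]#1107-1145 -/
theorem bcp_C7b (hK : BcpK X c c0 β0 κ0 cκ Cκ cT CT cL CL) (hκ0 : κ0 + 2 ≤ c.K) (hI : BcpIn3 W Sc k c cκ Cκ cT CT qT)
    (hC : BcpChild X W Fam c c0 β0 κ0 cL CL) (hN : BcpNoSep X W Fam c0 cL CL) (h7 : Bd7C7a X W Fam cL CL)
    (hp2 : BcpP2 X Fam (bcpKap Sc X.T (fun s => X.T * qT s))) : Bd7C7b X W Fam := by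
  intro cc C η hcc hcC hη
  have hX := hK.hX
  set κ := bcpKap Sc X.T (fun s => X.T * qT s) with hκdef
  have hκ : 0 < κ := bcp3_kap_pos hK hI
  obtain ⟨N0, h0⟩ := bcp_unif_of_seq (ι := Bd7I X) (N := fun i => i.F.N)
    (P := fun i => i.Std W Fam ∧ i.w ∈ Icc (cc * i.F.u) (C * i.F.u)) (Φ := fun i => |i.Q.r i.w - i.F.q i.w| ≤ η * i.F.u) (by
    intro i hP hNt
    let U : Ultrafilter ℕ := Filter.hyperfilter ℕ
    have hU : (U : Filter ℕ) ≤ atTop := Nat.hyperfilter_le_atTop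
    have hNU : Tendsto (fun j => (i j).F.N) (U : Filter ℕ) atTop := hNt.mono_left hU
    have hi : ∀ j, (i j).Std W Fam := fun j => (hP j).1
    have hu0 : ∀ j, 0 < (i j).F.u := fun j => BdFr.u_pos' hX (hi j).ok
    have hlim := bcp3_lim hK hκ0 hI hC hN h7 hi hNU
    obtain ⟨v0, hv0, hvl⟩ := aq_ultra_lim_Icc U (f := fun j => (i j).w / (i j).F.u) (a := cc) (b := C)
      (Eventually.of_forall fun j => ⟨by rw [le_div_iff₀ (hu0 j)]; exact (hP j).2.1, by rw [div_le_iff₀ (hu0 j)]; exact (hP j).2.2⟩)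
    have hv0p : 0 < v0 := hcc.trans_le hv0.1
    have hx1 : ∀ a : ℝ, ∀ᶠ j in U, a * (i j).F.u ≤ 1 := by
      intro a
      filter_upwards [bcp3_ev hi hNU (bcp3_num_weak hX (show 0 < 1 / (|a| + 1) by positivity))] with j hj
      have h1 := hj.2
      rw [le_div_iff₀ (by positivity)] at h1
      have h2 : a * (i j).F.u ≤ |a| * (i j).F.u := mul_le_mul_of_nonneg_right (le_abs_self a) (hu0 j).le
      nlinarith [hu0 j]
    have hmv := bcp_moving (U := U) (x := fun j => (i j).F.u) (f := fun j => (i j).Q.r) (φ := fun s => s / κ)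
      (v := fun j => (i j).w / (i j).F.u) (Eventually.of_forall hu0) hx1
      (Eventually.of_forall fun j => bd7_q_r_mono (i j).Q (hi j).ok) hv0p hvl (by fun_prop) hlim
    obtain ⟨N1, h1⟩ := hp2 cc C (η / 4) hcc hcC (by positivity)
    have e1 : ∀ᶠ j in U, |(i j).Q.r ((i j).F.u * ((i j).w / (i j).F.u)) / (i j).F.u - v0 / κ| < η / 4 := by
      have := (tendsto_sub_nhds_zero_iff.2 hmv).abs
      rw [abs_zero] at this
      exact (tendsto_order.1 this).2 _ (by positivity)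
    have e2 : ∀ᶠ j in U, |(i j).w / (i j).F.u - v0| < η / 4 * κ := by
      have := (tendsto_sub_nhds_zero_iff.2 hvl).abs
      rw [abs_zero] at this
      exact (tendsto_order.1 this).2 _ (by positivity)
    obtain ⟨j, a1, a2, a3⟩ := (e1.and (e2.and (hNU.eventually_ge_atTop N1))).exists
    refine ⟨j, ?_⟩
    have hu := hu0 j
    have a4 := h1 (i j).F (hi j).fam (hi j).ok a3 (i j).w (hP j).2
    have e3 : (i j).F.u * ((i j).w / (i j).F.u) = (i j).w := by field_simp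
    rw [e3] at a1
    have b1 : |(i j).Q.r (i j).w - v0 / κ * (i j).F.u| ≤ η / 4 * (i j).F.u := by
      have : (i j).Q.r (i j).w - v0 / κ * (i j).F.u = ((i j).Q.r (i j).w / (i j).F.u - v0 / κ) * (i j).F.u := by field_simp
      rw [this, abs_mul, abs_of_pos hu]
      exact mul_le_mul_of_nonneg_right a1.le hu.le
    have b2 : |v0 / κ * (i j).F.u - (i j).w / κ| ≤ η / 4 * (i j).F.u := by
      have : v0 / κ * (i j).F.u - (i j).w / κ = -(((i j).w / (i j).F.u - v0) * ((i j).F.u / κ)) := by field_simp; ring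
      rw [this, abs_neg, abs_mul, abs_of_pos (div_pos hu hκ)]
      calc |(i j).w / (i j).F.u - v0| * ((i j).F.u / κ) ≤ η / 4 * κ * ((i j).F.u / κ) :=
            mul_le_mul_of_nonneg_right a2.le (div_pos hu hκ).le
        _ = η / 4 * (i j).F.u := by field_simp
    have b3 := abs_le.1 b1
    have b4 := abs_le.1 b2
    have b5 := abs_le.1 a4
    show |(i j).Q.r (i j).w - (i j).F.q (i j).w| ≤ η * (i j).F.u
    rw [abs_le]
    constructor <;> nlinarith [b3.1, b3.2, b4.1, b4.2, b5.1, b5.2])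
  exact ⟨N0, fun i a1 a2 a3 => h0 i ⟨a1, a3⟩ a2⟩

/-- (C7b) + (P2): `|r(v) - v/κ| ≤ η u` on compact bands, and in the inverse variable `|α(ρ) - κ ρ| ≤ η u` -/
theorem bcp3_al {κ : ℝ} (hX : X.Ok) (hκ : 0 < κ) (h7b : Bd7C7b X W Fam) (hp2 : BcpP2 X Fam κ) {c C η : ℝ} (hc : 0 < c) (hcC : c ≤ C) (hη : 0 < η) :
    ∃ N0 : ℕ, ∀ j : Bd7I X, j.Std W Fam → N0 ≤ j.F.N → ∀ ρ ∈ Icc (c * j.F.u) (C * j.F.u), |j.Q.al ρ - κ * ρ| ≤ η * j.F.u := by
  -- a smaller accuracy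
  set η0 : ℝ := min η (κ * c / 2) with hη0
  have hη00 : 0 < η0 := lt_min hη (by positivity)
  have hη01 : η0 ≤ η := min_le_left _ _
  have hη02 : η0 ≤ κ * c / 2 := min_le_right _ _
  set c' : ℝ := κ * c / 2 with hc'
  set C' : ℝ := κ * C + η0 with hC'
  have hc'0 : 0 < c' := by positivity
  have hcC' : c' ≤ C' := by
    have : κ * c ≤ κ * C := mul_le_mul_of_nonneg_left hcC hκ.le
    rw [hc', hC']; linarith
  set η1 : ℝ := η0 / (4 * κ) with hη1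
  have hη10 : 0 < η1 := by positivity
  obtain ⟨N1, h1⟩ := h7b c' C' η1 hc'0 hcC' hη10
  obtain ⟨N2, h2⟩ := hp2 c' C' η1 hc'0 hcC' hη10
  have hC0 : 0 < C := hc.trans_le hcC
  have hC'0 : 0 < C' := hc'0.trans_le hcC'
  have hD : 0 < C' + C + 1 := by linarith
  obtain ⟨N3, h3⟩ := bcp3_num_weak hX (ε := 1 / (C' + C + 1)) (by positivity)
  refine ⟨max (max N1 N2) N3, fun j hj hN ρ hρ => ?_⟩
  have hN1 : N1 ≤ j.F.N := (le_max_left _ _).trans ((le_max_left _ _).trans hN)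
  have hN2 : N2 ≤ j.F.N := (le_max_right _ _).trans ((le_max_left _ _).trans hN)
  have hN3 : N3 ≤ j.F.N := (le_max_right _ _).trans hN
  have hu0 : 0 < j.F.u := BdFr.u_pos' hX hj.ok
  have hu1 : (C' + C + 1) * j.F.u ≤ 1 := by
    have := (h3 j.F hj.ok hN3).2
    calc (C' + C + 1) * j.F.u ≤ (C' + C + 1) * (1 / (C' + C + 1)) := mul_le_mul_of_nonneg_left this hD.le
      _ = 1 := by field_simp
  -- `|r v - v/κ| ≤ 2 η1 u` on the band
  have hr : ∀ v ∈ Icc (c' * j.F.u) (C' * j.F.u), |j.Q.r v - v / κ| ≤ 2 * η1 * j.F.u := by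
    intro v hv
    have a1 := h1 ⟨j.F, j.g, j.Q, v⟩ ⟨hj.fam, hj.ok, hj.g_mem, hj.opt⟩ hN1 hv
    have a2 := h2 j.F hj.fam hj.ok hN2 v hv
    have a1' : |j.Q.r v - j.F.q v| ≤ η1 * j.F.u := a1
    calc |j.Q.r v - v / κ| = |(j.Q.r v - j.F.q v) + (j.F.q v - v / κ)| := by ring_nf
      _ ≤ |j.Q.r v - j.F.q v| + |j.F.q v - v / κ| := abs_add_le _ _
      _ ≤ 2 * η1 * j.F.u := by linarith
  have hρ0 : 0 < ρ := lt_of_lt_of_le (by positivity) hρ.1
  have hρ1 : ρ ≤ 1 := by nlinarith [hρ.2]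
  have hρI : ρ ∈ Icc (0 : ℝ) 1 := ⟨hρ0.le, hρ1⟩
  have hκρ1 : κ * c * j.F.u ≤ κ * ρ := by
    have := mul_le_mul_of_nonneg_left hρ.1 hκ.le
    linarith
  have hκρ2 : κ * ρ ≤ κ * C * j.F.u := by
    have := mul_le_mul_of_nonneg_left hρ.2 hκ.le
    linarith
  have hη0u : η0 * j.F.u ≤ κ * c / 2 * j.F.u := mul_le_mul_of_nonneg_right hη02 hu0.le
  have e4 : 2 * η1 * j.F.u = η0 * j.F.u / (2 * κ) := by rw [hη1]; field_simp; ring
  have hpos : 0 < η0 * j.F.u / (2 * κ) := by positivity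
  have hmono := bd7_q_al_mono j.Q hj.ok
  -- upper point
  have hup : j.Q.al ρ ≤ κ * ρ + η0 * j.F.u := by
    set v : ℝ := κ * ρ + η0 * j.F.u with hv
    have hvb : v ∈ Icc (c' * j.F.u) (C' * j.F.u) := by
      constructor
      · rw [hc']; nlinarith
      · rw [hC']; nlinarith
    have hvI : v ∈ Icc (0 : ℝ) 1 := ⟨le_trans (by positivity) hvb.1, by nlinarith [hvb.2]⟩
    have a := (abs_le.1 (hr v hvb)).1
    have e5 : v / κ = ρ + η0 * j.F.u / κ := by rw [hv]; field_simp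
    have e6 : η0 * j.F.u / κ = 2 * (η0 * j.F.u / (2 * κ)) := by field_simp
    have hle : ρ ≤ j.Q.r v := by rw [e5, e4, e6] at a; linarith
    have := hmono hρI (j.Q.r_mem v hvI) hle
    rwa [j.Q.al_r v hvI] at this
  -- lower point
  have hlo : κ * ρ - η0 * j.F.u ≤ j.Q.al ρ := by
    set v : ℝ := κ * ρ - η0 * j.F.u with hv
    have hvb : v ∈ Icc (c' * j.F.u) (C' * j.F.u) := by
      constructor
      · rw [hc']; nlinarith
      · rw [hC']; nlinarith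
    have hvI : v ∈ Icc (0 : ℝ) 1 := ⟨le_trans (by positivity) hvb.1, by nlinarith [hvb.2]⟩
    have a := (abs_le.1 (hr v hvb)).2
    have e5 : v / κ = ρ - η0 * j.F.u / κ := by rw [hv]; field_simp
    have e6 : η0 * j.F.u / κ = 2 * (η0 * j.F.u / (2 * κ)) := by field_simp
    have hle : j.Q.r v ≤ ρ := by rw [e5, e4, e6] at a; linarith
    have := hmono (j.Q.r_mem v hvI) hρI hle
    rwa [j.Q.al_r v hvI] at this
  have hfin : η0 * j.F.u ≤ η * j.F.u := mul_le_mul_of_nonneg_right hη01 hu0.le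
  rw [abs_le]
  constructor <;> linarith

/-- a radius interval which carries more mass than its floor mass contains a nonfloor radius -/
theorem bcp_C7c_nonfloor {j : Bd7I X} (hF : j.F.Ok X) {H : ℝ → ℝ} (hH : j.Flat W H) {s t : ℝ} (hs : 0 ≤ s) (hst : s ≤ t) (ht : t ≤ 1)
    (hm : ∫ r in s..t, j.F.kbar X r < j.Q.al t - j.Q.al s) : ∃ ρ ∈ Icc s t, H ρ ≤ 0 := by
  by_contra hcon
  push Not at hcon
  have hsI : s ∈ Icc (0 : ℝ) 1 := ⟨hs, hst.trans ht⟩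
  have htI : t ∈ Icc (0 : ℝ) 1 := ⟨hs.trans hst, ht⟩
  have e1 : {r | 0 < H r} ∩ Icc s t = Icc s t := inter_eq_self_of_subset_right fun r hr => hcon r hr
  have h1 := hH.fl_mass s t hs hst ht
  rw [e1] at h1
  have hsub : Icc (j.Q.al s) (j.Q.al t) ⊆ j.Q.al '' Icc s t := by
    intro y hy
    have hyI : y ∈ Icc (0 : ℝ) 1 := ⟨(bd7_q_al_mem j.Q hF hsI).1.trans hy.1, hy.2.trans (bd7_q_al_mem j.Q hF htI).2⟩
    refine ⟨j.Q.r y, ⟨?_, ?_⟩, j.Q.al_r y hyI⟩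
    · have := bd7_q_r_mono j.Q hF (bd7_q_al_mem j.Q hF hsI) hyI hy.1
      rwa [j.Q.r_al s hsI] at this
    · have := bd7_q_r_mono j.Q hF hyI (bd7_q_al_mem j.Q hF htI) hy.2
      rwa [j.Q.r_al t htI] at this
  have h2 : ENNReal.ofReal (j.Q.al t - j.Q.al s) ≤ ENNReal.ofReal (∫ r in s..t, j.F.kbar X r) := by
    rw [← Real.volume_Icc]
    exact (measure_mono hsub).trans h1
  have h0 : 0 ≤ ∫ r in s..t, j.F.kbar X r := intervalIntegral.integral_nonneg hst fun r _ => bd7_q_kbar_nonneg hF r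
  have := (ENNReal.ofReal_le_ofReal_iff h0).1 h2
  linarith

/-- **EXIT: l.1146-1149**, `S - r = o(u)` uniformly on compact positive radius bands of scale `u` inside the constant region:
`α` has mass `≥ κ δ u/2` on `[ρ, ρ + δ u]` and on `[ρ - δ u, ρ]` (`bcp3_al`), the floor mass there is `o(u)`, so both contain a nonfloor radius; `|S - r| ≤ 2/M_j` there; `S ∘ α` is monotone.      TEX[LL:bud:modified-closure]#1146-1150 -/
theorem bcp_C7c {κ : ℝ} (hX : X.Ok) (hκ : 0 < κ) (ha1 : ∀ m, (W.ps m).a = 1) (hadm : Bd7Adm X W Fam Kb) (h7b : Bd7C7b X W Fam)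
    (hp2 : BcpP2 X Fam κ) (hg : BcpGeo X W Fam) : Bd7C7c X W Fam := by
  intro c C η hc hcC hCI hη
  have hcI := hX.cI_pos
  set δ : ℝ := min (η / 4) (min ((X.cI - C) / 4) (c / 2)) with hδ
  have hδ0 : 0 < δ := lt_min (by positivity) (lt_min (by linarith) (by positivity))
  have hδ1 : δ ≤ η / 4 := min_le_left _ _
  have hδ2 : δ ≤ (X.cI - C) / 4 := (min_le_right _ _).trans (min_le_left _ _)
  have hδ3 : δ ≤ c / 2 := (min_le_right _ _).trans (min_le_right _ _)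
  obtain ⟨N1, h1⟩ := bcp3_al hX hκ h7b hp2 (c := c / 2) (C := C + δ) (η := κ * δ / 4) (by positivity) (by linarith) (by positivity)
  obtain ⟨N2, h2⟩ := bcp3_num_floor hX (ε := κ * δ / 4) (by positivity)
  obtain ⟨N3, h3⟩ := bcp3_num_cap hX (ε := δ) hδ0
  obtain ⟨N4, h4⟩ := bcp3_num_weak hX (ε := 1 / (X.cI + 1)) (by positivity)
  obtain ⟨N5, h5⟩ := hadm
  obtain ⟨N6, h6⟩ := hg
  refine ⟨max (max (max N1 N2) (max N3 N4)) (max N5 N6), fun j hj hN hw => ?_⟩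
  have hN1 : N1 ≤ j.F.N := (le_max_left _ _).trans ((le_max_left _ _).trans ((le_max_left _ _).trans hN))
  have hN2 : N2 ≤ j.F.N := (le_max_right _ _).trans ((le_max_left _ _).trans ((le_max_left _ _).trans hN))
  have hN3 : N3 ≤ j.F.N := (le_max_left _ _).trans ((le_max_right _ _).trans ((le_max_left _ _).trans hN))
  have hN4 : N4 ≤ j.F.N := (le_max_right _ _).trans ((le_max_right _ _).trans ((le_max_left _ _).trans hN))
  have hN5 : N5 ≤ j.F.N := (le_max_left _ _).trans ((le_max_right _ _).trans hN)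
  have hN6 : N6 ≤ j.F.N := (le_max_right _ _).trans ((le_max_right _ _).trans hN)
  have hF := hj.ok
  have hu0 : 0 < j.F.u := BdFr.u_pos' hX hF
  have hcu : X.cI * j.F.u < 1 := by
    have := (h4 j.F hF hN4).2
    calc X.cI * j.F.u ≤ X.cI * (1 / (X.cI + 1)) := mul_le_mul_of_nonneg_left this hcI.le
      _ < 1 := by rw [mul_one_div, div_lt_one (by linarith)]; linarith
  obtain ⟨-, -, cb, ch, -⟩ := h5 j hj hN5
  obtain ⟨H, hH⟩ := h6 j hj hN6
  have hal := h1 j hj hN1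
  have hfl := h2 j.F hF hN2
  have hcap := h3 j.F hF hN3
  set ρ := j.w with hρ
  set u := j.F.u with hu
  have hδu : 0 < δ * u := by positivity
  -- positions
  have p1 : c / 2 * u ≤ ρ - δ * u := by nlinarith [hw.1]
  have p2 : ρ + δ * u ≤ (C + δ) * u := by nlinarith [hw.2]
  have p3 : (C + 2 * δ) * u ≤ X.cI * u := mul_le_mul_of_nonneg_right (by linarith) hu0.le
  have p0 : 0 < c / 2 * u := by positivity
  have bnd : ∀ r, ρ - δ * u ≤ r → r ≤ ρ + δ * u → r ∈ Icc (c / 2 * u) ((C + δ) * u) := fun r a b => ⟨p1.trans a, b.trans p2⟩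
  have inI : ∀ r, ρ - δ * u ≤ r → r ≤ ρ + δ * u → r ∈ Ioo (0 : ℝ) 1 := fun r a b =>
    ⟨lt_of_lt_of_le p0 (p1.trans a), by nlinarith⟩
  -- the mass of the two intervals
  have mass : ∀ s t, ρ - δ * u ≤ s → t ≤ ρ + δ * u → t - s = δ * u → ∫ r in s..t, j.F.kbar X r < j.Q.al t - j.Q.al s := by
    intro s t hs ht hts
    have hst : s ≤ t := by linarith
    have a1 := abs_le.1 (hal s (bnd s hs (by linarith)))
    have a2 := abs_le.1 (hal t (bnd t (by linarith) ht))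
    have a3 := hfl s t (inI s hs (by linarith)).1.le hst (by nlinarith)
    have e : κ * t - κ * s = κ * δ * u := by rw [← mul_sub, hts]; ring
    have hpos : 0 < κ * δ / 4 * u := by positivity
    nlinarith [a1.1, a1.2, a2.1, a2.2]
  obtain ⟨ρ2, hρ2, hH2⟩ := bcp_C7c_nonfloor hF hH (s := ρ) (t := ρ + δ * u) (inI ρ (by linarith) (by linarith)).1.le (by linarith)
    (inI (ρ + δ * u) (by linarith) le_rfl).2.le (mass _ _ (by linarith) le_rfl (by ring))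
  obtain ⟨ρ1, hρ1, hH1⟩ := bcp_C7c_nonfloor hF hH (s := ρ - δ * u) (t := ρ) (inI (ρ - δ * u) le_rfl (by linarith)).1.le (by linarith)
    (inI ρ (by linarith) (by linarith)).2.le (mass _ _ le_rfl (by linarith) (by ring))
  have f2 := abs_le.1 (hH.flat ρ2 (inI ρ2 (by linarith [hρ2.1]) hρ2.2).1 (by nlinarith [hρ2.2]) hH2)
  have f1 := abs_le.1 (hH.flat ρ1 (inI ρ1 hρ1.1 (by linarith [hρ1.2])).1 (by nlinarith [hρ1.2]) hH1)
  -- monotonicity of `S ∘ α`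
  have hSm : MonotoneOn (j.Q.Sq W j.g) (Ioo 0 1) := by
    have := (W.ps j.F.m).S_mono (j.Q.bq j.g) (j.Q.hq j.g) (by rw [ha1]; exact cb) (by rw [ha1]; exact ch)
    rw [ha1] at this
    exact this
  have hIρ := inI ρ (by linarith) (by linarith)
  have hI1 := inI ρ1 hρ1.1 (by linarith [hρ1.2])
  have hI2 := inI ρ2 (by linarith [hρ2.1]) hρ2.2
  have hmono := bd7_q_al_mono j.Q hF
  have s2 : j.Q.Sq W j.g (j.Q.al ρ) ≤ j.Q.Sq W j.g (j.Q.al ρ2) :=
    hSm (bd7_q_al_mem_Ioo j.Q hF hIρ) (bd7_q_al_mem_Ioo j.Q hF hI2) (hmono (Ioo_subset_Icc_self hIρ) (Ioo_subset_Icc_self hI2) hρ2.1)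
  have s1 : j.Q.Sq W j.g (j.Q.al ρ1) ≤ j.Q.Sq W j.g (j.Q.al ρ) :=
    hSm (bd7_q_al_mem_Ioo j.Q hF hI1) (bd7_q_al_mem_Ioo j.Q hF hIρ) (hmono (Ioo_subset_Icc_self hI1) (Ioo_subset_Icc_self hIρ) hρ1.2)
  have e2 : 2 / j.F.Mj = 2 * (1 / j.F.Mj) := by ring
  rw [e2] at f1 f2
  have hηu : 4 * δ * u ≤ η * u := mul_le_mul_of_nonneg_right (by linarith) hu0.le
  rw [abs_le]
  constructor
  · linarith [f1.1, hρ1.1]
  · linarith [f2.2, hρ2.2]

/-- `β_0(q v) = v` inside the constant region: a flat piece of `q` would be a jump of `β_0` -/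
theorem bcp_C7al_inv {K : BdCst} (hS : BdStd X W Fam K) {F : BdFr} (hF : Fam F) {v : ℝ} (hv : v ∈ Icc (0 : ℝ) 1) (hq : F.q v < X.cI * F.u) :
    F.beta0 (F.q v) = v := by
  have hq0 : 0 ≤ F.q v := (hS.q_mem F hF v hv).1
  have hle : F.beta0 (F.q v) ≤ v := by
    unfold BdFr.beta0 bdInv
    exact csInf_le ⟨0, fun s hs => hs.1⟩ ⟨hv.1, le_rfl⟩
  refine le_antisymm hle ?_
  by_contra hcon
  rw [not_le] at hcon
  set D : ℝ := v - F.beta0 (F.q v) with hD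
  have hD0 : 0 < D := by linarith
  set t : ℝ := min (X.cI * F.u - F.q v) (D / (2 * (|K.Cb| + 1))) with ht
  have ht0 : 0 < t := lt_min (by linarith) (by positivity)
  set y : ℝ := F.q v + t with hy
  have hy1 : y ≤ X.cI * F.u := by
    have : t ≤ X.cI * F.u - F.q v := min_le_left _ _
    linarith
  have hy0 : 0 < y := by linarith
  -- `β_0 y ≥ v`
  have h1 : v ≤ F.beta0 y := by
    have hpos : 0 < F.beta0 y := by
      have := (hS.beta F hF 0 y le_rfl hy0.le hy1).1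
      rw [hS.beta_zero F hF] at this
      have h2 : 0 < K.cb * (y - 0) := mul_pos hS.cb_pos (by linarith)
      linarith
    have hne : {s : ℝ | 0 ≤ s ∧ y ≤ F.q s}.Nonempty := by
      by_contra hemp
      rw [not_nonempty_iff_eq_empty] at hemp
      have : F.beta0 y = 0 := by
        unfold BdFr.beta0 bdInv
        rw [hemp, Real.sInf_empty]
      linarith
    unfold BdFr.beta0 bdInv
    refine le_csInf hne fun s hs => ?_
    by_contra hsv
    rw [not_le] at hsv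
    have := hS.q_mono F hF ⟨hs.1, hsv.le.trans hv.2⟩ hv hsv.le
    linarith [hs.2]
  have h2 := (hS.beta F hF (F.q v) y hq0 (by linarith) hy1).2
  have h3 : K.Cb * (y - F.q v) ≤ D / 2 := by
    have e : y - F.q v = t := by rw [hy]; ring
    rw [e]
    have a1 : t ≤ D / (2 * (|K.Cb| + 1)) := min_le_right _ _
    calc K.Cb * t ≤ (|K.Cb| + 1) * t := mul_le_mul_of_nonneg_right (by linarith [le_abs_self K.Cb]) ht0.le
      _ ≤ (|K.Cb| + 1) * (D / (2 * (|K.Cb| + 1))) := mul_le_mul_of_nonneg_left a1 (by positivity)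
      _ = D / 2 := by field_simp
  linarith

/-- `β_0` is Lipschitz on the constant region -/
theorem bcp_C7al_lip {K : BdCst} (hS : BdStd X W Fam K) {F : BdFr} (hF : Fam F) {a b : ℝ} (ha : a ∈ Icc 0 (X.cI * F.u)) (hb : b ∈ Icc 0 (X.cI * F.u)) :
    |F.beta0 a - F.beta0 b| ≤ (|K.Cb| + 1) * |a - b| := by
  have key : ∀ a b : ℝ, 0 ≤ a → a ≤ b → b ≤ X.cI * F.u → |F.beta0 a - F.beta0 b| ≤ (|K.Cb| + 1) * |a - b| := by
    intro a b ha hab hb
    obtain ⟨h1, h2⟩ := hS.beta F hF a b ha hab hb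
    have h0 : 0 ≤ K.cb * (b - a) := mul_nonneg hS.cb_pos.le (by linarith)
    have e1 : |F.beta0 a - F.beta0 b| = F.beta0 b - F.beta0 a := by
      rw [abs_sub_comm]; exact abs_of_nonneg (by linarith)
    have e2 : |a - b| = b - a := by
      rw [abs_sub_comm]; exact abs_of_nonneg (by linarith)
    rw [e1, e2]
    exact h2.trans (mul_le_mul_of_nonneg_right (by linarith [le_abs_self K.Cb]) (by linarith))
  rcases le_total a b with h | h
  · exact key a b ha.1 h hb.2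
  · rw [abs_sub_comm, abs_sub_comm a b]
    exact key b a hb.1 h ha.2

/-- **EXIT: (C7), second half, in the inverse variable** (the input `BudC7al` of helper212): `β_0 = q⁻¹` has slopes in `[cb, Cb]` on `[0, c_I u]` (`BdStd.beta`), `β_0(q v) = v`, `|q(α ρ) - ρ| = o(u)` -/
theorem bcp_C7al {K : BdCst} (hS : BdStd X W Fam K) (hcL : 0 < cL) (h7a : Bd7C7a X W Fam cL CL) (h7b : Bd7C7b X W Fam) :
    BudC7al X W Fam := by
  have hX := hS.fix
  unfold BudC7al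
  rw [bd_o_iff (fun _ _ => abs_nonneg _) (fun i hi => (BdFr.u_pos' hX (hS.ok _ hi.1.1)).le)]
  intro ε hε
  obtain ⟨hplo, hp1, hp2, hp3, hphi⟩ := hX.pat 0 (Nat.zero_le _)
  have hphi0 : 0 < X.phi 0 := by linarith
  have hcI := hX.cI_pos
  set CL' : ℝ := max CL 1 with hCL'
  have hCL'0 : 0 < CL' := lt_of_lt_of_le one_pos (le_max_right _ _)
  set η : ℝ := min (ε / (|K.Cb| + 1)) ((X.cI - X.phi 0) / 2) with hη
  have hη0 : 0 < η := lt_min (by positivity) (by linarith)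
  have hη1 : η ≤ ε / (|K.Cb| + 1) := min_le_left _ _
  have hη2 : η ≤ (X.cI - X.phi 0) / 2 := min_le_right _ _
  set cb : ℝ := X.plo 0 / CL' with hcb
  set Cb : ℝ := max (X.phi 0 / cL) cb with hCb
  have hcb0 : 0 < cb := by positivity
  obtain ⟨N1, h1⟩ := h7a
  obtain ⟨N2, h2⟩ := h7b cb Cb η hcb0 (le_max_right _ _) hη0
  obtain ⟨N3, h3⟩ := bcp3_num_wc hX (ε := X.plo 0 / (2 * CL')) (by positivity)
  obtain ⟨N4, h4⟩ := bcp3_num_weak hX (ε := min (1 / (X.cI + 1)) (2 * CL' / X.plo 0)) (lt_min (by positivity) (by positivity))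
  refine ⟨max (max N1 N2) (max N3 N4), fun i hi hN => ?_⟩
  obtain ⟨I, ρ⟩ := i
  obtain ⟨⟨hFam, hg, hopt⟩, hρ⟩ := hi
  have hN1 : N1 ≤ I.F.N := (le_max_left _ _).trans ((le_max_left _ _).trans hN)
  have hN2 : N2 ≤ I.F.N := (le_max_right _ _).trans ((le_max_left _ _).trans hN)
  have hN3 : N3 ≤ I.F.N := (le_max_left _ _).trans ((le_max_right _ _).trans hN)
  have hN4 : N4 ≤ I.F.N := (le_max_right _ _).trans ((le_max_right _ _).trans hN)
  have hF : I.F.Ok X := hS.ok _ hFam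
  have hu0 : 0 < I.F.u := BdFr.u_pos' hX hF
  have hstd : ∀ w : ℝ, (⟨I.F, I.g, I.Q, w⟩ : Bd7I X).Std W Fam := fun w => ⟨hFam, hF, hg, hopt⟩
  have hus := (h4 I.F hF hN4).2
  have hcu : X.cI * I.F.u < 1 := by
    calc X.cI * I.F.u ≤ X.cI * (1 / (X.cI + 1)) := mul_le_mul_of_nonneg_left (hus.trans (min_le_left _ _)) hcI.le
      _ < 1 := by rw [mul_one_div, div_lt_one (by linarith)]; linarith
  have hwc := h3 I.F hF hN3
  have hwc0 : 0 < I.F.wc X := BdFr.wc_pos' hX hF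
  have hwc1 : I.F.wc X ≤ 1 := by
    calc I.F.wc X ≤ X.plo 0 / (2 * CL') * I.F.u := hwc
      _ ≤ X.plo 0 / (2 * CL') * (2 * CL' / X.plo 0) := mul_le_mul_of_nonneg_left (hus.trans (min_le_right _ _)) (by positivity)
      _ = 1 := by field_simp
  simp only at hρ ⊢
  have hρ0 : 0 < ρ := lt_of_lt_of_le (by positivity) hρ.1
  have hρc : ρ < X.cI * I.F.u := lt_of_le_of_lt hρ.2 (mul_lt_mul_of_pos_right hphi hu0)
  have hρI : ρ ∈ Icc (0 : ℝ) 1 := ⟨hρ0.le, by linarith⟩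
  set v : ℝ := I.Q.al ρ with hv
  have hvI : v ∈ Icc (0 : ℝ) 1 := bd7_q_al_mem I.Q hF hρI
  have hrv : I.Q.r v = ρ := I.Q.r_al ρ hρI
  -- `v ≥ w_c`
  have hvw : I.F.wc X ≤ v := by
    by_contra hcon
    rw [not_le] at hcon
    have a1 := bd7_q_r_mono I.Q hF hvI ⟨hwc0.le, hwc1⟩ hcon.le
    have a2 : I.Q.r (I.F.wc X) ≤ CL * I.F.wc X := (h1 ⟨I.F, I.g, I.Q, I.F.wc X⟩ (hstd _) hN1 ⟨le_rfl, hwc1⟩).2
    have a3 : CL * I.F.wc X ≤ CL' * I.F.wc X := mul_le_mul_of_nonneg_right (le_max_left _ _) hwc0.le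
    have a4 : CL' * I.F.wc X ≤ X.plo 0 / 2 * I.F.u := by
      calc CL' * I.F.wc X ≤ CL' * (X.plo 0 / (2 * CL') * I.F.u) := mul_le_mul_of_nonneg_left hwc hCL'0.le
        _ = X.plo 0 / 2 * I.F.u := by field_simp
    have a5 : 0 < X.plo 0 / 2 * I.F.u := by positivity
    rw [hrv] at a1
    linarith [hρ.1]
  have hv0 : 0 < v := hwc0.trans_le hvw
  obtain ⟨g1, g2⟩ : cL * v ≤ I.Q.r v ∧ I.Q.r v ≤ CL * v := h1 ⟨I.F, I.g, I.Q, v⟩ (hstd _) hN1 ⟨hvw, hvI.2⟩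
  rw [hrv] at g1 g2
  -- `v` lies in the band
  have hband : v ∈ Icc (cb * I.F.u) (Cb * I.F.u) := by
    constructor
    · have a1 : ρ ≤ CL' * v := g2.trans (mul_le_mul_of_nonneg_right (le_max_left _ _) hv0.le)
      calc cb * I.F.u = X.plo 0 * I.F.u / CL' := by rw [hcb]; ring
        _ ≤ ρ / CL' := div_le_div_of_nonneg_right hρ.1 hCL'0.le
        _ ≤ v := by rw [div_le_iff₀ hCL'0]; linarith
    · calc v ≤ ρ / cL := by rw [le_div_iff₀ hcL]; linarith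
        _ ≤ X.phi 0 * I.F.u / cL := div_le_div_of_nonneg_right hρ.2 hcL.le
        _ = X.phi 0 / cL * I.F.u := by ring
        _ ≤ Cb * I.F.u := mul_le_mul_of_nonneg_right (le_max_left _ _) hu0.le
  have hrq : |I.Q.r v - I.F.q v| ≤ η * I.F.u := h2 ⟨I.F, I.g, I.Q, v⟩ (hstd _) hN2 hband
  rw [hrv] at hrq
  have hrq' := abs_le.1 hrq
  have hq0 : 0 ≤ I.F.q v := (hS.q_mem _ hFam v hvI).1
  have hqc : I.F.q v < X.cI * I.F.u := by
    have a1 : η * I.F.u ≤ (X.cI - X.phi 0) / 2 * I.F.u := mul_le_mul_of_nonneg_right hη2 hu0.le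
    have a2 : 0 < (X.cI - X.phi 0) / 2 * I.F.u := mul_pos (by linarith) hu0
    nlinarith [hρ.2, hrq'.1]
  have hinv := bcp_C7al_inv hS hFam hvI hqc
  calc |v - I.F.beta0 ρ| = |I.F.beta0 (I.F.q v) - I.F.beta0 ρ| := by rw [hinv]
    _ ≤ (|K.Cb| + 1) * |I.F.q v - ρ| := bcp_C7al_lip hS hFam ⟨hq0, hqc.le⟩ ⟨hρ0.le, hρc.le⟩
    _ ≤ (|K.Cb| + 1) * (η * I.F.u) := by
        rw [abs_sub_comm]; exact mul_le_mul_of_nonneg_left hrq (by positivity)
    _ ≤ (|K.Cb| + 1) * (ε / (|K.Cb| + 1) * I.F.u) :=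
        mul_le_mul_of_nonneg_left (mul_le_mul_of_nonneg_right hη1 hu0.le) (by positivity)
    _ = ε * I.F.u := by field_simp

end step3b

/-! ## G. Assembly: the two fields `weak`, `c7b` of `Bd7In` (`Bud/L07X.lean`, helper12), and (C7c) -/

/-- **ALL the imports of Steps 1 and 3 in one record**; the loose constants `cL CL` are still FREE (any pair outside the PE constants `p6Lo Cκ cT`, `p6Hi cκ CT`).
ORDER OF THE CONSTANTS: `T`, `m_PE` ; `c : P6C` (`c.m = m_PE`, `c.Tinf = T`, `c.K ≥ κ0 + 2`) ; `cκ Cκ cT CT` (`exit_prop` at `c`) ; `Sc k qT` ; `c0 β0 κ0` ; then `X`, the family, `cL CL`.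
NOTE: `p6Lo`, `p6Hi` depend on `c`, hence on `X.mPE`: whoever wants `cL CL` BEFORE `X` must fix `X.mPE` before `X` (it is a function of `Fx` in `bi_fix_ex`).
PRODUCERS: `in3` 252 (`Exit/P6Tm`) + 142 (`Exit/BcpSk`) + 290 ; `child` 129 (`bd7w_child`) ; `nosep` 186 (`Bud/L07Wb/c`) ; `p2` 95. -/
structure BcpAll (X : BdFix) (W : BdWorld) (Fam : BdFr → Prop) (Sc : Bd7Sc) (k : Bd7ScC) (c : P6C)
    (c0 β0 κ0 cκ Cκ cT CT : ℝ) (qT : ℝ → ℝ) : Prop where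
  hX : X.Ok
  ok : c.Ok
  m_eq : c.m = X.mPE
  T_eq : c.Tinf = X.T
  c0_pos : 0 < c0
  β0_pos : 0 < β0
  K_le : κ0 + 2 ≤ c.K
  in3 : BcpIn3 W Sc k c cκ Cκ cT CT qT
  child : ∀ cL CL : ℝ, 0 < cL → cL ≤ p6Lo Cκ cT → p6Hi cκ CT ≤ CL → BcpChild X W Fam c c0 β0 κ0 cL CL
  nosep : ∀ cL CL : ℝ, 0 < cL → cL ≤ p6Lo Cκ cT → p6Hi cκ CT ≤ CL → BcpNoSep X W Fam c0 cL CL
  p2 : BcpP2 X Fam (bcpKap Sc X.T (fun s => X.T * qT s))

section assembly

variable {X : BdFix} {W : BdWorld} {Fam : BdFr → Prop} {Sc : Bd7Sc} {k : Bd7ScC} {c : P6C}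
  {c0 β0 κ0 cκ Cκ cT CT : ℝ} {qT : ℝ → ℝ}

theorem BcpAll.K (h : BcpAll X W Fam Sc k c c0 β0 κ0 cκ Cκ cT CT qT) {cL CL : ℝ} (h1 : 0 < cL) (h2 : cL ≤ p6Lo Cκ cT)
    (h3 : p6Hi cκ CT ≤ CL) : BcpK X c c0 β0 κ0 cκ Cκ cT CT cL CL :=
  ⟨h.hX, h.ok, h.m_eq, h.T_eq, h.c0_pos, h.β0_pos, by linarith [h.K_le], h1, h2, h3⟩

/-- **Step 1 for all loose constants outside the PE constants** (`= Bd7In.weak` with `c0 = p6Lo Cκ cT`, `C0 = p6Hi cκ CT`) -/
theorem bcp_all_weak (h : BcpAll X W Fam Sc k c c0 β0 κ0 cκ Cκ cT CT qT) :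
    0 < p6Lo Cκ cT ∧ p6Lo Cκ cT ≤ p6Hi cκ CT ∧
      ∀ cL CL : ℝ, 0 < cL → cL ≤ p6Lo Cκ cT → p6Hi cκ CT ≤ CL → Bd7Weak X W Fam cL CL :=
  ⟨p6Lo_pos h.in3.pe.imp.κ_rng h.in3.pe.imp.T_rng, p6Lo_lt_Hi.le,
    fun cL CL h1 h2 h3 => bcp_weak (h.K h1 h2 h3) h.in3.pe (h.child cL CL h1 h2 h3) (h.nosep cL CL h1 h2 h3)⟩

/-- (C7a) is monotone in the loose constants -/
theorem bd7_C7a_mono {cL CL cL' CL' : ℝ} (hX : X.Ok) (h : Bd7C7a X W Fam cL CL) (h1 : cL' ≤ cL) (h2 : CL ≤ CL') :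
    Bd7C7a X W Fam cL' CL' := by
  obtain ⟨N0, h0⟩ := h
  refine ⟨N0, fun i hi hN hw => ?_⟩
  have hw0 : 0 ≤ i.w := (BdFr.wc_pos' hX hi.ok).le.trans hw.1
  have := h0 i hi hN hw
  exact ⟨(mul_le_mul_of_nonneg_right h1 hw0).trans this.1, this.2.trans (mul_le_mul_of_nonneg_right h2 hw0)⟩

/-- **Step 3** (`= Bd7In.c7b`) -/
theorem bcp_all_c7b (h : BcpAll X W Fam Sc k c c0 β0 κ0 cκ Cκ cT CT qT) (cL CL : ℝ) (h1 : 0 < cL)
    (h7 : Bd7C7a X W Fam cL CL) : Bd7C7b X W Fam := by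
  have hlo := p6Lo_pos h.in3.pe.imp.κ_rng h.in3.pe.imp.T_rng
  have a1 : 0 < min cL (p6Lo Cκ cT) := lt_min h1 hlo
  have a2 : min cL (p6Lo Cκ cT) ≤ p6Lo Cκ cT := min_le_right _ _
  have a3 : p6Hi cκ CT ≤ max CL (p6Hi cκ CT) := le_max_right _ _
  exact bcp_C7b (h.K a1 a2 a3) h.K_le h.in3 (h.child _ _ a1 a2 a3) (h.nosep _ _ a1 a2 a3)
    (bd7_C7a_mono h.hX h7 (min_le_left _ _) (le_max_left _ _)) h.p2

/-- **l.1146-1149** -/
theorem bcp_all_c7c (h : BcpAll X W Fam Sc k c c0 β0 κ0 cκ Cκ cT CT qT) {Kb : ℝ} (hadm : Bd7Adm X W Fam Kb) (hg : BcpGeo X W Fam)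
    (cL CL : ℝ) (h1 : 0 < cL) (h7 : Bd7C7a X W Fam cL CL) : Bd7C7c X W Fam := by
  have hlo := p6Lo_pos h.in3.pe.imp.κ_rng h.in3.pe.imp.T_rng
  exact bcp_C7c h.hX (bcp3_kap_pos (h.K hlo le_rfl le_rfl) h.in3) h.in3.a1 hadm (bcp_all_c7b h cL CL h1 h7) h.p2 hg

end assembly

/-- forces the equation lemmas of the definitions to be generated HERE -/
theorem bcp_defs_eqns_cite : True := by
  have := @bcpFn.eq_1; have := @bcpCl.eq_1; have := @Bd7I.par.eq_1; have := @Bd7I.chd.eq_1; have := @Bd7I.atU.eq_1; have := @Bd7I.Ysep.eq_1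
  have := @P6D.Kc.eq_1; have := @bcpKap.eq_1; have := @BcpNS.eq_1; have := @BcpNoSep.eq_1; have := @BcpDirK.eq_1
  have := @BcpMacQ.eq_1; have := @BcpS18.eq_1; have := @BcpStab.eq_1; have := @BcpK2.eq_1; have := @BcpP2.eq_1; have := @BcpGeo.eq_1
  trivial

end

end Claimed.Agent.R286
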