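import Claimed.Agent.R286.Bud.PSys
import Claimed.Agent.R286.Cmp.Defs
import Claimed.Agent.R286.Asym

/-!
# Row 286, LL sec. 7 (budgets): THE SHARED VOCABULARY of `R286/Bud`        (helper157; prefix `bd_`, types `Bd*`)

One vocabulary for the four section architects (109 l.1-548, 12 l.549-1150, 212 l.1151-1850, 184 l.1850-2253), for `Bud/Top` (162)
and for the typed nodes N1-N19.   NO THEOREM here, only definitions.   TeX = LL `07-budgets.tex`.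

* `BdO, BdSub, Bdo, BdPow, BdEv`   `≲`, `≲_∘`, `o(.)`, `≪`, "eventually" UNIFORMLY over a family of instances (any index type) = abbreviations of 19/298's relations along `bdU N P`.
* `BdFix`        everything fixed before `N → ∞` (exponents, fixed constants, number of stages, nested patches, parameter intervals).
* `BdWorld`      PLACEHOLDER for the Hub: pressure systems `ps m` (terminal mass 1), scalar response `Gam K t` of an ARBITRARY clock, one-site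
                 pressure, tree numbers `nu` of overlap tests, the two single-path functionals of (A1).     Replace by the Hub's objects: ONE instance.
* `BdFr`         the LOCAL FRAME: `N, m, lam, u, χ`, the bare path NORMALISED TO LENGTH 1 (`K, q, d`, and `b g v`, `h g v` as functions of the global
                 parameter `g = γ_0`, with `γ_u = 0`), stage index, extra floor `kap` on `[Ilo u, Ihi u]`.     `g` is an ARGUMENT, never a field: the box is `g`-free.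
* scales         `x X Lam A agoal C0 dPE E vs U lam1 yc wc Bf T1 T2 Mj`, `call : CmCall` (so `C = call.e C0`, `pC = call.pp C0`, `k = call.k`: 192's profile lemmas apply).
* `BdQ Fr`       the class (C5), in INTEGRATED form (as `CmQ`): inverse distribution `al`, quantile `r`.
* `bq hq pen obj IsOpt V`            changed clocks, penalty, objective, minimisers (a SET: never select), optimal value.
* `Sq Bq Dq2 Dq Ks`                  statistics of the changed path; `Ks = K_s = \widehat K`.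
* `IsPot, Floor, Cap, Contact`       first-variation potential (C6).
* `OuterReg, Strong, Wsc`            hypotheses of l.217-233, l.454 ff.
* `astage, kstage, AtStage`          (C11).      `beta0 = q⁻¹`.
* `Rr, Nn2, Zj`                      restored optimal value `𝓡_j`, norm `𝓝²`, the EXPLICIT majorant `Z_j` of (C13).
* `BdViol`                           a buffered violation: `r0, L`; `d0 h1 G1 P1 bbuf`; `rtil altil dal` (and `BdFr.kst = Γ_*⁻¹`).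
* `avgR, avgV`                       the two box averages (both divided by `d0`).
* `mQ nQ mX nX alErr mPr nLc nWw nWr`        moments of the positive law.
-/

set_option autoImplicit false

namespace Claimed.Agent.R286

open MeasureTheory Set Filter Topology

noncomputable section

/-! ## 0. Uniform asymptotic relations = the vocabulary of 19 / 298 (`R286/Asym`, `SeqCalc`, `SeqUltra`) along ONE filter
`ι` = the type of instances the estimate is uniform in (frame, parameter, optimiser, cut, box, ...), `N i` its size, `P i` the standing hypotheses.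
`bdU N P = aqUnif (N : ℝ) P` = "size `→ ∞` inside the class `P`".   `Bd*` are ABBREVIATIONS: all lemmas on `=O[l]`, `=o[l]`, `AqSub`, `AqPoly` apply.
CLOSED FORMS (for nonnegative `F`, `G`): `bd_ev_iff`, `bd_O_iff`, `bd_o_iff`, `bd_sub_iff`, `bd_pow_iff`: the contracts of `Bud/Hub*.lean` are written in these closed forms.
Since `x^12 ≤ lam ≤ x^pS`, a power saving in `lam`, in `x` and in `N` are the same thing. -/

section Asy
open Asymptotics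
variable {ι : Type}

/-- "size `→ ∞`, uniformly in the class `P`" -/
def bdU (N : ι → ℕ) (P : ι → Prop) : Filter ι := aqUnif (fun i => (N i : ℝ)) P

/-- `F ≲ G` -/
abbrev BdO (N : ι → ℕ) (P : ι → Prop) (F G : ι → ℝ) : Prop := F =O[bdU N P] G
/-- `F ≲_∘ G` (subpower loss) -/
abbrev BdSub (N : ι → ℕ) (P : ι → Prop) (F G : ι → ℝ) : Prop := AqSub (bdU N P) (fun i => (N i : ℝ)) F G
/-- `F = o(G)` -/
abbrev Bdo (N : ι → ℕ) (P : ι → Prop) (F G : ι → ℝ) : Prop := F =o[bdU N P] G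
/-- `F ≪ G` (a fixed power saving) -/
abbrev BdPow (N : ι → ℕ) (P : ι → Prop) (F G : ι → ℝ) : Prop := AqPoly (bdU N P) (fun i => (N i : ℝ)) F G
/-- "for all sufficiently large sizes, uniformly" -/
abbrev BdEv (N : ι → ℕ) (P : ι → Prop) (Φ : ι → Prop) : Prop := ∀ᶠ i in bdU N P, Φ i

variable {N : ι → ℕ} {P : ι → Prop} {F G : ι → ℝ}

theorem bd_ev_iff {Φ : ι → Prop} : BdEv N P Φ ↔ ∃ N0 : ℕ, ∀ i, P i → N0 ≤ N i → Φ i := by
  unfold BdEv bdU
  rw [aq_unif_eventually]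
  constructor
  · rintro ⟨R, h⟩
    exact ⟨⌈R⌉₊, fun i hP hN => h i hP ((Nat.le_ceil R).trans (by exact_mod_cast hN))⟩
  · rintro ⟨N0, h⟩
    exact ⟨N0, fun i hP hN => h i hP (by exact_mod_cast hN)⟩

theorem bd_O_iff (hF : ∀ i, P i → 0 ≤ F i) (hG : ∀ i, P i → 0 ≤ G i) :
    BdO N P F G ↔ ∃ C : ℝ, ∃ N0 : ℕ, ∀ i, P i → N0 ≤ N i → F i ≤ C * G i := by
  unfold BdO
  rw [isBigO_iff]
  refine exists_congr fun C => ?_
  rw [show (∀ᶠ i in bdU N P, ‖F i‖ ≤ C * ‖G i‖) ↔ BdEv N P (fun i => ‖F i‖ ≤ C * ‖G i‖) from Iff.rfl, bd_ev_iff]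
  refine exists_congr fun N0 => forall_congr' fun i => imp_congr_right fun hP => ?_
  rw [Real.norm_eq_abs, Real.norm_eq_abs, abs_of_nonneg (hF i hP), abs_of_nonneg (hG i hP)]

theorem bd_o_iff (hF : ∀ i, P i → 0 ≤ F i) (hG : ∀ i, P i → 0 ≤ G i) :
    Bdo N P F G ↔ ∀ ε : ℝ, 0 < ε → ∃ N0 : ℕ, ∀ i, P i → N0 ≤ N i → F i ≤ ε * G i := by
  unfold Bdo
  rw [isLittleO_iff]
  refine forall_congr' fun ε => imp_congr_right fun _ => ?_
  rw [show (∀ᶠ i in bdU N P, ‖F i‖ ≤ ε * ‖G i‖) ↔ BdEv N P (fun i => ‖F i‖ ≤ ε * ‖G i‖) from Iff.rfl, bd_ev_iff]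
  refine exists_congr fun N0 => forall_congr' fun i => imp_congr_right fun hP => ?_
  rw [Real.norm_eq_abs, Real.norm_eq_abs, abs_of_nonneg (hF i hP), abs_of_nonneg (hG i hP)]

theorem bd_sub_iff (hF : ∀ i, P i → 0 ≤ F i) (hG : ∀ i, P i → 0 ≤ G i) :
    BdSub N P F G ↔ ∀ ε : ℝ, 0 < ε → ∃ C : ℝ, ∃ N0 : ℕ, ∀ i, P i → N0 ≤ N i → F i ≤ C * ((N i : ℝ) ^ ε * G i) := by
  unfold BdSub AqSub
  refine forall_congr' fun ε => imp_congr_right fun _ => ?_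
  exact bd_O_iff hF fun i hP => mul_nonneg (Real.rpow_nonneg (Nat.cast_nonneg _) _) (hG i hP)

theorem bd_pow_iff (hF : ∀ i, P i → 0 ≤ F i) (hG : ∀ i, P i → 0 ≤ G i) :
    BdPow N P F G ↔ ∃ c : ℝ, 0 < c ∧ ∃ C : ℝ, ∃ N0 : ℕ, ∀ i, P i → N0 ≤ N i → F i ≤ C * ((N i : ℝ) ^ (-c) * G i) := by
  unfold BdPow AqPoly
  refine exists_congr fun c => and_congr_right fun _ => ?_
  exact bd_O_iff hF fun i hP => mul_nonneg (Real.rpow_nonneg (Nat.cast_nonneg _) _) (hG i hP)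

end Asy

/-! ## 1. Data fixed before the size limit -/

/-- everything that is fixed before `N → ∞` in LL sec. 7 (order of choice: LL sec. 10) -/
structure BdFix where
  /-- `T = β² > 1` -/
  T : ℝ
  /-- `s_* = 1/2 - τ` -/
  tau : ℝ
  /-- `s_0 = s_* - τ_0` -/
  tau0 : ℝ
  eta : ℝ
  /-- final-strength exponent `p_*` -/
  pS : ℝ
  /-- local dyads are `u ≤ lam^bl` -/
  bl : ℝ
  /-- saving of the global budget (l.66) -/
  bs : ℝ
  zeta : ℝ
  /-- PE power slack `m_PE` (`δ_PE = m_PE/10000`) -/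
  mPE : ℝ
  /-- buffer exponent `ρ` -/
  rho : ℝ
  /-- `h_e` of (C13) -/
  he : ℝ
  /-- `d_PE = c_d u Λ^{1/3}` -/
  cd : ℝ
  /-- the removal profile is constant on `[0, c_I u]` -/
  cI : ℝ
  /-- high / low split masses: `c_H u` -/
  cH : ℝ
  /-- the constant of `U ≲ u` -/
  CU : ℝ
  /-- the last stage (stages are `j = -1, 0, …, J`; the stage INDEX is `st = j + 1`) -/
  J : ℕ
  /-- the nested patches `I_j / u = [plo st, phi st]` -/
  plo : ℕ → ℝ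
  phi : ℕ → ℝ
  /-- the slightly smaller intervals on which (C12) is asserted, `[qlo st, qhi st]` -/
  qlo : ℕ → ℝ
  qhi : ℕ → ℝ
  /-- the nested intervals of the global parameter, `[glo st, ghi st] ⊇ [1/3, 2/3]` with room -/
  glo : ℕ → ℝ
  ghi : ℕ → ℝ
  /-- the constant `c` of `𝓡_j' ≥ c λ 𝓝²` -/
  cN : ℝ

namespace BdFix
variable (X : BdFix)
def sS : ℝ := 1 / 2 - X.tau
def s0 : ℝ := X.sS - X.tau0
/-- `k_c = 0.03` -/
def kc : ℝ := 0.03
def dPEexp : ℝ := X.mPE / 10000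

/-- signs, order and nesting of the fixed data.  The numerical smallness is what the pure exponent arithmetic (N16, stage recursion, (C4)-(C5)) uses;
it may only be STRENGTHENED (tell 157/162); conditions relative to constants produced by other sections (`c_G`, ...) are hypotheses of the nodes that need them. -/
structure Ok : Prop where
  T1 : 1 < X.T
  tau0_pos : 0 < X.tau0
  tau0_le : X.tau0 ≤ X.eta / 100
  eta_le : X.eta ≤ X.tau / 100
  tau_le : X.tau ≤ 1 / 100000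
  pS_pos : 0 < X.pS
  pS_le : X.pS ≤ X.he / 1000
  he_le : X.he ≤ 1 / 1000
  bl_pos : 0 < X.bl
  bl_le : X.bl ≤ X.bs / 100
  bs_le : X.bs ≤ X.eta / 100
  zeta_pos : 0 < X.zeta
  zeta_le : X.zeta ≤ X.pS * X.tau0 * X.bl / 100000
  mPE_pos : 0 < X.mPE
  mPE_le : X.mPE ≤ X.zeta / 100
  rho_pos : 0 < X.rho
  rho_le : X.rho ≤ X.tau0 / 1000
  cd_pos : 0 < X.cd
  cI_pos : 0 < X.cI
  cH_pos : 0 < X.cH
  CU_pos : 0 < X.CU
  cN_pos : 0 < X.cN
  /-- the PE taper is `1` on `[0,1]`, its argument is `r/(c_d³ u)`: the removal profile is constant on `[0, c_I u]` (186 A1) -/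
  cI_le : X.cI ≤ X.cd ^ 3
  /-- the goal `a_goal` is reached at the last stage (`BdFr.bds_astage_last`; 248 A5) -/
  J_big : (2 / 3 : ℝ) ^ (X.J + 1) * (2 / X.pS) ≤ 0.12
  /-- `[qlo, qhi] ⊂⊂ [plo, phi] ⊂⊂ (0, c_I)` at each stage -/
  pat : ∀ st ≤ X.J + 1, 0 < X.plo st ∧ X.plo st < X.qlo st ∧ X.qlo st < X.qhi st ∧ X.qhi st < X.phi st ∧ X.phi st < X.cI
  /-- the patch of a stage lies well inside the band controlled by the preceding stage -/
  nest : ∀ st ≤ X.J, X.qlo st < X.plo (st + 1) ∧ X.phi (st + 1) < X.qhi st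
  /-- the parameter intervals decrease and keep room beyond `[1/3, 2/3]` -/
  gnest : ∀ st ≤ X.J, X.glo st < X.glo (st + 1) ∧ X.ghi (st + 1) < X.ghi st
  groom : X.glo (X.J + 1) < 1 / 3 ∧ 2 / 3 < X.ghi (X.J + 1)
end BdFix

/-! ## 2. The world (placeholder for the Hub) -/

/-- the Hub objects at terminal mass `1` (PE normalisation).      INSTANCE: `skWorld`, `skWorld_isHub` (`Exit/BudWorld.lean`, 162); standing hypothesis `W.IsHub` (`Bud/Mom.lean`, 198).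
`nu m b h n cut P` = positive tree law with `n` labels `0..n-1`, labels `a ≠ c` split at the MASS `cut a c` (position AFTER the revelation at that mass), of the overlap test `P (Q_{ac})`.
(The field clock jumps at the mask `xm`, (P6); all other clocks of this section are continuous on `(0,1]`.) -/
structure BdWorld where
  /-- the pressure system with `m` sites -/
  ps : ℕ → PSys
  /-- `Γ_K(t) = E V_z(t,Z_t)²` for the scalar clock `K` on `(0,1)` (depends on the whole path) -/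
  Gam : (ℝ → ℝ) → ℝ → ℝ
  /-- self-corrected one-site pressure `f_spin(K)` -/
  fsp : (ℝ → ℝ) → ℝ
  /-- tree numbers -/
  nu : ℕ → (ℝ → ℝ) → (ℝ → ℝ) → ℕ → (ℕ → ℕ → ℝ) → ((ℕ → ℕ → ℝ) → ℝ) → ℝ
  /-- `‖∫ k_v (L_v - E L_v) dv‖_p` under the single-path law -/
  nLc : ℕ → (ℝ → ℝ) → (ℝ → ℝ) → ℝ → (ℝ → ℝ) → ℝ
  /-- `‖∫ k_v W_v dv‖_p` under the single-path law (`k ≥ 0` deterministic) -/
  nWw : ℕ → (ℝ → ℝ) → (ℝ → ℝ) → ℝ → (ℝ → ℝ) → ℝ
  /-- `E tr C_v²` -/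
  trC2 : ℕ → (ℝ → ℝ) → (ℝ → ℝ) → ℝ → ℝ

/-- time distribution of a clock: `|{v ∈ (0,1) : K v ≤ t}|` -/
def bdDist (K : ℝ → ℝ) (t : ℝ) : ℝ := (volume {v : ℝ | v ∈ Ioo (0 : ℝ) 1 ∧ K v ≤ t}).toReal

/-- generalised inverse of a nondecreasing function on `[0,∞)` -/
def bdInv (φ : ℝ → ℝ) (y : ℝ) : ℝ := sInf {s : ℝ | 0 ≤ s ∧ y ≤ φ s}

/-! ## 3. The local frame -/

/-- **the local frame** (l.130-160): a direct path at `γ_u = 0`, normalised to length `1`, a dyad `u`, a box (C5) -/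
structure BdFr where
  N : ℕ
  m : ℕ
  lam : ℝ
  u : ℝ
  /-- the size coordinate `ℓ ∈ [1, 2^{1/6}]` = the length of the path BEFORE normalisation -/
  ell : ℝ
  chiL : ℝ
  chiE : ℝ
  /-- the common base temperature `T_m` of the frame -/
  Tm : ℝ
  /-- scalar reference clock `K = K_* = h_* + b q` (normalised), independent of `γ` -/
  K : ℝ → ℝ
  /-- `q = Γ_K ∘ K` -/
  q : ℝ → ℝ
  /-- the field defect `d = h - h_*` (seeds; on `v < x` it is `-h_*`) -/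
  d : ℝ → ℝ
  /-- matrix clock `b g v`, `g = γ_0` -/
  b : ℝ → ℝ → ℝ
  /-- field clock `h g v` -/
  h : ℝ → ℝ → ℝ
  /-- `c_u = -∂_{γ_u} b` -/
  cu : ℝ → ℝ
  /-- stage index `st = j + 1 ∈ {0, …, J+1}` -/
  st : ℕ
  /-- extra floor -/
  kap : ℝ
  /-- `I = [Ilo u, Ihi u]` -/
  Ilo : ℝ
  Ihi : ℝ

namespace BdFr

variable (F : BdFr) (X : BdFix) (W : BdWorld)

def x : ℝ := (F.N : ℝ) ^ (-(1 / 6) : ℝ)
/-- the mask in normalised mass: `b = b(0+)`, `h = 0` below `x/ℓ` -/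
def xm : ℝ := F.x / F.ell
/-- the scale ratio `X = x/u` -/
def Xr : ℝ := F.x / F.u
def Lam : ℝ := F.lam ^ (0.03 : ℝ)
def A : ℝ := F.Xr ^ 2 * F.Lam ^ (-(1 / 3) : ℝ)
def agoal : ℝ := F.Xr ^ 2 * F.lam ^ (-X.s0)
def C0 : ℝ := F.u ^ 2 * F.Lam
def dPE : ℝ := X.cd * F.u * F.Lam ^ (1 / 3 : ℝ)
def E : ℝ := F.x ^ (4 - X.zeta) * F.dPE X
def U : ℝ := F.x * F.lam ^ (-(X.sS / 2))
def lam1 : ℝ := F.lam ^ (1 + X.eta)
def yc : ℝ := F.x ^ (-(10 * X.zeta)) * (F.Xr * F.Lam ^ (-(1 / 6) : ℝ) + F.Xr ^ (3 / 4 : ℝ) * F.lam ^ (0.12 : ℝ))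
def wc : ℝ := F.yc X * F.u
def Bf : ℝ := F.Xr ^ (3 / 2 : ℝ) * F.lam ^ (X.s0 / 2) * F.Lam ^ (-(5 / 12) : ℝ)
def T1 : ℝ := F.A + F.Bf X + F.yc X ^ 2
def T2 : ℝ := F.A ^ 2 + F.Bf X ^ 2 + F.A ^ (3 / 2 : ℝ) * F.yc X + F.A * F.yc X ^ (5 / 3 : ℝ)
/-- the cap `M_j = 2^{j+1} x^{-100}` -/
def Mj : ℝ := 2 ^ F.st * F.x ^ (-(100 : ℝ))

/-- the PE call of l.146-150 (all masses, no wall); its strength is `C0` -/
def call : CmCall := ⟨F.m, X.mPE, F.E X, F.dPE X, 0, 0⟩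
/-- `v_* = 1/(mE)` -/
def vs : ℝ := (F.call X).us
/-- the removal profile `C(r) = C0 f(C0 r/d_PE³)` -/
def C (r : ℝ) : ℝ := (F.call X).e F.C0 r
/-- `p = -r C'/C` -/
def pC (r : ℝ) : ℝ := (F.call X).pp F.C0 r
/-- the PE floor (5) -/
def k (r : ℝ) : ℝ := (F.call X).k r
/-- the floor of (C5) -/
def kbar (r : ℝ) : ℝ := F.k X r + if r ∈ Icc (F.Ilo * F.u) (F.Ihi * F.u) then F.kap else 0

/-- (C4), (C5) and the ranges of the parameters -/
structure Ok : Prop where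
  N2 : 2 ≤ F.N
  m_lo : (F.N : ℝ) / 2 ≤ F.m
  m_hi : (F.m : ℝ) ≤ 3 * F.N
  lam_lo : F.x ^ (12 : ℝ) ≤ F.lam
  lam_hi : F.lam ≤ F.x ^ X.pS
  u_lo : F.U X ≤ X.CU * F.u
  u_hi : F.u ≤ F.lam ^ X.bl
  ell1 : 1 ≤ F.ell
  ell2 : F.ell ≤ (2 : ℝ) ^ (1 / 6 : ℝ)
  chiL : F.chiL ∈ Icc (0 : ℝ) 1
  chiE : F.chiE ∈ Icc (0 : ℝ) 1
  /-- other values of `(χ_lin, χ_e)` than `(0,1)` occur only at final strength, and then one of them is `1` -/
  chi : (F.chiL = 0 ∧ F.chiE = 1) ∨ (F.lam = F.x ^ X.pS ∧ (F.chiL = 1 ∨ F.chiE = 1))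
  st_le : F.st ≤ X.J + 1
  kap0 : 0 ≤ F.kap
  kap1 : F.kap ≤ F.lam ^ (2 * X.s0) * F.Lam ^ (-(2 / 3) : ℝ)
  I0 : 0 < F.Ilo
  I1 : F.Ilo ≤ F.Ihi
  I2 : F.Ihi < X.cI
  /-- `I/u` is a FIXED interval: every patch lies above the lower end of the widest one (186 A2) -/
  I3 : X.plo 0 ≤ F.Ilo

end BdFr

/-! ## 4. The class (C5), changed clocks, objective -/

/-- **a feasible inverse distribution** of (C5): `al : [0,1] → [0,1]` onto, `kbar ≤ al' ≤ M_j` in integrated form; `r = al⁻¹` -/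
structure BdQ (F : BdFr) (X : BdFix) where
  al : ℝ → ℝ
  r : ℝ → ℝ
  al_zero : al 0 = 0
  al_one : al 1 = 1
  lo : ∀ r1 r2 : ℝ, 0 ≤ r1 → r1 ≤ r2 → r2 ≤ 1 → ∫ t in r1..r2, F.kbar X t ≤ al r2 - al r1
  hi : ∀ r1 r2 : ℝ, 0 ≤ r1 → r1 ≤ r2 → r2 ≤ 1 → al r2 - al r1 ≤ F.Mj * (r2 - r1)
  r_mem : ∀ v ∈ Icc (0 : ℝ) 1, r v ∈ Icc (0 : ℝ) 1
  al_r : ∀ v ∈ Icc (0 : ℝ) 1, al (r v) = v
  r_al : ∀ t ∈ Icc (0 : ℝ) 1, r (al t) = t

namespace BdQ

variable {F : BdFr} {X : BdFix} (Q : BdQ F X) (W : BdWorld) (g : ℝ)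

/-- changed matrix clock `b - C(r)` -/
def bq (v : ℝ) : ℝ := F.b g v - F.C X (Q.r v)
/-- changed field clock `h + C(r) r` -/
def hq (v : ℝ) : ℝ := F.h g v + F.C X (Q.r v) * Q.r v
/-- penalty `∫ C(r) r²/4` -/
def pen : ℝ := (1 / 4) * ∫ v in (0 : ℝ)..1, F.C X (Q.r v) * Q.r v ^ 2
/-- the objective `f_m(b - C(r), h + C(r) r) + ∫ C(r) r²/4` -/
def obj : ℝ := (W.ps F.m).f (Q.bq g) (Q.hq g) + Q.pen
/-- minimiser at the parameter `g` -/
def IsOpt : Prop := ∀ Q' : BdQ F X, Q.obj W g ≤ Q'.obj W g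

/-- statistics of the changed path -/
def Sq (v : ℝ) : ℝ := (W.ps F.m).S (Q.bq g) (Q.hq g) v
def Bq (v : ℝ) : ℝ := (W.ps F.m).B (Q.bq g) (Q.hq g) v
def Dq2 (v : ℝ) : ℝ := Q.Bq W g v - Q.Sq W g v ^ 2
def Dq (v : ℝ) : ℝ := Real.sqrt (Q.Dq2 W g v)
/-- `K_s = \widehat K = h + C(r) r + (b - C(r)) S` -/
def Ks (v : ℝ) : ℝ := Q.hq g v + Q.bq g v * Q.Sq W g v
/-- `Γ_s = Γ_{K_s}` -/
def Gs (t : ℝ) : ℝ := W.Gam (Q.Ks W g) t

/-- **the first-variation potential** (C6), integrated form, with the bang-bang rule -/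
structure IsPot (H : ℝ → ℝ) : Prop where
  int : ∀ r1 ∈ Icc (0 : ℝ) 1, ∀ r2 ∈ Icc (0 : ℝ) 1,
    H r2 - H r1 = ∫ r in r1..r2, F.C X r * cmBr (F.pC X r) r (Q.Sq W g (Q.al r)) (Q.Bq W g (Q.al r))
  cap : ∀ r1 r2 : ℝ, 0 ≤ r1 → r1 ≤ r2 → r2 ≤ 1 → (∀ r ∈ Ioo r1 r2, H r < 0) → Q.al r2 - Q.al r1 = F.Mj * (r2 - r1)
  floor : ∀ r1 r2 : ℝ, 0 ≤ r1 → r1 ≤ r2 → r2 ≤ 1 → (∀ r ∈ Ioo r1 r2, 0 < H r) →
    Q.al r2 - Q.al r1 = ∫ t in r1..r2, F.kbar X t

/-- outer regularity above `Creg w` (l.217-222) -/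
def OuterReg (w c C Creg : ℝ) : Prop := ∀ v : ℝ, Creg * w ≤ v → v ≤ 1 → c * v ≤ Q.r v ∧ Q.r v ≤ C * v

end BdQ

/-- floor / cap / contact radii of a potential -/
def bdFloor (H : ℝ → ℝ) : Set ℝ := {r | r ∈ Icc (0 : ℝ) 1 ∧ 0 < H r}
def bdCap (H : ℝ → ℝ) : Set ℝ := {r | r ∈ Icc (0 : ℝ) 1 ∧ H r < 0}
def bdContact (H : ℝ → ℝ) : Set ℝ := {r | r ∈ Icc (0 : ℝ) 1 ∧ H r = 0}
/-- nonfloor radii -/
def bdNonfloor (H : ℝ → ℝ) : Set ℝ := {r | r ∈ Icc (0 : ℝ) 1 ∧ H r ≤ 0}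

namespace BdFr

variable (F : BdFr) (X : BdFix) (W : BdWorld)

/-- strong removal at the scale `w` -/
def Strong (w cs : ℝ) : Prop := cs * w ^ 2 ≤ F.C X w
/-- the calibration scale `W = max(w, √C(w))` -/
def Wsc (w : ℝ) : ℝ := max w (Real.sqrt (F.C X w))

/-- the optimal value `V_j(g)` -/
def V (g : ℝ) : ℝ := sInf (Set.range fun Q : BdQ F X => Q.obj W g)
/-- bare pressure `f_m^0` at the parameter `g` -/
def f0 (g : ℝ) : ℝ := (W.ps F.m).f (F.b g) (F.h g)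
/-- the optimised excess -/
def exc (g : ℝ) : ℝ := F.V X W g - F.f0 W g

/-- `β_0 = q⁻¹` -/
def beta0 (r : ℝ) : ℝ := bdInv F.q r
/-- `k_*(r) = Γ_*⁻¹(r)` -/
def kst (r : ℝ) : ℝ := bdInv (W.Gam F.K) r

/-! ### stages (C11) -/

/-- `astage n = a_{n-1}`: `astage 0 = a_{-1} = 1` -/
def astage : ℕ → ℝ
  | 0 => 1
  | n + 1 => max (F.agoal X) (F.lam ^ (-(0.12 : ℝ)) * F.A ^ (1 / 3 : ℝ) * astage n ^ (2 / 3 : ℝ))

/-- `κ_j = (A/a_{j-1})²` for the stage index `st = j + 1 ≥ 1`; no extra floor at `st = 0` -/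
def kstage : ℕ → ℝ
  | 0 => 0
  | n + 1 => (F.A / F.astage X n) ^ 2

/-- the frame carries the box of its stage -/
def AtStage : Prop := F.kap = F.kstage X F.st ∧ F.Ilo = X.plo F.st ∧ F.Ihi = X.phi F.st

/-- accuracy `a_j` of the stage of the frame -/
def aj : ℝ := F.astage X F.st

/-! ### the envelope (l.1185-1300) -/

/-- the restored optimal value `𝓡_j(g) = V_j(g) - ¼∫ b q² + ½∫_{v ≥ x} d q` -/
def Rr (g : ℝ) : ℝ :=
  F.V X W g - (1 / 4) * (∫ v in (0 : ℝ)..1, F.b g v * F.q v ^ 2) + (1 / 2) * ∫ v in F.xm..1, F.d v * F.q v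

/-- the special regime of (C13) -/
def Fin13 : Prop := F.lam = F.x ^ X.pS ∧ F.u ≤ F.x ^ X.he ∧ F.chiE ≤ F.x ^ X.he

open Classical in
/-- the denominator of `Z²` -/
def Zden : ℝ :=
  if F.Fin13 X then X.cN * F.lam * F.x ^ (4 + X.he / 2) else X.cN * F.lam * F.x ^ (4 : ℝ) * F.lam ^ (-(2 * X.s0))

open Classical in
/-- **the explicit common majorant** `Z_j(g)` (l.1268-1280); `1` on the non-differentiability set of `V_j`, and at stage `-1` -/
def Zj (g : ℝ) : ℝ :=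
  if F.st = 0 then 1
  else if DifferentiableAt ℝ (F.Rr X W) g then Real.sqrt (1 + deriv (F.Rr X W) g / F.Zden X) else 1

/-- nonexceptional parameters -/
def GoodG (g : ℝ) : Prop := F.st = 0 ∨ DifferentiableAt ℝ (F.Rr X W) g

end BdFr

namespace BdQ

variable {F : BdFr} {X : BdFix} (Q : BdQ F X) (W : BdWorld) (g : ℝ)

/-- `𝓝² = ∫ (v² + U²)[D_v² + (S_v - q)²] dv` -/
def Nn2 : ℝ := ∫ v in (0 : ℝ)..1, (v ^ 2 + F.U X ^ 2) * (Q.Dq2 W g v + (Q.Sq W g v - F.q v) ^ 2)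

end BdQ

/-! ## 5. Buffered violations (l.1305-1400) -/

/-- **a buffered violation** of (C12) at the stage of the frame: optimiser `Q` at the good parameter `g`, radius `r0`,
`d0 = u L = |α(r0) - β_0(r0)|`, `L ≥ a_j Z`, and `|α - β_0| ≤ Cbuf d0` within `b_buf` of `r0` -/
structure BdViol (F : BdFr) (X : BdFix) (W : BdWorld) where
  g : ℝ
  Q : BdQ F X
  r0 : ℝ
  L : ℝ

namespace BdViol

variable {F : BdFr} {X : BdFix} {W : BdWorld} (V : BdViol F X W)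

def d0 : ℝ := F.u * V.L
def bbuf : ℝ := F.u * (Real.sqrt V.L + F.lam ^ X.rho)
def h1 : ℝ := F.u * max V.L (Real.sqrt F.lam)
def G1 : ℝ := min (max (V.L ^ 2) F.lam) F.Lam
def P1 : ℝ := V.L * V.G1
/-- `θ = d0/h1` -/
def th : ℝ := V.d0 / V.h1

/-- the defining properties (`Cbuf` = the fixed buffer constant, `2` after the doubling argument) -/
structure Ok (Cbuf : ℝ) : Prop where
  g_mem : V.g ∈ Icc (X.glo F.st) (X.ghi F.st)
  good : F.GoodG X W V.g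
  opt : V.Q.IsOpt W V.g
  r0_mem : V.r0 - V.bbuf ∈ Icc (X.plo F.st * F.u) (X.phi F.st * F.u) ∧ V.r0 + V.bbuf ∈ Icc (X.plo F.st * F.u) (X.phi F.st * F.u)
  disc : |V.Q.al V.r0 - F.beta0 V.r0| = V.d0
  big : F.aj X * F.Zj X W V.g ≤ V.L
  buf : ∀ r, |r - V.r0| ≤ V.bbuf → |V.Q.al r - F.beta0 r| ≤ Cbuf * V.d0

/-- the buffer shrunk by the proportion `s ∈ (0,1]` -/
def Buf (s : ℝ) : Set ℝ := Icc (V.r0 - s * V.bbuf) (V.r0 + s * V.bbuf)

/-- `r~(v) = Γ_*(K_s(v))` -/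
def rtil (v : ℝ) : ℝ := W.Gam F.K (V.Q.Ks W V.g v)
/-- `α~(r) = |{v : r~(v) ≤ r}|` -/
def altil (r : ℝ) : ℝ := bdDist V.rtil r
/-- `δα_t = |{K_s ≤ t}| - |{K_* ≤ t}|` -/
def dal (t : ℝ) : ℝ := bdDist (V.Q.Ks W V.g) t - bdDist F.K t

/-- `avg_{J,r} Φ = d0⁻¹ ∫_a^b Φ(α(r)) dr` -/
def avgR (a b : ℝ) (Φ : ℝ → ℝ) : ℝ := V.d0⁻¹ * ∫ r in a..b, Φ (V.Q.al r)
/-- `avg_{J,v} Φ = d0⁻¹ ∫_{α(a)}^{α(b)} Φ(v) dv` (NOT normalised by the mass of the box) -/
def avgV (a b : ℝ) (Φ : ℝ → ℝ) : ℝ := V.d0⁻¹ * ∫ v in (V.Q.al a)..(V.Q.al b), Φ v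
/-- a moving box `J = [a,b]` in the buffer shrunk by `s`, `c d0 ≤ |J| ≤ C d0` -/
def IsBox (s c C a b : ℝ) : Prop := a ∈ V.Buf s ∧ b ∈ V.Buf s ∧ c * V.d0 ≤ b - a ∧ b - a ≤ C * V.d0

end BdViol

/-! ## 6. Moments of the positive law of the changed path, as tree numbers -/

namespace BdQ

variable {F : BdFr} {X : BdFix} (Q : BdQ F X) (W : BdWorld) (g : ℝ)

/-- `E |Q_v - c|^p` for a pair splitting at the mass `v` -/
def mQ (p v c : ℝ) : ℝ := W.nu F.m (Q.bq g) (Q.hq g) 2 (fun _ _ => v) fun O => |O 0 1 - c| ^ p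
/-- `‖Q_v - c‖_p` -/
def nQ (p v c : ℝ) : ℝ := Q.mQ W g p v c ^ (1 / p)
/-- `E |X_v|^{2l}` (`2l` continuations from the cut `v`) -/
def mX (l : ℕ) (v : ℝ) : ℝ :=
  W.nu F.m (Q.bq g) (Q.hq g) (2 * l) (fun _ _ => v) fun O => ∏ i ∈ Finset.range l, O (2 * i) (2 * i + 1)
/-- `‖X_v‖_{2l}` -/
def nX (l : ℕ) (v : ℝ) : ℝ := Q.mX W g l v ^ (1 / (2 * (l : ℝ)))
/-- the alias error `E (Q_v - |X_v|²)² = B_v - E|X_v|⁴` -/
def alErr (v : ℝ) : ℝ := Q.Bq W g v - Q.mX W g 2 v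
/-- `E (Q_v - X¹_c · X²_c)^{2l}`: the pair `0,1` splits at `v`, both branches are projected to the later cut `c`;
labels `2+i` (`i < 2l`) continue the branch of `0` from `c`, labels `2+2l+i` the branch of `1` -/
def mPr (l : ℕ) (v c : ℝ) : ℝ :=
  W.nu F.m (Q.bq g) (Q.hq g) (2 + 4 * l)
    (fun a e => if (a = 0 ∨ (2 ≤ a ∧ a < 2 + 2 * l)) ↔ (e = 0 ∨ (2 ≤ e ∧ e < 2 + 2 * l)) then c else v)
    fun O => ∏ i ∈ Finset.range (2 * l), (O 0 1 - O (2 + i) (2 + 2 * l + i))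
/-- `‖∫ k_v (L_v - E L_v) dv‖_p` -/
def nLc (p : ℝ) (k : ℝ → ℝ) : ℝ := W.nLc F.m (Q.bq g) (Q.hq g) p k
/-- `‖∫ k_v W_v dv‖_p` -/
def nWw (p : ℝ) (k : ℝ → ℝ) : ℝ := W.nWw F.m (Q.bq g) (Q.hq g) p k
/-- `‖∫_a^b W_{α(r)} dr‖_p`: PLACEHOLDER through the Stieltjes weight `dr = dr(v)`; in mass coordinates the weight is `1/α'(r(v))` -/
def nWr (p a b : ℝ) : ℝ := Q.nWw W g p fun v => if v ∈ Icc (Q.al a) (Q.al b) then deriv Q.r v else 0

end BdQ

/-- forces the equation lemmas of all definitions to be generated HERE (unique names across the tree) -/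
theorem bd_defs_eqns_cite : True := by
  have := @bdU.eq_1
  have := @BdFix.sS.eq_1; have := @BdFix.s0.eq_1; have := @BdFix.kc.eq_1; have := @BdFix.dPEexp.eq_1; have := @bdDist.eq_1
  have := @bdInv.eq_1; have := @BdFr.x.eq_1; have := @BdFr.xm.eq_1; have := @BdFr.Xr.eq_1; have := @BdFr.Lam.eq_1
  have := @BdFr.A.eq_1; have := @BdFr.agoal.eq_1; have := @BdFr.C0.eq_1; have := @BdFr.dPE.eq_1; have := @BdFr.E.eq_1
  have := @BdFr.U.eq_1; have := @BdFr.lam1.eq_1; have := @BdFr.yc.eq_1; have := @BdFr.wc.eq_1; have := @BdFr.Bf.eq_1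
  have := @BdFr.T1.eq_1; have := @BdFr.T2.eq_1; have := @BdFr.Mj.eq_1; have := @BdFr.call.eq_1; have := @BdFr.vs.eq_1
  have := @BdFr.C.eq_1; have := @BdFr.pC.eq_1; have := @BdFr.k.eq_1; have := @BdFr.kbar.eq_1; have := @BdQ.bq.eq_1
  have := @BdQ.hq.eq_1; have := @BdQ.pen.eq_1; have := @BdQ.obj.eq_1; have := @BdQ.IsOpt.eq_1; have := @BdQ.Sq.eq_1
  have := @BdQ.Bq.eq_1; have := @BdQ.Dq2.eq_1; have := @BdQ.Dq.eq_1; have := @BdQ.Ks.eq_1; have := @BdQ.Gs.eq_1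
  have := @BdQ.OuterReg.eq_1; have := @bdFloor.eq_1; have := @bdCap.eq_1; have := @bdContact.eq_1; have := @bdNonfloor.eq_1
  have := @BdFr.Strong.eq_1; have := @BdFr.Wsc.eq_1; have := @BdFr.V.eq_1; have := @BdFr.f0.eq_1; have := @BdFr.exc.eq_1
  have := @BdFr.beta0.eq_1; have := @BdFr.AtStage.eq_1; have := @BdFr.aj.eq_1; have := @BdFr.Rr.eq_1; have := @BdFr.Fin13.eq_1
  have := @BdFr.Zden.eq_1; have := @BdFr.Zj.eq_1; have := @BdFr.GoodG.eq_1; have := @BdQ.Nn2.eq_1; have := @BdViol.d0.eq_1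
  have := @BdViol.bbuf.eq_1; have := @BdViol.h1.eq_1; have := @BdViol.G1.eq_1; have := @BdViol.P1.eq_1; have := @BdViol.th.eq_1
  have := @BdViol.Buf.eq_1; have := @BdFr.kst.eq_1; have := @BdViol.rtil.eq_1; have := @BdViol.altil.eq_1; have := @BdViol.dal.eq_1
  have := @BdViol.avgR.eq_1; have := @BdViol.avgV.eq_1; have := @BdViol.IsBox.eq_1; have := @BdQ.mQ.eq_1; have := @BdQ.nQ.eq_1
  have := @BdQ.mX.eq_1; have := @BdQ.nX.eq_1; have := @BdQ.alErr.eq_1; have := @BdQ.mPr.eq_1; have := @BdQ.nLc.eq_1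
  have := @BdQ.nWw.eq_1; have := @BdQ.nWr.eq_1
  have := @BdFr.astage.eq_1; have := @BdFr.astage.eq_2; have := @BdFr.astage.eq_def; have := @BdFr.astage.induct
  have := @BdFr.kstage.eq_1; have := @BdFr.kstage.eq_2; have := @BdFr.kstage.eq_def
  trivial

end

end Claimed.Agent.R286
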