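import Claimed.Agent.R286.Bud.PSysA

/-!
# Row 286, LL sec. 7: proofs of the contracts `GammaFTC`, `DyadBudget` of `Bud/PSys.lean`  (owner: helper15)

Also: continuity of weighted `S`/`B` integrals and of the derivative along a segment, and the fundamental
theorem of calculus along a segment (`PSys.seg_ftc`).
-/

set_option autoImplicit false

namespace Claimed.Agent.R286

open MeasureTheory Set Filter Topology

/-- linearity for three terms -/
theorem bud_int3 {α : Type*} [MeasurableSpace α] {μ : Measure α} {F1 F2 F3 : α → ℝ} (c1 c2 c3 : ℝ)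
    (h1 : Integrable F1 μ) (h2 : Integrable F2 μ) (h3 : Integrable F3 μ) :
    ∫ v, (c1 * F1 v - c2 * F2 v + c3 * F3 v) ∂μ
      = c1 * ∫ v, F1 v ∂μ - c2 * ∫ v, F2 v ∂μ + c3 * ∫ v, F3 v ∂μ := by
  have e1 : ∫ v, (c1 * F1 v - c2 * F2 v + c3 * F3 v) ∂μ
      = ∫ v, (c1 * F1 v - c2 * F2 v) ∂μ + ∫ v, c3 * F3 v ∂μ :=
    integral_add ((h1.const_mul c1).sub (h2.const_mul c2)) (h3.const_mul c3)
  have e2 : ∫ v, (c1 * F1 v - c2 * F2 v) ∂μ = ∫ v, c1 * F1 v ∂μ - ∫ v, c2 * F2 v ∂μ :=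
    integral_sub (h1.const_mul c1) (h2.const_mul c2)
  rw [e1, e2, integral_const_mul, integral_const_mul, integral_const_mul]

theorem IsClock.abs_bdd {a : ℝ} {c : ℝ → ℝ} (hc : IsClock a c) :
    ∃ C, ∀ v ∈ Ioo 0 a, |c v| ≤ C := by
  obtain ⟨C, hC⟩ := hc.bdd
  exact ⟨C, fun v hv => by rw [abs_of_nonneg (hc.nonneg v hv)]; exact hC v hv⟩

theorem IsClock.congr {a : ℝ} {c c' : ℝ → ℝ} (hc : IsClock a c) (h : ∀ v ∈ Ioo 0 a, c v = c' v) :
    IsClock a c' := by
  obtain ⟨C, hC⟩ := hc.bdd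
  refine ⟨fun x hx y hy hxy => ?_, fun v hv => ?_, ⟨C, fun v hv => ?_⟩⟩
  · rw [← h x hx, ← h y hy]; exact hc.mono hx hy hxy
  · rw [← h v hv]; exact hc.nonneg v hv
  · rw [← h v hv]; exact hC v hv

/-- the difference of two clocks is integrable -/
theorem IsClock.sub_integrableOn {a : ℝ} {c c' : ℝ → ℝ} (hc : IsClock a c) (hc' : IsClock a c') :
    IntegrableOn (fun v => c v - c' v) (Ioo 0 a) := hc.integrableOn.sub hc'.integrableOn

theorem clerp_tendstoUniformlyOn {a : ℝ} {c0 c1 : ℝ → ℝ} (h0 : IsClock a c0) (h1 : IsClock a c1)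
    {x : ℕ → ℝ} {p : ℝ} (hx : Tendsto x atTop (𝓝 p)) :
    TendstoUniformlyOn (fun k => clerp (x k) c0 c1) (clerp p c0 c1) atTop (Ioo 0 a) := by
  obtain ⟨C0, hC0⟩ := h0.abs_bdd
  obtain ⟨C1, hC1⟩ := h1.abs_bdd
  rw [Metric.tendstoUniformlyOn_iff]
  intro ε hε
  have hM : 0 < |C0| + |C1| + 1 := by positivity
  have hev := (Metric.tendsto_atTop.1 hx) (ε / (|C0| + |C1| + 1)) (div_pos hε hM)
  obtain ⟨N, hN⟩ := hev
  filter_upwards [eventually_ge_atTop N] with k hk v hv
  have h2 := hN k hk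
  rw [Real.dist_eq] at h2
  rw [Real.dist_eq]
  have e : clerp p c0 c1 v - clerp (x k) c0 c1 v = -((x k - p) * (c1 v - c0 v)) := by
    unfold clerp; ring
  rw [e, abs_neg, abs_mul]
  have h3 : |c1 v - c0 v| ≤ |C0| + |C1| := by
    have a0 := hC0 v hv
    have a1 := hC1 v hv
    calc |c1 v - c0 v| ≤ |c1 v| + |c0 v| := abs_sub _ _
      _ ≤ C1 + C0 := add_le_add a1 a0
      _ ≤ |C0| + |C1| := by linarith [le_abs_self C0, le_abs_self C1]
  calc |x k - p| * |c1 v - c0 v| ≤ |x k - p| * (|C0| + |C1| + 1) :=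
        mul_le_mul_of_nonneg_left (by linarith) (abs_nonneg _)
    _ < ε / (|C0| + |C1| + 1) * (|C0| + |C1| + 1) := mul_lt_mul_of_pos_right h2 hM
    _ = ε := div_mul_cancel₀ _ hM.ne'

namespace PSys

variable (P : PSys)

/-- continuity of weighted `S`-integrals along a segment -/
theorem cont_seg_S {b0 h0 b1 h1 φ : ℝ → ℝ} (hb0 : IsClock P.a b0) (hh0 : IsClock P.a h0)
    (hb1 : IsClock P.a b1) (hh1 : IsClock P.a h1) (hφ : IntegrableOn φ (Ioo 0 P.a)) :
    ContinuousOn (fun t => ∫ v in Ioo 0 P.a, P.S (clerp t b0 b1) (clerp t h0 h1) v * φ v)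
      (Icc 0 1) := by
  rw [continuousOn_iff_continuous_domRestrict]
  apply SeqContinuous.continuous
  intro x p hx
  have hx' : Tendsto (fun k => (x k : ℝ)) atTop (𝓝 (p : ℝ)) :=
    (continuous_subtype_val.tendsto p).comp hx
  exact P.cont_S (fun k => clerp (x k) b0 b1) (fun k => clerp (x k) h0 h1) _ _
    (fun k => hb0.clerp hb1 (x k).2) (fun k => hh0.clerp hh1 (x k).2) (hb0.clerp hb1 p.2)
    (hh0.clerp hh1 p.2) (clerp_tendstoUniformlyOn hb0 hb1 hx') (clerp_tendstoUniformlyOn hh0 hh1 hx')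
    φ hφ

/-- continuity of weighted `B`-integrals along a segment -/
theorem cont_seg_B {b0 h0 b1 h1 φ : ℝ → ℝ} (hb0 : IsClock P.a b0) (hh0 : IsClock P.a h0)
    (hb1 : IsClock P.a b1) (hh1 : IsClock P.a h1) (hφ : IntegrableOn φ (Ioo 0 P.a)) :
    ContinuousOn (fun t => ∫ v in Ioo 0 P.a, P.B (clerp t b0 b1) (clerp t h0 h1) v * φ v)
      (Icc 0 1) := by
  rw [continuousOn_iff_continuous_domRestrict]
  apply SeqContinuous.continuous
  intro x p hx
  have hx' : Tendsto (fun k => (x k : ℝ)) atTop (𝓝 (p : ℝ)) :=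
    (continuous_subtype_val.tendsto p).comp hx
  exact P.cont_B (fun k => clerp (x k) b0 b1) (fun k => clerp (x k) h0 h1) _ _
    (fun k => hb0.clerp hb1 (x k).2) (fun k => hh0.clerp hh1 (x k).2) (hb0.clerp hb1 p.2)
    (hh0.clerp hh1 p.2) (clerp_tendstoUniformlyOn hb0 hb1 hx') (clerp_tendstoUniformlyOn hh0 hh1 hx')
    φ hφ

/-- the derivative along a segment is continuous in the segment parameter -/
theorem cont_dseg {b0 h0 b1 h1 : ℝ → ℝ} (hb0 : IsClock P.a b0) (hh0 : IsClock P.a h0)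
    (hb1 : IsClock P.a b1) (hh1 : IsClock P.a h1) :
    ContinuousOn (fun t => P.dseg b0 h0 b1 h1 t) (Icc 0 1) := by
  unfold PSys.dseg
  exact ((P.cont_seg_B hb0 hh0 hb1 hh1 (hb1.sub_integrableOn hb0)).const_smul (-(1/4) : ℝ)).sub
    ((P.cont_seg_S hb0 hh0 hb1 hh1 (hh1.sub_integrableOn hh0)).const_smul ((1/2) : ℝ))

/-- the fundamental theorem of calculus along a segment -/
theorem seg_ftc {b0 h0 b1 h1 : ℝ → ℝ} (hb0 : IsClock P.a b0) (hh0 : IsClock P.a h0)
    (hb1 : IsClock P.a b1) (hh1 : IsClock P.a h1) :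
    ∫ t in (0:ℝ)..1, P.dseg b0 h0 b1 h1 t = P.f b1 h1 - P.f b0 h0 := by
  have key := intervalIntegral.integral_eq_sub_of_hasDerivAt_of_le (a := (0:ℝ)) (b := 1)
    (f := fun s => P.f (clerp s b0 b1) (clerp s h0 h1)) (f' := fun t => P.dseg b0 h0 b1 h1 t)
    zero_le_one
    (fun t ht => (P.seg b0 h0 b1 h1 hb0 hh0 hb1 hh1 t ht).continuousWithinAt)
    (fun t ht => (P.seg b0 h0 b1 h1 hb0 hh0 hb1 hh1 t (Ioo_subset_Icc_self ht)).hasDerivAt
      (Icc_mem_nhds ht.1 ht.2))
    ((P.cont_dseg hb0 hh0 hb1 hh1).intervalIntegrable_of_Icc zero_le_one)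
  simpa [clerp_zero, clerp_one] using key

end PSys

/-- **(P10), integrated.** -/
theorem bud_gammaFTC (P : PSys) : P.GammaFTC := by
  intro b h c q hb hh hbc hhc hint
  have eqb : ∀ t : ℝ, (fun v => b v - t * c v) = clerp t b (fun v => b v - c v) := fun t => by
    funext v; unfold clerp; ring
  have eqh : ∀ t : ℝ, (fun v => h v + t * (c v * q v)) = clerp t h (fun v => h v + c v * q v) :=
    fun t => by funext v; unfold clerp; ring
  have hE : IntegrableOn (fun v => (b v - c v) - b v) (Ioo 0 P.a) := hbc.sub_integrableOn hb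
  have hR : IntegrableOn (fun v => (h v + c v * q v) - h v) (Ioo 0 P.a) := hhc.sub_integrableOn hh
  have key : ∀ t ∈ Icc (0:ℝ) 1,
      (1/4) * ∫ v in Ioo 0 P.a,
          c v * P.Aq q (fun v => b v - t * c v) (fun v => h v + t * (c v * q v)) v
        = P.dseg b h (fun v => b v - c v) (fun v => h v + c v * q v) t
          + (1/4) * ∫ v in Ioo 0 P.a, c v * q v ^ 2 := by
    intro t ht
    rw [eqb t, eqh t]
    have hbt := hb.clerp hbc ht
    have hht := hh.clerp hhc ht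
    set bt := clerp t b (fun v => b v - c v)
    set ht' := clerp t h (fun v => h v + c v * q v)
    have i1 := P.integrableOn_B_mul hbt hht hE
    have i2 := P.integrableOn_S_mul hbt hht hR
    rw [PSys.dseg, ← bud_int3 (-(1/4)) (1/2) (1/4) i1 i2 hint, ← integral_const_mul]
    refine integral_congr_ae (Eventually.of_forall fun v => ?_)
    simp only [PSys.Aq]
    ring
  have hcd := P.cont_dseg hb hh hbc hhc
  constructor
  · have h4 : ContinuousOn (fun t => 4 * (P.dseg b h (fun v => b v - c v) (fun v => h v + c v * q v) t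
          + (1/4) * ∫ v in Ioo 0 P.a, c v * q v ^ 2)) (Icc 0 1) :=
      (hcd.add continuousOn_const).const_smul (4:ℝ)
    refine h4.congr fun t ht => ?_
    have := key t ht
    simp only at this ⊢
    linarith
  · have e1 : ∫ t in (0:ℝ)..1, (1/4) * ∫ v in Ioo 0 P.a,
          c v * P.Aq q (fun v => b v - t * c v) (fun v => h v + t * (c v * q v)) v
        = ∫ t in (0:ℝ)..1, (P.dseg b h (fun v => b v - c v) (fun v => h v + c v * q v) t
          + (1/4) * ∫ v in Ioo 0 P.a, c v * q v ^ 2) := by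
      refine intervalIntegral.integral_congr fun t ht => ?_
      rw [uIcc_of_le zero_le_one] at ht
      exact key t ht
    rw [e1, intervalIntegral.integral_add (hcd.intervalIntegrable_of_Icc zero_le_one)
      intervalIntegrable_const, P.seg_ftc hb hh hbc hhc, intervalIntegral.integral_const]
    simp
    ring

/-- **Dyad budget** (LL 07, node N2). -/
theorem bud_dyadBudget (P : PSys) : P.DyadBudget := by
  intro b h c q Cr r hb hh hbc hhc hbC hhC hlt hi1 hi2 hi3
  rw [← (bud_gammaFTC P b h c q hb hh hbc hhc hi1).2]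
  set e : ℝ → ℝ := fun v => Cr v - c v
  set ρ : ℝ → ℝ := fun v => (Cr v * r v - c v * q v) / (Cr v - c v)
  have hb' : IsClock P.a (fun v => (b v - c v) - e v) := hbC.congr fun v _ => by simp only [e]; ring
  have hne : ∀ v ∈ Ioo 0 P.a, Cr v - c v ≠ 0 := fun v hv => (sub_pos.2 (hlt v hv)).ne'
  have ehh : ∀ v ∈ Ioo 0 P.a, h v + Cr v * r v = (h v + c v * q v) + e v * ρ v := fun v hv => by
    simp only [e, ρ]
    rw [mul_div_cancel₀ _ (hne v hv)]
    ring
  have hh' : IsClock P.a (fun v => (h v + c v * q v) + e v * ρ v) := hhC.congr ehh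
  have epos : ∀ v ∈ Ioo 0 P.a, 0 ≤ e v := fun v hv => (sub_pos.2 (hlt v hv)).le
  have eid : ∀ v ∈ Ioo 0 P.a, Cr v * r v ^ 2 - c v * q v ^ 2
      + Cr v * c v * (r v - q v) ^ 2 / (Cr v - c v) = e v * ρ v ^ 2 := fun v hv => by
    simp only [e, ρ]
    have := hne v hv
    field_simp
    ring
  have hsum : IntegrableOn (fun v => Cr v * r v ^ 2 - c v * q v ^ 2
      + Cr v * c v * (r v - q v) ^ 2 / (Cr v - c v)) (Ioo 0 P.a) := (hi2.sub hi1).add hi3
  have hie : IntegrableOn (fun v => e v * ρ v ^ 2) (Ioo 0 P.a) :=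
    hsum.congr_fun eid measurableSet_Ioo
  have key := bud_sqInterp P (fun v => b v - c v) (fun v => h v + c v * q v) e ρ hbc hhc hb' hh'
    epos hie
  have f1 : P.f (fun v => (b v - c v) - e v) (fun v => (h v + c v * q v) + e v * ρ v)
      = P.f (fun v => b v - Cr v) (fun v => h v + Cr v * r v) :=
    P.f_congr _ _ _ _ (fun v _ => by simp only [e]; ring) (fun v hv => (ehh v hv).symm)
  have f2 : ∫ v in Ioo 0 P.a, e v * ρ v ^ 2
      = (∫ v in Ioo 0 P.a, Cr v * r v ^ 2) - (∫ v in Ioo 0 P.a, c v * q v ^ 2)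
        + ∫ v in Ioo 0 P.a, Cr v * c v * (r v - q v) ^ 2 / (Cr v - c v) := by
    rw [← setIntegral_congr_fun measurableSet_Ioo eid]
    have a1 : ∫ v in Ioo 0 P.a, (Cr v * r v ^ 2 - c v * q v ^ 2
        + Cr v * c v * (r v - q v) ^ 2 / (Cr v - c v))
        = (∫ v in Ioo 0 P.a, (Cr v * r v ^ 2 - c v * q v ^ 2))
          + ∫ v in Ioo 0 P.a, Cr v * c v * (r v - q v) ^ 2 / (Cr v - c v) :=
      integral_add (hi2.sub hi1) hi3
    have a2 : ∫ v in Ioo 0 P.a, (Cr v * r v ^ 2 - c v * q v ^ 2)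
        = (∫ v in Ioo 0 P.a, Cr v * r v ^ 2) - ∫ v in Ioo 0 P.a, c v * q v ^ 2 :=
      integral_sub hi2 hi1
    rw [a1, a2]
  rw [f1, f2] at key
  linarith

end Claimed.Agent.R286
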