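import Claimed.Agent.R286.Bud.L8Defs
import Claimed.Agent.R286.Bud.PowE
import Claimed.Agent.R286.Bud.PSysB
import Claimed.Agent.R286.Cmp.Prof
import Claimed.Agent.R286.Tool.ConvComp

/-!
# Row 286, LL sec. 7, node N10 (bud:envelope, l.1184-1300), PART A      (cut: helper5; names `bud_env_*`)
Packed file (CI rule: one growing file per unit).  Parts: 1 fixed data and scales | 2 power accounting | 3 the class (C5) | 4 the pressure system along a parameter.
PART B = `Bud/EnvB.lean` (optimal value, Danskin, integration, cost, competitor, stage cost = the 6 exits of `Bud/L8.lean`).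
-/

set_option autoImplicit false

/-!
# Row 286, LL sec. 7, node N10 (bud:envelope), file 1: the fixed data and the scales of a frame      (cut: helper5; names `bud_env_*`)

* nesting of the parameter intervals `[glo n, ghi n]` and of the patches;
* positivity and trivial bounds of the scales `x, lam, u, Lam, A, agoal, astage, kstage, C0, dPE, E, Zden, cost`;
* the frame `F.stg X n`: same path data, `Ok` for large sizes, membership in the family.
-/

namespace Claimed.Agent.R286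

open MeasureTheory Set Filter Topology

/-! ## 0. Closed forms of the uniform relations (for USE; no sign condition) -/

section Use
variable {ι : Type} {N : ι → ℕ} {P : ι → Prop} {A B : ι → ℝ}

theorem bud_env_O_use (h : BdO N P A B) : ∃ C : ℝ, ∃ N0 : ℕ, ∀ i, P i → N0 ≤ N i → |A i| ≤ C * |B i| := by
  obtain ⟨C, hC⟩ := Asymptotics.isBigO_iff.1 h
  obtain ⟨N0, h0⟩ := bd_ev_iff.1 hC
  exact ⟨C, N0, fun i hP hN => by simpa [Real.norm_eq_abs] using h0 i hP hN⟩

theorem bud_env_o_use (h : Bdo N P A B) {ε : ℝ} (hε : 0 < ε) : ∃ N0 : ℕ, ∀ i, P i → N0 ≤ N i → |A i| ≤ ε * |B i| := by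
  obtain ⟨N0, h0⟩ := bd_ev_iff.1 (Asymptotics.isLittleO_iff.1 h hε)
  exact ⟨N0, fun i hP hN => by simpa [Real.norm_eq_abs] using h0 i hP hN⟩

theorem bud_env_sub_use (h : BdSub N P A B) {ε : ℝ} (hε : 0 < ε) :
    ∃ C : ℝ, ∃ N0 : ℕ, ∀ i, P i → N0 ≤ N i → |A i| ≤ C * |(N i : ℝ) ^ ε * B i| :=
  bud_env_O_use (h ε hε)

end Use

/-! ## 1. Nesting -/

theorem bud_env_G_step {X : BdFix} (hX : X.Ok) {n k : ℕ} (hk : n + k ≤ X.J + 1) :
    X.glo n ≤ X.glo (n + k) ∧ X.ghi (n + k) ≤ X.ghi n := by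
  induction k with
  | zero => exact ⟨le_rfl, le_rfl⟩
  | succ k ih =>
    have h1 := ih (by omega)
    have h2 := hX.gnest (n + k) (by omega)
    exact ⟨h1.1.trans h2.1.le, h2.2.le.trans h1.2⟩

theorem bud_env_G_nest {X : BdFix} (hX : X.Ok) {n k : ℕ} (hnk : n ≤ k) (hk : k ≤ X.J + 1) :
    X.glo n ≤ X.glo k ∧ X.ghi k ≤ X.ghi n := by
  obtain ⟨d, rfl⟩ := Nat.exists_eq_add_of_le hnk
  exact bud_env_G_step hX hk

theorem bud_env_G_nest_lt {X : BdFix} (hX : X.Ok) {n k : ℕ} (hnk : n < k) (hk : k ≤ X.J + 1) :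
    X.glo n < X.glo k ∧ X.ghi k < X.ghi n := by
  have h1 := hX.gnest n (by omega)
  have h2 := bud_env_G_nest hX (n := n + 1) (k := k) hnk hk
  exact ⟨h1.1.trans_le h2.1, h2.2.trans_lt h1.2⟩

theorem bud_env_G_room {X : BdFix} (hX : X.Ok) {n : ℕ} (hn : n ≤ X.J + 1) :
    X.glo n < 1 / 3 ∧ 2 / 3 < X.ghi n := by
  have h := bud_env_G_nest hX hn le_rfl
  exact ⟨h.1.trans_lt hX.groom.1, hX.groom.2.trans_le h.2⟩

theorem bud_env_G_lt {X : BdFix} (hX : X.Ok) {n : ℕ} (hn : n ≤ X.J + 1) : X.glo n < X.ghi n := by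
  have := bud_env_G_room hX hn
  linarith [this.1, this.2]

/-- the interval of a stage lies in the widest interval -/
theorem bud_env_G_sub {X : BdFix} (hX : X.Ok) {n : ℕ} (hn : n ≤ X.J + 1) :
    Icc (X.glo n) (X.ghi n) ⊆ Icc (X.glo 0) (X.ghi 0) := by
  have h := bud_env_G_nest hX (Nat.zero_le n) hn
  exact Icc_subset_Icc h.1 h.2

/-- the interval of a stage `≥ 1` lies in the interior of the widest interval -/
theorem bud_env_G_sub_Ioo {X : BdFix} (hX : X.Ok) {n : ℕ} (hn1 : 1 ≤ n) (hn : n ≤ X.J + 1) :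
    Icc (X.glo n) (X.ghi n) ⊆ Ioo (X.glo 0) (X.ghi 0) := by
  have h := bud_env_G_nest_lt hX (n := 0) (k := n) (by omega) hn
  intro g hg
  exact ⟨h.1.trans_le hg.1, hg.2.trans_lt h.2⟩

/-- the controlled bands lie in the widest patch -/
theorem bud_env_patch {X : BdFix} (hX : X.Ok) {n : ℕ} (hn : n ≤ X.J + 1) :
    X.plo 0 ≤ X.plo n ∧ X.phi n ≤ X.phi 0 := by
  induction n with
  | zero => exact ⟨le_rfl, le_rfl⟩
  | succ n ih =>
    have h1 := ih (by omega)
    have h2 := hX.nest n (by omega)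
    have h3 := hX.pat n (by omega)
    exact ⟨by linarith [h1.1, h2.1, h3.2.1], by linarith [h1.2, h2.2, h3.2.2.2.1]⟩

theorem bud_env_band {X : BdFix} (hX : X.Ok) {n : ℕ} (hn : n ≤ X.J + 1) :
    X.plo 0 ≤ X.qlo n ∧ X.qhi n ≤ X.phi 0 := by
  have h1 := bud_env_patch hX hn
  have h3 := hX.pat n hn
  exact ⟨by linarith [h1.1, h3.2.1], by linarith [h1.2, h3.2.2.2.1]⟩

/-! ## 2. Positivity of the scales -/

/-- elementary facts on the scales of a frame -/
structure BdFr.Pos (F : BdFr) : Prop where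
  N0 : (0 : ℝ) < F.N
  m0 : (0 : ℝ) < F.m
  x0 : 0 < F.x
  x1 : F.x < 1
  lam0 : 0 < F.lam
  lam1 : F.lam < 1
  u0 : 0 < F.u
  u1 : F.u ≤ 1

theorem bud_env_pos {X : BdFix} {F : BdFr} (hX : X.Ok) (hF : F.Ok X) : F.Pos := by
  have hN2 : (2 : ℝ) ≤ F.N := by exact_mod_cast hF.N2
  have hN : (0 : ℝ) < F.N := by linarith
  have hx0 : 0 < F.x := Real.rpow_pos_of_pos hN _
  have hx1 : F.x < 1 := Real.rpow_lt_one_of_one_lt_of_neg (by linarith) (by norm_num)
  have hl0 : 0 < F.lam := lt_of_lt_of_le (Real.rpow_pos_of_pos hx0 _) hF.lam_lo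
  have hl1 : F.lam < 1 := lt_of_le_of_lt hF.lam_hi (Real.rpow_lt_one hx0.le hx1 hX.pS_pos)
  have hU : 0 < F.U X := mul_pos hx0 (Real.rpow_pos_of_pos hl0 _)
  have hu0 : 0 < F.u := by
    have := lt_of_lt_of_le hU hF.u_lo
    exact (mul_pos_iff_of_pos_left hX.CU_pos).1 this
  refine ⟨hN, by linarith [hF.m_lo], hx0, hx1, hl0, hl1, hu0, ?_⟩
  exact hF.u_hi.trans (Real.rpow_le_one hl0.le hl1.le hX.bl_pos.le)

namespace BdFr.Pos

variable {F : BdFr} (h : F.Pos) (X : BdFix)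
include h

theorem Lam0 : 0 < F.Lam := Real.rpow_pos_of_pos h.lam0 _
theorem Lam1 : F.Lam ≤ 1 := Real.rpow_le_one h.lam0.le h.lam1.le (by norm_num)
theorem Xr0 : 0 < F.Xr := div_pos h.x0 h.u0
theorem A0 : 0 < F.A := mul_pos (pow_pos h.Xr0 2) (Real.rpow_pos_of_pos h.Lam0 _)
theorem agoal0 : 0 < F.agoal X := mul_pos (pow_pos h.Xr0 2) (Real.rpow_pos_of_pos h.lam0 _)
theorem C00 : 0 < F.C0 := mul_pos (pow_pos h.u0 2) h.Lam0
theorem U0 : 0 < F.U X := mul_pos h.x0 (Real.rpow_pos_of_pos h.lam0 _)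

theorem astage0 (n : ℕ) : 0 < F.astage X n := by
  cases n with
  | zero => exact one_pos
  | succ n => exact lt_of_lt_of_le (h.agoal0 X) (le_max_left _ _)

omit h in
theorem kstage0 (n : ℕ) : 0 ≤ F.kstage X n := by
  cases n with
  | zero => exact le_rfl
  | succ n => exact sq_nonneg _

theorem cost0 : 0 < F.cost X :=
  mul_pos (mul_pos (Real.rpow_pos_of_pos h.x0 _) h.u0) (Real.rpow_pos_of_pos h.Lam0 _)

end BdFr.Pos

theorem bud_env_dPE_pos {X : BdFix} {F : BdFr} (hX : X.Ok) (h : F.Pos) : 0 < F.dPE X :=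
  mul_pos (mul_pos hX.cd_pos h.u0) (Real.rpow_pos_of_pos h.Lam0 _)

theorem bud_env_E_pos {X : BdFix} {F : BdFr} (hX : X.Ok) (h : F.Pos) : 0 < F.E X :=
  mul_pos (Real.rpow_pos_of_pos h.x0 _) (bud_env_dPE_pos hX h)

theorem bud_env_Zden_pos {X : BdFix} {F : BdFr} (hX : X.Ok) (h : F.Pos) : 0 < F.Zden X := by
  unfold BdFr.Zden
  split_ifs
  · exact mul_pos (mul_pos hX.cN_pos h.lam0) (Real.rpow_pos_of_pos h.x0 _)
  · exact mul_pos (mul_pos (mul_pos hX.cN_pos h.lam0) (Real.rpow_pos_of_pos h.x0 _))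
      (Real.rpow_pos_of_pos h.lam0 _)

/-! ## 3. The frame of a stage -/

theorem bud_env_stg_astage (F : BdFr) (X : BdFix) (n k : ℕ) : (F.stg X n).astage X k = F.astage X k := by
  induction k with
  | zero => rfl
  | succ k ih =>
    simp only [BdFr.astage]
    rw [ih]
    rfl

theorem bud_env_stg_kstage (F : BdFr) (X : BdFix) (n k : ℕ) : (F.stg X n).kstage X k = F.kstage X k := by
  cases k with
  | zero => rfl
  | succ k =>
    simp only [BdFr.kstage]
    rw [bud_env_stg_astage]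
    rfl

theorem bud_env_stg_atStage (F : BdFr) (X : BdFix) (n : ℕ) : (F.stg X n).AtStage X :=
  ⟨(bud_env_stg_kstage F X n n).symm, rfl, rfl⟩

/-- a frame which carries the box of its stage is the stage frame of itself -/
theorem bud_env_stg_self {F : BdFr} {X : BdFix} {n : ℕ} (h : F.AtStage X) (hn : F.st = n) : F.stg X n = F := by
  obtain ⟨h1, h2, h3⟩ := h
  subst hn
  unfold BdFr.stg
  rw [← h1, ← h2, ← h3]

theorem bud_env_stg_stg (F : BdFr) (X : BdFix) (n k : ℕ) : (F.stg X n).stg X k = F.stg X k := by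
  simp only [BdFr.stg]
  congr 1
  exact bud_env_stg_kstage F X n k

end Claimed.Agent.R286

/-!
# Row 286, LL sec. 7, node N10 (bud:envelope), file 2: power accounting on frames      (cut: helper5; names `bud_env_*`)

Everything here is arithmetic of `x = N^{-1/6}`, `x^12 ≤ lam ≤ x^pS`, `U = x lam^{-sS/2} ≤ CU u`, `u ≤ lam^bl` (`BdFr.Ok`, `BdFix.Ok`).
Recommended: `bud_env_pos`, logs (`obtain ⟨a, rfl⟩ : ∃ a, x = Real.exp a`), `Real.exp_le_exp`, `nlinarith` (pattern: `Bud/PowE.lean`).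
-/

namespace Claimed.Agent.R286

open MeasureTheory Set Filter Topology

variable {X : BdFix}

/-- every positive power of `lam` is small for large sizes (`lam ≤ x^pS = N^{-pS/6}`) -/
theorem bud_env_lam_small (hX : X.Ok) {c ε : ℝ} (hc : 0 < c) (hε : 0 < ε) :
    ∃ N0 : ℕ, ∀ F : BdFr, F.Ok X → N0 ≤ F.N → F.lam ^ c ≤ ε := by
  have hy : 0 < X.pS * c / 6 := by have := hX.pS_pos; positivity
  have ht : Tendsto (fun n : ℕ => (n : ℝ) ^ (-(X.pS * c / 6))) atTop (𝓝 0) :=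
    (tendsto_rpow_neg_atTop hy).comp tendsto_natCast_atTop_atTop
  obtain ⟨N0, h0⟩ := eventually_atTop.1 (ht.eventually (Iic_mem_nhds hε))
  refine ⟨N0, fun F hF hN => ?_⟩
  have hP := bud_env_pos hX hF
  have h1 : F.lam ^ c ≤ (F.x ^ X.pS) ^ c := Real.rpow_le_rpow hP.lam0.le hF.lam_hi hc.le
  have h2 : (F.x ^ X.pS) ^ c = (F.N : ℝ) ^ (-(X.pS * c / 6)) := by
    unfold BdFr.x
    rw [← Real.rpow_mul hP.N0.le, ← Real.rpow_mul hP.N0.le]
    congr 1; ring
  rw [h2] at h1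
  exact h1.trans (h0 F.N hN)

/-- `c_I u ≤ 1` for large sizes -/
theorem bud_env_u_small (hX : X.Ok) {ε : ℝ} (hε : 0 < ε) :
    ∃ N0 : ℕ, ∀ F : BdFr, F.Ok X → N0 ≤ F.N → F.u ≤ ε := by
  obtain ⟨N0, h⟩ := bud_env_lam_small hX hX.bl_pos hε
  exact ⟨N0, fun F hF hN => hF.u_hi.trans (h F hF hN)⟩

/-- `X = x/u ≤ CU lam^{sS/2}` -/
theorem bud_env_agoal_le_one_aux (hX : X.Ok) {F : BdFr} (hF : F.Ok X) : F.Xr ≤ X.CU * F.lam ^ (X.sS / 2) := by
  have hP := bud_env_pos hX hF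
  have h1 := hF.u_lo
  unfold BdFr.U at h1
  have hl : 0 < F.lam ^ (X.sS / 2) := Real.rpow_pos_of_pos hP.lam0 _
  have e : F.lam ^ (-(X.sS / 2)) = (F.lam ^ (X.sS / 2))⁻¹ := Real.rpow_neg hP.lam0.le _
  rw [e] at h1
  unfold BdFr.Xr
  rw [div_le_iff₀ hP.u0]
  have h2 := mul_le_mul_of_nonneg_right h1 hl.le
  rw [mul_assoc, inv_mul_cancel₀ hl.ne', mul_one] at h2
  linarith

theorem bud_env_agoal_le_one_aux2 (hX : X.Ok) {F : BdFr} (hF : F.Ok X) : F.agoal X ≤ X.CU ^ 2 * F.lam ^ X.tau0 := by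
  have hP := bud_env_pos hX hF
  have h1 := bud_env_agoal_le_one_aux hX hF
  have h2 : F.Xr ^ 2 ≤ (X.CU * F.lam ^ (X.sS / 2)) ^ 2 := pow_le_pow_left₀ hP.Xr0.le h1 2
  have e : (X.CU * F.lam ^ (X.sS / 2)) ^ 2 * F.lam ^ (-X.s0) = X.CU ^ 2 * F.lam ^ X.tau0 := by
    rw [mul_pow, ← Real.rpow_natCast (F.lam ^ (X.sS / 2)), ← Real.rpow_mul hP.lam0.le, mul_assoc,
      ← Real.rpow_add hP.lam0]
    congr 2
    unfold BdFix.s0
    push_cast; ring
  unfold BdFr.agoal
  rw [← e]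
  exact mul_le_mul_of_nonneg_right h2 (Real.rpow_pos_of_pos hP.lam0 _).le

/-- `a_goal = X² lam^{-s0} ≤ CU² lam^{tau0} ≤ 1` for large sizes -/
theorem bud_env_agoal_le_one (hX : X.Ok) :
    ∃ N0 : ℕ, ∀ F : BdFr, F.Ok X → N0 ≤ F.N → F.agoal X ≤ 1 := by
  have hCU := hX.CU_pos
  obtain ⟨N0, h0⟩ := bud_env_lam_small hX hX.tau0_pos (show 0 < (X.CU ^ 2)⁻¹ by positivity)
  refine ⟨N0, fun F hF hN => (bud_env_agoal_le_one_aux2 hX hF).trans ?_⟩
  calc X.CU ^ 2 * F.lam ^ X.tau0 ≤ X.CU ^ 2 * (X.CU ^ 2)⁻¹ :=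
        mul_le_mul_of_nonneg_left (h0 F hF hN) (by positivity)
    _ = 1 := mul_inv_cancel₀ (by positivity)

/-- `a_goal ≤ a_{n-1}` for every stage index -/
theorem bud_env_agoal_le_astage {F : BdFr} (h1 : F.agoal X ≤ 1) (n : ℕ) : F.agoal X ≤ F.astage X n := by
  cases n with
  | zero => exact h1
  | succ n => exact le_max_left _ _

/-- (C5)/(C11): `κ_j ≤ lam^{2 s0} Lam^{-2/3}` (from `bpe_kap_le`) -/
theorem bud_env_kstage_le {F : BdFr} (h : F.Pos) (h1 : F.agoal X ≤ 1) (n : ℕ) :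
    F.kstage X n ≤ F.lam ^ (2 * X.s0) * F.Lam ^ (-(2 / 3) : ℝ) := by
  have hl0 := h.lam0
  have hL0 := h.Lam0
  cases n with
  | zero =>
    show (0 : ℝ) ≤ _
    exact (mul_pos (Real.rpow_pos_of_pos hl0 _) (Real.rpow_pos_of_pos hL0 _)).le
  | succ n =>
    show (F.A / F.astage X n) ^ 2 ≤ _
    have ha := bud_env_agoal_le_astage h1 n
    have hg0 := h.agoal0 X
    have h2 : F.A / F.astage X n ≤ F.A / F.agoal X := div_le_div_of_nonneg_left h.A0.le hg0 ha
    have h3 : F.A / F.agoal X = F.lam ^ X.s0 * F.Lam ^ (-(1 / 3) : ℝ) := by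
      unfold BdFr.A BdFr.agoal
      have hX2 := h.Xr0
      rw [Real.rpow_neg hl0.le X.s0]
      have := Real.rpow_pos_of_pos hl0 X.s0
      field_simp
    rw [h3] at h2
    have h4 := pow_le_pow_left₀ (div_pos h.A0 (h.astage0 X n)).le h2 2
    refine h4.trans (le_of_eq ?_)
    rw [mul_pow, ← Real.rpow_natCast (F.lam ^ X.s0), ← Real.rpow_mul hl0.le,
      ← Real.rpow_natCast (F.Lam ^ (-(1 / 3) : ℝ)), ← Real.rpow_mul hL0.le]
    congr 2
    · push_cast; ring
    · push_cast; ring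

/-- the extra floor is small for large sizes -/
theorem bud_env_kstage_small (hX : X.Ok) {ε : ℝ} (hε : 0 < ε) :
    ∃ N0 : ℕ, ∀ F : BdFr, F.Ok X → N0 ≤ F.N → ∀ n, F.kstage X n ≤ ε := by
  have hs0 : (0 : ℝ) < 2 * X.s0 - 0.02 := by
    unfold BdFix.s0 BdFix.sS
    linarith [hX.tau_le, hX.tau0_le, hX.eta_le, hX.tau0_pos]
  obtain ⟨N1, h1⟩ := bud_env_agoal_le_one hX
  obtain ⟨N2, h2⟩ := bud_env_lam_small hX hs0 hε
  refine ⟨max N1 N2, fun F hF hN n => ?_⟩
  have hP := bud_env_pos hX hF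
  refine (bud_env_kstage_le hP (h1 F hF (le_trans (le_max_left _ _) hN)) n).trans ?_
  refine le_trans (le_of_eq ?_) (h2 F hF (le_trans (le_max_right _ _) hN))
  unfold BdFr.Lam
  rw [← Real.rpow_mul hP.lam0.le, ← Real.rpow_add hP.lam0]
  congr 1; ring

/-- logarithmic coordinates of a frame -/
theorem bud_env_logs_aux (hX : X.Ok) {F : BdFr} (hF : F.Ok X) :
    ∃ a l w : ℝ, F.x = Real.exp a ∧ F.lam = Real.exp l ∧ F.u = Real.exp w ∧ a < 0 ∧ l < 0 ∧ a * 12 ≤ l ∧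
      l ≤ a * X.pS ∧ w ≤ l * X.bl ∧ Real.exp (a + l * (-(X.sS / 2))) ≤ X.CU * Real.exp w ∧
      (F.N : ℝ) = Real.exp (a * (-6)) := by
  have hP := bud_env_pos hX hF
  obtain ⟨a, ha⟩ : ∃ a, F.x = Real.exp a := ⟨Real.log F.x, (Real.exp_log hP.x0).symm⟩
  obtain ⟨l, hl⟩ : ∃ l, F.lam = Real.exp l := ⟨Real.log F.lam, (Real.exp_log hP.lam0).symm⟩
  obtain ⟨w, hw⟩ : ∃ w, F.u = Real.exp w := ⟨Real.log F.u, (Real.exp_log hP.u0).symm⟩
  refine ⟨a, l, w, ha, hl, hw, ?_, ?_, ?_, ?_, ?_, ?_, ?_⟩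
  · have := hP.x1; rw [ha] at this; exact Real.exp_lt_one_iff.1 this
  · have := hP.lam1; rw [hl] at this; exact Real.exp_lt_one_iff.1 this
  · have := hF.lam_lo; rw [ha, hl, ← Real.exp_mul, Real.exp_le_exp] at this; exact this
  · have := hF.lam_hi; rw [ha, hl, ← Real.exp_mul, Real.exp_le_exp] at this; exact this
  · have := hF.u_hi; rw [hw, hl, ← Real.exp_mul, Real.exp_le_exp] at this; exact this
  · have := hF.u_lo; unfold BdFr.U at this; rw [ha, hl, hw, ← Real.exp_mul, ← Real.exp_add] at this; exact this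
  · rw [Real.exp_mul, ← ha]
    unfold BdFr.x
    rw [← Real.rpow_mul hP.N0.le]
    norm_num

/-- `v_* ≤ (2/c_d) CU² u lam^{sS - 0.01} x^ζ` -/
theorem bud_env_k_small_aux (hX : X.Ok) {F : BdFr} (hF : F.Ok X) :
    (F.call X).us ≤ 2 / X.cd * X.CU ^ 2 * F.u * (F.x ^ X.zeta * F.lam ^ (X.sS - 0.01)) := by
  have hP := bud_env_pos hX hF
  obtain ⟨a, l, w, ha, hl, hw, ha0, hl0, h12, hpS, hbl, hU, hN⟩ := bud_env_logs_aux hX hF
  have hcd := hX.cd_pos
  have hCU := hX.CU_pos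
  have hE : (F.call X).E = Real.exp (a * (4 - X.zeta)) * (X.cd * Real.exp w * Real.exp (l * 0.03 * (1 / 3))) := by
    show F.E X = _
    unfold BdFr.E BdFr.dPE BdFr.Lam
    rw [ha, hl, hw, ← Real.exp_mul, ← Real.exp_mul, ← Real.exp_mul]
  have hE0 : 0 < (F.call X).E := bud_env_E_pos hX hP
  have hm : Real.exp (a * (-6)) / 2 ≤ (F.call X).N := by
    show _ ≤ (F.m : ℝ)
    rw [← hN]; exact hF.m_lo
  have h1 : (F.call X).us ≤ 1 / (Real.exp (a * (-6)) / 2 * (F.call X).E) := by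
    unfold CmCall.us
    exact one_div_le_one_div_of_le (mul_pos (by positivity) hE0) (mul_le_mul_of_nonneg_right hm hE0.le)
  refine h1.trans ?_
  rw [hE, ha, hl, hw, ← Real.exp_mul, ← Real.exp_mul]
  -- `exp (2a - 2w) ≤ CU² exp (l sS)`
  have h2 : Real.exp (a * 2) ≤ X.CU ^ 2 * Real.exp (w * 2 + l * X.sS) := by
    have h3 := pow_le_pow_left₀ (Real.exp_pos _).le hU 2
    rw [mul_pow, ← Real.exp_nat_mul, ← Real.exp_nat_mul] at h3
    have h4 := mul_le_mul_of_nonneg_right h3 (Real.exp_pos (l * X.sS)).le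
    rw [← Real.exp_add, mul_assoc, ← Real.exp_add] at h4
    have e1 : ((2 : ℕ) : ℝ) * (a + l * (-(X.sS / 2))) + l * X.sS = a * 2 := by push_cast; ring
    have e2 : ((2 : ℕ) : ℝ) * w + l * X.sS = w * 2 + l * X.sS := by push_cast; ring
    rwa [e1, e2] at h4
  have e3 : 1 / (Real.exp (a * (-6)) / 2 * (Real.exp (a * (4 - X.zeta)) * (X.cd * Real.exp w * Real.exp (l * 0.03 * (1 / 3)))))
      = 2 / X.cd * (Real.exp (a * 2) * Real.exp (a * X.zeta - w - l * 0.01)) := by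
    have : Real.exp (a * 2) * Real.exp (a * X.zeta - w - l * 0.01)
        = (Real.exp (a * (-6)) * Real.exp (a * (4 - X.zeta)) * Real.exp w * Real.exp (l * 0.03 * (1 / 3)))⁻¹ := by
      rw [← Real.exp_add, ← Real.exp_add, ← Real.exp_add, ← Real.exp_add, ← Real.exp_neg]
      congr 1; ring
    rw [this]
    field_simp
  rw [e3]
  have e4 : 2 / X.cd * X.CU ^ 2 * Real.exp w * (Real.exp (a * X.zeta) * Real.exp (l * (X.sS - 0.01)))
      = 2 / X.cd * ((X.CU ^ 2 * Real.exp (w * 2 + l * X.sS)) * Real.exp (a * X.zeta - w - l * 0.01)) := by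
    have : Real.exp w * (Real.exp (a * X.zeta) * Real.exp (l * (X.sS - 0.01)))
        = Real.exp (w * 2 + l * X.sS) * Real.exp (a * X.zeta - w - l * 0.01) := by
      rw [← Real.exp_add, ← Real.exp_add, ← Real.exp_add]
      congr 1; ring
    calc _ = 2 / X.cd * X.CU ^ 2 * (Real.exp w * (Real.exp (a * X.zeta) * Real.exp (l * (X.sS - 0.01)))) := by ring
      _ = _ := by rw [this]; ring
  rw [e4]
  exact mul_le_mul_of_nonneg_left (mul_le_mul_of_nonneg_right h2 (Real.exp_pos _).le) (by positivity)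

/-- `m^δ x^{2ζ} ≤ 3` -/
theorem bud_env_k_small_aux2 (hX : X.Ok) {F : BdFr} (hF : F.Ok X) :
    (F.call X).N ^ (F.call X).dl * (F.x ^ X.zeta) ^ 2 ≤ 3 := by
  have hP := bud_env_pos hX hF
  obtain ⟨a, l, w, ha, hl, hw, ha0, hl0, h12, hpS, hbl, hU, hN⟩ := bud_env_logs_aux hX hF
  have hdl : (F.call X).dl = X.mPE / 10000 := rfl
  have hdl0 : 0 < (F.call X).dl := by rw [hdl]; linarith [hX.mPE_pos]
  have hz1 : X.zeta ≤ 1 := by
    have h1 := hX.zeta_le
    have t0 : X.tau0 ≤ 1 := by linarith [hX.tau0_le, hX.eta_le, hX.tau_le]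
    have b0 : X.bl ≤ 1 := by linarith [hX.bl_le, hX.bs_le, hX.eta_le, hX.tau_le]
    have p0 : X.pS ≤ 1 := by linarith [hX.pS_le, hX.he_le]
    have h2 : X.pS * X.tau0 * X.bl ≤ 1 * 1 * 1 :=
      mul_le_mul (mul_le_mul p0 t0 hX.tau0_pos.le (by norm_num)) b0 hX.bl_pos.le (by norm_num)
    linarith
  have hdl1 : (F.call X).dl ≤ 1 := by rw [hdl]; linarith [hX.mPE_le]
  have hm : (F.call X).N ≤ 3 * Real.exp (a * (-6)) := by
    show (F.m : ℝ) ≤ _
    rw [← hN]; exact hF.m_hi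
  have hm0 : 0 < (F.call X).N := hP.m0
  have h1 : (F.call X).N ^ (F.call X).dl ≤ 3 * Real.exp (a * (-6) * (F.call X).dl) := by
    calc (F.call X).N ^ (F.call X).dl ≤ (3 * Real.exp (a * (-6))) ^ (F.call X).dl :=
          Real.rpow_le_rpow hm0.le hm hdl0.le
      _ = 3 ^ (F.call X).dl * Real.exp (a * (-6) * (F.call X).dl) := by
          rw [Real.mul_rpow (by norm_num) (Real.exp_pos _).le, ← Real.exp_mul]
      _ ≤ 3 * Real.exp (a * (-6) * (F.call X).dl) := by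
          refine mul_le_mul_of_nonneg_right ?_ (Real.exp_pos _).le
          calc (3 : ℝ) ^ (F.call X).dl ≤ 3 ^ (1 : ℝ) := Real.rpow_le_rpow_of_exponent_le (by norm_num) hdl1
            _ = 3 := Real.rpow_one 3
  rw [ha, ← Real.exp_mul, ← Real.exp_nat_mul]
  calc _ ≤ 3 * Real.exp (a * (-6) * (F.call X).dl) * Real.exp (((2 : ℕ) : ℝ) * (a * X.zeta)) :=
        mul_le_mul_of_nonneg_right h1 (Real.exp_pos _).le
    _ = 3 * Real.exp (a * (-6) * (F.call X).dl + ((2 : ℕ) : ℝ) * (a * X.zeta)) := by rw [Real.exp_add]; ring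
    _ ≤ 3 * 1 := by
        refine mul_le_mul_of_nonneg_left (Real.exp_le_one_iff.2 ?_) (by norm_num)
        have hc : 0 ≤ 2 * X.zeta - 6 * (F.call X).dl := by rw [hdl]; linarith [hX.mPE_le, hX.zeta_pos]
        have := mul_nonneg (neg_nonneg.2 ha0.le) hc
        push_cast
        linarith
    _ = 3 := by norm_num

/-- the PE floor is small at radii `≥ c u`:  `k(r) ≤ m^δ (v_*/r)²`, `v_*/u ≤ (2/c_d) x^ζ A` -/
theorem bud_env_k_small (hX : X.Ok) {c ε : ℝ} (hc : 0 < c) (hε : 0 < ε) :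
    ∃ N0 : ℕ, ∀ F : BdFr, F.Ok X → N0 ≤ F.N → ∀ r, c * F.u ≤ r → F.k X r ≤ ε := by
  have hcd := hX.cd_pos
  have hCU := hX.CU_pos
  have hs : (0 : ℝ) < X.sS - 0.01 := by
    unfold BdFix.sS
    linarith [hX.tau_le]
  obtain ⟨M, hM, hM0⟩ : ∃ M, M = 3 * (2 / X.cd * X.CU ^ 2 / c) ^ 2 ∧ 0 < M := ⟨_, rfl, by positivity⟩
  obtain ⟨δ, hδ0, hδ⟩ : ∃ δ : ℝ, 0 < δ ∧ M * δ ^ 2 ≤ ε := by
    refine ⟨Real.sqrt (ε / M), Real.sqrt_pos.2 (div_pos hε hM0), ?_⟩
    rw [Real.sq_sqrt (div_pos hε hM0).le, mul_div_cancel₀ _ hM0.ne']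
  obtain ⟨N0, h0⟩ := bud_env_lam_small hX hs hδ0
  refine ⟨N0, fun F hF hN r hr => ?_⟩
  have hP := bud_env_pos hX hF
  have hu0 := hP.u0
  have hN0 : 0 < (F.call X).N := hP.m0
  have hE0 : 0 < (F.call X).E := bud_env_E_pos hX hP
  have hus : 0 < (F.call X).us := by unfold CmCall.us; positivity
  have h1 := bud_env_k_small_aux hX hF
  have h2 := bud_env_k_small_aux2 hX hF
  have h3 := h0 F hF hN
  have hl0 : 0 < F.lam ^ (X.sS - 0.01) := Real.rpow_pos_of_pos hP.lam0 _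
  have hx0 : 0 < F.x ^ X.zeta := Real.rpow_pos_of_pos hP.x0 _
  have hNd : 0 < (F.call X).N ^ (F.call X).dl := Real.rpow_pos_of_pos hN0 _
  have hNd2 : 0 < (F.call X).N ^ (2 * (F.call X).dl) := Real.rpow_pos_of_pos hN0 _
  have hcu : 0 < c * F.u := mul_pos hc hu0
  show (F.call X).N ^ (F.call X).dl * (F.call X).us ^ 2 / (r + (F.call X).N ^ (2 * (F.call X).dl) * (F.call X).us) ^ 2 ≤ ε
  have hden : (c * F.u) ^ 2 ≤ (r + (F.call X).N ^ (2 * (F.call X).dl) * (F.call X).us) ^ 2 :=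
    pow_le_pow_left₀ hcu.le (by have := mul_pos hNd2 hus; linarith) 2
  have hus2 : (F.call X).us ^ 2 ≤ (2 / X.cd * X.CU ^ 2 * F.u * (F.x ^ X.zeta * F.lam ^ (X.sS - 0.01))) ^ 2 :=
    pow_le_pow_left₀ hus.le h1 2
  calc _ ≤ (F.call X).N ^ (F.call X).dl * (F.call X).us ^ 2 / (c * F.u) ^ 2 :=
        div_le_div_of_nonneg_left (by positivity) (by positivity) hden
    _ ≤ (F.call X).N ^ (F.call X).dl * (2 / X.cd * X.CU ^ 2 * F.u * (F.x ^ X.zeta * F.lam ^ (X.sS - 0.01))) ^ 2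
          / (c * F.u) ^ 2 :=
        div_le_div_of_nonneg_right (mul_le_mul_of_nonneg_left hus2 hNd.le) (by positivity)
    _ = ((F.call X).N ^ (F.call X).dl * (F.x ^ X.zeta) ^ 2) * ((2 / X.cd * X.CU ^ 2 / c) ^ 2
          * (F.lam ^ (X.sS - 0.01)) ^ 2) := by
        field_simp
    _ ≤ 3 * ((2 / X.cd * X.CU ^ 2 / c) ^ 2 * δ ^ 2) := by
        refine mul_le_mul h2 ?_ (by positivity) (by norm_num)
        exact mul_le_mul_of_nonneg_left (pow_le_pow_left₀ hl0.le h3 2) (by positivity)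
    _ = M * δ ^ 2 := by rw [hM]; ring
    _ ≤ ε := hδ

/-- `x⁴ u Lam^{1/3} ≤ x^{4-2ζ} u Lam^{1/3}` -/
theorem bud_env_x4_le_cost (hX : X.Ok) {F : BdFr} (h : F.Pos) :
    F.x ^ (4 : ℝ) * F.u * F.Lam ^ (1 / 3 : ℝ) ≤ F.cost X := by
  unfold BdFr.cost
  have h1 : F.x ^ (4 : ℝ) ≤ F.x ^ (4 - 2 * X.zeta) :=
    Real.rpow_le_rpow_of_exponent_ge h.x0 h.x1.le (by linarith [hX.zeta_pos])
  exact mul_le_mul_of_nonneg_right (mul_le_mul_of_nonneg_right h1 h.u0.le) (Real.rpow_pos_of_pos h.Lam0 _).le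

/-- l.1215, on a frame (from `bpe_penalty`) -/
theorem bud_env_penalty {F : BdFr} (h : F.Pos) (n : ℕ) {σ C Z : ℝ} (hσ0 : 0 ≤ σ)
    (hσ : σ ≤ C * F.u * F.astage X n * Z) :
    F.C0 * F.kstage X (n + 1) * F.u * σ ^ 2 ≤ C ^ 2 * (F.x ^ (4 : ℝ) * F.u * F.Lam ^ (1 / 3 : ℝ) * Z ^ 2) := by
  have h1 := bpe_penalty h.x0 h.u0 h.Lam0 (h.astage0 X n) hσ0 hσ
  have e : F.x ^ (4 : ℝ) = F.x ^ 4 := by
    rw [← Real.rpow_natCast]; norm_num
  rw [e]
  exact h1

/-- the cost scale against both denominators of `Z²` (l.1262-1280) -/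
theorem bud_env_cost_le_Zden (hX : X.Ok) {F : BdFr} (hF : F.Ok X) : X.cN * F.cost X ≤ F.Zden X := by
  obtain ⟨a, l, w, ha, hl, hw, ha0, hl0, h12, hpS, hbl, -, -⟩ := bud_env_logs_aux hX hF
  have hz := hX.zeta_pos
  have hp := hX.pS_pos
  unfold BdFr.cost BdFr.Zden BdFr.Lam
  split_ifs with hf
  · obtain ⟨f1, f2, -⟩ := hf
    rw [ha, hl, ← Real.exp_mul, Real.exp_eq_exp] at f1
    rw [ha, hw, ← Real.exp_mul, Real.exp_le_exp] at f2
    rw [ha, hl, hw, mul_assoc X.cN]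
    refine mul_le_mul_of_nonneg_left ?_ hX.cN_pos.le
    simp only [← Real.exp_mul, ← Real.exp_add]
    rw [Real.exp_le_exp]
    have hz2 : X.zeta ≤ X.pS := by
      have h1 := hX.zeta_le
      have h2 : X.pS * X.tau0 * X.bl ≤ X.pS * 1 * 1 := by
        have t0 : X.tau0 ≤ 1 := by linarith [hX.tau0_le, hX.eta_le, hX.tau_le]
        have b0 : X.bl ≤ 1 := by linarith [hX.bl_le, hX.bs_le, hX.eta_le, hX.tau_le]
        exact mul_le_mul (mul_le_mul_of_nonneg_left t0 hp.le) b0 hX.bl_pos.le (by linarith)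
      linarith
    have hc : 0 ≤ X.he / 2 - 0.99 * X.pS - 2 * X.zeta := by linarith [hX.pS_le]
    have := mul_nonneg (neg_nonneg.2 ha0.le) hc
    rw [f1]
    linarith
  · rw [ha, hl, hw, mul_assoc X.cN, mul_assoc X.cN]
    refine mul_le_mul_of_nonneg_left ?_ hX.cN_pos.le
    simp only [← Real.exp_mul, ← Real.exp_add]
    rw [Real.exp_le_exp]
    -- `ζ/pS ≤ bl/2`
    have hzp : X.zeta / X.pS ≤ X.bl / 2 := by
      rw [div_le_iff₀ hp]
      have h1 := hX.zeta_le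
      have t0 : X.tau0 ≤ 1 := by linarith [hX.tau0_le, hX.eta_le, hX.tau_le]
      have h2 : X.pS * X.tau0 * X.bl ≤ X.pS * 1 * X.bl :=
        mul_le_mul_of_nonneg_right (mul_le_mul_of_nonneg_left t0 hp.le) hX.bl_pos.le
      have h3 : 0 < X.pS * X.bl := mul_pos hp hX.bl_pos
      nlinarith
    have k1 : X.zeta / X.pS * l ≤ X.zeta * a := by
      have := mul_le_mul_of_nonneg_left hpS (div_pos hz hp).le
      have e : X.zeta / X.pS * (a * X.pS) = X.zeta * a := by field_simp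
      rwa [e] at this
    have hc : 0 ≤ X.bl + 0.01 - 2 * (X.zeta / X.pS) - (1 - 2 * X.s0) := by
      unfold BdFix.s0 BdFix.sS
      linarith [hX.tau_le, hX.tau0_le, hX.eta_le, hX.tau0_pos]
    have := mul_nonneg (neg_nonneg.2 hl0.le) hc
    linarith

/-- the four terms of `𝓑` in logarithmic coordinates -/
theorem bud_env_Bcal_le_Zden_aux {a l w d ε cG eta sS CU cE cL : ℝ} (hCU : 0 < CU)
    (hU : Real.exp (a + l * (-(sS / 2))) ≤ CU * Real.exp w)
    (t1 : a * (-6) * ε + a * (4 + cG) ≤ d)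
    (t2 : a * (-6) * ε + l * (1 + 2 * eta) + (a + l * (-(sS / 2))) * 4 + w ≤ d)
    (hE0 : 0 ≤ cE) (t3 : ∃ e, cE ≤ Real.exp e ∧ a * (-6) * ε + e * 2 + l * (1 + 2 * eta) + (a + l * (-(sS / 2))) * 4 ≤ d)
    (hL0 : 0 ≤ cL) (hL1 : cL ≤ 1) (t4 : cL = 0 ∨ a * (-6) * ε + a * 6 - l ≤ d) :
    Real.exp (a * (-6)) ^ ε * (Real.exp a ^ (4 + cG)
        + Real.exp l ^ (1 + 2 * eta) * (Real.exp a * Real.exp l ^ (-(sS / 2))) ^ (5 : ℝ)
        + cE ^ 2 * Real.exp l ^ (1 + 2 * eta) * (Real.exp a * Real.exp l ^ (-(sS / 2))) ^ (4 : ℝ)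
        + cL ^ 2 * Real.exp a ^ (6 : ℝ) / Real.exp l) ≤ (3 + CU) * Real.exp d := by
  simp only [← Real.exp_mul, ← Real.exp_add]
  have hd := Real.exp_pos d
  have s1 : Real.exp (a * (-6) * ε) * Real.exp (a * (4 + cG)) ≤ Real.exp d := by
    rw [← Real.exp_add, Real.exp_le_exp]; exact t1
  have s2 : Real.exp (a * (-6) * ε) * Real.exp (l * (1 + 2 * eta) + (a + l * (-(sS / 2))) * 5) ≤ CU * Real.exp d := by
    have e : Real.exp (a * (-6) * ε) * Real.exp (l * (1 + 2 * eta) + (a + l * (-(sS / 2))) * 5)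
        = Real.exp (a * (-6) * ε + l * (1 + 2 * eta) + (a + l * (-(sS / 2))) * 4) * Real.exp (a + l * (-(sS / 2))) := by
      rw [← Real.exp_add, ← Real.exp_add]; congr 1; ring
    rw [e]
    calc _ ≤ Real.exp (a * (-6) * ε + l * (1 + 2 * eta) + (a + l * (-(sS / 2))) * 4) * (CU * Real.exp w) :=
          mul_le_mul_of_nonneg_left hU (Real.exp_pos _).le
      _ = CU * Real.exp (a * (-6) * ε + l * (1 + 2 * eta) + (a + l * (-(sS / 2))) * 4 + w) := by
          rw [Real.exp_add _ w]; ring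
      _ ≤ CU * Real.exp d := mul_le_mul_of_nonneg_left (Real.exp_le_exp.2 t2) hCU.le
  have s3 : Real.exp (a * (-6) * ε) * (cE ^ 2 * Real.exp (l * (1 + 2 * eta)) * Real.exp ((a + l * (-(sS / 2))) * 4))
      ≤ Real.exp d := by
    obtain ⟨e, he, t3⟩ := t3
    have h2 : cE ^ 2 ≤ Real.exp (e * 2) := by
      have := pow_le_pow_left₀ hE0 he 2
      rwa [← Real.exp_nat_mul, mul_comm] at this
    calc _ ≤ Real.exp (a * (-6) * ε) * (Real.exp (e * 2) * Real.exp (l * (1 + 2 * eta))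
            * Real.exp ((a + l * (-(sS / 2))) * 4)) := by
          refine mul_le_mul_of_nonneg_left ?_ (Real.exp_pos _).le
          exact mul_le_mul_of_nonneg_right (mul_le_mul_of_nonneg_right h2 (Real.exp_pos _).le) (Real.exp_pos _).le
      _ = Real.exp (a * (-6) * ε + e * 2 + l * (1 + 2 * eta) + (a + l * (-(sS / 2))) * 4) := by
          simp only [Real.exp_add]; ring
      _ ≤ Real.exp d := Real.exp_le_exp.2 t3
  have s4 : Real.exp (a * (-6) * ε) * (cL ^ 2 * Real.exp (a * 6) / Real.exp l) ≤ Real.exp d := by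
    rcases t4 with h0 | t4
    · rw [h0]; simp [hd.le]
    · have h2 : cL ^ 2 ≤ 1 := pow_le_one₀ hL0 hL1
      calc _ ≤ Real.exp (a * (-6) * ε) * (1 * Real.exp (a * 6) / Real.exp l) := by
            refine mul_le_mul_of_nonneg_left ?_ (Real.exp_pos _).le
            exact div_le_div_of_nonneg_right (mul_le_mul_of_nonneg_right h2 (Real.exp_pos _).le) (Real.exp_pos _).le
        _ = Real.exp (a * (-6) * ε + a * 6 - l) := by
            rw [one_mul, ← Real.exp_sub, ← Real.exp_add]; congr 1; ring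
        _ ≤ Real.exp d := Real.exp_le_exp.2 t4
  have e : Real.exp (a * (-6) * ε) * (Real.exp (a * (4 + cG)) + Real.exp (l * (1 + 2 * eta) + (a + l * (-(sS / 2))) * 5)
        + cE ^ 2 * Real.exp (l * (1 + 2 * eta)) * Real.exp ((a + l * (-(sS / 2))) * 4)
        + cL ^ 2 * Real.exp (a * 6) / Real.exp l)
      = Real.exp (a * (-6) * ε) * Real.exp (a * (4 + cG))
        + Real.exp (a * (-6) * ε) * Real.exp (l * (1 + 2 * eta) + (a + l * (-(sS / 2))) * 5)
        + Real.exp (a * (-6) * ε) * (cE ^ 2 * Real.exp (l * (1 + 2 * eta)) * Real.exp ((a + l * (-(sS / 2))) * 4))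
        + Real.exp (a * (-6) * ε) * (cL ^ 2 * Real.exp (a * 6) / Real.exp l) := by ring
  rw [e]
  linarith

/-- reduction to logarithmic coordinates -/
theorem bud_env_Bcal_le_Zden_aux1 (hX : X.Ok) {F : BdFr} {cG ε a l d : ℝ} (ha : F.x = Real.exp a)
    (hl : F.lam = Real.exp l) (hN : (F.N : ℝ) = Real.exp (a * (-6))) (hd : F.Zden X = X.cN * Real.exp d)
    (hm : Real.exp (a * (-6)) ^ ε * (Real.exp a ^ (4 + cG)
        + Real.exp l ^ (1 + 2 * X.eta) * (Real.exp a * Real.exp l ^ (-(X.sS / 2))) ^ (5 : ℝ)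
        + F.chiE ^ 2 * Real.exp l ^ (1 + 2 * X.eta) * (Real.exp a * Real.exp l ^ (-(X.sS / 2))) ^ (4 : ℝ)
        + F.chiL ^ 2 * Real.exp a ^ (6 : ℝ) / Real.exp l) ≤ (3 + X.CU) * Real.exp d) :
    (F.N : ℝ) ^ ε * F.Bcal X cG ≤ (3 + X.CU) / X.cN * F.Zden X := by
  have hB : (F.N : ℝ) ^ ε * F.Bcal X cG = Real.exp (a * (-6)) ^ ε * (Real.exp a ^ (4 + cG)
        + Real.exp l ^ (1 + 2 * X.eta) * (Real.exp a * Real.exp l ^ (-(X.sS / 2))) ^ (5 : ℝ)
        + F.chiE ^ 2 * Real.exp l ^ (1 + 2 * X.eta) * (Real.exp a * Real.exp l ^ (-(X.sS / 2))) ^ (4 : ℝ)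
        + F.chiL ^ 2 * Real.exp a ^ (6 : ℝ) / Real.exp l) := by
    unfold BdFr.Bcal BdFr.U
    rw [hN, ha, hl]
  rw [hB, hd]
  have : (3 + X.CU) / X.cN * (X.cN * Real.exp d) = (3 + X.CU) * Real.exp d := by
    have := hX.cN_pos.ne'
    field_simp
  rw [this]; exact hm

/-- the special regime -/
theorem bud_env_Bcal_le_Zden_aux2 (hX : X.Ok) {cG ε : ℝ} (h2 : 2 * X.he ≤ cG) (e3 : 6 * ε ≤ X.he / 4)
    {F : BdFr} (hF : F.Ok X) (hf : F.Fin13 X) :
    (F.N : ℝ) ^ ε * F.Bcal X cG ≤ (3 + X.CU) / X.cN * F.Zden X := by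
  have hp := hX.pS_pos
  have ht0 := hX.tau0_pos
  have heta : 0 < X.eta := by linarith [hX.tau0_le]
  have htau : 0 < X.tau := by linarith [hX.eta_le]
  obtain ⟨a, l, w, ha, hl, hw, ha0, hl0, h12, hpS, hbl, hU, hN⟩ := bud_env_logs_aux hX hF
  have hna : 0 ≤ -a := by linarith
  have hsS : X.sS = 1 / 2 - X.tau := rfl
  obtain ⟨f1, f2, f3⟩ := hf
  have hf' : F.Fin13 X := ⟨f1, f2, f3⟩
  rw [ha, hl, ← Real.exp_mul, Real.exp_eq_exp] at f1
  rw [ha, hw, ← Real.exp_mul, Real.exp_le_exp] at f2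
  rw [ha, ← Real.exp_mul] at f3
  have hd : F.Zden X = X.cN * Real.exp (l + a * (4 + X.he / 2)) := by
    unfold BdFr.Zden
    rw [if_pos hf', ha, hl, ← Real.exp_mul, mul_assoc, ← Real.exp_add]
  refine bud_env_Bcal_le_Zden_aux1 hX ha hl hN hd ?_
  have p1 := mul_pos hp heta
  have p2 := mul_pos hp htau
  refine bud_env_Bcal_le_Zden_aux hX.CU_pos hU ?_ ?_ hF.chiE.1 ⟨a * X.he, f3, ?_⟩ hF.chiL.1 hF.chiL.2 (Or.inr ?_)
  · have hc : 0 ≤ cG - 6 * ε - X.pS - X.he / 2 := by linarith [hX.pS_le]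
    have := mul_nonneg hna hc
    rw [f1]; linarith
  · have hc : 0 ≤ X.he / 2 - 6 * ε - X.pS + X.pS * (2 * X.eta + 2 * X.tau) := by linarith [hX.pS_le]
    have := mul_nonneg hna hc
    rw [f1, hsS]; linarith
  · have hc : 0 ≤ 3 * X.he / 2 - 6 * ε - X.pS + X.pS * (2 * X.eta + 2 * X.tau) := by linarith [hX.pS_le]
    have := mul_nonneg hna hc
    rw [f1, hsS]; linarith
  · have hc : 0 ≤ 2 - 6 * ε - 2 * X.pS - X.he / 2 := by linarith [hX.pS_le, hX.he_le]
    have := mul_nonneg hna hc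
    rw [f1]; linarith

/-- the general regime -/
theorem bud_env_Bcal_le_Zden_aux3 (hX : X.Ok) {cG ε : ℝ} (h1 : 24 * (1 - 2 * X.s0) ≤ cG) (e1 : 6 * ε ≤ cG / 2)
    (e2 : 6 * ε ≤ X.pS * X.eta) (e3 : 6 * ε ≤ X.he / 4) {F : BdFr} (hF : F.Ok X) (hf : ¬ F.Fin13 X) :
    (F.N : ℝ) ^ ε * F.Bcal X cG ≤ (3 + X.CU) / X.cN * F.Zden X := by
  have hp := hX.pS_pos
  have ht0 := hX.tau0_pos
  have heta : 0 < X.eta := by linarith [hX.tau0_le]
  have htau : 0 < X.tau := by linarith [hX.eta_le]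
  obtain ⟨a, l, w, ha, hl, hw, ha0, hl0, h12, hpS, hbl, hU, hN⟩ := bud_env_logs_aux hX hF
  have hna : 0 ≤ -a := by linarith
  have hnl : 0 ≤ -l := by linarith
  have hsS : X.sS = 1 / 2 - X.tau := rfl
  have hs0 : X.s0 = 1 / 2 - X.tau - X.tau0 := rfl
  have k0 : a * (-6) * ε ≤ -(X.eta * l) := by
    have a1 := mul_nonneg hna (sub_nonneg.2 e2)
    have a2 := mul_le_mul_of_nonneg_left hpS heta.le
    linarith
  have hw0 : w ≤ 0 := hbl.trans (by have := mul_nonneg hnl hX.bl_pos.le; linarith)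
  have hd : F.Zden X = X.cN * Real.exp (l + a * 4 + l * (-(2 * X.s0))) := by
    unfold BdFr.Zden
    rw [if_neg hf, ha, hl, ← Real.exp_mul, ← Real.exp_mul, mul_assoc, mul_assoc, ← Real.exp_add, ← Real.exp_add,
      add_assoc]
  refine bud_env_Bcal_le_Zden_aux1 hX ha hl hN hd ?_
  have hd0 : 0 ≤ 1 - 2 * X.s0 := by rw [hs0]; linarith
  have q1 : 0 ≤ X.eta - 2 * X.tau0 := by linarith [hX.tau0_le]
  have q2 := mul_nonneg hnl q1
  refine bud_env_Bcal_le_Zden_aux hX.CU_pos hU ?_ ?_ hF.chiE.1 ⟨0, by simpa using hF.chiE.2, ?_⟩ hF.chiL.1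
    hF.chiL.2 ?_
  · have hc : 0 ≤ cG - 6 * ε - 12 * (1 - 2 * X.s0) := by linarith
    have c1 := mul_nonneg hna hc
    have c2 := mul_le_mul_of_nonneg_left h12 hd0
    linarith
  · rw [hsS, hs0]; linarith
  · rw [hsS, hs0]; linarith
  · rcases hF.chi with hc | hc
    · exact Or.inl hc.1
    · right
      have f1 := hc.1
      rw [ha, hl, ← Real.exp_mul, Real.exp_eq_exp] at f1
      have hs1 : 1 - 2 * X.s0 ≤ 1 := by rw [hs0]; linarith [hX.tau_le, hX.tau0_le, hX.eta_le]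
      have hs2 := mul_le_mul_of_nonneg_left hs1 hp.le
      have hc : 0 ≤ 2 - 6 * ε - X.pS * (1 + (1 - 2 * X.s0)) := by linarith [hX.pS_le, hX.he_le]
      have := mul_nonneg hna hc
      rw [f1]; linarith

/-- the four terms of `𝓑`, with a subpower loss, against both denominators of `Z²` (l.1262-1280) -/
theorem bud_env_Bcal_le_Zden (hX : X.Ok) {cG : ℝ} (h1 : 24 * (1 - 2 * X.s0) ≤ cG) (h2 : 2 * X.he ≤ cG) :
    ∃ ε : ℝ, 0 < ε ∧ ∃ C : ℝ, ∀ F : BdFr, F.Ok X → (F.N : ℝ) ^ ε * F.Bcal X cG ≤ C * F.Zden X := by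
  have hp := hX.pS_pos
  have hhe : 0 < X.he := by linarith [hX.pS_le]
  have hcG : 0 < cG := by linarith
  have heta : 0 < X.eta := by linarith [hX.tau0_le, hX.tau0_pos]
  obtain ⟨ε, hε, e1, e2, e3⟩ : ∃ ε : ℝ, 0 < ε ∧ 6 * ε ≤ cG / 2 ∧ 6 * ε ≤ X.pS * X.eta ∧ 6 * ε ≤ X.he / 4 := by
    refine ⟨min (cG / 12) (min (X.pS * X.eta / 6) (X.he / 24)), ?_, ?_, ?_, ?_⟩
    · have := mul_pos hp heta
      exact lt_min (by linarith) (lt_min (by linarith) (by linarith))
    · have := min_le_left (cG / 12) (min (X.pS * X.eta / 6) (X.he / 24)); linarith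
    · have := (min_le_right (cG / 12) (min (X.pS * X.eta / 6) (X.he / 24))).trans (min_le_left _ _); linarith
    · have := (min_le_right (cG / 12) (min (X.pS * X.eta / 6) (X.he / 24))).trans (min_le_right _ _); linarith
  refine ⟨ε, hε, (3 + X.CU) / X.cN, fun F hF => ?_⟩
  by_cases hf : F.Fin13 X
  · exact bud_env_Bcal_le_Zden_aux2 hX h2 e3 hF hf
  · exact bud_env_Bcal_le_Zden_aux3 hX h1 e1 e2 e3 hF hf

/-- the stage frames are admissible boxes for large sizes -/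
theorem bud_env_stg_ok (hX : X.Ok) :
    ∃ N0 : ℕ, ∀ F : BdFr, F.Ok X → N0 ≤ F.N → ∀ n ≤ X.J + 1, (F.stg X n).Ok X := by
  obtain ⟨N0, h0⟩ := bud_env_agoal_le_one hX
  refine ⟨N0, fun F hF hN n hn => ?_⟩
  have hP := bud_env_pos hX hF
  have hp := hX.pat n hn
  exact
    { N2 := hF.N2, m_lo := hF.m_lo, m_hi := hF.m_hi, lam_lo := hF.lam_lo, lam_hi := hF.lam_hi, u_lo := hF.u_lo
      u_hi := hF.u_hi, ell1 := hF.ell1, ell2 := hF.ell2, chiL := hF.chiL, chiE := hF.chiE, chi := hF.chi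
      st_le := hn
      kap0 := BdFr.Pos.kstage0 X n
      kap1 := bud_env_kstage_le hP (h0 F hF hN) n
      I0 := hp.1
      I1 := by
        show X.plo n ≤ X.phi n
        linarith [hp.2.1, hp.2.2.1, hp.2.2.2.1]
      I2 := hp.2.2.2.2
      I3 := (bud_env_patch hX hn).1 }

/-- the stage frames of a path of the family belong to the family (large sizes) -/
theorem bud_env_stg_fam {W : BdWorld} {Fam : BdFr → Prop} {K : BdCst} (hS : BdStd X W Fam K) :
    ∃ N0 : ℕ, ∀ F : BdFr, Fam F → N0 ≤ F.N → ∀ n ≤ X.J + 1, BdAt X Fam n (F.stg X n) := by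
  obtain ⟨N0, h0⟩ := bud_env_stg_ok hS.fix
  refine ⟨N0, fun F hF hN n hn => ⟨?_, bud_env_stg_atStage F X n, rfl⟩⟩
  exact hS.box F (F.stg X n) hF (h0 F (hS.ok F hF) hN n hn) rfl

end Claimed.Agent.R286

/-!
# Row 286, LL sec. 7, node N10 (bud:envelope), file 3: elementary facts on the class (C5)      (cut: helper5; names `bud_env_*`)

* the PE floor `k` is positive and continuous on `[0,1]`; `k`, `kbar` are interval integrable; `∫ k ≤ ∫ kbar`;
* `BdQ → TlInv 0 1 0 1` (inverse pair of `Tool/ConvOrder.lean`);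
* integrability of `C(r) r²`; nonnegativity of `C`;
* a monotone function on `(0,1)` with values in `[0,1]` extends to a monotone function on `[0,1]`.
-/

namespace Claimed.Agent.R286

open MeasureTheory Set Filter Topology

variable {X : BdFix} {F : BdFr}

theorem bud_env_k_pos_aux (hX : X.Ok) (h : F.Pos) :
    0 < (F.call X).N ∧ 0 < (F.call X).us := by
  have hN : 0 < (F.call X).N := h.m0
  have hE : 0 < (F.call X).E := bud_env_E_pos hX h
  refine ⟨hN, ?_⟩
  unfold CmCall.us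
  positivity

/-- the PE floor is positive on `[0,1]` -/
theorem bud_env_k_pos (hX : X.Ok) (h : F.Pos) : ∀ t ∈ Icc (0 : ℝ) 1, 0 < F.k X t := by
  intro t ht
  obtain ⟨hN, hus⟩ := bud_env_k_pos_aux hX h
  have ht0 := ht.1
  unfold BdFr.k CmCall.k
  have h1 : 0 < (F.call X).N ^ (F.call X).dl := Real.rpow_pos_of_pos hN _
  have h2 : 0 < (F.call X).N ^ (2 * (F.call X).dl) := Real.rpow_pos_of_pos hN _
  positivity

/-- the PE floor is continuous on `[0,1]` -/
theorem bud_env_k_cont (hX : X.Ok) (h : F.Pos) : ContinuousOn (F.k X) (Icc 0 1) := by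
  obtain ⟨hN, hus⟩ := bud_env_k_pos_aux hX h
  have h2 : 0 < (F.call X).N ^ (2 * (F.call X).dl) := Real.rpow_pos_of_pos hN _
  have e : F.k X = fun r => (F.call X).N ^ (F.call X).dl * (F.call X).us ^ 2
      / (r + (F.call X).N ^ (2 * (F.call X).dl) * (F.call X).us) ^ 2 := by
    funext r; rfl
  rw [e]
  refine ContinuousOn.div continuousOn_const (by fun_prop) fun t ht => ?_
  have ht0 := ht.1
  positivity

theorem bud_env_k_ii (hX : X.Ok) (h : F.Pos) {a b : ℝ} (ha : a ∈ Icc (0 : ℝ) 1) (hb : b ∈ Icc (0 : ℝ) 1) :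
    IntervalIntegrable (F.k X) volume a b :=
  ((bud_env_k_cont hX h).mono (uIcc_subset_Icc ha hb)).intervalIntegrable

theorem bud_env_kbar_ii (hX : X.Ok) (h : F.Pos) {a b : ℝ} (ha : a ∈ Icc (0 : ℝ) 1) (hb : b ∈ Icc (0 : ℝ) 1) :
    IntervalIntegrable (F.kbar X) volume a b := by
  have h1 := bud_env_k_ii hX h ha hb
  have h2 : IntervalIntegrable (fun r => if r ∈ Icc (F.Ilo * F.u) (F.Ihi * F.u) then F.kap else 0) volume a b := by
    have e : (fun r => if r ∈ Icc (F.Ilo * F.u) (F.Ihi * F.u) then F.kap else 0)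
        = (Icc (F.Ilo * F.u) (F.Ihi * F.u)).indicator (fun _ => F.kap) := by
      funext r
      by_cases hr : r ∈ Icc (F.Ilo * F.u) (F.Ihi * F.u)
      · rw [if_pos hr, indicator_of_mem hr]
      · rw [if_neg hr, indicator_of_notMem hr]
    rw [e, intervalIntegrable_iff]
    exact (integrableOn_const (by simp)).indicator measurableSet_Icc
  exact h1.add h2

/-- the floor of (C5) dominates the PE floor -/
theorem bud_env_k_le_kbar (hF : F.Ok X) (t : ℝ) : F.k X t ≤ F.kbar X t := by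
  unfold BdFr.kbar
  split_ifs
  · linarith [hF.kap0]
  · linarith

/-- a feasible inverse distribution satisfies the PE floor -/
theorem BdQ.lo_k (hX : X.Ok) (hF : F.Ok X) (Q : BdQ F X) (r1 r2 : ℝ) (h0 : 0 ≤ r1) (h12 : r1 ≤ r2) (h2 : r2 ≤ 1) :
    ∫ t in r1..r2, F.k X t ≤ Q.al r2 - Q.al r1 := by
  have hP := bud_env_pos hX hF
  refine le_trans ?_ (Q.lo r1 r2 h0 h12 h2)
  exact intervalIntegral.integral_mono_on h12 (bud_env_k_ii hX hP ⟨h0, h12.trans h2⟩ ⟨h0.trans h12, h2⟩)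
    (bud_env_kbar_ii hX hP ⟨h0, h12.trans h2⟩ ⟨h0.trans h12, h2⟩) fun t _ => bud_env_k_le_kbar hF t

/-- the inverse pair of a feasible inverse distribution -/
theorem BdQ.tlInv (hX : X.Ok) (hF : F.Ok X) (Q : BdQ F X) : TlInv 0 1 0 1 Q.al Q.r := by
  have hP := bud_env_pos hX hF
  refine ⟨zero_le_one, ?_, Q.al_zero, Q.al_one, Q.r_mem, Q.al_r, Q.r_al⟩
  intro s hs t ht hst
  have h1 := Q.lo_k hX hF s t hs.1 hst ht.2
  have h2 : 0 ≤ ∫ y in s..t, F.k X y := intervalIntegral.integral_nonneg hst fun y hy =>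
    (bud_env_k_pos hX hP y ⟨hs.1.trans hy.1, hy.2.trans ht.2⟩).le
  linarith

/-- the removal profile: `0 ≤ C ≤ C0` -/
theorem bud_env_C_nonneg (h : F.Pos) (r : ℝ) : 0 ≤ F.C X r := cm_e_nonneg _ h.C00.le r

theorem bud_env_C_le (h : F.Pos) (r : ℝ) : F.C X r ≤ F.C0 := cm_e_le _ h.C00.le r

/-- integrability of the penalty density -/
theorem BdQ.pen_ii (hX : X.Ok) (hF : F.Ok X) (Q : BdQ F X) :
    IntervalIntegrable (fun v => F.C X (Q.r v) * Q.r v ^ 2) volume 0 1 := by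
  have hP := bud_env_pos hX hF
  have hI := Q.tlInv hX hF
  have hm : MonotoneOn (fun v => F.C X (Q.r v) * Q.r v ^ 2) (uIcc 0 1) := by
    rw [uIcc_of_le zero_le_one]
    intro a ha b hb hab
    have h1 := cm_rre_mono (F.call X) (bud_env_dPE_pos hX hP) hP.C00.le
      (show Q.r a ∈ Ici (0:ℝ) from (Q.r_mem a ha).1) (show Q.r b ∈ Ici (0:ℝ) from (Q.r_mem b hb).1) (hI.r_mono ha hb hab)
    simp only at h1
    show F.C X (Q.r a) * Q.r a ^ 2 ≤ F.C X (Q.r b) * Q.r b ^ 2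
    unfold BdFr.C
    linarith
  exact hm.intervalIntegrable

/-- extension of a monotone `[0,1]`-valued function from `(0,1)` to `[0,1]` -/
noncomputable def budEnvExt (S : ℝ → ℝ) (v : ℝ) : ℝ := if v ≤ 0 then 0 else if 1 ≤ v then 1 else S v

theorem bud_env_ext_mono {S : ℝ → ℝ} (hS : MonotoneOn S (Ioo 0 1)) (h0 : ∀ v ∈ Ioo (0 : ℝ) 1, 0 ≤ S v)
    (h1 : ∀ v ∈ Ioo (0 : ℝ) 1, S v ≤ 1) : MonotoneOn (budEnvExt S) (Icc 0 1) := by
  intro a _ b _ hab
  unfold budEnvExt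
  by_cases ha : a ≤ 0
  · rw [if_pos ha]
    split_ifs with hb0 hb1
    · exact le_rfl
    · exact zero_le_one
    · exact h0 b ⟨not_le.1 hb0, not_le.1 hb1⟩
  · rw [if_neg ha, if_neg (fun hb => ha (hab.trans hb))]
    by_cases hb : 1 ≤ b
    · rw [if_pos hb]
      split_ifs with ha1
      · exact le_rfl
      · exact h1 a ⟨not_le.1 ha, not_le.1 ha1⟩
    · rw [if_neg hb, if_neg (fun ha1 => hb (ha1.trans hab))]
      exact hS ⟨not_le.1 ha, lt_of_le_of_lt hab (not_le.1 hb)⟩ ⟨lt_of_lt_of_le (not_le.1 ha) hab, not_le.1 hb⟩ hab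

theorem bud_env_ext_eq {S : ℝ → ℝ} {v : ℝ} (hv : v ∈ Ioo (0 : ℝ) 1) : budEnvExt S v = S v := by
  unfold budEnvExt
  rw [if_neg (not_le.2 hv.1), if_neg (not_le.2 hv.2)]

theorem bud_env_q_eqns_cite : True := by
  have := @budEnvExt.eq_1
  trivial

end Claimed.Agent.R286

/-!
# Row 286, LL sec. 7, node N10 (bud:envelope), file 4: the abstract pressure system along a parameter      (cut: helper5; names `bud_env_*`)

Over `PSys` only (no frames).
* `bud_env_param_deriv`   clocks affine in a parameter: `∂_g f(b - g c, h + g e) = ¼ ∫ B c - ½ ∫ S e`            ((A1) along the segment `[g0,g1]`)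
* `bud_env_param_abs`     the derivative is bounded by `¼ ∫ |c| + ½ ∫ |e|`
* `bud_env_square`        (P10): with `e = c q` above the mask, `0` on it:  `¼ ∫ c [D² + (S-q)²] ≤ ¼ ∫ B c - ½ ∫ S e + ¼ ∫ c q²`
* `bud_env_field_le`      the matrix clock is unchanged, the field clock increases by `φ` with `∫ S φ ≥ 0` for all statistics on the segment: the pressure does not increase
-/

namespace Claimed.Agent.R286

open MeasureTheory Set Filter Topology

variable (P : PSys)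

/-- the parameter derivative of the pressure -/
noncomputable def PSys.dpar (b h c e : ℝ → ℝ) (g : ℝ) : ℝ :=
  (1 / 4) * (∫ v in Ioo 0 P.a, P.B (fun v => b v - g * c v) (fun v => h v + g * e v) v * c v)
    - (1 / 2) * (∫ v in Ioo 0 P.a, P.S (fun v => b v - g * c v) (fun v => h v + g * e v) v * e v)

/-- **(A1) along an affine parameter** -/
theorem bud_env_param_deriv {b h c e : ℝ → ℝ} {g0 g1 : ℝ} (h01 : g0 < g1)
    (hb0 : IsClock P.a (fun v => b v - g0 * c v)) (hb1 : IsClock P.a (fun v => b v - g1 * c v))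
    (hh0 : IsClock P.a (fun v => h v + g0 * e v)) (hh1 : IsClock P.a (fun v => h v + g1 * e v)) :
    ∀ g ∈ Icc g0 g1, HasDerivWithinAt (fun s => P.f (fun v => b v - s * c v) (fun v => h v + s * e v))
      (P.dpar b h c e g) (Icc g0 g1) g := by
  intro g hg
  have hd : 0 < g1 - g0 := sub_pos.2 h01
  have keyb : ∀ s, clerp ((s - g0) / (g1 - g0)) (fun v => b v - g0 * c v) (fun v => b v - g1 * c v)
      = fun v => b v - s * c v := by
    intro s; funext v; simp only [clerp]; field_simp; ring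
  have keyh : ∀ s, clerp ((s - g0) / (g1 - g0)) (fun v => h v + g0 * e v) (fun v => h v + g1 * e v)
      = fun v => h v + s * e v := by
    intro s; funext v; simp only [clerp]; field_simp; ring
  have hmaps : MapsTo (fun s => (s - g0) / (g1 - g0)) (Icc g0 g1) (Icc (0 : ℝ) 1) := by
    intro s hs
    exact ⟨div_nonneg (by linarith [hs.1]) hd.le, (div_le_one hd).2 (by linarith [hs.2])⟩
  have hseg := P.seg _ _ _ _ hb0 hh0 hb1 hh1 ((g - g0) / (g1 - g0)) (hmaps hg)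
  have hφ : HasDerivWithinAt (fun s => (s - g0) / (g1 - g0)) (1 / (g1 - g0)) (Icc g0 g1) g :=
    (((hasDerivAt_id g).sub_const g0).div_const _).hasDerivWithinAt
  have hcomp := hseg.scomp g hφ hmaps
  rw [keyb, keyh] at hcomp
  have e1 : ((fun s => P.f (clerp s (fun v => b v - g0 * c v) (fun v => b v - g1 * c v))
      (clerp s (fun v => h v + g0 * e v) (fun v => h v + g1 * e v))) ∘ fun s => (s - g0) / (g1 - g0))
      = fun s => P.f (fun v => b v - s * c v) (fun v => h v + s * e v) := by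
    funext s
    simp only [Function.comp, keyb, keyh]
  rw [e1] at hcomp
  have i1 : (∫ v in Ioo 0 P.a, P.B (fun v => b v - g * c v) (fun v => h v + g * e v) v
      * (b v - g1 * c v - (b v - g0 * c v)))
      = -(g1 - g0) * ∫ v in Ioo 0 P.a, P.B (fun v => b v - g * c v) (fun v => h v + g * e v) v * c v := by
    rw [← integral_const_mul]
    refine integral_congr_ae (Eventually.of_forall fun v => ?_)
    simp only; ring
  have i2 : (∫ v in Ioo 0 P.a, P.S (fun v => b v - g * c v) (fun v => h v + g * e v) v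
      * (h v + g1 * e v - (h v + g0 * e v)))
      = (g1 - g0) * ∫ v in Ioo 0 P.a, P.S (fun v => b v - g * c v) (fun v => h v + g * e v) v * e v := by
    rw [← integral_const_mul]
    refine integral_congr_ae (Eventually.of_forall fun v => ?_)
    simp only; ring
  rw [i1, i2, smul_eq_mul] at hcomp
  have hval : 1 / (g1 - g0) * (-(1 / 4) * (-(g1 - g0) * ∫ v in Ioo 0 P.a, P.B (fun v => b v - g * c v) (fun v => h v + g * e v) v * c v)
      - 1 / 2 * ((g1 - g0) * ∫ v in Ioo 0 P.a, P.S (fun v => b v - g * c v) (fun v => h v + g * e v) v * e v))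
      = P.dpar b h c e g := by
    unfold PSys.dpar
    field_simp
  rw [hval] at hcomp
  exact hcomp

/-- the parameter derivative is bounded -/
theorem bud_env_param_abs {b h c e : ℝ → ℝ} {g : ℝ}
    (hb : IsClock P.a (fun v => b v - g * c v)) (hh : IsClock P.a (fun v => h v + g * e v))
    (hc : IntegrableOn c (Ioo 0 P.a)) (he : IntegrableOn e (Ioo 0 P.a)) :
    |P.dpar b h c e g| ≤ (1 / 4) * (∫ v in Ioo 0 P.a, |c v|) + (1 / 2) * (∫ v in Ioo 0 P.a, |e v|) := by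
  have h1 := P.abs_integral_B_mul_le hb hh hc
  have h2 := P.abs_integral_S_mul_le hb hh he
  unfold PSys.dpar
  rw [abs_le] at h1 h2 ⊢
  constructor <;> linarith [h1.1, h1.2, h2.1, h2.2]

/-- **(P10)**: the completed square; below the mask `xm` the field stays fixed and the extra term is nonnegative -/
theorem bud_env_square {b h c q : ℝ → ℝ} {xm : ℝ} (hb : IsClock P.a b) (hh : IsClock P.a h)
    (hc0 : ∀ v ∈ Ioo 0 P.a, 0 ≤ c v) (hc : IntegrableOn c (Ioo 0 P.a))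
    (hq : ∀ v ∈ Ioo 0 P.a, 0 ≤ q v ∧ q v ≤ 1) (hqm : AEStronglyMeasurable q (volume.restrict (Ioo 0 P.a))) :
    (1 / 4) * (∫ v in Ioo 0 P.a, c v * ((P.B b h v - P.S b h v ^ 2) + (P.S b h v - q v) ^ 2))
      ≤ (1 / 4) * (∫ v in Ioo 0 P.a, P.B b h v * c v)
        - (1 / 2) * (∫ v in Ioo 0 P.a, P.S b h v * (if xm ≤ v then c v * q v else 0))
        + (1 / 4) * (∫ v in Ioo 0 P.a, c v * q v ^ 2) := by
  have hqb : ∀ᵐ v ∂(volume.restrict (Ioo 0 P.a)), ‖q v‖ ≤ 1 :=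
    (ae_restrict_iff' measurableSet_Ioo).2 (Eventually.of_forall fun v hv => by
      rw [Real.norm_eq_abs, abs_of_nonneg (hq v hv).1]; exact (hq v hv).2)
  have hcq : IntegrableOn (fun v => c v * q v) (Ioo 0 P.a) := by
    have : IntegrableOn (fun v => q v * c v) (Ioo 0 P.a) := Integrable.bdd_mul (c := 1) hc hqm hqb
    simpa only [mul_comm] using this
  have hcq2 : IntegrableOn (fun v => c v * q v ^ 2) (Ioo 0 P.a) := by
    have : IntegrableOn (fun v => q v * (c v * q v)) (Ioo 0 P.a) := Integrable.bdd_mul (c := 1) hcq hqm hqb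
    refine this.congr (Eventually.of_forall fun v => ?_)
    simp only; ring
  have he : IntegrableOn (fun v => if xm ≤ v then c v * q v else 0) (Ioo 0 P.a) := by
    have := hcq.indicator (measurableSet_Ici (a := xm))
    refine this.congr (Eventually.of_forall fun v => ?_)
    simp only [indicator, mem_Ici]
  have iB := P.integrableOn_B_mul hb hh hc
  have iS := P.integrableOn_S_mul hb hh hcq
  have iE := P.integrableOn_S_mul hb hh he
  have e1 : (∫ v in Ioo 0 P.a, c v * ((P.B b h v - P.S b h v ^ 2) + (P.S b h v - q v) ^ 2))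
      = (∫ v in Ioo 0 P.a, P.B b h v * c v) - 2 * (∫ v in Ioo 0 P.a, P.S b h v * (c v * q v))
        + ∫ v in Ioo 0 P.a, c v * q v ^ 2 := by
    have i12 : IntegrableOn (fun v => P.B b h v * c v - 2 * (P.S b h v * (c v * q v))) (Ioo 0 P.a) :=
      iB.sub (iS.const_mul 2)
    rw [← integral_const_mul, ← integral_sub iB (iS.const_mul 2), ← integral_add i12 hcq2]
    refine integral_congr_ae (Eventually.of_forall fun v => ?_)
    simp only; ring
  have e2 : (∫ v in Ioo 0 P.a, P.S b h v * (if xm ≤ v then c v * q v else 0))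
      ≤ ∫ v in Ioo 0 P.a, P.S b h v * (c v * q v) := by
    refine setIntegral_mono_on iE iS measurableSet_Ioo fun v hv => ?_
    refine mul_le_mul_of_nonneg_left ?_ (P.S_nonneg b h hb hh v hv)
    split_ifs
    · exact le_rfl
    · exact mul_nonneg (hc0 v hv) (hq v hv).1
  rw [e1]
  linarith

/-- a change of the field clock alone, in a direction which pairs nonnegatively with every monotone `[0,1]`-valued function, does not increase the pressure -/
theorem bud_env_field_le {b h h' : ℝ → ℝ} (hb : IsClock P.a b) (hh : IsClock P.a h) (hh' : IsClock P.a h')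
    (hpair : ∀ S : ℝ → ℝ, MonotoneOn S (Ioo 0 P.a) → (∀ v ∈ Ioo 0 P.a, 0 ≤ S v ∧ S v ≤ 1) →
      0 ≤ ∫ v in Ioo 0 P.a, S v * (h' v - h v)) :
    P.f b h' ≤ P.f b h := by
  have := P.seg_le (p := 0) hb hh' hb hh fun t ht => ?_
  · simpa using this
  have hbt := hb.clerp hb ht
  have hht := hh'.clerp hh ht
  have h1 := hpair _ (P.S_mono _ _ hbt hht) fun v hv => ⟨P.S_nonneg _ _ hbt hht v hv, P.S_le_one hbt hht hv⟩
  unfold PSys.dseg
  have e1 : (∫ v in Ioo 0 P.a, P.B (clerp t b b) (clerp t h' h) v * (b v - b v)) = 0 := by simp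
  have e2 : (∫ v in Ioo 0 P.a, P.S (clerp t b b) (clerp t h' h) v * (h v - h' v))
      = -∫ v in Ioo 0 P.a, P.S (clerp t b b) (clerp t h' h) v * (h' v - h v) := by
    rw [← integral_neg]
    refine integral_congr_ae (Eventually.of_forall fun v => ?_)
    simp only; ring
  rw [e1, e2]
  linarith

theorem bud_env_par_eqns_cite : True := by
  have := @PSys.dpar.eq_1
  trivial

end Claimed.Agent.R286
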