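import Claimed.Agent.R286.Bud.EnvA
import Claimed.Agent.R286.Tool.Danskin

/-!
# Row 286, LL sec. 7, node N10 (bud:envelope, l.1184-1300), PART B      (cut: helper5; names `bud_env_*`)
Packed file (CI rule: one growing file per unit).  Parts: 5 optimal value as a function of the parameter | 6 integration of the derivative, majorant, (C13) | 8 averaged excess | 7 competitor | 9 stage cost.
EXITS (cited by `Bud/L8.lean`): `bud_env_step`, `bud_env_cost_zero`, `bud_env_Z_zero`, `bud_env_cost_succ`, `bud_env_cost_restrict`, `bud_env_main`.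
-/

set_option autoImplicit false

/-!
# Row 286, LL sec. 7, node N10 (bud:envelope), file 5: the optimal value as a function of the global parameter      (cut: helper5; names `bud_env_*`)

`G0 = [glo 0, ghi 0]`.  One frame `F` of the family, `hS : BdStd X W Fam K`.
* `BdFr.envE`, `BdQ.envD`, `BdFr.envRho`, `BdFr.envDrho`   field direction, `∂_g F_j(g,α)`, the scalar restoration and its derivative
* `bud_env_obj_hasDeriv`, `bud_env_envD_abs`     the frozen objective is differentiable with bounded derivative                    (l.1232-1236)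
* `bud_env_value`, `bud_env_V_lip`               `V_j = min`, Lipschitz
* `bud_env_f0_le_obj`, `bud_env_exc_nonneg`, `bud_env_exc_cont`        the excess is nonnegative (square interpolation), continuous
* `bud_env_Rr_eq`, `bud_env_rho_hasDeriv`        `𝓡_j = V_j + ρ`
* `bud_env_norm_le`                              `c λ 𝓝² ≤ ∂_g F_j + ρ'`                                                             (l.1246-1256, (P10))
* `bud_env_deriv_ge`                             Danskin: `c λ 𝓝² ≤ 𝓡_j'(g)` at differentiability points, for EVERY minimiser       (l.1238-1245)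
* `bud_env_Z_ge_one`, `bud_env_Zsq`              the explicit majorant
* `bud_env_Rr_ftc`, `bud_env_Rr_mono`            `𝓡_j` is absolutely continuous, nondecreasing
-/

namespace Claimed.Agent.R286

open MeasureTheory Set Filter Topology

noncomputable section

/-- the field direction: `c_g q` above the mask, `0` on it -/
def BdFr.envE (F : BdFr) (v : ℝ) : ℝ := if F.xm ≤ v then F.cg v * F.q v else 0

/-- `∂_g F_j(g, α)` -/
def BdQ.envD {F : BdFr} {X : BdFix} (Q : BdQ F X) (W : BdWorld) (g : ℝ) : ℝ :=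
  (1 / 4) * (∫ v in Ioo (0 : ℝ) 1, Q.Bq W g v * F.cg v) - (1 / 2) * (∫ v in Ioo (0 : ℝ) 1, Q.Sq W g v * F.envE v)

/-- the scalar restoration `ρ(g) = -¼∫ b q² + ½∫_{v ≥ x} d q` -/
def BdFr.envRho (F : BdFr) (g : ℝ) : ℝ :=
  -((1 / 4) * (∫ v in (0 : ℝ)..1, F.b g v * F.q v ^ 2)) + (1 / 2) * ∫ v in F.xm..1, F.d v * F.q v

/-- `ρ' = ¼∫ c_g q²` -/
def BdFr.envDrho (F : BdFr) : ℝ := (1 / 4) * ∫ v in (0 : ℝ)..1, F.cg v * F.q v ^ 2

theorem bud_env_val_eqns_cite : True := by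
  have := @BdFr.envE.eq_1; have := @BdQ.envD.eq_1; have := @BdFr.envRho.eq_1; have := @BdFr.envDrho.eq_1
  trivial

variable {X : BdFix} {W : BdWorld} {Fam : BdFr → Prop} {K : BdCst} {F : BdFr}

/-! ## 1. The directions -/

theorem bud_env_cg_nonneg (hS : BdStd X W Fam K) (hF : Fam F) : ∀ v ∈ Ioo (0 : ℝ) 1, 0 ≤ F.cg v := by
  intro v hv
  have hP := bud_env_pos hS.fix (hS.ok F hF)
  refine le_trans ?_ (hS.cg_lo F hF v hv)
  have := hS.fix.cN_pos
  have := hP.lam0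
  positivity

theorem bud_env_cg_int (hS : BdStd X W Fam K) (hF : Fam F) : IntegrableOn F.cg (Ioo 0 1) := by
  refine Measure.integrableOn_of_bounded (M := K.Cg * F.lam) (by simp) (hS.cg_meas F hF).aestronglyMeasurable ?_
  rw [ae_restrict_iff' measurableSet_Ioo]
  refine Eventually.of_forall fun v hv => ?_
  rw [Real.norm_eq_abs, abs_of_nonneg (bud_env_cg_nonneg hS hF v hv)]
  exact hS.cg_hi F hF v hv

theorem bud_env_envE_int_aux (hS : BdStd X W Fam K) (hF : Fam F) :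
    MonotoneOn F.q (Ioo 0 1) ∧ ∀ v ∈ Ioo (0 : ℝ) 1, 0 ≤ F.q v ∧ F.q v ≤ 1 :=
  ⟨(hS.q_mono F hF).mono Ioo_subset_Icc_self, fun v hv => hS.q_mem F hF v (Ioo_subset_Icc_self hv)⟩

theorem bud_env_envE_int (hS : BdStd X W Fam K) (hF : Fam F) : IntegrableOn F.envE (Ioo 0 1) := by
  obtain ⟨hm, hq⟩ := bud_env_envE_int_aux hS hF
  have h1 : IntegrableOn (fun v => F.q v * F.cg v) (Ioo 0 1) :=
    bud_integrableOn_mul (C := 1) hm (fun v hv => by rw [abs_of_nonneg (hq v hv).1]; exact (hq v hv).2)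
      (bud_env_cg_int hS hF)
  have e : F.envE = (Ici F.xm).indicator (fun v => F.q v * F.cg v) := by
    funext v
    unfold BdFr.envE
    by_cases hv : F.xm ≤ v
    · rw [if_pos hv, indicator_of_mem (show v ∈ Ici F.xm from hv)]; ring
    · rw [if_neg hv, indicator_of_notMem (show v ∉ Ici F.xm from hv)]
  rw [e]
  exact h1.indicator measurableSet_Ici

theorem bud_env_dir_le_aux (hS : BdStd X W Fam K) (hF : Fam F) :
    ∀ v ∈ Ioo (0 : ℝ) 1, |F.envE v| ≤ F.cg v := by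
  intro v hv
  obtain ⟨hm, hq⟩ := bud_env_envE_int_aux hS hF
  have hc := bud_env_cg_nonneg hS hF v hv
  unfold BdFr.envE
  split_ifs
  · rw [abs_of_nonneg (mul_nonneg hc (hq v hv).1)]
    exact mul_le_of_le_one_right hc (hq v hv).2
  · simpa using hc

/-- `∫ |c_g| ≤ Cg λ`, `∫ |e_g| ≤ Cg λ` -/
theorem bud_env_dir_le (hS : BdStd X W Fam K) (hF : Fam F) :
    (∫ v in Ioo (0 : ℝ) 1, |F.cg v|) ≤ K.Cg * F.lam ∧ (∫ v in Ioo (0 : ℝ) 1, |F.envE v|) ≤ K.Cg * F.lam := by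
  have hc : IntegrableOn (fun _ : ℝ => K.Cg * F.lam) (Ioo 0 1) := integrableOn_const (by simp)
  have e : (∫ _v in Ioo (0 : ℝ) 1, K.Cg * F.lam) = K.Cg * F.lam := by simp
  constructor
  · rw [← e]
    refine setIntegral_mono_on (bud_env_cg_int hS hF).abs hc measurableSet_Ioo fun v hv => ?_
    rw [abs_of_nonneg (bud_env_cg_nonneg hS hF v hv)]
    exact hS.cg_hi F hF v hv
  · rw [← e]
    refine setIntegral_mono_on (bud_env_envE_int hS hF).abs hc measurableSet_Ioo fun v hv => ?_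
    exact (bud_env_dir_le_aux hS hF v hv).trans (hS.cg_hi F hF v hv)

/-- the clocks are affine in the parameter (all masses) -/
theorem bud_env_h_aff (hS : BdStd X W Fam K) (hF : Fam F) (g v : ℝ) : F.h g v = F.h 0 v + g * F.envE v := by
  unfold BdFr.envE
  split_ifs with h
  · exact hS.h_aff F hF g v h
  · rw [hS.h_mask F hF g v (not_le.1 h), hS.h_mask F hF 0 v (not_le.1 h)]; ring

/-! ## 2. The frozen objective -/

/-- the changed clocks as affine functions of the parameter -/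
theorem bud_env_obj_hasDeriv_aux (hS : BdStd X W Fam K) (hF : Fam F) (Q : BdQ F X) (g : ℝ) :
    Q.bq g = (fun v => (F.b 0 v - F.C X (Q.r v)) - g * F.cg v) ∧
      Q.hq g = (fun v => (F.h 0 v + F.C X (Q.r v) * Q.r v) + g * F.envE v) := by
  constructor
  · funext v
    unfold BdQ.bq
    rw [hS.b_aff F hF g v]; ring
  · funext v
    unfold BdQ.hq
    rw [bud_env_h_aff hS hF g v]; ring

theorem bud_env_obj_hasDeriv_aux2 (hS : BdStd X W Fam K) (hF : Fam F) (Q : BdQ F X) (g : ℝ) :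
    Q.envD W g = (W.ps F.m).dpar (fun v => F.b 0 v - F.C X (Q.r v)) (fun v => F.h 0 v + F.C X (Q.r v) * Q.r v)
      F.cg F.envE g := by
  obtain ⟨e1, e2⟩ := bud_env_obj_hasDeriv_aux hS hF Q g
  unfold BdQ.envD PSys.dpar BdQ.Bq BdQ.Sq
  rw [hS.a1, ← e1, ← e2]

/-- the frozen objective is differentiable in the parameter -/
theorem bud_env_obj_hasDeriv (hS : BdStd X W Fam K) (hF : Fam F) (Q : BdQ F X) :
    ∀ g ∈ Icc (X.glo 0) (X.ghi 0),
      HasDerivWithinAt (fun s => Q.obj W s) (Q.envD W g) (Icc (X.glo 0) (X.ghi 0)) g := by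
  intro g hg
  have hlt := bud_env_G_lt hS.fix (n := 0) (by omega)
  have h0 := hS.clk F hF (X.glo 0) (left_mem_Icc.2 hlt.le) Q
  have h1 := hS.clk F hF (X.ghi 0) (right_mem_Icc.2 hlt.le) Q
  rw [(bud_env_obj_hasDeriv_aux hS hF Q _).1, (bud_env_obj_hasDeriv_aux hS hF Q _).2, ← hS.a1 F.m] at h0 h1
  have h := bud_env_param_deriv (W.ps F.m) hlt h0.1 h1.1 h0.2 h1.2 g hg
  rw [← bud_env_obj_hasDeriv_aux2 hS hF Q g] at h
  have h2 := h.add_const Q.pen
  refine h2.congr_of_eventuallyEq (Eventually.of_forall fun s => ?_) ?_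
  · show Q.obj W s = _
    unfold BdQ.obj
    rw [(bud_env_obj_hasDeriv_aux hS hF Q s).1, (bud_env_obj_hasDeriv_aux hS hF Q s).2]
  · show Q.obj W g = _
    unfold BdQ.obj
    rw [(bud_env_obj_hasDeriv_aux hS hF Q g).1, (bud_env_obj_hasDeriv_aux hS hF Q g).2]

theorem bud_env_envD_abs (hS : BdStd X W Fam K) (hF : Fam F) (Q : BdQ F X) :
    ∀ g ∈ Icc (X.glo 0) (X.ghi 0), |Q.envD W g| ≤ K.Cg * F.lam := by
  intro g hg
  have h0 := hS.clk F hF g hg Q
  rw [(bud_env_obj_hasDeriv_aux hS hF Q _).1, (bud_env_obj_hasDeriv_aux hS hF Q _).2, ← hS.a1 F.m] at h0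
  have hc := bud_env_cg_int hS hF
  have he := bud_env_envE_int hS hF
  rw [← hS.a1 F.m] at hc he
  have h := bud_env_param_abs (W.ps F.m) h0.1 h0.2 hc he
  rw [← bud_env_obj_hasDeriv_aux2 hS hF Q g, hS.a1] at h
  obtain ⟨d1, d2⟩ := bud_env_dir_le hS hF
  have d0 : 0 ≤ ∫ v in Ioo (0 : ℝ) 1, |F.cg v| := integral_nonneg fun v => abs_nonneg _
  linarith

/-- square interpolation: the objective dominates the bare pressure -/
theorem bud_env_f0_le_obj (hS : BdStd X W Fam K) (hF : Fam F) {g : ℝ} (hg : g ∈ Icc (X.glo 0) (X.ghi 0))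
    (Q : BdQ F X) : F.f0 W g ≤ Q.obj W g := by
  have hP := bud_env_pos hS.fix (hS.ok F hF)
  have h0 := hS.clk0 F hF g hg
  have h1 := hS.clk F hF g hg Q
  have hi := Q.pen_ii hS.fix (hS.ok F hF)
  rw [intervalIntegrable_iff_integrableOn_Ioo_of_le zero_le_one] at hi
  rw [← hS.a1 F.m] at h0 h1 hi
  have h := bud_sqInterp (W.ps F.m) (F.b g) (F.h g) (fun v => F.C X (Q.r v)) Q.r h0.1 h0.2 h1.1 h1.2
    (fun v _ => bud_env_C_nonneg hP _) hi
  rw [hS.a1] at h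
  unfold BdFr.f0 BdQ.obj BdQ.pen
  rw [intervalIntegral.integral_of_le zero_le_one, integral_Ioc_eq_integral_Ioo]
  exact h

/-! ## 3. The optimal value -/

theorem bud_env_obj_bdd (hS : BdStd X W Fam K) (hF : Fam F) {g : ℝ} (hg : g ∈ Icc (X.glo 0) (X.ghi 0)) :
    BddBelow (Set.range fun Q : BdQ F X => Q.obj W g) :=
  ⟨F.f0 W g, by rintro _ ⟨Q, rfl⟩; exact bud_env_f0_le_obj hS hF hg Q⟩

theorem bud_env_V_le (hS : BdStd X W Fam K) (hF : Fam F) {g : ℝ} (hg : g ∈ Icc (X.glo 0) (X.ghi 0))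
    (Q : BdQ F X) : F.V X W g ≤ Q.obj W g :=
  csInf_le (bud_env_obj_bdd hS hF hg) ⟨Q, rfl⟩

theorem bud_env_V_eq {g : ℝ} {Q : BdQ F X} (hQ : Q.IsOpt W g) : Q.obj W g = F.V X W g := by
  have : IsLeast (Set.range fun Q : BdQ F X => Q.obj W g) (Q.obj W g) :=
    ⟨⟨Q, rfl⟩, by rintro _ ⟨Q', rfl⟩; exact hQ Q'⟩
  exact this.csInf_eq.symm

theorem bud_env_value (hS : BdStd X W Fam K) (hEx : BudOptEx X W Fam) (hF : Fam F) :
    Tl12Value (fun g (Q : BdQ F X) => Q.obj W g) univ (F.V X W) (Icc (X.glo 0) (X.ghi 0)) :=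
  ⟨fun g hg Q _ => bud_env_V_le hS hF hg Q, fun g hg => by
    obtain ⟨Q, hQ⟩ := hEx F hF g hg
    exact ⟨Q, mem_univ _, bud_env_V_eq hQ⟩⟩

theorem bud_env_V_lip (hS : BdStd X W Fam K) (hEx : BudOptEx X W Fam) (hF : Fam F) :
    LipschitzOnWith (Real.toNNReal (K.Cg * F.lam)) (F.V X W) (Icc (X.glo 0) (X.ghi 0)) := by
  refine tl_12_lipschitz_of_deriv (dF := fun g (Q : BdQ F X) => Q.envD W g) (bud_env_value hS hEx hF)
    (convex_Icc _ _) (fun Q _ g hg => bud_env_obj_hasDeriv hS hF Q g hg) fun Q _ g hg => ?_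
  have h := bud_env_envD_abs (W := W) hS hF Q g hg
  rwa [Real.coe_toNNReal _ ((abs_nonneg _).trans h)]

theorem bud_env_exc_nonneg (hS : BdStd X W Fam K) (hEx : BudOptEx X W Fam) (hF : Fam F) :
    ∀ g ∈ Icc (X.glo 0) (X.ghi 0), 0 ≤ F.exc X W g := by
  intro g hg
  obtain ⟨Q, hQ⟩ := hEx F hF g hg
  have := bud_env_f0_le_obj (W := W) hS hF hg Q
  rw [bud_env_V_eq hQ] at this
  unfold BdFr.exc
  linarith

/-- the bare pressure is continuous in the parameter (`bud_lipL1`) -/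
theorem bud_env_f0_cont (hS : BdStd X W Fam K) (hF : Fam F) : ContinuousOn (F.f0 W) (Icc (X.glo 0) (X.ghi 0)) := by
  intro g hg
  have hlt := bud_env_G_lt hS.fix (n := 0) (by omega)
  have eb : ∀ s, F.b s = fun v => F.b 0 v - s * F.cg v := fun s => funext fun v => hS.b_aff F hF s v
  have eh : ∀ s, F.h s = fun v => F.h 0 v + s * F.envE v := fun s => funext fun v => bud_env_h_aff hS hF s v
  have h0 := hS.clk0 F hF (X.glo 0) (left_mem_Icc.2 hlt.le)
  have h1 := hS.clk0 F hF (X.ghi 0) (right_mem_Icc.2 hlt.le)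
  rw [eb, eh, ← hS.a1 F.m] at h0 h1
  have h := (bud_env_param_deriv (W.ps F.m) hlt h0.1 h1.1 h0.2 h1.2 g hg).continuousWithinAt
  have e : F.f0 W = fun s => (W.ps F.m).f (fun v => F.b 0 v - s * F.cg v) (fun v => F.h 0 v + s * F.envE v) := by
    funext s
    unfold BdFr.f0
    rw [eb s, eh s]
  rw [e]
  exact h

theorem bud_env_exc_cont (hS : BdStd X W Fam K) (hEx : BudOptEx X W Fam) (hF : Fam F) :
    ContinuousOn (F.exc X W) (Icc (X.glo 0) (X.ghi 0)) :=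
  (bud_env_V_lip hS hEx hF).continuousOn.sub (bud_env_f0_cont hS hF)

/-! ## 4. The restored value -/

theorem bud_env_Rr_eq (F : BdFr) (X : BdFix) (W : BdWorld) : F.Rr X W = fun g => F.V X W g + F.envRho g := by
  funext g
  unfold BdFr.Rr BdFr.envRho
  ring

theorem bud_env_Rr_exc (F : BdFr) (X : BdFix) (W : BdWorld) (g : ℝ) : F.Rr X W g = F.exc X W g + F.R0 W g := by
  unfold BdFr.Rr BdFr.exc BdFr.R0
  ring

/-- `q²` is monotone with values in `[0,1]` on `(0,1)` -/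
theorem bud_env_rho_hasDeriv_aux (hS : BdStd X W Fam K) (hF : Fam F) :
    MonotoneOn (fun v => F.q v ^ 2) (Ioo 0 1) ∧ ∀ v ∈ Ioo (0 : ℝ) 1, |F.q v ^ 2| ≤ 1 := by
  have hq : ∀ v ∈ Ioo (0 : ℝ) 1, 0 ≤ F.q v ∧ F.q v ≤ 1 := fun v hv => hS.q_mem F hF v (Ioo_subset_Icc_self hv)
  refine ⟨fun a ha b hb hab => ?_, fun v hv => ?_⟩
  · exact pow_le_pow_left₀ (hq a ha).1 (hS.q_mono F hF (Ioo_subset_Icc_self ha) (Ioo_subset_Icc_self hb) hab) 2
  · rw [abs_of_nonneg (sq_nonneg _)]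
    exact pow_le_one₀ (hq v hv).1 (hq v hv).2

theorem bud_env_rho_hasDeriv_aux2 (hS : BdStd X W Fam K) (hF : Fam F) :
    IntervalIntegrable (fun v => F.cg v * F.q v ^ 2) volume 0 1 ∧
      IntervalIntegrable (fun v => F.b 0 v * F.q v ^ 2) volume 0 1 := by
  obtain ⟨hm, hb⟩ := bud_env_rho_hasDeriv_aux hS hF
  have hc := bud_env_cg_int hS hF
  have hroom := bud_env_G_room hS.fix (n := 0) (by omega)
  have hg : (1 / 2 : ℝ) ∈ Icc (X.glo 0) (X.ghi 0) := ⟨by linarith [hroom.1], by linarith [hroom.2]⟩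
  have hb0 : IntegrableOn (F.b 0) (Ioo 0 1) := by
    have h1 := (hS.clk0 F hF _ hg).1.integrableOn.add (hc.const_mul (1 / 2))
    refine h1.congr (Eventually.of_forall fun v => ?_)
    simp only [Pi.add_apply]
    rw [hS.b_aff F hF (1 / 2) v]; ring
  rw [intervalIntegrable_iff_integrableOn_Ioo_of_le zero_le_one,
    intervalIntegrable_iff_integrableOn_Ioo_of_le zero_le_one]
  constructor
  · exact (bud_integrableOn_mul (C := 1) hm hb hc).congr (Eventually.of_forall fun v => mul_comm _ _)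
  · exact (bud_integrableOn_mul (C := 1) hm hb hb0).congr (Eventually.of_forall fun v => mul_comm _ _)

theorem bud_env_rho_hasDeriv (hS : BdStd X W Fam K) (hF : Fam F) (g : ℝ) : HasDerivAt F.envRho F.envDrho g := by
  obtain ⟨h1, h2⟩ := bud_env_rho_hasDeriv_aux2 hS hF
  have e : F.envRho = fun s => s * F.envDrho + (-((1 / 4) * (∫ v in (0 : ℝ)..1, F.b 0 v * F.q v ^ 2))
      + (1 / 2) * ∫ v in F.xm..1, F.d v * F.q v) := by
    funext s
    unfold BdFr.envRho BdFr.envDrho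
    have e1 : (∫ v in (0 : ℝ)..1, F.b s v * F.q v ^ 2)
        = (∫ v in (0 : ℝ)..1, F.b 0 v * F.q v ^ 2) - s * ∫ v in (0 : ℝ)..1, F.cg v * F.q v ^ 2 := by
      rw [← intervalIntegral.integral_const_mul, ← intervalIntegral.integral_sub h2 (h1.const_mul s)]
      refine intervalIntegral.integral_congr fun v _ => ?_
      show F.b s v * F.q v ^ 2 = F.b 0 v * F.q v ^ 2 - s * (F.cg v * F.q v ^ 2)
      rw [hS.b_aff F hF s v]; ring
    rw [e1]; ring
  rw [e]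
  have h3 := ((hasDerivAt_id g).mul_const F.envDrho).add_const (-((1 / 4) * (∫ v in (0 : ℝ)..1, F.b 0 v * F.q v ^ 2))
      + (1 / 2) * ∫ v in F.xm..1, F.d v * F.q v)
  rw [one_mul] at h3
  exact h3

theorem bud_env_drho_abs (hS : BdStd X W Fam K) (hF : Fam F) : |F.envDrho| ≤ K.Cg * F.lam := by
  obtain ⟨hm, hb⟩ := bud_env_rho_hasDeriv_aux hS hF
  obtain ⟨h1, -⟩ := bud_env_rho_hasDeriv_aux2 hS hF
  rw [intervalIntegrable_iff_integrableOn_Ioo_of_le zero_le_one] at h1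
  obtain ⟨d1, -⟩ := bud_env_dir_le hS hF
  have d0 : 0 ≤ ∫ v in Ioo (0 : ℝ) 1, |F.cg v| := integral_nonneg fun v => abs_nonneg _
  unfold BdFr.envDrho
  rw [intervalIntegral.integral_of_le zero_le_one, integral_Ioc_eq_integral_Ioo, abs_mul,
    abs_of_nonneg (by norm_num : (0 : ℝ) ≤ 1 / 4)]
  have h2 : |∫ v in Ioo (0 : ℝ) 1, F.cg v * F.q v ^ 2| ≤ ∫ v in Ioo (0 : ℝ) 1, |F.cg v| := by
    refine (abs_integral_le_integral_abs).trans ?_
    refine setIntegral_mono_on h1.abs (bud_env_cg_int hS hF).abs measurableSet_Ioo fun v hv => ?_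
    rw [abs_mul]
    exact mul_le_of_le_one_right (abs_nonneg _) (hb v hv)
  linarith

theorem bud_env_rho_lip (hS : BdStd X W Fam K) (hF : Fam F) (s : Set ℝ) :
    LipschitzOnWith (Real.toNNReal (K.Cg * F.lam)) F.envRho s := by
  have h := bud_env_drho_abs hS hF
  refine (lipschitzWith_of_nnnorm_deriv_le (fun g => (bud_env_rho_hasDeriv hS hF g).differentiableAt) fun g => ?_).lipschitzOnWith
  rw [(bud_env_rho_hasDeriv hS hF g).deriv, ← NNReal.coe_le_coe, coe_nnnorm, Real.norm_eq_abs,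
    Real.coe_toNNReal _ ((abs_nonneg _).trans h)]
  exact h

/-! ## 5. The norm and the derivative -/

theorem bud_env_Nn2_nonneg (hS : BdStd X W Fam K) (hF : Fam F) {g : ℝ} (hg : g ∈ Icc (X.glo 0) (X.ghi 0))
    (Q : BdQ F X) : 0 ≤ Q.Nn2 W g := by
  have h1 := hS.clk F hF g hg Q
  rw [← hS.a1 F.m] at h1
  unfold BdQ.Nn2
  rw [intervalIntegral.integral_of_le zero_le_one, integral_Ioc_eq_integral_Ioo]
  refine setIntegral_nonneg measurableSet_Ioo fun v hv => ?_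
  have h2 : 0 ≤ Q.Dq2 W g v := by
    unfold BdQ.Dq2 BdQ.Bq BdQ.Sq
    have := (W.ps F.m).S_sq_le _ _ h1.1 h1.2 v (by rw [hS.a1]; exact hv)
    linarith
  positivity

/-- the integrand `D² + (S - q)²` is a.e. measurable, with values in `[0,2]` -/
theorem bud_env_norm_le_aux (hS : BdStd X W Fam K) (hF : Fam F) {g : ℝ} (hg : g ∈ Icc (X.glo 0) (X.ghi 0))
    (Q : BdQ F X) :
    AEStronglyMeasurable (fun v => Q.Dq2 W g v + (Q.Sq W g v - F.q v) ^ 2) (volume.restrict (Ioo 0 1)) ∧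
      ∀ v ∈ Ioo (0 : ℝ) 1, 0 ≤ Q.Dq2 W g v + (Q.Sq W g v - F.q v) ^ 2 ∧
        Q.Dq2 W g v + (Q.Sq W g v - F.q v) ^ 2 ≤ 2 := by
  have h1 := hS.clk F hF g hg Q
  rw [← hS.a1 F.m] at h1
  have hq : ∀ v ∈ Ioo (0 : ℝ) 1, 0 ≤ F.q v ∧ F.q v ≤ 1 := fun v hv => hS.q_mem F hF v (Ioo_subset_Icc_self hv)
  have mB := bud_aesm_of_monoOn ((W.ps F.m).B_mono _ _ h1.1 h1.2)
  have mS := bud_aesm_of_monoOn ((W.ps F.m).S_mono _ _ h1.1 h1.2)
  have mq := bud_aesm_of_monoOn ((hS.q_mono F hF).mono Ioo_subset_Icc_self)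
  rw [hS.a1] at mB mS
  refine ⟨(mB.sub (mS.pow 2)).add ((mS.sub mq).pow 2), fun v hv => ?_⟩
  have hv' : v ∈ Ioo 0 (W.ps F.m).a := by rw [hS.a1]; exact hv
  have a1 := (W.ps F.m).S_sq_le _ _ h1.1 h1.2 v hv'
  have a2 := (W.ps F.m).B_le _ _ h1.1 h1.2 v hv'
  have a3 := (W.ps F.m).S_nonneg _ _ h1.1 h1.2 v hv'
  have a4 := (W.ps F.m).S_le_one h1.1 h1.2 hv'
  obtain ⟨q0, q1⟩ := hq v hv
  unfold BdQ.Dq2 BdQ.Bq BdQ.Sq
  constructor
  · nlinarith [sq_nonneg ((W.ps F.m).S (Q.bq g) (Q.hq g) v - F.q v)]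
  · have : ((W.ps F.m).S (Q.bq g) (Q.hq g) v - F.q v) ^ 2 ≤ 1 := by
      rw [sq_le_one_iff_abs_le_one, abs_le]; constructor <;> linarith
    nlinarith [sq_nonneg ((W.ps F.m).S (Q.bq g) (Q.hq g) v)]

/-- **(P10) for the changed path**: `c λ 𝓝² ≤ ∂_g F_j + ρ'` -/
theorem bud_env_norm_le (hS : BdStd X W Fam K) (hF : Fam F) {g : ℝ} (hg : g ∈ Icc (X.glo 0) (X.ghi 0))
    (Q : BdQ F X) : X.cN * F.lam * Q.Nn2 W g ≤ Q.envD W g + F.envDrho := by
  have hP := bud_env_pos hS.fix (hS.ok F hF)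
  obtain ⟨mT, bT⟩ := bud_env_norm_le_aux (W := W) hS hF hg Q
  have h1 := hS.clk F hF g hg Q
  have hc := bud_env_cg_int hS hF
  have hq : ∀ v ∈ Ioo (0 : ℝ) 1, 0 ≤ F.q v ∧ F.q v ≤ 1 := fun v hv => hS.q_mem F hF v (Ioo_subset_Icc_self hv)
  have mq := bud_aesm_of_monoOn ((hS.q_mono F hF).mono Ioo_subset_Icc_self)
  have hc0 := bud_env_cg_nonneg hS hF
  have hbT : ∀ᵐ v ∂(volume.restrict (Ioo (0 : ℝ) 1)), ‖Q.Dq2 W g v + (Q.Sq W g v - F.q v) ^ 2‖ ≤ 2 := by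
    rw [ae_restrict_iff' measurableSet_Ioo]
    refine Eventually.of_forall fun v hv => ?_
    rw [Real.norm_eq_abs, abs_of_nonneg (bT v hv).1]
    exact (bT v hv).2
  have hsq : (1 / 4) * (∫ v in Ioo (0 : ℝ) 1, F.cg v * (Q.Dq2 W g v + (Q.Sq W g v - F.q v) ^ 2))
      ≤ Q.envD W g + F.envDrho := by
    have hh1 := h1
    have hcc := hc
    have hqq : ∀ v ∈ Ioo 0 (W.ps F.m).a, 0 ≤ F.q v ∧ F.q v ≤ 1 := by rw [hS.a1]; exact hq
    have hmq := mq
    have hcc0 := hc0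
    rw [← hS.a1 F.m] at hh1 hcc hmq hcc0
    have h := bud_env_square (W.ps F.m) (xm := F.xm) hh1.1 hh1.2 hcc0 hcc hqq hmq
    rw [hS.a1] at h
    unfold BdQ.envD BdFr.envDrho
    rw [intervalIntegral.integral_of_le zero_le_one, integral_Ioc_eq_integral_Ioo]
    exact h
  refine le_trans ?_ hsq
  unfold BdQ.Nn2
  rw [intervalIntegral.integral_of_le zero_le_one, integral_Ioc_eq_integral_Ioo, ← integral_const_mul,
    ← integral_const_mul]
  have hw : IntegrableOn (fun v : ℝ => v ^ 2 + F.U X ^ 2) (Ioo 0 1) := by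
    have : ContinuousOn (fun v : ℝ => v ^ 2 + F.U X ^ 2) (Icc 0 1) := by fun_prop
    exact this.integrableOn_Icc.mono_set Ioo_subset_Icc_self
  refine setIntegral_mono_on ((hw.mul_bdd (c := 2) mT hbT).const_mul _) ((hc.mul_bdd (c := 2) mT hbT).const_mul _)
    measurableSet_Ioo fun v hv => ?_
  have h2 := hS.cg_lo F hF v hv
  have h3 := (bT v hv).1
  have h4 := mul_le_mul_of_nonneg_right h2 h3
  linarith

/-- **Danskin**: at a differentiability point of `𝓡_j`, for EVERY minimiser -/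
theorem bud_env_deriv_ge (hS : BdStd X W Fam K) (hEx : BudOptEx X W Fam) (hF : Fam F) {g : ℝ}
    (hg : g ∈ Ioo (X.glo 0) (X.ghi 0)) (hd : DifferentiableAt ℝ (F.Rr X W) g) {Q : BdQ F X} (hQ : Q.IsOpt W g) :
    X.cN * F.lam * Q.Nn2 W g ≤ deriv (F.Rr X W) g := by
  have hgI := Ioo_subset_Icc_self hg
  have hρ := bud_env_rho_hasDeriv hS hF g
  have hV : HasDerivAt (F.V X W) (deriv (F.Rr X W) g - F.envDrho) g := by
    have h1 := hd.hasDerivAt.sub hρ
    refine h1.congr_of_eventuallyEq (Eventually.of_forall fun s => ?_)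
    simp only [bud_env_Rr_eq, Pi.sub_apply]
    ring
  have hQd : HasDerivAt (fun s => Q.obj W s) (Q.envD W g) g :=
    (bud_env_obj_hasDeriv hS hF Q g hgI).hasDerivAt (Icc_mem_nhds hg.1 hg.2)
  have e := tl_12_deriv_eq (bud_env_value hS hEx hF) (Icc_mem_nhds hg.1 hg.2) hV (mem_univ Q)
    (bud_env_V_eq hQ) hQd
  have := bud_env_norm_le (W := W) hS hF hgI Q
  linarith

theorem bud_env_deriv_nonneg (hS : BdStd X W Fam K) (hEx : BudOptEx X W Fam) (hF : Fam F) {g : ℝ}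
    (hg : g ∈ Ioo (X.glo 0) (X.ghi 0)) (hd : DifferentiableAt ℝ (F.Rr X W) g) : 0 ≤ deriv (F.Rr X W) g := by
  have hgI := Ioo_subset_Icc_self hg
  obtain ⟨Q, hQ⟩ := hEx F hF g hgI
  have hP := bud_env_pos hS.fix (hS.ok F hF)
  refine le_trans ?_ (bud_env_deriv_ge hS hEx hF hg hd hQ)
  exact mul_nonneg (mul_nonneg hS.fix.cN_pos.le hP.lam0.le) (bud_env_Nn2_nonneg hS hF hgI Q)

/-! ## 6. The explicit majorant -/

theorem bud_env_Z_ge_one (hS : BdStd X W Fam K) (hEx : BudOptEx X W Fam) (hF : Fam F) {g : ℝ}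
    (hg : g ∈ Ioo (X.glo 0) (X.ghi 0)) : 1 ≤ F.Zj X W g := by
  have hP := bud_env_pos hS.fix (hS.ok F hF)
  unfold BdFr.Zj
  split_ifs with h0 hd
  · exact le_rfl
  · rw [Real.one_le_sqrt]
    have := div_nonneg (bud_env_deriv_nonneg hS hEx hF hg hd) (bud_env_Zden_pos hS.fix hP).le
    linarith
  · exact le_rfl

theorem bud_env_Zsq (hS : BdStd X W Fam K) (hEx : BudOptEx X W Fam) (hF : Fam F) (h0 : F.st ≠ 0) {g : ℝ}
    (hg : g ∈ Ioo (X.glo 0) (X.ghi 0)) (hd : DifferentiableAt ℝ (F.Rr X W) g) :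
    F.Zj X W g ^ 2 = 1 + deriv (F.Rr X W) g / F.Zden X := by
  have hP := bud_env_pos hS.fix (hS.ok F hF)
  unfold BdFr.Zj
  rw [if_neg h0, if_pos hd, Real.sq_sqrt]
  have := div_nonneg (bud_env_deriv_nonneg hS hEx hF hg hd) (bud_env_Zden_pos hS.fix hP).le
  linarith

/-! ## 7. Absolute continuity -/

theorem bud_env_Rr_lip (hS : BdStd X W Fam K) (hEx : BudOptEx X W Fam) (hF : Fam F) :
    LipschitzOnWith (Real.toNNReal (K.Cg * F.lam) + Real.toNNReal (K.Cg * F.lam)) (F.Rr X W)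
      (Icc (X.glo 0) (X.ghi 0)) := by
  rw [bud_env_Rr_eq]
  exact (bud_env_V_lip hS hEx hF).add (bud_env_rho_lip hS hF _)

theorem bud_env_Rr_ac (hS : BdStd X W Fam K) (hEx : BudOptEx X W Fam) (hF : Fam F) {a b : ℝ}
    (ha : a ∈ Icc (X.glo 0) (X.ghi 0)) (hb : b ∈ Icc (X.glo 0) (X.ghi 0)) :
    AbsolutelyContinuousOnInterval (F.Rr X W) a b :=
  ((bud_env_Rr_lip hS hEx hF).mono (uIcc_subset_Icc ha hb)).absolutelyContinuousOnInterval

/-- `𝓡_j` is nondecreasing on the widest interval -/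
theorem bud_env_Rr_mono (hS : BdStd X W Fam K) (hEx : BudOptEx X W Fam) (hF : Fam F) :
    MonotoneOn (F.Rr X W) (Icc (X.glo 0) (X.ghi 0)) := by
  intro a ha b hb hab
  have hac := bud_env_Rr_ac hS hEx hF ha hb
  have h := hac.integral_deriv_eq_sub
  have h0 : 0 ≤ ∫ g in a..b, deriv (F.Rr X W) g := by
    refine intervalIntegral.integral_nonneg_of_ae_restrict hab ?_
    rw [Filter.EventuallyLE, ae_restrict_iff' measurableSet_Icc]
    filter_upwards [hac.ae_differentiableAt, tl_12_ae_Ioo a b] with g h2 h3 h4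
    have hoo := h3 h4
    exact bud_env_deriv_nonneg hS hEx hF ⟨ha.1.trans_lt hoo.1, hoo.2.trans_le hb.2⟩ (h2 (by rwa [uIcc_of_le hab]))
  linarith

end

end Claimed.Agent.R286

/-!
# Row 286, LL sec. 7, node N10 (bud:envelope), file 6: integration of `𝓡_j'`, the averaged square of the majorant, (C13)      (cut: helper5)

* `bud_env_int_Rr`     `𝓡_j(g2) - 𝓡_j(g1) ≤ avg_{[g2,g3]} excess + 2 sup |R - c|`       (l.1258-1266; monotonicity of `𝓡_j` replaces the choice of a good endpoint)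
* `bud_env_int_Zsq`    `∫ Z² = (g2 - g1) + (𝓡_j(g2) - 𝓡_j(g1)) / Zden`
* `bud_env_good_ae`    almost every parameter is good
* `bud_env_c13_alg`    the algebra of (C13)
* `bud_env_main`       = the exit `bud_env` of `Bud/L8.lean`
-/

namespace Claimed.Agent.R286

open MeasureTheory Set Filter Topology

variable {X : BdFix} {W : BdWorld} {Fam : BdFr → Prop} {K : BdCst} {F : BdFr}

theorem bud_env_int_Rr (hS : BdStd X W Fam K) (hEx : BudOptEx X W Fam) (hF : Fam F) {g1 g2 g3 c Bd : ℝ}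
    (h1 : g1 ∈ Icc (X.glo 0) (X.ghi 0)) (h12 : g1 ≤ g2) (h23 : g2 < g3) (h3 : g3 ∈ Icc (X.glo 0) (X.ghi 0))
    (hB : ∀ g ∈ Icc (X.glo 0) (X.ghi 0), |F.R0 W g - c| ≤ Bd) :
    F.Rr X W g2 - F.Rr X W g1 ≤ (g3 - g2)⁻¹ * (∫ g in g2..g3, F.exc X W g) + 2 * Bd := by
  have h2 : g2 ∈ Icc (X.glo 0) (X.ghi 0) := ⟨h1.1.trans h12, h23.le.trans h3.2⟩
  have hd : 0 < g3 - g2 := sub_pos.2 h23
  have hmono := bud_env_Rr_mono hS hEx hF
  have hlow : c - Bd ≤ F.Rr X W g1 := by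
    rw [bud_env_Rr_exc]
    have a1 := bud_env_exc_nonneg hS hEx hF g1 h1
    have a2 := (abs_le.1 (hB g1 h1)).1
    linarith
  have hii : IntervalIntegrable (F.exc X W) volume g2 g3 :=
    ((bud_env_exc_cont hS hEx hF).mono (uIcc_subset_Icc h2 h3)).intervalIntegrable
  have hup : (g3 - g2) * (F.Rr X W g2 - c - Bd) ≤ ∫ g in g2..g3, F.exc X W g := by
    have e : (g3 - g2) * (F.Rr X W g2 - c - Bd) = ∫ _g in g2..g3, (F.Rr X W g2 - c - Bd) := by
      rw [intervalIntegral.integral_const, smul_eq_mul]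
    rw [e]
    refine intervalIntegral.integral_mono_on h23.le intervalIntegrable_const hii fun g hg => ?_
    have hgI : g ∈ Icc (X.glo 0) (X.ghi 0) := ⟨h2.1.trans hg.1, hg.2.trans h3.2⟩
    have a1 := hmono h2 hgI hg.1
    rw [bud_env_Rr_exc F X W g] at a1
    have a2 := (abs_le.1 (hB g hgI)).2
    linarith
  have hup2 : F.Rr X W g2 - c - Bd ≤ (g3 - g2)⁻¹ * (∫ g in g2..g3, F.exc X W g) := by
    rw [inv_mul_eq_div, le_div_iff₀ hd]
    linarith
  linarith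

theorem bud_env_good_ae (hS : BdStd X W Fam K) (hEx : BudOptEx X W Fam) (hF : Fam F) {g1 g2 : ℝ}
    (h1 : g1 ∈ Icc (X.glo 0) (X.ghi 0)) (h2 : g2 ∈ Icc (X.glo 0) (X.ghi 0)) (h12 : g1 ≤ g2) :
    ∀ᵐ g ∂(volume.restrict (Icc g1 g2)), F.GoodG X W g := by
  rw [ae_restrict_iff' measurableSet_Icc]
  filter_upwards [(bud_env_Rr_ac hS hEx hF h1 h2).ae_differentiableAt] with g hg hgI
  exact Or.inr (hg (by rwa [uIcc_of_le h12]))

theorem bud_env_int_Zsq (hS : BdStd X W Fam K) (hEx : BudOptEx X W Fam) (hF : Fam F) (h0 : F.st ≠ 0) {g1 g2 : ℝ}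
    (h1 : g1 ∈ Ioo (X.glo 0) (X.ghi 0)) (h2 : g2 ∈ Ioo (X.glo 0) (X.ghi 0)) (h12 : g1 ≤ g2) :
    IntervalIntegrable (fun g => F.Zj X W g ^ 2) volume g1 g2 ∧
      ∫ g in g1..g2, F.Zj X W g ^ 2 = (g2 - g1) + (F.Rr X W g2 - F.Rr X W g1) / F.Zden X := by
  have hac := bud_env_Rr_ac hS hEx hF (Ioo_subset_Icc_self h1) (Ioo_subset_Icc_self h2)
  have hdi := hac.intervalIntegrable_deriv
  have hae : ∀ᵐ g ∂volume, g ∈ uIoc g1 g2 → 1 + deriv (F.Rr X W) g / F.Zden X = F.Zj X W g ^ 2 := by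
    filter_upwards [hac.ae_differentiableAt] with g hg hgI
    rw [uIoc_of_le h12] at hgI
    have hgc : g ∈ uIcc g1 g2 := by rw [uIcc_of_le h12]; exact Ioc_subset_Icc_self hgI
    exact (bud_env_Zsq hS hEx hF h0 ⟨h1.1.trans hgI.1, hgI.2.trans_lt h2.2⟩ (hg hgc)).symm
  have hi1 : IntervalIntegrable (fun g => 1 + deriv (F.Rr X W) g / F.Zden X) volume g1 g2 :=
    intervalIntegrable_const.add (hdi.div_const _)
  refine ⟨hi1.congr_ae ((ae_restrict_iff' measurableSet_uIoc).2 hae), ?_⟩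
  rw [← intervalIntegral.integral_congr_ae hae, intervalIntegral.integral_add intervalIntegrable_const (hdi.div_const _),
    intervalIntegral.integral_div, hac.integral_deriv_eq_sub, intervalIntegral.integral_const, smul_eq_mul, mul_one]

/-- the algebra of (C13) -/
theorem bud_env_c13_alg (hX : X.Ok) (h : F.Pos) {Nn D Z : ℝ} (hD : X.cN * F.lam * Nn ≤ D)
    (hZ : Z ^ 2 = 1 + D / F.Zden X) :
    Nn ≤ (F.x ^ (2 : ℝ) * F.lam ^ (-X.s0) * Z) ^ 2 ∧ (F.Fin13 X → Nn ≤ (F.x ^ (2 + X.he / 4) * Z) ^ 2) := by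
  have hx0 := h.x0
  have hl0 := h.lam0
  have hcl : 0 < X.cN * F.lam := mul_pos hX.cN_pos hl0
  have hZd := bud_env_Zden_pos hX h
  have hhe : 0 < X.he := by linarith [hX.pS_pos, hX.pS_le]
  have hs0 : 0 < X.s0 := by
    unfold BdFix.s0 BdFix.sS
    linarith [hX.tau_le, hX.tau0_le, hX.eta_le, hX.tau0_pos]
  have e1 : (F.x ^ (2 : ℝ) * F.lam ^ (-X.s0) * Z) ^ 2 = F.x ^ (4 : ℝ) * F.lam ^ (-(2 * X.s0)) * Z ^ 2 := by
    rw [mul_pow, mul_pow, ← Real.rpow_natCast (F.x ^ (2 : ℝ)), ← Real.rpow_mul hx0.le,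
      ← Real.rpow_natCast (F.lam ^ (-X.s0)), ← Real.rpow_mul hl0.le]
    norm_num
    left; left; ring_nf
  have e2 : (F.x ^ (2 + X.he / 4) * Z) ^ 2 = F.x ^ (4 + X.he / 2) * Z ^ 2 := by
    rw [mul_pow, ← Real.rpow_natCast (F.x ^ (2 + X.he / 4)), ← Real.rpow_mul hx0.le]
    congr 2
    push_cast; ring
  have key : X.cN * F.lam * Nn ≤ F.Zden X * Z ^ 2 := by
    rw [hZ, mul_add, mul_div_cancel₀ _ hZd.ne']
    linarith
  by_cases hf : F.Fin13 X
  · have eZ : F.Zden X = X.cN * F.lam * F.x ^ (4 + X.he / 2) := by unfold BdFr.Zden; rw [if_pos hf]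
    rw [eZ, mul_assoc (X.cN * F.lam) (F.x ^ (4 + X.he / 2))] at key
    have k2 : Nn ≤ F.x ^ (4 + X.he / 2) * Z ^ 2 := le_of_mul_le_mul_left key hcl
    refine ⟨?_, fun _ => by rw [e2]; exact k2⟩
    rw [e1]
    refine k2.trans (mul_le_mul_of_nonneg_right ?_ (sq_nonneg Z))
    have a1 : F.x ^ (4 + X.he / 2) ≤ F.x ^ (4 : ℝ) :=
      Real.rpow_le_rpow_of_exponent_ge hx0 h.x1.le (by linarith)
    have a2 : 1 ≤ F.lam ^ (-(2 * X.s0)) := Real.one_le_rpow_of_pos_of_le_one_of_nonpos hl0 h.lam1.le (by linarith)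
    calc F.x ^ (4 + X.he / 2) ≤ F.x ^ (4 : ℝ) := a1
      _ ≤ F.x ^ (4 : ℝ) * F.lam ^ (-(2 * X.s0)) := le_mul_of_one_le_right (Real.rpow_pos_of_pos hx0 _).le a2
  · have eZ : F.Zden X = X.cN * F.lam * F.x ^ (4 : ℝ) * F.lam ^ (-(2 * X.s0)) := by unfold BdFr.Zden; rw [if_neg hf]
    have eZ2 : X.cN * F.lam * F.x ^ (4 : ℝ) * F.lam ^ (-(2 * X.s0)) * Z ^ 2
        = X.cN * F.lam * (F.x ^ (4 : ℝ) * F.lam ^ (-(2 * X.s0)) * Z ^ 2) := by ring
    rw [eZ, eZ2] at key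
    refine ⟨?_, fun hf' => absurd hf' hf⟩
    rw [e1]
    exact le_of_mul_le_mul_left key hcl

/-- (C13) at the stage index `n + 1` -/
theorem bud_env_c13 (hS : BdStd X W Fam K) (hEx : BudOptEx X W Fam) {n : ℕ} (hn : n ≤ X.J) :
    BudC13 X W Fam (n + 1) := by
  refine bd_ev_iff.2 ⟨0, fun i hi _ => ?_⟩
  obtain ⟨⟨hF, _, hst⟩, hg, hgood, hopt⟩ := hi
  have hP := bud_env_pos hS.fix (hS.ok _ hF)
  have hgo := bud_env_G_sub_Ioo hS.fix (n := n + 1) (by omega) (by omega) hg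
  have h0 : i.F.st ≠ 0 := by omega
  have hd : DifferentiableAt ℝ (i.F.Rr X W) i.g := hgood.resolve_left h0
  exact bud_env_c13_alg hS.fix hP (bud_env_deriv_ge hS hEx hF hgo hd hopt) (bud_env_Zsq hS hEx hF h0 hgo hd)

/-- the majorant at the stage index `n + 1` -/
theorem bud_env_Z (hS : BdStd X W Fam K) (hEx : BudOptEx X W Fam) (hR : BudR0 X W Fam K.cG) {n : ℕ} (hn : n ≤ X.J)
    (hc : BudCost X W Fam (n + 1) n) : BudZ X W Fam (n + 1) := by
  have hX := hS.fix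
  obtain ⟨Cc, Nc, Hc⟩ := hc
  obtain ⟨ε, hε, CB, HB⟩ := bud_env_Bcal_le_Zden hX hS.cG_s0 hS.cG_he
  obtain ⟨CR, NR, HR⟩ := bud_env_sub_use hR hε
  have hnest := hX.gnest n hn
  obtain ⟨δ, hδ⟩ : ∃ δ, δ = X.ghi n - X.ghi (n + 1) := ⟨_, rfl⟩
  have hδ0 : 0 < δ := by rw [hδ]; linarith [hnest.2]
  refine ⟨(X.ghi (n + 1) - X.glo (n + 1)) + (δ⁻¹ * (max Cc 0 / X.cN) + 2 * (max CR 0 * CB)), max Nc NR,
    fun F hF hN => ?_⟩
  have hNc : Nc ≤ F.N := le_trans (le_max_left _ _) hN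
  have hNR : NR ≤ F.N := le_trans (le_max_right _ _) hN
  have hOk := hS.ok F hF.1
  have hP := bud_env_pos hX hOk
  have hZd := bud_env_Zden_pos hX hP
  have h0 : F.st ≠ 0 := by rw [hF.2.2]; omega
  have hlt := bud_env_G_lt hX (n := n + 1) (by omega)
  have hsub := bud_env_G_sub_Ioo hX (n := n + 1) (by omega) (by omega)
  have hg1 := hsub (left_mem_Icc.2 hlt.le)
  have hg2 := hsub (right_mem_Icc.2 hlt.le)
  have hltn := bud_env_G_lt hX (n := n) (by omega)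
  have hsubn := bud_env_G_sub hX (n := n) (by omega)
  have hg3 := hsubn (right_mem_Icc.2 hltn.le)
  have hg0 := hsubn (left_mem_Icc.2 hltn.le)
  obtain ⟨hi, hint⟩ := bud_env_int_Zsq hS hEx hF.1 h0 hg1 hg2 hlt.le
  refine ⟨fun g hg => bud_env_Z_ge_one hS hEx hF.1 (hsub hg),
    bud_env_good_ae hS hEx hF.1 (Ioo_subset_Icc_self hg1) (Ioo_subset_Icc_self hg2) hlt.le, hi, ?_⟩
  rw [hint]
  obtain ⟨he1, he2, he3⟩ := Hc F hF hNc
  have hBc0 : 0 ≤ F.Bcal X K.cG := by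
    have := hP.x0; have := hP.lam0; have := hP.U0 X
    unfold BdFr.Bcal
    positivity
  have hNB0 : 0 ≤ (F.N : ℝ) ^ ε * F.Bcal X K.cG := mul_nonneg (Real.rpow_nonneg hP.N0.le _) hBc0
  have hB : ∀ g ∈ Icc (X.glo 0) (X.ghi 0), |F.R0 W g - W.fsp F.K| ≤ CR * ((F.N : ℝ) ^ ε * F.Bcal X K.cG) := by
    intro g hg
    have := HR (F, g) ⟨hF.1, hg⟩ hNR
    simp only [abs_abs] at this
    rwa [abs_of_nonneg hNB0] at this
  have h1 := bud_env_int_Rr hS hEx hF.1 (Ioo_subset_Icc_self hg1) hlt.le hnest.2 hg3 hB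
  have h2 : ∫ g in (X.ghi (n + 1))..(X.ghi n), F.exc X W g ≤ ∫ g in (X.glo n)..(X.ghi n), F.exc X W g := by
    refine intervalIntegral.integral_mono_interval (by linarith [hnest.1, hlt]) hnest.2.le le_rfl ?_
      ((he2.mono (uIcc_subset_Icc hg0 hg3)).intervalIntegrable)
    rw [Filter.EventuallyLE, ae_restrict_iff' measurableSet_Ioc]
    exact Eventually.of_forall fun g hg => he1 g (hsubn (Ioc_subset_Icc_self hg))
  have h3 : F.cost X ≤ F.Zden X / X.cN := by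
    rw [le_div_iff₀ hX.cN_pos, mul_comm]
    exact bud_env_cost_le_Zden hX hOk
  have h4 := HB F hOk
  have h5 : Cc * F.cost X ≤ max Cc 0 / X.cN * F.Zden X := by
    calc Cc * F.cost X ≤ max Cc 0 * F.cost X := mul_le_mul_of_nonneg_right (le_max_left _ _) (hP.cost0 X).le
      _ ≤ max Cc 0 * (F.Zden X / X.cN) := mul_le_mul_of_nonneg_left h3 (le_max_right _ _)
      _ = _ := by ring
  have h6 : CR * ((F.N : ℝ) ^ ε * F.Bcal X K.cG) ≤ max CR 0 * CB * F.Zden X := by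
    calc CR * ((F.N : ℝ) ^ ε * F.Bcal X K.cG) ≤ max CR 0 * ((F.N : ℝ) ^ ε * F.Bcal X K.cG) :=
          mul_le_mul_of_nonneg_right (le_max_left _ _) hNB0
      _ ≤ max CR 0 * (CB * F.Zden X) := mul_le_mul_of_nonneg_left h4 (le_max_right _ _)
      _ = _ := by ring
  have h7 : F.Rr X W (X.ghi (n + 1)) - F.Rr X W (X.glo (n + 1))
      ≤ (δ⁻¹ * (max Cc 0 / X.cN) + 2 * (max CR 0 * CB)) * F.Zden X := by
    rw [← hδ] at h1
    have h8 : δ⁻¹ * (∫ g in (X.ghi (n + 1))..(X.ghi n), F.exc X W g) ≤ δ⁻¹ * (max Cc 0 / X.cN * F.Zden X) :=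
      mul_le_mul_of_nonneg_left ((h2.trans he3).trans h5) (inv_pos.2 hδ0).le
    have e : (δ⁻¹ * (max Cc 0 / X.cN) + 2 * (max CR 0 * CB)) * F.Zden X
        = δ⁻¹ * (max Cc 0 / X.cN * F.Zden X) + 2 * (max CR 0 * CB * F.Zden X) := by ring
    rw [e]
    linarith
  have h9 := (div_le_iff₀ hZd).2 h7
  linarith

theorem bud_env_main (hS : BdStd X W Fam K) (hEx : BudOptEx X W Fam) (hR : BudR0 X W Fam K.cG) {n : ℕ} (hn : n ≤ X.J)
    (hc : BudCost X W Fam (n + 1) n) : BudZ X W Fam (n + 1) ∧ BudC13 X W Fam (n + 1) :=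
  ⟨bud_env_Z hS hEx hR hn hc, bud_env_c13 hS hEx hn⟩

end Claimed.Agent.R286

/-!
# Row 286, LL sec. 7, node N10 (bud:envelope), file 8: the averaged excess      (cut: helper5; names `bud_env_*`)

The exits `bud_cost_zero`, `bud_Z_zero`, `bud_cost_succ`, `bud_cost_restrict` of `Bud/L8.lean`.
-/

namespace Claimed.Agent.R286

open MeasureTheory Set Filter Topology

variable {X : BdFix} {W : BdWorld} {Fam : BdFr → Prop} {K : BdCst} {F : BdFr}

theorem bud_env_exc_ii (hS : BdStd X W Fam K) (hEx : BudOptEx X W Fam) (hF : Fam F) {a b : ℝ}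
    (ha : a ∈ Icc (X.glo 0) (X.ghi 0)) (hb : b ∈ Icc (X.glo 0) (X.ghi 0)) :
    IntervalIntegrable (F.exc X W) volume a b :=
  ((bud_env_exc_cont hS hEx hF).mono (uIcc_subset_Icc ha hb)).intervalIntegrable

theorem bud_env_G_mem {X : BdFix} (hX : X.Ok) {n : ℕ} (hn : n ≤ X.J + 1) :
    X.glo n ∈ Icc (X.glo 0) (X.ghi 0) ∧ X.ghi n ∈ Icc (X.glo 0) (X.ghi 0) :=
  ⟨bud_env_G_sub hX hn (left_mem_Icc.2 (bud_env_G_lt hX hn).le), bud_env_G_sub hX hn (right_mem_Icc.2 (bud_env_G_lt hX hn).le)⟩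

theorem bud_env_cost_zero (hS : BdStd X W Fam K) (hEx : BudOptEx X W Fam) (h0 : BudExc0 X W Fam) :
    BudCost X W Fam 0 0 := by
  obtain ⟨C, N0, H⟩ := bud_env_O_use h0
  have hlt := bud_env_G_lt hS.fix (Nat.zero_le (X.J + 1))
  refine ⟨C * (X.ghi 0 - X.glo 0), N0, fun F hF hN =>
    ⟨bud_env_exc_nonneg hS hEx hF.1, bud_env_exc_cont hS hEx hF.1, ?_⟩⟩
  have hP := bud_env_pos hS.fix (hS.ok F hF.1)
  have h1 : ∫ g in (X.glo 0)..(X.ghi 0), F.exc X W g ≤ ∫ _g in (X.glo 0)..(X.ghi 0), C * F.cost X := by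
    refine intervalIntegral.integral_mono_on hlt.le
      (bud_env_exc_ii hS hEx hF.1 (left_mem_Icc.2 hlt.le) (right_mem_Icc.2 hlt.le)) intervalIntegrable_const
      fun g hg => ?_
    have := H (F, g) ⟨hF.1, hF.2.1, hF.2.2, hg⟩ hN
    simp only [abs_of_pos (hP.cost0 X)] at this
    exact (le_abs_self _).trans this
  rw [intervalIntegral.integral_const, smul_eq_mul] at h1
  linarith

theorem bud_env_Z_zero (hS : BdStd X W Fam K) : BudZ X W Fam 0 := by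
  refine ⟨X.ghi 0 - X.glo 0, 0, fun F hF _ => ?_⟩
  have hZ : ∀ g, F.Zj X W g = 1 := fun g => by unfold BdFr.Zj; rw [if_pos hF.2.2]
  refine ⟨fun g _ => (hZ g).ge, Eventually.of_forall fun g => Or.inl hF.2.2, ?_, ?_⟩
  · simp only [hZ]; exact intervalIntegrable_const
  · simp only [hZ]; simp

theorem bud_env_cost_restrict (hS : BdStd X W Fam K) {n : ℕ} (hn : n ≤ X.J) (hc : BudCost X W Fam (n + 1) n) :
    BudCost X W Fam (n + 1) (n + 1) := by
  obtain ⟨C, N0, H⟩ := hc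
  refine ⟨C, N0, fun F hF hN => ?_⟩
  obtain ⟨h1, h2, h3⟩ := H F hF hN
  refine ⟨h1, h2, le_trans ?_ h3⟩
  have hX := hS.fix
  have hnest := hX.gnest n hn
  have hm := bud_env_G_mem hX (n := n) (by omega)
  refine intervalIntegral.integral_mono_interval hnest.1.le (bud_env_G_lt hX (by omega)).le hnest.2.le ?_
    ((h2.mono (uIcc_subset_Icc hm.1 hm.2)).intervalIntegrable)
  rw [Filter.EventuallyLE, ae_restrict_iff' measurableSet_Ioc]
  exact Eventually.of_forall fun g hg => h1 g (bud_env_G_sub hX (n := n) (by omega) (Ioc_subset_Icc_self hg))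

theorem bud_env_cost_succ (hS : BdStd X W Fam K) (hEx : BudOptEx X W Fam) {n : ℕ} (hn : n ≤ X.J)
    (hc : BudCost X W Fam n n) (hZ : BudZ X W Fam n) (hst : BudStep X W Fam n) : BudCost X W Fam (n + 1) n := by
  have hX := hS.fix
  obtain ⟨Cc, Nc, Hc⟩ := hc
  obtain ⟨CZ, NZ, HZ⟩ := hZ
  obtain ⟨Cs, Ns, Hs⟩ := hst
  obtain ⟨Nf, Hf⟩ := bud_env_stg_fam hS
  refine ⟨Cc + max Cs 0 * CZ, max (max Nc NZ) (max Ns Nf), fun F hF hN =>
    ⟨bud_env_exc_nonneg hS hEx hF.1, bud_env_exc_cont hS hEx hF.1, ?_⟩⟩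
  have hNc : Nc ≤ F.N := le_trans (le_trans (le_max_left _ _) (le_max_left _ _)) hN
  have hNZ : NZ ≤ F.N := le_trans (le_trans (le_max_right _ _) (le_max_left _ _)) hN
  have hNs : Ns ≤ F.N := le_trans (le_trans (le_max_left _ _) (le_max_right _ _)) hN
  have hNf : Nf ≤ F.N := le_trans (le_trans (le_max_right _ _) (le_max_right _ _)) hN
  have hP := bud_env_pos hX (hS.ok F hF.1)
  have hF' : BdAt X Fam n (F.stg X n) := Hf F hF.1 hNf n (by omega)
  have hback : (F.stg X n).stg X (n + 1) = F := by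
    rw [bud_env_stg_stg, bud_env_stg_self hF.2.1 hF.2.2]
  obtain ⟨_, _, hc3⟩ := Hc (F.stg X n) hF' hNc
  obtain ⟨_, hz2, hz3, hz4⟩ := HZ (F.stg X n) hF' hNZ
  have hs := Hs (F.stg X n) hF' hNs
  rw [hback] at hs
  have hlt := bud_env_G_lt hX (n := n) (by omega)
  have hm := bud_env_G_mem hX (n := n) (by omega)
  set s : ℝ := F.x ^ (4 : ℝ) * F.u * F.Lam ^ (1 / 3 : ℝ) with hs_def
  have hs0 : 0 ≤ s := by
    have := hP.x0; have := hP.u0; have := hP.Lam0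
    positivity
  have hscost : s ≤ F.cost X := bud_env_x4_le_cost hX hP
  have hi1 := bud_env_exc_ii hS hEx hF.1 hm.1 hm.2
  have hi2 := bud_env_exc_ii hS hEx hF'.1 hm.1 hm.2
  have hi3 : IntervalIntegrable (fun g => (F.stg X n).exc X W g + Cs * s * (F.stg X n).Zj X W g ^ 2) volume
      (X.glo n) (X.ghi n) := hi2.add (hz3.const_mul _)
  have key : ∫ g in (X.glo n)..(X.ghi n), F.exc X W g
      ≤ ∫ g in (X.glo n)..(X.ghi n), ((F.stg X n).exc X W g + Cs * s * (F.stg X n).Zj X W g ^ 2) := by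
    refine intervalIntegral.integral_mono_ae_restrict hlt.le hi1 hi3 ?_
    filter_upwards [hz2, ae_restrict_mem measurableSet_Icc] with g hgood hg
    have := hs g hg hgood
    have e1 : F.exc X W g = F.V X W g - F.f0 W g := rfl
    have e2 : (F.stg X n).exc X W g = (F.stg X n).V X W g - F.f0 W g := rfl
    rw [e1, e2]
    have e3 : Cs * ((F.stg X n).x ^ (4 : ℝ) * (F.stg X n).u * (F.stg X n).Lam ^ (1 / 3 : ℝ) * (F.stg X n).Zj X W g ^ 2)
        = Cs * s * (F.stg X n).Zj X W g ^ 2 := by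
      rw [hs_def]
      show Cs * (F.x ^ (4 : ℝ) * F.u * F.Lam ^ (1 / 3 : ℝ) * (F.stg X n).Zj X W g ^ 2) = _
      ring
    linarith
  rw [intervalIntegral.integral_add hi2 (hz3.const_mul _), intervalIntegral.integral_const_mul] at key
  have hI0 : 0 ≤ ∫ g in (X.glo n)..(X.ghi n), (F.stg X n).Zj X W g ^ 2 :=
    intervalIntegral.integral_nonneg hlt.le fun g _ => sq_nonneg _
  have hc3' : ∫ g in (X.glo n)..(X.ghi n), (F.stg X n).exc X W g ≤ Cc * F.cost X := hc3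
  have h5 : Cs * s * (∫ g in (X.glo n)..(X.ghi n), (F.stg X n).Zj X W g ^ 2) ≤ max Cs 0 * CZ * F.cost X := by
    have a1 : Cs * s ≤ max Cs 0 * F.cost X :=
      (mul_le_mul_of_nonneg_right (le_max_left _ _) hs0).trans
        (mul_le_mul_of_nonneg_left hscost (le_max_right _ _))
    have a2 : 0 ≤ max Cs 0 * F.cost X := mul_nonneg (le_max_right _ _) (hP.cost0 X).le
    calc Cs * s * (∫ g in (X.glo n)..(X.ghi n), (F.stg X n).Zj X W g ^ 2)
        ≤ max Cs 0 * F.cost X * (∫ g in (X.glo n)..(X.ghi n), (F.stg X n).Zj X W g ^ 2) :=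
          mul_le_mul_of_nonneg_right a1 hI0
      _ ≤ max Cs 0 * F.cost X * CZ := mul_le_mul_of_nonneg_left hz4 a2
      _ = max Cs 0 * CZ * F.cost X := by ring
  linarith

end Claimed.Agent.R286

/-!
# Row 286, LL sec. 7, node N10 (bud:envelope), file 7: the convolution competitor on a frame      (cut: helper5; names `bud_env_*`)

* `bud_env_comp_obj`     (over `PSys`)  two quantiles which differ only where `C = C0`, the new one dominating in convex order: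
                         the pressure does not increase, the penalty increases by `(C0/4) ∫ (r'² - r²)`                         (l.1206-1224)
* `bud_env_competitor`   (one frame)  `tl_151_competitor` with `A = qlo n u`, `B = qhi n u`, `θ = 2 κ_{n+1}/cb`, `c0 = cb/2`       (l.1190-1205)
-/

namespace Claimed.Agent.R286

open MeasureTheory Set Filter Topology

/-- all motion occurs where `C = C0`: only the penalty must be paid -/
theorem bud_env_comp_obj (P : PSys) (ha : P.a = 1) {b h C r r' : ℝ → ℝ} {C0 lo hi : ℝ} (hC0 : 0 ≤ C0)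
    (hflat : ∀ t ∈ Icc lo hi, C t = C0)
    (hsame : ∀ v ∈ Icc (0 : ℝ) 1, r' v = r v ∨ (r v ∈ Icc lo hi ∧ r' v ∈ Icc lo hi))
    (hpair : ∀ S : ℝ → ℝ, MonotoneOn S (Icc 0 1) → 0 ≤ ∫ v in (0 : ℝ)..1, S v * (r' v - r v))
    (hb : IsClock 1 (fun v => b v - C (r v))) (hh : IsClock 1 (fun v => h v + C (r v) * r v))
    (hh' : IsClock 1 (fun v => h v + C (r' v) * r' v))
    (hr2 : IntervalIntegrable (fun v => r' v ^ 2 - r v ^ 2) volume 0 1)
    (hpen : IntervalIntegrable (fun v => C (r v) * r v ^ 2) volume 0 1) :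
    P.f (fun v => b v - C (r' v)) (fun v => h v + C (r' v) * r' v) + (1 / 4) * (∫ v in (0 : ℝ)..1, C (r' v) * r' v ^ 2)
      ≤ P.f (fun v => b v - C (r v)) (fun v => h v + C (r v) * r v) + (1 / 4) * (∫ v in (0 : ℝ)..1, C (r v) * r v ^ 2)
        + (C0 / 4) * ∫ v in (0 : ℝ)..1, (r' v ^ 2 - r v ^ 2) := by
  have hC : ∀ v ∈ Icc (0 : ℝ) 1, C (r' v) = C (r v) := by
    intro v hv
    rcases hsame v hv with h | ⟨h1, h2⟩
    · rw [h]
    · rw [hflat _ h1, hflat _ h2]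
  have hfield : ∀ v ∈ Icc (0 : ℝ) 1, C (r' v) * r' v - C (r v) * r v = C0 * (r' v - r v) := by
    intro v hv
    rcases hsame v hv with h | ⟨h1, h2⟩
    · rw [h]; ring
    · rw [hflat _ h1, hflat _ h2]; ring
  have hpenpt : ∀ v ∈ Icc (0 : ℝ) 1, C (r' v) * r' v ^ 2 = C (r v) * r v ^ 2 + C0 * (r' v ^ 2 - r v ^ 2) := by
    intro v hv
    rcases hsame v hv with h | ⟨h1, h2⟩
    · rw [h]; ring
    · rw [hflat _ h1, hflat _ h2]; ring
  rw [← ha] at hb hh hh'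
  have e1 : P.f (fun v => b v - C (r' v)) (fun v => h v + C (r' v) * r' v)
      = P.f (fun v => b v - C (r v)) (fun v => h v + C (r' v) * r' v) :=
    P.f_congr _ _ _ _ (fun v hv => by
      rw [ha] at hv
      simp only [hC v (Ioo_subset_Icc_self hv)]) (fun v _ => rfl)
  have e2 : P.f (fun v => b v - C (r v)) (fun v => h v + C (r' v) * r' v)
      ≤ P.f (fun v => b v - C (r v)) (fun v => h v + C (r v) * r v) := by
    refine bud_env_field_le P hb hh hh' fun S hS hS01 => ?_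
    rw [ha] at hS hS01 ⊢
    have h1 := hpair (budEnvExt S) (bud_env_ext_mono hS (fun v hv => (hS01 v hv).1) fun v hv => (hS01 v hv).2)
    rw [intervalIntegral.integral_of_le zero_le_one, integral_Ioc_eq_integral_Ioo] at h1
    have h2 : (∫ v in Ioo (0 : ℝ) 1, S v * (h v + C (r' v) * r' v - (h v + C (r v) * r v)))
        = C0 * ∫ v in Ioo (0 : ℝ) 1, budEnvExt S v * (r' v - r v) := by
      rw [← integral_const_mul]
      refine setIntegral_congr_fun measurableSet_Ioo fun v hv => ?_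
      have := hfield v (Ioo_subset_Icc_self hv)
      simp only [bud_env_ext_eq hv]
      have e : h v + C (r' v) * r' v - (h v + C (r v) * r v) = C0 * (r' v - r v) := by linarith
      rw [e]; ring
    rw [h2]
    exact mul_nonneg hC0 h1
  have e3 : (∫ v in (0 : ℝ)..1, C (r' v) * r' v ^ 2)
      = (∫ v in (0 : ℝ)..1, C (r v) * r v ^ 2) + C0 * ∫ v in (0 : ℝ)..1, (r' v ^ 2 - r v ^ 2) := by
    rw [← intervalIntegral.integral_const_mul, ← intervalIntegral.integral_add hpen (hr2.const_mul C0)]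
    refine intervalIntegral.integral_congr fun v hv => ?_
    rw [uIcc_of_le zero_le_one] at hv
    exact hpenpt v hv
  rw [e1, e3]
  linarith

variable {X : BdFix} {W : BdWorld} {Fam : BdFr → Prop} {K : BdCst} {F : BdFr}

theorem bud_env_stg_kbar (F : BdFr) (X : BdFix) (n : ℕ) (t : ℝ) :
    (F.stg X n).kbar X t = F.k X t + if t ∈ Icc (X.plo n * F.u) (X.phi n * F.u) then F.kstage X n else 0 := rfl

theorem bud_env_stg_Mj (F : BdFr) (X : BdFix) (n : ℕ) : (F.stg X n).Mj = 2 ^ n * F.x ^ (-(100 : ℝ)) := rfl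

/-- the mass of the windows (l.1196-1201) -/
theorem bud_env_window (hS : BdStd X W Fam K) (hF : Fam F) (Q : BdQ F X) {A B σ err : ℝ} (hσ0 : 0 < σ)
    (hA : 0 ≤ A) (hB : B ≤ X.cI * F.u) (hu : X.cI * F.u ≤ 1)
    (herr : ∀ r ∈ Icc A B, |Q.al r - F.beta0 r| ≤ err) (herrσ : 4 * err ≤ K.cb * σ)
    (hk : ∀ r ∈ Icc A B, 4 * F.k X r ≤ K.cb) :
    ∀ t ∈ Icc (A + σ) (B - σ),
      K.cb / 2 * (2 * σ) ≤ Q.al (t + σ) - Q.al (t - σ) - ∫ y in (t - σ)..(t + σ), F.k X y := by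
  intro t ht
  have hX := hS.fix
  have hP := bud_env_pos hX (hS.ok F hF)
  have h1 : t - σ ∈ Icc A B := ⟨by linarith [ht.1], by linarith [ht.2]⟩
  have h2 : t + σ ∈ Icc A B := ⟨by linarith [ht.1], by linarith [ht.2]⟩
  have hle : t - σ ≤ t + σ := by linarith
  have b1 := (hS.beta F hF (t - σ) (t + σ) (hA.trans h1.1) hle (h2.2.trans hB)).1
  have e1 := (abs_le.1 (herr _ h2)).1
  have e2 := (abs_le.1 (herr _ h1)).2
  have hI1 : t - σ ∈ Icc (0 : ℝ) 1 := ⟨hA.trans h1.1, h1.2.trans (hB.trans hu)⟩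
  have hI2 : t + σ ∈ Icc (0 : ℝ) 1 := ⟨hA.trans h2.1, h2.2.trans (hB.trans hu)⟩
  have k1 : ∫ y in (t - σ)..(t + σ), F.k X y ≤ ∫ _y in (t - σ)..(t + σ), K.cb / 4 := by
    refine intervalIntegral.integral_mono_on hle (bud_env_k_ii hX hP hI1 hI2) intervalIntegrable_const fun y hy => ?_
    have := hk y ⟨h1.1.trans hy.1, hy.2.trans h2.2⟩
    linarith
  rw [intervalIntegral.integral_const, smul_eq_mul] at k1
  have e3 : t + σ - (t - σ) = 2 * σ := by ring
  rw [e3] at k1 b1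
  nlinarith

/-- **the convolution competitor on a frame** -/
theorem bud_env_competitor (hS : BdStd X W Fam K) {n : ℕ} (hn : n ≤ X.J) (hF : BdAt X Fam n F)
    (hF' : Fam (F.stg X (n + 1))) {g : ℝ} (hg : g ∈ Icc (X.glo 0) (X.ghi 0)) (Q : BdQ F X) {σ err : ℝ} (hσ0 : 0 < σ)
    (hσ1 : σ ≤ (X.plo (n + 1) - X.qlo n) * F.u) (hσ2 : σ ≤ (X.qhi n - X.phi (n + 1)) * F.u)
    (hσ3 : σ ≤ X.qlo n * F.u) (hσ4 : σ ≤ (X.cI - X.qhi n) * F.u) (hu : X.cI * F.u ≤ 1)
    (herr : ∀ r ∈ Icc (X.qlo n * F.u) (X.qhi n * F.u), |Q.al r - F.beta0 r| ≤ err) (herrσ : 4 * err ≤ K.cb * σ)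
    (hk : ∀ r ∈ Icc (X.qlo n * F.u) (X.qhi n * F.u), 4 * F.k X r ≤ K.cb)
    (hκ : 2 * F.kstage X (n + 1) ≤ K.cb) :
    ∃ Q' : BdQ (F.stg X (n + 1)) X,
      Q'.obj W g ≤ Q.obj W g
        + F.C0 * (2 * F.kstage X (n + 1) / K.cb) * σ ^ 2 * (Q.al (X.qhi n * F.u) - Q.al (X.qlo n * F.u)) := by
  have hX := hS.fix
  have hcb := hS.cb_pos
  have hOk := hS.ok F hF.1
  have hP := bud_env_pos hX hOk
  have hP' := bud_env_pos hX (hS.ok _ hF')
  have hu0 := hP.u0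
  have hp' := hX.pat (n + 1) (by omega)
  obtain ⟨A, hA⟩ : ∃ A, A = X.qlo n * F.u := ⟨_, rfl⟩
  obtain ⟨B, hB⟩ : ∃ B, B = X.qhi n * F.u := ⟨_, rfl⟩
  obtain ⟨κ, hκdef⟩ : ∃ κ, κ = F.kstage X (n + 1) := ⟨_, rfl⟩
  obtain ⟨θ, hθ⟩ : ∃ θ, θ = 2 * κ / K.cb := ⟨_, rfl⟩
  rw [← hA, ← hB] at herr hk ⊢
  rw [← hκdef] at hκ ⊢
  rw [← hθ]
  have hκ0 : 0 ≤ κ := by rw [hκdef]; exact BdFr.Pos.kstage0 X (n + 1)
  have hθ0 : 0 ≤ θ := by rw [hθ]; positivity
  have hθ1 : θ ≤ 1 := by rw [hθ, div_le_one hcb]; exact hκ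
  have hθc : θ * (K.cb / 2) = κ := by rw [hθ]; field_simp
  have a1 : A + σ ≤ X.plo (n + 1) * F.u := by rw [hA]; linarith
  have a2 : X.phi (n + 1) * F.u ≤ B - σ := by rw [hB]; linarith
  have a3 : X.plo (n + 1) * F.u ≤ X.phi (n + 1) * F.u :=
    mul_le_mul_of_nonneg_right (by linarith [hp'.2.1, hp'.2.2.1, hp'.2.2.2.1]) hu0.le
  have a4 : 0 ≤ A - σ := by rw [hA]; linarith
  have a5 : B + σ ≤ X.cI * F.u := by rw [hB]; linarith
  have hinv := Q.tlInv hX hOk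
  obtain ⟨r', h', hfl, hcap, -, hreq, hrband, hpair, hpenal⟩ :=
    tl_151_competitor hinv (A := A) (B := B) (σ := σ) (θ := θ) (M := F.Mj) (c0 := K.cb / 2) (k := F.k X) hσ0 a4
      (by linarith) (a5.trans hu) hθ0 hθ1 (by positivity)
      (bud_env_k_ii hX hP (left_mem_Icc.2 zero_le_one) (right_mem_Icc.2 zero_le_one)) (bud_env_k_pos hX hP)
      (Q.lo_k hX hOk) Q.hi
      (bud_env_window hS hF.1 Q hσ0 (by linarith) (by linarith) hu herr herrσ hk)
  have hMj0 : 0 ≤ F.Mj := by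
    have := hP.x0
    unfold BdFr.Mj
    positivity
  have hMj' : (F.stg X (n + 1)).Mj = 2 * F.Mj := by
    rw [bud_env_stg_Mj]
    unfold BdFr.Mj
    rw [hF.2.2, pow_succ]
    ring
  let Q' : BdQ (F.stg X (n + 1)) X :=
    { al := tlComp Q.al (F.k X) A B σ θ
      r := r'
      al_zero := h'.al0
      al_one := h'.al1
      lo := by
        intro r1 r2 h0 h12 h2
        refine le_trans ?_ (hfl r1 r2 h0 h12 h2)
        have m1 : r1 ∈ Icc (0 : ℝ) 1 := ⟨h0, h12.trans h2⟩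
        have m2 : r2 ∈ Icc (0 : ℝ) 1 := ⟨h0.trans h12, h2⟩
        refine intervalIntegral.integral_mono_on h12 (bud_env_kbar_ii hX hP' m1 m2)
          ((bud_env_k_ii hX hP m1 m2).add ((TlCH.ind_ii _ _ _ _).const_mul _)) fun t _ => ?_
        rw [bud_env_stg_kbar, hθc, ← hκdef]
        refine add_le_add le_rfl ?_
        split_ifs with ht
        · rw [indicator_of_mem (show t ∈ Icc (A + σ) (B - σ) from ⟨a1.trans ht.1, ht.2.trans a2⟩)]
          linarith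
        · exact mul_nonneg hκ0 (indicator_nonneg (fun _ _ => zero_le_one) _)
      hi := by
        intro r1 r2 h0 h12 h2
        refine (hcap r1 r2 h0 h12 h2).trans ?_
        rw [hMj']
        have : 0 ≤ F.Mj * (r2 - r1) := mul_nonneg hMj0 (by linarith)
        nlinarith
      r_mem := h'.r_mem
      al_r := h'.al_r
      r_al := h'.r_al }
  refine ⟨Q', ?_⟩
  have hclk := hS.clk F hF.1 g hg Q
  have hclk' := hS.clk _ hF' g hg Q'
  have hmain := bud_env_comp_obj (W.ps F.m) (hS.a1 F.m) (b := F.b g) (h := F.h g) (C := F.C X) (r := Q.r) (r' := r')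
    (C0 := F.C0) (lo := A - σ) (hi := B + σ) hP.C00.le
    (fun t ht => hS.Cconst F hF.1 t ⟨a4.trans ht.1, ht.2.trans a5⟩)
    (fun v hv => by
      by_cases hc : Q.r v ≤ A - σ ∨ B + σ ≤ Q.r v
      · exact Or.inl (hreq v hv hc)
      · rw [not_or, not_le, not_le] at hc
        exact Or.inr ⟨⟨hc.1.le, hc.2.le⟩, hrband v hv ⟨hc.1.le, hc.2.le⟩⟩)
    hpair hclk.1 hclk.2 hclk'.2 (h'.r_sq_ii.sub hinv.r_sq_ii) (Q.pen_ii hX hOk)
  have hobj' : Q'.obj W g = (W.ps F.m).f (fun v => F.b g v - F.C X (r' v)) (fun v => F.h g v + F.C X (r' v) * r' v)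
      + (1 / 4) * (∫ v in (0 : ℝ)..1, F.C X (r' v) * r' v ^ 2) := rfl
  have hobj : Q.obj W g = (W.ps F.m).f (fun v => F.b g v - F.C X (Q.r v)) (fun v => F.h g v + F.C X (Q.r v) * Q.r v)
      + (1 / 4) * (∫ v in (0 : ℝ)..1, F.C X (Q.r v) * Q.r v ^ 2) := rfl
  rw [hobj', hobj]
  have h4 := mul_le_mul_of_nonneg_left hpenal (show 0 ≤ F.C0 / 4 by have := hP.C00; positivity)
  have e : F.C0 / 4 * (4 * θ * σ ^ 2 * (Q.al B - Q.al A)) = F.C0 * θ * σ ^ 2 * (Q.al B - Q.al A) := by ring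
  rw [e] at h4
  linarith

end Claimed.Agent.R286

/-!
# Row 286, LL sec. 7, node N10 (bud:envelope), file 9: the stage cost      (cut: helper5; names `bud_env_*`)

The exit `bud_step` of `Bud/L8.lean`: choice of the fixed constants and of `σ = min(c_small u, C_big u a_{j-1} Z)` (l.1190-1228).
-/

namespace Claimed.Agent.R286

open MeasureTheory Set Filter Topology

variable {X : BdFix} {W : BdWorld} {Fam : BdFr → Prop} {K : BdCst} {F : BdFr}

theorem bud_env_Z_ge_one' (hS : BdStd X W Fam K) (hEx : BudOptEx X W Fam) {n : ℕ} (hn : n ≤ X.J + 1)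
    (hF : BdAt X Fam n F) {g : ℝ} (hg : g ∈ Icc (X.glo n) (X.ghi n)) : 1 ≤ F.Zj X W g := by
  rcases Nat.eq_zero_or_pos n with rfl | hpos
  · unfold BdFr.Zj
    rw [if_pos hF.2.2]
  · exact bud_env_Z_ge_one hS hEx hF.1 (bud_env_G_sub_Ioo hS.fix hpos hn hg)

/-- the stage cost on one frame, with explicit constants -/
theorem bud_env_step_frame (hS : BdStd X W Fam K) {n : ℕ} (hn : n ≤ X.J)
    (hF : BdAt X Fam n F) (hF' : Fam (F.stg X (n + 1))) {g : ℝ} (hg0 : g ∈ Icc (X.glo 0) (X.ghi 0))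
    {Q : BdQ F X} (hQ : Q.IsOpt W g) {csm C12 Cbig ε7 Z : ℝ} (hZ1 : 1 ≤ Z) (hcsm0 : 0 < csm)
    (hc1 : csm ≤ X.plo (n + 1) - X.qlo n) (hc2 : csm ≤ X.qhi n - X.phi (n + 1)) (hc3 : csm ≤ X.qlo n)
    (hc4 : csm ≤ X.cI - X.qhi n) (hCbig0 : 0 < Cbig) (hCbig1 : 4 * C12 ≤ K.cb * Cbig)
    (hε7 : ε7 = K.cb * csm / 4)
    (h7 : ∀ r ∈ Icc (X.qlo n * F.u) (X.qhi n * F.u), |Q.al r - F.beta0 r| ≤ ε7 * F.u)
    (h12 : ∀ r ∈ Icc (X.qlo n * F.u) (X.qhi n * F.u), |Q.al r - F.beta0 r| ≤ C12 * (F.u * F.astage X n * Z))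
    (hcIu : X.cI * F.u ≤ 1) (hk : ∀ r ∈ Icc (X.qlo n * F.u) (X.qhi n * F.u), 4 * F.k X r ≤ K.cb)
    (hκ : 2 * F.kstage X (n + 1) ≤ K.cb) :
    (F.stg X (n + 1)).V X W g ≤ F.V X W g
      + 2 * (K.Cb * (X.qhi n - X.qlo n) + 2 * ε7) / K.cb * Cbig ^ 2 * (F.x ^ (4 : ℝ) * F.u * F.Lam ^ (1 / 3 : ℝ) * Z ^ 2) := by
  have hX := hS.fix
  have hcb := hS.cb_pos
  have hp := hX.pat n (by omega)
  have hOk := hS.ok F hF.1
  have hP := bud_env_pos hX hOk
  have hu0 := hP.u0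
  have ha0 : 0 < F.astage X n := hP.astage0 X n
  have huaZ : 0 < F.u * F.astage X n * Z := by positivity
  obtain ⟨σ, hσ⟩ : ∃ σ, σ = min (csm * F.u) (Cbig * F.u * F.astage X n * Z) := ⟨_, rfl⟩
  have hσ0 : 0 < σ := by rw [hσ]; exact lt_min (by positivity) (by positivity)
  have hσu : σ ≤ csm * F.u := by rw [hσ]; exact min_le_left _ _
  have hσZ : σ ≤ Cbig * F.u * F.astage X n * Z := by rw [hσ]; exact min_le_right _ _
  obtain ⟨err, herr_def⟩ : ∃ err, err = min (ε7 * F.u) (C12 * (F.u * F.astage X n * Z)) := ⟨_, rfl⟩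
  have herr : ∀ r ∈ Icc (X.qlo n * F.u) (X.qhi n * F.u), |Q.al r - F.beta0 r| ≤ err := fun r hr => by
    rw [herr_def]; exact le_min (h7 r hr) (h12 r hr)
  have herr7 : err ≤ ε7 * F.u := by rw [herr_def]; exact min_le_left _ _
  have herrσ : 4 * err ≤ K.cb * σ := by
    rcases le_total (csm * F.u) (Cbig * F.u * F.astage X n * Z) with h | h
    · rw [hσ, min_eq_left h]
      have e : K.cb * (csm * F.u) = 4 * (ε7 * F.u) := by rw [hε7]; ring
      rw [e]; linarith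
    · rw [hσ, min_eq_right h]
      have h1 : err ≤ C12 * (F.u * F.astage X n * Z) := by rw [herr_def]; exact min_le_right _ _
      have h2 := mul_le_mul_of_nonneg_right hCbig1 huaZ.le
      have e : K.cb * (Cbig * F.u * F.astage X n * Z) = K.cb * Cbig * (F.u * F.astage X n * Z) := by ring
      rw [e]; linarith
  obtain ⟨Q', hQ'⟩ := bud_env_competitor (W := W) hS hn hF hF' hg0 Q hσ0
    (hσu.trans (mul_le_mul_of_nonneg_right hc1 hu0.le)) (hσu.trans (mul_le_mul_of_nonneg_right hc2 hu0.le))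
    (hσu.trans (mul_le_mul_of_nonneg_right hc3 hu0.le)) (hσu.trans (mul_le_mul_of_nonneg_right hc4 hu0.le))
    hcIu herr herrσ hk hκ
  have hV' := bud_env_V_le (W := W) hS hF' hg0 Q'
  rw [bud_env_V_eq hQ] at hQ'
  have hq0 : 0 < X.qlo n := by linarith [hp.1, hp.2.1]
  have hAB : X.qlo n * F.u ≤ X.qhi n * F.u := mul_le_mul_of_nonneg_right hp.2.2.1.le hu0.le
  have hA0 : 0 ≤ X.qlo n * F.u := by positivity
  have hBc : X.qhi n * F.u ≤ X.cI * F.u :=
    mul_le_mul_of_nonneg_right (by linarith [hp.2.2.2.1, hp.2.2.2.2]) hu0.le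
  obtain ⟨Cm, hCm⟩ : ∃ Cm, Cm = K.Cb * (X.qhi n - X.qlo n) + 2 * ε7 := ⟨_, rfl⟩
  rw [← hCm]
  have hmass : Q.al (X.qhi n * F.u) - Q.al (X.qlo n * F.u) ≤ Cm * F.u := by
    have b1 := (hS.beta F hF.1 _ _ hA0 hAB hBc).2
    have e1' := (abs_le.1 ((herr _ (right_mem_Icc.2 hAB)).trans herr7)).2
    have e2' := (abs_le.1 ((herr _ (left_mem_Icc.2 hAB)).trans herr7)).1
    have e : Cm * F.u = K.Cb * (X.qhi n * F.u - X.qlo n * F.u) + 2 * (ε7 * F.u) := by rw [hCm]; ring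
    rw [e]; linarith
  have hmass0 : 0 ≤ Q.al (X.qhi n * F.u) - Q.al (X.qlo n * F.u) := by
    have := (Q.tlInv hX hOk).mono ⟨hA0, hAB.trans (hBc.trans hcIu)⟩ ⟨hA0.trans hAB, hBc.trans hcIu⟩ hAB
    linarith
  have hCm0 : 0 ≤ Cm := by
    by_contra hneg
    have : Cm * F.u < 0 := mul_neg_of_neg_of_pos (not_le.1 hneg) hu0
    linarith
  have hκ0 : 0 ≤ F.kstage X (n + 1) := BdFr.Pos.kstage0 X (n + 1)
  have hpen := bud_env_penalty (X := X) hP n (σ := σ) (C := Cbig) (Z := Z) hσ0.le hσZ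
  have hfin : F.C0 * (2 * F.kstage X (n + 1) / K.cb) * σ ^ 2 * (Q.al (X.qhi n * F.u) - Q.al (X.qlo n * F.u))
      ≤ 2 * Cm / K.cb * Cbig ^ 2 * (F.x ^ (4 : ℝ) * F.u * F.Lam ^ (1 / 3 : ℝ) * Z ^ 2) := by
    have c0 : 0 ≤ F.C0 * (2 * F.kstage X (n + 1) / K.cb) * σ ^ 2 := by
      have := hP.C00
      positivity
    calc F.C0 * (2 * F.kstage X (n + 1) / K.cb) * σ ^ 2 * (Q.al (X.qhi n * F.u) - Q.al (X.qlo n * F.u))
        ≤ F.C0 * (2 * F.kstage X (n + 1) / K.cb) * σ ^ 2 * (Cm * F.u) := mul_le_mul_of_nonneg_left hmass c0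
      _ = 2 * Cm / K.cb * (F.C0 * F.kstage X (n + 1) * F.u * σ ^ 2) := by ring
      _ ≤ 2 * Cm / K.cb * (Cbig ^ 2 * (F.x ^ (4 : ℝ) * F.u * F.Lam ^ (1 / 3 : ℝ) * Z ^ 2)) :=
          mul_le_mul_of_nonneg_left hpen (by positivity)
      _ = _ := by ring
  linarith

theorem bud_env_step (hS : BdStd X W Fam K) (hEx : BudOptEx X W Fam) (h7 : BudC7al X W Fam) {n : ℕ} (hn : n ≤ X.J)
    (h12 : BudC12 X W Fam n) : BudStep X W Fam n := by
  have hX := hS.fix
  have hcb := hS.cb_pos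
  obtain ⟨C12, N1, H12⟩ := bud_env_O_use h12
  have hp := hX.pat n (by omega)
  have hnest := hX.nest n hn
  have hband := bud_env_band hX (n := n) (by omega)
  have hq0 : 0 < X.qlo n := by linarith [hp.1, hp.2.1]
  obtain ⟨csm, hcsm0, hc1, hc2, hc3, hc4⟩ : ∃ csm : ℝ, 0 < csm ∧ csm ≤ X.plo (n + 1) - X.qlo n ∧
      csm ≤ X.qhi n - X.phi (n + 1) ∧ csm ≤ X.qlo n ∧ csm ≤ X.cI - X.qhi n := by
    refine ⟨min (min (X.plo (n + 1) - X.qlo n) (X.qhi n - X.phi (n + 1))) (min (X.qlo n) (X.cI - X.qhi n)), ?_,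
      (min_le_left _ _).trans (min_le_left _ _), (min_le_left _ _).trans (min_le_right _ _),
      (min_le_right _ _).trans (min_le_left _ _), (min_le_right _ _).trans (min_le_right _ _)⟩
    simp only [lt_min_iff]
    exact ⟨⟨by linarith [hnest.1], by linarith [hnest.2]⟩, hq0, by linarith [hp.2.2.2.1, hp.2.2.2.2]⟩
  obtain ⟨Cbig, hCbig0, hCbig1⟩ : ∃ Cbig : ℝ, 0 < Cbig ∧ 4 * max C12 0 ≤ K.cb * Cbig := by
    have h0 : (0 : ℝ) ≤ max C12 0 := le_max_right _ _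
    refine ⟨4 * max C12 0 / K.cb + 1, by positivity, ?_⟩
    rw [mul_add, mul_div_cancel₀ _ hcb.ne']
    linarith
  obtain ⟨ε7, hε7⟩ : ∃ ε7 : ℝ, ε7 = K.cb * csm / 4 := ⟨_, rfl⟩
  have hε70 : 0 < ε7 := by rw [hε7]; positivity
  obtain ⟨N2, H7⟩ := bud_env_o_use h7 hε70
  obtain ⟨N3, Hfam⟩ := bud_env_stg_fam hS
  obtain ⟨N4, Hu⟩ := bud_env_u_small hX (ε := 1 / X.cI) (by have := hX.cI_pos; positivity)
  obtain ⟨N5, Hk⟩ := bud_env_k_small hX (c := X.qlo n) (ε := K.cb / 4) hq0 (by positivity)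
  obtain ⟨N6, Hκ⟩ := bud_env_kstage_small hX (ε := K.cb / 2) (by positivity)
  refine ⟨2 * (K.Cb * (X.qhi n - X.qlo n) + 2 * ε7) / K.cb * Cbig ^ 2,
    max (max N1 N2) (max (max N3 N4) (max N5 N6)), fun F hF hN g hg hgood => ?_⟩
  have hN1 : N1 ≤ F.N := le_trans (le_trans (le_max_left _ _) (le_max_left _ _)) hN
  have hN2 : N2 ≤ F.N := le_trans (le_trans (le_max_right _ _) (le_max_left _ _)) hN
  have hN3 : N3 ≤ F.N := le_trans (le_trans (le_trans (le_max_left _ _) (le_max_left _ _)) (le_max_right _ _)) hN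
  have hN4 : N4 ≤ F.N := le_trans (le_trans (le_trans (le_max_right _ _) (le_max_left _ _)) (le_max_right _ _)) hN
  have hN5 : N5 ≤ F.N := le_trans (le_trans (le_trans (le_max_left _ _) (le_max_right _ _)) (le_max_right _ _)) hN
  have hN6 : N6 ≤ F.N := le_trans (le_trans (le_trans (le_max_right _ _) (le_max_right _ _)) (le_max_right _ _)) hN
  have hOk := hS.ok F hF.1
  have hP := bud_env_pos hX hOk
  have hu0 := hP.u0
  have hg0 : g ∈ Icc (X.glo 0) (X.ghi 0) := bud_env_G_sub hX (n := n) (by omega) hg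
  obtain ⟨Q, hQ⟩ := hEx F hF.1 g hg0
  have hZ1 : 1 ≤ F.Zj X W g := bud_env_Z_ge_one' hS hEx (by omega) hF hg
  have ha0 : 0 < F.astage X n := hP.astage0 X n
  have haj : F.aj X = F.astage X n := by unfold BdFr.aj; rw [hF.2.2]
  have huaZ : 0 < F.u * F.astage X n * F.Zj X W g := by positivity
  have hcIu : X.cI * F.u ≤ 1 := by
    have h2 := mul_le_mul_of_nonneg_left (Hu F hOk hN4) hX.cI_pos.le
    rwa [mul_one_div_cancel hX.cI_pos.ne'] at h2
  refine bud_env_step_frame hS hn hF (Hfam F hF.1 hN3 (n + 1) (by omega)).1 hg0 hQ hZ1 hcsm0 hc1 hc2 hc3 hc4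
    hCbig0 hCbig1 hε7 ?_ ?_ hcIu (fun r hr => by have := Hk F hOk hN5 r hr.1; linarith)
    (by have := Hκ F hOk hN6 (n + 1); linarith)
  · intro r hr
    have hr' : r ∈ Icc (X.plo 0 * F.u) (X.phi 0 * F.u) :=
      ⟨(mul_le_mul_of_nonneg_right hband.1 hu0.le).trans hr.1, hr.2.trans (mul_le_mul_of_nonneg_right hband.2 hu0.le)⟩
    have := H7 (⟨F, g, Q⟩, r) ⟨⟨hF.1, hg0, hQ⟩, hr'⟩ hN2
    simpa [abs_abs, abs_of_pos hu0] using this
  · intro r hr
    have := H12 (⟨F, g, Q⟩, r) ⟨hF, hg, hgood, hQ, hr⟩ hN1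
    simp only [abs_abs, haj] at this
    rw [abs_of_pos huaZ] at this
    exact this.trans (mul_le_mul_of_nonneg_right (le_max_left _ _) huaZ.le)

end Claimed.Agent.R286
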