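import Claimed.Agent.R286.Bud.L07W
import Claimed.Agent.R286.Bud.EnvB

/-!
# Row 286, LL sec. 7, l.139-150: PE PROP. 6.6 AT THE CALL OF A FRAME ⇒ THE OPTIMISED EXCESS AT THE STAGE `-1`      (owner helper14 = head of PE Sec. 6; consumer helper162 `bi_exc0`, `Bud/Inst.lean`; prefix `bx0_`, types `Bx*`)
TEX[LL:bud:local-call]#139-150

"Apply PE Prop. 6.6 with `d_PE = c_d u Λ^{1/3}`, `E = x^{4-ζ} d_PE`, `C(r) = C_0 f(C_0 r/d_PE³)`, `C_0 = u² Λ` … These parameters satisfy (3) … Conditions (4)-(6) with base `T_m → T > 1` hold by (P3)-(P9); all masses are changed,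
with no radius wall, and a fixed positive covariance margin throughout … The optimized excess over the actual untilted pressure is thus `≲ x^{4-2ζ} u Λ^{1/3}`";  l.160: "The initial choice `κ = 0, j = -1` contains the original PE class."

* `F.pe X g : P6D`    the frame at the parameter `g` as a PE instance (`= i.par` of `Bud/Cp.lean`, by `rfl`); strength `F.C0`.
* IMPORTS: `BdStd` (212), `BcpPE W c ..` (PE Sec. 6 for the pressure of the world: 252 `Exit/P6Tm.lean`), `Bd7WBase` (129: bare clocks, FIXED matrix margin, bound), `Bd7P9` (12).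
* `bx0_seq`      `P6Seq` along ANY sequence of frames and parameters (proof of 129's `bd7w_par_seq`, without optimiser)
* `bx0_fam`      fixed size: ordinary family, margins `β0/2`, clock bound `Kb + 1` of every changed path
* `bx0_M_le`     numerics: the PE cap is below the cap of the stage `-1`: `M(1) ≤ x^{-100} ≤ M_j`
* `bx0_embed`    the class (5) of PE embeds in the box (C5) with `κ = 0`
* `bx0_obj`, `bx0_f0`   same objective, same bare pressure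
* `bx0_err_le`   numerics: `m^{20δ} E ≤ 3 c_d x^{4-2ζ} u Λ^{1/3}`
* **`bx0_main : … → BudExc0 X W Fam`**
-/

set_option autoImplicit false

namespace Claimed.Agent.R286

open Filter Topology Set MeasureTheory Asymptotics

noncomputable section

/-- the frame at the parameter `g` as a PE instance -/
def BdFr.pe (F : BdFr) (X : BdFix) (g : ℝ) : P6D := ⟨F.call X, F.Tm, bcpCl (F.b g), bcpCl (F.h g)⟩

/-- the constants: PE record `c`, bare margin `β0`, bare clock bound `Kb` -/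
structure BxK (X : BdFix) (c : P6C) (β0 Kb : ℝ) : Prop where
  hX : X.Ok
  ok : c.Ok
  m_eq : c.m = X.mPE
  T_eq : c.Tinf = X.T
  β0_pos : 0 < β0
  K_ge : Kb + 2 ≤ c.K

/-- a sequence of frames and parameters, sizes tending to infinity along `U` -/
structure BxSeq (X : BdFix) (Fam : BdFr → Prop) (U : Ultrafilter ℕ) (F : ℕ → BdFr) (g : ℕ → ℝ) : Prop where
  fam : ∀ᶠ k in U, Fam (F k) ∧ (F k).Ok X ∧ g k ∈ X.G0
  N_top : Tendsto (fun k => (F k).N) (U : Filter ℕ) atTop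

theorem bx0_defs_eqns_cite : True := by
  have := @BdFr.pe.eq_1
  trivial

section seq

variable {X : BdFix} {W : BdWorld} {Fam : BdFr → Prop} {c : P6C} {β0 Kb : ℝ} {U : Ultrafilter ℕ} {F : ℕ → BdFr} {g : ℕ → ℝ}

theorem bx0_ev (h : BxSeq X Fam U F g) {Φ : BdFr → Prop} (hΦ : ∃ N0 : ℕ, ∀ F : BdFr, F.Ok X → N0 ≤ F.N → Φ F) :
    ∀ᶠ k in U, Φ (F k) := by
  obtain ⟨N0, hN0⟩ := hΦ
  filter_upwards [h.fam, h.N_top.eventually_ge_atTop N0] with k hk hN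
  exact hN0 _ hk.2.1 hN

theorem bx0_evF (h : BxSeq X Fam U F g) {Φ : BdFr → Prop} (hΦ : ∃ N0 : ℕ, ∀ F : BdFr, Fam F → F.Ok X → N0 ≤ F.N → Φ F) :
    ∀ᶠ k in U, Φ (F k) := by
  obtain ⟨N0, hN0⟩ := hΦ
  filter_upwards [h.fam, h.N_top.eventually_ge_atTop N0] with k hk hN
  exact hN0 _ hk.1 hk.2.1 hN

theorem bx0_base (hB : Bd7WBase X Fam β0 Kb) (h : BxSeq X Fam U F g) :
    ∀ᶠ k in U, IsClock 1 ((F k).b (g k)) ∧ IsClock 1 ((F k).h (g k)) ∧
      ∀ v ∈ Ioo (0 : ℝ) 1, β0 ≤ (F k).b (g k) v ∧ (F k).b (g k) v ≤ Kb ∧ (F k).h (g k) v ≤ Kb := by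
  filter_upwards [bx0_evF h hB, h.fam] with k hk ho
  exact hk _ ho.2.2

/-- **(3), (4), (5) of PE for the frames**, common varying base `T_m → T` -/
theorem bx0_seq (hK : BxK X c β0 Kb) (hB : Bd7WBase X Fam β0 Kb) (h9 : Bd7P9 X Fam) (h : BxSeq X Fam U F g) :
    P6Seq U c (fun k => (F k).pe X (g k)) := by
  have hX := hK.hX
  have hc := hK.ok
  have hTlim : Tendsto (fun k => (F k).Tm) U (𝓝 c.Tinf) := by
    rw [Metric.tendsto_nhds]
    intro ε hε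
    filter_upwards [bx0_evF h (h9 1 (ε / 2) one_pos (half_pos hε))] with k hk
    rw [Real.dist_eq, hK.T_eq]
    linarith [hk.1]
  have hbase := bx0_base hB h
  have hβ0 := hK.β0_pos
  have hKb : Kb ≤ c.K := by linarith [hK.K_ge]
  refine ⟨?_, Eventually.of_forall fun k => hK.m_eq.symm, bx0_ev h (bd7w_call_ok hX hc.cE_pos hc.D0_pos), hTlim, ?_,
    isLittleO_zero _ _, ?_, ?_, ?_⟩
  · have h1 : Tendsto (fun k => ((F k).N : ℝ) / 2) U atTop :=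
      (tendsto_natCast_atTop_atTop.comp h.N_top).atTop_div_const (by norm_num)
    refine tendsto_atTop_mono' _ ?_ h1
    filter_upwards [h.fam] with k hk
    exact hk.2.1.m_lo
  · set η : ℝ := (c.Tinf - c.ρ) / 2 with hη
    have hη0 : 0 < η := by have := hc.ρ_lt; rw [hη]; linarith
    filter_upwards [bx0_ev h (bd7w_d_small hX (lt_min one_pos hη0)), hTlim.eventually_const_lt (show c.Tinf - η < c.Tinf by linarith),
      h.fam] with k h1 h2 ho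
    have hd := bud_gb_d_pos hX ho.2.1
    show ((F k).dPE X) ^ 2 ≤ (F k).Tm - c.ρ
    have a1 : (F k).dPE X ≤ 1 := h1.trans (min_le_left _ _)
    have a2 : (F k).dPE X ≤ η := h1.trans (min_le_right _ _)
    have a3 : ((F k).dPE X) ^ 2 ≤ (F k).dPE X := by nlinarith
    have : c.Tinf - η - c.ρ = η := by rw [hη]; ring
    linarith
  · intro κ ε hκ hε
    have hκ0 : 0 < κ := by linarith
    filter_upwards [bx0_evF h (h9 (1 / (2 * κ ^ 2)) (ε / κ ^ 3) (by positivity) (by positivity)), h.fam] with k hk ho z u hz hz1 hu0 hu1 hzu huz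
    have hx := BdFr.bds_x_pos ho.2.1
    have ha := bd7w_call_a hX ho.2.1
    have hz' : (F k).x / 2 / κ ≤ z := le_trans (div_le_div_of_nonneg_right ha hκ0.le) hz
    have hz0 : 0 < z := lt_of_lt_of_le (by positivity) hz'
    have hu0' : (0 : ℝ) < u := hu0
    have humem : u ∈ Ico (1 / (2 * κ ^ 2) * (F k).x) 1 := by
      refine ⟨?_, hu1⟩
      calc 1 / (2 * κ ^ 2) * (F k).x = (F k).x / 2 / κ / κ := by field_simp
        _ ≤ z / κ := div_le_div_of_nonneg_right hz' hκ0.le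
        _ ≤ u := hzu
    obtain ⟨p1, p2⟩ := hk.2 _ ho.2.2 u humem
    have e1 : ((F k).pe X (g k)).b0 u = (F k).b (g k) u := bd7w_cl_eq _ ⟨hu0', hu1⟩
    have e2 : ((F k).pe X (g k)).h0 u = (F k).h (g k) u := bd7w_cl_eq _ ⟨hu0', hu1⟩
    show |((F k).pe X (g k)).b0 u - (F k).Tm| ≤ _ ∧ |((F k).pe X (g k)).h0 u| ≤ _
    rw [e1, e2]
    have q2 : u ^ 2 ≤ (κ * z) ^ 2 := pow_le_pow_left₀ hu0'.le huz 2
    have q3 : u ^ 3 ≤ (κ * z) ^ 3 := pow_le_pow_left₀ hu0'.le huz 3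
    constructor
    · calc _ ≤ ε / κ ^ 3 * u ^ 2 := p1
        _ ≤ ε / κ ^ 3 * (κ * z) ^ 2 := by gcongr
        _ = ε * z ^ 2 / κ := by field_simp
        _ ≤ ε * z ^ 2 := div_le_self (by positivity) hκ
    · calc _ ≤ ε / κ ^ 3 * u ^ 3 := p2
        _ ≤ ε / κ ^ 3 * (κ * z) ^ 3 := by gcongr
        _ = ε * z ^ 3 := by field_simp
  · filter_upwards [hbase] with k ⟨hb, hh, hbd⟩ u _
    have hB0 := bd7w_cl_ge hb (β := β0) (fun v hv => (hbd v hv).1) u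
    have hB1 := bd7w_cl_le hb (K := Kb) (fun v hv => (hbd v hv).2.1) u
    have hH0 := bd7w_cl_ge hh (β := 0) hh.nonneg u
    have hH1 := bd7w_cl_le hh (K := Kb) (fun v hv => (hbd v hv).2.2) u
    constructor
    · show |bcpCl ((F k).b (g k)) u| ≤ c.K
      rw [abs_of_nonneg (by linarith)]; linarith
    · show |bcpCl ((F k).h (g k)) u| ≤ c.K
      rw [abs_of_nonneg hH0]; linarith
  · filter_upwards [hbase] with k ⟨hb, hh, _⟩
    exact ⟨(bd7w_cl_mono hb).monotoneOn _, (bd7w_cl_mono hh).monotoneOn _⟩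

end seq

section fixed

variable {X : BdFix} {W : BdWorld} {F : BdFr} {g cE D0 β0 Kb : ℝ}

theorem bx0_Pb (l : ℝ) (s : ℝ → ℝ) {u : ℝ} (hu : 0 ≤ u) : (F.pe X g).Pb l s u = bcpCl (F.b g) u - (F.call X).e l (s u) := by
  unfold P6D.Pb
  rw [if_pos (show (F.pe X g).P.u0 ≤ u from hu)]
  rfl

theorem bx0_Ph (l : ℝ) (s : ℝ → ℝ) {u : ℝ} (hu : 0 ≤ u) :
    (F.pe X g).Ph l s u = bcpCl (F.h g) u + (F.call X).e l (s u) * s u := by
  unfold P6D.Ph
  rw [if_pos (show (F.pe X g).P.u0 ≤ u from hu)]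
  rfl

/-- **Def. 6.1 for a frame** (fixed size): ordinary family; all-mass matrix margin `β0/2` and clock bound `Kb + 1` of every changed path -/
theorem bx0_fam (hcE : 0 < cE) (hok : (F.call X).Ok cE D0) (hb : IsClock 1 (F.b g)) (hh : IsClock 1 (F.h g))
    (hbd : ∀ v ∈ Ioo (0 : ℝ) 1, β0 ≤ F.b g v ∧ F.b g v ≤ Kb ∧ F.h g v ≤ Kb) (hβ0 : 0 < β0)
    (hd : (F.call X).d ^ 2 ≤ min (β0 / 2) 1) :
    (F.pe X g).Ord ∧ ∀ l s, 0 ≤ l → l ≤ (F.pe X g).P.d ^ 2 → (F.pe X g).P.Fe s →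
      P6Marg ((F.pe X g).Pb l s) 0 (β0 / 2) ∧ P6Bd ((F.pe X g).Pb l s) ((F.pe X g).Ph l s) (Kb + 1) := by
  have hBm := bd7w_cl_mono hb
  have hHm := bd7w_cl_mono hh
  have hB0 := bd7w_cl_ge hb (β := β0) (fun v hv => (hbd v hv).1)
  have hB1 := bd7w_cl_le hb (K := Kb) (fun v hv => (hbd v hv).2.1)
  have hH0 := bd7w_cl_ge hh (β := 0) hh.nonneg
  have hH1 := bd7w_cl_le hh (K := Kb) (fun v hv => (hbd v hv).2.2)
  have hd1 : (F.call X).d ^ 2 ≤ β0 / 2 := hd.trans (min_le_left _ _)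
  have hd2 : (F.call X).d ^ 2 ≤ 1 := hd.trans (min_le_right _ _)
  have hok' : (F.pe X g).P.Ok cE D0 := hok
  refine ⟨⟨⟨bd7w_cl_clk hb, bd7w_cl_clk hh⟩, fun l hl0 hl1 s hs => ⟨?_, ?_⟩⟩, fun l s hl0 hl1 hs => ⟨⟨?_, ?_⟩, ?_⟩⟩
  · refine p6f_Pb_clk hcE hok' hs hl0 (hBm.monotoneOn _) (by have := hB0 0; show 0 ≤ bcpCl (F.b g) 0; linarith) ?_ ?_
    · intro u v hu hu' _ _
      exact absurd hu (not_le.2 hu')
    · intro _
      have := hB0 0
      have hl1' : l ≤ (F.call X).d ^ 2 := hl1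
      show l ≤ bcpCl (F.b g) 0
      linarith
  · refine p6f_Ph_clk hcE hok' hs hl0 (hHm.monotoneOn _) (hHm.monotoneOn _) (hH0 0) ?_
    intro u v hu hu' _ _
    exact absurd hu (not_le.2 hu')
  · intro u hu _
    rw [bx0_Pb l s hu]
    have := (p6f_e_bd (P := F.call X) hl0 (s u)).2
    have hl1' : l ≤ (F.call X).d ^ 2 := hl1
    linarith [hB0 u]
  · intro u v hu hu' _ _
    exact absurd hu (not_le.2 hu')
  · intro u hu
    have hl1' : l ≤ (F.call X).d ^ 2 := hl1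
    obtain ⟨e0, e1⟩ := p6f_e_bd (P := F.call X) hl0 (s u)
    obtain ⟨r0, r1⟩ := p6f_re_bd hcE hok' hs hl0 (u := u) hu
    constructor
    · rw [bx0_Pb l s hu.1, abs_le]
      constructor <;> linarith [hB0 u, hB1 u]
    · rw [bx0_Ph l s hu.1, abs_le]
      have r0' : 0 ≤ (F.call X).e l (s u) * s u := r0
      have r1' : (F.call X).e l (s u) * s u ≤ l := r1
      constructor <;> linarith [hH0 u, hH1 u]

/-- pure arithmetic of `bx0_M_le`:   `x` the scale, `m ≍ x^{-6}` the size, `z = x^{4-ζ}`, `d = d_PE ∈ [2x², 1]`, `a ≥ x/2`, `w = m^δ ≤ 3/x` -/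
theorem bx0_M_arith {x m z d a w : ℝ} (hx0 : 0 < x) (hx1 : x ≤ 1) (hm1 : (x ^ 6)⁻¹ / 2 ≤ m) (hm2 : m ≤ 3 * (x ^ 6)⁻¹)
    (hz1 : x ^ 4 ≤ z) (hz2 : z ≤ 1) (hd0 : 0 < d) (hd1 : d ≤ 1) (hd2 : 2 * x ^ 2 ≤ d) (ha : x / 2 ≤ a)
    (hw : w ≤ 3 * x⁻¹) :
    w * ((1 + 1 / (m * (z * d))) / min (1 / (m * (z * d))) (a ^ 3 / d ^ 2) + d ^ 3 / (z * d) * (1 + 1 / (m * (z * d))) ^ 2)
      ≤ 60 * (x ^ 7)⁻¹ := by
  have hx6 : 0 < x ^ 6 := by positivity
  have hi6 : 0 < (x ^ 6)⁻¹ := inv_pos.2 hx6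
  have hm0 : 0 < m := by linarith
  have hz0 : 0 < z := lt_of_lt_of_le (by positivity) hz1
  have hzd : x ^ 4 * (2 * x ^ 2) ≤ z * d := mul_le_mul hz1 hd2 (by positivity) hz0.le
  have hzd1 : z * d ≤ 1 := by nlinarith
  have hzd0 : 0 < z * d := mul_pos hz0 hd0
  have h1 : 1 ≤ m * (z * d) := by
    calc (1 : ℝ) = (x ^ 6)⁻¹ / 2 * (x ^ 4 * (2 * x ^ 2)) := by field_simp
      _ ≤ m * (z * d) := mul_le_mul hm1 hzd (by positivity) hm0.le
  have h2 : m * (z * d) ≤ 3 * (x ^ 6)⁻¹ := by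
    calc m * (z * d) ≤ m * 1 := by gcongr
      _ ≤ _ := by linarith
  set us : ℝ := 1 / (m * (z * d)) with hus
  have hus1 : us ≤ 1 := by rw [hus]; exact (div_le_one (by linarith)).2 h1
  have hus0 : x ^ 6 / 3 ≤ us := by
    rw [hus, div_le_div_iff₀ (by norm_num) (by linarith)]
    calc x ^ 6 * (m * (z * d)) ≤ x ^ 6 * (3 * (x ^ 6)⁻¹) := by gcongr
      _ = 1 * 3 := by field_simp
  have husp : 0 < us := lt_of_lt_of_le (by positivity) hus0
  have ha3 : x ^ 6 / 8 ≤ a ^ 3 / d ^ 2 := by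
    have e1 : (x / 2) ^ 3 ≤ a ^ 3 := pow_le_pow_left₀ (by positivity) ha 3
    have e2 : d ^ 2 ≤ 1 := by nlinarith
    have e3 : x ^ 6 ≤ x ^ 3 := pow_le_pow_of_le_one hx0.le hx1 (by norm_num)
    rw [le_div_iff₀ (by positivity)]
    calc x ^ 6 / 8 * d ^ 2 ≤ x ^ 6 / 8 * 1 := by gcongr
      _ ≤ (x / 2) ^ 3 := by
        have : (x / 2) ^ 3 = x ^ 3 / 8 := by ring
        rw [this]; linarith
      _ ≤ a ^ 3 := e1
  have hL : x ^ 6 / 8 ≤ min us (a ^ 3 / d ^ 2) := le_min (by linarith) ha3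
  have t1 : (1 + us) / min us (a ^ 3 / d ^ 2) ≤ 16 * (x ^ 6)⁻¹ := by
    calc (1 + us) / min us (a ^ 3 / d ^ 2) ≤ 2 / (x ^ 6 / 8) := div_le_div₀ (by norm_num) (by linarith) (by positivity) hL
      _ = 16 * (x ^ 6)⁻¹ := by field_simp; norm_num
  have t2 : d ^ 3 / (z * d) * (1 + us) ^ 2 ≤ 4 * (x ^ 6)⁻¹ := by
    have e1 : d ^ 3 / (z * d) = d ^ 2 / z := by field_simp
    have e2 : d ^ 2 / z ≤ 1 / x ^ 4 := div_le_div₀ (by norm_num) (by nlinarith) (by positivity) hz1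
    have e3 : 1 / x ^ 4 ≤ (x ^ 6)⁻¹ := by
      rw [one_div]; exact inv_anti₀ hx6 (pow_le_pow_of_le_one hx0.le hx1 (by norm_num))
    have e4 : (1 + us) ^ 2 ≤ 4 := by nlinarith
    rw [e1]
    calc d ^ 2 / z * (1 + us) ^ 2 ≤ (x ^ 6)⁻¹ * 4 := mul_le_mul (e2.trans e3) e4 (by positivity) hi6.le
      _ = _ := by ring
  have t3 : 0 ≤ (1 + us) / min us (a ^ 3 / d ^ 2) + d ^ 3 / (z * d) * (1 + us) ^ 2 := by
    have : 0 < min us (a ^ 3 / d ^ 2) := lt_of_lt_of_le (by positivity) hL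
    positivity
  calc w * ((1 + us) / min us (a ^ 3 / d ^ 2) + d ^ 3 / (z * d) * (1 + us) ^ 2)
      ≤ 3 * x⁻¹ * (20 * (x ^ 6)⁻¹) := mul_le_mul hw (by linarith) t3 (by positivity)
    _ = 60 * (x ^ 7)⁻¹ := by field_simp; norm_num

/-- numerics: **the PE cap is below the cap of every stage**.   `P = F.call X`, `M(1) = m^δ ((1 + u_*)/L + (d³/E)(1 + u_*)²)`:
`u_* = 1/(mE) ≤ 1` (`m ≥ x^{-6}/2`, `E = x^{4-ζ} d`, `d = c_d u Λ^{1/3} ≥ c_d x/C_U ≥ 2x²` by `bd7w_ut_ge`);  `L ≥ x⁶/8` (`a ≥ x/2`: `bd7w_call_a`; `d, x ≤ 1`);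
`d³/E = d²/x^{4-ζ} ≤ x^{-4}`;  `m^δ ≤ 3 x^{-1}` (`bd7w_m_rpow_le`).   Hence `M(1) ≤ 60 x^{-7} ≤ x^{-100} ≤ 2^{st} x^{-100} = M_j` for large `N`. -/
theorem bx0_M_le (hX : X.Ok) : ∃ N0 : ℕ, ∀ F : BdFr, F.Ok X → N0 ≤ F.N → (F.call X).M 1 ≤ F.Mj := by
  have hcd := hX.cd_pos
  have hCU := hX.CU_pos
  obtain ⟨N1, h1⟩ := bd7w_d_small hX (ε := 1) one_pos
  obtain ⟨N2, h2⟩ := bd7w_x_small X (a := 1) (ε := X.cd / (2 * X.CU)) one_pos (by positivity)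
  obtain ⟨N3, h3⟩ := bd7w_x_small X (a := 93) (ε := 1 / 60) (by norm_num) (by norm_num)
  refine ⟨max N1 (max N2 N3), fun F h hN => ?_⟩
  have hx0 := BdFr.bds_x_pos h
  have hx1 : F.x ≤ 1 := (bd7_ar_x_lt_one h).le
  have hd1 := h1 F h (le_trans (le_max_left _ _) hN)
  have hxs := h2 F h (le_trans ((le_max_left _ _).trans (le_max_right _ _)) hN)
  have hx93 := h3 F h (le_trans ((le_max_right _ _).trans (le_max_right _ _)) hN)
  rw [Real.rpow_one] at hxs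
  have hd0 := bud_gb_d_pos hX h
  obtain ⟨m1, m2, m3⟩ := bcp3_num_al_m h
  have e6 : F.x ^ (-6 : ℝ) = (F.x ^ 6)⁻¹ := by
    rw [Real.rpow_neg hx0.le]
    norm_cast
  rw [e6] at m1 m2
  have hz := hX.zeta_pos
  obtain ⟨z1, z2, z3, _⟩ := bd7w_exp hX
  have hz1 : F.x ^ 4 ≤ F.x ^ (4 - X.zeta) := by
    have := bd7w_x_rpow_anti h (show 4 - X.zeta ≤ 4 by linarith)
    calc F.x ^ 4 = F.x ^ (4 : ℝ) := by norm_cast
      _ ≤ _ := this
  have hz2 : F.x ^ (4 - X.zeta) ≤ 1 := Real.rpow_le_one hx0.le hx1 (by linarith)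
  have hd2 : 2 * F.x ^ 2 ≤ F.dPE X := by
    have a1 := bd7w_ut_ge hX h
    have a2 : F.x ≤ F.x ^ (1 - X.pS / 5) := by
      have := bd7w_x_rpow_anti h (show 1 - X.pS / 5 ≤ 1 by linarith [hX.pS_pos])
      rwa [Real.rpow_one] at this
    have a3 : X.cd * F.x ≤ X.CU * F.dPE X := by
      rw [bd7w_d_eq]
      calc X.cd * F.x ≤ X.cd * (X.CU * (F.u * F.Lam ^ (1 / 3 : ℝ))) := by gcongr; exact a2.trans a1
        _ = _ := by ring
    have a4 : 2 * X.CU * F.x ≤ X.cd := by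
      rw [le_div_iff₀ (by positivity)] at hxs
      linarith
    have a5 : X.CU * (2 * F.x ^ 2) ≤ X.CU * F.dPE X := by
      calc X.CU * (2 * F.x ^ 2) = (2 * X.CU * F.x) * F.x := by ring
        _ ≤ X.cd * F.x := by gcongr
        _ ≤ _ := a3
    exact le_of_mul_le_mul_left a5 hCU
  have hw : (F.m : ℝ) ^ (X.mPE / 10000) ≤ 3 * F.x⁻¹ := by
    have hm := hX.mPE_pos
    have b1 := bd7w_m_rpow_le h (e := X.mPE / 10000) (by positivity) (by linarith)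
    have b2 := bd7w_x_rpow_anti h (show (-1 : ℝ) ≤ -(6 * (X.mPE / 10000)) by linarith)
    rw [Real.rpow_neg_one] at b2
    linarith
  have key := bx0_M_arith hx0 hx1 m1 m2 hz1 hz2 hd0 hd1 hd2 (bd7w_call_a hX h) hw
  have hM : (F.call X).M 1 ≤ 60 * (F.x ^ 7)⁻¹ := key
  have e100 : F.x ^ (-(100 : ℝ)) = (F.x ^ 100)⁻¹ := by
    rw [Real.rpow_neg hx0.le]
    norm_cast
  have e93 : F.x ^ (93 : ℝ) = F.x ^ 93 := by norm_cast
  rw [e93] at hx93
  have c1 : 60 * (F.x ^ 7)⁻¹ ≤ (F.x ^ 100)⁻¹ := by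
    have : (F.x ^ 7)⁻¹ = F.x ^ 93 * (F.x ^ 100)⁻¹ := by field_simp
    rw [this]
    have hp : 0 < (F.x ^ 100)⁻¹ := by positivity
    nlinarith
  have c2 : (F.x ^ 100)⁻¹ ≤ F.Mj := by
    unfold BdFr.Mj
    rw [e100]
    exact le_mul_of_one_le_left (by positivity) (one_le_pow₀ (by norm_num))
  exact hM.trans (c1.trans c2)

/-- l.160: **"the initial choice `κ = 0`, `j = -1` contains the original PE class"** -/
theorem bx0_embed (hcE : 0 < cE) (hok : (F.call X).Ok cE D0) (hkap : F.kap = 0) (hM : (F.call X).M 1 ≤ F.Mj) (q : CmQ (F.call X)) :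
    ∃ Q : BdQ F X, Q.r = q.r := by
  have hk : ∀ t, F.kbar X t = (F.call X).k t := by
    intro t
    unfold BdFr.kbar BdFr.k
    rw [hkap]
    simp
  refine ⟨{ al := q.al, r := q.r, al_zero := q.al_min, al_one := q.al_one, lo := ?_, hi := ?_, r_mem := q.r_mem, al_r := q.al_r, r_al := q.r_al }, rfl⟩
  · intro r1 r2 h1 h12 h2
    simp only [hk]
    exact q.lo r1 r2 h1 h12 h2
  · intro r1 r2 h1 h12 h2
    exact (cm_q_al_lip hcE hok q h1 h12 h2).trans (mul_le_mul_of_nonneg_right hM (by linarith))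

/-- same objective -/
theorem bx0_obj (ha : (W.ps F.m).a = 1) (Q : BdQ F X) : Q.obj W g = (F.pe X g).obj (bcpFn W) F.C0 Q.r := by
  unfold BdQ.obj P6D.obj
  congr 1
  refine (W.ps F.m).f_congr _ _ _ _ ?_ ?_
  · intro v hv
    rw [ha] at hv
    rw [bx0_Pb _ _ hv.1.le, bd7w_cl_eq _ hv]
    rfl
  · intro v hv
    rw [ha] at hv
    rw [bx0_Ph _ _ hv.1.le, bd7w_cl_eq _ hv]
    rfl

/-- same bare pressure -/
theorem bx0_f0 (ha : (W.ps F.m).a = 1) : F.f0 W g = bcpFn W (F.pe X g).P.n (F.pe X g).b0 (F.pe X g).h0 := by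
  unfold BdFr.f0
  refine (W.ps F.m).f_congr _ _ _ _ ?_ ?_
  · intro v hv
    rw [ha] at hv
    exact (bd7w_cl_eq _ hv).symm
  · intro v hv
    rw [ha] at hv
    exact (bd7w_cl_eq _ hv).symm

/-- numerics: `m^{20δ} E ≤ 3 c_d x^{4-2ζ} u Λ^{1/3}`      (`m^{20δ} ≤ 3 x^{-120δ} ≤ 3 x^{-ζ}`) -/
theorem bx0_err_le (hX : X.Ok) (h : F.Ok X) : (F.call X).N ^ (20 * (F.call X).dl) * (F.call X).E ≤ 3 * X.cd * F.cost X := by
  obtain ⟨_, e2, _, _⟩ := bd7w_exp hX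
  have hx := BdFr.bds_x_pos h
  have hm := hX.mPE_pos
  have hz := hX.zeta_pos
  have hu := BdFr.u_pos' hX h
  have ht := bd7w_t_pos h
  have hcd := hX.cd_pos
  have h1 : (F.m : ℝ) ^ (20 * (X.mPE / 10000)) ≤ 3 * F.x ^ (-(6 * (20 * (X.mPE / 10000)))) :=
    bd7w_m_rpow_le h (by positivity) (by nlinarith [hX.zeta_le, hX.pS_le, hX.he_le])
  have h2 : F.x ^ (-(6 * (20 * (X.mPE / 10000)))) ≤ F.x ^ (-X.zeta) := bd7w_x_rpow_anti h (by linarith)
  have hE : (F.call X).E = F.x ^ (4 - X.zeta) * (X.cd * F.u * F.Lam ^ (1 / 3 : ℝ)) := rfl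
  have hN : (F.call X).N ^ (20 * (F.call X).dl) = (F.m : ℝ) ^ (20 * (X.mPE / 10000)) := rfl
  rw [hE, hN]
  have h3 : F.x ^ (-X.zeta) * F.x ^ (4 - X.zeta) = F.x ^ (4 - 2 * X.zeta) := by
    rw [← Real.rpow_add hx]; congr 1; ring
  have hpos : 0 ≤ F.x ^ (4 - X.zeta) * (X.cd * F.u * F.Lam ^ (1 / 3 : ℝ)) := by positivity
  calc (F.m : ℝ) ^ (20 * (X.mPE / 10000)) * (F.x ^ (4 - X.zeta) * (X.cd * F.u * F.Lam ^ (1 / 3 : ℝ)))
      ≤ 3 * F.x ^ (-X.zeta) * (F.x ^ (4 - X.zeta) * (X.cd * F.u * F.Lam ^ (1 / 3 : ℝ))) :=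
        mul_le_mul_of_nonneg_right (h1.trans (by linarith)) hpos
    _ = 3 * X.cd * ((F.x ^ (-X.zeta) * F.x ^ (4 - X.zeta)) * F.u * F.Lam ^ (1 / 3 : ℝ)) := by ring
    _ = 3 * X.cd * F.cost X := by rw [h3]; rfl

end fixed

section main

variable {X : BdFix} {W : BdWorld} {Fam : BdFr → Prop} {K : BdCst} {c : P6C} {β0 Kb cκ Cκ cT CT : ℝ}

/-- the excess along a sequence of frames with `κ = 0` -/
theorem bx0_seq_main (hK : BxK X c β0 Kb) (hS : BdStd X W Fam K) (hP : BcpPE W c cκ Cκ cT CT) (hB : Bd7WBase X Fam β0 Kb)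
    (h9 : Bd7P9 X Fam) {U : Ultrafilter ℕ} {F : ℕ → BdFr} {g : ℕ → ℝ} (h : BxSeq X Fam U F g) (hkap : ∀ᶠ k in U, (F k).kap = 0) :
    ∀ᶠ k in U, 0 ≤ (F k).exc X W (g k) ∧ (F k).exc X W (g k) ≤ 3 * X.cd * (F k).cost X := by
  have hX := hK.hX
  have hc := hK.ok
  have hseq := bx0_seq hK hB h9 h
  have hfam : ∀ᶠ k in U, ((F k).pe X (g k)).Ord ∧ ∀ l s, 0 ≤ l → l ≤ ((F k).pe X (g k)).P.d ^ 2 → ((F k).pe X (g k)).P.Fe s →
      P6Marg (((F k).pe X (g k)).Pb l s) 0 (β0 / 2) ∧ P6Bd (((F k).pe X (g k)).Pb l s) (((F k).pe X (g k)).Ph l s) (Kb + 1) := by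
    have hη : 0 < min (min (β0 / 2) 1) 1 := lt_min (lt_min (half_pos hK.β0_pos) one_pos) one_pos
    filter_upwards [bx0_base hB h, bx0_ev h (bd7w_call_ok hX hc.cE_pos hc.D0_pos), bx0_ev h (bd7w_d_small hX hη), h.fam] with k hb hok hd ho
    refine bx0_fam hc.cE_pos hok hb.1 hb.2.1 hb.2.2 hK.β0_pos ?_
    have hd0 := bud_gb_d_pos hX ho.2.1
    have a1 : (F k).dPE X ≤ 1 := hd.trans (min_le_right _ _)
    have a2 : (F k).dPE X ≤ min (β0 / 2) 1 := hd.trans (min_le_left _ _)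
    show ((F k).dPE X) ^ 2 ≤ _
    have a3 : ((F k).dPE X) ^ 2 ≤ (F k).dPE X := by nlinarith
    exact a3.trans a2
  have herr := hP.ext.error U (β0 / 2) (Kb + 1) (fun k => (F k).pe X (g k)) (fun _ => 0) (half_pos hK.β0_pos) (by linarith [hK.K_ge]) hseq
    (hfam.mono fun k hk => hk.1) (Eventually.of_forall fun k => ⟨le_rfl, le_rfl⟩)
    (hfam.mono fun k hk l s hl0 hl1 hs => hk.2 l s hl0.le hl1 hs)
  have hmin := hP.imp.exMin U (fun k => (F k).pe X (g k)) hseq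
  filter_upwards [herr, hmin, hfam, bx0_ev h (bd7w_call_lam hX), bx0_ev h (bd7w_call_ok hX hc.cE_pos hc.D0_pos), bx0_ev h (bx0_M_le hX),
    h.fam, hkap] with k herr hmin hfam hlam hok hM ho hkap
  obtain ⟨r, hr⟩ := hmin (F k).C0 hlam.1.le hlam.2 (hfam.1.2 _ hlam.1.le hlam.2)
  obtain ⟨q, hq⟩ := hr.1
  obtain ⟨Q, hQ⟩ := bx0_embed hc.cE_pos hok hkap hM q
  have ha := hS.a1 (F k).m
  have hg : g k ∈ Icc (X.glo 0) (X.ghi 0) := ho.2.2
  have e1 : Q.obj W (g k) = ((F k).pe X (g k)).obj (bcpFn W) (F k).C0 r := by rw [bx0_obj ha Q, hQ, hq]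
  have e2 := (herr (F k).C0 r hlam.1.le hlam.2 hr).2
  have e3 : ((F k).pe X (g k)).err (bcpFn W) (F k).C0 r = Q.obj W (g k) - (F k).f0 W (g k) := by
    unfold P6D.err
    rw [e1, bx0_f0 (X := X) ha]
  have e4 := bud_env_V_le hS ho.1 hg Q
  have e5 : (F k).f0 W (g k) ≤ (F k).V X W (g k) := by
    have : Nonempty (BdQ (F k) X) := ⟨Q⟩
    refine le_csInf (Set.range_nonempty _) ?_
    rintro _ ⟨Q', rfl⟩
    exact bud_env_f0_le_obj hS ho.1 hg Q'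
  have e6 := bx0_err_le hX ho.2.1
  have e2' : ((F k).pe X (g k)).err (bcpFn W) (F k).C0 r ≤ ((F k).call X).N ^ (20 * ((F k).call X).dl) * ((F k).call X).E := e2
  unfold BdFr.exc
  constructor <;> linarith

/-- **l.139-150: the optimised excess at the stage `-1`** -/
theorem bx0_main (hK : BxK X c β0 Kb) (hS : BdStd X W Fam K) (hP : BcpPE W c cκ Cκ cT CT) (hB : Bd7WBase X Fam β0 Kb)
    (h9 : Bd7P9 X Fam) : BudExc0 X W Fam := by
  have key : ∃ N0 : ℕ, ∀ i : BdFr × ℝ, (Fam i.1 ∧ i.1.AtStage X ∧ i.1.st = 0 ∧ i.2 ∈ Icc (X.glo 0) (X.ghi 0)) → N0 ≤ i.1.N →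
      (0 ≤ i.1.exc X W i.2 ∧ i.1.exc X W i.2 ≤ 3 * X.cd * i.1.cost X) := by
    refine bcp_unif_of_seq (N := fun i : BdFr × ℝ => i.1.N) fun i hi hN => ?_
    let U : Ultrafilter ℕ := Filter.hyperfilter ℕ
    have hU : (U : Filter ℕ) ≤ atTop := Nat.hyperfilter_le_atTop
    have hs : BxSeq X Fam U (fun k => (i k).1) (fun k => (i k).2) :=
      ⟨Eventually.of_forall fun k => ⟨(hi k).1, hS.ok _ (hi k).1, (hi k).2.2.2⟩, hN.mono_left hU⟩
    have hkap : ∀ᶠ k in U, (i k).1.kap = 0 := Eventually.of_forall fun k => by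
      have h1 := (hi k).2.1.1
      rw [(hi k).2.2.1] at h1
      exact h1
    exact (bx0_seq_main hK hS hP hB h9 hs hkap).exists
  obtain ⟨N0, hN0⟩ := key
  unfold BudExc0
  refine isBigO_iff.2 ⟨3 * X.cd, ?_⟩
  refine bd_ev_iff.2 ⟨N0, fun i hi hN => ?_⟩
  obtain ⟨h1, h2⟩ := hN0 i hi hN
  have hcd := hK.hX.cd_pos
  rw [Real.norm_eq_abs, Real.norm_eq_abs, abs_of_nonneg h1]
  exact h2.trans (mul_le_mul_of_nonneg_left (le_abs_self _) (by positivity))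

end main

end

end Claimed.Agent.R286
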