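import Mathlib

/-!
# Row 286, LL sec. 7, node N14 (free forks): integrals over an open subset of `ℝ`, component by component      (owner helper161; prefix `ffc_`; proofs helper238, 0 sorry)

Mathlib only.   EXIT: `ffc_open_integral_le`: if `∫_(a,b) f ≤ c (b - a)` on every component `(a,b)` of a bounded open set `U`, then `∫_U f ≤ c |U|`.
(Used for `U = {H < 0}`: the caps of a first-variation potential are the components; no enumeration of the caps is needed by the users.)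
-/

set_option autoImplicit false

namespace Claimed.Agent.R286

open MeasureTheory Set

/-- the component of a point of a bounded open set is an interval `(a,b) ⊆ U` with end points outside `U` -/
theorem ffc_component {U : Set ℝ} (hU : IsOpen U) {A B : ℝ} (hb : U ⊆ Ioo A B) {x : ℝ} (hx : x ∈ U) :
    ∃ a b, a < x ∧ x < b ∧ Ioo a b ⊆ U ∧ a ∉ U ∧ b ∉ U := by
  have hxAB := hb hx
  have hA : A ∉ U := fun h => lt_irrefl A (hb h).1
  have hB : B ∉ U := fun h => lt_irrefl B (hb h).2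
  have c1 : IsClosed (Uᶜ ∩ Iic x) := hU.isClosed_compl.inter isClosed_Iic
  have c2 : IsClosed (Uᶜ ∩ Ici x) := hU.isClosed_compl.inter isClosed_Ici
  have n1 : (Uᶜ ∩ Iic x).Nonempty := ⟨A, hA, hxAB.1.le⟩
  have n2 : (Uᶜ ∩ Ici x).Nonempty := ⟨B, hB, hxAB.2.le⟩
  have b1 : BddAbove (Uᶜ ∩ Iic x) := ⟨x, fun y hy => hy.2⟩
  have b2 : BddBelow (Uᶜ ∩ Ici x) := ⟨x, fun y hy => hy.2⟩
  have m1 := c1.csSup_mem n1 b1
  have m2 := c2.csInf_mem n2 b2
  refine ⟨sSup (Uᶜ ∩ Iic x), sInf (Uᶜ ∩ Ici x), ?_, ?_, ?_, m1.1, m2.1⟩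
  · exact lt_of_le_of_ne m1.2 fun h => m1.1 (by rw [h]; exact hx)
  · exact lt_of_le_of_ne m2.2 fun h => m2.1 (by rw [← h]; exact hx)
  · intro y hy
    by_contra hyU
    rcases le_total y x with h | h
    · exact absurd (le_csSup b1 ⟨hyU, h⟩) (not_le.2 hy.1)
    · exact absurd (csInf_le b2 ⟨hyU, h⟩) (not_le.2 hy.2)

/-- two components which meet are equal -/
theorem ffc_component_unique {U : Set ℝ} {a b a' b' z : ℝ} (h : Ioo a b ⊆ U) (h' : Ioo a' b' ⊆ U)
    (ha : a ∉ U) (hb : b ∉ U) (ha' : a' ∉ U) (hb' : b' ∉ U) (hz : z ∈ Ioo a b) (hz' : z ∈ Ioo a' b') :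
    a = a' ∧ b = b' := by
  constructor
  · rcases lt_trichotomy a a' with hlt | heq | hlt
    · exact absurd (h ⟨hlt, hz'.1.trans hz.2⟩) ha'
    · exact heq
    · exact absurd (h' ⟨hlt, hz.1.trans hz'.2⟩) ha
  · rcases lt_trichotomy b b' with hlt | heq | hlt
    · exact absurd (h' ⟨hz'.1.trans hz.2, hlt⟩) hb
    · exact heq
    · exact absurd (h ⟨hz.1.trans hz'.2, hlt⟩) hb'

/-- **integration component by component** -/
theorem ffc_open_integral_le {U : Set ℝ} (hU : IsOpen U) {A B : ℝ} (hb : U ⊆ Ioo A B) {f : ℝ → ℝ}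
    (hf : IntegrableOn f U) {c : ℝ}
    (h : ∀ a b, a < b → Ioo a b ⊆ U → a ∉ U → b ∉ U → ∫ x in Ioo a b, f x ≤ c * (b - a)) :
    ∫ x in U, f x ≤ c * (volume U).toReal := by
  set 𝒞 : Set (Set ℝ) := {I | ∃ a b, a < b ∧ Ioo a b ⊆ U ∧ a ∉ U ∧ b ∉ U ∧ I = Ioo a b} with h𝒞
  have hdisj : 𝒞.PairwiseDisjoint id := by
    rintro I ⟨a, b, hab, hs, ha, hb', rfl⟩ J ⟨a', b', hab', hs', ha', hb'', rfl⟩ hne
    rw [Function.onFun, id, id, Set.disjoint_left]
    intro z hz hz'
    obtain ⟨e1, e2⟩ := ffc_component_unique hs hs' ha hb' ha' hb'' hz hz'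
    exact hne (by rw [e1, e2])
  have hcount : 𝒞.Countable := by
    refine hdisj.countable_of_isOpen ?_ ?_
    · rintro I ⟨a, b, -, -, -, -, rfl⟩; exact isOpen_Ioo
    · rintro I ⟨a, b, hab, -, -, -, rfl⟩; exact nonempty_Ioo.2 hab
  have : Countable 𝒞 := hcount.to_subtype
  have hUeq : U = ⋃ i : 𝒞, (i : Set ℝ) := by
    ext x
    simp only [mem_iUnion, Subtype.exists, exists_prop]
    constructor
    · intro hx
      obtain ⟨a, b, hax, hxb, hs, ha, hb'⟩ := ffc_component hU hb hx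
      exact ⟨Ioo a b, ⟨a, b, hax.trans hxb, hs, ha, hb', rfl⟩, hax, hxb⟩
    · rintro ⟨I, ⟨a, b, -, hs, -, -, rfl⟩, hx⟩
      exact hs hx
  have hUfin : volume U ≠ ⊤ := ((measure_mono hb).trans_lt measure_Ioo_lt_top).ne
  have hci : IntegrableOn (fun _ : ℝ => c) U := integrableOn_const hUfin
  have hgi : IntegrableOn (fun x => f x - c) U := hf.sub hci
  have hsum := hasSum_integral_iUnion (μ := volume) (f := fun x => f x - c) (s := fun i : 𝒞 => (i : Set ℝ))
    (fun i => by obtain ⟨I, a, b, -, -, -, -, rfl⟩ := i; exact measurableSet_Ioo)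
    (fun i j hij => hdisj i.2 j.2 (fun e => hij (Subtype.ext e))) (by rw [← hUeq]; exact hgi)
  rw [← hUeq] at hsum
  have hle : ∫ x in U, (f x - c) ≤ 0 := by
    refine hsum.nonpos fun i => ?_
    obtain ⟨I, a, b, hab, hs, ha, hb', rfl⟩ := i
    have h1 := h a b hab hs ha hb'
    simp only
    rw [integral_sub (hf.mono_set hs) (hci.mono_set hs), setIntegral_const]
    simp only [Measure.real, Real.volume_Ioo, smul_eq_mul]
    rw [ENNReal.toReal_ofReal (sub_pos.2 hab).le]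
    linarith
  rw [integral_sub hf hci, setIntegral_const, smul_eq_mul] at hle
  simp only [Measure.real] at hle
  linarith

end Claimed.Agent.R286
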