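import Claimed.Agent.R286.Cmp.P6Abs
import Claimed.Agent.R286.Bud.FfComp

/-!
# Row 286, LL sec. 7, node N14 = Lemma bud:free-forks (C16): THE INNER DYADS, NON-ASYMPTOTIC, MASS COORDINATE      (owner helper161; prefix `ff_`, types `Ff*`)

TEX[LL:bud:free-forks] l.1611-1640 ("contact and comparable-endpoint caps in inner dyads", "noncomparable-endpoint caps", "the additional broad-cap cost").
Deterministic real analysis over NUMBERS (`CmNum` of 294, `Cmp/P6Defs.lean`).   The ONLY model input is `CmNum.Ok` (through `cm_br1`, the one-unit bracket of `Cmp/P6Abs.lean`).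

SIMPLIFICATION OF THE PAPER (checked by 161; all constants explicit).   In the region where the removal is constant (`p = 0`) every nonfloor point has `|S - r| ≤ δ` (`δ = 2/M_j`), so height bins = RADIUS bins.
 * a BLOCK = the nonfloor masses between two non-cap points `u1 < u2` (`H ≥ 0` at both): it consists of complete units, so `∫_block E tr H² ≤ T |block|`, `T = 1/(m C_0)` (`ff_trace`: caps = components of `{H<0}`, `ffc_open_integral_le`; contact: a.e.).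
 * on a block of radius width `≤ s` use the UNORDERED comparison `cm_br1` (no kernels, no unit labels), with the SIXTH moment only: `E|X_i-X_j|⁴ ≤ |S_i-S_j|^{1/2} (2 C_3 √y_0)³`   (`q4_int` at `q = 3`).
 * `ff_mid`: induction on the number of radius bins: `∫ D² ≤ K [ |.| (η² + q4(η)) + T|.|/v² + (k+1) T/v ]`.
 * the (at most two) caps which cross the end points of the dyad `[v,2v]`: `ff_piece`, `cm_br1` on the window `cap ∩ (v/2,4v)`; the window is the whole cap or has length `≥ v/2`:  cost `T/v + T μ/v²`, `μ` = mass of the cap.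
   No classification comparable / noncomparable, no counting of broad caps.
 * `ff_dyad_fin`: with `P³ y_0² ≥ T V_1` (`V_1 ≥` upper masses of the caps) and the bin width `s = P² y_0/v²`:  `∫_{[v,2v], nonfloor} D² ≤ K P (y_0² + R²)`   (raw bound if `v < P`).
   For LL: `y_0, V_1, R ≍ u y_c`, `T ≍ u⁴A³`, `P ≍ u A y_c^{-1/3}`:  `u³ A y_c^{5/3}` PER DYAD; there are `O(log N)` dyads; `A^{3/2} y_c ≤ A y_c^{5/3}` because `y_c ≥ √A`.
-/

set_option autoImplicit false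

namespace Claimed.Agent.R286

open MeasureTheory Set

noncomputable section

/-- **the context of the inner dyads**, in the MASS coordinate `u ∈ [0,V0]` (= the masses whose radius lies in the constant part of the removal, below the extra floor, with room for one cap) -/
structure FfM where
  /-- the numbers of the changed path -/
  Xn : CmNum
  /-- the first-variation potential as a function of the mass, `Hm u = 𝓗(r(u))` -/
  Hm : ℝ → ℝ
  /-- the quantile `r(u)` -/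
  rq : ℝ → ℝ
  V0 : ℝ
  /-- the unit trace bound `1/(m C_0)` -/
  T : ℝ
  /-- `2/M_j` -/
  dl : ℝ
  /-- the floor mass below `V0` -/
  Fl : ℝ

namespace FfM

variable (c : FfM)

/-- what the inner dyads use.   SUPPLIER: `Bud/FfBr.lean` (from `BudGeo.Ok`, `BudGeo.Flat`, the clock inequality `dS ≥ m C_0 E tr H² dr`) -/
structure Ok : Prop where
  num : c.Xn.Ok
  V0_pos : 0 < c.V0
  V0_le : c.V0 ≤ 1
  T_nn : 0 ≤ c.T
  dl_nn : 0 ≤ c.dl
  Fl_nn : 0 ≤ c.Fl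
  Hc : ContinuousOn c.Hm (Icc 0 c.V0)
  rq_mono : MonotoneOn c.rq (Icc 0 c.V0)
  rq_cont : ContinuousOn c.rq (Icc 0 c.V0)
  /-- nonfloor points: `|S - r| ≤ δ` -/
  nf : ∀ u ∈ Ioc 0 c.V0, c.Hm u ≤ 0 → |c.Xn.S u - c.rq u| ≤ c.dl
  /-- radius width of a cap -/
  capw : ∀ a b, 0 ≤ a → a ≤ b → b ≤ c.V0 → (∀ u ∈ Ioo a b, c.Hm u < 0) → c.rq b - c.rq a ≤ c.dl
  /-- (20) on a complete cap -/
  capT : ∀ a b, 0 ≤ a → a < b → b ≤ c.V0 → (∀ u ∈ Ioo a b, c.Hm u < 0) → (c.Hm a = 0 ∨ a = 0) → c.Hm b = 0 →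
    ∫ u in Ioo a b, c.Xn.TH u ≤ c.T * (b - a)
  /-- (20) on contact -/
  ctT : ∀ᵐ u ∂(volume : Measure ℝ), u ∈ Icc 0 c.V0 → c.Hm u = 0 → c.Xn.TH u ≤ c.T
  /-- floor mass -/
  fl : volume {u | u ∈ Icc 0 c.V0 ∧ 0 < c.Hm u} ≤ ENNReal.ofReal c.Fl

/-- the nonfloor masses of `(u1,u2]` -/
def nfS (u1 u2 : ℝ) : Set ℝ := {u | u ∈ Ioc u1 u2 ∧ c.Hm u ≤ 0}

end FfM

/-- the interpolation bound of `E|X_i-X_j|⁴` with the sixth moment: `|S_i-S_j| ≤ η`, `‖X‖_6 ≤ Cq √y0` -/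
def ffQ4 (η Cq y0 : ℝ) : ℝ := Real.sqrt η * (2 * Cq * Real.sqrt y0) ^ 3

/-- the bound of `ff_mid` on a dyad -/
def ffMidB (T v η q4 : ℝ) (k : ℕ) : ℝ := 200000 * (v * (η ^ 2 + q4) + ((k : ℝ) + 2) * T / v)

/-- the bound of `ff_piece` -/
def ffPieceB (T v η q4 μ : ℝ) : ℝ := 200000 * (4 * v * (η ^ 2 + q4) + 18 * T / v + 8 * T * μ / v ^ 2)

theorem ff_abs_eqns_cite : True := by
  have := @FfM.nfS.eq_1; have := @ffQ4.eq_1; have := @ffMidB.eq_1; have := @ffPieceB.eq_1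
  trivial

variable {c : FfM}

/-! ## 1. first / last non-cap point -/

/-- the first point `≥ m` with `H ≥ 0` -/
theorem ff_nx (h : c.Ok) {m e : ℝ} (hm : 0 ≤ m) (hme : m ≤ e) (he : e ≤ c.V0) (hHe : 0 ≤ c.Hm e) :
    ∃ b ∈ Icc m e, 0 ≤ c.Hm b ∧ (∀ u ∈ Ico m b, c.Hm u < 0) ∧ (m < b → c.Hm b = 0) := by
  have hsub : Icc m e ⊆ Icc 0 c.V0 := Icc_subset_Icc hm he
  have hcl : IsClosed (Icc m e ∩ c.Hm ⁻¹' Ici 0) :=
    (h.Hc.mono hsub).preimage_isClosed_of_isClosed isClosed_Icc isClosed_Ici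
  have hcp : IsCompact (Icc m e ∩ c.Hm ⁻¹' Ici 0) := isCompact_Icc.of_isClosed_subset hcl inter_subset_left
  obtain ⟨b, hb, hbl⟩ := hcp.exists_isLeast ⟨e, ⟨hme, le_rfl⟩, hHe⟩
  have hneg : ∀ u ∈ Ico m b, c.Hm u < 0 := by
    intro u hu
    by_contra hcon
    have : b ≤ u := hbl ⟨⟨hu.1, hu.2.le.trans hb.1.2⟩, not_lt.1 hcon⟩
    exact absurd hu.2 (not_lt.2 this)
  refine ⟨b, hb.1, hb.2, hneg, fun hmb => le_antisymm ?_ hb.2⟩
  have hx : b ∈ closure (Ico m b) := by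
    rw [closure_Ico hmb.ne]
    exact ⟨hmb.le, le_rfl⟩
  have hc : ContinuousWithinAt c.Hm (Ico m b) b :=
    (h.Hc b (hsub hb.1)).mono (fun u hu => hsub ⟨hu.1, hu.2.le.trans hb.1.2⟩)
  exact hc.closure_le hx continuousWithinAt_const (fun u hu => (hneg u hu).le)

/-- the last point `≤ m` with `H ≥ 0` (or `0`) -/
theorem ff_pv (h : c.Ok) {m : ℝ} (hm : 0 ≤ m) (hmV : m ≤ c.V0) :
    ∃ a ∈ Icc 0 m, (0 ≤ c.Hm a ∨ a = 0) ∧ (∀ u ∈ Ioc a m, c.Hm u < 0) ∧ (a < m → c.Hm a = 0 ∨ a = 0) := by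
  have hsub : Icc 0 m ⊆ Icc 0 c.V0 := Icc_subset_Icc le_rfl hmV
  have hcl : IsClosed (Icc 0 m ∩ c.Hm ⁻¹' Ici 0) :=
    (h.Hc.mono hsub).preimage_isClosed_of_isClosed isClosed_Icc isClosed_Ici
  have hcp : IsCompact (Icc 0 m ∩ c.Hm ⁻¹' Ici 0) := isCompact_Icc.of_isClosed_subset hcl inter_subset_left
  rcases (Icc 0 m ∩ c.Hm ⁻¹' Ici 0).eq_empty_or_nonempty with hE | hne
  · refine ⟨0, ⟨le_rfl, hm⟩, Or.inr rfl, ?_, fun _ => Or.inr rfl⟩
    intro u hu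
    by_contra hcon
    have : u ∈ Icc 0 m ∩ c.Hm ⁻¹' Ici 0 := ⟨⟨hu.1.le, hu.2⟩, not_lt.1 hcon⟩
    rw [hE] at this
    exact this
  · obtain ⟨a, ha, hag⟩ := hcp.exists_isGreatest hne
    have hneg : ∀ u ∈ Ioc a m, c.Hm u < 0 := by
      intro u hu
      by_contra hcon
      have : u ≤ a := hag ⟨⟨ha.1.1.trans hu.1.le, hu.2⟩, not_lt.1 hcon⟩
      exact absurd hu.1 (not_lt.2 this)
    refine ⟨a, ha.1, Or.inl ha.2, hneg, fun ham => Or.inl (le_antisymm ?_ ha.2)⟩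
    have hx : a ∈ closure (Ioc a m) := by
      rw [closure_Ioc ham.ne]
      exact ⟨le_rfl, ham.le⟩
    have hc : ContinuousWithinAt c.Hm (Ioc a m) a :=
      (h.Hc a (hsub ha.1)).mono (fun u hu => hsub ⟨ha.1.1.trans hu.1.le, hu.2⟩)
    exact hc.closure_le hx continuousWithinAt_const (fun u hu => (hneg u hu).le)

theorem ff_nfS_meas (h : c.Ok) {u1 u2 : ℝ} (h1 : 0 ≤ u1) (h2 : u2 ≤ c.V0) : MeasurableSet (c.nfS u1 u2) := by
  have hcl : IsClosed (Icc 0 c.V0 ∩ c.Hm ⁻¹' Iic 0) := h.Hc.preimage_isClosed_of_isClosed isClosed_Icc isClosed_Iic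
  have e : c.nfS u1 u2 = Ioc u1 u2 ∩ (Icc 0 c.V0 ∩ c.Hm ⁻¹' Iic 0) := by
    ext u
    constructor
    · rintro ⟨hu, hH⟩
      exact ⟨hu, ⟨h1.trans hu.1.le, hu.2.trans h2⟩, hH⟩
    · rintro ⟨hu, _, hH⟩
      exact ⟨hu, hH⟩
  rw [e]
  exact measurableSet_Ioc.inter hcl.measurableSet

/-! ## 2. traces on blocks, the one-unit bracket -/

/-- (helper82) bounded measurable functions are integrable on subsets of `[0,1]` -/
theorem ff_aux_int {F : ℝ → ℝ} (hF : Measurable F) {C : ℝ} (hC : ∀ u ∈ Icc (0 : ℝ) 1, |F u| ≤ C) {E : Set ℝ}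
    (hE : E ⊆ Icc 0 1) : IntegrableOn F E := by
  have h1 : IntegrableOn F (Icc 0 1) := by
    apply Measure.integrableOn_of_bounded (M := C) (by simp) hF.aestronglyMeasurable
    rw [ae_restrict_iff' measurableSet_Icc]
    exact Filter.Eventually.of_forall fun u hu => by simpa using hC u hu
  exact h1.mono_set hE

theorem ff_aux_TH (X : CmNum) (hX : X.Ok) {E : Set ℝ} (hE : E ⊆ Icc 0 1) : IntegrableOn X.TH E :=
  ff_aux_int hX.TH_meas (C := 1) (fun u hu => by rw [abs_of_nonneg (hX.TH_nn u hu)]; exact hX.TH_le u hu) hE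

theorem ff_aux_D2 (X : CmNum) (hX : X.Ok) {E : Set ℝ} (hE : E ⊆ Icc 0 1) : IntegrableOn (fun u => X.D u ^ 2) E :=
  ff_aux_int (hX.D_meas.pow_const 2) (C := 1) (fun u hu => by
    rw [abs_of_nonneg (sq_nonneg _)]
    exact pow_le_one₀ (hX.D_nn u hu) (hX.D_le u hu)) hE

/-- **(20) on a block**: between two non-cap points the nonfloor set consists of complete units -/
theorem ff_trace (h : c.Ok) {u1 u2 : ℝ} (h1 : 0 ≤ u1) (h12 : u1 ≤ u2) (h2 : u2 ≤ c.V0)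
    (hH1 : 0 ≤ c.Hm u1) (hH2 : 0 ≤ c.Hm u2) :
    ∫ u in c.nfS u1 u2, c.Xn.TH u ≤ c.T * (volume (c.nfS u1 u2)).toReal := by
  have hX := h.num
  have hV1 := h.V0_le
  set U : Set ℝ := Ioo u1 u2 ∩ c.Hm ⁻¹' Iio 0 with hUdef
  set Z : Set ℝ := Ioc u1 u2 ∩ (Icc 0 c.V0 ∩ c.Hm ⁻¹' {0}) with hZdef
  have hsub : Ioo u1 u2 ⊆ Icc 0 c.V0 := fun u hu => ⟨h1.trans hu.1.le, hu.2.le.trans h2⟩
  have hUo : IsOpen U := (h.Hc.mono hsub).isOpen_inter_preimage isOpen_Ioo isOpen_Iio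
  have hZm : MeasurableSet Z :=
    measurableSet_Ioc.inter (h.Hc.preimage_isClosed_of_isClosed isClosed_Icc isClosed_singleton).measurableSet
  have hUZ : c.nfS u1 u2 = U ∪ Z := by
    ext u
    constructor
    · rintro ⟨hu, hH⟩
      rcases hH.lt_or_eq with hlt | heq
      · left
        refine ⟨⟨hu.1, lt_of_le_of_ne hu.2 ?_⟩, hlt⟩
        rintro rfl
        exact absurd hlt (not_lt.2 hH2)
      · right
        exact ⟨hu, ⟨h1.trans hu.1.le, hu.2.trans h2⟩, heq⟩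
    · rintro (⟨hu, hH⟩ | ⟨hu, _, hH⟩)
      · exact ⟨⟨hu.1, hu.2.le⟩, le_of_lt hH⟩
      · exact ⟨hu, le_of_eq hH⟩
  have hdisj : Disjoint U Z := by
    rw [Set.disjoint_left]
    rintro u ⟨_, hH⟩ ⟨_, _, hH0⟩
    have e0 : c.Hm u = 0 := hH0
    have e1 : c.Hm u < 0 := hH
    linarith
  have hU01 : U ⊆ Icc 0 1 := fun u hu => ⟨(hsub hu.1).1, (hsub hu.1).2.trans hV1⟩
  have hZ01 : Z ⊆ Icc 0 1 := fun u hu => ⟨hu.2.1.1, hu.2.1.2.trans hV1⟩
  have hUfin : volume U ≠ ⊤ := ne_top_of_le_ne_top (by simp) (measure_mono hU01)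
  have hZfin : volume Z ≠ ⊤ := ne_top_of_le_ne_top (by simp) (measure_mono hZ01)
  have iU : ∫ u in U, c.Xn.TH u ≤ c.T * (volume U).toReal := by
    apply ffc_open_integral_le hUo (A := u1) (B := u2) inter_subset_left (ff_aux_TH _ hX hU01)
    intro a b hab hsubU haU hbU
    have ha1 : u1 ≤ a := by
      by_contra hcon
      rw [not_le] at hcon
      have hmn := lt_min hab hcon
      have hx : (a + min b u1) / 2 ∈ Ioo a b := ⟨by linarith, by have := min_le_left b u1; linarith⟩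
      have q1 := (hsubU hx).1.1
      have q2 := min_le_right b u1
      linarith
    have hb2 : b ≤ u2 := by
      by_contra hcon
      rw [not_le] at hcon
      have hmx := max_lt hab hcon
      have hx : (max a u2 + b) / 2 ∈ Ioo a b := ⟨by have := le_max_left a u2; linarith, by linarith⟩
      have q1 := (hsubU hx).1.2
      have q2 := le_max_right a u2
      linarith
    have hneg : ∀ u ∈ Ioo a b, c.Hm u < 0 := fun u hu => (hsubU hu).2
    have hab01 : Icc a b ⊆ Icc 0 c.V0 := Icc_subset_Icc (h1.trans ha1) (hb2.trans h2)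
    have hHa_le : c.Hm a ≤ 0 := by
      have hx : a ∈ closure (Ioo a b) := by
        rw [closure_Ioo hab.ne]
        exact ⟨le_rfl, hab.le⟩
      exact ((h.Hc a (hab01 ⟨le_rfl, hab.le⟩)).mono (fun u hu => hab01 ⟨hu.1.le, hu.2.le⟩)).closure_le hx
        continuousWithinAt_const (fun u hu => (hneg u hu).le)
    have hHb_le : c.Hm b ≤ 0 := by
      have hx : b ∈ closure (Ioo a b) := by
        rw [closure_Ioo hab.ne]
        exact ⟨hab.le, le_rfl⟩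
      exact ((h.Hc b (hab01 ⟨hab.le, le_rfl⟩)).mono (fun u hu => hab01 ⟨hu.1.le, hu.2.le⟩)).closure_le hx
        continuousWithinAt_const (fun u hu => (hneg u hu).le)
    have hHa_ge : 0 ≤ c.Hm a := by
      rcases ha1.eq_or_lt with rfl | hlt
      · exact hH1
      · by_contra hcon
        exact haU ⟨⟨hlt, hab.trans_le hb2⟩, not_le.1 hcon⟩
    have hHb_ge : 0 ≤ c.Hm b := by
      rcases hb2.eq_or_lt with rfl | hlt
      · exact hH2
      · by_contra hcon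
        exact hbU ⟨⟨ha1.trans_lt hab, hlt⟩, not_le.1 hcon⟩
    exact h.capT a b (h1.trans ha1) hab (hb2.trans h2) hneg (Or.inl (le_antisymm hHa_le hHa_ge))
      (le_antisymm hHb_le hHb_ge)
  have iZ : ∫ u in Z, c.Xn.TH u ≤ c.T * (volume Z).toReal := by
    have q : ∫ u in Z, c.Xn.TH u ≤ ∫ _ in Z, c.T := by
      apply setIntegral_mono_on_ae (ff_aux_TH _ hX hZ01) (integrableOn_const hZfin) hZm
      filter_upwards [h.ctT] with u hu huZ
      exact hu huZ.2.1 huZ.2.2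
    rw [setIntegral_const] at q
    simpa [Measure.real, mul_comm] using q
  rw [hUZ, setIntegral_union hdisj hZm (ff_aux_TH _ hX hU01) (ff_aux_TH _ hX hZ01), measure_union hdisj hZm,
    ENNReal.toReal_add hUfin hZfin, mul_add]
  linarith

/-- `q4_int` at `q = 3` -/
theorem ff_q4 (X : CmNum) (hX : X.Ok) {i j η Cq y0 : ℝ} (hi : i ∈ Icc (0 : ℝ) 1) (hj : j ∈ Icc (0 : ℝ) 1)
    (hS : |X.S j - X.S i| ≤ η) (hNi : X.NX 3 i ≤ Cq * Real.sqrt y0) (hNj : X.NX 3 j ≤ Cq * Real.sqrt y0) :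
    X.Q4 i j ≤ ffQ4 η Cq y0 := by
  have h := hX.q4_int 3 le_rfl i hi j hj
  have e1 : (1 - 1 / (((3 : ℕ) : ℝ) - 1)) = 1 / 2 := by norm_num
  have e2 : (2 * ((3 : ℕ) : ℝ) / (((3 : ℕ) : ℝ) - 1)) = ((3 : ℕ) : ℝ) := by norm_num
  rw [e1, e2, Real.rpow_natCast, ← Real.sqrt_eq_rpow] at h
  have n1 := hX.NX_nn 3 i hi
  have n2 := hX.NX_nn 3 j hj
  refine h.trans ?_
  unfold ffQ4
  apply mul_le_mul (Real.sqrt_le_sqrt hS) _ (by positivity) (Real.sqrt_nonneg _)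
  exact pow_le_pow_left₀ (by linarith) (by linarith) 3

/-- **one unit**: `cm_br1` with `ϖ = 1`, `tc_th`, `tw_th`, on a set of masses `≥ a0` -/
theorem ff_unit (X : CmNum) (hX : X.Ok) {E : Set ℝ} (hE : MeasurableSet E) {a0 η Cq y0 τ : ℝ}
    (ha0 : 0 < a0) (hsub : E ⊆ Icc a0 1) (hη : 0 ≤ η) (hpos : 0 < (volume E).toReal)
    (hS : ∀ i ∈ E, ∀ j ∈ E, |X.S j - X.S i| ≤ η) (hNX : ∀ u ∈ E, X.NX 3 u ≤ Cq * Real.sqrt y0)
    (hτ : ∫ u in E, X.TH u ≤ τ) :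
    ∫ u in E, X.D u ^ 2 ≤ 200000 * ((volume E).toReal * (η ^ 2 + ffQ4 η Cq y0) + τ / a0 ^ 2 + τ / (a0 * (volume E).toReal)) := by
  have hE01 : E ⊆ Icc 0 1 := fun u hu => ⟨ha0.le.trans (hsub hu).1, (hsub hu).2⟩
  have hne : E.Nonempty := by
    by_contra hcon
    rw [not_nonempty_iff_eq_empty] at hcon
    simp [hcon] at hpos
  obtain ⟨u0, hu0⟩ := hne
  have hCy : 0 ≤ Cq * Real.sqrt y0 := (hX.NX_nn 3 u0 (hE01 hu0)).trans (hNX u0 hu0)
  have hq4 : 0 ≤ ffQ4 η Cq y0 := by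
    unfold ffQ4
    have : 0 ≤ 2 * Cq * Real.sqrt y0 := by linarith
    positivity
  have hone : ∫ _ in E, (1 : ℝ) = (volume E).toReal := by
    rw [setIntegral_const]
    simp [Measure.real]
  have key := cm_br1 X hX E hE hE01 (fun _ => 1) measurable_const (fun _ => zero_le_one) ⟨1, fun _ => le_rfl⟩
    (by rw [hone]; exact hpos) η (ffQ4 η Cq y0) hη hq4 hS
    (fun i hi j hj => ff_q4 X hX (hE01 hi) (hE01 hj) (hS i hi j hj) (hNX i hi) (hNX j hj))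
  simp only [one_mul, one_pow] at key
  rw [hone] at key
  have iTH := ff_aux_TH X hX hE01
  have iTC : IntegrableOn X.TC E :=
    ff_aux_int hX.TC_meas (C := 1) (fun u hu => by rw [abs_of_nonneg (hX.TC_nn u hu)]; exact hX.TC_le u hu) hE01
  have iTW : IntegrableOn X.TW E :=
    ff_aux_int hX.TW_meas (C := 1) (fun u hu => by rw [abs_of_nonneg (hX.TW_nn u hu)]; exact hX.TW_le u hu) hE01
  have hTC : ∫ u in E, X.TC u ≤ τ / a0 ^ 2 := by
    have q : ∫ u in E, X.TC u ≤ ∫ u in E, X.TH u / a0 ^ 2 := by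
      apply setIntegral_mono_on iTC (iTH.div_const _) hE
      intro u hu
      rw [le_div_iff₀ (by positivity)]
      have q1 := hX.tc_th u (hE01 hu)
      have q2 : a0 ^ 2 ≤ u ^ 2 := pow_le_pow_left₀ ha0.le (hsub hu).1 2
      have q3 := hX.TC_nn u (hE01 hu)
      nlinarith
    rw [integral_div] at q
    exact q.trans (div_le_div_of_nonneg_right hτ (by positivity))
  have hTW : ∫ u in E, X.TW u ≤ τ / a0 := by
    have q : ∫ u in E, X.TW u ≤ ∫ u in E, X.TH u / a0 := by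
      apply setIntegral_mono_on iTW (iTH.div_const _) hE
      intro u hu
      rw [le_div_iff₀ ha0]
      have q1 := hX.tw_th u (hE01 hu)
      have q2 := (hsub hu).1
      have q3 := hX.TW_nn u (hE01 hu)
      nlinarith
    rw [integral_div] at q
    exact q.trans (div_le_div_of_nonneg_right hτ ha0.le)
  have hTW' : (∫ u in E, X.TW u) / (volume E).toReal ≤ τ / (a0 * (volume E).toReal) := by
    rw [← div_div]
    exact div_le_div_of_nonneg_right hTW hpos.le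
  refine key.trans ?_
  linarith

/-- **one block** of radius width `≤ η - 2δ` -/
theorem ff_block (h : c.Ok) {u1 u2 a0 η Cq y0 : ℝ} (ha0 : 0 < a0) (ha : a0 ≤ u1) (h12 : u1 ≤ u2) (h2 : u2 ≤ c.V0)
    (hH1 : 0 ≤ c.Hm u1) (hH2 : 0 ≤ c.Hm u2) (hw : c.rq u2 - c.rq u1 + 2 * c.dl ≤ η)
    (hNX : ∀ u ∈ Icc u1 u2, c.Xn.NX 3 u ≤ Cq * Real.sqrt y0) (hCq : 0 ≤ Cq) :
    ∫ u in c.nfS u1 u2, c.Xn.D u ^ 2 ≤ 200000 * ((u2 - u1) * (η ^ 2 + ffQ4 η Cq y0) + c.T * (u2 - u1) / a0 ^ 2 + c.T / a0) := by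
  have h1 : 0 ≤ u1 := ha0.le.trans ha
  have hm := ff_nfS_meas h h1 h2
  have hT := h.T_nn
  have hdl := h.dl_nn
  have hV1 := h.V0_le
  have hQ : 0 ≤ ffQ4 η Cq y0 := by
    unfold ffQ4
    positivity
  have hle : volume (c.nfS u1 u2) ≤ ENNReal.ofReal (u2 - u1) := by
    rw [← Real.volume_Ioc]
    exact measure_mono (fun u hu => hu.1)
  have hvol_le : (volume (c.nfS u1 u2)).toReal ≤ u2 - u1 := ENNReal.toReal_le_of_le_ofReal (by linarith) hle
  have hmono : ∀ i ∈ Icc u1 u2, ∀ j ∈ Icc u1 u2, c.rq j - c.rq i ≤ c.rq u2 - c.rq u1 := by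
    intro i hi j hj
    have q1 := h.rq_mono ⟨h1, h12.trans h2⟩ ⟨h1.trans hi.1, hi.2.trans h2⟩ hi.1
    have q2 := h.rq_mono ⟨h1.trans hj.1, hj.2.trans h2⟩ ⟨h1.trans h12, h2⟩ hj.2
    linarith
  have hη : 0 ≤ η := by
    have := hmono u1 ⟨le_rfl, h12⟩ u1 ⟨le_rfl, h12⟩
    linarith
  rcases (ENNReal.toReal_nonneg (a := volume (c.nfS u1 u2))).eq_or_lt with h0 | hpos
  · have hz : volume (c.nfS u1 u2) = 0 := by
      rcases (ENNReal.toReal_eq_zero_iff _).1 h0.symm with hz | hz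
      · exact hz
      · rw [hz] at hle
        exact absurd hle (by simp)
    rw [setIntegral_measure_zero _ hz]
    have : 0 ≤ u2 - u1 := by linarith
    positivity
  · have hS : ∀ i ∈ c.nfS u1 u2, ∀ j ∈ c.nfS u1 u2, |c.Xn.S j - c.Xn.S i| ≤ η := by
      intro i hi j hj
      have ni := abs_le.1 (h.nf i ⟨lt_of_le_of_lt h1 hi.1.1, hi.1.2.trans h2⟩ hi.2)
      have nj := abs_le.1 (h.nf j ⟨lt_of_le_of_lt h1 hj.1.1, hj.1.2.trans h2⟩ hj.2)
      have m1 := hmono i ⟨hi.1.1.le, hi.1.2⟩ j ⟨hj.1.1.le, hj.1.2⟩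
      have m2 := hmono j ⟨hj.1.1.le, hj.1.2⟩ i ⟨hi.1.1.le, hi.1.2⟩
      rw [abs_le]
      constructor <;> linarith [ni.1, ni.2, nj.1, nj.2]
    have key := ff_unit c.Xn h.num hm ha0 (fun u hu => ⟨ha.trans hu.1.1.le, (hu.1.2.trans h2).trans hV1⟩) hη hpos hS
      (fun u hu => hNX u ⟨hu.1.1.le, hu.1.2⟩) (ff_trace h h1 h12 h2 hH1 hH2)
    refine key.trans ?_
    have e1 : c.T * (volume (c.nfS u1 u2)).toReal / (a0 * (volume (c.nfS u1 u2)).toReal) = c.T / a0 := by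
      field_simp
    have e2 : (volume (c.nfS u1 u2)).toReal * (η ^ 2 + ffQ4 η Cq y0) ≤ (u2 - u1) * (η ^ 2 + ffQ4 η Cq y0) :=
      mul_le_mul_of_nonneg_right hvol_le (by positivity)
    have e3 : c.T * (volume (c.nfS u1 u2)).toReal / a0 ^ 2 ≤ c.T * (u2 - u1) / a0 ^ 2 :=
      div_le_div_of_nonneg_right (mul_le_mul_of_nonneg_left hvol_le hT) (by positivity)
    rw [e1]
    linarith

/-- (helper82) additivity of the nonfloor integral -/
theorem ff_aux_split (h : c.Ok) {u1 b u2 : ℝ} (h1 : 0 ≤ u1) (h1b : u1 ≤ b) (hb2 : b ≤ u2) (h2 : u2 ≤ c.V0) :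
    ∫ u in c.nfS u1 u2, c.Xn.D u ^ 2 = (∫ u in c.nfS u1 b, c.Xn.D u ^ 2) + ∫ u in c.nfS b u2, c.Xn.D u ^ 2 := by
  have hV1 := h.V0_le
  have e : c.nfS u1 u2 = c.nfS u1 b ∪ c.nfS b u2 := by
    ext u
    constructor
    · rintro ⟨hu, hH⟩
      rcases le_or_gt u b with hub | hub
      · exact Or.inl ⟨⟨hu.1, hub⟩, hH⟩
      · exact Or.inr ⟨⟨hub, hu.2⟩, hH⟩
    · rintro (⟨hu, hH⟩ | ⟨hu, hH⟩)
      · exact ⟨⟨hu.1, hu.2.trans hb2⟩, hH⟩
      · exact ⟨⟨h1b.trans_lt hu.1, hu.2⟩, hH⟩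
  have hd : Disjoint (c.nfS u1 b) (c.nfS b u2) := by
    rw [Set.disjoint_left]
    rintro u ⟨hu, _⟩ ⟨hu', _⟩
    exact absurd hu.2 (not_le.2 hu'.1)
  rw [e, setIntegral_union hd (ff_nfS_meas h (h1.trans h1b) h2)
    (ff_aux_D2 _ h.num (fun u hu => ⟨h1.trans hu.1.1.le, ((hu.1.2.trans hb2).trans h2).trans hV1⟩))
    (ff_aux_D2 _ h.num (fun u hu => ⟨(h1.trans h1b).trans hu.1.1.le, (hu.1.2.trans h2).trans hV1⟩))]

/-- **radius bins** between two non-cap points: induction on the number of bins (IVT for `rq`, `ff_nx`, `capw`, `ff_block`) -/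
theorem ff_mid (h : c.Ok) {a0 s η Cq y0 : ℝ} (ha0 : 0 < a0) (hs : 0 < s) (hη : s + 3 * c.dl ≤ η) (hCq : 0 ≤ Cq) (k : ℕ) :
    ∀ u1 u2 : ℝ, a0 ≤ u1 → u1 ≤ u2 → u2 ≤ c.V0 → 0 ≤ c.Hm u1 → 0 ≤ c.Hm u2 → c.rq u2 - c.rq u1 ≤ ((k : ℝ) + 1) * s →
      (∀ u ∈ Icc u1 u2, c.Xn.NX 3 u ≤ Cq * Real.sqrt y0) →
      ∫ u in c.nfS u1 u2, c.Xn.D u ^ 2 ≤
        200000 * ((u2 - u1) * (η ^ 2 + ffQ4 η Cq y0) + c.T * (u2 - u1) / a0 ^ 2 + ((k : ℝ) + 1) * c.T / a0) := by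
  have hT := h.T_nn
  have hdl := h.dl_nn
  induction k with
  | zero =>
    intro u1 u2 ha h12 h2 hH1 hH2 hw hNX
    have key := ff_block h ha0 ha h12 h2 hH1 hH2 (η := η) (by simp at hw; linarith) hNX hCq
    simpa using key
  | succ k ih =>
    intro u1 u2 ha h12 h2 hH1 hH2 hw hNX
    have h1 : 0 ≤ u1 := ha0.le.trans ha
    have hTa : 0 ≤ c.T / a0 := by positivity
    rcases le_or_gt (c.rq u2 - c.rq u1) s with hsm | hbig
    · have key := ff_block h ha0 ha h12 h2 hH1 hH2 (η := η) (by linarith) hNX hCq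
      refine key.trans ?_
      have e : (((k + 1 : ℕ) : ℝ) + 1) * c.T / a0 = c.T / a0 + ((k : ℝ) + 1) * (c.T / a0) := by
        push_cast
        ring
      have : 0 ≤ ((k : ℝ) + 1) * (c.T / a0) := by positivity
      rw [e]
      linarith
    · have hsubI : Icc u1 u2 ⊆ Icc 0 c.V0 := Icc_subset_Icc h1 h2
      obtain ⟨m, hm, hmv⟩ := intermediate_value_Icc h12 (h.rq_cont.mono hsubI)
        (show c.rq u1 + s ∈ Icc (c.rq u1) (c.rq u2) from ⟨by linarith, by linarith⟩)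
      obtain ⟨b, hb, hHb, hneg, -⟩ := ff_nx h (h1.trans hm.1) hm.2 h2 hH2
      have hcap := h.capw m b (h1.trans hm.1) hb.1 (hb.2.trans h2) (fun u hu => hneg u ⟨hu.1.le, hu.2⟩)
      have hu1b : u1 ≤ b := hm.1.trans hb.1
      have k1 := ff_block h ha0 ha hu1b (hb.2.trans h2) hH1 hHb (η := η) (by linarith)
        (fun u hu => hNX u ⟨hu.1, hu.2.trans hb.2⟩) hCq
      have hmb := h.rq_mono (hsubI hm) (hsubI ⟨hu1b, hb.2⟩) hb.1
      have k2 := ih b u2 (ha.trans hu1b) hb.2 h2 hHb hH2 (by push_cast at hw; linarith)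
        (fun u hu => hNX u ⟨hu1b.trans hu.1, hu.2⟩)
      rw [ff_aux_split h h1 hu1b hb.2 h2]
      have e : 200000 * ((u2 - u1) * (η ^ 2 + ffQ4 η Cq y0) + c.T * (u2 - u1) / a0 ^ 2 + (((k + 1 : ℕ) : ℝ) + 1) * c.T / a0)
          = 200000 * ((b - u1) * (η ^ 2 + ffQ4 η Cq y0) + c.T * (b - u1) / a0 ^ 2 + c.T / a0)
            + 200000 * ((u2 - b) * (η ^ 2 + ffQ4 η Cq y0) + c.T * (u2 - b) / a0 ^ 2 + ((k : ℝ) + 1) * c.T / a0) := by
        push_cast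
        ring
      rw [e]
      linarith

/-- **a cap which meets the dyad `[v,2v]`**: `ff_unit` on the window `(max a (v/2), min b (4v))` -/
theorem ff_piece (h : c.Ok) {a b v η Cq y0 : ℝ} (hv : 0 < v) (ha : 0 ≤ a) (hab : a < b) (hb : b ≤ c.V0)
    (hneg : ∀ u ∈ Ioo a b, c.Hm u < 0) (hA : c.Hm a = 0 ∨ a = 0) (hB : c.Hm b = 0) (ha2 : a < 2 * v) (hvb : v < b)
    (hη : 3 * c.dl ≤ η) (hCq : 0 ≤ Cq)
    (hNX : ∀ u ∈ Icc (v / 2) (4 * v), u ≤ c.V0 → c.Xn.NX 3 u ≤ Cq * Real.sqrt y0) :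
    ∫ u in Ioo a b ∩ Icc v (2 * v), c.Xn.D u ^ 2 ≤ ffPieceB c.T v η (ffQ4 η Cq y0) (b - a) := by
  have hX := h.num
  have hT := h.T_nn
  have hdl := h.dl_nn
  have hV1 := h.V0_le
  have hlo_a : a ≤ max a (v / 2) := le_max_left _ _
  have hlo_v : v / 2 ≤ max a (v / 2) := le_max_right _ _
  have hhi_b : min b (4 * v) ≤ b := min_le_left _ _
  have hhi_v : min b (4 * v) ≤ 4 * v := min_le_right _ _
  have hlo2 : max a (v / 2) < 2 * v := max_lt ha2 (by linarith)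
  have hvhi : v < min b (4 * v) := lt_min hvb (by linarith)
  have hlohi : max a (v / 2) < min b (4 * v) := by
    apply max_lt <;> apply lt_min <;> linarith
  obtain ⟨lo, hlo⟩ : ∃ lo, lo = max a (v / 2) := ⟨_, rfl⟩
  obtain ⟨hi, hhi⟩ : ∃ hi, hi = min b (4 * v) := ⟨_, rfl⟩
  rw [← hlo] at hlo_a hlo_v hlo2 hlohi
  rw [← hhi] at hhi_b hhi_v hvhi hlohi
  have hEvol : (volume (Ioo lo hi)).toReal = hi - lo := by
    rw [Real.volume_Ioo, ENNReal.toReal_ofReal (by linarith)]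
  have hEab : Ioo lo hi ⊆ Ioo a b := fun u hu => ⟨hlo_a.trans_lt hu.1, hu.2.trans_le hhi_b⟩
  have hab01 : Ioo a b ⊆ Icc 0 1 := fun u hu => ⟨ha.trans hu.1.le, (hu.2.le.trans hb).trans hV1⟩
  have hE01 : Ioo lo hi ⊆ Icc 0 1 := hEab.trans hab01
  have hsubset : Ioo a b ∩ Icc v (2 * v) ⊆ Ioo lo hi := fun u hu =>
    ⟨by rw [hlo]; exact max_lt hu.1.1 (by linarith [hu.2.1]), by rw [hhi]; exact lt_min hu.1.2 (by linarith [hu.2.2])⟩
  have step1 : ∫ u in Ioo a b ∩ Icc v (2 * v), c.Xn.D u ^ 2 ≤ ∫ u in Ioo lo hi, c.Xn.D u ^ 2 :=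
    setIntegral_mono_set (ff_aux_D2 _ hX hE01) (Filter.Eventually.of_forall fun u => sq_nonneg _)
      (LE.le.eventuallyLE hsubset)
  have hτ : ∫ u in Ioo lo hi, c.Xn.TH u ≤ c.T * (b - a) := by
    have q1 : ∫ u in Ioo lo hi, c.Xn.TH u ≤ ∫ u in Ioo a b, c.Xn.TH u :=
      setIntegral_mono_set (ff_aux_TH _ hX hab01)
        ((ae_restrict_iff' measurableSet_Ioo).2 (Filter.Eventually.of_forall fun u hu => hX.TH_nn u (hab01 hu)))
        (LE.le.eventuallyLE hEab)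
    exact q1.trans (h.capT a b ha hab hb hneg hA hB)
  have hcw := h.capw a b ha hab.le hb hneg
  have hmono : ∀ i ∈ Ioo a b, ∀ j ∈ Ioo a b, c.rq j - c.rq i ≤ c.dl := by
    intro i hi' j hj'
    have q1 := h.rq_mono ⟨ha, hab.le.trans hb⟩ ⟨ha.trans hi'.1.le, hi'.2.le.trans hb⟩ hi'.1.le
    have q2 := h.rq_mono ⟨ha.trans hj'.1.le, hj'.2.le.trans hb⟩ ⟨ha.trans hab.le, hb⟩ hj'.2.le
    linarith
  have hS : ∀ i ∈ Ioo lo hi, ∀ j ∈ Ioo lo hi, |c.Xn.S j - c.Xn.S i| ≤ η := by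
    intro i hi' j hj'
    have hi2 := hEab hi'
    have hj2 := hEab hj'
    have ni := abs_le.1 (h.nf i ⟨lt_of_le_of_lt ha hi2.1, hi2.2.le.trans hb⟩ (hneg i hi2).le)
    have nj := abs_le.1 (h.nf j ⟨lt_of_le_of_lt ha hj2.1, hj2.2.le.trans hb⟩ (hneg j hj2).le)
    have m1 := hmono i hi2 j hj2
    have m2 := hmono j hj2 i hi2
    rw [abs_le]
    constructor <;> linarith [ni.1, ni.2, nj.1, nj.2]
  have hQ : 0 ≤ ffQ4 η Cq y0 := by
    unfold ffQ4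
    positivity
  have key := ff_unit c.Xn hX measurableSet_Ioo (a0 := v / 2) (by linarith)
    (fun u hu => ⟨hlo_v.trans hu.1.le, (hE01 hu).2⟩) (by linarith) (by rw [hEvol]; linarith) hS
    (fun u hu => hNX u ⟨hlo_v.trans hu.1.le, hu.2.le.trans hhi_v⟩ ((hEab hu).2.le.trans hb)) hτ
  rw [hEvol] at key
  refine step1.trans (key.trans ?_)
  unfold ffPieceB
  have hμ : 0 < b - a := by linarith
  have hl : 0 < hi - lo := by linarith
  have hTv : 0 ≤ c.T / v := by positivity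
  have e1 : (hi - lo) * (η ^ 2 + ffQ4 η Cq y0) ≤ 4 * v * (η ^ 2 + ffQ4 η Cq y0) :=
    mul_le_mul_of_nonneg_right (by linarith) (by positivity)
  have e2 : c.T * (b - a) / (v / 2) ^ 2 = 4 * (c.T * (b - a) / v ^ 2) := by
    field_simp
    ring
  have e3 : c.T * (b - a) / (v / 2 * (hi - lo)) ≤ 2 * (c.T / v) + 4 * (c.T * (b - a) / v ^ 2) := by
    have hTμ : 0 ≤ c.T * (b - a) / v ^ 2 := by positivity
    by_cases hc : v / 2 ≤ a ∧ b ≤ 4 * v
    · have l1 : lo = a := by rw [hlo]; exact max_eq_left hc.1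
      have l2 : hi = b := by rw [hhi]; exact min_eq_left hc.2
      rw [l1, l2]
      have : c.T * (b - a) / (v / 2 * (b - a)) = 2 * (c.T / v) := by
        field_simp
      rw [this]
      linarith
    · have hlen : v / 2 ≤ hi - lo := by
        rw [not_and_or, not_le, not_le] at hc
        rcases hc with hc | hc
        · have l1 : lo = v / 2 := by rw [hlo]; exact max_eq_right hc.le
          rw [l1]
          linarith
        · have l2 : hi = 4 * v := by rw [hhi]; exact min_eq_right hc.le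
          rw [l2]
          linarith
      have q1 : c.T * (b - a) / (v / 2 * (hi - lo)) ≤ c.T * (b - a) / (v / 2 * (v / 2)) :=
        div_le_div_of_nonneg_left (by positivity) (by positivity) (mul_le_mul_of_nonneg_left hlen (by linarith))
      have q2 : c.T * (b - a) / (v / 2 * (v / 2)) = 4 * (c.T * (b - a) / v ^ 2) := by
        field_simp
        ring
      rw [q2] at q1
      linarith
  have e4 : 18 * c.T / v = 18 * (c.T / v) := by ring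
  have e5 : 8 * c.T * (b - a) / v ^ 2 = 8 * (c.T * (b - a) / v ^ 2) := by ring
  rw [e2, e4, e5]
  linarith

/-! ## 3. one dyad -/

/-- (helper82) enlarging the set up to one point -/
theorem ff_aux_piece_le (X : CmNum) (hX : X.Ok) {A B : Set ℝ} {x : ℝ} (hB : B ⊆ Icc 0 1) (hAB : A ⊆ B ∪ {x}) :
    ∫ u in A, X.D u ^ 2 ≤ ∫ u in B, X.D u ^ 2 := by
  apply setIntegral_mono_set (ff_aux_D2 _ hX hB) (Filter.Eventually.of_forall fun u => sq_nonneg _)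
  rw [ae_le_set]
  apply measure_mono_null (t := {x}) _ Real.volume_singleton
  rintro u ⟨huA, huB⟩
  rcases hAB huA with h | h
  · exact absurd h huB
  · exact h

theorem ff_aux_pieceB_mono {T v η q4 μ μ' : ℝ} (hT : 0 ≤ T) (hv : 0 < v) (hμ : μ ≤ μ') :
    ffPieceB T v η q4 μ ≤ ffPieceB T v η q4 μ' := by
  unfold ffPieceB
  have : 8 * T * μ / v ^ 2 ≤ 8 * T * μ' / v ^ 2 :=
    div_le_div_of_nonneg_right (mul_le_mul_of_nonneg_left hμ (by positivity)) (by positivity)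
  linarith

/-- (helper82) a part `(w1,w2]` of the dyad which lies in the closure of ONE cap `(a,b)` -/
theorem ff_aux_cap (h : c.Ok) {a b v V1 η Cq y0 w1 w2 : ℝ} (hv : 0 < v) (ha : 0 ≤ a) (hab : a < b) (hb : b ≤ V1)
    (hV10 : V1 ≤ c.V0) (hneg : ∀ u ∈ Ioo a b, c.Hm u < 0) (hA : c.Hm a = 0 ∨ a = 0) (hB : c.Hm b = 0) (ha2 : a < 2 * v)
    (hvb : v < b) (hη : 3 * c.dl ≤ η) (hCq : 0 ≤ Cq)
    (hNX : ∀ u ∈ Icc (v / 2) (4 * v), u ≤ c.V0 → c.Xn.NX 3 u ≤ Cq * Real.sqrt y0)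
    (hw1 : v ≤ w1) (haw : a ≤ w1) (hw2 : w2 ≤ 2 * v) (hwb : w2 ≤ b) :
    ∫ u in c.nfS w1 w2, c.Xn.D u ^ 2 ≤ ffPieceB c.T v η (ffQ4 η Cq y0) V1 := by
  have hV1 := h.V0_le
  have k1 := ff_piece h hv ha hab (hb.trans hV10) hneg hA hB ha2 hvb hη hCq hNX
  have k2 : ∫ u in c.nfS w1 w2, c.Xn.D u ^ 2 ≤ ∫ u in Ioo a b ∩ Icc v (2 * v), c.Xn.D u ^ 2 := by
    apply ff_aux_piece_le _ h.num (x := b)
    · exact fun u hu => ⟨ha.trans hu.1.1.le, ((hu.1.2.le.trans hb).trans hV10).trans hV1⟩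
    · rintro u ⟨hu, -⟩
      rcases (hu.2.trans hwb).lt_or_eq with hlt | heq
      · exact Or.inl ⟨⟨haw.trans_lt hu.1, hlt⟩, ⟨hw1.trans hu.1.le, hu.2.trans hw2⟩⟩
      · exact Or.inr heq
  exact k2.trans (k1.trans (ff_aux_pieceB_mono h.T_nn hv (by linarith)))

/-- **the nonfloor part of a dyad** -/
theorem ff_dyad (h : c.Ok) {v V1 s η Cq y0 : ℝ} {k : ℕ} (hv : 0 < v) (hV10 : V1 ≤ c.V0)
    (hend : ∃ e ∈ Icc (2 * v) V1, 0 ≤ c.Hm e) (hs : 0 < s) (hk : c.rq (2 * v) - c.rq v ≤ ((k : ℝ) + 1) * s)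
    (hη : s + 3 * c.dl ≤ η) (hCq : 0 ≤ Cq)
    (hNX : ∀ u ∈ Icc (v / 2) (4 * v), u ≤ c.V0 → c.Xn.NX 3 u ≤ Cq * Real.sqrt y0) :
    ∫ u in c.nfS v (2 * v), c.Xn.D u ^ 2 ≤ ffMidB c.T v η (ffQ4 η Cq y0) k + 2 * ffPieceB c.T v η (ffQ4 η Cq y0) V1 := by
  have hT := h.T_nn
  have hdl := h.dl_nn
  obtain ⟨e, he, hHe⟩ := hend
  have heV : e ≤ c.V0 := he.2.trans hV10
  have h2vV : 2 * v ≤ c.V0 := he.1.trans heV
  have hV1pos : 0 ≤ V1 := by linarith [he.1, he.2]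
  have hη3 : 3 * c.dl ≤ η := by linarith
  have hQ : 0 ≤ ffQ4 η Cq y0 := by
    unfold ffQ4
    positivity
  have hMid0 : 0 ≤ ffMidB c.T v η (ffQ4 η Cq y0) k := by
    unfold ffMidB
    positivity
  have hPc0 : 0 ≤ ffPieceB c.T v η (ffQ4 η Cq y0) V1 := by
    unfold ffPieceB
    positivity
  have hempty : ∀ w : ℝ, ∫ u in c.nfS w w, c.Xn.D u ^ 2 = 0 := by
    intro w
    have : c.nfS w w = ∅ := by
      ext u
      simp [FfM.nfS]
    rw [this]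
    simp
  obtain ⟨b1, hb1, hHb1, hneg1, hz1⟩ := ff_nx h hv.le (by linarith [he.1] : v ≤ e) heV hHe
  obtain ⟨a1, ha1, hHa1, hnega1, hza1⟩ := ff_pv h hv.le (by linarith : v ≤ c.V0)
  -- the left piece
  have left : ∀ w, v ≤ w → w ≤ b1 → w ≤ 2 * v →
      ∫ u in c.nfS v w, c.Xn.D u ^ 2 ≤ ffPieceB c.T v η (ffQ4 η Cq y0) V1 := by
    intro w hvw hwb hw2
    rcases hb1.1.eq_or_lt with heq | hlt
    · have : w = v := le_antisymm (hwb.trans heq.symm.le) hvw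
      rw [this, hempty]
      exact hPc0
    · have hHv : c.Hm v < 0 := hneg1 v ⟨le_rfl, hlt⟩
      have ha1v : a1 < v := by
        rcases ha1.2.eq_or_lt with heq | hl
        · exfalso
          rcases hHa1 with q | q
          · rw [heq] at q
            linarith
          · rw [heq] at q
            linarith
        · exact hl
      refine ff_aux_cap h hv ha1.1 (ha1v.trans hlt) (hb1.2.trans he.2) hV10 ?_ (hza1 ha1v) (hz1 hlt) (by linarith) hlt hη3 hCq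
        hNX le_rfl ha1v.le hw2 hwb
      intro u hu
      rcases le_or_gt u v with q | q
      · exact hnega1 u ⟨hu.1, q⟩
      · exact hneg1 u ⟨q.le, hu.2⟩
  rcases le_or_gt (2 * v) b1 with hbig | hsm
  · have := left (2 * v) (by linarith) hbig le_rfl
    linarith
  · obtain ⟨a2, ha2, hHa2, hnega2, hza2⟩ := ff_pv h (by linarith : 0 ≤ 2 * v) h2vV
    have hb1a2 : b1 ≤ a2 := by
      by_contra hcon
      rw [not_le] at hcon
      have := hnega2 b1 ⟨hcon, hsm.le⟩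
      linarith
    have ha2pos : 0 < a2 := by linarith [hb1.1]
    have hHa2' : 0 ≤ c.Hm a2 := by
      rcases hHa2 with q | q
      · exact q
      · linarith
    have hsubI : Icc v (2 * v) ⊆ Icc 0 c.V0 := Icc_subset_Icc hv.le h2vV
    have m1 := h.rq_mono (hsubI ⟨le_rfl, by linarith⟩) (hsubI ⟨hb1.1, hsm.le⟩) hb1.1
    have m2 := h.rq_mono (hsubI ⟨hb1.1.trans hb1a2, ha2.2⟩) (hsubI ⟨by linarith, le_rfl⟩) ha2.2
    have kmid := ff_mid h hv hs hη hCq k b1 a2 hb1.1 hb1a2 (ha2.2.trans h2vV) hHb1 hHa2' (by linarith)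
      (fun u hu => hNX u ⟨by linarith [hu.1, hb1.1], by linarith [hu.2, ha2.2]⟩ ((hu.2.trans ha2.2).trans h2vV))
    have kmid' : ∫ u in c.nfS b1 a2, c.Xn.D u ^ 2 ≤ ffMidB c.T v η (ffQ4 η Cq y0) k := by
      refine kmid.trans ?_
      unfold ffMidB
      have hlen : a2 - b1 ≤ v := by linarith [hb1.1, ha2.2]
      have e1 : (a2 - b1) * (η ^ 2 + ffQ4 η Cq y0) ≤ v * (η ^ 2 + ffQ4 η Cq y0) :=
        mul_le_mul_of_nonneg_right hlen (by positivity)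
      have e2 : c.T * (a2 - b1) / v ^ 2 ≤ c.T / v := by
        have q : c.T * (a2 - b1) / v ^ 2 ≤ c.T * v / v ^ 2 :=
          div_le_div_of_nonneg_right (mul_le_mul_of_nonneg_left hlen hT) (by positivity)
        have q2 : c.T * v / v ^ 2 = c.T / v := by field_simp
        linarith
      have e3 : ((k : ℝ) + 2) * c.T / v = c.T / v + ((k : ℝ) + 1) * c.T / v := by ring
      rw [e3]
      linarith
    have kleft := left b1 hb1.1 le_rfl hsm.le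
    have kright : ∫ u in c.nfS a2 (2 * v), c.Xn.D u ^ 2 ≤ ffPieceB c.T v η (ffQ4 η Cq y0) V1 := by
      rcases ha2.2.eq_or_lt with heq | hlt
      · rw [heq, hempty]
        exact hPc0
      · obtain ⟨b2, hb2, hHb2, hneg2, hz2⟩ := ff_nx h (by linarith : 0 ≤ 2 * v) he.1 heV hHe
        have hH2v : c.Hm (2 * v) < 0 := hnega2 (2 * v) ⟨hlt, le_rfl⟩
        have h2b2 : 2 * v < b2 := by
          rcases hb2.1.eq_or_lt with heq | hl
          · exfalso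
            rw [← heq] at hHb2
            linarith
          · exact hl
        refine ff_aux_cap h hv ha2.1 (hlt.trans h2b2) (hb2.2.trans he.2) hV10 ?_ (hza2 hlt) (hz2 h2b2) hlt (by linarith) hη3 hCq
          hNX (hb1.1.trans hb1a2) le_rfl le_rfl h2b2.le
        intro u hu
        rcases le_or_gt u (2 * v) with q | q
        · exact hnega2 u ⟨hu.1, q⟩
        · exact hneg2 u ⟨q.le, hu.2⟩
    rw [ff_aux_split h hv.le hb1.1 hsm.le h2vV, ff_aux_split h (hv.le.trans hb1.1) hb1a2 ha2.2 h2vV]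
    linarith

/-- pure arithmetic: the bin width `s = P² y0/v²`, `k = ⌊y0/s⌋`, in the regime `P ≤ v` -/
theorem ff_arith {T v V1 y0 P dl Cq : ℝ} (hT : 0 ≤ T) (hP : 0 < P) (hPv : P ≤ v) (hvV : v ≤ V1) (hy0 : 0 < y0) (hCq : 0 ≤ Cq)
    (hdl0 : 0 ≤ dl) (hTP : T * V1 ≤ P ^ 3 * y0 ^ 2) (hdl : 3 * dl * v ^ 2 ≤ P ^ 2 * y0) :
    ffMidB T v (P ^ 2 * y0 / v ^ 2 + 3 * dl) (ffQ4 (P ^ 2 * y0 / v ^ 2 + 3 * dl) Cq y0) ⌊v ^ 2 / P ^ 2⌋₊
      + 2 * ffPieceB T v (P ^ 2 * y0 / v ^ 2 + 3 * dl) (ffQ4 (P ^ 2 * y0 / v ^ 2 + 3 * dl) Cq y0) V1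
      ≤ 22000000 * (1 + Cq ^ 3) * (P * y0 ^ 2) := by
  have hv : 0 < v := hP.trans_le hPv
  obtain ⟨r, hr⟩ : ∃ r, r = P / v := ⟨_, rfl⟩
  have hr0 : 0 < r := by rw [hr]; positivity
  have hr1 : r ≤ 1 := by rw [hr]; exact (div_le_one hv).2 hPv
  have hPr : P = r * v := by rw [hr]; field_simp
  have hs : P ^ 2 * y0 / v ^ 2 = r ^ 2 * y0 := by rw [hr]; field_simp
  obtain ⟨w, hw⟩ : ∃ w, w = Real.sqrt y0 := ⟨_, rfl⟩
  have hw0 : 0 < w := by rw [hw]; exact Real.sqrt_pos.2 hy0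
  have hw2 : w ^ 2 = y0 := by rw [hw]; exact Real.sq_sqrt hy0.le
  obtain ⟨η, hηd⟩ : ∃ η, η = P ^ 2 * y0 / v ^ 2 + 3 * dl := ⟨_, rfl⟩
  rw [← hηd]
  have hr2 : r ^ 2 ≤ 1 := pow_le_one₀ hr0.le hr1
  have hr3 : r ^ 3 ≤ 1 := pow_le_one₀ hr0.le hr1
  have hX : 0 < P * y0 ^ 2 := by positivity
  have hη0 : 0 ≤ η := by rw [hηd]; positivity
  have hη2 : η ≤ 2 * (r ^ 2 * y0) := by
    have : 3 * dl ≤ P ^ 2 * y0 / v ^ 2 := by
      rw [le_div_iff₀ (by positivity)]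
      exact hdl
    rw [hηd, ← hs]
    linarith
  have f1 : v * η ^ 2 ≤ 4 * (P * y0 ^ 2) := by
    have q1 : η ^ 2 ≤ (2 * (r ^ 2 * y0)) ^ 2 := pow_le_pow_left₀ hη0 hη2 2
    have q2 : v * η ^ 2 ≤ v * (2 * (r ^ 2 * y0)) ^ 2 := mul_le_mul_of_nonneg_left q1 hv.le
    have q3 : v * (2 * (r ^ 2 * y0)) ^ 2 = 4 * (P * y0 ^ 2) * r ^ 3 := by rw [hPr]; ring
    have q4 : 4 * (P * y0 ^ 2) * r ^ 3 ≤ 4 * (P * y0 ^ 2) * 1 := mul_le_mul_of_nonneg_left hr3 (by positivity)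
    linarith
  have f2 : v * ffQ4 η Cq y0 ≤ 12 * Cq ^ 3 * (P * y0 ^ 2) := by
    unfold ffQ4
    rw [← hw]
    have q1 : Real.sqrt η ≤ 3 / 2 * (r * w) := by
      rw [Real.sqrt_le_iff]
      refine ⟨by positivity, hη2.trans ?_⟩
      have : (3 / 2 * (r * w)) ^ 2 = 9 / 4 * (r ^ 2 * y0) := by rw [← hw2]; ring
      rw [this]
      have : 0 ≤ r ^ 2 * y0 := by positivity
      linarith
    have q2 : Real.sqrt η * (2 * Cq * w) ^ 3 ≤ 3 / 2 * (r * w) * (2 * Cq * w) ^ 3 :=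
      mul_le_mul_of_nonneg_right q1 (by positivity)
    have q3 : v * (Real.sqrt η * (2 * Cq * w) ^ 3) ≤ v * (3 / 2 * (r * w) * (2 * Cq * w) ^ 3) :=
      mul_le_mul_of_nonneg_left q2 hv.le
    have q4 : v * (3 / 2 * (r * w) * (2 * Cq * w) ^ 3) = 12 * Cq ^ 3 * (P * y0 ^ 2) := by
      rw [hPr, ← hw2]
      ring
    linarith
  have hTv : T * v ≤ P ^ 3 * y0 ^ 2 := (mul_le_mul_of_nonneg_left hvV hT).trans hTP
  have f3 : T / v ≤ r ^ 2 * (P * y0 ^ 2) := by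
    rw [div_le_iff₀ hv]
    have q1 : T * v ≤ (r ^ 2 * (P * y0 ^ 2) * v) * v := by
      have : (r ^ 2 * (P * y0 ^ 2) * v) * v = P ^ 3 * y0 ^ 2 := by
        have : r ^ 2 * v * v = P ^ 2 := by rw [hPr]; ring
        calc (r ^ 2 * (P * y0 ^ 2) * v) * v = (r ^ 2 * v * v) * (P * y0 ^ 2) := by ring
          _ = P ^ 2 * (P * y0 ^ 2) := by rw [this]
          _ = P ^ 3 * y0 ^ 2 := by ring
      rw [this]
      exact hTv
    exact le_of_mul_le_mul_right q1 hv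
  have f3' : T / v ≤ P * y0 ^ 2 := f3.trans (by
    have := mul_le_mul_of_nonneg_right hr2 hX.le
    linarith)
  have hTv0 : 0 ≤ T / v := by positivity
  have f4 : ((⌊v ^ 2 / P ^ 2⌋₊ : ℕ) : ℝ) * (T / v) ≤ P * y0 ^ 2 := by
    have q1 : ((⌊v ^ 2 / P ^ 2⌋₊ : ℕ) : ℝ) ≤ v ^ 2 / P ^ 2 := Nat.floor_le (by positivity)
    have q2 : v ^ 2 / P ^ 2 = 1 / r ^ 2 := by rw [hr]; field_simp
    have q1' : ((⌊v ^ 2 / P ^ 2⌋₊ : ℕ) : ℝ) ≤ 1 / r ^ 2 := q1.trans (le_of_eq q2)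
    have q3 : ((⌊v ^ 2 / P ^ 2⌋₊ : ℕ) : ℝ) * (T / v) ≤ 1 / r ^ 2 * (r ^ 2 * (P * y0 ^ 2)) :=
      mul_le_mul q1' f3 hTv0 (by positivity)
    have q4 : 1 / r ^ 2 * (r ^ 2 * (P * y0 ^ 2)) = P * y0 ^ 2 := by field_simp
    linarith
  have f5 : T * V1 / v ^ 2 ≤ P * y0 ^ 2 := by
    rw [div_le_iff₀ (by positivity)]
    have q1 : P ^ 3 * y0 ^ 2 ≤ P * y0 ^ 2 * v ^ 2 := by
      have : P ^ 2 ≤ v ^ 2 := pow_le_pow_left₀ hP.le hPv 2
      have := mul_le_mul_of_nonneg_left this hX.le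
      calc P ^ 3 * y0 ^ 2 = P * y0 ^ 2 * P ^ 2 := by ring
        _ ≤ _ := this
    linarith
  unfold ffMidB ffPieceB
  have e1 : (((⌊v ^ 2 / P ^ 2⌋₊ : ℕ) : ℝ) + 2) * T / v = ((⌊v ^ 2 / P ^ 2⌋₊ : ℕ) : ℝ) * (T / v) + 2 * (T / v) := by ring
  have e2 : 18 * T / v = 18 * (T / v) := by ring
  have e3 : 8 * T * V1 / v ^ 2 = 8 * (T * V1 / v ^ 2) := by ring
  rw [e1, e2, e3]
  have hC : 0 ≤ Cq ^ 3 * (P * y0 ^ 2) := by positivity
  nlinarith [f1, f2, f3', f4, f5, hC, hX]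

/-- **EXIT of the abstract layer: one inner dyad**, floor included.
`y0` = raw scale (radius range, sixth moment), `R` = raw bound of `D`, `V1` = upper bound of the masses of the caps which meet the dyad, `P³ y0² ≥ T V1`. -/
theorem ff_dyad_fin (h : c.Ok) {v V1 y0 R P Cq : ℝ} (hv : 0 < v) (hV10 : V1 ≤ c.V0)
    (hend : ∃ e ∈ Icc (2 * v) V1, 0 ≤ c.Hm e) (hy0 : 0 < y0) (hR : 0 ≤ R) (hP : 0 < P) (hCq : 0 ≤ Cq)
    (hrq : c.rq (2 * v) - c.rq v ≤ y0)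
    (hNX : ∀ u ∈ Icc (v / 2) (4 * v), u ≤ c.V0 → c.Xn.NX 3 u ≤ Cq * Real.sqrt y0)
    (hD : ∀ u ∈ Icc v (2 * v), c.Xn.D u ≤ R)
    (hTP : c.T * V1 ≤ P ^ 3 * y0 ^ 2) (hdl : 3 * c.dl * V1 ^ 2 ≤ P ^ 2 * y0) :
    ∫ u in v..(2 * v), c.Xn.D u ^ 2 ≤ 22000000 * (1 + Cq ^ 3) * (P * (y0 ^ 2 + R ^ 2)) + R ^ 2 * c.Fl := by
  have hX := h.num
  have hT := h.T_nn
  have hdl0 := h.dl_nn
  have hFl := h.Fl_nn
  have hV1 := h.V0_le
  obtain ⟨e, he, hHe⟩ := id hend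
  have h2vV : 2 * v ≤ c.V0 := (he.1.trans he.2).trans hV10
  have hvV1 : v ≤ V1 := by linarith [he.1, he.2]
  have hI01 : Icc v (2 * v) ⊆ Icc 0 1 := Icc_subset_Icc hv.le (h2vV.trans hV1)
  rw [intervalIntegral.integral_of_le (by linarith : v ≤ 2 * v)]
  -- the raw bound
  have raw : ∀ E : Set ℝ, MeasurableSet E → E ⊆ Icc v (2 * v) → ∫ u in E, c.Xn.D u ^ 2 ≤ R ^ 2 * (volume E).toReal := by
    intro E hE hsub
    have hfin : volume E ≠ ⊤ := ne_top_of_le_ne_top (by simp) (measure_mono (hsub.trans hI01))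
    have q : ∫ u in E, c.Xn.D u ^ 2 ≤ ∫ _ in E, R ^ 2 := by
      apply setIntegral_mono_on (ff_aux_D2 _ hX (hsub.trans hI01)) (integrableOn_const hfin) hE
      intro u hu
      exact pow_le_pow_left₀ (hX.D_nn u (hI01 (hsub hu))) (hD u (hsub hu)) 2
    rw [setIntegral_const] at q
    simpa [Measure.real, mul_comm] using q
  have hK : 0 ≤ 22000000 * (1 + Cq ^ 3) := by positivity
  have hK1 : 1 ≤ 22000000 * (1 + Cq ^ 3) := by
    have : 0 ≤ Cq ^ 3 := by positivity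
    linarith
  have hRF : 0 ≤ R ^ 2 * c.Fl := by positivity
  rcases lt_or_ge v P with hvP | hPv
  · have k := raw (Ioc v (2 * v)) measurableSet_Ioc Ioc_subset_Icc_self
    rw [Real.volume_Ioc, ENNReal.toReal_ofReal (by linarith)] at k
    have e1 : R ^ 2 * (2 * v - v) ≤ P * (y0 ^ 2 + R ^ 2) := by
      have q1 : R ^ 2 * (2 * v - v) ≤ R ^ 2 * P := mul_le_mul_of_nonneg_left (by linarith) (by positivity)
      have q2 : 0 ≤ P * y0 ^ 2 := by positivity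
      nlinarith
    have e2 : P * (y0 ^ 2 + R ^ 2) ≤ 22000000 * (1 + Cq ^ 3) * (P * (y0 ^ 2 + R ^ 2)) :=
      le_mul_of_one_le_left (by positivity) hK1
    linarith
  · have hnm := ff_nfS_meas h hv.le h2vV
    have hsubn : c.nfS v (2 * v) ⊆ Ioc v (2 * v) := fun u hu => hu.1
    have hsplit := integral_inter_add_sdiff (μ := volume) (f := fun u => c.Xn.D u ^ 2) (s := Ioc v (2 * v)) hnm
      (ff_aux_D2 _ hX (Ioc_subset_Icc_self.trans hI01))
    rw [inter_eq_self_of_subset_right hsubn] at hsplit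
    rw [← hsplit]
    -- floor
    have kfl : ∫ u in Ioc v (2 * v) \ c.nfS v (2 * v), c.Xn.D u ^ 2 ≤ R ^ 2 * c.Fl := by
      have k := raw _ (measurableSet_Ioc.diff hnm) (sdiff_subset.trans Ioc_subset_Icc_self)
      have hle : volume (Ioc v (2 * v) \ c.nfS v (2 * v)) ≤ ENNReal.ofReal c.Fl := by
        refine (measure_mono ?_).trans h.fl
        rintro u ⟨hu, hn⟩
        refine ⟨⟨hv.le.trans hu.1.le, hu.2.trans h2vV⟩, ?_⟩
        by_contra hcon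
        exact hn ⟨hu, not_lt.1 hcon⟩
      have hle' := ENNReal.toReal_le_of_le_ofReal hFl hle
      exact k.trans (mul_le_mul_of_nonneg_left hle' (by positivity))
    -- nonfloor
    have hs : 0 < P ^ 2 * y0 / v ^ 2 := by positivity
    have hk : c.rq (2 * v) - c.rq v ≤ (((⌊v ^ 2 / P ^ 2⌋₊ : ℕ) : ℝ) + 1) * (P ^ 2 * y0 / v ^ 2) := by
      have q1 : v ^ 2 / P ^ 2 < ((⌊v ^ 2 / P ^ 2⌋₊ : ℕ) : ℝ) + 1 := Nat.lt_floor_add_one _
      have q2 : v ^ 2 / P ^ 2 * (P ^ 2 * y0 / v ^ 2) = y0 := by field_simp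
      have q3 := mul_le_mul_of_nonneg_right q1.le hs.le
      linarith
    have knf := ff_dyad h hv hV10 hend hs hk le_rfl hCq hNX
    have hdl' : 3 * c.dl * v ^ 2 ≤ P ^ 2 * y0 := by
      have : v ^ 2 ≤ V1 ^ 2 := pow_le_pow_left₀ hv.le hvV1 2
      have := mul_le_mul_of_nonneg_left this (by positivity : 0 ≤ 3 * c.dl)
      linarith
    have kar := ff_arith hT hP hPv hvV1 hy0 hCq hdl0 hTP hdl'
    have e2 : 22000000 * (1 + Cq ^ 3) * (P * y0 ^ 2) ≤ 22000000 * (1 + Cq ^ 3) * (P * (y0 ^ 2 + R ^ 2)) := by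
      apply mul_le_mul_of_nonneg_left _ hK
      apply mul_le_mul_of_nonneg_left _ hP.le
      have : 0 ≤ R ^ 2 := by positivity
      linarith
    linarith

end

end Claimed.Agent.R286
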