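import Claimed.Agent.R286.Bud.FfAbs
import Claimed.Agent.R286.Bud.GeoQ
import Claimed.Agent.R286.Bud.GeoFlat
import Claimed.Agent.R286.Bud.GeoCon

/-!
# Row 286, LL sec. 7, node N14 (free forks): BRIDGE from the geometry `BudGeo` (radius coordinate, 109) to the context `FfM` (mass coordinate)      (owner helper161; prefix `ff_br_`)

INPUT: `g.Ok`, `g.Flat R0 C0` (the removal is constant on `[0,R0]`), a box with positive floor (`BudBoxOk`), the numbers `Xn : CmNum` of the changed path with `g.S r = Xn.S (α r)`,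
and THE CLOCK INEQUALITY (A1) line 2 in the radius coordinate, on the flat region (`∂_r h ≥ C_0` there):   `cn C0 ∫_s^t E tr H²_{α(r)} dr ≤ S_{α(t)} - S_{α(s)}`, `cn = m`.
OUTPUT: `ff_of_geo : (ffOfGeo g Xn cn C0 ρ0).Ok` for every `ρ0` with `ρ0 + 1/M ≤ R0`.
Each field is one leaf.   Tools: `flat_nonfloor`, `flat_cap`, `cap_width`, `al_cap`, `floor_mass`, `contact_ae` (Geo*), `budQ_*`, `bud_cov` (GeoQ), `cm_ut_cap_abs`, `cm_density_le` (P6Abs).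
TEX[LL:bud:free-forks] l.1611 "(20)-(21) with constant field slope lower bound C_0";  N1 of origin/helper248:notes/R286/L08_adv_248.md (`ΔS_cap ≤ ℓ_cap`) = `flat_cap`.
-/

set_option autoImplicit false

namespace Claimed.Agent.R286

open MeasureTheory Set

noncomputable section

/-- the context of the inner dyads made from a geometry datum: masses `≤ α(ρ0)` -/
def ffOfGeo (g : BudGeo) (Xn : CmNum) (cn C0 ρ0 : ℝ) : FfM :=
  ⟨Xn, fun u => g.H (budQ g.ρ u), budQ g.ρ, g.al ρ0, 1 / (cn * C0), 2 / g.M, ∫ r in (0 : ℝ)..ρ0, g.kb r⟩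

theorem ff_br_eqns_cite : True := by
  have := @ffOfGeo.eq_1
  trivial

variable {g : BudGeo} {kmin R0 C0 cn ρ0 : ℝ} {Xn : CmNum}

/-- `0 < α(ρ0) ≤ 1` -/
theorem ff_br_V0 (hg : g.Ok) (hB : BudBoxOk g.kb g.M kmin) (h0 : 0 < ρ0) (h1 : ρ0 ≤ 1) : 0 < g.al ρ0 ∧ g.al ρ0 ≤ 1 := by
  have hm : ρ0 ∈ Icc (0 : ℝ) 1 := ⟨h0.le, h1⟩
  refine ⟨?_, (budAl_mem_Icc hB hg.dens hm).2⟩
  have := budAl_strictMonoOn hB hg.dens (left_mem_Icc.2 zero_le_one) hm h0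
  rwa [budAl_zero] at this

/-- the quantile of a mass `u ∈ (0, α(ρ0)]` lies in `(0, ρ0]` -/
theorem ff_br_rq_mem (hg : g.Ok) (hB : BudBoxOk g.kb g.M kmin) (h0 : 0 < ρ0) (h1 : ρ0 ≤ 1) {u : ℝ} (hu : u ∈ Ioc 0 (g.al ρ0)) :
    budQ g.ρ u ∈ Ioc 0 ρ0 := by
  have hm : ρ0 ∈ Icc (0 : ℝ) 1 := ⟨h0.le, h1⟩
  have hV := (ff_br_V0 hg hB h0 h1).2
  have hu1 : u ∈ Icc (0 : ℝ) 1 := ⟨hu.1.le, hu.2.trans hV⟩
  constructor
  · rw [lt_budQ_iff hB hg.dens (left_mem_Icc.2 zero_le_one) hu1, budAl_zero]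
    exact hu.1
  · have := budQ_mono hB hg.dens hu1 (budAl_mem_Icc hB hg.dens hm) hu.2
    rwa [budQ_al hB hg.dens hm] at this

theorem ff_br_rq_cont (hg : g.Ok) (hB : BudBoxOk g.kb g.M kmin) : ContinuousOn (budQ g.ρ) (Icc 0 1) := by
  have hk : 0 ≤ 1 / kmin := by have := hB.kmin0; positivity
  have : LipschitzOnWith (Real.toNNReal (1 / kmin)) (budQ g.ρ) (Icc 0 1) := by
    refine LipschitzOnWith.of_dist_le_mul fun x hx y hy => ?_
    rw [Real.dist_eq, Real.dist_eq, Real.coe_toNNReal _ hk]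
    have := budQ_lip hB hg.dens hx hy
    rwa [div_eq_inv_mul, ← one_div] at this
  exact this.continuousOn

theorem ff_br_H_cont (hg : g.Ok) (hB : BudBoxOk g.kb g.M kmin) : ContinuousOn (fun u => g.H (budQ g.ρ u)) (Icc 0 1) :=
  (BudGeo.H_cont hg).comp (ff_br_rq_cont hg hB) fun _ hu => budQ_mem_Icc hB hg.dens hu

/-- a mass interval on which `H ∘ r < 0` is the image of a radius interval on which `H < 0` -/
theorem ff_br_neg (hg : g.Ok) (hB : BudBoxOk g.kb g.M kmin) {a b : ℝ} (ha : 0 ≤ a) (hab : a ≤ b) (hb : b ≤ 1)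
    (hneg : ∀ u ∈ Ioo a b, g.H (budQ g.ρ u) < 0) : ∀ r ∈ Ioo (budQ g.ρ a) (budQ g.ρ b), g.H r < 0 := by
  intro r hr
  have ha1 : a ∈ Icc (0 : ℝ) 1 := ⟨ha, hab.trans hb⟩
  have hb1 : b ∈ Icc (0 : ℝ) 1 := ⟨ha.trans hab, hb⟩
  have hqa := budQ_mem_Icc hB hg.dens ha1
  have hqb := budQ_mem_Icc hB hg.dens hb1
  have hr1 : r ∈ Icc (0 : ℝ) 1 := ⟨hqa.1.trans hr.1.le, hr.2.le.trans hqb.2⟩
  have h1 : a < budAl g.ρ r := by
    have := budAl_strictMonoOn hB hg.dens hqa hr1 hr.1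
    rwa [budAl_Q hB hg.dens ha1] at this
  have h2 : budAl g.ρ r < b := (lt_budQ_iff hB hg.dens hr1 hb1).1 hr.2
  have := hneg _ ⟨h1, h2⟩
  rwa [budQ_al hB hg.dens hr1] at this

/-- field `nf` -/
theorem ff_br_nf (hg : g.Ok) (hB : BudBoxOk g.kb g.M kmin) (hf : g.Flat R0 C0) (hlink : ∀ r ∈ Ioo (0 : ℝ) 1, g.S r = Xn.S (g.al r))
    (h0 : 0 < ρ0) (hρ : ρ0 + 1 / g.M ≤ R0) {u : ℝ} (hu : u ∈ Ioc 0 (g.al ρ0)) (hH : g.H (budQ g.ρ u) ≤ 0) :
    |Xn.S u - budQ g.ρ u| ≤ 2 / g.M := by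
  have hM : 0 < g.M := zero_lt_one.trans hg.M1
  have hM' : 0 < 1 / g.M := by positivity
  have h1 : ρ0 < 1 := by linarith [hf.hR]
  have hq := ff_br_rq_mem hg hB h0 h1.le hu
  have hV := (ff_br_V0 hg hB h0 h1.le).2
  have hu1 : u ∈ Icc (0 : ℝ) 1 := ⟨hu.1.le, hu.2.trans hV⟩
  have hl := hlink (budQ g.ρ u) ⟨hq.1, hq.2.trans_lt h1⟩
  have hal : g.al (budQ g.ρ u) = u := budAl_Q hB hg.dens hu1
  rw [hal] at hl
  rw [← hl]
  exact BudGeo.flat_nonfloor hg hf hq.1.le (by linarith [hq.2]) hH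

/-- field `capw` -/
theorem ff_br_capw (hg : g.Ok) (hB : BudBoxOk g.kb g.M kmin) {a b : ℝ} (ha : 0 ≤ a) (hab : a ≤ b) (hb : b ≤ 1)
    (hneg : ∀ u ∈ Ioo a b, g.H (budQ g.ρ u) < 0) : budQ g.ρ b - budQ g.ρ a ≤ 2 / g.M := by
  have hM : 0 < g.M := zero_lt_one.trans hg.M1
  have ha1 : a ∈ Icc (0 : ℝ) 1 := ⟨ha, hab.trans hb⟩
  have hb1 : b ∈ Icc (0 : ℝ) 1 := ⟨ha.trans hab, hb⟩
  have hqa := budQ_mem_Icc hB hg.dens ha1
  have hqb := budQ_mem_Icc hB hg.dens hb1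
  have h := BudGeo.cap_width hg hqa.1 (budQ_mono hB hg.dens ha1 hb1 hab) hqb.2 (ff_br_neg hg hB ha hab hb hneg)
  refine h.trans ?_
  exact div_le_div_of_nonneg_right (by norm_num) hM.le

/-- field `capT`: **(20) on a complete cap of the flat region**, `∫_cap E tr H² du ≤ μ/(cn C0)`
(`flat_cap`: `a' ≤ S ≤ b'` inside; `cm_ut_cap_abs` with `Mf = M`, `dS = b' - a'`, `eg = C0`; `al_cap`: `μ = M (b' - a')`) -/
theorem ff_br_capT (hg : g.Ok) (hB : BudBoxOk g.kb g.M kmin) (hf : g.Flat R0 C0) (hX : Xn.Ok)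
    (hlink : ∀ r ∈ Ioo (0 : ℝ) 1, g.S r = Xn.S (g.al r)) (hcn : 0 < cn)
    (hclock : ∀ s t, 0 ≤ s → s ≤ t → t ≤ R0 → cn * C0 * ∫ r in s..t, Xn.TH (g.al r) ≤ Xn.S (g.al t) - Xn.S (g.al s))
    (h0 : 0 < ρ0) (hρ : ρ0 + 1 / g.M ≤ R0) {a b : ℝ} (ha : 0 ≤ a) (hab : a < b) (hb : b ≤ g.al ρ0)
    (hneg : ∀ u ∈ Ioo a b, g.H (budQ g.ρ u) < 0) (hA : g.H (budQ g.ρ a) = 0 ∨ a = 0) (hBb : g.H (budQ g.ρ b) = 0) :
    ∫ u in Ioo a b, Xn.TH u ≤ 1 / (cn * C0) * (b - a) := by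
  have hM : 0 < g.M := zero_lt_one.trans hg.M1
  have hM' : 0 < 1 / g.M := by positivity
  have hC0 := hf.hC0
  have h1 : ρ0 < 1 := by linarith [hf.hR]
  have hV := (ff_br_V0 hg hB h0 h1.le).2
  have hb' : b ≤ 1 := hb.trans hV
  have ha1 : a ∈ Icc (0 : ℝ) 1 := ⟨ha, hab.le.trans hb'⟩
  have hb1 : b ∈ Icc (0 : ℝ) 1 := ⟨ha.trans hab.le, hb'⟩
  have hqa := budQ_mem_Icc hB hg.dens ha1
  have hqb := budQ_mem_Icc hB hg.dens hb1
  have hala : g.al (budQ g.ρ a) = a := budAl_Q hB hg.dens ha1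
  have halb : g.al (budQ g.ρ b) = b := budAl_Q hB hg.dens hb1
  set a' := budQ g.ρ a with ha'
  set b' := budQ g.ρ b with hb'd
  have hab' : a' < b' := by
    rw [hb'd, lt_budQ_iff hB hg.dens hqa hb1]
    exact hala.trans_lt hab
  have hbρ : b' ≤ ρ0 := (ff_br_rq_mem hg hB h0 h1.le ⟨ha.trans_lt hab, hb⟩).2
  have hbR : b' ≤ R0 := by linarith
  have hn' := ff_br_neg hg hB ha hab.le hb' hneg
  have hCL : g.CapL a' b' := by
    refine ⟨hqa.1, hab', hqb.2, hn', ?_⟩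
    rcases hA with h | h
    · exact Or.inl h
    · right
      have e := budQ_al hB hg.dens (left_mem_Icc.2 (zero_le_one' ℝ))
      rw [budAl_zero] at e
      rw [ha', h, e]
  have hCR : g.CapR a' b' := ⟨hqa.1, hab', hqb.2, hn', Or.inl hBb⟩
  have hsubI : Icc a' b' ⊆ Icc (0 : ℝ) 1 := Icc_subset_Icc hqa.1 hqb.2
  have hsubU : Icc (g.al a') (g.al b') ⊆ Icc (0 : ℝ) 1 := by
    rw [hala, halb]; exact Icc_subset_Icc ha hb'
  have key := cm_ut_cap_abs g.al Xn.S Xn.TH (fun _ => C0) (fun _ => g.M) a' b' cn (b' - a') C0 hab'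
    ((BudGeo.al_mono hg).mono hsubI) ((budAl_cont hB hg.dens).mono hsubI) continuousOn_const (fun _ _ => hM)
    monotoneOn_const
    (fun s t hs hst ht => by
      rw [BudGeo.al_cap hg (hqa.1.trans hs) hst (ht.trans hqb.2)
        (fun r hr => hn' r ⟨hs.trans_lt hr.1, hr.2.trans_le ht⟩)]
      simp [mul_comm])
    hX.TH_meas (fun u hu => hX.TH_nn u (hsubU hu)) (fun u hu => hX.TH_le u (hsubU hu))
    continuousOn_const hcn hC0 (fun _ _ => le_rfl)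
    (fun s t hs hst ht => by
      rw [intervalIntegral.integral_const_mul, ← mul_assoc]
      exact hclock s t (hqa.1.trans hs) hst (ht.trans hbR))
    (fun s t hs hst ht => by
      have hsm : s ∈ Ioo a' b' := ⟨hs, hst.trans_lt ht⟩
      have htm : t ∈ Ioo a' b' := ⟨hs.trans_le hst, ht⟩
      have e1 := hlink s ⟨hqa.1.trans_lt hsm.1, hsm.2.trans_le hqb.2⟩
      have e2 := hlink t ⟨hqa.1.trans_lt htm.1, htm.2.trans_le hqb.2⟩
      rw [← e1, ← e2]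
      have f1 := BudGeo.flat_cap hg hf hCL hCR hbR hsm
      have f2 := BudGeo.flat_cap hg hf hCL hCR hbR htm
      linarith [f1.1, f2.2.1])
  have k2 := key.2.1
  rw [hala, halb] at k2
  have hw := BudGeo.al_cap hg hqa.1 hab'.le hqb.2 hn'
  rw [hala, halb] at hw
  refine k2.trans (le_of_eq ?_)
  rw [hw]
  ring

/-- `α` is continuous on `[0,1]` (no floor needed) -/
theorem ff_br_al_cont (hg : g.Ok) : ContinuousOn g.al (Icc 0 1) := by
  have hM : 0 ≤ g.M := (zero_lt_one.trans hg.M1).le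
  have : LipschitzOnWith (Real.toNNReal g.M) g.al (Icc 0 1) := by
    refine LipschitzOnWith.of_dist_le_mul fun x hx y hy => ?_
    rw [Real.dist_eq, Real.dist_eq, Real.coe_toNNReal _ hM]
    rcases le_total x y with h | h
    · have b := BudGeo.al_bounds hg hx.1 h hy.2
      have n := BudGeo.pot_kb_int_nonneg hg h
      rw [abs_sub_comm, abs_of_nonneg (by linarith [b.1]), abs_sub_comm, abs_of_nonneg (by linarith)]
      exact b.2
    · have b := BudGeo.al_bounds hg hy.1 h hx.2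
      have n := BudGeo.pot_kb_int_nonneg hg h
      rw [abs_of_nonneg (by linarith [b.1]), abs_of_nonneg (by linarith)]
      exact b.2
  exact this.continuousOn

theorem ff_br_al_mem (hg : g.Ok) {r : ℝ} (hr : r ∈ Icc (0 : ℝ) 1) : g.al r ∈ Icc (0 : ℝ) 1 := by
  have h0 := BudGeo.al_mono hg (left_mem_Icc.2 zero_le_one) hr hr.1
  have h1 := BudGeo.al_mono hg hr (right_mem_Icc.2 zero_le_one) hr.2
  rw [BudGeo.al_zero hg] at h0
  rw [BudGeo.al_one hg] at h1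
  exact ⟨h0, h1⟩

/-- (20) on contact, radius coordinate: `contact_ae` + `Flat` give `S = r` a.e. on `{H = 0}`; two-point form of the clock; `cm_density_le` -/
theorem ff_br_ct_rad (hg : g.Ok) (hf : g.Flat R0 C0) (hX : Xn.Ok)
    (hlink : ∀ r ∈ Ioo (0 : ℝ) 1, g.S r = Xn.S (g.al r)) (hcn : 0 < cn)
    (hclock : ∀ s t, 0 ≤ s → s ≤ t → t ≤ R0 → cn * C0 * ∫ r in s..t, Xn.TH (g.al r) ≤ Xn.S (g.al t) - Xn.S (g.al s)) :
    ∀ᵐ r ∂(volume : Measure ℝ), r ∈ Ioo 0 R0 → g.H r = 0 → Xn.TH (g.al r) ≤ 1 / (cn * C0) := by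
  have hC0 := hf.hC0
  have hcC : 0 < cn * C0 := mul_pos hcn hC0
  set F : ℝ → ℝ := (Icc (0 : ℝ) 1).indicator (fun r => Xn.TH (g.al r)) with hF
  have hFm : AEStronglyMeasurable F volume := by
    rw [hF, aestronglyMeasurable_indicator_iff measurableSet_Icc]
    exact (hX.TH_meas.comp_aemeasurable ((ff_br_al_cont hg).aemeasurable measurableSet_Icc)).aestronglyMeasurable
  have hFb : ∀ r, ‖F r‖ ≤ 1 := by
    intro r
    by_cases hr : r ∈ Icc (0 : ℝ) 1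
    · rw [hF, indicator_of_mem hr, Real.norm_of_nonneg (hX.TH_nn _ (ff_br_al_mem hg hr))]
      exact hX.TH_le _ (ff_br_al_mem hg hr)
    · rw [hF, indicator_of_notMem hr]; simp
  have hFl : LocallyIntegrable F volume := by
    refine (locallyIntegrable_const (1 : ℝ)).mono hFm (Filter.Eventually.of_forall fun r => ?_)
    simpa using hFb r
  set Zs : Set ℝ := (Ioo 0 R0 ∩ (Icc (0 : ℝ) 1 ∩ g.H ⁻¹' {0})) ∩ {r | g.S r = r} with hZs
  have hZm : MeasurableSet Zs :=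
    (measurableSet_Ioo.inter ((BudGeo.H_cont hg).preimage_isClosed_of_isClosed isClosed_Icc isClosed_singleton).measurableSet).inter
      (measurableSet_eq_fun hg.Sm measurable_id)
  have hZ0 : Zs ⊆ Ici 0 := fun r hr => hr.1.1.1.le
  have key := cm_density_le F hFl Zs hZm hZ0 (1 / (cn * C0)) (by
    intro r1 h1 r2 h2 h12 _
    have m1 : r1 ∈ Ioo (0 : ℝ) 1 := ⟨h1.1.1.1, h1.1.1.2.trans_le hf.hR⟩
    have m2 : r2 ∈ Ioo (0 : ℝ) 1 := ⟨h2.1.1.1, h2.1.1.2.trans_le hf.hR⟩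
    have hc := hclock r1 r2 m1.1.le h12.le h2.1.1.2.le
    rw [← hlink r1 m1, ← hlink r2 m2] at hc
    have s1 : g.S r1 = r1 := h1.2
    have s2 : g.S r2 = r2 := h2.2
    rw [s1, s2] at hc
    have e : ∫ r in r1..r2, F r = ∫ r in r1..r2, Xn.TH (g.al r) := by
      refine intervalIntegral.integral_congr fun r hr => ?_
      rw [uIcc_of_le h12.le] at hr
      have hrm : r ∈ Icc (0 : ℝ) 1 := ⟨m1.1.le.trans hr.1, hr.2.trans m2.2.le⟩
      rw [hF, indicator_of_mem hrm]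
    rw [e, one_div, inv_mul_eq_div, le_div_iff₀ hcC, mul_comm]
    exact hc)
  rw [ae_restrict_iff' hZm] at key
  filter_upwards [key, BudGeo.contact_ae hg] with r k c hr hH
  have m : r ∈ Ioo (0 : ℝ) 1 := ⟨hr.1, hr.2.trans_le hf.hR⟩
  have hbr := c m hH
  rw [hf.hp r ⟨hr.1.le, hr.2.le⟩] at hbr
  have hS : g.S r = r := by
    rw [budBr_p_zero] at hbr
    linarith
  have := k ⟨⟨hr, Ioo_subset_Icc_self m, hH⟩, hS⟩
  rwa [hF, indicator_of_mem (Ioo_subset_Icc_self m)] at this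

/-- the volume of a measurable set of masses, computed in the radius coordinate -/
theorem ff_br_vol (hg : g.Ok) (hB : BudBoxOk g.kb g.M kmin) {E : Set ℝ} (hE : MeasurableSet E) (hsub : E ⊆ Ioo (0 : ℝ) 1) :
    volume E = ∫⁻ r in budAl g.ρ ⁻¹' E ∩ Ioo (0 : ℝ) 1, ENNReal.ofReal (g.ρ r) := by
  have e1 : volume E = (volume.restrict (Ioo (0 : ℝ) 1)) E := by
    rw [Measure.restrict_apply hE, inter_eq_left.2 hsub]
  rw [e1, ← bud_map hB hg.dens, Measure.map_apply_of_aemeasurable (budAl_aemeasurable hB hg.dens) hE, budMu,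
    withDensity_apply', Measure.restrict_restrict' measurableSet_Ioo]

/-- a null set of radii carries no mass (`bud_cov` with an indicator) -/
theorem ff_br_null (hg : g.Ok) (hB : BudBoxOk g.kb g.M kmin) {A : Set ℝ} (hA : MeasurableSet A) (h0 : volume A = 0) :
    volume {u | u ∈ Ioo (0 : ℝ) 1 ∧ budQ g.ρ u ∈ A} = 0 := by
  classical
  have hQm : Measurable ((Icc (0 : ℝ) 1).piecewise (budQ g.ρ) (fun _ => (0 : ℝ))) :=
    (ff_br_rq_cont hg hB).measurable_piecewise continuousOn_const measurableSet_Icc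
  have hEq : {u | u ∈ Ioo (0 : ℝ) 1 ∧ budQ g.ρ u ∈ A}
      = Ioo (0 : ℝ) 1 ∩ ((Icc (0 : ℝ) 1).piecewise (budQ g.ρ) (fun _ => (0 : ℝ))) ⁻¹' A := by
    ext u
    simp only [mem_ofPred_eq, mem_inter_iff, mem_preimage]
    constructor
    · rintro ⟨h1, h2⟩
      exact ⟨h1, by rwa [piecewise_eq_of_mem _ _ _ (Ioo_subset_Icc_self h1)]⟩
    · rintro ⟨h1, h2⟩
      exact ⟨h1, by rwa [piecewise_eq_of_mem _ _ _ (Ioo_subset_Icc_self h1)] at h2⟩
  have hE : MeasurableSet {u | u ∈ Ioo (0 : ℝ) 1 ∧ budQ g.ρ u ∈ A} := by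
    rw [hEq]; exact measurableSet_Ioo.inter (hQm hA)
  rw [ff_br_vol hg hB hE (fun u hu => hu.1)]
  have hs : budAl g.ρ ⁻¹' {u | u ∈ Ioo (0 : ℝ) 1 ∧ budQ g.ρ u ∈ A} ∩ Ioo (0 : ℝ) 1 ⊆ A := by
    rintro r ⟨h1, h2⟩
    have := h1.2
    rwa [budQ_al hB hg.dens (Ioo_subset_Icc_self h2)] at this
  have hz : volume (budAl g.ρ ⁻¹' {u | u ∈ Ioo (0 : ℝ) 1 ∧ budQ g.ρ u ∈ A} ∩ Ioo (0 : ℝ) 1) = 0 :=
    measure_mono_null hs h0
  rw [Measure.restrict_eq_zero.2 hz, lintegral_zero_measure]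

/-- field `ctT` -/
theorem ff_br_ctT (hg : g.Ok) (hB : BudBoxOk g.kb g.M kmin) (hf : g.Flat R0 C0) (hX : Xn.Ok)
    (hlink : ∀ r ∈ Ioo (0 : ℝ) 1, g.S r = Xn.S (g.al r)) (hcn : 0 < cn)
    (hclock : ∀ s t, 0 ≤ s → s ≤ t → t ≤ R0 → cn * C0 * ∫ r in s..t, Xn.TH (g.al r) ≤ Xn.S (g.al t) - Xn.S (g.al s))
    (h0 : 0 < ρ0) (hρ : ρ0 + 1 / g.M ≤ R0) :
    ∀ᵐ u ∂(volume : Measure ℝ), u ∈ Icc 0 (g.al ρ0) → g.H (budQ g.ρ u) = 0 → Xn.TH u ≤ 1 / (cn * C0) := by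
  have hM : 0 < g.M := zero_lt_one.trans hg.M1
  have hM' : 0 < 1 / g.M := by positivity
  have h1 : ρ0 < 1 := by linarith [hf.hR]
  have hV := (ff_br_V0 hg hB h0 h1.le).2
  have hr := ff_br_ct_rad hg hf hX hlink hcn hclock
  rw [ae_iff] at hr
  set A0 : Set ℝ := {r | ¬(r ∈ Ioo 0 R0 → g.H r = 0 → Xn.TH (g.al r) ≤ 1 / (cn * C0))} with hA0
  have hA : volume (toMeasurable volume A0) = 0 := by rw [measure_toMeasurable]; exact hr
  have hn := ff_br_null hg hB (measurableSet_toMeasurable volume A0) hA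
  have hn' : ∀ᵐ u ∂(volume : Measure ℝ), ¬(u ∈ Ioo (0 : ℝ) 1 ∧ budQ g.ρ u ∈ toMeasurable volume A0) := by
    rw [ae_iff]
    simp only [not_not]
    exact hn
  have e0 : ∀ᵐ u ∂(volume : Measure ℝ), u ≠ 0 := by simp [ae_iff, measure_singleton]
  have e1 : ∀ᵐ u ∂(volume : Measure ℝ), u ≠ 1 := by simp [ae_iff, measure_singleton]
  filter_upwards [hn', e0, e1] with u hu u0 u1 hm hH
  have hu01 : u ∈ Ioo (0 : ℝ) 1 := ⟨lt_of_le_of_ne hm.1 (Ne.symm u0), lt_of_le_of_ne (hm.2.trans hV) u1⟩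
  have hq := ff_br_rq_mem hg hB h0 h1.le ⟨hu01.1, hm.2⟩
  have hnot : budQ g.ρ u ∉ A0 := fun h => hu ⟨hu01, subset_toMeasurable volume A0 h⟩
  rw [hA0, mem_ofPred_eq, not_not] at hnot
  have := hnot ⟨hq.1, by linarith [hq.2]⟩ hH
  have hal : g.al (budQ g.ρ u) = u := budAl_Q hB hg.dens (Ioo_subset_Icc_self hu01)
  rwa [hal] at this

/-- field `fl`: the floor mass below `α(ρ0)` (`bud_cov` with an indicator, `floor_mass`) -/
theorem ff_br_fl (hg : g.Ok) (hB : BudBoxOk g.kb g.M kmin) (h0 : 0 < ρ0) (h1 : ρ0 ≤ 1) :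
    volume {u | u ∈ Icc 0 (g.al ρ0) ∧ 0 < g.H (budQ g.ρ u)} ≤ ENNReal.ofReal (∫ r in (0 : ℝ)..ρ0, g.kb r) := by
  have hm : ρ0 ∈ Icc (0 : ℝ) 1 := ⟨h0.le, h1⟩
  set E : Set ℝ := (Ioo (0 : ℝ) 1 ∩ (fun u => g.H (budQ g.ρ u)) ⁻¹' Ioi 0) ∩ Iic (g.al ρ0) with hEd
  have hE : MeasurableSet E :=
    ((((ff_br_H_cont hg hB).mono Ioo_subset_Icc_self).isOpen_inter_preimage isOpen_Ioo isOpen_Ioi).measurableSet).inter
      measurableSet_Iic
  have hsub : {u | u ∈ Icc 0 (g.al ρ0) ∧ 0 < g.H (budQ g.ρ u)} ⊆ E ∪ ({0} ∪ {1}) := by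
    rintro u ⟨hu, hH⟩
    have hV := (ff_br_V0 hg hB h0 h1).2
    by_cases e0 : u = 0
    · exact Or.inr (Or.inl e0)
    by_cases e1 : u = 1
    · exact Or.inr (Or.inr e1)
    exact Or.inl ⟨⟨⟨lt_of_le_of_ne hu.1 (Ne.symm e0), lt_of_le_of_ne (hu.2.trans hV) e1⟩, hH⟩, hu.2⟩
  have hnull : volume (({0} : Set ℝ) ∪ {1}) = 0 := by
    refine measure_union_null ?_ ?_ <;> simp
  have h2 : volume {u | u ∈ Icc 0 (g.al ρ0) ∧ 0 < g.H (budQ g.ρ u)} ≤ volume E :=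
    (measure_mono hsub).trans ((measure_union_le _ _).trans (by rw [hnull, add_zero]))
  refine h2.trans ?_
  rw [ff_br_vol hg hB hE (fun u hu => hu.1.1)]
  have hs : budAl g.ρ ⁻¹' E ∩ Ioo (0 : ℝ) 1 ⊆ Ioc 0 ρ0 ∩ {r | 0 < g.H r} := by
    rintro r ⟨hr1, hr2⟩
    have hrI := Ioo_subset_Icc_self hr2
    have hH : 0 < g.H (budQ g.ρ (budAl g.ρ r)) := hr1.1.2
    rw [budQ_al hB hg.dens hrI] at hH
    have hle : budAl g.ρ r ≤ budAl g.ρ ρ0 := hr1.2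
    exact ⟨⟨hr2.1, ((budAl_strictMonoOn hB hg.dens).le_iff_le hrI hm).1 hle⟩, hH⟩
  refine (lintegral_mono_set hs).trans ?_
  have hint : IntegrableOn g.ρ (Ioc 0 ρ0 ∩ {r | 0 < g.H r}) := by
    have := hg.dens.intervalIntegrable hB (left_mem_Icc.2 zero_le_one) hm
    rw [intervalIntegrable_iff_integrableOn_Ioc_of_le h0.le] at this
    exact this.mono_set inter_subset_left
  have hnn : 0 ≤ᵐ[volume.restrict (Ioc 0 ρ0 ∩ {r | 0 < g.H r})] g.ρ := by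
    refine ae_restrict_of_ae_restrict_of_subset (t := Ioc 0 ρ0) inter_subset_left ?_
    rw [ae_restrict_iff' measurableSet_Ioc]
    filter_upwards [hg.dens.ae_bounds hB] with r hr hrm
    exact hB.kmin0.le.trans ((hB.kb_ge r).trans (hr ⟨hrm.1.le, hrm.2.trans h1⟩).1)
  rw [← ofReal_integral_eq_lintegral_ofReal hint hnn]
  exact ENNReal.ofReal_le_ofReal (BudGeo.floor_mass hg le_rfl h0.le h1)

/-- **EXIT of the bridge** -/
theorem ff_of_geo (hg : g.Ok) (hB : BudBoxOk g.kb g.M kmin) (hf : g.Flat R0 C0) (hX : Xn.Ok)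
    (hlink : ∀ r ∈ Ioo (0 : ℝ) 1, g.S r = Xn.S (g.al r)) (hcn : 0 < cn)
    (hclock : ∀ s t, 0 ≤ s → s ≤ t → t ≤ R0 → cn * C0 * ∫ r in s..t, Xn.TH (g.al r) ≤ Xn.S (g.al t) - Xn.S (g.al s))
    (h0 : 0 < ρ0) (hρ : ρ0 + 1 / g.M ≤ R0) : (ffOfGeo g Xn cn C0 ρ0).Ok := by
  have hM : 0 < g.M := zero_lt_one.trans hg.M1
  have hM' : 0 < 1 / g.M := by positivity
  have h1 : ρ0 ≤ 1 := by linarith [hf.hR]
  obtain ⟨hV0, hV1⟩ := ff_br_V0 hg hB h0 h1
  have hsub : Icc 0 (g.al ρ0) ⊆ Icc (0 : ℝ) 1 := Icc_subset_Icc_right hV1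
  have hC0 := hf.hC0
  refine
    { num := hX
      V0_pos := hV0
      V0_le := hV1
      T_nn := by
        show 0 ≤ 1 / (cn * C0)
        positivity
      dl_nn := by
        show 0 ≤ 2 / g.M
        positivity
      Fl_nn := intervalIntegral.integral_nonneg h0.le fun r _ => hg.kb0 r
      Hc := (ff_br_H_cont hg hB).mono hsub
      rq_mono := (budQ_mono hB hg.dens).mono hsub
      rq_cont := (ff_br_rq_cont hg hB).mono hsub
      nf := fun u hu hH => ff_br_nf hg hB hf hlink h0 hρ hu hH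
      capw := fun a b ha hab hb hneg => ff_br_capw hg hB ha hab (hb.trans hV1) hneg
      capT := fun a b ha hab hb hneg hA hBb => ff_br_capT hg hB hf hX hlink hcn hclock h0 hρ ha hab hb hneg hA hBb
      ctT := ff_br_ctT hg hB hf hX hlink hcn hclock h0 hρ
      fl := ff_br_fl hg hB h0 h1 }

end

end Claimed.Agent.R286
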