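import Claimed.Agent.R286.Bud.L07S
import Claimed.Agent.R286.Bud.Mom
import Claimed.Agent.R286.Cav.Lim
import Claimed.Agent.R286.Cav.AbsL1

/-!
# Row 286, LL sec. 7, package L07, node N8 = PROP. 7.7 (closure for the modified constraints), `07-budgets.tex` l.549-872      (owner helper33; head of the package helper12; prefix `bd7c_`, types `Bd7C*`)
TEX[LL:bud:modified-closure]

Prop. 7.7 = PE Prop. 4.1 "with `(n, x, W, T) → (m, w, W, T_m)`".   PE Sec. 4 is formalised by helper223 as an ABSTRACT theorem over the inputs `CavIn.Ok`, `CavIn.Star`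
(`Cav/Contract.lean`; PATH-LEVEL form `CavP.Ok`, `CavP.Star`, `cav_path_small` of helper76, `Cav/Lim.lean`), so Prop. 7.7 is: **(1) the changed path of a strong instance supplies these inputs** (`Bd7CSup`; = the ledger (i)-(iii) of l.573-872; cut in `Bud/L07Ca*.lean`)
**+ (2) glue** (THIS FILE, PROVED): dictionary world ↔ Hub, modulus form ⇒ the three fields of `Bd7Clo` (sup bound, normalised `L¹` norm in mass and in radius).

IMPORTS of `bd7c_clo` (each a `def … : Prop`; OWNER in brackets)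
* `W.IsHub`      the world is the Hub                                                                    [162/198, `Exit/BudWorld`]
* `Bd7Adm`       the changed clocks are clocks                                                           [L06 / N3-N4, helper109]
* `Bd7Raw`       (C8), first two moments                                                                 [L06 / N5, helper109]
* `Bd7Band`      Lemma 7.6: band integrals of `D²` in both coordinates                                   [L06 / N7, helper190]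
* `Bd7CGam`      BRIDGE `cvGamC m b h (ghPosA v)` (223; `= cvGamP m b h v` by `exit_cav_gam`) `= bmGam K_s (K_s v)` (198): two path-level codings of `Γ_{K_s}(K_s(v))`      [owner: to be named by 76; clock API C1-C4]
* `Bd7CRc`       the changed clocks are right-continuous on `(0,1)`                                       [family: 66/212; `r`, `C(·)`: helper33]
* `Bd7CSup`      the supply of the cavity inputs                                                         [helper33, `Bud/L07Ca*.lean`]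
EXIT: `bd7c_clo : … → Bd7Clo X W Fam cL CL`.
-/

set_option autoImplicit false

namespace Claimed.Agent.R286

open MeasureTheory Set Filter Topology

noncomputable section

/-! ## 0. tools -/

/-- a clock of `Bud/PSys` extended by `bmExt` is a clock of `Defs/Clk` -/
theorem bd7c_ext_clk {c : ℝ → ℝ} (h : IsClock 1 c) : GhClk1 1 (bmExt c) := by
  obtain ⟨C, hC⟩ := h.bdd
  have hbdd : BddAbove (c '' Ioo 0 1) := ⟨C, by rintro _ ⟨v, hv, rfl⟩; exact hC v hv⟩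
  refine ⟨?_, by simp [bmExt]⟩
  intro u hu u' hu' huu
  unfold bmExt
  by_cases h0 : u ≤ 0
  · rw [if_pos h0]
    by_cases h0' : u' ≤ 0
    · rw [if_pos h0']
    · rw [if_neg h0']
      by_cases h1' : u' < 1
      · rw [if_pos h1']; exact h.nonneg u' ⟨not_le.1 h0', h1'⟩
      · rw [if_neg h1']
        have hm : (1 / 2 : ℝ) ∈ Ioo (0 : ℝ) 1 := by constructor <;> norm_num
        exact (h.nonneg _ hm).trans (le_csSup hbdd ⟨_, hm, rfl⟩)
  · have h0' : ¬ u' ≤ 0 := fun hh => h0 (huu.trans hh)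
    rw [if_neg h0, if_neg h0']
    by_cases h1' : u' < 1
    · have h1 : u < 1 := lt_of_le_of_lt huu h1'
      rw [if_pos h1, if_pos h1']
      exact h.mono ⟨not_le.1 h0, h1⟩ ⟨not_le.1 h0', h1'⟩ huu
    · rw [if_neg h1']
      by_cases h1 : u < 1
      · rw [if_pos h1]; exact le_csSup hbdd ⟨u, ⟨not_le.1 h0, h1⟩, rfl⟩
      · rw [if_neg h1]

/-- **modulus form ⇒ `L¹` bound on a set** (`D2` = the NORMALISED square `(D/w)²`) -/
theorem bd7c_int_mod {s : Set ℝ} (hs : MeasurableSet s) {f D2 : ℝ → ℝ} {A ε1 κ θ L I : ℝ}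
    (hA : 0 ≤ A) (hε1 : 0 ≤ ε1) (hκ : 0 < κ) (hθ0 : 0 < θ) (hθ2 : θ ≤ 2)
    (hfin : volume s ≠ ⊤) (hL : (volume s).toReal ≤ L)
    (hD0 : ∀ v ∈ s, 0 ≤ D2 v) (hDi : IntegrableOn D2 s) (hI : ∫ v in s, D2 v ≤ I)
    (hf : ∀ v ∈ s, |f v| ≤ A * (ε1 + Real.sqrt (D2 v) ^ θ)) :
    ∫ v in s, |f v| ≤ A * ((ε1 + κ ^ θ) * L + κ ^ (θ - 2) * I) := by
  have hκθ : 0 ≤ κ ^ θ := (Real.rpow_pos_of_pos hκ _).le
  have hκ2 : 0 ≤ κ ^ (θ - 2) := (Real.rpow_pos_of_pos hκ _).le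
  have hc : IntegrableOn (fun _ : ℝ => ε1 + κ ^ θ) s := integrableOn_const hfin
  have hg : IntegrableOn (fun v => A * ((ε1 + κ ^ θ) + κ ^ (θ - 2) * D2 v)) s :=
    (hc.add (hDi.const_mul _)).const_mul _
  calc ∫ v in s, |f v| ≤ ∫ v in s, A * ((ε1 + κ ^ θ) + κ ^ (θ - 2) * D2 v) := by
        refine integral_mono_of_nonneg (Eventually.of_forall fun v => abs_nonneg _) hg ?_
        refine (ae_restrict_iff' hs).2 (Eventually.of_forall fun v hv => ?_)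
        refine (hf v hv).trans (mul_le_mul_of_nonneg_left ?_ hA)
        have := sk_cv_pow_le (Real.sqrt (D2 v)) κ θ (Real.sqrt_nonneg _) hκ hθ0 hθ2
        rw [Real.sq_sqrt (hD0 v hv)] at this
        linarith
    _ = A * ((ε1 + κ ^ θ) * (volume s).toReal + κ ^ (θ - 2) * ∫ v in s, D2 v) := by
        rw [integral_const_mul, integral_add hc (hDi.const_mul _), setIntegral_const, integral_const_mul,
          smul_eq_mul, Measure.real]
        ring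
    _ ≤ _ := by
        refine mul_le_mul_of_nonneg_left ?_ hA
        exact add_le_add (mul_le_mul_of_nonneg_left hL (by linarith)) (mul_le_mul_of_nonneg_left hI hκ2)

/-! ## 1. monotonicity of a feasible quantile, the bands -/

namespace BdQ

variable {F : BdFr} {X : BdFix} (Q : BdQ F X)

theorem bd7c_kbar_nonneg (hF : F.Ok X) (r : ℝ) : 0 ≤ F.kbar X r := by
  unfold BdFr.kbar BdFr.k CmCall.k
  have h1 : 0 ≤ (F.call X).N ^ (F.call X).dl * (F.call X).us ^ 2 / (r + (F.call X).N ^ (2 * (F.call X).dl) * (F.call X).us) ^ 2 := by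
    have : 0 ≤ (F.call X).N ^ (F.call X).dl := Real.rpow_nonneg (by unfold CmCall.N; positivity) _
    positivity
  have h2 : 0 ≤ (if r ∈ Icc (F.Ilo * F.u) (F.Ihi * F.u) then F.kap else 0) := by
    split_ifs
    · exact hF.kap0
    · exact le_rfl
  linarith

theorem bd7c_al_mono (hF : F.Ok X) : MonotoneOn Q.al (Icc 0 1) := by
  intro r1 h1 r2 h2 h12
  have := Q.lo r1 r2 h1.1 h12 h2.2
  have h0 : 0 ≤ ∫ t in r1..r2, F.kbar X t :=
    intervalIntegral.integral_nonneg h12 fun t _ => bd7c_kbar_nonneg hF t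
  linarith

theorem bd7c_r_mono (hF : F.Ok X) : MonotoneOn Q.r (Icc 0 1) := by
  intro v1 h1 v2 h2 h12
  by_contra hlt
  have hlt : Q.r v2 < Q.r v1 := not_le.1 hlt
  have := Q.bd7c_al_mono hF (Q.r_mem v2 h2) (Q.r_mem v1 h1) hlt.le
  rw [Q.al_r v2 h2, Q.al_r v1 h1] at this
  have e : v1 = v2 := le_antisymm h12 this
  rw [e] at hlt
  exact lt_irrefl _ hlt

end BdQ

namespace Bd7I

variable {X : BdFix} (i : Bd7I X)

theorem bd7c_bandM_sub {c C : ℝ} : i.bandM c C ⊆ Icc (c * i.w) (C * i.w) := fun _ hv => ⟨hv.1, hv.2.1⟩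

theorem bd7c_bandR_sub {c C : ℝ} : i.bandR c C ⊆ Icc 0 (C * i.w) := fun _ hv => ⟨hv.1, hv.2.1⟩

theorem bd7c_bandM_meas (hF : i.F.Ok X) {c C : ℝ} (hc : 0 ≤ c * i.w) (hC : C * i.w ≤ 1) : MeasurableSet (i.bandM c C) := by
  apply Set.OrdConnected.measurableSet
  refine ⟨fun v1 h1 v2 h2 v hv => ⟨h1.1.trans hv.1, hv.2.trans h2.2.1, ?_⟩⟩
  have hm : v ∈ Icc (0 : ℝ) 1 := ⟨hc.trans (h1.1.trans hv.1), (hv.2.trans h2.2.1).trans hC⟩
  have hm2 : v2 ∈ Icc (0 : ℝ) 1 := ⟨hc.trans h2.1, h2.2.1.trans hC⟩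
  exact (i.Q.bd7c_r_mono hF hm hm2 hv.2).trans h2.2.2

theorem bd7c_bandR_meas (hF : i.F.Ok X) {c C : ℝ} (hC : C * i.w ≤ 1) : MeasurableSet (i.bandR c C) := by
  apply Set.OrdConnected.measurableSet
  refine ⟨fun r1 h1 r2 h2 r hr => ?_⟩
  have hm1 : r1 ∈ Icc (0 : ℝ) 1 := ⟨h1.1, h1.2.1.trans hC⟩
  have hm2 : r2 ∈ Icc (0 : ℝ) 1 := ⟨h2.1, h2.2.1.trans hC⟩
  have hm : r ∈ Icc (0 : ℝ) 1 := ⟨h1.1.trans hr.1, hr.2.trans hm2.2⟩
  exact ⟨hm.1, hr.2.trans h2.2.1, h1.2.2.1.trans (i.Q.bd7c_al_mono hF hm1 hm hr.1),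
    (i.Q.bd7c_al_mono hF hm hm2 hr.2).trans h2.2.2.2⟩

/-- a radius of the radius band is carried by `α` into the mass band -/
theorem bd7c_bandR_al {c C : ℝ} (hC : C * i.w ≤ 1) {ρ : ℝ} (hρ : ρ ∈ i.bandR c C) : i.Q.al ρ ∈ i.bandM c C := by
  refine ⟨hρ.2.2.1, hρ.2.2.2, ?_⟩
  rw [i.Q.r_al ρ ⟨hρ.1, hρ.2.1.trans hC⟩]
  exact hρ.2.1

end Bd7I

/-! ## 2. statistics of a changed path -/

/-- integrability of `B - S²` on a set on which `S`, `B` are monotone -/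
theorem bd7c_int_D2 {s : Set ℝ} (hs : MeasurableSet s) (hfin : volume s ≠ ⊤) {S B : ℝ → ℝ}
    (hS : MonotoneOn S s) (hB : MonotoneOn B s) (hb : ∀ v ∈ s, |B v - S v ^ 2| ≤ 1) :
    IntegrableOn (fun v => B v - S v ^ 2) s := by
  have h1 : AEMeasurable S (volume.restrict s) := aemeasurable_restrict_of_monotoneOn hs hS
  have h2 : AEMeasurable B (volume.restrict s) := aemeasurable_restrict_of_monotoneOn hs hB
  have hc : IntegrableOn (fun _ : ℝ => (1 : ℝ)) s := integrableOn_const hfin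
  refine Integrable.mono' hc (h2.sub (h1.pow_const 2)).aestronglyMeasurable ?_
  exact (ae_restrict_iff' hs).2 (Eventually.of_forall fun v hv => by rw [Real.norm_eq_abs]; exact hb v hv)

/-- what the glue uses of the statistics of the changed path -/
structure Bd7CSt {X : BdFix} (i : Bd7I X) (W : BdWorld) : Prop where
  Sm : MonotoneOn (i.Q.Sq W i.g) (Ioo 0 1)
  Bm : MonotoneOn (i.Q.Bq W i.g) (Ioo 0 1)
  S0 : ∀ v ∈ Ioo (0 : ℝ) 1, 0 ≤ i.Q.Sq W i.g v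
  D0 : ∀ v ∈ Ioo (0 : ℝ) 1, 0 ≤ i.Q.Dq2 W i.g v
  D1 : ∀ v ∈ Ioo (0 : ℝ) 1, i.Q.Dq2 W i.g v ≤ 1
  Kc : IsClock 1 (i.Q.Ks W i.g)

theorem bd7c_stat {X : BdFix} (i : Bd7I X) (W : BdWorld) (ha : (W.ps i.F.m).a = 1)
    (hb : IsClock 1 (i.Q.bq i.g)) (hh : IsClock 1 (i.Q.hq i.g)) : Bd7CSt i W := by
  have hb' : IsClock (W.ps i.F.m).a (i.Q.bq i.g) := by rw [ha]; exact hb
  have hh' : IsClock (W.ps i.F.m).a (i.Q.hq i.g) := by rw [ha]; exact hh
  have hSm : MonotoneOn (i.Q.Sq W i.g) (Ioo 0 1) := by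
    have := (W.ps i.F.m).S_mono _ _ hb' hh'
    rw [ha] at this; exact this
  have hBm : MonotoneOn (i.Q.Bq W i.g) (Ioo 0 1) := by
    have := (W.ps i.F.m).B_mono _ _ hb' hh'
    rw [ha] at this; exact this
  have hS0 : ∀ v ∈ Ioo (0 : ℝ) 1, 0 ≤ i.Q.Sq W i.g v := by
    have := (W.ps i.F.m).S_nonneg _ _ hb' hh'
    rw [ha] at this; exact this
  have hSB : ∀ v ∈ Ioo (0 : ℝ) 1, i.Q.Sq W i.g v ^ 2 ≤ i.Q.Bq W i.g v := by
    have := (W.ps i.F.m).S_sq_le _ _ hb' hh'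
    rw [ha] at this; exact this
  have hB1 : ∀ v ∈ Ioo (0 : ℝ) 1, i.Q.Bq W i.g v ≤ 1 := by
    have := (W.ps i.F.m).B_le _ _ hb' hh'
    rw [ha] at this; exact this
  have hS1 : ∀ v ∈ Ioo (0 : ℝ) 1, i.Q.Sq W i.g v ≤ 1 := by
    intro v hv
    have h3 : i.Q.Sq W i.g v ^ 2 ≤ 1 := (hSB v hv).trans (hB1 v hv)
    nlinarith [hS0 v hv]
  obtain ⟨Cb, hCb⟩ := hb.bdd
  obtain ⟨Ch, hCh⟩ := hh.bdd
  have e : ∀ v, i.Q.Ks W i.g v = i.Q.hq i.g v + i.Q.bq i.g v * i.Q.Sq W i.g v := fun _ => rfl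
  refine ⟨hSm, hBm, hS0, fun v hv => ?_, fun v hv => ?_, ⟨?_, ?_, ⟨Ch + Cb, ?_⟩⟩⟩
  · unfold BdQ.Dq2; linarith [hSB v hv]
  · unfold BdQ.Dq2; nlinarith [hB1 v hv, sq_nonneg (i.Q.Sq W i.g v)]
  · intro v hv v' hv' hvv
    rw [e, e]
    have h1 := hh.mono hv hv' hvv
    have h2 : i.Q.bq i.g v * i.Q.Sq W i.g v ≤ i.Q.bq i.g v' * i.Q.Sq W i.g v' :=
      mul_le_mul (hb.mono hv hv' hvv) (hSm hv hv' hvv) (hS0 v hv) (hb.nonneg v' hv')
    linarith
  · intro v hv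
    rw [e]
    have := mul_nonneg (hb.nonneg v hv) (hS0 v hv)
    linarith [hh.nonneg v hv]
  · intro v hv
    rw [e]
    have h2 : i.Q.bq i.g v * i.Q.Sq W i.g v ≤ Cb * 1 :=
      mul_le_mul (hCb v hv) (hS1 v hv) (hS0 v hv) ((hb.nonneg v hv).trans (hCb v hv))
    linarith [hCh v hv]

/-! ## 3. the two new contracts -/

/-- **the cavity instance of a strong instance**, AT PATH LEVEL (`CavP` of helper76, `Cav/Lim.lean`): `(n, x, W, T) = (m, w, W, T_m)`, changed clocks; the low band ends at the mass `C w`;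
`pX` = `U_x` (a large fixed multiple of `w`), `ps` = the star cut `*` of Lemma 7.6, `pU` = the block cut (a large fixed multiple of `W`) -/
def Bd7I.cav {X : BdFix} (i : Bd7I X) (C sv et : ℝ) (pX ps pU : GhPos) : CavP :=
  ⟨i.F.m, i.Q.bE i.g, i.Q.hE i.g, i.w, i.F.Wsc X i.w, sv, et, i.F.Tm, ghPosA (C * i.w), pX, ps, pU⟩

section contracts

variable (X : BdFix) (W : BdWorld) (Fam : BdFr → Prop)

/-- **THE SUPPLY** (ledger (i)-(iii) of the proof of Prop. 7.7): the changed path of a strong instance satisfies the inputs of PE Sec. 4 at the scales `(w, W)`, with constants which depend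
only on `(cs, c, C)`, a saving `sv` and a rate-free `et` which tend to `0` uniformly.      ORDER: constants, then the number `kM` of moment orders and `δ`, then `N0`   (same shape as `exit_cav_inst_s`). -/
def Bd7CSup (cL CL : ℝ) : Prop :=
  ∀ cs c C : ℝ, 0 < cs → 0 < c → c ≤ C → ∃ (c' C' ρ : ℝ) (Cp : ℕ → ℝ), 0 < c' ∧ c' ≤ c ∧ 0 < ρ ∧
    ∀ (kM : ℕ) (δ : ℝ), 0 < δ → ∃ N0 : ℕ, ∀ i : Bd7I X, i.Str W Fam cL CL cs → N0 ≤ i.F.N →
      i.w ≤ δ ∧ i.F.Wsc X i.w ≤ δ ∧ ∃ (sv et : ℝ) (pX ps pU : GhPos), sv ≤ δ ∧ et ≤ δ ∧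
        (i.cav C sv et pX ps pU).Ok c' C' ρ Cp kM ∧ (i.cav C sv et pX ps pU).Star c' C' Cp kM

/-- **right-continuity of the changed clocks** (all the clocks of LL sec. 7 are continuous on `(0,1]`, `Bud/Defs.lean` l.201): the VALUE `b(v)`, `h(v)` is what the position after the mass `v` reads.
SUPPLIER: the family (`F.b g`, `F.h g` continuous: 66/212) + continuity of `r` and of `C(·)` -/
def Bd7CRc : Prop :=
  ∃ N0 : ℕ, ∀ i : Bd7I X, i.Std W Fam → N0 ≤ i.F.N → ∀ v ∈ Ioo (0 : ℝ) 1,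
    ContinuousWithinAt (i.Q.bq i.g) (Ioi v) v ∧ ContinuousWithinAt (i.Q.hq i.g) (Ioi v) v

/-- **BRIDGE** between the two path-level codings of `Γ_{K_s}(K_s(v))`: `cvGamC` (223; by `exit_cav_gam` it is `cvGamP` = the number `S` of the one-site system with the field clock `cvKf = h + b S`, at the position after the mass `v`)
and `bmGam` (198, `BdWorld.IsHub.Gam`: the same system read at the TIME `K_s(v)`).      ONLY at the points of right-continuity of the two clocks (warning of 76: `cvGamC` sees `K(v+)`, `bmGam` the VALUE `K_s(v)`). -/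
def Bd7CGam : Prop :=
  ∃ N0 : ℕ, ∀ i : Bd7I X, i.Std W Fam → N0 ≤ i.F.N → ∀ v ∈ Ioo (0 : ℝ) 1,
    ContinuousWithinAt (i.Q.bq i.g) (Ioi v) v → ContinuousWithinAt (i.Q.hq i.g) (Ioi v) v →
    cvGamC i.F.m (i.Q.bE i.g) (i.Q.hE i.g) (ghPosA v) = bmGam (i.Q.Ks W i.g) (i.Q.Ks W i.g v)

end contracts

theorem bd7c_eqns_cite : True := by
  have := @Bd7I.cav.eq_1
  have := @Bd7CSup.eq_1
  have := @Bd7CGam.eq_1
  have := @Bd7CRc.eq_1
  trivial

/-! ## 4. the modulus form -/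

section glue

variable {X : BdFix} {W : BdWorld} {Fam : BdFr → Prop} {Kb cL CL : ℝ}

theorem bd7c_posA_le {v v' : ℝ} (h : v ≤ v') : ghPosA v ≤ ghPosA v' := by
  unfold ghPosA
  rw [Prod.Lex.toLex_le_toLex]
  rcases h.lt_or_eq with h | h
  · exact Or.inl h
  · exact Or.inr ⟨h, le_rfl⟩

/-- **Prop. 7.7, display (7.7)**: the modulus form, uniformly -/
theorem bd7c_mod (hX : X.Ok) (hW : W.IsHub) (hadm : Bd7Adm X W Fam Kb) (hrc : Bd7CRc X W Fam) (hgam : Bd7CGam X W Fam)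
    (hsup : Bd7CSup X W Fam cL CL) (cs c C : ℝ) (hcs : 0 < cs) (hc : 0 < c) :
    ∃ C0 θ : ℝ, 0 ≤ C0 ∧ 0 < θ ∧ θ ≤ 1 ∧ ∀ ε : ℝ, 0 < ε → ∃ N0 : ℕ, ∀ i : Bd7I X, i.Str W Fam cL CL cs → N0 ≤ i.F.N →
      0 < i.w ∧ C * i.w < 1 ∧ Bd7CSt i W ∧
        ∀ v ∈ i.bandM c C, |i.clo W v| ≤ C0 * i.w ^ 3 * (ε + (i.Q.Dq W i.g v / i.w) ^ θ) := by
  obtain ⟨c', C', ρ, Cp, hc', hcc, hρ, hsup⟩ := hsup cs c (max C c) hcs hc (le_max_right _ _)
  obtain ⟨kM, C0, θ, w0, hθ0, hθ1, hw0, hcav⟩ := cav_path_small c' C' ρ Cp hc' hρ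
  refine ⟨|C0|, θ, abs_nonneg _, hθ0, hθ1, fun ε hε => ?_⟩
  obtain ⟨δ, hδ, hcav⟩ := hcav ε hε
  have hC1 : 0 < 1 / (2 * (|C| + 1)) := by positivity
  obtain ⟨N1, h1⟩ := hsup kM (min (min δ w0) (1 / (2 * (|C| + 1)))) (lt_min (lt_min hδ hw0) hC1)
  obtain ⟨N2, h2⟩ := hadm
  obtain ⟨N3, h3⟩ := hgam
  obtain ⟨N4, h4⟩ := hrc
  refine ⟨max (max N1 N4) (max N2 N3), fun i hi hN => ?_⟩
  have hstd : i.Std W Fam := hi.toOut.toStd
  obtain ⟨hwδ, hWδ, sv, et, pX, ps, pU, hsv, het, hOk, hStar⟩ := h1 i hi (((le_max_left _ _).trans (le_max_left _ _)).trans hN)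
  have h4 := h4 i hstd (((le_max_right _ _).trans (le_max_left _ _)).trans hN)
  obtain ⟨-, -, hb, hh, -⟩ := h2 i hstd (((le_max_left _ _).trans (le_max_right _ _)).trans hN)
  have h3 := h3 i hstd (((le_max_right _ _).trans (le_max_right _ _)).trans hN)
  have hw : 0 < i.w := lt_of_lt_of_le (BdFr.wc_pos' hX hstd.ok) hi.w_lo
  have hst := bd7c_stat i W (hW.a1 _) hb hh
  have hCw : C * i.w < 1 := by
    have h4 : i.w ≤ 1 / (2 * (|C| + 1)) := hwδ.trans (min_le_right _ _)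
    have h5 : C * i.w ≤ |C| * i.w := mul_le_mul_of_nonneg_right (le_abs_self C) hw.le
    have h6 : |C| * i.w ≤ |C| * (1 / (2 * (|C| + 1))) := mul_le_mul_of_nonneg_left h4 (abs_nonneg C)
    have h7 : |C| * (1 / (2 * (|C| + 1))) < 1 := by
      rw [mul_one_div, div_lt_one (by positivity)]
      linarith [abs_nonneg C]
    linarith
  refine ⟨hw, hCw, hst, fun v hv => ?_⟩
  have hvI : v ∈ Ioo (0 : ℝ) 1 := ⟨lt_of_lt_of_le (mul_pos hc hw) hv.1, lt_of_le_of_lt hv.2.1 hCw⟩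
  have key : |skCS i.F.m 1 (i.Q.bE i.g) (i.Q.hE i.g) (ghPosA v) - cvGamC i.F.m (i.Q.bE i.g) (i.Q.hE i.g) (ghPosA v)|
      ≤ C0 * i.w ^ 3 * (ε + (cvDC i.F.m (i.Q.bE i.g) (i.Q.hE i.g) (ghPosA v) / i.w) ^ θ) :=
    hcav (i.cav (max C c) sv et pX ps pU) hOk hStar (hWδ.trans ((min_le_left _ _).trans (min_le_right _ _)))
    (hwδ.trans ((min_le_left _ _).trans (min_le_left _ _))) (hsv.trans ((min_le_left _ _).trans (min_le_left _ _)))
    (het.trans ((min_le_left _ _).trans (min_le_left _ _))) (ghPosA v)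
    ⟨hvI.1.le, hvI.2.le, zero_le_one, le_rfl⟩ (bd7c_posA_le (hv.2.1.trans (mul_le_mul_of_nonneg_right (le_max_left _ _) hw.le)))
    ((mul_le_mul_of_nonneg_right hcc hw.le).trans hv.1)
  have hm0 : 0 < i.F.m := by
    have h1 := hstd.ok.N2
    have h2 := hstd.ok.m_lo
    have h3 : (2 : ℝ) ≤ i.F.N := by exact_mod_cast h1
    have h4 : (0 : ℝ) < i.F.m := by linarith
    exact_mod_cast h4
  have eS : skCS i.F.m 1 (i.Q.bE i.g) (i.Q.hE i.g) (ghPosA v) = i.Q.Sq W i.g v := (hW.S _ hm0 _ _ hb hh v hvI).symm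
  have eB : skCB i.F.m 1 (i.Q.bE i.g) (i.Q.hE i.g) (ghPosA v) = i.Q.Bq W i.g v := (hW.B _ hm0 _ _ hb hh v hvI).symm
  have eD : cvDC i.F.m (i.Q.bE i.g) (i.Q.hE i.g) (ghPosA v) = i.Q.Dq W i.g v := by
    unfold cvDC BdQ.Dq BdQ.Dq2
    rw [eS, eB]
  have eG : cvGamC i.F.m (i.Q.bE i.g) (i.Q.hE i.g) (ghPosA v) = i.Q.Gs W i.g (i.Q.Ks W i.g v) := by
    unfold BdQ.Gs
    rw [hW.Gam _ hst.Kc _ (hst.Kc.nonneg v hvI), h3 v hvI (h4 v hvI).1 (h4 v hvI).2]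
  rw [eS, eG, eD] at key
  have hnn : 0 ≤ i.w ^ 3 * (ε + (i.Q.Dq W i.g v / i.w) ^ θ) := by
    have : 0 ≤ (i.Q.Dq W i.g v / i.w) ^ θ := Real.rpow_nonneg (div_nonneg (Real.sqrt_nonneg _) hw.le) _
    positivity
  calc |i.clo W v| ≤ C0 * i.w ^ 3 * (ε + (i.Q.Dq W i.g v / i.w) ^ θ) := key
    _ = C0 * (i.w ^ 3 * (ε + (i.Q.Dq W i.g v / i.w) ^ θ)) := by ring
    _ ≤ |C0| * (i.w ^ 3 * (ε + (i.Q.Dq W i.g v / i.w) ^ θ)) := mul_le_mul_of_nonneg_right (le_abs_self _) hnn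
    _ = _ := by ring

/-! ## 5. the three fields of `Bd7Clo` -/

/-- the choice of the small constants -/
theorem bd7c_choice (C0 θ Cb ε : ℝ) (hC0 : 0 ≤ C0) (hθ : 0 < θ) (hCb : 0 < Cb) (hε : 0 < ε) :
    ∃ a κ ε2 : ℝ, 0 < a ∧ 0 < κ ∧ 0 < ε2 ∧ ∀ w : ℝ, 0 ≤ w →
      C0 * w ^ 3 * ((a + κ ^ θ) * (Cb * w) + κ ^ (θ - 2) * (ε2 * w)) ≤ ε * w ^ 4 := by
  have ha : 0 < ε / (3 * (C0 + 1) * Cb) := by positivity
  set a := ε / (3 * (C0 + 1) * Cb) with hadef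
  have hκ : 0 < a ^ θ⁻¹ := Real.rpow_pos_of_pos ha _
  have hκθ : (a ^ θ⁻¹) ^ θ = a := Real.rpow_inv_rpow ha.le hθ.ne'
  have hK2 : 0 < (a ^ θ⁻¹) ^ (θ - 2) := Real.rpow_pos_of_pos hκ _
  refine ⟨a, a ^ θ⁻¹, ε / (3 * (C0 + 1) * (a ^ θ⁻¹) ^ (θ - 2)), ha, hκ, by positivity, fun w hw => ?_⟩
  rw [hκθ]
  have e1 : a * Cb = ε / (3 * (C0 + 1)) := by
    rw [hadef]; field_simp
  have e2 : (a ^ θ⁻¹) ^ (θ - 2) * (ε / (3 * (C0 + 1) * (a ^ θ⁻¹) ^ (θ - 2))) = ε / (3 * (C0 + 1)) := by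
    field_simp
  have e3 : C0 * w ^ 3 * ((a + a) * (Cb * w) + (a ^ θ⁻¹) ^ (θ - 2) * (ε / (3 * (C0 + 1) * (a ^ θ⁻¹) ^ (θ - 2)) * w))
      = C0 * w ^ 4 * (2 * (a * Cb) + (a ^ θ⁻¹) ^ (θ - 2) * (ε / (3 * (C0 + 1) * (a ^ θ⁻¹) ^ (θ - 2)))) := by ring
  rw [e3, e1, e2]
  have e4 : C0 * w ^ 4 * (2 * (ε / (3 * (C0 + 1))) + ε / (3 * (C0 + 1))) = (C0 / (C0 + 1)) * (ε * w ^ 4) := by
    field_simp
    ring
  rw [e4]
  have h1 : C0 / (C0 + 1) ≤ 1 := by
    rw [div_le_one (by positivity)]; linarith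
  have h2 : 0 ≤ ε * w ^ 4 := by positivity
  nlinarith

/-- the volume of a subset of `[a, b]` -/
theorem bd7c_vol {s : Set ℝ} {a b L : ℝ} (hs : s ⊆ Icc a b) (hL : b - a ≤ L) (hL0 : 0 ≤ L) :
    volume s ≠ ⊤ ∧ (volume s).toReal ≤ L := by
  have h1 : volume s ≤ volume (Icc a b) := measure_mono hs
  have h2 : volume (Icc a b) = ENNReal.ofReal (b - a) := Real.volume_Icc
  have h3 : volume s ≤ ENNReal.ofReal L := h1.trans (h2 ▸ ENNReal.ofReal_le_ofReal hL)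
  refine ⟨ne_top_of_le_ne_top ENNReal.ofReal_ne_top h3, ?_⟩
  exact ENNReal.toReal_le_of_le_ofReal hL0 h3

/-- **PROP. 7.7** in the form consumed by Step 2 of the proof of (C7)      TEX[LL:bud:modified-closure] -/
theorem bd7c_clo (hX : X.Ok) (hW : W.IsHub) (hadm : Bd7Adm X W Fam Kb) (hraw : Bd7Raw X W Fam cL CL)
    (hband : Bd7Band X W Fam cL CL) (hrc : Bd7CRc X W Fam) (hgam : Bd7CGam X W Fam) (hsup : Bd7CSup X W Fam cL CL) :
    Bd7Clo X W Fam cL CL := by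
  refine ⟨fun cs c C hcs hc => ?_, fun cs c C ε hcs hc hε => ?_, fun cs c C ε hcs hc hε => ?_⟩
  · -- the sup bound
    obtain ⟨C0, θ, hC0, hθ0, hθ1, hmod⟩ := bd7c_mod hX hW hadm hrc hgam hsup cs c C hcs hc
    obtain ⟨N1, h1⟩ := hmod 1 one_pos
    obtain ⟨Cr, N2, h2⟩ := hraw cs hcs
    refine ⟨C0 * (1 + (|Cr| * (|C| + 1)) ^ θ), max N1 N2, fun i hi hN v hv => ?_⟩
    obtain ⟨hw, hCw, hst, hm⟩ := h1 i hi ((le_max_left _ _).trans hN)
    have hvI : v ∈ Ioo (0 : ℝ) 1 := ⟨lt_of_lt_of_le (mul_pos hc hw) hv.1, lt_of_le_of_lt hv.2.1 hCw⟩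
    have hD := (h2 i hi ((le_max_right _ _).trans hN) v hvI).2
    have hD' : i.Q.Dq W i.g v / i.w ≤ |Cr| * (|C| + 1) := by
      rw [div_le_iff₀ hw]
      have h3 : v + i.w ≤ (|C| + 1) * i.w := by
        have : C * i.w ≤ |C| * i.w := mul_le_mul_of_nonneg_right (le_abs_self C) hw.le
        linarith [hv.2.1]
      have h4 : Cr * (v + i.w) ≤ |Cr| * (v + i.w) := mul_le_mul_of_nonneg_right (le_abs_self _) (by linarith [hvI.1])
      have h5 : |Cr| * (v + i.w) ≤ |Cr| * ((|C| + 1) * i.w) := mul_le_mul_of_nonneg_left h3 (abs_nonneg _)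
      calc i.Q.Dq W i.g v ≤ Cr * (v + i.w) := hD
        _ ≤ |Cr| * ((|C| + 1) * i.w) := h4.trans h5
        _ = _ := by ring
    have hpow : (i.Q.Dq W i.g v / i.w) ^ θ ≤ (|Cr| * (|C| + 1)) ^ θ :=
      Real.rpow_le_rpow (div_nonneg (Real.sqrt_nonneg _) hw.le) hD' hθ0.le
    calc |i.clo W v| ≤ C0 * i.w ^ 3 * (1 + (i.Q.Dq W i.g v / i.w) ^ θ) := hm v hv
      _ ≤ C0 * i.w ^ 3 * (1 + (|Cr| * (|C| + 1)) ^ θ) :=
          mul_le_mul_of_nonneg_left (by linarith) (by positivity)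
      _ = _ := by ring
  · -- the mass coordinate
    obtain ⟨C0, θ, hC0, hθ0, hθ1, hmod⟩ := bd7c_mod hX hW hadm hrc hgam hsup cs c C hcs hc
    obtain ⟨a, κ, ε2, ha, hκ, hε2, hch⟩ := bd7c_choice C0 θ (|C| + 1) ε hC0 hθ0 (by positivity) hε
    obtain ⟨N1, h1⟩ := hmod a ha
    obtain ⟨N2, h2⟩ := hband cs c C ε2 hcs hc hε2
    refine ⟨max N1 N2, fun i hi hN => ?_⟩
    obtain ⟨hw, hCw, hst, hm⟩ := h1 i hi ((le_max_left _ _).trans hN)
    have hI := (h2 i hi ((le_max_right _ _).trans hN)).1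
    have hF : i.F.Ok X := hi.toOut.toStd.ok
    have hcw : 0 < c * i.w := mul_pos hc hw
    have hsub : i.bandM c C ⊆ Ioo (0 : ℝ) 1 := fun v hv => ⟨lt_of_lt_of_le hcw hv.1, lt_of_le_of_lt hv.2.1 hCw⟩
    have hms := i.bd7c_bandM_meas hF hcw.le hCw.le (c := c) (C := C)
    obtain ⟨hfin, hvol⟩ := bd7c_vol (L := (|C| + 1) * i.w) (i.bd7c_bandM_sub (c := c) (C := C))
      (by have : C * i.w ≤ |C| * i.w := mul_le_mul_of_nonneg_right (le_abs_self C) hw.le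
          linarith) (by positivity)
    have hDi : IntegrableOn (i.Q.Dq2 W i.g) (i.bandM c C) :=
      bd7c_int_D2 hms hfin (hst.Sm.mono hsub) (hst.Bm.mono hsub) fun v hv => by
        have h0 := hst.D0 v (hsub hv)
        have h1 := hst.D1 v (hsub hv)
        unfold BdQ.Dq2 at h0 h1
        rw [abs_of_nonneg h0]; exact h1
    have hw2 : 0 < i.w ^ 2 := by positivity
    refine (bd7c_int_mod (f := i.clo W) (D2 := fun v => i.Q.Dq2 W i.g v / i.w ^ 2) (A := C0 * i.w ^ 3) (ε1 := a)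
      (κ := κ) (θ := θ) (L := (|C| + 1) * i.w) (I := ε2 * i.w) hms (by positivity) ha.le hκ hθ0 (by linarith) hfin hvol
      (fun v hv => div_nonneg (hst.D0 v (hsub hv)) hw2.le) (hDi.div_const _) ?_ fun v hv => ?_).trans (hch i.w hw.le)
    · rw [integral_div, div_le_iff₀ hw2]
      calc _ ≤ ε2 * i.w ^ 3 := hI
        _ = _ := by ring
    · have e : Real.sqrt (i.Q.Dq2 W i.g v / i.w ^ 2) = i.Q.Dq W i.g v / i.w := by
        rw [Real.sqrt_div (hst.D0 v (hsub hv)), Real.sqrt_sq hw.le]; rfl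
      rw [e]
      exact hm v hv
  · -- the radius coordinate
    obtain ⟨C0, θ, hC0, hθ0, hθ1, hmod⟩ := bd7c_mod hX hW hadm hrc hgam hsup cs c C hcs hc
    obtain ⟨a, κ, ε2, ha, hκ, hε2, hch⟩ := bd7c_choice C0 θ (|C| + 1) ε hC0 hθ0 (by positivity) hε
    obtain ⟨N1, h1⟩ := hmod a ha
    obtain ⟨N2, h2⟩ := hband cs c C ε2 hcs hc hε2
    refine ⟨max N1 N2, fun i hi hN => ?_⟩
    obtain ⟨hw, hCw, hst, hm⟩ := h1 i hi ((le_max_left _ _).trans hN)
    have hI := (h2 i hi ((le_max_right _ _).trans hN)).2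
    have hF : i.F.Ok X := hi.toOut.toStd.ok
    have hcw : 0 < c * i.w := mul_pos hc hw
    have hsubM : i.bandM c C ⊆ Ioo (0 : ℝ) 1 := fun v hv => ⟨lt_of_lt_of_le hcw hv.1, lt_of_le_of_lt hv.2.1 hCw⟩
    have hal : ∀ ρ ∈ i.bandR c C, i.Q.al ρ ∈ Ioo (0 : ℝ) 1 := fun ρ hρ => hsubM (i.bd7c_bandR_al hCw.le hρ)
    have hsub01 : i.bandR c C ⊆ Icc (0 : ℝ) 1 := fun ρ hρ => ⟨hρ.1, hρ.2.1.trans hCw.le⟩
    have halm : MonotoneOn i.Q.al (i.bandR c C) := (i.Q.bd7c_al_mono hF).mono hsub01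
    have hms := i.bd7c_bandR_meas hF hCw.le (c := c) (C := C)
    obtain ⟨hfin, hvol⟩ := bd7c_vol (L := (|C| + 1) * i.w) (i.bd7c_bandR_sub (c := c) (C := C))
      (by have : C * i.w ≤ |C| * i.w := mul_le_mul_of_nonneg_right (le_abs_self C) hw.le
          linarith) (by positivity)
    have hDi : IntegrableOn (fun ρ => i.Q.Dq2 W i.g (i.Q.al ρ)) (i.bandR c C) :=
      bd7c_int_D2 (S := fun ρ => i.Q.Sq W i.g (i.Q.al ρ)) (B := fun ρ => i.Q.Bq W i.g (i.Q.al ρ)) hms hfin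
        (fun r1 h1 r2 h2 h12 => hst.Sm (hal r1 h1) (hal r2 h2) (halm h1 h2 h12))
        (fun r1 h1 r2 h2 h12 => hst.Bm (hal r1 h1) (hal r2 h2) (halm h1 h2 h12)) fun ρ hρ => by
        have h0 := hst.D0 _ (hal ρ hρ)
        have h1 := hst.D1 _ (hal ρ hρ)
        unfold BdQ.Dq2 at h0 h1
        rw [abs_of_nonneg h0]; exact h1
    have hw2 : 0 < i.w ^ 2 := by positivity
    refine (bd7c_int_mod (f := fun ρ => i.clo W (i.Q.al ρ)) (D2 := fun ρ => i.Q.Dq2 W i.g (i.Q.al ρ) / i.w ^ 2)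
      (A := C0 * i.w ^ 3) (ε1 := a) (κ := κ) (θ := θ) (L := (|C| + 1) * i.w) (I := ε2 * i.w) hms (by positivity) ha.le hκ hθ0
      (by linarith) hfin hvol (fun ρ hρ => div_nonneg (hst.D0 _ (hal ρ hρ)) hw2.le) (hDi.div_const _) ?_
      fun ρ hρ => ?_).trans (hch i.w hw.le)
    · rw [integral_div, div_le_iff₀ hw2]
      calc _ ≤ ε2 * i.w ^ 3 := hI
        _ = _ := by ring
    · have e : Real.sqrt (i.Q.Dq2 W i.g (i.Q.al ρ) / i.w ^ 2) = i.Q.Dq W i.g (i.Q.al ρ) / i.w := by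
        rw [Real.sqrt_div (hst.D0 _ (hal ρ hρ)), Real.sqrt_sq hw.le]; rfl
      rw [e]
      exact hm _ (i.bd7c_bandR_al hCw.le hρ)

end glue

end

end Claimed.Agent.R286
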