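import Claimed.Agent.R286.Bud.FfBr
import Claimed.Agent.R286.Bud.GeoBr
import Claimed.Agent.R286.Bud.L8Defs
import Claimed.Agent.R286.Bud.Brg248
import Claimed.Agent.R286.Bud.Stage

/-!
# Row 286, LL sec. 7, node N14 = Lemma bud:free-forks (C16): INPUTS, ASYMPTOTIC GLUE, EXITS      (owner helper161, co-architect of helper212; prefix `ff_`, Props `BudFf*`)

TEX[LL:bud:free-forks] (07-budgets.tex l.1593-1643).      EXIT: `bud_c16_of` = (C16) for an instance class `P` (frame, parameter, minimiser).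
ALL contracts in CLOSED form (`∀ ε > 0, ∃ C N0, ∀ i, P i → N0 ≤ N → …`); the exits are converted to `BdSub`.

## INPUTS (Props; suppliers)
* `BudFfStd X W P clo`   standing: `X.Ok`, `F.Ok`, minimiser, admissible bare path (`BdFr.Base`, 253), and `clo ≤ F.Ilo`.
      !! HOSTILE READING 1: the paper takes `I/u` = a FIXED closed subinterval of `(0,c_I)`.  `BdI.Ok` + `BdStd.box` (L8Defs) allow EVERY `0 < Ilo`: then the extra floor may enter the inner region `v ≲ w_c`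
      and (C16), (C10), (C7) are not claimed by the paper.  The class must bound `Ilo` below (e.g. `F.AtStage X`: `clo = min plo`).  Hence the class `P` is a PARAMETER here.
* `BudFfC7 c C`          (C7), first half: `c v ≤ r(v) ≤ C v` for `w_c ≤ v ≤ 1`.                       supplier: N9 (12 / 33 / 286)
* `BudFfNum Cp`          the numbers of the changed path: `CmNum.Ok` (295/294: `cmk_num_ok`), `S`, `D²` are those of the world, raw moments (C8) at the scale `w_c` (N5, helper7, after (C7)),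
                         clock inequality (A1) line 2 in the radius coordinate on the flat region (bridge C5 / LL02).
* `BudFfC10 Creg`        (C10) at `w = w_c` on the mass dyads `[w,2w]`, `Creg w_c ≤ w ≤ 1/2`; the `B_f` term only for `w < c_H u`.       supplier: N6 (109 / 111)
      !! HOSTILE READING 2: "`c_H` so large that `v ≥ c_H u` lies beyond the extra floor" needs `c · c_H ≥ c_I` with the `c` of (C7): `BdFix.Ok` has only `0 < cH`.  It is hidden in `BudFfC10`.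
## PROOF (paper l.1607-1640, simplified: see the header of `Bud/FfAbs.lean`)
 third line: (C10) + `w C(w) ≥ κ c_H u C_0`.       regular dyads `Creg w_c ≤ w ≤ c_H u/2`: (C10), `C(w) ≥ κ C_0`, `y_c ≥ √A`.       inner dyads `x^{10} ≤ w ≤ Creg w_c`: raw (first line), `ff_dyad_fin` (second line).
 below `x^{10}`: raw.       There are `O(log N)` dyads and every dyad is bounded by the TOTAL (`u² T_1`, `u³ T_2`): no geometric series.
-/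

set_option autoImplicit false

namespace Claimed.Agent.R286

open MeasureTheory Set Filter Topology

noncomputable section

/-! ## 0. Inputs -/

/-- the standing hypotheses of N14 on the instance class `P` -/
structure BudFfStd (X : BdFix) (W : BdWorld) (P : BdI X → Prop) (clo : ℝ) : Prop where
  fix : X.Ok
  clo_pos : 0 < clo
  ok : ∀ i, P i → i.F.Ok X
  opt : ∀ i, P i → i.Q.IsOpt W i.g
  base : ∀ i, P i → i.F.Base X W i.g
  ilo : ∀ i, P i → clo ≤ i.F.Ilo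

/-- the right side of (C10) on the mass dyad `[w,2w]` -/
def BdFr.R10 (F : BdFr) (X : BdFix) (w : ℝ) : ℝ :=
  (F.x ^ (6 : ℝ) / (F.C X w * w)) ^ (1 / 3 : ℝ) + F.x ^ (3 : ℝ) / (w * Real.sqrt (F.C X w))
    + (F.m : ℝ) ^ (X.dPEexp / 2) * F.vs X + if w < X.cH * F.u then F.u * F.Bf X else 0

section Props

variable (X : BdFix) (W : BdWorld) (P : BdI X → Prop)

/-- [INPUT, N9]  (C7), first half.     TEX[LL:bud:coarse-profile] -/
def BudFfC7 (c C : ℝ) : Prop :=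
  ∃ N0 : ℕ, ∀ i, P i → N0 ≤ i.F.N → ∀ v : ℝ, i.F.wc X ≤ v → v ≤ 1 → c * v ≤ i.Q.r v ∧ i.Q.r v ≤ C * v

/-- [INPUT, PE Sec. 2-3 / N5 / bridge C5]  the numbers of the changed path.     TEX[LL:bud:outer-moments] (C8) at `w = w_c`, TEX[LL:found:estimates] (A1) line 2 -/
def BudFfNum (Cp : ℕ → ℝ) : Prop :=
  ∃ N0 : ℕ, ∀ i, P i → N0 ≤ i.F.N → ∃ Xn : CmNum, Xn.Ok ∧
    (∀ v ∈ Ioo (0 : ℝ) 1, Xn.S v = i.Q.Sq W i.g v) ∧ (∀ v ∈ Ioo (0 : ℝ) 1, Xn.D v ^ 2 = i.Q.Dq2 W i.g v) ∧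
    Xn.Raw (i.F.wc X) Cp ∧
    ∀ s t : ℝ, 0 ≤ s → s ≤ t → t ≤ min (X.cd ^ 3 * i.F.u) 1 →
      (i.F.m : ℝ) * i.F.C0 * ∫ r in s..t, Xn.TH (i.Q.al r) ≤ Xn.S (i.Q.al t) - Xn.S (i.Q.al s)

/-- [INPUT, N6]  (C10) at `w = w_c`.     TEX[LL:bud:outer-second] -/
def BudFfC10 (Creg : ℝ) : Prop :=
  ∀ ε : ℝ, 0 < ε → ∃ C : ℝ, ∃ N0 : ℕ, ∀ i, P i → N0 ≤ i.F.N → ∀ w : ℝ, Creg * i.F.wc X ≤ w → w ≤ 1 / 2 →
    Real.sqrt (w⁻¹ * ∫ v in w..(2 * w), i.Q.Dq2 W i.g v) ≤ C * ((i.F.N : ℝ) ^ ε * i.F.R10 X w)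

end Props

theorem ff_top_eqns_cite : True := by
  have := @BdFr.R10.eq_1; have := @BudFfC7.eq_1; have := @BudFfNum.eq_1; have := @BudFfC10.eq_1
  trivial

/-! ## 1. Scales (pure arithmetic in `x, lam, u`) -/

/-- the relations between the scales which hold for all large sizes; `Kb` = an arbitrary large constant (every `o(1)` is `≤ 1/Kb`) -/
structure FfSc (F : BdFr) (X : BdFix) (Kb : ℝ) : Prop where
  x0 : 0 < F.x
  x1 : F.x ≤ 1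
  xN : F.x ^ (6 : ℝ) = ((F.N : ℝ))⁻¹
  m0 : 0 < (F.m : ℝ)
  u0 : 0 < F.u
  uK : Kb * F.u ≤ 1
  ux : F.x ≤ X.CU * F.u
  A0 : 0 < F.A
  A1 : F.A ≤ 1
  Ax : F.x ^ (2 : ℝ) ≤ F.A
  y0 : 0 < F.yc X
  yK : Kb * F.yc X ≤ 1
  Ay : F.A ≤ F.yc X ^ 2
  C00 : 0 < F.C0
  /-- `x⁶/C_0 = u⁴A³` -/
  xC : F.x ^ (6 : ℝ) / F.C0 = F.u ^ 4 * F.A ^ 3
  /-- `1/(m C_0) ≤ 2 u⁴ A³` -/
  T : 1 / ((F.m : ℝ) * F.C0) ≤ 2 * (F.u ^ 4 * F.A ^ 3)
  Mj0 : 0 < F.Mj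
  Mj : 1 / F.Mj ≤ F.x ^ (100 : ℝ)
  xK : Kb * F.x ≤ 1
  vs0 : 0 < F.vs X
  /-- `v_* ≤ (2/c_d) x^ζ u A`, with the PE loss `m^{δ/2}` -/
  vs : (F.m : ℝ) ^ (X.dPEexp / 2) * F.vs X ≤ 4 / X.cd * (F.u * F.A)
  vs' : F.vs X ≤ 4 / X.cd * (F.u * F.A)
  Bf0 : 0 ≤ F.Bf X

/-- every positive power of `x` is small for large sizes -/
theorem ff_x_small (X : BdFix) {a ε : ℝ} (ha : 0 < a) (hε : 0 < ε) :
    ∃ N0 : ℕ, ∀ F : BdFr, F.Ok X → N0 ≤ F.N → F.x ^ a ≤ ε := by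
  refine ⟨⌈ε ^ (-(6 / a))⌉₊, fun F h hN => ?_⟩
  have hNpos : (0 : ℝ) < F.N := by
    have := h.N2
    exact_mod_cast (by omega : 0 < F.N)
  have h0 : 0 < ε ^ (-(6 / a)) := Real.rpow_pos_of_pos hε _
  have h1 : ε ^ (-(6 / a)) ≤ F.N := (Nat.le_ceil _).trans (by exact_mod_cast hN)
  unfold BdFr.x
  rw [← Real.rpow_mul hNpos.le]
  have h2 : (F.N : ℝ) ^ (-(1 / 6) * a) ≤ (ε ^ (-(6 / a))) ^ (-(1 / 6) * a) :=
    Real.rpow_le_rpow_of_nonpos h0 h1 (by nlinarith)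
  refine h2.trans (le_of_eq ?_)
  rw [← Real.rpow_mul hε.le]
  have : -(6 / a) * (-(1 / 6) * a) = 1 := by field_simp
  rw [this, Real.rpow_one]

/-- `lam^e ≤ x^(pS e)` -/
theorem ff_lam_rpow_le {X : BdFix} {F : BdFr} (h : F.Ok X) {e : ℝ} (he : 0 ≤ e) : F.lam ^ e ≤ F.x ^ (X.pS * e) := by
  rw [Real.rpow_mul (BdFr.bds_x_pos h).le]
  exact Real.rpow_le_rpow (BdFr.bds_lam_pos h).le h.lam_hi he

/-- `lam^e ≤ x^(pS e0)` for `e ≥ e0 ≥ 0` -/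
theorem ff_lam_rpow_le' {X : BdFix} (hX : X.Ok) {F : BdFr} (h : F.Ok X) {e e0 : ℝ} (he0 : 0 ≤ e0) (he : e0 ≤ e) :
    F.lam ^ e ≤ F.x ^ (X.pS * e0) :=
  (Real.rpow_le_rpow_of_exponent_ge (BdFr.bds_lam_pos h) (BdFr.bds_lam_lt_one h hX).le he).trans
    (ff_lam_rpow_le h he0)

theorem ff_sS_ge {X : BdFix} (hX : X.Ok) : (0.49 : ℝ) ≤ X.sS := by
  unfold BdFix.sS
  have := hX.tau_le
  norm_num at this ⊢
  linarith

/-- `y_c ≤ (CU + CU^{3/4}) x^{pS/10}` -/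
theorem ff_yc_le {X : BdFix} (hX : X.Ok) {F : BdFr} (h : F.Ok X) :
    F.yc X ≤ (X.CU + X.CU ^ (3 / 4 : ℝ)) * F.x ^ (X.pS / 10) := by
  have hx := BdFr.bds_x_pos h
  have hx1 := (BdFr.bds_x_lt_one h).le
  have hl := BdFr.bds_lam_pos h
  have hXr := BdFr.bds_Xr_pos h hX
  have hXle := BdFr.bds_Xr_le h hX
  have hs := ff_sS_ge hX
  have hCU := hX.CU_pos
  have hpS := hX.pS_pos
  -- first term
  have t1 : F.Xr * F.Lam ^ (-(1 / 6) : ℝ) ≤ X.CU * F.x ^ (X.pS * 0.2) := by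
    unfold BdFr.Lam
    rw [← Real.rpow_mul hl.le]
    calc F.Xr * F.lam ^ ((0.03 : ℝ) * -(1 / 6)) ≤ X.CU * F.lam ^ (X.sS / 2) * F.lam ^ ((0.03 : ℝ) * -(1 / 6)) :=
          mul_le_mul_of_nonneg_right hXle (Real.rpow_nonneg hl.le _)
      _ = X.CU * F.lam ^ (X.sS / 2 + (0.03 : ℝ) * -(1 / 6)) := by rw [mul_assoc, ← Real.rpow_add hl]
      _ ≤ X.CU * F.x ^ (X.pS * 0.2) :=
          mul_le_mul_of_nonneg_left (ff_lam_rpow_le' hX h (by norm_num) (by norm_num at hs ⊢; linarith)) hCU.le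
  have t2 : F.Xr ^ (3 / 4 : ℝ) * F.lam ^ (0.12 : ℝ) ≤ X.CU ^ (3 / 4 : ℝ) * F.x ^ (X.pS * 0.2) := by
    have a1 : F.Xr ^ (3 / 4 : ℝ) ≤ X.CU ^ (3 / 4 : ℝ) * F.lam ^ (X.sS / 2 * (3 / 4)) := by
      rw [Real.rpow_mul hl.le, ← Real.mul_rpow hCU.le (Real.rpow_nonneg hl.le _)]
      exact Real.rpow_le_rpow hXr.le hXle (by norm_num)
    calc F.Xr ^ (3 / 4 : ℝ) * F.lam ^ (0.12 : ℝ)
        ≤ X.CU ^ (3 / 4 : ℝ) * F.lam ^ (X.sS / 2 * (3 / 4)) * F.lam ^ (0.12 : ℝ) :=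
          mul_le_mul_of_nonneg_right a1 (Real.rpow_nonneg hl.le _)
      _ = X.CU ^ (3 / 4 : ℝ) * F.lam ^ (X.sS / 2 * (3 / 4) + 0.12) := by rw [mul_assoc, ← Real.rpow_add hl]
      _ ≤ X.CU ^ (3 / 4 : ℝ) * F.x ^ (X.pS * 0.2) :=
          mul_le_mul_of_nonneg_left (ff_lam_rpow_le' hX h (by norm_num) (by norm_num at hs ⊢; linarith))
            (Real.rpow_nonneg hCU.le _)
  have hz : 10 * X.zeta ≤ X.pS * 0.1 := by
    have h1 := hX.zeta_le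
    have h2 : X.tau0 ≤ 1 := by
      have := hX.tau0_le; have := hX.eta_le; have := hX.tau_le; linarith
    have h3 : X.bl ≤ 1 := by
      have := hX.bl_le; have := hX.bs_le; have := hX.eta_le; have := hX.tau_le; linarith
    have h4 : X.tau0 * X.bl ≤ 1 := by
      have := hX.tau0_pos; have := hX.bl_pos; nlinarith
    have h5 : X.pS * X.tau0 * X.bl ≤ X.pS := by nlinarith
    linarith
  unfold BdFr.yc
  calc F.x ^ (-(10 * X.zeta)) * (F.Xr * F.Lam ^ (-(1 / 6) : ℝ) + F.Xr ^ (3 / 4 : ℝ) * F.lam ^ (0.12 : ℝ))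
      ≤ F.x ^ (-(10 * X.zeta)) * ((X.CU + X.CU ^ (3 / 4 : ℝ)) * F.x ^ (X.pS * 0.2)) := by
        refine mul_le_mul_of_nonneg_left ?_ (Real.rpow_nonneg hx.le _)
        rw [add_mul]; exact add_le_add t1 t2
    _ = (X.CU + X.CU ^ (3 / 4 : ℝ)) * F.x ^ (-(10 * X.zeta) + X.pS * 0.2) := by
        rw [Real.rpow_add hx]; ring
    _ ≤ (X.CU + X.CU ^ (3 / 4 : ℝ)) * F.x ^ (X.pS / 10) := by
        refine mul_le_mul_of_nonneg_left ?_ (by positivity)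
        exact Real.rpow_le_rpow_of_exponent_ge hx hx1 (by linarith)

/-- `x⁶ = 1/N` -/
theorem ff_x6 {X : BdFix} {F : BdFr} (h : F.Ok X) : F.x ^ (6 : ℝ) = ((F.N : ℝ))⁻¹ := by
  have hNpos : (0 : ℝ) < F.N := by
    have := h.N2
    exact_mod_cast (by omega : 0 < F.N)
  unfold BdFr.x
  rw [← Real.rpow_mul hNpos.le, ← Real.rpow_neg_one]
  norm_num

/-- `x⁶/C_0 = u⁴A³` -/
theorem ff_xC {X : BdFix} (hX : X.Ok) {F : BdFr} (h : F.Ok X) : F.x ^ (6 : ℝ) / F.C0 = F.u ^ 4 * F.A ^ 3 := by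
  have hx := BdFr.bds_x_pos h
  have hl := BdFr.bds_lam_pos h
  have hu := BdFr.bds_u_pos h hX
  have hL : 0 < F.Lam := Real.rpow_pos_of_pos hl _
  have e1 : (F.Lam ^ (-(1 / 3) : ℝ)) ^ 3 = F.Lam⁻¹ := by
    rw [← Real.rpow_natCast, ← Real.rpow_mul hL.le, ← Real.rpow_neg_one]
    norm_num
  have e2 : F.x ^ (6 : ℝ) = F.x ^ 6 := by
    rw [← Real.rpow_natCast]; norm_num
  unfold BdFr.A BdFr.C0 BdFr.Xr
  rw [mul_pow, e1, e2]
  field_simp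

/-- `v_* ≤ (2/c_d) x^ζ u A` -/
theorem ff_vs_le {X : BdFix} (hX : X.Ok) {F : BdFr} (h : F.Ok X) :
    0 < F.vs X ∧ F.vs X ≤ 2 / X.cd * (F.x ^ X.zeta * (F.u * F.A)) := by
  have hx := BdFr.bds_x_pos h
  have hl := BdFr.bds_lam_pos h
  have hu := BdFr.bds_u_pos h hX
  have hcd := hX.cd_pos
  have hL : 0 < F.Lam := Real.rpow_pos_of_pos hl _
  have hNpos : (0 : ℝ) < F.N := by
    have := h.N2
    exact_mod_cast (by omega : 0 < F.N)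
  have hm : 0 < (F.m : ℝ) := by linarith [h.m_lo]
  have hd : 0 < F.dPE X := by unfold BdFr.dPE; positivity
  have hE : 0 < F.E X := by unfold BdFr.E; positivity
  have hvs : F.vs X = 1 / ((F.m : ℝ) * F.E X) := rfl
  refine ⟨by rw [hvs]; positivity, ?_⟩
  have h1 : 1 / (F.m : ℝ) ≤ 2 * F.x ^ (6 : ℝ) := by
    rw [ff_x6 h, div_le_iff₀ hm]
    have := h.m_lo
    have e : 2 * (F.N : ℝ)⁻¹ * F.m = (F.m : ℝ) / (F.N / 2) := by field_simp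
    rw [e, le_div_iff₀ (by positivity)]
    linarith
  have e3 : F.Lam ^ (-(1 / 3) : ℝ) = (F.Lam ^ (1 / 3 : ℝ))⁻¹ := Real.rpow_neg hL.le _
  have e4 : F.x ^ (6 : ℝ) = F.x ^ (4 - X.zeta) * (F.x ^ X.zeta * F.x ^ 2) := by
    rw [← Real.rpow_natCast F.x 2, ← Real.rpow_add hx, ← Real.rpow_add hx]
    congr 1; push_cast; ring
  calc F.vs X = 1 / (F.m : ℝ) * (1 / F.E X) := by rw [hvs]; field_simp
    _ ≤ 2 * F.x ^ (6 : ℝ) * (1 / F.E X) := mul_le_mul_of_nonneg_right h1 (by positivity)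
    _ = 2 / X.cd * (F.x ^ X.zeta * (F.u * F.A)) := by
        unfold BdFr.E BdFr.dPE BdFr.A BdFr.Xr
        rw [e3, e4]
        have := Real.rpow_pos_of_pos hx (4 - X.zeta)
        have := Real.rpow_pos_of_pos hL (1 / 3 : ℝ)
        field_simp


theorem ff_fix_small {X : BdFix} (hX : X.Ok) :
    X.zeta ≤ X.pS / 100000 ∧ X.pS ≤ 1 ∧ 0 ≤ X.dPEexp / 2 ∧ X.dPEexp / 2 ≤ 1 / 2 ∧ 3 * X.dPEexp ≤ X.zeta := by
  have h2 : X.tau0 ≤ 1 := by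
    have := hX.tau0_le; have := hX.eta_le; have := hX.tau_le; linarith
  have h3 : X.bl ≤ 1 := by
    have := hX.bl_le; have := hX.bs_le; have := hX.eta_le; have := hX.tau_le; linarith
  have h4 : X.pS ≤ 1 := by
    have := hX.pS_le; have := hX.he_le; linarith
  have h5 : X.tau0 * X.bl ≤ 1 := by
    calc X.tau0 * X.bl ≤ 1 * 1 := mul_le_mul h2 h3 hX.bl_pos.le zero_le_one
      _ = 1 := one_mul 1
  have h6 : X.pS * X.tau0 * X.bl ≤ X.pS := by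
    calc X.pS * X.tau0 * X.bl = X.pS * (X.tau0 * X.bl) := by ring
      _ ≤ X.pS * 1 := mul_le_mul_of_nonneg_left h5 hX.pS_pos.le
      _ = X.pS := mul_one _
  have h7 : X.zeta ≤ X.pS / 100000 := by have := hX.zeta_le; linarith
  have h8 := hX.mPE_le
  have h9 := hX.mPE_pos
  have h10 := hX.zeta_pos
  refine ⟨h7, h4, ?_, ?_, ?_⟩
  · unfold BdFix.dPEexp; positivity
  · unfold BdFix.dPEexp; linarith
  · unfold BdFix.dPEexp; linarith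

theorem ff_sc_A1 {X : BdFix} (hX : X.Ok) {F : BdFr} (h : F.Ok X) (h2 : F.x ^ (X.pS * 0.4) ≤ 1 / X.CU ^ 2) : F.A ≤ 1 := by
  have hCU := hX.CU_pos
  have hl := BdFr.bds_lam_pos h
  have hXr := BdFr.bds_Xr_pos h hX
  have hXle := BdFr.bds_Xr_le h hX
  have hs := ff_sS_ge hX
  rw [BdFr.bds_A_eq h, Real.rpow_two]
  have a1 : F.Xr ^ 2 ≤ X.CU ^ 2 * F.lam ^ X.sS := by
    have := pow_le_pow_left₀ hXr.le hXle 2
    rw [mul_pow, ← Real.rpow_natCast (F.lam ^ (X.sS / 2)) 2, ← Real.rpow_mul hl.le] at this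
    refine this.trans (le_of_eq ?_)
    congr 2; push_cast; ring
  calc F.Xr ^ 2 * F.lam ^ (-(1 / 100) : ℝ) ≤ X.CU ^ 2 * F.lam ^ X.sS * F.lam ^ (-(1 / 100) : ℝ) :=
        mul_le_mul_of_nonneg_right a1 (Real.rpow_nonneg hl.le _)
    _ = X.CU ^ 2 * F.lam ^ (X.sS + -(1 / 100)) := by rw [mul_assoc, ← Real.rpow_add hl]
    _ ≤ X.CU ^ 2 * (1 / X.CU ^ 2) := by
        refine mul_le_mul_of_nonneg_left ?_ (by positivity)
        exact (ff_lam_rpow_le' hX h (by norm_num) (by norm_num at hs ⊢; linarith)).trans h2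
    _ = 1 := by field_simp

theorem ff_sc_Ax {X : BdFix} (hX : X.Ok) {F : BdFr} (h : F.Ok X) : F.x ^ (2 : ℝ) ≤ F.A := by
  have hx := BdFr.bds_x_pos h
  have hl := BdFr.bds_lam_pos h
  have hl1 := (BdFr.bds_lam_lt_one h hX).le
  have hu := BdFr.bds_u_pos h hX
  have hu1 := BdFr.bds_u_le_one h hX
  have hL : 0 < F.Lam := Real.rpow_pos_of_pos hl _
  have hL1 : F.Lam ≤ 1 := Real.rpow_le_one hl.le hl1 (by norm_num)
  rw [Real.rpow_two]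
  unfold BdFr.A BdFr.Xr
  have b1 : 1 ≤ F.Lam ^ (-(1 / 3) : ℝ) :=
    Real.one_le_rpow_of_pos_of_le_one_of_nonpos hL hL1 (by norm_num)
  have b2 : F.x ^ 2 ≤ (F.x / F.u) ^ 2 := by
    refine pow_le_pow_left₀ hx.le ?_ 2
    rw [le_div_iff₀ hu]
    calc F.x * F.u ≤ F.x * 1 := mul_le_mul_of_nonneg_left hu1 hx.le
      _ = F.x := mul_one _
  calc F.x ^ 2 ≤ (F.x / F.u) ^ 2 * 1 := by rw [mul_one]; exact b2
    _ ≤ (F.x / F.u) ^ 2 * F.Lam ^ (-(1 / 3) : ℝ) := mul_le_mul_of_nonneg_left b1 (sq_nonneg _)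

theorem ff_sc_Ay {X : BdFix} (hX : X.Ok) {F : BdFr} (h : F.Ok X) : F.A ≤ F.yc X ^ 2 := by
  have hx := BdFr.bds_x_pos h
  have hx1 := (BdFr.bds_x_lt_one h).le
  have hl := BdFr.bds_lam_pos h
  have hXr := BdFr.bds_Xr_pos h hX
  have hL : 0 < F.Lam := Real.rpow_pos_of_pos hl _
  have hxz : 1 ≤ F.x ^ (-(10 * X.zeta)) :=
    Real.one_le_rpow_of_pos_of_le_one_of_nonpos hx hx1 (by have := hX.zeta_pos; linarith)
  have b1 : F.Xr * F.Lam ^ (-(1 / 6) : ℝ) ≤ F.yc X := by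
    unfold BdFr.yc
    have c1 : 0 ≤ F.Xr ^ (3 / 4 : ℝ) * F.lam ^ (0.12 : ℝ) := by positivity
    have c2 : 0 < F.Xr * F.Lam ^ (-(1 / 6) : ℝ) := by positivity
    calc F.Xr * F.Lam ^ (-(1 / 6) : ℝ)
        ≤ 1 * (F.Xr * F.Lam ^ (-(1 / 6) : ℝ) + F.Xr ^ (3 / 4 : ℝ) * F.lam ^ (0.12 : ℝ)) := by linarith
      _ ≤ _ := mul_le_mul_of_nonneg_right hxz (by linarith)
  have b2 := pow_le_pow_left₀ (by positivity) b1 2
  refine le_trans (le_of_eq ?_) b2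
  unfold BdFr.A
  rw [mul_pow, ← Real.rpow_natCast (F.Lam ^ (-(1 / 6) : ℝ)) 2, ← Real.rpow_mul hL.le]
  norm_num

theorem ff_sc_T {X : BdFix} (hX : X.Ok) {F : BdFr} (h : F.Ok X) :
    1 / ((F.m : ℝ) * F.C0) ≤ 2 * (F.u ^ 4 * F.A ^ 3) := by
  have hl := BdFr.bds_lam_pos h
  have hu := BdFr.bds_u_pos h hX
  have hL : 0 < F.Lam := Real.rpow_pos_of_pos hl _
  have hNpos : (0 : ℝ) < F.N := by
    have := h.N2
    exact_mod_cast (by omega : 0 < F.N)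
  have hm : 0 < (F.m : ℝ) := by linarith [h.m_lo]
  have hC0 : 0 < F.C0 := by unfold BdFr.C0; positivity
  rw [← ff_xC hX h, ff_x6 h]
  have := h.m_lo
  rw [div_le_iff₀ (by positivity)]
  have e : 2 * ((F.N : ℝ)⁻¹ / F.C0) * ((F.m : ℝ) * F.C0) = (F.m : ℝ) / (F.N / 2) := by field_simp
  rw [e, le_div_iff₀ (by positivity)]
  linarith

theorem ff_sc_vs {X : BdFix} (hX : X.Ok) {F : BdFr} (h : F.Ok X) :
    (F.m : ℝ) ^ (X.dPEexp / 2) * F.vs X ≤ 4 / X.cd * (F.u * F.A) := by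
  have hx := BdFr.bds_x_pos h
  have hx1 := (BdFr.bds_x_lt_one h).le
  have hu := BdFr.bds_u_pos h hX
  have hA := BdFr.bds_A_pos h hX
  have hcd := hX.cd_pos
  have hNpos : (0 : ℝ) < F.N := by
    have := h.N2
    exact_mod_cast (by omega : 0 < F.N)
  have hm : 0 < (F.m : ℝ) := by linarith [h.m_lo]
  obtain ⟨-, -, hd0, hd1, hd2⟩ := ff_fix_small hX
  obtain ⟨hvs0, hvs⟩ := ff_vs_le hX h
  have m1 : (F.m : ℝ) ^ (X.dPEexp / 2) ≤ (3 * (F.N : ℝ)) ^ (X.dPEexp / 2) :=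
    Real.rpow_le_rpow hm.le h.m_hi hd0
  have m2 : (3 : ℝ) ^ (X.dPEexp / 2) ≤ 2 := by
    calc (3 : ℝ) ^ (X.dPEexp / 2) ≤ (3 : ℝ) ^ (1 / 2 : ℝ) :=
          Real.rpow_le_rpow_of_exponent_le (by norm_num) hd1
      _ = Real.sqrt 3 := (Real.sqrt_eq_rpow 3).symm
      _ ≤ 2 := by rw [Real.sqrt_le_left (by norm_num)]; norm_num
  have m3 : (F.N : ℝ) ^ (X.dPEexp / 2) = F.x ^ (-(3 * X.dPEexp)) := by
    unfold BdFr.x
    rw [← Real.rpow_mul hNpos.le]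
    congr 1; ring
  have m4 : F.x ^ (-(3 * X.dPEexp)) * F.x ^ X.zeta ≤ 1 := by
    rw [← Real.rpow_add hx]
    exact Real.rpow_le_one hx.le hx1 (by linarith)
  have m5 : (F.m : ℝ) ^ (X.dPEexp / 2) * F.x ^ X.zeta ≤ 2 := by
    rw [Real.mul_rpow (by norm_num) hNpos.le, m3] at m1
    calc (F.m : ℝ) ^ (X.dPEexp / 2) * F.x ^ X.zeta
        ≤ (3 : ℝ) ^ (X.dPEexp / 2) * F.x ^ (-(3 * X.dPEexp)) * F.x ^ X.zeta :=
          mul_le_mul_of_nonneg_right m1 (Real.rpow_nonneg hx.le _)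
      _ = (3 : ℝ) ^ (X.dPEexp / 2) * (F.x ^ (-(3 * X.dPEexp)) * F.x ^ X.zeta) := by ring
      _ ≤ 2 * 1 := mul_le_mul m2 m4 (by positivity) (by norm_num)
      _ = 2 := by norm_num
  calc (F.m : ℝ) ^ (X.dPEexp / 2) * F.vs X
      ≤ (F.m : ℝ) ^ (X.dPEexp / 2) * (2 / X.cd * (F.x ^ X.zeta * (F.u * F.A))) :=
        mul_le_mul_of_nonneg_left hvs (Real.rpow_nonneg hm.le _)
    _ = ((F.m : ℝ) ^ (X.dPEexp / 2) * F.x ^ X.zeta) * (2 / X.cd * (F.u * F.A)) := by ring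
    _ ≤ 2 * (2 / X.cd * (F.u * F.A)) := mul_le_mul_of_nonneg_right m5 (by positivity)
    _ = 4 / X.cd * (F.u * F.A) := by ring

theorem ff_sc_vs' {X : BdFix} (hX : X.Ok) {F : BdFr} (h : F.Ok X) : F.vs X ≤ 4 / X.cd * (F.u * F.A) := by
  have hx := BdFr.bds_x_pos h
  have hx1 := (BdFr.bds_x_lt_one h).le
  have hu := BdFr.bds_u_pos h hX
  have hA := BdFr.bds_A_pos h hX
  have hcd := hX.cd_pos
  have huA : 0 < F.u * F.A := mul_pos hu hA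
  obtain ⟨hvs0, hvs⟩ := ff_vs_le hX h
  have h1 : F.x ^ X.zeta ≤ 1 := Real.rpow_le_one hx.le hx1 hX.zeta_pos.le
  calc F.vs X ≤ 2 / X.cd * (F.x ^ X.zeta * (F.u * F.A)) := hvs
    _ ≤ 2 / X.cd * (1 * (F.u * F.A)) := by gcongr
    _ ≤ 4 / X.cd * (F.u * F.A) := by
        rw [one_mul]
        refine mul_le_mul_of_nonneg_right ?_ huA.le
        gcongr
        norm_num

theorem ff_sc_Mj {X : BdFix} {F : BdFr} (h : F.Ok X) : 0 < F.Mj ∧ 1 / F.Mj ≤ F.x ^ (100 : ℝ) := by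
  have hx := BdFr.bds_x_pos h
  constructor
  · unfold BdFr.Mj; positivity
  · unfold BdFr.Mj
    rw [Real.rpow_neg hx.le, one_div, mul_inv, inv_inv]
    have h1 : ((2:ℝ) ^ F.st)⁻¹ ≤ 1 := inv_le_one_of_one_le₀ (one_le_pow₀ (by norm_num))
    have h100 := Real.rpow_pos_of_pos hx (100 : ℝ)
    calc ((2:ℝ) ^ F.st)⁻¹ * F.x ^ (100 : ℝ) ≤ 1 * F.x ^ (100 : ℝ) := mul_le_mul_of_nonneg_right h1 h100.le
      _ = F.x ^ (100 : ℝ) := one_mul _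

theorem ff_sc_ux {X : BdFix} (hX : X.Ok) {F : BdFr} (h : F.Ok X) : F.x ≤ X.CU * F.u := by
  have hx := BdFr.bds_x_pos h
  have hl := BdFr.bds_lam_pos h
  have hl1 := (BdFr.bds_lam_lt_one h hX).le
  have hs := ff_sS_ge hX
  refine le_trans ?_ h.u_lo
  unfold BdFr.U
  have h1 : 1 ≤ F.lam ^ (-(X.sS / 2)) :=
    Real.one_le_rpow_of_pos_of_le_one_of_nonpos hl hl1 (by norm_num at hs ⊢; linarith)
  calc F.x = F.x * 1 := (mul_one _).symm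
    _ ≤ F.x * F.lam ^ (-(X.sS / 2)) := mul_le_mul_of_nonneg_left h1 hx.le

/-- LEAF (arithmetic).  `x = N^{-1/6}`, `x^{12} ≤ lam ≤ x^{pS}`, `x lam^{-sS/2} ≤ CU u`, `u ≤ lam^{bl}`, `N/2 ≤ m ≤ 3N`; `X_r ≤ CU lam^{sS/2}`; `x^{-10ζ} ≤ lam^{-10ζ/pS}` -/
theorem ff_sc_ev (X : BdFix) (hX : X.Ok) (Kb : ℝ) : ∃ N0 : ℕ, ∀ F : BdFr, F.Ok X → N0 ≤ F.N → FfSc F X Kb := by
  have hCU := hX.CU_pos
  have hpS := hX.pS_pos
  have hbl := hX.bl_pos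
  set K1 := |Kb| + 1 with hK1
  have hK10 : 0 < K1 := by positivity
  have hKb : Kb ≤ K1 := by have := le_abs_self Kb; linarith
  obtain ⟨N1, h1⟩ := ff_x_small X (a := X.pS * X.bl) (ε := 1 / K1) (by positivity) (by positivity)
  obtain ⟨N2, h2⟩ := ff_x_small X (a := X.pS * 0.4) (ε := 1 / X.CU ^ 2) (by positivity) (by positivity)
  obtain ⟨N3, h3⟩ := ff_x_small X (a := X.pS / 10) (ε := 1 / (K1 * (X.CU + X.CU ^ (3 / 4 : ℝ))))
    (by positivity) (by positivity)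
  obtain ⟨N4, h4⟩ := ff_x_small X (a := 1) (ε := 1 / K1) (by positivity) (by positivity)
  refine ⟨max (max N1 N2) (max N3 N4), fun F h hN => ?_⟩
  have hN1 : N1 ≤ F.N := (le_max_left _ _).trans ((le_max_left _ _).trans hN)
  have hN2 : N2 ≤ F.N := (le_max_right _ _).trans ((le_max_left _ _).trans hN)
  have hN3 : N3 ≤ F.N := (le_max_left _ _).trans ((le_max_right _ _).trans hN)
  have hN4 : N4 ≤ F.N := (le_max_right _ _).trans ((le_max_right _ _).trans hN)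
  have hx := BdFr.bds_x_pos h
  have hl := BdFr.bds_lam_pos h
  have hu := BdFr.bds_u_pos h hX
  have hXr := BdFr.bds_Xr_pos h hX
  have hL : 0 < F.Lam := Real.rpow_pos_of_pos hl _
  have hNpos : (0 : ℝ) < F.N := by
    have := h.N2
    exact_mod_cast (by omega : 0 < F.N)
  have hsmall : ∀ t : ℝ, 0 ≤ t → t ≤ 1 / K1 → Kb * t ≤ 1 := fun t ht0 ht => by
    calc Kb * t ≤ K1 * t := mul_le_mul_of_nonneg_right hKb ht0
      _ ≤ K1 * (1 / K1) := mul_le_mul_of_nonneg_left ht hK10.le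
      _ = 1 := by field_simp
  have hy0 : 0 < F.yc X := by unfold BdFr.yc; positivity
  have hyK : Kb * F.yc X ≤ 1 := by
    refine hsmall _ hy0.le ((ff_yc_le hX h).trans ?_)
    have := h3 F h hN3
    have hc : 0 < X.CU + X.CU ^ (3 / 4 : ℝ) := by positivity
    calc (X.CU + X.CU ^ (3 / 4 : ℝ)) * F.x ^ (X.pS / 10)
        ≤ (X.CU + X.CU ^ (3 / 4 : ℝ)) * (1 / (K1 * (X.CU + X.CU ^ (3 / 4 : ℝ)))) :=
          mul_le_mul_of_nonneg_left this hc.le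
      _ = 1 / K1 := by field_simp
  exact
    { x0 := hx
      x1 := (BdFr.bds_x_lt_one h).le
      xN := ff_x6 h
      m0 := by linarith [h.m_lo]
      u0 := hu
      uK := hsmall _ hu.le ((h.u_hi.trans (ff_lam_rpow_le h hbl.le)).trans (h1 F h hN1))
      ux := ff_sc_ux hX h
      A0 := BdFr.bds_A_pos h hX
      A1 := ff_sc_A1 hX h (h2 F h hN2)
      Ax := ff_sc_Ax hX h
      y0 := hy0
      yK := hyK
      Ay := ff_sc_Ay hX h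
      C00 := by unfold BdFr.C0; positivity
      xC := ff_xC hX h
      T := ff_sc_T hX h
      Mj0 := (ff_sc_Mj h).1
      Mj := (ff_sc_Mj h).2
      xK := hsmall _ hx.le (by simpa using h4 F h hN4)
      vs0 := (ff_vs_le hX h).1
      vs := ff_sc_vs hX h
      vs' := ff_sc_vs' hX h
      Bf0 := by unfold BdFr.Bf; positivity }

/-- LEAF: the PE floor has total mass `≤ v_*` -/
theorem ff_k_int (X : BdFix) (F : BdFr) (hm : 1 ≤ (F.m : ℝ)) (hd : 0 ≤ X.mPE) (hvs : 0 < F.vs X) {ρ : ℝ} (hρ : 0 ≤ ρ) :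
    ∫ r in (0 : ℝ)..ρ, F.k X r ≤ F.vs X := by
  set P := F.call X with hP
  have hN : P.N = (F.m : ℝ) := rfl
  have hdl : 0 ≤ P.dl := by
    show 0 ≤ X.mPE / 10000
    positivity
  have hus : 0 < P.us := hvs
  have hN1 : 1 ≤ P.N := hN ▸ hm
  have hN0 : 0 < P.N := zero_lt_one.trans_le hN1
  set a := P.N ^ P.dl * P.us ^ 2 with ha
  set c := P.N ^ (2 * P.dl) * P.us with hc
  have ha0 : 0 < a := by positivity
  have hc0 : 0 < c := by positivity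
  have hk : ∀ r, F.k X r = a / (r + c) ^ 2 := fun r => rfl
  have hne : ∀ t ∈ uIcc 0 ρ, t + c ≠ 0 := by
    intro t ht
    rw [uIcc_of_le hρ] at ht
    have := ht.1
    positivity
  have hder : ∀ t ∈ uIcc 0 ρ, HasDerivAt (fun t => -(a * (1 / (t + c)))) (F.k X t) t := by
    intro t ht
    have h0 := hne t ht
    have a1 : HasDerivAt (fun t : ℝ => t + c) 1 t := (hasDerivAt_id t).add_const _
    have a3 : HasDerivAt (fun s : ℝ => -(a * (1 / (s + c)))) (-(a * ((0 * (t + c) - 1 * 1) / (t + c) ^ 2))) t :=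
      (((hasDerivAt_const t (1 : ℝ)).div a1 h0).const_mul a).neg
    refine a3.congr_deriv ?_
    rw [hk]
    field_simp
    ring
  have hi : IntervalIntegrable (F.k X) volume 0 ρ := by
    apply ContinuousOn.intervalIntegrable
    intro t ht
    have h0 := hne t ht
    have : ContinuousAt (fun t : ℝ => a / (t + c) ^ 2) t :=
      continuousAt_const.div ((continuousAt_id.add continuousAt_const).pow 2) (pow_ne_zero 2 h0)
    exact this.continuousWithinAt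
  rw [intervalIntegral.integral_eq_sub_of_hasDerivAt hder hi]
  have h1 : 0 ≤ a * (1 / (ρ + c)) := by positivity
  have h2 : a * (1 / (0 + c)) ≤ P.us := by
    rw [zero_add, mul_one_div, div_le_iff₀ hc0, ha, hc]
    have h3 : P.N ^ P.dl ≤ P.N ^ (2 * P.dl) := Real.rpow_le_rpow_of_exponent_le hN1 (by linarith)
    have : P.N ^ P.dl * P.us ^ 2 ≤ P.N ^ (2 * P.dl) * P.us ^ 2 := by gcongr
    nlinarith
  have h3 : F.vs X = P.us := rfl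
  rw [h3]
  linarith

theorem ff_sc_Lam_pos {X : BdFix} {F : BdFr} {Kb : ℝ} (hs : FfSc F X Kb) : 0 < F.Lam := by
  have h1 := hs.C00
  unfold BdFr.C0 at h1
  exact (mul_pos_iff_of_pos_left (pow_pos hs.u0 2)).1 h1

theorem ff_sc_dPE_pos {X : BdFix} (hX : X.Ok) {F : BdFr} {Kb : ℝ} (hs : FfSc F X Kb) : 0 < F.dPE X := by
  have := ff_sc_Lam_pos hs
  have := hs.u0
  have := hX.cd_pos
  unfold BdFr.dPE; positivity

theorem ff_sc_arg {X : BdFix} (hX : X.Ok) {F : BdFr} {Kb : ℝ} (hs : FfSc F X Kb) (w : ℝ) :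
    F.C0 * w / (F.call X).d ^ 3 = w / (X.cd ^ 3 * F.u) := by
  have hL := ff_sc_Lam_pos hs
  have hu := hs.u0
  have hcd := hX.cd_pos
  have hd3 : (F.call X).d ^ 3 = X.cd ^ 3 * F.u ^ 3 * F.Lam := by
    show (F.dPE X) ^ 3 = _
    unfold BdFr.dPE
    rw [mul_pow, mul_pow, ← Real.rpow_natCast (F.Lam ^ (1 / 3 : ℝ)) 3, ← Real.rpow_mul hL.le]
    norm_num
  rw [hd3]
  unfold BdFr.C0
  field_simp

/-- LEAF: lower bound of the removal profile: `C(w) ≥ C_0/(1 + w/(c_d³ u))`, `C(w) ≤ C_0`, `w C(w)` nondecreasing -/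
theorem ff_C_facts (X : BdFix) (hX : X.Ok) {F : BdFr} {Kb : ℝ} (hs : FfSc F X Kb) :
    (∀ w : ℝ, 0 ≤ w → F.C0 / (1 + w / (X.cd ^ 3 * F.u)) ≤ F.C X w) ∧ (∀ w : ℝ, F.C X w ≤ F.C0) ∧
      ∀ w1 w2 : ℝ, 0 ≤ w1 → w1 ≤ w2 → w1 * F.C X w1 ≤ w2 * F.C X w2 := by
  have hd : 0 < (F.call X).d := ff_sc_dPE_pos hX hs
  refine ⟨fun w hw => ?_, fun w => cm_e_le (F.call X) hs.C00.le w, fun w1 w2 h1 h12 => ?_⟩
  · have := cm_e_ge (F.call X) hd hs.C00.le hw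
    rwa [ff_sc_arg hX hs] at this
  · exact cm_re_mono (F.call X) hd hs.C00.le (mem_Ici.2 h1) (mem_Ici.2 (h1.trans h12)) h12

theorem ff_C_pos {X : BdFix} {F : BdFr} {Kb : ℝ} (hs : FfSc F X Kb) (w : ℝ) : 0 < F.C X w :=
  cm_e_pos (F.call X) hs.C00 w

/-! ## 2. The context of the inner dyads of an instance -/

variable {X : BdFix} {W : BdWorld} {P : BdI X → Prop} {clo : ℝ}

theorem FfSc.mono {F : BdFr} {Kb Kb' : ℝ} (hs : FfSc F X Kb) (h : Kb' ≤ Kb) : FfSc F X Kb' :=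
  { hs with
    uK := (mul_le_mul_of_nonneg_right h hs.u0.le).trans hs.uK
    yK := (mul_le_mul_of_nonneg_right h hs.y0.le).trans hs.yK
    xK := (mul_le_mul_of_nonneg_right h hs.x0.le).trans hs.xK }

/-- lower bounds in powers of `N` -/
theorem FfSc.low {F : BdFr} {Kb : ℝ} (hs : FfSc F X Kb) :
    0 < (F.N : ℝ) ∧ ((F.N : ℝ))⁻¹ ≤ F.x ∧ F.x ≤ F.yc X ∧ ((F.N : ℝ))⁻¹ ^ 2 ≤ F.x ^ (10 : ℝ) := by
  have hx0 := hs.x0
  have hx1 := hs.x1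
  have h6 : F.x ^ (6 : ℝ) = F.x ^ 6 := by rw [Real.rpow_ofNat]
  have hN : ((F.N : ℝ))⁻¹ = F.x ^ 6 := by rw [← hs.xN, h6]
  have hNpos : 0 < (F.N : ℝ) := by
    have : 0 < ((F.N : ℝ))⁻¹ := by rw [hN]; positivity
    exact inv_pos.1 this
  refine ⟨hNpos, ?_, ?_, ?_⟩
  · rw [hN]
    calc F.x ^ 6 ≤ F.x ^ 1 := pow_le_pow_of_le_one hx0.le hx1 (by norm_num)
      _ = F.x := pow_one _
  · have h2 : F.x ^ 2 ≤ F.yc X ^ 2 := by
      have := hs.Ax.trans hs.Ay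
      rwa [Real.rpow_ofNat] at this
    exact (pow_le_pow_iff_left₀ hx0.le hs.y0.le two_ne_zero).1 h2
  · rw [hN, Real.rpow_ofNat, ← pow_mul]
    exact pow_le_pow_of_le_one hx0.le hx1 (by norm_num)

/-- `K y_c ≤ c` for large sizes, in the form used for the scales -/
theorem ff_sc_wc {F : BdFr} {K c : ℝ} (hc : 0 < c) (hs : FfSc F X ((|K| + 1) / c)) : K * F.wc X ≤ c * F.u := by
  have h1 : (|K| + 1) / c * F.yc X ≤ 1 := hs.yK
  have h2 : (|K| + 1) * F.yc X ≤ c := by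
    rw [div_mul_eq_mul_div, div_le_one hc] at h1; exact h1
  have hy := hs.y0
  have hu := hs.u0
  calc K * F.wc X ≤ (|K| + 1) * (F.yc X * F.u) := by
        unfold BdFr.wc
        exact mul_le_mul_of_nonneg_right (by linarith [le_abs_self K]) (by positivity)
    _ = ((|K| + 1) * F.yc X) * F.u := by ring
    _ ≤ c * F.u := mul_le_mul_of_nonneg_right h2 hu.le

/-- the radius `ρ0 = cρ u` fits in the flat region, with the margin `1/M_j` -/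
theorem ff_ctx_rho (hX : X.Ok) {F : BdFr} {cρ Kb : ℝ} (h0 : 0 < cρ) (h2 : 2 * cρ ≤ X.cd ^ 3)
    (hK1 : X.CU / cρ ≤ Kb) (hK2 : X.cd ^ 3 ≤ Kb) (hs : FfSc F X Kb) :
    cρ * F.u + 1 / F.Mj ≤ min (X.cd ^ 3 * F.u) 1 := by
  have hx0 := hs.x0
  have hx1 := hs.x1
  have hu := hs.u0
  have hCU := hX.CU_pos
  have hKb : 0 < Kb := lt_of_lt_of_le (by positivity) hK1
  have e1 : F.x ^ (100 : ℝ) ≤ F.x ^ 2 := by
    rw [Real.rpow_ofNat]
    exact pow_le_pow_of_le_one hx0.le hx1 (by norm_num)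
  have e2 : X.CU * F.x ≤ cρ := by
    have h3 : X.CU / cρ * F.x ≤ 1 := (mul_le_mul_of_nonneg_right hK1 hx0.le).trans hs.xK
    rwa [div_mul_eq_mul_div, div_le_one h0] at h3
  have e3 : F.x ^ 2 ≤ cρ * F.u := by
    calc F.x ^ 2 = F.x * F.x := sq _
      _ ≤ F.x * (X.CU * F.u) := mul_le_mul_of_nonneg_left hs.ux hx0.le
      _ = (X.CU * F.x) * F.u := by ring
      _ ≤ cρ * F.u := mul_le_mul_of_nonneg_right e2 hu.le
  have e4 : cρ * F.u + 1 / F.Mj ≤ X.cd ^ 3 * F.u := by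
    calc cρ * F.u + 1 / F.Mj ≤ cρ * F.u + cρ * F.u := by linarith [hs.Mj]
      _ = (2 * cρ) * F.u := by ring
      _ ≤ X.cd ^ 3 * F.u := mul_le_mul_of_nonneg_right h2 hu.le
  refine le_min e4 (e4.trans ?_)
  exact (mul_le_mul_of_nonneg_right hK2 hu.le).trans hs.uK

/-- no extra floor below `Ilo u` -/
theorem ff_ctx_fl (hX : X.Ok) {F : BdFr} (hF : F.Ok X) {Kb ρ : ℝ} (hs : FfSc F X Kb) (h0 : 0 ≤ ρ) (h1 : ρ ≤ 1)
    (hI : ρ < F.Ilo * F.u) : ∫ r in (0 : ℝ)..ρ, budKb F X r ≤ F.vs X := by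
  rw [bud_gb_int_Kb F X le_rfl h0 h1]
  have e : ∫ r in (0 : ℝ)..ρ, F.kbar X r = ∫ r in (0 : ℝ)..ρ, F.k X r := by
    refine intervalIntegral.integral_congr fun r hr => ?_
    rw [uIcc_of_le h0] at hr
    show F.kbar X r = F.k X r
    unfold BdFr.kbar
    rw [if_neg (fun hm => absurd hm.1 (not_le.2 (lt_of_le_of_lt hr.2 hI))), add_zero]
  rw [e]
  exact ff_k_int X F (bud_gb_m_ge hF) hX.mPE_pos.le hs.vs0 h0

/-- the context of one instance -/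
theorem ff_ctx_one (hX : X.Ok) {F : BdFr} (hF : F.Ok X) (Q : BdQ F X) (g c0 : ℝ) (hB : F.Base X W g)
    (hg : (budGeoQ Q W g c0).Ok) {Xn : CmNum} (hXn : Xn.Ok)
    (hSl : ∀ v ∈ Ioo (0 : ℝ) 1, Xn.S v = Q.Sq W g v)
    (hck : ∀ s t : ℝ, 0 ≤ s → s ≤ t → t ≤ min (X.cd ^ 3 * F.u) 1 →
      (F.m : ℝ) * F.C0 * ∫ r in s..t, Xn.TH (Q.al r) ≤ Xn.S (Q.al t) - Xn.S (Q.al s))
    {ρ0 : ℝ} (h0 : 0 < ρ0) (hρ : ρ0 + 1 / F.Mj ≤ min (X.cd ^ 3 * F.u) 1) :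
    (ffOfGeo (budGeoQ Q W g c0) Xn (F.m) F.C0 ρ0).Ok := by
  have hbox := bud_gb_box hX hF
  have hal : ∀ r ∈ Icc (0:ℝ) 1, (budGeoQ Q W g c0).al r = Q.al r := fun r hr => bud_n4_al X hX F hF Q W g c0 hr
  refine ff_of_geo hg hbox (bud_n4_flat X hX F hF Q W g c0) hXn (fun r hr => ?_)
    (lt_of_lt_of_le zero_lt_one (bud_gb_m_ge hF)) (fun s t hs hst ht => ?_) h0 hρ
  · rw [bud_n4_S X hX F hF Q W g c0 hB hr, hal r (Ioo_subset_Icc_self hr)]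
    refine (hSl _ ?_).symm
    rw [← hal r (Ioo_subset_Icc_self hr)]
    exact budAl_mem hbox hg.dens hr
  · have ht1 : t ≤ 1 := ht.trans (min_le_right _ _)
    rw [hal t ⟨hs.trans hst, ht1⟩, hal s ⟨hs, hst.trans ht1⟩]
    have e : ∫ r in s..t, Xn.TH ((budGeoQ Q W g c0).al r) = ∫ r in s..t, Xn.TH (Q.al r) := by
      refine intervalIntegral.integral_congr fun r hr => ?_
      rw [uIcc_of_le hst] at hr
      show Xn.TH ((budGeoQ Q W g c0).al r) = Xn.TH (Q.al r)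
      rw [hal r ⟨hs.trans hr.1, hr.2.trans ht1⟩]
    rw [e]
    exact hck s t hs hst ht

/-- masses whose quantile is `≤ ρ0` are `≤ α(ρ0)` -/
theorem ff_ctx_V0 (hX : X.Ok) {F : BdFr} (hF : F.Ok X) (Q : BdQ F X) (g c0 : ℝ) {ρ0 : ℝ} (h0 : 0 ≤ ρ0) (h1 : ρ0 ≤ 1)
    {v : ℝ} (hv : v ∈ Icc (0 : ℝ) 1) (hr : Q.r v ≤ ρ0) : v ≤ (budGeoQ Q W g c0).al ρ0 := by
  have hbox := bud_gb_box hX hF
  obtain ⟨hd, h2, _⟩ := bud_dens_of_bdq X hX F hF Q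
  have e1 : v = budAl (deriv Q.al) (Q.r v) := by rw [h2 _ (Q.r_mem v hv), Q.al_r v hv]
  rw [e1]
  exact (budAl_strictMonoOn hbox hd).monotoneOn (Q.r_mem v hv) ⟨h0, h1⟩ hr

/-- LEAF (dictionary): `bud_n4_geo`, `bud_loc_of_frame`, `bud_n4_flat`, `bud_n4_al`, `bud_n4_S`, `bud_dens_of_bdq`, `ff_of_geo` with `ρ0 = cρ u`, `ff_k_int` (`ρ0 ≤ Ilo u`: no extra floor) -/
theorem ff_top_ctx (hS : BudFfStd X W P clo) {Cp : ℕ → ℝ} (hnum : BudFfNum X W P Cp) {cρ : ℝ} (h0 : 0 < cρ) (h1 : cρ < clo)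
    (h2 : 2 * cρ ≤ X.cd ^ 3) :
    ∃ N0 : ℕ, ∀ i, P i → N0 ≤ i.F.N → ∃ c : FfM, c.Ok ∧ c.Xn.Raw (i.F.wc X) Cp ∧
      (∀ v ∈ Ioo (0 : ℝ) 1, c.Xn.D v ^ 2 = i.Q.Dq2 W i.g v) ∧ (∀ v ∈ Icc (0 : ℝ) 1, c.rq v = i.Q.r v) ∧
      (∀ v ∈ Icc (0 : ℝ) 1, i.Q.r v ≤ cρ * i.F.u → v ≤ c.V0) ∧
      c.T = 1 / ((i.F.m : ℝ) * i.F.C0) ∧ c.dl = 2 / i.F.Mj ∧ c.Fl ≤ i.F.vs X := by
  have hX := hS.fix
  obtain ⟨N1, hN1⟩ := bud_n4_geo X hX
  obtain ⟨N2, hN2⟩ := hnum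
  obtain ⟨N3, hN3⟩ := ff_sc_ev X hX (max (X.CU / cρ) (X.cd ^ 3))
  refine ⟨max N1 (max N2 N3), fun i hP hN => ?_⟩
  have hF := hS.ok i hP
  have hB := hS.base i hP
  obtain ⟨c0, hg, _⟩ := hN1 i.F hF ((le_max_left _ _).trans hN) W i.g hB i.Q (hS.opt i hP)
  obtain ⟨Xn, hXn, hSl, hD, hraw, hck⟩ := hN2 i hP (((le_max_left _ _).trans (le_max_right _ _)).trans hN)
  have hs := hN3 i.F hF (((le_max_right _ _).trans (le_max_right _ _)).trans hN)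
  have hu := hs.u0
  have hρ0 : 0 < cρ * i.F.u := mul_pos h0 hu
  have hρ := ff_ctx_rho hX h0 h2 (le_max_left _ _) (le_max_right _ _) hs
  have hMj : 0 < 1 / i.F.Mj := one_div_pos.2 hs.Mj0
  have hρ1 : cρ * i.F.u ≤ 1 := by linarith [min_le_right (X.cd ^ 3 * i.F.u) 1]
  refine ⟨ffOfGeo (budGeoQ i.Q W i.g c0) Xn (i.F.m) i.F.C0 (cρ * i.F.u),
    ff_ctx_one hX hF i.Q i.g c0 hB hg hXn hSl hck hρ0 hρ, hraw, hD,
    (bud_dens_of_bdq X hX i.F hF i.Q).2.2, fun v hv hr => ff_ctx_V0 hX hF i.Q i.g c0 hρ0.le hρ1 hv hr, rfl, rfl, ?_⟩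
  refine ff_ctx_fl hX hF hs hρ0.le hρ1 ?_
  exact lt_of_lt_of_le (mul_lt_mul_of_pos_right h1 hu) (mul_le_mul_of_nonneg_right (hS.ilo i hP) hu.le)

/-! ## 3. The dyads -/

/-- a function which agrees on `(0,1)` with a measurable function bounded by `1` on `[0,1]` is interval integrable -/
theorem ff_ii_of_eq {f g : ℝ → ℝ} (hg : Measurable g) (hb : ∀ v ∈ Icc (0:ℝ) 1, |g v| ≤ 1) (he : ∀ v ∈ Ioo (0:ℝ) 1, f v = g v)
    {a b : ℝ} (ha : 0 ≤ a) (hab : a ≤ b) (hb1 : b ≤ 1) : IntervalIntegrable f volume a b := by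
  rw [intervalIntegrable_iff_integrableOn_Ioo_of_le hab]
  have hsub : Ioo a b ⊆ Ioo (0:ℝ) 1 := fun v hv => ⟨lt_of_le_of_lt ha hv.1, lt_of_lt_of_le hv.2 hb1⟩
  have h1 : IntegrableOn g (Ioo a b) := by
    refine Measure.integrableOn_of_bounded (M := 1) (by simp) hg.aestronglyMeasurable ?_
    rw [ae_restrict_iff' measurableSet_Ioo]
    exact Eventually.of_forall fun v hv => by
      rw [Real.norm_eq_abs]
      exact hb v (Ioo_subset_Icc_self (hsub hv))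
  exact h1.congr_fun (fun v hv => (he v (hsub hv)).symm) measurableSet_Ioo

/-- **raw bound**: `D_v ≤ Cp 1 (v + w_c)`, measurability, `D² = Dq2`, for all large sizes -/
theorem ff_top_raw (_hS : BudFfStd X W P clo) {Cp : ℕ → ℝ} (hnum : BudFfNum X W P Cp) :
    ∃ N0 : ℕ, ∀ i, P i → N0 ≤ i.F.N →
      (∀ v ∈ Ioo (0 : ℝ) 1, 0 ≤ i.Q.Dq2 W i.g v ∧ i.Q.Dq W i.g v ≤ Cp 1 * (v + i.F.wc X)) ∧
      (∀ a b : ℝ, 0 ≤ a → a ≤ b → b ≤ 1 → IntervalIntegrable (i.Q.Dq2 W i.g) volume a b) ∧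
      (∀ a b : ℝ, 0 ≤ a → a ≤ b → b ≤ 1 → IntervalIntegrable (i.Q.Dq W i.g) volume a b) := by
  obtain ⟨N0, h⟩ := hnum
  refine ⟨N0, fun i hP hN => ?_⟩
  obtain ⟨Xn, hX, _, hD, hraw, _⟩ := h i hP hN
  have hDq : ∀ v ∈ Ioo (0 : ℝ) 1, i.Q.Dq W i.g v = Xn.D v := by
    intro v hv
    unfold BdQ.Dq
    rw [← hD v hv, Real.sqrt_sq (hX.D_nn v (Ioo_subset_Icc_self hv))]
  refine ⟨fun v hv => ⟨?_, ?_⟩, fun a b ha hab hb => ?_, fun a b ha hab hb => ?_⟩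
  · rw [← hD v hv]; positivity
  · rw [hDq v hv]
    exact (hX.d_nr v (Ioo_subset_Icc_self hv)).trans (hraw v (Ioo_subset_Icc_self hv)).2
  · refine ff_ii_of_eq (g := fun v => Xn.D v ^ 2) (hX.D_meas.pow_const 2) (fun v hv => ?_) (fun v hv => (hD v hv).symm) ha hab hb
    have h0 := hX.D_nn v hv
    have h1 := hX.D_le v hv
    rw [abs_of_nonneg (by positivity)]
    nlinarith
  · refine ff_ii_of_eq (g := Xn.D) hX.D_meas (fun v hv => ?_) hDq ha hab hb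
    rw [abs_of_nonneg (hX.D_nn v hv)]
    exact hX.D_le v hv

theorem ff_cbrt_le {a b : ℝ} (ha : 0 ≤ a) (hb : 0 ≤ b) (h : a ≤ b ^ 3) : a ^ (1 / 3 : ℝ) ≤ b := by
  have h1 : a ^ (1 / 3 : ℝ) ≤ (b ^ 3) ^ (1 / 3 : ℝ) := Real.rpow_le_rpow ha h (by norm_num)
  refine h1.trans (le_of_eq ?_)
  rw [← Real.rpow_natCast, ← Real.rpow_mul hb]
  norm_num

theorem ff_cbrt_cube {a : ℝ} (ha : 0 ≤ a) : (a ^ (1 / 3 : ℝ)) ^ 3 = a := by
  rw [← Real.rpow_natCast, ← Real.rpow_mul ha]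
  norm_num

theorem ff_le_of_sq {a b : ℝ} (hb : 0 ≤ b) (h : a ^ 2 ≤ b ^ 2) : a ≤ b := abs_le_of_sq_le_sq' h hb |>.2

theorem ff_le_of_cube {a b : ℝ} (ha : 0 ≤ a) (hb : 0 ≤ b) (h : a ^ 3 ≤ b ^ 3) : a ≤ b :=
  (pow_le_pow_iff_left₀ ha hb (by norm_num)).1 h

theorem ff_sc_yc_le_one {X : BdFix} {F : BdFr} {Kb : ℝ} (hKb : 1 ≤ Kb) (hs : FfSc F X Kb) : F.yc X ≤ 1 := by
  have := hs.yK
  have := hs.y0
  nlinarith

theorem ff_sc_x_le_yc {X : BdFix} {F : BdFr} {Kb : ℝ} (hs : FfSc F X Kb) : F.x ≤ F.yc X := by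
  have h1 := hs.Ax.trans hs.Ay
  rw [Real.rpow_two] at h1
  exact ff_le_of_sq hs.y0.le h1

/-- LEAF (arithmetic): the inner terms against `T_1`, `T_2`; the part below `x^{10}` -/
theorem ff_T_facts (X : BdFix) (hX : X.Ok) {F : BdFr} {Kb : ℝ} (hKb : 1 ≤ Kb) (hs : FfSc F X Kb) :
    0 ≤ F.T1 X ∧ 0 ≤ F.T2 X ∧ F.yc X ^ 2 ≤ F.T1 X ∧ F.A * F.yc X ^ (5 / 3 : ℝ) ≤ F.T2 X ∧
      F.x ^ (10 : ℝ) ≤ X.CU * F.wc X ∧ F.x ^ (10 : ℝ) * F.yc X ^ 2 ≤ X.CU * (F.u * F.T2 X) := by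
  have hA := hs.A0
  have hy := hs.y0
  have hB := hs.Bf0
  have hx := hs.x0
  have hx1 := hs.x1
  have hu := hs.u0
  have hCU := hX.CU_pos
  have hy1 := ff_sc_yc_le_one hKb hs
  have hxy := ff_sc_x_le_yc hs
  have p1 : 0 < F.A ^ (3 / 2 : ℝ) * F.yc X := by positivity
  have p2 : 0 < F.A * F.yc X ^ (5 / 3 : ℝ) := by positivity
  have hT2 : F.A * F.yc X ^ (5 / 3 : ℝ) ≤ F.T2 X := by
    unfold BdFr.T2
    have := sq_nonneg F.A
    have := sq_nonneg (F.Bf X)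
    linarith
  have e10 : F.x ^ (10 : ℝ) = F.x ^ 10 := by rw [← Real.rpow_natCast]; norm_num
  have hAx := hs.Ax
  rw [Real.rpow_two] at hAx
  refine ⟨?_, ?_, ?_, hT2, ?_, ?_⟩
  · unfold BdFr.T1; positivity
  · exact p2.le.trans hT2
  · unfold BdFr.T1; linarith
  · rw [e10]
    unfold BdFr.wc
    have h9 : F.x ^ 9 ≤ F.yc X := by
      calc F.x ^ 9 ≤ F.x ^ 1 := pow_le_pow_of_le_one hx.le hx1 (by norm_num)
        _ = F.x := pow_one _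
        _ ≤ F.yc X := hxy
    calc F.x ^ 10 = F.x * F.x ^ 9 := by ring
      _ ≤ (X.CU * F.u) * F.yc X := mul_le_mul hs.ux h9 (by positivity) (by positivity)
      _ = X.CU * (F.yc X * F.u) := by ring
  · rw [e10]
    have h7 : F.x ^ 7 ≤ 1 := pow_le_one₀ hx.le hx1
    have hyy : F.yc X ^ 2 ≤ F.yc X ^ (5 / 3 : ℝ) := by
      rw [← Real.rpow_two]
      exact Real.rpow_le_rpow_of_exponent_ge hy hy1 (by norm_num)
    calc F.x ^ 10 * F.yc X ^ 2 = F.x * (F.x ^ 2 * (F.x ^ 7 * F.yc X ^ 2)) := by ring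
      _ ≤ (X.CU * F.u) * (F.A * (1 * F.yc X ^ (5 / 3 : ℝ))) := by
          refine mul_le_mul hs.ux ?_ (by positivity) (by positivity)
          refine mul_le_mul hAx ?_ (by positivity) hA.le
          exact mul_le_mul h7 hyy (by positivity) zero_le_one
      _ = X.CU * (F.u * (F.A * F.yc X ^ (5 / 3 : ℝ))) := by ring
      _ ≤ X.CU * (F.u * F.T2 X) := by gcongr

/-- `x⁶ = u⁴ A³ C_0` -/
theorem ff_sc_x6 {X : BdFix} {F : BdFr} {Kb : ℝ} (hs : FfSc F X Kb) : F.x ^ (6 : ℝ) = F.u ^ 4 * F.A ^ 3 * F.C0 := by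
  rw [← hs.xC]
  have := hs.C00.ne'
  field_simp

/-- the first term of `R10`, cubed -/
theorem ff_t1_cube {X : BdFix} {F : BdFr} {Kb : ℝ} (hs : FfSc F X Kb) {w : ℝ} (hw : 0 < w) :
    0 ≤ (F.x ^ (6 : ℝ) / (F.C X w * w)) ^ (1 / 3 : ℝ) ∧
    ((F.x ^ (6 : ℝ) / (F.C X w * w)) ^ (1 / 3 : ℝ)) ^ 3 = F.u ^ 4 * F.A ^ 3 * F.C0 / (F.C X w * w) := by
  have hC := ff_C_pos hs w
  have hx := hs.x0
  have h0 : 0 ≤ F.x ^ (6 : ℝ) / (F.C X w * w) := by positivity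
  exact ⟨Real.rpow_nonneg h0 _, by rw [ff_cbrt_cube h0, ff_sc_x6 hs]⟩

/-- the second term of `R10`, squared -/
theorem ff_t2_sq {X : BdFix} {F : BdFr} {Kb : ℝ} (hs : FfSc F X Kb) {w : ℝ} (hw : 0 < w) :
    0 ≤ F.x ^ (3 : ℝ) / (w * Real.sqrt (F.C X w)) ∧
    (F.x ^ (3 : ℝ) / (w * Real.sqrt (F.C X w))) ^ 2 = F.u ^ 4 * F.A ^ 3 * F.C0 / (w ^ 2 * F.C X w) := by
  have hC := ff_C_pos hs w
  have hx := hs.x0
  refine ⟨by positivity, ?_⟩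
  rw [div_pow, mul_pow, Real.sq_sqrt hC.le, ← ff_sc_x6 hs]
  congr 1
  rw [← Real.rpow_natCast, ← Real.rpow_mul hx.le]
  norm_num

/-- LEAF (arithmetic): the right side of (C10) above `c_H u` -/
theorem ff_R10_high (X : BdFix) (hX : X.Ok) :
    ∃ K : ℝ, ∃ Kb : ℝ, ∀ F : BdFr, FfSc F X Kb → ∀ w : ℝ, X.cH * F.u ≤ w → w ≤ 1 / 2 →
      0 ≤ F.R10 X w ∧ F.R10 X w ≤ K * (F.u * F.A) := by
  have hcH := hX.cH_pos
  have hcd := hX.cd_pos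
  set q := X.cH / (1 + X.cH / X.cd ^ 3) with hq
  have hq0 : 0 < q := by positivity
  refine ⟨(1 + 1 / q) + (1 + 1 / (X.cH * q)) + 4 / X.cd, 1, fun F hs w hw1 _ => ?_⟩
  have hu := hs.u0
  have hA := hs.A0
  have hA1 := hs.A1
  have hC0 := hs.C00
  have hw : 0 < w := lt_of_lt_of_le (by positivity) hw1
  have hC := ff_C_pos hs w
  obtain ⟨f1, f2, f3⟩ := ff_C_facts X hX hs
  have huA : 0 < F.u * F.A := mul_pos hu hA
  -- `w C(w) ≥ q u C_0`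
  have hwC : q * F.u * F.C0 ≤ w * F.C X w := by
    refine le_trans ?_ (f3 (X.cH * F.u) w (by positivity) hw1)
    have := f1 (X.cH * F.u) (by positivity)
    have e : X.cH * F.u / (X.cd ^ 3 * F.u) = X.cH / X.cd ^ 3 := by field_simp
    rw [e] at this
    calc q * F.u * F.C0 = X.cH * F.u * (F.C0 / (1 + X.cH / X.cd ^ 3)) := by rw [hq]; ring
      _ ≤ X.cH * F.u * F.C X (X.cH * F.u) := mul_le_mul_of_nonneg_left this (by positivity)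
  obtain ⟨a0, a1⟩ := ff_t1_cube hs hw
  obtain ⟨b0, b1⟩ := ff_t2_sq hs hw
  have t1 : (F.x ^ (6 : ℝ) / (F.C X w * w)) ^ (1 / 3 : ℝ) ≤ (1 + 1 / q) * (F.u * F.A) := by
    refine ff_le_of_cube a0 (by positivity) ?_
    rw [a1, div_le_iff₀ (by positivity)]
    have h1 : (1:ℝ) / q ≤ (1 + 1 / q) ^ 3 := by
      have : 0 < 1 / q := by positivity
      nlinarith [sq_nonneg (1 / q)]
    calc F.u ^ 4 * F.A ^ 3 * F.C0 = 1 / q * (F.u * F.A) ^ 3 * (q * F.u * F.C0) := by field_simp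
      _ ≤ (1 + 1 / q) ^ 3 * (F.u * F.A) ^ 3 * (w * F.C X w) := by gcongr
      _ = ((1 + 1 / q) * (F.u * F.A)) ^ 3 * (F.C X w * w) := by ring
  have t2 : F.x ^ (3 : ℝ) / (w * Real.sqrt (F.C X w)) ≤ (1 + 1 / (X.cH * q)) * (F.u * F.A) := by
    refine ff_le_of_sq (by positivity) ?_
    rw [b1, div_le_iff₀ (by positivity)]
    have h1 : (1:ℝ) / (X.cH * q) ≤ (1 + 1 / (X.cH * q)) ^ 2 := by
      have : 0 < 1 / (X.cH * q) := by positivity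
      nlinarith
    have h2 : F.A ^ 3 ≤ F.A ^ 2 := pow_le_pow_of_le_one hA.le hA1 (by norm_num)
    calc F.u ^ 4 * F.A ^ 3 * F.C0 ≤ F.u ^ 4 * F.A ^ 2 * F.C0 := by gcongr
      _ = 1 / (X.cH * q) * (F.u * F.A) ^ 2 * ((X.cH * F.u) * (q * F.u * F.C0)) := by field_simp
      _ ≤ (1 + 1 / (X.cH * q)) ^ 2 * (F.u * F.A) ^ 2 * (w * (w * F.C X w)) := by gcongr
      _ = ((1 + 1 / (X.cH * q)) * (F.u * F.A)) ^ 2 * (w ^ 2 * F.C X w) := by ring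
  have t3 := hs.vs
  have t30 : 0 ≤ (F.m : ℝ) ^ (X.dPEexp / 2) * F.vs X :=
    mul_nonneg (Real.rpow_nonneg hs.m0.le _) hs.vs0.le
  unfold BdFr.R10
  rw [if_neg (not_lt.2 hw1), add_zero]
  constructor
  · positivity
  · linarith

theorem ff_four_sq (a b c d : ℝ) : (a + b + c + d) ^ 2 ≤ 4 * (a ^ 2 + b ^ 2 + c ^ 2 + d ^ 2) := by
  nlinarith [sq_nonneg (a - b), sq_nonneg (a - c), sq_nonneg (a - d), sq_nonneg (b - c), sq_nonneg (b - d),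
    sq_nonneg (c - d)]

theorem ff_le_one_add_cube {k : ℝ} (hk : 0 ≤ k) : k ≤ (1 + k) ^ 3 := by
  nlinarith [sq_nonneg k, mul_nonneg hk hk, mul_nonneg hk (mul_nonneg hk hk)]

theorem ff_le_one_add_sq {k : ℝ} (hk : 0 ≤ k) : k ≤ (1 + k) ^ 2 := by nlinarith

/-- the first two terms of `R10` on the regular dyads below `c_H u` -/
theorem ff_R10_low_aux (X : BdFix) (hX : X.Ok) {Creg : ℝ} (hCreg : 0 < Creg) {F : BdFr} {Kb : ℝ} (hs : FfSc F X Kb)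
    {w D : ℝ} (hD : D = 1 + X.cH / (2 * X.cd ^ 3)) (hw1 : Creg * F.wc X ≤ w) (hw2 : 2 * w ≤ X.cH * F.u) :
    w * (F.x ^ (6 : ℝ) / (F.C X w * w)) ^ (1 / 3 : ℝ) ≤ (1 + D * (X.cH / 2) ^ 2) * (F.u ^ 2 * F.A) ∧
    w * ((F.x ^ (6 : ℝ) / (F.C X w * w)) ^ (1 / 3 : ℝ)) ^ 2 ≤ (1 + D ^ 2 * (X.cH / 2)) * (F.u ^ 3 * F.A ^ 2) ∧
    w * (F.x ^ (3 : ℝ) / (w * Real.sqrt (F.C X w))) ≤ (1 + D) * (F.u ^ 2 * F.A) ∧
    w * (F.x ^ (3 : ℝ) / (w * Real.sqrt (F.C X w))) ^ 2 ≤ D / Creg * (F.u ^ 3 * (F.A ^ (3 / 2 : ℝ) * F.yc X)) := by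
  have hcH := hX.cH_pos
  have hcd := hX.cd_pos
  have hu := hs.u0
  have hA := hs.A0
  have hA1 := hs.A1
  have hC0 := hs.C00
  have hy := hs.y0
  have hD1 : 1 ≤ D := by rw [hD]; have : 0 < X.cH / (2 * X.cd ^ 3) := by positivity
                         linarith
  have hD0 : 0 < D := by linarith
  have hwc : 0 < F.wc X := by unfold BdFr.wc; positivity
  have hw : 0 < w := lt_of_lt_of_le (by positivity) hw1
  have hwu : w ≤ X.cH / 2 * F.u := by linarith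
  have hC := ff_C_pos hs w
  obtain ⟨f1, -, -⟩ := ff_C_facts X hX hs
  have hCD : F.C0 ≤ D * F.C X w := by
    have h1 := f1 w hw.le
    have h2 : w / (X.cd ^ 3 * F.u) ≤ X.cH / (2 * X.cd ^ 3) := by
      rw [div_le_div_iff₀ (by positivity) (by positivity)]
      nlinarith [pow_pos hcd 3]
    have h3 : 0 ≤ w / (X.cd ^ 3 * F.u) := by positivity
    rw [div_le_iff₀ (by positivity)] at h1
    calc F.C0 ≤ F.C X w * (1 + w / (X.cd ^ 3 * F.u)) := h1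
      _ ≤ F.C X w * D := by rw [hD]; gcongr
      _ = D * F.C X w := mul_comm _ _
  obtain ⟨a0, a1⟩ := ff_t1_cube hs hw
  obtain ⟨b0, b1⟩ := ff_t2_sq hs hw
  set t1 := (F.x ^ (6 : ℝ) / (F.C X w * w)) ^ (1 / 3 : ℝ) with ht1
  set t2 := F.x ^ (3 : ℝ) / (w * Real.sqrt (F.C X w)) with ht2
  have c1 : t1 ^ 3 * w ≤ D * (F.u ^ 4 * F.A ^ 3) := by
    rw [a1]
    have e : F.u ^ 4 * F.A ^ 3 * F.C0 / (F.C X w * w) * w = F.u ^ 4 * F.A ^ 3 * F.C0 / F.C X w := by field_simp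
    rw [e, div_le_iff₀ hC]
    calc F.u ^ 4 * F.A ^ 3 * F.C0 ≤ F.u ^ 4 * F.A ^ 3 * (D * F.C X w) := by gcongr
      _ = D * (F.u ^ 4 * F.A ^ 3) * F.C X w := by ring
  have c2 : t2 ^ 2 * w ^ 2 ≤ D * (F.u ^ 4 * F.A ^ 3) := by
    rw [b1]
    have e : F.u ^ 4 * F.A ^ 3 * F.C0 / (w ^ 2 * F.C X w) * w ^ 2 = F.u ^ 4 * F.A ^ 3 * F.C0 / F.C X w := by
      field_simp
    rw [e, div_le_iff₀ hC]
    calc F.u ^ 4 * F.A ^ 3 * F.C0 ≤ F.u ^ 4 * F.A ^ 3 * (D * F.C X w) := by gcongr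
      _ = D * (F.u ^ 4 * F.A ^ 3) * F.C X w := by ring
  refine ⟨?_, ?_, ?_, ?_⟩
  · refine ff_le_of_cube (by positivity) (by positivity) ?_
    have k := ff_le_one_add_cube (k := D * (X.cH / 2) ^ 2) (by positivity)
    calc (w * t1) ^ 3 = w ^ 2 * (t1 ^ 3 * w) := by ring
      _ ≤ (X.cH / 2 * F.u) ^ 2 * (D * (F.u ^ 4 * F.A ^ 3)) := by gcongr
      _ = D * (X.cH / 2) ^ 2 * (F.u ^ 2 * F.A) ^ 3 := by ring
      _ ≤ (1 + D * (X.cH / 2) ^ 2) ^ 3 * (F.u ^ 2 * F.A) ^ 3 := by gcongr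
      _ = ((1 + D * (X.cH / 2) ^ 2) * (F.u ^ 2 * F.A)) ^ 3 := by ring
  · refine ff_le_of_cube (by positivity) (by positivity) ?_
    have k := ff_le_one_add_cube (k := D ^ 2 * (X.cH / 2)) (by positivity)
    calc (w * t1 ^ 2) ^ 3 = w * (t1 ^ 3 * w) ^ 2 := by ring
      _ ≤ (X.cH / 2 * F.u) * (D * (F.u ^ 4 * F.A ^ 3)) ^ 2 := by gcongr
      _ = D ^ 2 * (X.cH / 2) * (F.u ^ 3 * F.A ^ 2) ^ 3 := by ring
      _ ≤ (1 + D ^ 2 * (X.cH / 2)) ^ 3 * (F.u ^ 3 * F.A ^ 2) ^ 3 := by gcongr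
      _ = ((1 + D ^ 2 * (X.cH / 2)) * (F.u ^ 3 * F.A ^ 2)) ^ 3 := by ring
  · refine ff_le_of_sq (by positivity) ?_
    have k := ff_le_one_add_sq (k := D) hD0.le
    have h2 : F.A ^ 3 ≤ F.A ^ 2 := pow_le_pow_of_le_one hA.le hA1 (by norm_num)
    calc (w * t2) ^ 2 = t2 ^ 2 * w ^ 2 := by ring
      _ ≤ D * (F.u ^ 4 * F.A ^ 3) := c2
      _ ≤ D * (F.u ^ 4 * F.A ^ 2) := by gcongr
      _ = D * (F.u ^ 2 * F.A) ^ 2 := by ring
      _ ≤ (1 + D) ^ 2 * (F.u ^ 2 * F.A) ^ 2 := by gcongr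
      _ = ((1 + D) * (F.u ^ 2 * F.A)) ^ 2 := by ring
  · have hA3 : F.A ^ 3 ≤ F.A ^ (3 / 2 : ℝ) * F.yc X ^ 2 := by
      have e : F.A ^ 3 = F.A ^ (3 / 2 : ℝ) * F.A ^ (3 / 2 : ℝ) := by
        rw [← Real.rpow_add hA, ← Real.rpow_natCast]; norm_num
      have h1 : F.A ^ (3 / 2 : ℝ) ≤ F.A := by
        have := Real.rpow_le_rpow_of_exponent_ge hA hA1 (by norm_num : (1:ℝ) ≤ 3 / 2)
        rwa [Real.rpow_one] at this
      rw [e]
      exact mul_le_mul_of_nonneg_left (h1.trans hs.Ay) (by positivity)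
    have h3 : w * t2 ^ 2 * w ≤ D / Creg * (F.u ^ 3 * (F.A ^ (3 / 2 : ℝ) * F.yc X)) * w := by
      calc w * t2 ^ 2 * w = t2 ^ 2 * w ^ 2 := by ring
        _ ≤ D * (F.u ^ 4 * F.A ^ 3) := c2
        _ ≤ D * (F.u ^ 4 * (F.A ^ (3 / 2 : ℝ) * F.yc X ^ 2)) := by gcongr
        _ = D / Creg * (F.u ^ 3 * (F.A ^ (3 / 2 : ℝ) * F.yc X)) * (Creg * (F.yc X * F.u)) := by field_simp
        _ ≤ D / Creg * (F.u ^ 3 * (F.A ^ (3 / 2 : ℝ) * F.yc X)) * w := by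
            refine mul_le_mul_of_nonneg_left ?_ (by positivity)
            exact hw1
    exact le_of_mul_le_mul_right h3 hw

/-- the terms of `T_1`, `T_2` -/
theorem ff_T_terms {X : BdFix} {F : BdFr} {Kb : ℝ} (hs : FfSc F X Kb) :
    F.A ≤ F.T1 X ∧ F.Bf X ≤ F.T1 X ∧ F.A ^ 2 ≤ F.T2 X ∧ F.Bf X ^ 2 ≤ F.T2 X ∧ F.A ^ (3 / 2 : ℝ) * F.yc X ≤ F.T2 X := by
  have hA := hs.A0
  have hy := hs.y0
  have hB := hs.Bf0
  have p32 : 0 < F.A ^ (3 / 2 : ℝ) * F.yc X := by positivity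
  have p53 : 0 < F.A * F.yc X ^ (5 / 3 : ℝ) := by positivity
  have q1 := sq_nonneg (F.yc X)
  have q2 := sq_nonneg (F.Bf X)
  have q3 := sq_nonneg F.A
  unfold BdFr.T1 BdFr.T2
  refine ⟨by linarith, by linarith, by linarith, by linarith, by linarith⟩

/-- LEAF (arithmetic): the right side of (C10) on the regular dyads below `c_H u` -/
theorem ff_R10_low (X : BdFix) (hX : X.Ok) {Creg : ℝ} (hCreg : 0 < Creg) :
    ∃ K : ℝ, ∃ Kb : ℝ, ∀ F : BdFr, FfSc F X Kb → ∀ w : ℝ, Creg * F.wc X ≤ w → 2 * w ≤ X.cH * F.u →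
      0 ≤ F.R10 X w ∧ w * F.R10 X w ≤ K * (F.u ^ 2 * F.T1 X) ∧ w * F.R10 X w ^ 2 ≤ K * (F.u ^ 3 * F.T2 X) := by
  have hcH := hX.cH_pos
  have hcd := hX.cd_pos
  set D := 1 + X.cH / (2 * X.cd ^ 3) with hD
  have hD0 : 0 < D := by positivity
  set c3 := 4 / X.cd with hc3
  have hc30 : 0 < c3 := by positivity
  set Ka := (1 + D * (X.cH / 2) ^ 2) + (1 + D) + X.cH / 2 * c3 + X.cH / 2 with hKa
  set Kc := 4 * ((1 + D ^ 2 * (X.cH / 2)) + D / Creg + X.cH / 2 * c3 ^ 2 + X.cH / 2) with hKc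
  have hKa0 : 0 ≤ Ka := by positivity
  have hKc0 : 0 ≤ Kc := by positivity
  refine ⟨Ka + Kc, 1, fun F hs w hw1 hw2 => ?_⟩
  have hu := hs.u0
  have hA := hs.A0
  have hy := hs.y0
  have hB := hs.Bf0
  have hwc : 0 < F.wc X := by unfold BdFr.wc; positivity
  have hw : 0 < w := lt_of_lt_of_le (by positivity) hw1
  have hwu : w ≤ X.cH / 2 * F.u := by linarith
  obtain ⟨g1, g2, g3, g4⟩ := ff_R10_low_aux X hX hCreg hs hD hw1 hw2
  obtain ⟨a0, -⟩ := ff_t1_cube hs hw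
  obtain ⟨b0, -⟩ := ff_t2_sq hs hw
  obtain ⟨hT1, hT2, -, -, -, -⟩ := ff_T_facts X hX le_rfl hs
  set t1 := (F.x ^ (6 : ℝ) / (F.C X w * w)) ^ (1 / 3 : ℝ) with ht1
  set t2 := F.x ^ (3 : ℝ) / (w * Real.sqrt (F.C X w)) with ht2
  set t3 := (F.m : ℝ) ^ (X.dPEexp / 2) * F.vs X with ht3
  have t30 : 0 ≤ t3 := mul_nonneg (Real.rpow_nonneg hs.m0.le _) hs.vs0.le
  have t3le : t3 ≤ c3 * (F.u * F.A) := hs.vs
  have hR : F.R10 X w = t1 + t2 + t3 + F.u * F.Bf X := by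
    unfold BdFr.R10
    rw [if_pos (by linarith)]
  obtain ⟨hT1A, hT1B, hT2A, hT2B, hT2y⟩ := ff_T_terms hs
  have g5 : w * t3 ≤ X.cH / 2 * c3 * (F.u ^ 2 * F.A) := by
    calc w * t3 ≤ (X.cH / 2 * F.u) * (c3 * (F.u * F.A)) := mul_le_mul hwu t3le t30 (by positivity)
      _ = X.cH / 2 * c3 * (F.u ^ 2 * F.A) := by ring
  have g6 : w * t3 ^ 2 ≤ X.cH / 2 * c3 ^ 2 * (F.u ^ 3 * F.A ^ 2) := by
    calc w * t3 ^ 2 ≤ (X.cH / 2 * F.u) * (c3 * (F.u * F.A)) ^ 2 := by gcongr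
      _ = X.cH / 2 * c3 ^ 2 * (F.u ^ 3 * F.A ^ 2) := by ring
  have g7 : w * (F.u * F.Bf X) ≤ X.cH / 2 * (F.u ^ 2 * F.Bf X) := by
    calc w * (F.u * F.Bf X) ≤ (X.cH / 2 * F.u) * (F.u * F.Bf X) := by gcongr
      _ = X.cH / 2 * (F.u ^ 2 * F.Bf X) := by ring
  have g8 : w * (F.u * F.Bf X) ^ 2 ≤ X.cH / 2 * (F.u ^ 3 * F.Bf X ^ 2) := by
    calc w * (F.u * F.Bf X) ^ 2 ≤ (X.cH / 2 * F.u) * (F.u * F.Bf X) ^ 2 := by gcongr
      _ = X.cH / 2 * (F.u ^ 3 * F.Bf X ^ 2) := by ring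
  have hu2 : 0 < F.u ^ 2 := by positivity
  have hu3 : 0 < F.u ^ 3 := by positivity
  rw [hR]
  refine ⟨by positivity, ?_, ?_⟩
  · have s1 : F.u ^ 2 * F.A ≤ F.u ^ 2 * F.T1 X := by gcongr
    have s2 : F.u ^ 2 * F.Bf X ≤ F.u ^ 2 * F.T1 X := by gcongr
    have s0 : 0 ≤ F.u ^ 2 * F.T1 X := by positivity
    calc w * (t1 + t2 + t3 + F.u * F.Bf X) = w * t1 + w * t2 + w * t3 + w * (F.u * F.Bf X) := by ring
      _ ≤ (1 + D * (X.cH / 2) ^ 2) * (F.u ^ 2 * F.A) + (1 + D) * (F.u ^ 2 * F.A)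
          + X.cH / 2 * c3 * (F.u ^ 2 * F.A) + X.cH / 2 * (F.u ^ 2 * F.Bf X) := by linarith
      _ ≤ (1 + D * (X.cH / 2) ^ 2) * (F.u ^ 2 * F.T1 X) + (1 + D) * (F.u ^ 2 * F.T1 X)
          + X.cH / 2 * c3 * (F.u ^ 2 * F.T1 X) + X.cH / 2 * (F.u ^ 2 * F.T1 X) := by gcongr
      _ = Ka * (F.u ^ 2 * F.T1 X) := by rw [hKa]; ring
      _ ≤ (Ka + Kc) * (F.u ^ 2 * F.T1 X) := by
          refine mul_le_mul_of_nonneg_right ?_ s0
          linarith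
  · have s0 : 0 ≤ F.u ^ 3 * F.T2 X := by positivity
    calc w * (t1 + t2 + t3 + F.u * F.Bf X) ^ 2
        ≤ w * (4 * (t1 ^ 2 + t2 ^ 2 + t3 ^ 2 + (F.u * F.Bf X) ^ 2)) :=
          mul_le_mul_of_nonneg_left (ff_four_sq _ _ _ _) hw.le
      _ = 4 * (w * t1 ^ 2 + w * t2 ^ 2 + w * t3 ^ 2 + w * (F.u * F.Bf X) ^ 2) := by ring
      _ ≤ 4 * ((1 + D ^ 2 * (X.cH / 2)) * (F.u ^ 3 * F.A ^ 2) + D / Creg * (F.u ^ 3 * (F.A ^ (3 / 2 : ℝ) * F.yc X))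
          + X.cH / 2 * c3 ^ 2 * (F.u ^ 3 * F.A ^ 2) + X.cH / 2 * (F.u ^ 3 * F.Bf X ^ 2)) := by linarith
      _ ≤ 4 * ((1 + D ^ 2 * (X.cH / 2)) * (F.u ^ 3 * F.T2 X) + D / Creg * (F.u ^ 3 * F.T2 X)
          + X.cH / 2 * c3 ^ 2 * (F.u ^ 3 * F.T2 X) + X.cH / 2 * (F.u ^ 3 * F.T2 X)) := by gcongr
      _ = Kc * (F.u ^ 3 * F.T2 X) := by rw [hKc]; ring
      _ ≤ (Ka + Kc) * (F.u ^ 3 * F.T2 X) := by
          refine mul_le_mul_of_nonneg_right ?_ s0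
          linarith

theorem ff_in_TP {u A y z T K1 KP Ky : ℝ} (hu : 0 < u) (hA : 0 < A) (hz : 0 < z) (hzy : z ^ 3 = y)
    (hT : T ≤ 2 * (u ^ 4 * A ^ 3)) (hK1 : 0 ≤ K1) (hK : 2 * K1 ≤ KP ^ 3 * Ky ^ 2) :
    T * (K1 * (y * u)) ≤ (KP * u * A / z) ^ 3 * (Ky * (y * u)) ^ 2 := by
  have hy : 0 < y := by rw [← hzy]; positivity
  have e : (KP * u * A / z) ^ 3 * (Ky * (y * u)) ^ 2 = KP ^ 3 * Ky ^ 2 * (u ^ 5 * A ^ 3 * y) := by
    rw [div_pow, hzy]; field_simp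
  rw [e]
  calc T * (K1 * (y * u)) ≤ 2 * (u ^ 4 * A ^ 3) * (K1 * (y * u)) := mul_le_mul_of_nonneg_right hT (by positivity)
    _ = 2 * K1 * (u ^ 5 * A ^ 3 * y) := by ring
    _ ≤ KP ^ 3 * Ky ^ 2 * (u ^ 5 * A ^ 3 * y) := mul_le_mul_of_nonneg_right hK (by positivity)

theorem ff_in_dl {u A y z x CU dl V1 KP Ky : ℝ} (hx : 0 < x) (hx1 : x ≤ 1) (hCU : 0 < CU) (hu : 0 < u) (hux : x ≤ CU * u)
    (hAx : x ^ 2 ≤ A) (hxy : x ≤ y) (hz : 0 < z) (hz1 : z ≤ 1) (hdl0 : 0 ≤ dl) (hdl : dl ≤ 2 * x ^ 100) (hV0 : 0 ≤ V1)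
    (hV1 : V1 ≤ 1) (hKP : 1 ≤ KP) (hKy : 1 ≤ Ky) (hsm : 6 * CU ^ 3 * x ≤ 1) :
    3 * dl * V1 ^ 2 ≤ (KP * u * A / z) ^ 2 * (Ky * (y * u)) := by
  have hA : 0 < A := lt_of_lt_of_le (by positivity) hAx
  have hy : 0 < y := lt_of_lt_of_le hx hxy
  have h1 : x ^ 3 ≤ CU ^ 3 * u ^ 3 := by
    calc x ^ 3 ≤ (CU * u) ^ 3 := pow_le_pow_left₀ hx.le hux 3
      _ = _ := by ring
  have h2 : x ^ 4 ≤ A ^ 2 := by
    calc x ^ 4 = (x ^ 2) ^ 2 := by ring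
      _ ≤ A ^ 2 := pow_le_pow_left₀ (by positivity) hAx 2
  have h3 : x ^ 8 ≤ CU ^ 3 * (u ^ 3 * A ^ 2 * y) := by
    calc x ^ 8 = x ^ 3 * x ^ 4 * x := by ring
      _ ≤ (CU ^ 3 * u ^ 3) * A ^ 2 * y := by gcongr
      _ = _ := by ring
  have hq : 1 ≤ KP / z := by rw [le_div_iff₀ hz]; linarith
  have hq2 : 1 ≤ (KP / z) ^ 2 * Ky := one_le_mul_of_one_le_of_one_le (one_le_pow₀ hq) hKy
  have h4 : u ^ 3 * A ^ 2 * y ≤ (KP * u * A / z) ^ 2 * (Ky * (y * u)) := by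
    have e : (KP * u * A / z) ^ 2 * (Ky * (y * u)) = ((KP / z) ^ 2 * Ky) * (u ^ 3 * A ^ 2 * y) := by ring
    rw [e]
    exact le_mul_of_one_le_left (by positivity) hq2
  have h5 : 3 * dl * V1 ^ 2 ≤ 6 * x ^ 100 := by
    have : V1 ^ 2 ≤ 1 := pow_le_one₀ hV0 hV1
    nlinarith
  have h6 : x ^ 100 ≤ x * x ^ 8 := by
    have : x ^ 92 ≤ x ^ 1 := pow_le_pow_of_le_one hx.le hx1 (by norm_num)
    calc x ^ 100 = x ^ 92 * x ^ 8 := by ring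
      _ ≤ x ^ 1 * x ^ 8 := mul_le_mul_of_nonneg_right this (by positivity)
      _ = x * x ^ 8 := by ring
  have hp : 0 ≤ u ^ 3 * A ^ 2 * y := by positivity
  calc 3 * dl * V1 ^ 2 ≤ 6 * x ^ 100 := h5
    _ ≤ 6 * (x * x ^ 8) := by linarith
    _ ≤ 6 * (x * (CU ^ 3 * (u ^ 3 * A ^ 2 * y))) := by gcongr
    _ = (6 * CU ^ 3 * x) * (u ^ 3 * A ^ 2 * y) := by ring
    _ ≤ 1 * (u ^ 3 * A ^ 2 * y) := mul_le_mul_of_nonneg_right hsm hp
    _ ≤ _ := by rw [one_mul]; exact h4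

theorem ff_in_fin {u A y z Fl cd KP Ky KR Q : ℝ} (hu : 0 < u) (hA : 0 < A) (hz : 0 < z) (hz1 : z ≤ 1) (hzy : z ^ 3 = y)
    (hcd : 0 < cd) (hFl : Fl ≤ 4 / cd * (u * A)) :
    Q * (KP * u * A / z * ((Ky * (y * u)) ^ 2 + (KR * (y * u)) ^ 2)) + (KR * (y * u)) ^ 2 * Fl
      ≤ (Q * (KP * (Ky ^ 2 + KR ^ 2)) + 4 * KR ^ 2 / cd) * (u ^ 3 * (A * z ^ 5)) := by
  subst hzy
  have e1 : Q * (KP * u * A / z * ((Ky * (z ^ 3 * u)) ^ 2 + (KR * (z ^ 3 * u)) ^ 2))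
      = Q * (KP * (Ky ^ 2 + KR ^ 2)) * (u ^ 3 * (A * z ^ 5)) := by
    field_simp
  have h6 : z ^ 6 ≤ z ^ 5 := pow_le_pow_of_le_one hz.le hz1 (by norm_num)
  have e2 : (KR * (z ^ 3 * u)) ^ 2 * Fl ≤ 4 * KR ^ 2 / cd * (u ^ 3 * (A * z ^ 5)) := by
    calc (KR * (z ^ 3 * u)) ^ 2 * Fl ≤ (KR * (z ^ 3 * u)) ^ 2 * (4 / cd * (u * A)) :=
          mul_le_mul_of_nonneg_left hFl (by positivity)
      _ = 4 * KR ^ 2 / cd * (u ^ 3 * (A * z ^ 6)) := by ring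
      _ ≤ 4 * KR ^ 2 / cd * (u ^ 3 * (A * z ^ 5)) := by gcongr
  rw [e1]
  linarith

/-- **inner dyads, second moment**: `∫_w^{2w} D² ≲ u³ A y_c^{5/3}` for `0 < w ≤ Creg w_c`  (`ff_dyad_fin`) -/
theorem ff_top_inner (hS : BudFfStd X W P clo) {c C : ℝ} (hc : 0 < c) (h7 : BudFfC7 X P c C) {Cp : ℕ → ℝ}
    (hnum : BudFfNum X W P Cp) (Creg : ℝ) :
    ∃ K : ℝ, ∃ N0 : ℕ, ∀ i, P i → N0 ≤ i.F.N → ∀ w : ℝ, 0 < w → w ≤ Creg * i.F.wc X →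
      ∫ v in w..(2 * w), i.Q.Dq2 W i.g v ≤ K * (i.F.u ^ 3 * (i.F.A * i.F.yc X ^ (5 / 3 : ℝ))) := by
  have hX := hS.fix
  have hCU := hX.CU_pos
  have hcd := hX.cd_pos
  obtain ⟨Cr, hCr⟩ : ∃ Cr : ℝ, Cr = |Creg| + 1 := ⟨_, rfl⟩
  have hCr1 : 1 ≤ Cr := by rw [hCr]; linarith [abs_nonneg Creg]
  have hCrC : Creg ≤ Cr := by rw [hCr]; linarith [le_abs_self Creg]
  obtain ⟨Ca, hCa⟩ : ∃ Ca : ℝ, Ca = |C| + 1 := ⟨_, rfl⟩
  have hCa1 : 1 ≤ Ca := by rw [hCa]; linarith [abs_nonneg C]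
  have hCaC : C ≤ Ca := by rw [hCa]; linarith [le_abs_self C]
  obtain ⟨Ky, hKy⟩ : ∃ Ky : ℝ, Ky = Ca * (2 * Cr + 1) + 4 * Cr + 1 := ⟨_, rfl⟩
  have hCaCr : 0 ≤ Ca * (2 * Cr + 1) := by positivity
  have hKy1 : 1 ≤ Ky := by rw [hKy]; linarith
  obtain ⟨K1, hK1⟩ : ∃ K1 : ℝ, K1 = (Ca * (2 * Cr + 1) + 1) / c + 2 * Cr + 1 := ⟨_, rfl⟩
  have hK1a : 2 * Cr + 1 ≤ K1 := by
    have : 0 ≤ (Ca * (2 * Cr + 1) + 1) / c := by positivity
    rw [hK1]; linarith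
  have hK1b : Ca * (2 * Cr + 1) + 1 ≤ c * K1 := by
    have e : c * K1 = (Ca * (2 * Cr + 1) + 1) + c * (2 * Cr + 1) := by rw [hK1]; field_simp; ring
    have : 0 ≤ c * (2 * Cr + 1) := by positivity
    linarith
  have hK10 : 0 < K1 := by linarith
  obtain ⟨KP, hKP⟩ : ∃ KP : ℝ, KP = 2 * K1 + 1 := ⟨_, rfl⟩
  have hKP1 : 1 ≤ KP := by rw [hKP]; linarith
  have hKK : 2 * K1 ≤ KP ^ 3 * Ky ^ 2 := by
    have h1 : KP ≤ KP ^ 3 := by
      calc KP = KP ^ 1 := (pow_one _).symm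
        _ ≤ KP ^ 3 := pow_le_pow_right₀ hKP1 (by norm_num)
    have h2 : (1:ℝ) ≤ Ky ^ 2 := one_le_pow₀ hKy1
    calc 2 * K1 ≤ KP := by rw [hKP]; linarith
      _ ≤ KP ^ 3 := h1
      _ ≤ KP ^ 3 * Ky ^ 2 := le_mul_of_one_le_right (by positivity) h2
  obtain ⟨KR, hKR⟩ : ∃ KR : ℝ, KR = |Cp 1| * (2 * Cr + 1) := ⟨_, rfl⟩
  have hKR0 : 0 ≤ KR := by rw [hKR]; positivity
  obtain ⟨cρ, hcρ⟩ : ∃ cρ : ℝ, cρ = min (clo / 2) (X.cd ^ 3 / 2) := ⟨_, rfl⟩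
  have hclo := hS.clo_pos
  have hcρ0 : 0 < cρ := by rw [hcρ]; exact lt_min (by linarith) (by positivity)
  have hcρ1 : cρ < clo := by rw [hcρ]; exact lt_of_le_of_lt (min_le_left _ _) (by linarith)
  have hcρ2 : 2 * cρ ≤ X.cd ^ 3 := by
    have : cρ ≤ X.cd ^ 3 / 2 := by rw [hcρ]; exact min_le_right _ _
    linarith
  obtain ⟨Nc, hctx⟩ := ff_top_ctx hS hnum hcρ0 hcρ1 hcρ2
  obtain ⟨N7, h7⟩ := h7
  obtain ⟨Kb, hKb⟩ : ∃ Kb : ℝ, Kb = max 1 (max ((|Ca * K1| + 1) / cρ) (max ((|K1| + 1) / 1) (max (2 * X.CU + 1) (6 * X.CU ^ 3)))) :=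
    ⟨_, rfl⟩
  have k1 : 1 ≤ Kb := by rw [hKb]; exact le_max_left _ _
  have k2 : (|Ca * K1| + 1) / cρ ≤ Kb := by rw [hKb]; exact le_trans (le_max_left _ _) (le_max_right _ _)
  have k3 : (|K1| + 1) / 1 ≤ Kb := by
    rw [hKb]; exact le_trans (le_trans (le_max_left _ _) (le_max_right _ _)) (le_max_right _ _)
  have k4 : 2 * X.CU + 1 ≤ Kb := by
    rw [hKb]; exact le_trans (le_trans (le_trans (le_max_left _ _) (le_max_right _ _)) (le_max_right _ _)) (le_max_right _ _)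
  have k5 : 6 * X.CU ^ 3 ≤ Kb := by
    rw [hKb]; exact le_trans (le_trans (le_trans (le_max_right _ _) (le_max_right _ _)) (le_max_right _ _)) (le_max_right _ _)
  obtain ⟨Ns, hsc⟩ := ff_sc_ev X hX Kb
  refine ⟨22000000 * (1 + |Cp 3| ^ 3) * (KP * (Ky ^ 2 + KR ^ 2)) + 4 * KR ^ 2 / X.cd, max Nc (max N7 Ns),
    fun i hP hN w hw0 hw1 => ?_⟩
  have hNc : Nc ≤ i.F.N := le_trans (le_max_left _ _) hN
  have hN7 : N7 ≤ i.F.N := le_trans (le_trans (le_max_left _ _) (le_max_right _ _)) hN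
  have hNs : Ns ≤ i.F.N := le_trans (le_trans (le_max_right _ _) (le_max_right _ _)) hN
  have s := hsc i.F (hS.ok i hP) hNs
  obtain ⟨cx, hOk, hraw, hD2, hrq, hV0, hT, hdl, hFl⟩ := hctx i hP hNc
  have h7 := h7 i hP hN7
  have hu := s.u0
  have hy := s.y0
  have hA := s.A0
  have hx := s.x0
  have hwc : i.F.wc X = i.F.yc X * i.F.u := rfl
  have hwc0 : 0 < i.F.wc X := by rw [hwc]; positivity
  have hu1 : i.F.u ≤ 1 := by
    have := (s.mono k1).uK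
    linarith
  -- the cube root of `y_c`
  obtain ⟨z, hz⟩ : ∃ z : ℝ, z = i.F.yc X ^ (1 / 3 : ℝ) := ⟨_, rfl⟩
  have hz0 : 0 < z := by rw [hz]; exact Real.rpow_pos_of_pos hy _
  have hzy : z ^ 3 = i.F.yc X := by rw [hz]; exact ff_cbrt_cube hy.le
  have hz1 : z ≤ 1 := by rw [hz]; exact Real.rpow_le_one hy.le (ff_sc_yc_le_one k1 s) (by norm_num)
  have hz5 : i.F.yc X ^ (5 / 3 : ℝ) = z ^ 5 := by
    rw [hz, ← Real.rpow_natCast, ← Real.rpow_mul hy.le]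
    norm_num
  -- scales
  obtain ⟨V1, hV1⟩ : ∃ V1 : ℝ, V1 = K1 * i.F.wc X := ⟨_, rfl⟩
  have hV1pos : 0 < V1 := by rw [hV1]; positivity
  have hV1le : V1 ≤ 1 := by
    have := ff_sc_wc (X := X) one_pos (s.mono k3)
    rw [hV1]; linarith
  have hw2 : 2 * w ≤ 2 * Cr * i.F.wc X := by
    have : Creg * i.F.wc X ≤ Cr * i.F.wc X := mul_le_mul_of_nonneg_right hCrC hwc0.le
    linarith
  have hwV : 2 * w + i.F.wc X ≤ V1 := by
    have : (2 * Cr + 1) * i.F.wc X ≤ K1 * i.F.wc X := mul_le_mul_of_nonneg_right hK1a hwc0.le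
    rw [hV1]; linarith
  have hV1mem : V1 ∈ Icc (0:ℝ) 1 := ⟨hV1pos.le, hV1le⟩
  have hV1V0 : V1 ≤ cx.V0 := by
    refine hV0 V1 hV1mem ?_
    have h1 := (h7 V1 (by linarith) hV1le).2
    have h2 := ff_sc_wc (X := X) hcρ0 (s.mono k2)
    calc i.Q.r V1 ≤ C * V1 := h1
      _ ≤ Ca * V1 := mul_le_mul_of_nonneg_right hCaC hV1pos.le
      _ = Ca * K1 * i.F.wc X := by rw [hV1]; ring
      _ ≤ cρ * i.F.u := h2
  -- the quantile at `2w`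
  have h2wmem : 2 * w ∈ Icc (0:ℝ) 1 := ⟨by linarith, by linarith⟩
  have hr2w : cx.rq (2 * w) ≤ Ca * (2 * Cr + 1) * i.F.wc X := by
    obtain ⟨t, ht⟩ : ∃ t : ℝ, t = max (2 * w) (i.F.wc X) := ⟨_, rfl⟩
    have ht1 : 2 * w ≤ t := by rw [ht]; exact le_max_left _ _
    have ht2 : i.F.wc X ≤ t := by rw [ht]; exact le_max_right _ _
    have ht3 : t ≤ (2 * Cr + 1) * i.F.wc X := by
      rw [ht]; exact max_le (by linarith) (le_mul_of_one_le_left hwc0.le (by linarith))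
    have ht4 : t ≤ V1 := by rw [ht]; exact max_le (by linarith) (by linarith)
    have hm := hOk.rq_mono (⟨by linarith, by linarith⟩ : 2 * w ∈ Icc 0 cx.V0) (⟨by linarith, by linarith⟩ : t ∈ Icc 0 cx.V0) ht1
    have h1 := (h7 t ht2 (by linarith)).2
    rw [hrq t ⟨by linarith, by linarith⟩] at hm
    calc cx.rq (2 * w) ≤ i.Q.r t := hm
      _ ≤ C * t := h1
      _ ≤ Ca * t := mul_le_mul_of_nonneg_right hCaC (by linarith)
      _ ≤ Ca * ((2 * Cr + 1) * i.F.wc X) := mul_le_mul_of_nonneg_left ht3 (by linarith)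
      _ = _ := by ring
  have hx100 : cx.dl ≤ 2 * i.F.x ^ 100 := by
    have := s.Mj
    rw [Real.rpow_ofNat] at this
    rw [hdl]
    calc 2 / i.F.Mj = 2 * (1 / i.F.Mj) := by ring
      _ ≤ 2 * i.F.x ^ 100 := by linarith
  have hxy := ff_sc_x_le_yc s
  have hAx : i.F.x ^ 2 ≤ i.F.A := by
    have := s.Ax
    rwa [Real.rpow_ofNat] at this
  -- a non-cap point in `[2w, V1]`
  have hdlwc : cx.dl < i.F.wc X := by
    have h1 : (2 * X.CU + 1) * i.F.x ≤ 1 := (s.mono k4).xK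
    have h2 : i.F.x ^ 2 ≤ X.CU * i.F.wc X := by
      rw [hwc]
      calc i.F.x ^ 2 = i.F.x * i.F.x := by ring
        _ ≤ i.F.yc X * (X.CU * i.F.u) := mul_le_mul hxy s.ux hx.le hy.le
        _ = _ := by ring
    have h3 : i.F.x ^ 100 ≤ i.F.x * i.F.x ^ 2 := by
      have : i.F.x ^ 97 ≤ i.F.x ^ 0 := pow_le_pow_of_le_one hx.le s.x1 (by norm_num)
      calc i.F.x ^ 100 = i.F.x ^ 97 * (i.F.x * i.F.x ^ 2) := by ring
        _ ≤ i.F.x ^ 0 * (i.F.x * i.F.x ^ 2) := mul_le_mul_of_nonneg_right this (by positivity)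
        _ = _ := by ring
    have h4 : 2 * X.CU * i.F.x < 1 := by
      have : (2 * X.CU + 1) * i.F.x = 2 * X.CU * i.F.x + i.F.x := by ring
      linarith
    calc cx.dl ≤ 2 * i.F.x ^ 100 := hx100
      _ ≤ 2 * (i.F.x * i.F.x ^ 2) := by linarith
      _ ≤ 2 * (i.F.x * (X.CU * i.F.wc X)) := by gcongr
      _ = (2 * X.CU * i.F.x) * i.F.wc X := by ring
      _ < 1 * i.F.wc X := mul_lt_mul_of_pos_right h4 hwc0
      _ = _ := one_mul _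
  have hend : ∃ e ∈ Icc (2 * w) V1, 0 ≤ cx.Hm e := by
    by_contra hno
    push Not at hno
    have h1 := hOk.capw (2 * w) V1 (by linarith) (by linarith) hV1V0 (fun u hu => hno u (Ioo_subset_Icc_self hu))
    have h2 := (h7 V1 (by linarith) hV1le).1
    rw [hrq V1 hV1mem] at h1
    have h3 : (Ca * (2 * Cr + 1) + 1) * i.F.wc X ≤ c * V1 := by
      rw [hV1, ← mul_assoc]
      exact mul_le_mul_of_nonneg_right hK1b hwc0.le
    have h4 : (Ca * (2 * Cr + 1) + 1) * i.F.wc X = Ca * (2 * Cr + 1) * i.F.wc X + i.F.wc X := by ring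
    linarith
  -- application of the abstract layer
  obtain ⟨y0, hy0⟩ : ∃ y0 : ℝ, y0 = Ky * (i.F.yc X * i.F.u) := ⟨_, rfl⟩
  have hy0pos : 0 < y0 := by rw [hy0]; positivity
  obtain ⟨R, hR⟩ : ∃ R : ℝ, R = KR * (i.F.yc X * i.F.u) := ⟨_, rfl⟩
  have hR0 : 0 ≤ R := by rw [hR]; positivity
  obtain ⟨Pp, hPp⟩ : ∃ Pp : ℝ, Pp = KP * i.F.u * i.F.A / z := ⟨_, rfl⟩
  have hPp0 : 0 < Pp := by rw [hPp]; positivity
  have key := ff_dyad_fin hOk (v := w) (V1 := V1) (y0 := y0) (R := R) (P := Pp) (Cq := |Cp 3|) hw0 hV1V0 hend hy0pos hR0 hPp0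
    (abs_nonneg _)
    (by
      have h0 : 0 ≤ cx.rq w := by
        rw [hrq w ⟨hw0.le, by linarith⟩]
        exact (i.Q.r_mem w ⟨hw0.le, by linarith⟩).1
      have : Ca * (2 * Cr + 1) * i.F.wc X ≤ Ky * i.F.wc X := by
        refine mul_le_mul_of_nonneg_right ?_ hwc0.le
        rw [hKy]; linarith
      rw [hy0, ← hwc]; linarith)
    (fun u hu huV => by
      have hu01 : u ∈ Icc (0:ℝ) 1 := ⟨by linarith [hu.1], huV.trans hOk.V0_le⟩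
      have h1 := (hraw u hu01).1 3 (by norm_num)
      have h2 : u + i.F.wc X ≤ y0 := by
        have : (4 * Cr + 1) * i.F.wc X ≤ Ky * i.F.wc X := by
          refine mul_le_mul_of_nonneg_right ?_ hwc0.le
          rw [hKy]; linarith
        rw [hy0, ← hwc]
        linarith [hu.2]
      calc cx.Xn.NX 3 u ≤ Cp 3 * Real.sqrt (u + i.F.wc X) := h1
        _ ≤ |Cp 3| * Real.sqrt (u + i.F.wc X) := mul_le_mul_of_nonneg_right (le_abs_self _) (Real.sqrt_nonneg _)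
        _ ≤ |Cp 3| * Real.sqrt y0 := mul_le_mul_of_nonneg_left (Real.sqrt_le_sqrt h2) (abs_nonneg _))
    (fun u hu => by
      have hu01 : u ∈ Icc (0:ℝ) 1 := ⟨by linarith [hu.1], by linarith [hu.2]⟩
      have h1 := (hraw u hu01).2
      calc cx.Xn.D u ≤ cx.Xn.NR u := hOk.num.d_nr u hu01
        _ ≤ Cp 1 * (u + i.F.wc X) := h1
        _ ≤ |Cp 1| * (u + i.F.wc X) := mul_le_mul_of_nonneg_right (le_abs_self _) (by linarith [hu.1])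
        _ ≤ |Cp 1| * ((2 * Cr + 1) * i.F.wc X) := mul_le_mul_of_nonneg_left (by linarith [hu.2]) (abs_nonneg _)
        _ = R := by rw [hR, hKR, hwc]; ring)
    (by
      rw [hV1, hwc, hPp, hy0]
      refine ff_in_TP hu hA hz0 hzy ?_ hK10.le hKK
      rw [hT]; exact s.T)
    (by
      rw [hPp, hy0]
      exact ff_in_dl hx s.x1 hCU hu s.ux hAx hxy hz0 hz1 hOk.dl_nn hx100 hV1pos.le hV1le hKP1 hKy1 (s.mono k5).xK)
  have hcongr : ∫ v in w..(2 * w), i.Q.Dq2 W i.g v = ∫ u in w..(2 * w), cx.Xn.D u ^ 2 := by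
    refine intervalIntegral.integral_congr fun v hv => ?_
    rw [uIcc_of_le (by linarith)] at hv
    exact (hD2 v ⟨by linarith [hv.1], by linarith [hv.2]⟩).symm
  rw [hcongr, hz5]
  refine key.trans ?_
  rw [hPp, hy0, hR]
  exact ff_in_fin hu hA hz0 hz1 hzy hcd (hFl.trans s.vs')

/-! ## 4. Summation over `O(log N)` dyads -/

theorem ff_int_nonneg {f : ℝ → ℝ} {top a b : ℝ} (hf0 : ∀ v ∈ Ioo 0 top, 0 ≤ f v) (ha : 0 ≤ a) (hab : a ≤ b)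
    (hb : b ≤ top) : 0 ≤ ∫ v in a..b, f v := by
  rw [intervalIntegral.integral_of_le hab, integral_Ioc_eq_integral_Ioo]
  exact setIntegral_nonneg measurableSet_Ioo fun v hv => hf0 v ⟨lt_of_le_of_lt ha hv.1, hv.2.trans_le hb⟩

theorem ff_ii_sub {f : ℝ → ℝ} {top a b : ℝ} (hfi : IntervalIntegrable f volume 0 top) (ha : 0 ≤ a) (hab : a ≤ b)
    (hb : b ≤ top) : IntervalIntegrable f volume a b :=
  hfi.mono_set (by
    rw [uIcc_of_le hab, uIcc_of_le (ha.trans (hab.trans hb))]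
    exact Icc_subset_Icc ha hb)

/-- the chain of dyads, deterministic -/
theorem ff_dyad_chain {f : ℝ → ℝ} {lo top B : ℝ} (hlo : 0 < lo) (h2 : 2 * lo ≤ top)
    (hf0 : ∀ v ∈ Ioo 0 top, 0 ≤ f v) (hfi : IntervalIntegrable f volume 0 top) (hB0 : 0 ≤ B)
    (hbot : ∫ v in (0 : ℝ)..(2 * lo), f v ≤ B)
    (hdy : ∀ w : ℝ, lo ≤ w → 2 * w ≤ top → ∫ v in w..(2 * w), f v ≤ B) (n : ℕ) :
    ∀ t : ℝ, 0 ≤ t → t ≤ top → t ≤ 2 ^ (n + 1) * lo → ∫ v in (0 : ℝ)..t, f v ≤ ((n : ℝ) + 1) * B := by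
  have hsmall : ∀ t : ℝ, 0 ≤ t → t ≤ 2 * lo → ∫ v in (0 : ℝ)..t, f v ≤ B := by
    intro t ht0 ht
    have h1 := intervalIntegral.integral_add_adjacent_intervals (ff_ii_sub hfi le_rfl ht0 (ht.trans h2))
      (ff_ii_sub hfi ht0 ht h2)
    have h3 := ff_int_nonneg hf0 ht0 ht h2
    linarith
  induction n with
  | zero =>
    intro t ht0 _ ht
    have := hsmall t ht0 (by simpa using ht)
    simpa using this
  | succ n ih =>
    intro t ht0 htop ht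
    rcases le_total t (2 * lo) with hc | hc
    · have h1 := hsmall t ht0 hc
      have : (0:ℝ) ≤ (n : ℝ) + 1 := by positivity
      push_cast
      nlinarith
    · have h1 := ih (t / 2) (by linarith) (by linarith) (by
        rw [pow_succ] at ht
        linarith)
      have h3 := hdy (t / 2) (by linarith) (by linarith)
      have e : 2 * (t / 2) = t := by ring
      rw [e] at h3
      have h4 := intervalIntegral.integral_add_adjacent_intervals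
        (ff_ii_sub hfi le_rfl (by linarith : (0:ℝ) ≤ t / 2) (by linarith))
        (ff_ii_sub hfi (by linarith : (0:ℝ) ≤ t / 2) (by linarith : t / 2 ≤ t) htop)
      push_cast
      linarith

/-- **abstract summation**: a nonnegative function whose integral over every dyad `[w,2w]`, `lo ≤ w`, `2w ≤ top`, and over `[0, 2 lo]` is `≲_∘ G`; `top ≤ N^K lo` -/
theorem ff_sum_dyads {ι : Type} (N : ι → ℕ) (P : ι → Prop) (f : ι → ℝ → ℝ) (top lo G : ι → ℝ) (Kc : ℝ)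
    (hev : ∃ N0 : ℕ, ∀ i, P i → N0 ≤ N i → 0 < lo i ∧ 2 * lo i ≤ top i ∧ top i ≤ (N i : ℝ) ^ Kc * lo i ∧ 0 ≤ G i ∧
      (∀ v ∈ Ioo 0 (top i), 0 ≤ f i v) ∧ IntervalIntegrable (f i) volume 0 (top i))
    (hdy : ∀ ε : ℝ, 0 < ε → ∃ C : ℝ, ∃ N0 : ℕ, ∀ i, P i → N0 ≤ N i → ∀ w : ℝ, lo i ≤ w → 2 * w ≤ top i →
      ∫ v in w..(2 * w), f i v ≤ C * ((N i : ℝ) ^ ε * G i))
    (hbot : ∀ ε : ℝ, 0 < ε → ∃ C : ℝ, ∃ N0 : ℕ, ∀ i, P i → N0 ≤ N i →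
      ∫ v in (0 : ℝ)..(2 * lo i), f i v ≤ C * ((N i : ℝ) ^ ε * G i)) :
    ∀ ε : ℝ, 0 < ε → ∃ C : ℝ, ∃ N0 : ℕ, ∀ i, P i → N0 ≤ N i → ∫ v in (0 : ℝ)..(top i), f i v ≤ C * ((N i : ℝ) ^ ε * G i) := by
  intro ε hε
  obtain ⟨N0, h0⟩ := hev
  obtain ⟨C1, N1, h1⟩ := hdy (ε / 2) (half_pos hε)
  obtain ⟨C2, N2, h2⟩ := hbot (ε / 2) (half_pos hε)
  set Cm := max (max C1 C2) 0 with hCm
  have hl2 : 0 < Real.log 2 := Real.log_pos (by norm_num)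
  refine ⟨(|Kc| / (ε / 2 * Real.log 2) + 2) * Cm, max (max N0 N1) (max N2 1), fun i hP hN => ?_⟩
  have hN0 : N0 ≤ N i := (le_max_left _ _).trans ((le_max_left _ _).trans hN)
  have hN1 : N1 ≤ N i := (le_max_right _ _).trans ((le_max_left _ _).trans hN)
  have hN2 : N2 ≤ N i := (le_max_left _ _).trans ((le_max_right _ _).trans hN)
  have hN3 : 1 ≤ N i := (le_max_right _ _).trans ((le_max_right _ _).trans hN)
  have hNr : (1:ℝ) ≤ N i := by exact_mod_cast hN3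
  have hNp : (0:ℝ) < N i := by linarith
  obtain ⟨hlo, h2lo, htop, hG, hf0, hfi⟩ := h0 i hP hN0
  set E := (N i : ℝ) ^ (ε / 2) with hE
  have hE1 : 1 ≤ E := Real.one_le_rpow hNr (half_pos hε).le
  set B := Cm * (E * G i) with hB
  have hEG : 0 ≤ E * G i := mul_nonneg (by linarith) hG
  have hB0 : 0 ≤ B := mul_nonneg (le_max_right _ _) hEG
  have hb1 : ∀ w : ℝ, lo i ≤ w → 2 * w ≤ top i → ∫ v in w..(2 * w), f i v ≤ B := fun w hw hw2 =>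
    (h1 i hP hN1 w hw hw2).trans (mul_le_mul_of_nonneg_right ((le_max_left _ _).trans (le_max_left _ _)) hEG)
  have hb2 : ∫ v in (0 : ℝ)..(2 * lo i), f i v ≤ B :=
    (h2 i hP hN2).trans (mul_le_mul_of_nonneg_right ((le_max_right _ _).trans (le_max_left _ _)) hEG)
  set y := (N i : ℝ) ^ Kc with hy
  have hy0 : 0 < y := Real.rpow_pos_of_pos hNp _
  have hy2 : 2 ≤ y := by
    have : 2 * lo i ≤ y * lo i := h2lo.trans htop
    exact le_of_mul_le_mul_right this hlo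
  set L := Real.logb 2 y with hL
  have hL0 : 0 ≤ L := Real.logb_nonneg (by norm_num) (by linarith)
  set n := ⌈L⌉₊ with hn
  have hyn : y ≤ 2 ^ n := by
    have h3 : (2:ℝ) ^ L = y := Real.rpow_logb (by norm_num) (by norm_num) hy0
    rw [← h3, ← Real.rpow_natCast]
    exact Real.rpow_le_rpow_of_exponent_le (by norm_num) (Nat.le_ceil L)
  have hchain := ff_dyad_chain hlo h2lo hf0 hfi hB0 hb2 hb1 n (top i) (by linarith) le_rfl (by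
    refine htop.trans ?_
    rw [pow_succ]
    have : y * lo i ≤ 2 ^ n * lo i := mul_le_mul_of_nonneg_right hyn hlo.le
    have h4 : (0:ℝ) ≤ 2 ^ n * lo i := by positivity
    linarith)
  have hn1 : (n : ℝ) + 1 ≤ (|Kc| / (ε / 2 * Real.log 2) + 2) * E := by
    have h3 : (n : ℝ) < L + 1 := Nat.ceil_lt_add_one hL0
    have h4 : L = Kc * Real.log (N i) / Real.log 2 := by
      rw [hL, Real.logb, hy, Real.log_rpow hNp]
    have h5 : Real.log (N i) ≤ E / (ε / 2) := Real.log_le_rpow_div hNp.le (half_pos hε)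
    have h6 : 0 ≤ Real.log (N i) := Real.log_nonneg hNr
    have h7 : Kc * Real.log (N i) ≤ |Kc| * (E / (ε / 2)) :=
      (mul_le_mul_of_nonneg_right (le_abs_self Kc) h6).trans (mul_le_mul_of_nonneg_left h5 (abs_nonneg _))
    have h8 : L ≤ |Kc| / (ε / 2 * Real.log 2) * E := by
      rw [h4, div_le_iff₀ hl2]
      refine h7.trans (le_of_eq ?_)
      field_simp
    nlinarith
  calc ∫ v in (0 : ℝ)..(top i), f i v ≤ ((n : ℝ) + 1) * B := hchain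
    _ ≤ (|Kc| / (ε / 2 * Real.log 2) + 2) * E * B := mul_le_mul_of_nonneg_right hn1 hB0
    _ = (|Kc| / (ε / 2 * Real.log 2) + 2) * Cm * ((N i : ℝ) ^ ε * G i) := by
        have : (N i : ℝ) ^ ε = E * E := by
          rw [hE, ← Real.rpow_add hNp]; congr 1; ring
        rw [this, hB]; ring

/-- closed form ⟹ `BdSub` -/
theorem ff_sub_of_closed {ι : Type} {N : ι → ℕ} {P : ι → Prop} {F G : ι → ℝ}
    (h0 : ∃ N0 : ℕ, ∀ i, P i → N0 ≤ N i → 0 ≤ F i)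
    (h : ∀ ε : ℝ, 0 < ε → ∃ C : ℝ, ∃ N0 : ℕ, ∀ i, P i → N0 ≤ N i → F i ≤ C * ((N i : ℝ) ^ ε * G i)) : BdSub N P F G := by
  intro ε hε
  obtain ⟨C, hC⟩ := h ε hε
  exact aq_O_of_le' C (bd_ev_iff.2 h0) (bd_ev_iff.2 hC)

/-- Cauchy-Schwarz on an interval (copy of `bcs_hb_cs`, 86) -/
theorem ff_cs {f : ℝ → ℝ} {a b : ℝ} (hab : a < b) (hfi : IntervalIntegrable f volume a b)
    (hf2 : IntervalIntegrable (fun v => f v ^ 2) volume a b) :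
    (∫ v in a..b, f v) ^ 2 ≤ (b - a) * ∫ v in a..b, f v ^ 2 := by
  obtain ⟨J, hJ⟩ : ∃ J, J = ∫ v in a..b, f v := ⟨_, rfl⟩
  obtain ⟨m, hm⟩ : ∃ m, m = J / (b - a) := ⟨_, rfl⟩
  have hba : 0 < b - a := sub_pos.2 hab
  have h0 : 0 ≤ ∫ v in a..b, (f v - m) ^ 2 := intervalIntegral.integral_nonneg hab.le (fun v _ => sq_nonneg _)
  have h1 : ∫ v in a..b, (f v - m) ^ 2 = (∫ v in a..b, f v ^ 2) - 2 * m * J + m ^ 2 * (b - a) := by
    have e : (fun v => (f v - m) ^ 2) = fun v => (f v ^ 2 - 2 * m * f v) + m ^ 2 := by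
      funext v; ring
    rw [e, intervalIntegral.integral_add (hf2.sub (hfi.const_mul _)) (by simp),
      intervalIntegral.integral_sub hf2 (hfi.const_mul _), intervalIntegral.integral_const_mul, ← hJ]
    simp
    ring
  rw [h1] at h0
  rw [← hJ]
  have hJm : J = m * (b - a) := by rw [hm]; field_simp
  have : (b - a) * ((∫ v in a..b, f v ^ 2) - 2 * m * J + m ^ 2 * (b - a)) = (b - a) * (∫ v in a..b, f v ^ 2) - J ^ 2 := by
    rw [hJm]; ring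
  have h2 := mul_nonneg hba.le h0
  rw [this] at h2
  linarith

theorem ff_int_le_const {f : ℝ → ℝ} {a b c : ℝ} (hab : a ≤ b) (hfi : IntervalIntegrable f volume a b)
    (h : ∀ v ∈ Ioo a b, f v ≤ c) : ∫ v in a..b, f v ≤ (b - a) * c := by
  have := intervalIntegral.integral_mono_on_of_le_Ioo hab hfi (intervalIntegrable_const (c := c)) h
  rwa [intervalIntegral.integral_const, smul_eq_mul] at this

/-- a dyad: from the root mean square to the first and second moments -/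
theorem ff_dyad_cs {D2 : ℝ → ℝ} {w M : ℝ} (hw : 0 < w) (h0 : ∀ v ∈ Icc w (2 * w), 0 ≤ D2 v)
    (hi2 : IntervalIntegrable D2 volume w (2 * w)) (hi1 : IntervalIntegrable (fun v => Real.sqrt (D2 v)) volume w (2 * w))
    (hM : Real.sqrt (w⁻¹ * ∫ v in w..(2 * w), D2 v) ≤ M) :
    ∫ v in w..(2 * w), Real.sqrt (D2 v) ≤ w * M ∧ ∫ v in w..(2 * w), D2 v ≤ w * M ^ 2 := by
  have hw2 : w ≤ 2 * w := by linarith
  obtain ⟨I, hI⟩ : ∃ I, I = ∫ v in w..(2 * w), D2 v := ⟨_, rfl⟩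
  rw [← hI] at hM ⊢
  have hI0 : 0 ≤ I := by rw [hI]; exact intervalIntegral.integral_nonneg hw2 h0
  have hq : 0 ≤ w⁻¹ * I := by positivity
  have hs0 := Real.sqrt_nonneg (w⁻¹ * I)
  have hM0 : 0 ≤ M := hs0.trans hM
  have e1 : I = w * Real.sqrt (w⁻¹ * I) ^ 2 := by
    rw [Real.sq_sqrt hq]; field_simp
  have h2 : I ≤ w * M ^ 2 := by
    rw [e1]
    exact mul_le_mul_of_nonneg_left (pow_le_pow_left₀ hs0 hM 2) hw.le
  refine ⟨?_, h2⟩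
  have e2 : ∫ v in w..(2 * w), Real.sqrt (D2 v) ^ 2 = I := by
    rw [hI]
    refine intervalIntegral.integral_congr fun v hv => ?_
    rw [uIcc_of_le hw2] at hv
    exact Real.sq_sqrt (h0 v hv)
  have hi3 : IntervalIntegrable (fun v => Real.sqrt (D2 v) ^ 2) volume w (2 * w) := by
    refine hi2.congr fun v hv => ?_
    rw [uIoc_of_le hw2] at hv
    exact (Real.sq_sqrt (h0 v (Ioc_subset_Icc_self hv))).symm
  have h3 := ff_cs (by linarith : w < 2 * w) hi1 hi3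
  rw [e2] at h3
  have h4 : (∫ v in w..(2 * w), Real.sqrt (D2 v)) ^ 2 ≤ (w * M) ^ 2 := by
    calc (∫ v in w..(2 * w), Real.sqrt (D2 v)) ^ 2 ≤ (2 * w - w) * I := h3
      _ = w * I := by ring
      _ ≤ w * (w * M ^ 2) := mul_le_mul_of_nonneg_left h2 hw.le
      _ = (w * M) ^ 2 := by ring
  exact (le_abs_self _).trans (abs_le_of_sq_le_sq h4 (by positivity))

/-! ## 5. Exits -/

theorem ff_one_le_Ne {n : ℕ} (hn : 0 < (n : ℝ)) {ε : ℝ} (hε : 0 < ε) : (1 : ℝ) ≤ (n : ℝ) ^ ε := by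
  have : (1 : ℝ) ≤ n := by
    have : 0 < n := by exact_mod_cast hn
    exact_mod_cast this
  exact Real.one_le_rpow this hε.le

/-- (C16), second line, closed form -/
theorem ff_c16b (hS : BudFfStd X W P clo) {c C : ℝ} (hc : 0 < c) (h7 : BudFfC7 X P c C) {Cp : ℕ → ℝ}
    (hnum : BudFfNum X W P Cp) {Creg : ℝ} (hCreg : 0 < Creg) (h10 : BudFfC10 X W P Creg) :
    ∀ ε : ℝ, 0 < ε → ∃ K : ℝ, ∃ N0 : ℕ, ∀ i, P i → N0 ≤ i.F.N →
      ∫ v in (0 : ℝ)..(X.cH * i.F.u), i.Q.Dq2 W i.g v ≤ K * ((i.F.N : ℝ) ^ ε * (i.F.u ^ 3 * i.F.T2 X)) := by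
  have hX := hS.fix
  have hcH := hX.cH_pos
  have hCU := hX.CU_pos
  obtain ⟨Nr, hraw⟩ := ff_top_raw hS hnum
  obtain ⟨KR, KbR, hR⟩ := ff_R10_low X hX hCreg
  obtain ⟨Kin, Nin, hin⟩ := ff_top_inner hS hc h7 hnum Creg
  obtain ⟨Kb, hKb⟩ : ∃ Kb : ℝ, Kb = max KbR (max ((|2 * X.CU| + 1) / X.cH) (max 1 (2 * X.cH))) := ⟨_, rfl⟩
  have k1 : KbR ≤ Kb := by rw [hKb]; exact le_max_left _ _
  have k2 : (|2 * X.CU| + 1) / X.cH ≤ Kb := by rw [hKb]; exact le_trans (le_max_left _ _) (le_max_right _ _)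
  have k3 : 1 ≤ Kb := by rw [hKb]; exact le_trans (le_trans (le_max_left _ _) (le_max_right _ _)) (le_max_right _ _)
  have k4 : 2 * X.cH ≤ Kb := by rw [hKb]; exact le_trans (le_trans (le_max_right _ _) (le_max_right _ _)) (le_max_right _ _)
  obtain ⟨Ns, hsc⟩ := ff_sc_ev X hX Kb
  have hcom : ∀ i, P i → Ns ≤ i.F.N → 0 < i.F.wc X ∧ 0 < i.F.x ^ (10 : ℝ) ∧ 2 * i.F.x ^ (10 : ℝ) ≤ X.cH * i.F.u ∧ X.cH * i.F.u ≤ 1 / 2 ∧
      0 ≤ i.F.u ^ 3 * i.F.T2 X := by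
    intro i hP hN
    have s := hsc i.F (hS.ok i hP) hN
    have hu := s.u0
    have hy := s.y0
    obtain ⟨_, t2, _, _, t5, _⟩ := ff_T_facts X hX k3 s
    refine ⟨by unfold BdFr.wc; positivity, Real.rpow_pos_of_pos s.x0 _, ?_, ?_, by positivity⟩
    · have := ff_sc_wc hcH (s.mono k2)
      linarith
    · have := (s.mono k4).uK
      linarith
  refine ff_sum_dyads (fun i : BdI X => i.F.N) P (fun i => i.Q.Dq2 W i.g) (fun i => X.cH * i.F.u) (fun i => i.F.x ^ (10 : ℝ))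
    (fun i => i.F.u ^ 3 * i.F.T2 X) 3 ?_ ?_ ?_
  · refine ⟨max (max Nr Ns) ⌈X.cH⌉₊, fun i hP hN => ?_⟩
    have hNr : Nr ≤ i.F.N := le_trans (le_trans (le_max_left _ _) (le_max_left _ _)) hN
    have hNs : Ns ≤ i.F.N := le_trans (le_trans (le_max_right _ _) (le_max_left _ _)) hN
    have hNc : X.cH ≤ (i.F.N : ℝ) := (Nat.le_ceil _).trans (by exact_mod_cast le_trans (le_max_right _ _) hN)
    obtain ⟨c1, c2, c3, c4, c5⟩ := hcom i hP hNs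
    have s := hsc i.F (hS.ok i hP) hNs
    obtain ⟨l1, _, _, l4⟩ := s.low
    have hu := s.u0
    have hu1 : i.F.u ≤ 1 := by
      have := (s.mono k3).uK
      linarith
    obtain ⟨r1, r2, _⟩ := hraw i hP hNr
    refine ⟨c2, c3, ?_, c5, fun v hv => (r1 v ⟨hv.1, by linarith [hv.2]⟩).1, r2 _ _ le_rfl (by positivity) (by linarith)⟩
    show X.cH * i.F.u ≤ (i.F.N : ℝ) ^ (3 : ℝ) * i.F.x ^ (10 : ℝ)
    rw [Real.rpow_ofNat]
    calc X.cH * i.F.u ≤ (i.F.N : ℝ) * 1 := mul_le_mul hNc hu1 hu.le l1.le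
      _ = (i.F.N : ℝ) ^ 3 * ((i.F.N : ℝ))⁻¹ ^ 2 := by field_simp
      _ ≤ (i.F.N : ℝ) ^ 3 * i.F.x ^ (10 : ℝ) := mul_le_mul_of_nonneg_left l4 (by positivity)
  · intro ε hε
    obtain ⟨C1, N1, h⟩ := h10 (ε / 2) (by linarith)
    refine ⟨|Kin| + C1 ^ 2 * |KR|, max (max Nr Ns) (max N1 Nin), fun i hP hN w hw1 hw2 => ?_⟩
    have hNr : Nr ≤ i.F.N := le_trans (le_trans (le_max_left _ _) (le_max_left _ _)) hN
    have hNs : Ns ≤ i.F.N := le_trans (le_trans (le_max_right _ _) (le_max_left _ _)) hN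
    have hN1 : N1 ≤ i.F.N := le_trans (le_trans (le_max_left _ _) (le_max_right _ _)) hN
    have hNin : Nin ≤ i.F.N := le_trans (le_trans (le_max_right _ _) (le_max_right _ _)) hN
    obtain ⟨c1, c2, c3, c4, c5⟩ := hcom i hP hNs
    have s := hsc i.F (hS.ok i hP) hNs
    obtain ⟨r1, r2, r3⟩ := hraw i hP hNr
    have hw0 : 0 < w := lt_of_lt_of_le c2 hw1
    have hNe := ff_one_le_Ne s.low.1 hε
    have hNG : i.F.u ^ 3 * i.F.T2 X ≤ (i.F.N : ℝ) ^ ε * (i.F.u ^ 3 * i.F.T2 X) := by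
      have := mul_le_mul_of_nonneg_right hNe c5
      linarith
    have hNG0 : 0 ≤ (i.F.N : ℝ) ^ ε * (i.F.u ^ 3 * i.F.T2 X) := c5.trans hNG
    have hq : 0 ≤ C1 ^ 2 * |KR| := by positivity
    rcases le_total w (Creg * i.F.wc X) with hcase | hcase
    · obtain ⟨_, _, _, t4, _, _⟩ := ff_T_facts X hX k3 s
      have hu := s.u0
      calc ∫ v in w..(2 * w), i.Q.Dq2 W i.g v ≤ Kin * (i.F.u ^ 3 * (i.F.A * i.F.yc X ^ (5 / 3 : ℝ))) := hin i hP hNin w hw0 hcase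
        _ ≤ |Kin| * (i.F.u ^ 3 * (i.F.A * i.F.yc X ^ (5 / 3 : ℝ))) := by
            refine mul_le_mul_of_nonneg_right (le_abs_self _) ?_
            have := s.A0
            have := Real.rpow_nonneg s.y0.le (5 / 3 : ℝ)
            positivity
        _ ≤ |Kin| * (i.F.u ^ 3 * i.F.T2 X) := by gcongr
        _ ≤ |Kin| * ((i.F.N : ℝ) ^ ε * (i.F.u ^ 3 * i.F.T2 X)) := mul_le_mul_of_nonneg_left hNG (abs_nonneg _)
        _ ≤ (|Kin| + C1 ^ 2 * |KR|) * ((i.F.N : ℝ) ^ ε * (i.F.u ^ 3 * i.F.T2 X)) :=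
            mul_le_mul_of_nonneg_right (by linarith) hNG0
    · obtain ⟨hR0, _, hR2⟩ := hR i.F (s.mono k1) w hcase hw2
      have hM := h i hP hN1 w hcase (by linarith)
      have hd := (ff_dyad_cs hw0 (fun v hv => (r1 v ⟨by linarith [hv.1], by linarith [hv.2]⟩).1)
        (r2 _ _ hw0.le (by linarith) (by linarith)) (r3 _ _ hw0.le (by linarith) (by linarith)) hM).2
      have e : ((i.F.N : ℝ) ^ (ε / 2)) ^ 2 = (i.F.N : ℝ) ^ ε := by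
        rw [← Real.rpow_natCast, ← Real.rpow_mul s.low.1.le]
        congr 1
        push_cast
        ring
      have hNe0 : 0 ≤ (i.F.N : ℝ) ^ ε := by linarith
      calc ∫ v in w..(2 * w), i.Q.Dq2 W i.g v ≤ w * (C1 * ((i.F.N : ℝ) ^ (ε / 2) * i.F.R10 X w)) ^ 2 := hd
        _ = C1 ^ 2 * (((i.F.N : ℝ) ^ (ε / 2)) ^ 2 * (w * i.F.R10 X w ^ 2)) := by ring
        _ = C1 ^ 2 * ((i.F.N : ℝ) ^ ε * (w * i.F.R10 X w ^ 2)) := by rw [e]
        _ ≤ C1 ^ 2 * ((i.F.N : ℝ) ^ ε * (KR * (i.F.u ^ 3 * i.F.T2 X))) := by gcongr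
        _ ≤ C1 ^ 2 * ((i.F.N : ℝ) ^ ε * (|KR| * (i.F.u ^ 3 * i.F.T2 X))) := by
            have := mul_le_mul_of_nonneg_right (le_abs_self KR) c5
            gcongr
        _ = C1 ^ 2 * |KR| * ((i.F.N : ℝ) ^ ε * (i.F.u ^ 3 * i.F.T2 X)) := by ring
        _ ≤ (|Kin| + C1 ^ 2 * |KR|) * ((i.F.N : ℝ) ^ ε * (i.F.u ^ 3 * i.F.T2 X)) :=
            mul_le_mul_of_nonneg_right (by linarith [abs_nonneg Kin]) hNG0
  · intro ε hε
    refine ⟨2 * (|Cp 1| * (2 * X.CU + 1)) ^ 2 * X.CU, max Nr Ns, fun i hP hN => ?_⟩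
    have hNr : Nr ≤ i.F.N := le_trans (le_max_left _ _) hN
    have hNs : Ns ≤ i.F.N := le_trans (le_max_right _ _) hN
    obtain ⟨c1, c2, c3, c4, c5⟩ := hcom i hP hNs
    have s := hsc i.F (hS.ok i hP) hNs
    obtain ⟨r1, r2, r3⟩ := hraw i hP hNr
    obtain ⟨_, _, _, _, t5, t6⟩ := ff_T_facts X hX k3 s
    have hu := s.u0
    have hb := ff_int_le_const (c := (|Cp 1| * ((2 * X.CU + 1) * i.F.wc X)) ^ 2) (by linarith : (0:ℝ) ≤ 2 * i.F.x ^ (10 : ℝ))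
      (r2 _ _ le_rfl (by linarith) (by linarith)) (fun v hv => by
        have hv1 : v ∈ Ioo (0:ℝ) 1 := ⟨hv.1, by linarith [hv.2]⟩
        have e : i.Q.Dq2 W i.g v = i.Q.Dq W i.g v ^ 2 := by
          unfold BdQ.Dq
          rw [Real.sq_sqrt (r1 v hv1).1]
        rw [e]
        refine pow_le_pow_left₀ (Real.sqrt_nonneg _) ?_ 2
        refine ((r1 v hv1).2).trans ?_
        calc Cp 1 * (v + i.F.wc X) ≤ |Cp 1| * (v + i.F.wc X) :=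
              mul_le_mul_of_nonneg_right (le_abs_self _) (by linarith [hv.1])
          _ ≤ |Cp 1| * ((2 * X.CU + 1) * i.F.wc X) :=
              mul_le_mul_of_nonneg_left (by linarith [hv.2]) (abs_nonneg _))
    have hNe := ff_one_le_Ne s.low.1 hε
    have hK : 0 ≤ 2 * (|Cp 1| * (2 * X.CU + 1)) ^ 2 := by positivity
    calc ∫ v in (0 : ℝ)..(2 * i.F.x ^ (10 : ℝ)), i.Q.Dq2 W i.g v
        ≤ (2 * i.F.x ^ (10 : ℝ) - 0) * (|Cp 1| * ((2 * X.CU + 1) * i.F.wc X)) ^ 2 := hb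
      _ = 2 * (|Cp 1| * (2 * X.CU + 1)) ^ 2 * (i.F.u ^ 2 * (i.F.x ^ (10 : ℝ) * i.F.yc X ^ 2)) := by unfold BdFr.wc; ring
      _ ≤ 2 * (|Cp 1| * (2 * X.CU + 1)) ^ 2 * (i.F.u ^ 2 * (X.CU * (i.F.u * i.F.T2 X))) := by gcongr
      _ = 2 * (|Cp 1| * (2 * X.CU + 1)) ^ 2 * X.CU * (1 * (i.F.u ^ 3 * i.F.T2 X)) := by ring
      _ ≤ 2 * (|Cp 1| * (2 * X.CU + 1)) ^ 2 * X.CU * ((i.F.N : ℝ) ^ ε * (i.F.u ^ 3 * i.F.T2 X)) :=
          mul_le_mul_of_nonneg_left (mul_le_mul_of_nonneg_right hNe c5) (by positivity)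

/-- (C16), first line, closed form -/
theorem ff_c16a (hS : BudFfStd X W P clo) {Cp : ℕ → ℝ} (hnum : BudFfNum X W P Cp) {Creg : ℝ} (hCreg : 0 < Creg)
    (h10 : BudFfC10 X W P Creg) :
    ∀ ε : ℝ, 0 < ε → ∃ K : ℝ, ∃ N0 : ℕ, ∀ i, P i → N0 ≤ i.F.N →
      ∫ v in (0 : ℝ)..(X.cH * i.F.u), i.Q.Dq W i.g v ≤ K * ((i.F.N : ℝ) ^ ε * (i.F.u ^ 2 * i.F.T1 X)) := by
  have hX := hS.fix
  have hcH := hX.cH_pos
  obtain ⟨Nr, hraw⟩ := ff_top_raw hS hnum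
  obtain ⟨KR, KbR, hR⟩ := ff_R10_low X hX hCreg
  obtain ⟨Kb, hKb⟩ : ∃ Kb : ℝ, Kb = max KbR (max ((|2 * Creg| + 1) / X.cH) (max 1 (2 * X.cH))) := ⟨_, rfl⟩
  have k1 : KbR ≤ Kb := by rw [hKb]; exact le_max_left _ _
  have k2 : (|2 * Creg| + 1) / X.cH ≤ Kb := by rw [hKb]; exact le_trans (le_max_left _ _) (le_max_right _ _)
  have k3 : 1 ≤ Kb := by rw [hKb]; exact le_trans (le_trans (le_max_left _ _) (le_max_right _ _)) (le_max_right _ _)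
  have k4 : 2 * X.cH ≤ Kb := by rw [hKb]; exact le_trans (le_trans (le_max_right _ _) (le_max_right _ _)) (le_max_right _ _)
  obtain ⟨Ns, hsc⟩ := ff_sc_ev X hX Kb
  -- common facts
  have hcom : ∀ i, P i → Ns ≤ i.F.N → 0 < i.F.wc X ∧ 2 * (Creg * i.F.wc X) ≤ X.cH * i.F.u ∧ X.cH * i.F.u ≤ 1 / 2 ∧
      0 ≤ i.F.u ^ 2 * i.F.T1 X ∧ i.F.wc X ^ 2 ≤ i.F.u ^ 2 * i.F.T1 X := by
    intro i hP hN
    have s := hsc i.F (hS.ok i hP) hN
    have hu := s.u0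
    have hy := s.y0
    obtain ⟨t1, _, t3, _⟩ := ff_T_facts X hX k3 s
    refine ⟨by unfold BdFr.wc; positivity, ?_, ?_, by positivity, ?_⟩
    · have := ff_sc_wc hcH (s.mono k2)
      linarith
    · have := (s.mono k4).uK
      linarith
    · unfold BdFr.wc
      calc (i.F.yc X * i.F.u) ^ 2 = i.F.u ^ 2 * i.F.yc X ^ 2 := by ring
        _ ≤ i.F.u ^ 2 * i.F.T1 X := mul_le_mul_of_nonneg_left t3 (by positivity)
  refine ff_sum_dyads (fun i : BdI X => i.F.N) P (fun i => i.Q.Dq W i.g) (fun i => X.cH * i.F.u) (fun i => Creg * i.F.wc X)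
    (fun i => i.F.u ^ 2 * i.F.T1 X) 2 ?_ ?_ ?_
  · refine ⟨max (max Nr Ns) ⌈X.cH / Creg⌉₊, fun i hP hN => ?_⟩
    have hNr : Nr ≤ i.F.N := le_trans (le_trans (le_max_left _ _) (le_max_left _ _)) hN
    have hNs : Ns ≤ i.F.N := le_trans (le_trans (le_max_right _ _) (le_max_left _ _)) hN
    have hNc : X.cH / Creg ≤ (i.F.N : ℝ) := (Nat.le_ceil _).trans (by exact_mod_cast le_trans (le_max_right _ _) hN)
    obtain ⟨c1, c2, c3, c4, _⟩ := hcom i hP hNs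
    have s := hsc i.F (hS.ok i hP) hNs
    obtain ⟨l1, l2, l3, _⟩ := s.low
    have hu := s.u0
    refine ⟨by positivity, c2, ?_, c4, fun v _ => Real.sqrt_nonneg _, (hraw i hP hNr).2.2 _ _ le_rfl (by positivity) (by linarith)⟩
    have e1 : X.cH ≤ (i.F.N : ℝ) * Creg := by rwa [div_le_iff₀ hCreg] at hNc
    have e2 : 1 ≤ (i.F.N : ℝ) * i.F.yc X := by
      have : (i.F.N : ℝ) * ((i.F.N : ℝ))⁻¹ ≤ (i.F.N : ℝ) * i.F.yc X := mul_le_mul_of_nonneg_left (l2.trans l3) l1.le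
      rwa [mul_inv_cancel₀ l1.ne'] at this
    show X.cH * i.F.u ≤ (i.F.N : ℝ) ^ (2 : ℝ) * (Creg * i.F.wc X)
    rw [Real.rpow_ofNat]
    unfold BdFr.wc
    calc X.cH * i.F.u ≤ ((i.F.N : ℝ) * Creg) * i.F.u := mul_le_mul_of_nonneg_right e1 hu.le
      _ = ((i.F.N : ℝ) * Creg * i.F.u) * 1 := by ring
      _ ≤ ((i.F.N : ℝ) * Creg * i.F.u) * ((i.F.N : ℝ) * i.F.yc X) := mul_le_mul_of_nonneg_left e2 (by positivity)
      _ = (i.F.N : ℝ) ^ 2 * (Creg * (i.F.yc X * i.F.u)) := by ring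
  · intro ε hε
    obtain ⟨C, N1, h⟩ := h10 ε hε
    refine ⟨|C| * KR, max (max Nr Ns) N1, fun i hP hN w hw1 hw2 => ?_⟩
    have hNr : Nr ≤ i.F.N := le_trans (le_trans (le_max_left _ _) (le_max_left _ _)) hN
    have hNs : Ns ≤ i.F.N := le_trans (le_trans (le_max_right _ _) (le_max_left _ _)) hN
    have hN1 : N1 ≤ i.F.N := le_trans (le_max_right _ _) hN
    obtain ⟨c1, c2, c3, c4, _⟩ := hcom i hP hNs
    have s := hsc i.F (hS.ok i hP) hNs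
    obtain ⟨r1, r2, r3⟩ := hraw i hP hNr
    have hw0 : 0 < w := lt_of_lt_of_le (by positivity) hw1
    obtain ⟨hR0, hR1, _⟩ := hR i.F (s.mono k1) w hw1 hw2
    have hM := h i hP hN1 w hw1 (by linarith)
    have hd := (ff_dyad_cs hw0 (fun v hv => (r1 v ⟨by linarith [hv.1], by linarith [hv.2]⟩).1)
      (r2 _ _ hw0.le (by linarith) (by linarith)) (r3 _ _ hw0.le (by linarith) (by linarith)) hM).1
    have hNe : 0 ≤ (i.F.N:ℝ) ^ ε := Real.rpow_nonneg (Nat.cast_nonneg _) _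
    calc ∫ v in w..(2 * w), i.Q.Dq W i.g v ≤ w * (C * ((i.F.N : ℝ) ^ ε * i.F.R10 X w)) := hd
      _ = C * ((i.F.N : ℝ) ^ ε * (w * i.F.R10 X w)) := by ring
      _ ≤ |C| * ((i.F.N : ℝ) ^ ε * (w * i.F.R10 X w)) :=
          mul_le_mul_of_nonneg_right (le_abs_self _) (mul_nonneg hNe (mul_nonneg hw0.le hR0))
      _ ≤ |C| * ((i.F.N : ℝ) ^ ε * (KR * (i.F.u ^ 2 * i.F.T1 X))) := by gcongr
      _ = |C| * KR * ((i.F.N : ℝ) ^ ε * (i.F.u ^ 2 * i.F.T1 X)) := by ring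
  · intro ε hε
    refine ⟨2 * Creg * (|Cp 1| * (2 * Creg + 1)), max Nr Ns, fun i hP hN => ?_⟩
    have hNr : Nr ≤ i.F.N := le_trans (le_max_left _ _) hN
    have hNs : Ns ≤ i.F.N := le_trans (le_max_right _ _) hN
    obtain ⟨c1, c2, c3, c4, c5⟩ := hcom i hP hNs
    have s := hsc i.F (hS.ok i hP) hNs
    obtain ⟨r1, r2, r3⟩ := hraw i hP hNr
    have hlo : 0 < Creg * i.F.wc X := by positivity
    have hb := ff_int_le_const (c := |Cp 1| * (2 * (Creg * i.F.wc X) + i.F.wc X)) (by linarith : (0:ℝ) ≤ 2 * (Creg * i.F.wc X))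
      (r3 _ _ le_rfl (by linarith) (by linarith)) (fun v hv => by
        refine ((r1 v ⟨hv.1, by linarith [hv.2]⟩).2).trans ?_
        calc Cp 1 * (v + i.F.wc X) ≤ |Cp 1| * (v + i.F.wc X) :=
              mul_le_mul_of_nonneg_right (le_abs_self _) (by linarith [hv.1])
          _ ≤ |Cp 1| * (2 * (Creg * i.F.wc X) + i.F.wc X) :=
              mul_le_mul_of_nonneg_left (by linarith [hv.2]) (abs_nonneg _))
    have hNe := ff_one_le_Ne s.low.1 hε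
    have hK : 0 ≤ 2 * Creg * (|Cp 1| * (2 * Creg + 1)) := by positivity
    calc ∫ v in (0 : ℝ)..(2 * (Creg * i.F.wc X)), i.Q.Dq W i.g v
        ≤ (2 * (Creg * i.F.wc X) - 0) * (|Cp 1| * (2 * (Creg * i.F.wc X) + i.F.wc X)) := hb
      _ = 2 * Creg * (|Cp 1| * (2 * Creg + 1)) * i.F.wc X ^ 2 := by ring
      _ ≤ 2 * Creg * (|Cp 1| * (2 * Creg + 1)) * (i.F.u ^ 2 * i.F.T1 X) := mul_le_mul_of_nonneg_left c5 hK
      _ = 2 * Creg * (|Cp 1| * (2 * Creg + 1)) * (1 * (i.F.u ^ 2 * i.F.T1 X)) := by ring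
      _ ≤ 2 * Creg * (|Cp 1| * (2 * Creg + 1)) * ((i.F.N : ℝ) ^ ε * (i.F.u ^ 2 * i.F.T1 X)) :=
          mul_le_mul_of_nonneg_left (mul_le_mul_of_nonneg_right hNe c4) hK

/-- (C16), third line, closed form -/
theorem ff_c16c (hS : BudFfStd X W P clo) {Creg : ℝ} (h10 : BudFfC10 X W P Creg) :
    ∀ ε : ℝ, 0 < ε → ∃ K : ℝ, ∃ N0 : ℕ, ∀ i, P i → N0 ≤ i.F.N → ∀ w : ℝ, X.cH * i.F.u ≤ w → w ≤ 1 / 2 →
      Real.sqrt (w⁻¹ * ∫ v in w..(2 * w), i.Q.Dq2 W i.g v) ≤ K * ((i.F.N : ℝ) ^ ε * (i.F.u * i.F.A)) := by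
  intro ε hε
  obtain ⟨C, N1, h⟩ := h10 ε hε
  obtain ⟨K, Kb, hR⟩ := ff_R10_high X hS.fix
  obtain ⟨N2, hs2⟩ := ff_sc_ev X hS.fix Kb
  obtain ⟨N3, hs3⟩ := ff_sc_ev X hS.fix ((|Creg| + 1) / X.cH)
  refine ⟨|C| * K, max N1 (max N2 N3), fun i hP hN w hw1 hw2 => ?_⟩
  have hN1 : N1 ≤ i.F.N := le_trans (le_max_left _ _) hN
  have hNa := le_trans (le_max_right _ _) hN
  have hN2 : N2 ≤ i.F.N := le_trans (le_max_left _ _) hNa
  have hN3 : N3 ≤ i.F.N := le_trans (le_max_right _ _) hNa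
  have hF := hS.ok i hP
  obtain ⟨hR0, hR1⟩ := hR i.F (hs2 i.F hF hN2) w hw1 hw2
  have hreg : Creg * i.F.wc X ≤ w := (ff_sc_wc hS.fix.cH_pos (hs3 i.F hF hN3)).trans hw1
  have hNe : 0 ≤ (i.F.N:ℝ) ^ ε := Real.rpow_nonneg (Nat.cast_nonneg _) _
  calc Real.sqrt (w⁻¹ * ∫ v in w..(2 * w), i.Q.Dq2 W i.g v) ≤ C * ((i.F.N : ℝ) ^ ε * i.F.R10 X w) := h i hP hN1 w hreg hw2
    _ ≤ |C| * ((i.F.N : ℝ) ^ ε * i.F.R10 X w) := mul_le_mul_of_nonneg_right (le_abs_self _) (mul_nonneg hNe hR0)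
    _ ≤ |C| * ((i.F.N : ℝ) ^ ε * (K * (i.F.u * i.F.A))) := by gcongr
    _ = |C| * K * ((i.F.N : ℝ) ^ ε * (i.F.u * i.F.A)) := by ring

/-- **EXIT N14: (C16) on the instance class `P`**.     TEX[LL:bud:free-forks] -/
theorem bud_c16_of (hS : BudFfStd X W P clo) {c C : ℝ} (hc : 0 < c) (h7 : BudFfC7 X P c C) {Cp : ℕ → ℝ}
    (hnum : BudFfNum X W P Cp) {Creg : ℝ} (hCreg : 0 < Creg) (h10 : BudFfC10 X W P Creg) :
    BdSub (fun i : BdI X => i.F.N) P (fun i => ∫ v in (0 : ℝ)..(X.cH * i.F.u), i.Q.Dq W i.g v) (fun i => i.F.u ^ 2 * i.F.T1 X) ∧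
    BdSub (fun i : BdI X => i.F.N) P (fun i => ∫ v in (0 : ℝ)..(X.cH * i.F.u), i.Q.Dq2 W i.g v) (fun i => i.F.u ^ 3 * i.F.T2 X) ∧
    BdSub (fun i : BdI X × ℝ => i.1.F.N) (fun i => P i.1 ∧ X.cH * i.1.F.u ≤ i.2 ∧ i.2 ≤ 1 / 2)
      (fun i => Real.sqrt (i.2⁻¹ * ∫ v in i.2..(2 * i.2), i.1.Q.Dq2 W i.1.g v)) (fun i => i.1.F.u * i.1.F.A) := by
  have hcH := hS.fix.cH_pos
  refine ⟨ff_sub_of_closed ⟨0, fun i hP _ => ?_⟩ (ff_c16a hS hnum hCreg h10), ff_sub_of_closed ?_ (ff_c16b hS hc h7 hnum hCreg h10),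
    ff_sub_of_closed ⟨0, fun i _ _ => Real.sqrt_nonneg _⟩ fun ε hε => ?_⟩
  · have hu := BdFr.bds_u_pos (hS.ok i hP) hS.fix
    exact intervalIntegral.integral_nonneg (by positivity) fun v _ => Real.sqrt_nonneg _
  · obtain ⟨N1, h1⟩ := ff_top_raw hS hnum
    obtain ⟨N2, h2⟩ := ff_sc_ev X hS.fix X.cH
    refine ⟨max N1 N2, fun i hP hN => ?_⟩
    have s := h2 i.F (hS.ok i hP) (le_trans (le_max_right _ _) hN)
    obtain ⟨r1, _, _⟩ := h1 i hP (le_trans (le_max_left _ _) hN)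
    have hu := s.u0
    refine ff_int_nonneg (top := X.cH * i.F.u) (fun v hv => ?_) le_rfl (by positivity) le_rfl
    exact (r1 v ⟨hv.1, lt_of_lt_of_le hv.2 s.uK⟩).1
  · obtain ⟨K, N0, h⟩ := ff_c16c hS h10 ε hε
    exact ⟨K, N0, fun i hi hN => h i.1 hi.1 hN i.2 hi.2.1 hi.2.2⟩

/-! ## 6. The class of the stage boxes: the form used by `Bud/L8.lean` -/

/-- **the inputs of N14** on the class `BdI.OkSt` (boxes of the stages).   `BudFfC7` is NOT a field: it is (C7), first half, which the spine has (`BudB.C7a`). -/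
structure BudFfIn (X : BdFix) (W : BdWorld) (Fam : BdFr → Prop) : Prop where
  num : ∃ Cp : ℕ → ℝ, BudFfNum X W (fun i => i.OkSt W Fam) Cp
  c10 : ∃ Creg : ℝ, 0 < Creg ∧ BudFfC10 X W (fun i => i.OkSt W Fam) Creg

theorem ff_plo_nest {X : BdFix} (hX : X.Ok) : ∀ n ≤ X.J + 1, X.plo 0 ≤ X.plo n := by
  intro n
  induction n with
  | zero => intro _; exact le_rfl
  | succ n ih =>
    intro hn
    have a1 := ih (by omega)
    obtain ⟨b1, _⟩ := hX.nest n (by omega)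
    obtain ⟨_, d1, _⟩ := hX.pat n (by omega)
    linarith

/-- the standing hypotheses of N14 hold on the stage boxes (`Base`: `bdg_base` of 248) -/
theorem ff_std_of {X : BdFix} {W : BdWorld} {Fam : BdFr → Prop} {K : BdCst} (hS : BdStd X W Fam K) :
    BudFfStd X W (fun i => i.OkSt W Fam) (X.plo 0) where
  fix := hS.fix
  clo_pos := (hS.fix.pat 0 (Nat.zero_le _)).1
  ok := fun i hi => hS.ok _ hi.1.1
  opt := fun i hi => hi.1.2.2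
  base := fun i hi => bdg_base hS hi.1.1 i.Q hi.1.2.1
  ilo := fun i hi => by
    rw [hi.2.2.1]
    exact ff_plo_nest hS.fix _ (hS.ok _ hi.1.1).st_le

/-- **(C16) in the form of `Bud/L8Defs.lean`** -/
theorem bud_c16_in {X : BdFix} {W : BdWorld} {Fam : BdFr → Prop} {K : BdCst} (hS : BdStd X W Fam K) (hin : BudFfIn X W Fam)
    {c C : ℝ} (hc : 0 < c) (h7 : BudFfC7 X (fun i => i.OkSt W Fam) c C) :
    BudC16a X W Fam ∧ BudC16b X W Fam ∧ BudC16c X W Fam := by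
  obtain ⟨Cp, hnum⟩ := hin.num
  obtain ⟨Creg, hCreg, h10⟩ := hin.c10
  exact bud_c16_of (ff_std_of hS) hc h7 hnum hCreg h10

/-! ## 7. Tools for the PRODUCER of `BudFfIn` (`c10` = `bos_inst_ff` of 111, `Bud/SecInst.lean`; `num` = `Bud/FfNum.lean` of 248) -/

/-- **"`c_H` so large that `v ≥ c_H u` lies beyond the extra floor"** (l.1603), from (C7), second half, and the slopes of `β_0` -/
theorem ff_patch_of {X : BdFix} {W : BdWorld} {Fam : BdFr → Prop} {K : BdCst} (hS : BdStd X W Fam K) (h7 : BudC7al X W Fam)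
    (hcH : K.Cb * X.cI + 1 ≤ X.cH) :
    ∃ N1 : ℕ, ∀ i : BdI X, i.OkSt W Fam → N1 ≤ i.F.N → ∀ v : ℝ, X.cH * i.F.u ≤ v → v ≤ 1 → i.F.Ihi * i.F.u < i.Q.r v := by
  have hX := hS.fix
  obtain ⟨N0, h⟩ := bdg_c7 hS h7 (n := 0) (Nat.zero_le _) (ε := 1 / 2) (by norm_num)
  obtain ⟨N2, hs⟩ := ff_sc_ev X hX X.cI
  refine ⟨max N0 N2, fun i hi hN v hv1 hv2 => ?_⟩
  obtain ⟨⟨hF, hg, hopt⟩, _, hIlo, hIhi⟩ := hi
  have hFok := hS.ok _ hF
  have s := hs i.F hFok (le_trans (le_max_right _ _) hN)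
  have hu := s.u0
  have hcI := hX.cI_pos
  have hcH0 := hX.cH_pos
  obtain ⟨n1, n2, _, _⟩ := bdg_nest hX i.F.st hFok.st_le
  obtain ⟨r1, hr1⟩ : ∃ r1 : ℝ, r1 = i.F.Ihi * i.F.u := ⟨_, rfl⟩
  have hI0 : 0 < i.F.Ihi := lt_of_lt_of_le hFok.I0 hFok.I1
  have hr10 : 0 < r1 := by rw [hr1]; positivity
  have hr1lo : X.plo 0 * i.F.u ≤ r1 := by
    rw [hr1]
    refine mul_le_mul_of_nonneg_right ?_ hu.le
    calc X.plo 0 ≤ X.plo i.F.st := n1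
      _ = i.F.Ilo := hIlo.symm
      _ ≤ i.F.Ihi := hFok.I1
  have hr1hi : r1 ≤ X.phi 0 * i.F.u := by
    rw [hr1, hIhi]
    exact mul_le_mul_of_nonneg_right n2 hu.le
  have hr1cI : r1 ≤ X.cI * i.F.u := by
    rw [hr1]
    exact mul_le_mul_of_nonneg_right hFok.I2.le hu.le
  have hr11 : r1 ≤ 1 := hr1cI.trans s.uK
  have ha := abs_le.1 (h i.F i.g i.Q hF hg hopt (le_trans (le_max_left _ _) hN) r1 ⟨hr1lo, hr1hi⟩)
  obtain ⟨hb1, hb2⟩ := hS.beta _ hF 0 r1 le_rfl hr10.le hr1cI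
  rw [hS.beta_zero _ hF] at hb1 hb2
  have hCb : 0 < K.Cb := by
    have h1 : K.cb * (r1 - 0) ≤ K.Cb * (r1 - 0) := hb1.trans hb2
    have h2 : K.cb ≤ K.Cb := le_of_mul_le_mul_right h1 (by linarith)
    exact lt_of_lt_of_le hS.cb_pos h2
  have hal : i.Q.al r1 < X.cH * i.F.u := by
    have h1 : K.Cb * (r1 - 0) ≤ K.Cb * (X.cI * i.F.u) := mul_le_mul_of_nonneg_left (by linarith) hCb.le
    have h2 : (K.Cb * X.cI + 1) * i.F.u ≤ X.cH * i.F.u := mul_le_mul_of_nonneg_right hcH hu.le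
    have h3 : (K.Cb * X.cI + 1) * i.F.u = K.Cb * (X.cI * i.F.u) + i.F.u := by ring
    linarith [ha.2]
  rw [← hr1]
  by_contra hle
  have hle : i.Q.r v ≤ r1 := not_lt.1 hle
  have hv01 : v ∈ Icc (0:ℝ) 1 := ⟨le_trans (by positivity) hv1, hv2⟩
  have hm := bdg_al_mono hFok hX i.Q (i.Q.r_mem v hv01) ⟨hr10.le, hr11⟩ hle
  rw [i.Q.al_r v hv01] at hm
  linarith

/-- the raw second moment `B_v ≤ (Cr (v + w_c))²` from the numbers -/
theorem ff_B_of_num {X : BdFix} {W : BdWorld} {P : BdI X → Prop} {Cp : ℕ → ℝ} (hnum : BudFfNum X W P Cp) :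
    ∃ N1 : ℕ, ∀ i, P i → N1 ≤ i.F.N → 0 ≤ i.F.wc X → ∀ v ∈ Ioo (0 : ℝ) 1,
      i.Q.Bq W i.g v ≤ ((|Cp 1| + Cp 1 ^ 2 + 1) * (v + i.F.wc X)) ^ 2 := by
  obtain ⟨N0, h⟩ := hnum
  refine ⟨N0, fun i hP hN hwc v hv => ?_⟩
  obtain ⟨Xn, hX, hSq, hD, hraw, _⟩ := h i hP hN
  have hv' := Ioo_subset_Icc_self hv
  obtain ⟨t, ht⟩ : ∃ t : ℝ, t = v + i.F.wc X := ⟨_, rfl⟩
  have ht0 : 0 < t := by rw [ht]; linarith [hv.1]
  obtain ⟨r1, r2⟩ := hraw v hv'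
  rw [← ht] at r1 r2 ⊢
  have e : i.Q.Bq W i.g v = Xn.D v ^ 2 + Xn.S v ^ 2 := by
    rw [hD v hv, hSq v hv]; unfold BdQ.Dq2; ring
  have hD1 : Xn.D v ^ 2 ≤ (|Cp 1| * t) ^ 2 := by
    refine pow_le_pow_left₀ (hX.D_nn v hv') ?_ 2
    exact ((hX.d_nr v hv').trans r2).trans (mul_le_mul_of_nonneg_right (le_abs_self _) ht0.le)
  have hS1 : Xn.S v ≤ Cp 1 ^ 2 * t := by
    rw [hX.s_nx v hv']
    calc Xn.NX 1 v ^ 2 ≤ (Cp 1 * Real.sqrt t) ^ 2 := pow_le_pow_left₀ (hX.NX_nn 1 v hv') (r1 1 le_rfl) 2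
      _ = Cp 1 ^ 2 * t := by rw [mul_pow, Real.sq_sqrt ht0.le]
  have hS2 : Xn.S v ^ 2 ≤ (Cp 1 ^ 2 * t) ^ 2 := pow_le_pow_left₀ (hX.S_nn v hv') hS1 2
  rw [e]
  have ha := abs_nonneg (Cp 1)
  have hb := sq_nonneg (Cp 1)
  have e2 : ((|Cp 1| + Cp 1 ^ 2 + 1) * t) ^ 2 = (|Cp 1| * t) ^ 2 + (Cp 1 ^ 2 * t) ^ 2
      + (2 * |Cp 1| * Cp 1 ^ 2 + 2 * |Cp 1| + 2 * Cp 1 ^ 2 + 1) * t ^ 2 := by ring
  have : 0 ≤ (2 * |Cp 1| * Cp 1 ^ 2 + 2 * |Cp 1| + 2 * Cp 1 ^ 2 + 1) * t ^ 2 := by positivity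
  rw [e2]
  linarith

/-- normalisation of the constants of (C7) -/
theorem ff_c7_norm {X : BdFix} {P : BdI X → Prop} {c C : ℝ} (hX : X.Ok) (hok : ∀ i, P i → i.F.Ok X) (h7 : BudFfC7 X P c C) :
    BudFfC7 X P (min c 1) (max C 1) := by
  obtain ⟨N0, h⟩ := h7
  obtain ⟨N1, hs⟩ := ff_sc_ev X hX 1
  refine ⟨max N0 N1, fun i hP hN v hv1 hv2 => ?_⟩
  have s := hs i.F (hok i hP) (le_trans (le_max_right _ _) hN)
  have hv0 : 0 ≤ v := by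
    refine le_trans ?_ hv1
    have := s.y0
    have := s.u0
    unfold BdFr.wc
    positivity
  obtain ⟨h1, h2⟩ := h i hP (le_trans (le_max_left _ _) hN) v hv1 hv2
  exact ⟨(mul_le_mul_of_nonneg_right (min_le_left _ _) hv0).trans h1, h2.trans (mul_le_mul_of_nonneg_right (le_max_left _ _) hv0)⟩


end

end Claimed.Agent.R286
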