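import Claimed.Agent.R286.Bud.Sec
import Claimed.Agent.R286.Bud.Star
import Claimed.Agent.R286.Bud.FfTop
import Claimed.Agent.R286.Bud.Mom
import Claimed.Agent.R286.Cmp.InstNum
import Claimed.Agent.R286.Exit.GeoClkInst
import Claimed.Agent.R286.Exit.PSysInst

/-!
# Row 286 (S0533), LL 07-budgets, node N6 = Lemma 7.5 (bud:outer-second), (C10): THE SK INSTANCE AND THE EXITS      (owner helper111; prefix `bos_`)

PRODUCERS (captain's rule "instances first": every abstract record of `Bud/Sec.lean` is constructed HERE from SK objects):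
* `BdQ.bosNum Q g : CmNum`  := `cmkNum F.m (Q.bE g) (Q.hE g)` (295) = the SK numbers of the CHANGED path.   `bos_num_ok` (PROVED from `cmk_num_ok`), `bos_num_S`, `bos_num_D` (world = Hub), `bos_num_clock` (sharp clock
                             inequality (A1) line 2 in the radius coordinate, from `exit_clk_sus_int`; mirror of 251's `exit_geo_clock_sharp`).
* `bos_geo_of_bud`          `BudGeo.Ok` (109, N4) + numbers + clock  ⟹  `∃ Z, BosGeo …`, `Z.Fl = {H > 0}`.      `bos_geo_inst`: the same for an instance.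
CLASS  `I.Reg W K Cr` (I : BcsIn X of 190 = frame, parameter, optimiser, scale `w`, normalisation of the potential): the hypotheses of LL l.217-233: `w ≥ w_c`, outer regularity above `2w`, `w = o(u)` in the form
       `2 C w ≤ i0 u` (the patch lies in the regular region), raw second moments (C8) `B_v ≤ (Cr (v+w))²`.      NO strong removal, NO minimality beyond `BudGeo.Ok`.
CORE   `bos_c10_core`, `bos_sw_core`, `bos_nf_core`:  closed forms, constants before the instance.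
EXITS  `bos_inst_c10 : BcsC10`, `bos_inst_sw : BcsSW`, `bos_inst_nf : BcsNF` (consumer 190, `Bud/Star.lean`), `bos_inst_ff : BudFfC10` (consumer 161, `Bud/FfTop.lean`).      TEX[LL:bud:outer-second]

PARAMETERS of the application of `bos_c10` on the dyad `[v,2v]`, `4w ≤ v ≤ 1/2`  (`c, C, i0` = `K.c, K.C, K.i0`; `L = F.bosLp X = sup (1-p)⁻¹ ≲ log(1/x)`):
  `vb = min 1 (3C/c v)`, `Γ = 6C/c`, `y0 = Cr (3C/c+1) v`, `eg = c/(3C²) C(v)`, `th = x^100`, `qq = 3`, `Cq = 1/√y0` (only `NX ≤ 1` is used: `q4 = 8 √ω`, `ω = 3L/M_j ≤ x^99`), `yR = 3 Cr v`,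
  `cn = m/L`, `T = 3L/(cn eg)`;   patch `[a,b] = [Ilo u, Ihi u]`, `κ = F.kap`, `v0 = i0 u/C`, `e0 = C0/(1 + cI/cd³)`, `sg = R = Cr (cI/c + cI) u`.
ARITHMETIC (leaves `bos_ar_*`; `1/m ≤ 2x⁶`):  `(y0 T/v²)^{2/3} ≍ L^{4/3} (x⁶/(C(v)v))^{2/3}`, `T/v² ≍ L² x⁶/(C(v)v²)`, `k(r) r² ≤ m^δ v_*²`,
  `√(κ u³ L x⁶/(C0 u)) = √(κ L) x³/√Λ ≤ √L x³ λ^{s0} Λ^{-5/6} = √L u³ B_f²`  (`κ ≤ λ^{2 s0} Λ^{-2/3}`, `C0 = u²Λ`),   everything else is `≤ x^40 ≪ v v_*²` (`v_* ≥ x³/(3cd)`, `v ≥ w_c ≥ x^10/CU`).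
PROVERS: prove IN PLACE; claim `Bud/SecInst.lean#<name>`; a false/awkward statement: one line to 111.
-/

set_option autoImplicit false

namespace Claimed.Agent.R286

open MeasureTheory Set Filter Topology

noncomputable section

/-! ## 0. Vocabulary -/

/-- **the SK numbers of the changed path** of a feasible quantile -/
def BdQ.bosNum {F : BdFr} {X : BdFix} (Q : BdQ F X) (g : ℝ) : CmNum := cmkNum F.m (Q.bE g) (Q.hE g)

/-- `sup_{[0,1]} (1-p)⁻¹` for the removal profile of the frame -/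
def BdFr.bosLp (F : BdFr) (X : BdFix) : ℝ := 1 + Real.log (max 1 (F.C0 / F.dPE X ^ 3))

/-- the cap oscillation `ω = 3 L/M_j` -/
def BdFr.bosOm (F : BdFr) (X : BdFix) : ℝ := 3 * F.bosLp X / F.Mj

/-- the unit trace bound `T = 3 L/(cn eg)`, `cn = m/L` -/
def BdFr.bosT (F : BdFr) (X : BdFix) (eg : ℝ) : ℝ := 3 * F.bosLp X / ((F.m : ℝ) / F.bosLp X * eg)

/-- the reverse-order cost inside a cap, from `NX ≤ 1` only (`= 8 √ω`) -/
def BdFr.bosQ4 (F : BdFr) (X : BdFix) (y0 : ℝ) : ℝ := cmQ4 (F.bosOm X) (1 / Real.sqrt y0) y0 3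

/-- the inverse quantile of a geometry datum, frozen outside `[0,1]` -/
def bosAlG (gg : BudGeo) (x : ℝ) : ℝ := gg.al (max 0 (min x 1))

/-- the quantile of a geometry datum, frozen outside `[0,1]` -/
def bosRG (gg : BudGeo) (u : ℝ) : ℝ := budQ gg.ρ (max 0 (min u 1))

/-- the first three terms of (C10) -/
def BdFr.bosR3 (F : BdFr) (X : BdFix) (v : ℝ) : ℝ :=
  (F.x ^ 6 / (F.C X v * v)) ^ (1 / 3 : ℝ) + F.x ^ 3 / (v * Real.sqrt (F.C X v)) + (F.m : ℝ) ^ (X.dPEexp / 2) * F.vs X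

/-- **the class of LL l.217-233** (analytic estimates conditional on outer regularity), with the raw second moments (C8) -/
structure BcsIn.Reg {X : BdFix} (I : BcsIn X) (W : BdWorld) (K : BcsK) (Cr : ℝ) : Prop where
  ok : I.F.Ok X
  base : I.F.Base X W I.g
  clkb : IsClock 1 (I.Q.bq I.g)
  clkh : IsClock 1 (I.Q.hq I.g)
  geo : (I.geo W).Ok
  w_lo : I.F.wc X ≤ I.w
  reg : I.Q.OuterReg I.w K.c K.C 2
  ilo : K.i0 ≤ I.F.Ilo
  /-- `w = o(u)`: the enhanced-floor patch lies in the regular region -/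
  room : 2 * K.C * I.w ≤ K.i0 * I.F.u
  raw : ∀ v ∈ Ioo (0 : ℝ) 1, I.B W v ≤ (Cr * (v + I.w)) ^ 2

theorem bos_inst_eqns_cite : True := by
  have := @BdQ.bosNum.eq_1; have := @BdFr.bosLp.eq_1; have := @BdFr.bosOm.eq_1; have := @BdFr.bosT.eq_1; have := @BdFr.bosQ4.eq_1
  have := @bosAlG.eq_1; have := @bosRG.eq_1; have := @BdFr.bosR3.eq_1
  trivial

/-! ## 1. PRODUCER of the numbers (SK objects) -/

section num

variable {F : BdFr} {X : BdFix} {W : BdWorld} {Q : BdQ F X} {g : ℝ}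

/-- **the numbers of the changed path satisfy `CmNum.Ok`** -/
theorem bos_num_ok (hm : 0 < F.m) (hb : IsClock 1 (Q.bq g)) (hh : IsClock 1 (Q.hq g)) : (Q.bosNum g).Ok :=
  cmk_num_ok F.m hm (psi_adm one_pos hb hh)

/-- `S` of the numbers = `S` of the world -/
theorem bos_num_S (hW : W.IsHub) (hm : 0 < F.m) (hb : IsClock 1 (Q.bq g)) (hh : IsClock 1 (Q.hq g)) {v : ℝ} (hv : v ∈ Ioo (0 : ℝ) 1) :
    (Q.bosNum g).S v = Q.Sq W g v := by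
  show skCS F.m 1 (Q.bE g) (Q.hE g) (ghPosA (cmkCl v)) = _
  rw [gci_cl hv.1.le hv.2.le]
  exact (hW.S F.m hm _ _ hb hh v hv).symm

/-- `D²` of the numbers = `D²` of the world (`PSys.S_sq_le`) -/
theorem bos_num_D (hW : W.IsHub) (hm : 0 < F.m) (hb : IsClock 1 (Q.bq g)) (hh : IsClock 1 (Q.hq g)) {v : ℝ} (hv : v ∈ Ioo (0 : ℝ) 1) :
    (Q.bosNum g).D v ^ 2 = Q.Dq2 W g v := by
  have hadm : CkAdm 1 (Q.bE g) (Q.hE g) := psi_adm one_pos hb hh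
  have hp := gci_posA_ok hv.1.le hv.2.le
  have h1 := (exit_clk_SB hm one_pos hadm hp hp le_rfl).2.2.2.1
  show Real.sqrt (cmkD2 F.m (Q.bE g) (Q.hE g) (ghPosA (cmkCl v))) ^ 2 = _
  rw [gci_cl hv.1.le hv.2.le, Real.sq_sqrt (by unfold cmkD2; linarith)]
  unfold cmkD2 BdQ.Dq2 BdQ.Bq BdQ.Sq
  rw [hW.S F.m hm _ _ hb hh v hv, hW.B F.m hm _ _ hb hh v hv]
  rfl

/-- the field gain of the extended changed clock, in the mass coordinate -/
theorem bos_num_hgain (hX : X.Ok) (hF : F.Ok X) (hh0 : IsClock 1 (F.h g)) (hh : IsClock 1 (Q.hq g))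
    {s t : ℝ} (hs : 0 ≤ s) (hst : s ≤ t) (ht : t ≤ 1) :
    Q.r t * F.C X (Q.r t) - Q.r s * F.C X (Q.r s) ≤ Q.hE g t - Q.hE g s := by
  obtain ⟨hρ, hal, hr⟩ := bud_dens_of_bdq X hX F hF Q
  have hbox := bud_gb_box hX hF
  have hr0 : Q.r 0 = 0 := by
    have := Q.r_al 0 (left_mem_Icc.2 zero_le_one)
    rwa [Q.al_zero] at this
  have hr1 : Q.r 1 = 1 := by
    have := Q.r_al 1 (right_mem_Icc.2 zero_le_one)
    rwa [Q.al_one] at this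
  have hC0 := (bud_gb_C0_pos hX hF).le
  have hd := bud_gb_d_pos hX hF
  -- `G = r C(r)` is nondecreasing
  have hG : ∀ x y : ℝ, 0 ≤ x → x ≤ y → x * F.C X x ≤ y * F.C X y := by
    intro x y hx hxy
    have h1 := cm_re_integral (F.call X) hd hC0 hx hxy
    have h2 : 0 ≤ ∫ r in x..y, (1 - (F.call X).pp F.C0 r) * (F.call X).e F.C0 r :=
      intervalIntegral.integral_nonneg hxy fun r _ =>
        mul_nonneg (cm_pp_gap_pos (F.call X) F.C0 r).le (cm_e_nonneg (F.call X) hC0 r)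
    have h3 : y * F.C X y - x * F.C X x = ∫ r in x..y, (1 - (F.call X).pp F.C0 r) * (F.call X).e F.C0 r := h1
    linarith
  have hrm : ∀ v w : ℝ, 0 ≤ v → v ≤ w → w ≤ 1 → Q.r v ≤ Q.r w := by
    intro v w hv hvw hw
    rw [← hr v ⟨hv, hvw.trans hw⟩, ← hr w ⟨hv.trans hvw, hw⟩]
    exact budQ_mono hbox hρ ⟨hv, hvw.trans hw⟩ ⟨hv.trans hvw, hw⟩ hvw
  -- values of the extension
  have e0 : Q.hE g 0 = 0 := by simp [BdQ.hE, bmExt]
  have ei : ∀ v ∈ Ioo (0 : ℝ) 1, Q.hE g v = F.h g v + F.C X (Q.r v) * Q.r v := by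
    intro v hv
    simp only [BdQ.hE, bmExt, not_le.2 hv.1, hv.2, if_true, if_false]
    rfl
  have e1 : Q.hE g 1 = sSup (Q.hq g '' Ioo 0 1) := by simp [BdQ.hE, bmExt]
  -- the case `t < 1`
  have hA : ∀ s t : ℝ, 0 ≤ s → s ≤ t → t < 1 →
      Q.r t * F.C X (Q.r t) - Q.r s * F.C X (Q.r s) ≤ Q.hE g t - Q.hE g s := by
    intro s t hs hst ht
    rcases hs.eq_or_lt with rfl | hs
    · rcases hst.eq_or_lt with rfl | hst
      · simp
      · rw [e0, hr0, ei t ⟨hst, ht⟩]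
        have := hh0.nonneg t ⟨hst, ht⟩
        linarith
    · rw [ei s ⟨hs, hst.trans_lt ht⟩, ei t ⟨hs.trans_le hst, ht⟩]
      have := hh0.mono ⟨hs, hst.trans_lt ht⟩ ⟨hs.trans_le hst, ht⟩ hst
      linarith
  rcases ht.eq_or_lt with rfl | ht
  · rcases hst.eq_or_lt with rfl | hst
    · simp
    · -- limit `v → 1-`
      have hlip : LipschitzOnWith (1 / F.k X 1).toNNReal Q.r (Icc 0 1) := by
        refine LipschitzOnWith.of_dist_le_mul fun x hx y hy => ?_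
        rw [Real.dist_eq, Real.dist_eq, Real.coe_toNNReal _ (by have := hbox.kmin0; positivity), ← hr x hx, ← hr y hy]
        have := budQ_lip hbox hρ hx hy
        rw [div_eq_mul_one_div, mul_comm] at this
        exact this
      have hc1 : ContinuousWithinAt Q.r (Icc 0 1) 1 := hlip.continuousOn 1 (right_mem_Icc.2 zero_le_one)
      have hc2 : Tendsto Q.r (𝓝[<] 1) (𝓝 1) := by
        have h := hc1.mono (Ioo_subset_Icc_self)
        rw [ContinuousWithinAt, hr1, nhdsWithin_Ioo_eq_nhdsLT (zero_lt_one' ℝ)] at h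
        exact h
      have hGc : Continuous fun x : ℝ => x * F.C X x := continuous_id.mul (cm_e_cont (F.call X) F.C0)
      have hc3 : Tendsto (fun v => Q.r v * F.C X (Q.r v) - Q.r s * F.C X (Q.r s)) (𝓝[<] 1)
          (𝓝 (1 * F.C X 1 - Q.r s * F.C X (Q.r s))) := ((hGc.tendsto 1).comp hc2).sub_const _
      rw [hr1]
      refine le_of_tendsto hc3 ?_
      have hev : ∀ᶠ v in 𝓝[<] (1 : ℝ), v ∈ Ioo (max s 0) 1 :=
        Ioo_mem_nhdsLT (max_lt hst zero_lt_one)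
      filter_upwards [hev] with v hv
      have hsv : s ≤ v := (le_max_left _ _).trans hv.1.le
      have hv0 : 0 < v := (le_max_right _ _).trans_lt hv.1
      refine (hA s v hs hsv hv.2).trans ?_
      have hbd : BddAbove (Q.hq g '' Ioo 0 1) := by
        obtain ⟨C, hC⟩ := hh.bdd
        exact ⟨C, by rintro _ ⟨w, hw, rfl⟩; exact hC w hw⟩
      have : Q.hE g v ≤ Q.hE g 1 := by
        rw [e1, ei v ⟨hv0, hv.2⟩]
        exact le_csSup hbd ⟨v, ⟨hv0, hv.2⟩, rfl⟩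
      linarith
  · exact hA s t hs hst ht

/-- **(A1) line 2, sharp, radius coordinate**:  `m ∫_s^t (1-p) C · E tr H²(α r) dr ≤ S(α t) - S(α s)`.
Mirror of `exit_geo_clock_sharp` (251): `exit_clk_sus_int` on `[α s, α t]` with the density `g` of `gci_pull` (`w = (1-p)C`, continuous `≥ 0`); `h_q(t') - h_q(s') ≥ (rC)(r t') - (rC)(r s') = ∫ (1-p)C` (`cm_re_integral`,
`F.h g` nondecreasing and `≥ 0`); ends: `hE 0 = 0`, `hE 1 = sup h_q`.      `Q.al`, `Q.r`: strictly increasing, continuous, `r` Lipschitz (`kbar ≥ k(1) > 0`): `bud_dens_of_bdq` + `Bud/GeoQ.lean`. -/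
theorem bos_num_clock (hX : X.Ok) (hF : F.Ok X) (hh0 : IsClock 1 (F.h g)) (hb : IsClock 1 (Q.bq g)) (hh : IsClock 1 (Q.hq g))
    {s t : ℝ} (hs : 0 ≤ s) (hst : s ≤ t) (ht : t ≤ 1) :
    (F.m : ℝ) * ∫ x in s..t, (1 - F.pC X x) * F.C X x * (Q.bosNum g).TH (Q.al x) ≤ (Q.bosNum g).S (Q.al t) - (Q.bosNum g).S (Q.al s) := by
  obtain ⟨hρ, hal, hr⟩ := bud_dens_of_bdq X hX F hF Q
  have hbox := bud_gb_box hX hF
  have hm : 0 < F.m := by
    have := bud_gb_m_ge hF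
    exact_mod_cast (lt_of_lt_of_le one_pos this)
  have hadm : CkAdm 1 (Q.bE g) (Q.hE g) := psi_adm one_pos hb hh
  have hsub : Icc s t ⊆ Icc (0 : ℝ) 1 := Icc_subset_Icc hs ht
  have hsm : s ∈ Icc (0 : ℝ) 1 := ⟨hs, hst.trans ht⟩
  have htm : t ∈ Icc (0 : ℝ) 1 := ⟨hs.trans hst, ht⟩
  have halmem : ∀ x ∈ Icc (0 : ℝ) 1, Q.al x ∈ Icc (0 : ℝ) 1 := fun x hx => by
    rw [← hal x hx]; exact budAl_mem_Icc hbox hρ hx
  have halsm : StrictMonoOn Q.al (Icc 0 1) := fun x hx y hy hxy => by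
    rw [← hal x hx, ← hal y hy]; exact budAl_strictMonoOn hbox hρ hx hy hxy
  have halc : ContinuousOn Q.al (Icc 0 1) := (budAl_cont hbox hρ).congr fun x hx => (hal x hx).symm
  have hrmono : MonotoneOn Q.r (Icc 0 1) := fun v hv w hw hvw => by
    rw [← hr v hv, ← hr w hw]; exact budQ_mono hbox hρ hv hw hvw
  have has := halmem s hsm
  have hat := halmem t htm
  have hmono := halsm.monotoneOn
  have hsubJ : Icc (Q.al s) (Q.al t) ⊆ Icc (0 : ℝ) 1 := Icc_subset_Icc has.1 hat.2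
  have hC0 := (bud_gb_C0_pos hX hF).le
  have hd := bud_gb_d_pos hX hF
  have hlip : LipschitzOnWith (1 / F.k X 1).toNNReal Q.r (Icc (Q.al s) (Q.al t)) := by
    refine LipschitzOnWith.of_dist_le_mul fun x hx y hy => ?_
    rw [Real.dist_eq, Real.dist_eq, Real.coe_toNNReal _ (by have := hbox.kmin0; positivity), ← hr x (hsubJ hx), ← hr y (hsubJ hy)]
    have := budQ_lip hbox hρ (hsubJ hx) (hsubJ hy)
    rw [div_eq_mul_one_div, mul_comm] at this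
    exact this
  have hwc : Continuous fun r => (1 - F.pC X r) * F.C X r :=
    (continuous_const.sub (cm_pp_cont (F.call X) F.C0)).mul (cm_e_cont (F.call X) F.C0)
  have hw0 : ∀ r, 0 ≤ (1 - F.pC X r) * F.C X r := fun r =>
    mul_nonneg (cm_pp_gap_pos (F.call X) F.C0 r).le (cm_e_nonneg (F.call X) hC0 r)
  have hFi : IntervalIntegrable (fun u => ckH2 F.m 1 (Q.bE g) (Q.hE g) (ghPosA u)) volume (Q.al s) (Q.al t) := by
    refine (exit_clk_intble hm one_pos hadm).2.2.1.mono_set ?_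
    rw [uIcc_of_le (hmono hsm htm hst), uIcc_of_le zero_le_one]
    exact hsubJ
  obtain ⟨gd, hg0, hgi, hg1, hg2⟩ := gci_pull (halc.mono hsub) (halsm.mono hsub)
    (fun x hx => Q.r_al x (hsub hx)) hlip hwc hw0 hFi hst
  have hmain := exit_clk_sus_int hm one_pos hadm has.1 (hmono hsm htm hst) hat.2 gd (fun w _ => hg0 w) hgi
    (fun s' t' h1 h2 h3 => by
      have hs' : s' ∈ Icc (0 : ℝ) 1 := hsubJ ⟨h1, h2.trans h3⟩
      have ht' : t' ∈ Icc (0 : ℝ) 1 := hsubJ ⟨h1.trans h2, h3⟩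
      have e1 := Q.al_r s' hs'
      have e2 := Q.al_r t' ht'
      have hx0 : s ≤ Q.r s' := by
        have := hrmono has hs' h1
        rwa [Q.r_al s hsm] at this
      have hxy : Q.r s' ≤ Q.r t' := hrmono hs' ht' h2
      have hy1 : Q.r t' ≤ t := by
        have := hrmono ht' hat h3
        rwa [Q.r_al t htm] at this
      have h4 := hg1 (Q.r s') (Q.r t') hx0 hxy hy1
      rw [e1, e2] at h4
      have h5 : Q.r t' * F.C X (Q.r t') - Q.r s' * F.C X (Q.r s') = ∫ ρ in Q.r s'..Q.r t', (1 - F.pC X ρ) * F.C X ρ :=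
        cm_re_integral (F.call X) hd hC0 (hs.trans hx0) hxy
      rw [h4, ← h5]
      exact bos_num_hgain hX hF hh0 hh hs'.1 h2 ht'.2)
  rw [hg2] at hmain
  have hcl : ∀ r ∈ Icc s t, cmkCl (Q.al r) = Q.al r := fun r hr => by
    have hm := halmem r (hsub hr)
    exact gci_cl hm.1 hm.2
  have e1 : ∫ r in s..t, (1 - F.pC X r) * F.C X r * (Q.bosNum g).TH (Q.al r)
      = ∫ r in s..t, (1 - F.pC X r) * F.C X r * ckH2 F.m 1 (Q.bE g) (Q.hE g) (ghPosA (Q.al r)) := by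
    refine intervalIntegral.integral_congr fun r hr => ?_
    rw [uIcc_of_le hst] at hr
    show _ * ckH2 F.m 1 (Q.bE g) (Q.hE g) (ghPosA (cmkCl (Q.al r))) = _
    rw [hcl r hr]
  rw [e1]
  show _ ≤ skCS F.m 1 (Q.bE g) (Q.hE g) (ghPosA (cmkCl (Q.al t))) - skCS F.m 1 (Q.bE g) (Q.hE g) (ghPosA (cmkCl (Q.al s)))
  rw [hcl t ⟨hst, le_rfl⟩, hcl s ⟨le_rfl, hst⟩]
  exact hmain

end num

/-! ## 2. PRODUCER of `BosGeo` -/

/-- two maximal caps which share a point coincide -/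
theorem bos_cap_unique {gg : BudGeo} {a b a' b' x : ℝ} (hL : gg.CapL a b) (hR : gg.CapR a b) (hL' : gg.CapL a' b') (hR' : gg.CapR a' b')
    (hx : x ∈ Ioo a b) (hx' : x ∈ Ioo a' b') : a = a' ∧ b = b' := by
  have key : ∀ {a b a' b' : ℝ}, gg.CapL a b → gg.CapR a b → gg.CapL a' b' → gg.CapR a' b' → x ∈ Ioo a b → x ∈ Ioo a' b' → a ≤ a' ∧ b' ≤ b := by
    intro a b a' b' hL hR hL' hR' hx hx'
    constructor
    · by_contra hcon
      push Not at hcon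
      rcases hL.2.2.2.2 with h0 | h0
      · have := hL'.2.2.2.1 a ⟨hcon, hx.1.trans hx'.2⟩
        linarith
      · have := hL'.1
        linarith
    · by_contra hcon
      push Not at hcon
      rcases hR.2.2.2.2 with h0 | h0
      · have := hL'.2.2.2.1 b ⟨hx'.1.trans hx.2, hcon⟩
        linarith
      · have := hL'.2.2.1
        linarith
  have h1 := key hL hR hL' hR' hx hx'
  have h2 := key hL' hR' hL hR hx' hx
  exact ⟨le_antisymm h1.1 h2.1, le_antisymm h2.2 h1.2⟩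

/-- the caps = the components of `{H < 0}`, enumerated (degenerate intervals pad the list).      `H` is continuous on `[0,1]` (`BudGeo.H_cont`); components: `BudGeo.exists_cap`, `ffc_component`; countability: disjoint
open intervals contain distinct rationals. -/
theorem bos_caps_enum {gg : BudGeo} (hg : gg.Ok) :
    ∃ cL cR : ℕ → ℝ, (∀ i, cL i ≤ cR i ∧ 0 ≤ cL i ∧ cR i ≤ 1) ∧
      (Pairwise fun i j => Disjoint (Ioo (cL i) (cR i)) (Ioo (cL j) (cR j))) ∧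
      (⋃ i, Ioo (cL i) (cR i)) = {x | x ∈ Ioo (0 : ℝ) 1 ∧ gg.H x < 0} ∧
      ∀ i, cL i < cR i → gg.CapL (cL i) (cR i) ∧ gg.CapR (cL i) (cR i) := by
  classical
  set s : Set ℝ := {a | ∃ b, gg.CapL a b ∧ gg.CapR a b} with hs
  let y : ℝ → ℝ := fun a => if h : ∃ b, gg.CapL a b ∧ gg.CapR a b then h.choose else a
  have hy : ∀ a ∈ s, gg.CapL a (y a) ∧ gg.CapR a (y a) := by
    intro a ha
    have ha' : ∃ b, gg.CapL a b ∧ gg.CapR a b := ha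
    simp only [y, dif_pos ha']
    exact ha'.choose_spec
  have hdisj : s.PairwiseDisjoint fun a => Ioo a (y a) := by
    intro a ha a' ha' hne
    rw [Function.onFun, Set.disjoint_left]
    intro x hx hx'
    exact hne (bos_cap_unique (hy a ha).1 (hy a ha).2 (hy a' ha').1 (hy a' ha').2 hx hx').1
  have hcount : s.Countable := hdisj.countable_of_Ioo fun a ha => (hy a ha).1.2.1
  letI : Encodable s := hcount.toEncodable
  let cL : ℕ → ℝ := fun i => (Encodable.decode₂ s i).elim 0 fun a => a.1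
  let cR : ℕ → ℝ := fun i => (Encodable.decode₂ s i).elim 0 fun a => y a.1
  have hcap : ∀ i, cL i < cR i → ∃ a : s, Encodable.decode₂ s i = some a ∧ cL i = a.1 ∧ cR i = y a.1 := by
    intro i hi
    rcases h : Encodable.decode₂ s i with _ | a
    · simp [cL, cR, h] at hi
    · exact ⟨a, rfl, by simp [cL, h], by simp [cR, h]⟩
  refine ⟨cL, cR, ?_, ?_, ?_, ?_⟩
  · intro i
    rcases h : Encodable.decode₂ s i with _ | a
    · simp [cL, cR, h]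
    · have := hy a.1 a.2
      simp only [cL, cR, h, Option.elim_some]
      exact ⟨this.1.2.1.le, this.1.1, this.1.2.2.1⟩
  · intro i j hij
    rw [Set.disjoint_left]
    intro x hx hx'
    obtain ⟨a, ha, e1, e2⟩ := hcap i (hx.1.trans hx.2)
    obtain ⟨a', ha', e1', e2'⟩ := hcap j (hx'.1.trans hx'.2)
    rw [e1, e2] at hx
    rw [e1', e2'] at hx'
    have := (bos_cap_unique (hy a.1 a.2).1 (hy a.1 a.2).2 (hy a'.1 a'.2).1 (hy a'.1 a'.2).2 hx hx').1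
    have haa : a = a' := Subtype.ext this
    rw [Encodable.decode₂_eq_some] at ha ha'
    exact hij (by rw [← ha, ← ha', haa])
  · ext x
    simp only [mem_iUnion]
    constructor
    · rintro ⟨i, hx⟩
      obtain ⟨a, ha, e1, e2⟩ := hcap i (hx.1.trans hx.2)
      rw [e1, e2] at hx
      have := hy a.1 a.2
      exact ⟨⟨this.1.1.trans_lt hx.1, hx.2.trans_le this.1.2.2.1⟩, this.1.2.2.2.1 x hx⟩
    · rintro ⟨hx, hH⟩
      obtain ⟨a, b, hax, hxb, hL, hR⟩ := BudGeo.exists_cap hg (Ioo_subset_Icc_self hx) hH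
      have has : a ∈ s := ⟨b, hL, hR⟩
      have hax' : a < x := by
        rcases hax.eq_or_lt with h | h
        · rcases hL.2.2.2.2 with h0 | h0
          · rw [h] at h0; linarith
          · rw [← h, h0] at hx; exact absurd hx.1 (lt_irrefl _)
        · exact h
      have hxb' : x < b := by
        rcases hxb.eq_or_lt with h | h
        · rcases hR.2.2.2.2 with h0 | h0
          · rw [← h] at h0; linarith
          · rw [h, h0] at hx; exact absurd hx.2 (lt_irrefl _)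
        · exact h
      -- the chosen right end coincides with b
      have hyb : y a = b := by
        have h1 := hy a has
        have hm : min (y a) b > a := lt_min h1.1.2.1 hL.2.1
        have hz : (a + min (y a) b) / 2 ∈ Ioo a (min (y a) b) := ⟨by linarith, by linarith⟩
        exact (bos_cap_unique h1.1 h1.2 hL hR ⟨hz.1, hz.2.trans_le (min_le_left _ _)⟩ ⟨hz.1, hz.2.trans_le (min_le_right _ _)⟩).2
      refine ⟨Encodable.encode (⟨a, has⟩ : s), ?_⟩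
      simp only [cL, cR, Encodable.encodek₂, Option.elim_some]
      rw [hyb]
      exact ⟨hax', hxb'⟩
  · intro i hi
    obtain ⟨a, ha, e1, e2⟩ := hcap i hi
    rw [e1, e2]
    exact hy a.1 a.2

theorem bos_alG_eq (gg : BudGeo) {x : ℝ} (hx : x ∈ Icc (0 : ℝ) 1) : bosAlG gg x = gg.al x := by
  rw [bosAlG, bos_clamp_eq hx]

theorem bos_rG_eq (gg : BudGeo) {x : ℝ} (hx : x ∈ Icc (0 : ℝ) 1) : bosRG gg x = budQ gg.ρ x := by
  rw [bosRG, bos_clamp_eq hx]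

theorem bos_alG_cont {gg : BudGeo} (hg : gg.Ok) {kmin : ℝ} (hB : BudBoxOk gg.kb gg.M kmin) : Continuous (bosAlG gg) :=
  (budAl_cont hB hg.dens).comp_continuous (continuous_const.max (continuous_id.min continuous_const)) bos_clamp_mem

/-- the floor set is measurable -/
theorem bos_fl_meas {gg : BudGeo} (hg : gg.Ok) : MeasurableSet {x | x ∈ Icc (0 : ℝ) 1 ∧ 0 < gg.H x} := by
  obtain ⟨U, hU, hUeq⟩ := (continuousOn_iff'.1 (BudGeo.H_cont hg)) (Ioi 0) isOpen_Ioi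
  have : {x | x ∈ Icc (0 : ℝ) 1 ∧ 0 < gg.H x} = U ∩ Icc 0 1 := by
    rw [← hUeq]
    ext x
    simp only [mem_setOf_eq, mem_inter_iff, mem_preimage, mem_Ioi]
    tauto
  rw [this]
  exact hU.measurableSet.inter measurableSet_Icc

/-- the floor density: `∫_{α(Fl ∩ [s,t])} F du = ∫_{Fl ∩ [s,t]} F(α x) ρ(x) dx` (`bud_map`/`bud_cov`) and `ρ = kb` a.e. on `{H > 0}` (`BudGeo.Ok.floor`) -/
theorem bos_fl_dens_of_bud {gg : BudGeo} (hg : gg.Ok) {kmin : ℝ} (hB : BudBoxOk gg.kb gg.M kmin)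
    (F : ℝ → ℝ) (hF : Measurable F) (hF0 : ∀ u, 0 ≤ F u) (hFb : ∃ B : ℝ, ∀ u, F u ≤ B) {s t : ℝ} (hs : 0 ≤ s) (hst : s ≤ t) (ht : t ≤ 1) :
    ∫ u in bosAlG gg '' ({x | x ∈ Icc (0 : ℝ) 1 ∧ 0 < gg.H x} ∩ Icc s t), F u ≤ ∫ x in s..t, F (bosAlG gg x) * gg.kb x := by
  obtain ⟨B, hFB⟩ := hFb
  set A : Set ℝ := {x | x ∈ Icc (0 : ℝ) 1 ∧ 0 < gg.H x} ∩ Icc s t with hA
  have hAm : MeasurableSet A := (bos_fl_meas hg).inter measurableSet_Icc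
  have hA01 : A ⊆ Icc (0 : ℝ) 1 := fun x hx => hx.1.1
  have hcont := bos_alG_cont hg hB
  have hinj : InjOn (bosAlG gg) (Icc (0 : ℝ) 1) := by
    intro x hx y hy hxy
    rw [bos_alG_eq gg hx, bos_alG_eq gg hy] at hxy
    exact (budAl_strictMonoOn hB hg.dens).injOn hx hy hxy
  set E : Set ℝ := bosAlG gg '' A with hE
  have hEm : MeasurableSet E := hAm.image_of_continuousOn_injOn hcont.continuousOn (hinj.mono hA01)
  have hE01 : E ⊆ Icc (0 : ℝ) 1 := by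
    rintro _ ⟨x, hx, rfl⟩
    rw [bos_alG_eq gg (hA01 hx)]
    exact budAl_mem_Icc hB hg.dens (hA01 hx)
  have hF'm : Measurable (E.indicator F) := hF.indicator hEm
  have hF'i : IntegrableOn (E.indicator F) (Ioo 0 1) := by
    refine Measure.integrableOn_of_bounded (M := B) (by simp) hF'm.aestronglyMeasurable ?_
    refine Eventually.of_forall fun u => ?_
    rw [Real.norm_eq_abs, abs_of_nonneg (indicator_nonneg (fun u _ => hF0 u) u)]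
    exact (indicator_le_self' (fun u _ => hF0 u) u).trans (hFB u)
  obtain ⟨-, hcov⟩ := bud_cov hB hg.dens _ hF'i
  have e1 : ∫ u in E, F u = ∫ u in Ioo (0 : ℝ) 1, E.indicator F u := by
    rw [← integral_indicator hEm, ← integral_Icc_eq_integral_Ioo]
    symm
    refine setIntegral_eq_integral_of_forall_compl_eq_zero fun u hu => ?_
    exact indicator_of_notMem (fun h => hu (hE01 h)) _
  have e2 : ∫ r in Ioo (0 : ℝ) 1, E.indicator F (budAl gg.ρ r) * gg.ρ r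
      = ∫ r in Ioo (0 : ℝ) 1, A.indicator (fun r => F (bosAlG gg r) * gg.kb r) r := by
    refine integral_congr_ae ?_
    rw [EventuallyEq, ae_restrict_iff' measurableSet_Ioo]
    filter_upwards [hg.floor] with r hfl hr
    have hr' := Ioo_subset_Icc_self hr
    have hal : budAl gg.ρ r = bosAlG gg r := (bos_alG_eq gg hr').symm
    by_cases hrA : r ∈ A
    · rw [indicator_of_mem hrA, hal, indicator_of_mem (mem_image_of_mem _ hrA), hfl hr hrA.1.2]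
    · rw [indicator_of_notMem hrA, hal, indicator_of_notMem, zero_mul]
      rintro ⟨x, hx, hxr⟩
      exact hrA (hinj (hA01 hx) hr' hxr ▸ hx)
  have hint : IntegrableOn (fun r => F (bosAlG gg r) * gg.kb r) (Icc s t) := by
    refine Measure.integrableOn_of_bounded (M := B * gg.M) (by simp) ((hF.comp hcont.measurable).mul hB.kbm).aestronglyMeasurable ?_
    refine Eventually.of_forall fun u => ?_
    rw [Real.norm_eq_abs, abs_of_nonneg (mul_nonneg (hF0 _) (hg.kb0 _))]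
    exact mul_le_mul (hFB _) (hB.kb_le _) (hg.kb0 _) ((hF0 0).trans (hFB 0))
  rw [e1, hcov, e2, setIntegral_indicator hAm, intervalIntegral.integral_of_le hst, ← integral_Icc_eq_integral_Ioc]
  refine setIntegral_mono_set hint (Eventually.of_forall fun r => mul_nonneg (hF0 _) (hg.kb0 _)) ?_
  exact HasSubset.Subset.eventuallyLE fun r hr => hr.2.2

theorem bos_rG_meas {gg : BudGeo} (hg : gg.Ok) {kmin : ℝ} (hB : BudBoxOk gg.kb gg.M kmin) : Measurable (bosRG gg) := by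
  have : Monotone (bosRG gg) := by
    intro u v huv
    exact budQ_mono hB hg.dens (bos_clamp_mem u) (bos_clamp_mem v) (max_le_max le_rfl (min_le_min huv le_rfl))
  exact this.measurable

/-- the good contact set is measurable -/
theorem bos_ct_meas {gg : BudGeo} (hg : gg.Ok) :
    MeasurableSet {x | x ∈ Ioo (0 : ℝ) 1 ∧ gg.H x = 0 ∧ budBr (gg.p x) x (gg.S x) (gg.B x) = 0} := by
  have h1 : MeasurableSet (Icc (0 : ℝ) 1 ∩ gg.H ⁻¹' {0}) :=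
    ((BudGeo.H_cont hg).preimage_isClosed_of_isClosed isClosed_Icc isClosed_singleton).measurableSet
  have h2 : Measurable fun x => budBr (gg.p x) x (gg.S x) (gg.B x) := by
    unfold budBr
    exact (((measurable_const.sub hg.pm).mul measurable_id).sub ((measurable_const.mul (measurable_const.sub hg.pm)).mul hg.Sm)).sub
      ((hg.pm.mul hg.Bm).div measurable_id)
  have h3 : MeasurableSet {x | budBr (gg.p x) x (gg.S x) (gg.B x) = 0} := h2 (measurableSet_singleton 0)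
  have : {x | x ∈ Ioo (0 : ℝ) 1 ∧ gg.H x = 0 ∧ budBr (gg.p x) x (gg.S x) (gg.B x) = 0}
      = Ioo (0 : ℝ) 1 ∩ ((Icc (0 : ℝ) 1 ∩ gg.H ⁻¹' {0}) ∩ {x | budBr (gg.p x) x (gg.S x) (gg.B x) = 0}) := by
    ext x
    constructor
    · rintro ⟨a, b, c⟩
      exact ⟨a, ⟨Ioo_subset_Icc_self a, b⟩, c⟩
    · rintro ⟨a, ⟨-, b⟩, c⟩
      exact ⟨a, b, c⟩
  rw [this]
  exact measurableSet_Ioo.inter (h1.inter h3)

/-- **PRODUCER: `BudGeo.Ok` + numbers + clock ⟹ `BosGeo`.**   `Z.cL, Z.cR` of `bos_caps_enum`, `Z.Fl = {H > 0}`, `Z.Ct = {x ∈ (0,1) : H x = 0 ∧ bracket = 0}`.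
Fields: `lo hi` `al_bounds`; `cap_eq` `al_cap`; `fl_dens` above; `cover` `contact_ae`; `ct_le ct_mis` bracket algebra (as in `contact_ae'`); `ct_two` `contact_pair` (`2 + 2 x2/x1 ≤ 6`, `(1-p)⁻¹ ≤ Lp`);
`cap_dS` `cap_dS`; `cap_Sle` `cap_S_le`; `cap_mis` `cap_S_le` + `cap_sub_S_le`; quantile: `budQ_*` (`Bud/GeoQ.lean`). -/
theorem bos_geo_of_bud {gg : BudGeo} (hg : gg.Ok) {kmin : ℝ} (hB : BudBoxOk gg.kb gg.M kmin) {ef : ℝ → ℝ} {cn Lp : ℝ} {Xn : CmNum} (hX : Xn.Ok)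
    (hLp1 : 1 ≤ Lp) (hcn : 0 < cn) (hefm : Measurable ef) (hef0 : ∀ t ∈ Icc (0 : ℝ) 1, 0 ≤ ef t) (hefB : ∃ B : ℝ, ∀ t ∈ Icc (0 : ℝ) 1, ef t ≤ B)
    (hS : ∀ x ∈ Ioo (0 : ℝ) 1, Xn.S (gg.al x) = gg.S x) (hD : ∀ x ∈ Ioo (0 : ℝ) 1, Xn.D (gg.al x) ^ 2 = gg.B x - gg.S x ^ 2)
    (hLp : ∀ x ∈ Icc (0 : ℝ) 1, 1 ≤ Lp * (1 - gg.p x))
    (hclock : ∀ s t : ℝ, 0 ≤ s → s ≤ t → t ≤ 1 → cn * ∫ x in s..t, ef x * Xn.TH (gg.al x) ≤ Xn.S (gg.al t) - Xn.S (gg.al s)) :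
    ∃ Z : CmCaps, BosGeo (bosAlG gg) (bosRG gg) gg.kb ef gg.M cn Lp Xn Z ∧ Z.Fl = {x | x ∈ Icc (0 : ℝ) 1 ∧ 0 < gg.H x} := by
  obtain ⟨cL, cR, hc1, hcd, hcU, hcap⟩ := bos_caps_enum hg
  have hLp0 : 0 < Lp := zero_lt_one.trans_le hLp1
  have hin : ∀ i, ∀ x ∈ Ioo (cL i) (cR i), x ∈ Ioo (0 : ℝ) 1 ∧ gg.H x < 0 := by
    intro i x hx
    have : x ∈ ⋃ i, Ioo (cL i) (cR i) := mem_iUnion.2 ⟨i, hx⟩
    rw [hcU] at this
    exact this
  have e01 : ∀ {x : ℝ}, x ∈ Icc (0 : ℝ) 1 → bosAlG gg x = gg.al x := fun hx => bos_alG_eq gg hx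
  have hSx : ∀ x ∈ Ioo (0 : ℝ) 1, Xn.S (bosAlG gg x) = gg.S x := fun x hx => by rw [e01 (Ioo_subset_Icc_self hx), hS x hx]
  have hDx : ∀ x ∈ Ioo (0 : ℝ) 1, Xn.D (bosAlG gg x) ^ 2 = gg.B x - gg.S x ^ 2 := fun x hx => by rw [e01 (Ioo_subset_Icc_self hx), hD x hx]
  have hDnn : ∀ x ∈ Ioo (0 : ℝ) 1, 0 ≤ Xn.D (bosAlG gg x) := fun x hx => by
    rw [e01 (Ioo_subset_Icc_self hx)]
    exact hX.D_nn _ (budAl_mem_Icc hB hg.dens (Ioo_subset_Icc_self hx))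
  have hDe : ∀ x ∈ Ioo (0 : ℝ) 1, Xn.D (bosAlG gg x) = gg.D x := fun x hx => by
    rw [BudGeo.D, ← hDx x hx, Real.sqrt_sq (hDnn x hx)]
  refine ⟨⟨cL, cR, {x | x ∈ Icc (0 : ℝ) 1 ∧ 0 < gg.H x},
    {x | x ∈ Ioo (0 : ℝ) 1 ∧ gg.H x = 0 ∧ budBr (gg.p x) x (gg.S x) (gg.B x) = 0}⟩, ?_, rfl⟩
  refine
    { M1 := hg.M1, Lp1 := hLp1, cn0 := hcn, al_meas := (bos_alG_cont hg hB).measurable, r_meas := bos_rG_meas hg hB
      al_zero := ?_, al_one := ?_, kb_meas := hB.kbm, kb_pos := ⟨kmin, hB.kmin0, fun t _ => hB.kb_ge t⟩, kb_le := fun t _ => hB.kb_le t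
      lo := ?_, hi := ?_, r_mem := ?_, al_r := ?_, r_al := ?_, ef_meas := hefm, ef_nn := hef0, ef_le := hefB
      cap_le := fun i => (hc1 i).1, cap_lo := fun i => (hc1 i).2.1, cap_hi := fun i => (hc1 i).2.2, cap_disj := hcd
      cap_eq := ?_, fl_meas := bos_fl_meas hg, fl_sub := fun x hx => hx.1
      fl_dens := fun F hF hF0 hFb s t hs hst ht => bos_fl_dens_of_bud hg hB F hF hF0 hFb hs hst ht
      ct_meas := bos_ct_meas hg, ct_sub := fun x hx => Ioo_subset_Ioc_self hx.1, ct_disj := ?_, cover := ?_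
      ct_le := ?_, ct_mis := ?_, ct_two := ?_, cap_dS := ?_, cap_Sle := ?_, cap_mis := ?_, clock := ?_ }
  · rw [e01 ⟨le_rfl, zero_le_one⟩]; exact BudGeo.al_zero hg
  · rw [e01 ⟨zero_le_one, le_rfl⟩]; exact BudGeo.al_one hg
  · intro s t hs hst ht
    rw [e01 ⟨hs, hst.trans ht⟩, e01 ⟨hs.trans hst, ht⟩]
    exact (BudGeo.al_bounds hg hs hst ht).1
  · intro s t hs hst ht
    rw [e01 ⟨hs, hst.trans ht⟩, e01 ⟨hs.trans hst, ht⟩]
    exact (BudGeo.al_bounds hg hs hst ht).2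
  · intro u hu
    rw [bos_rG_eq gg hu]
    exact budQ_mem_Icc hB hg.dens hu
  · intro u hu
    rw [bos_rG_eq gg hu, e01 (budQ_mem_Icc hB hg.dens hu)]
    exact budAl_Q hB hg.dens hu
  · intro t ht
    have hm : gg.al t ∈ Icc (0 : ℝ) 1 := budAl_mem_Icc hB hg.dens ht
    rw [e01 ht, bos_rG_eq gg hm]
    exact budQ_al hB hg.dens ht
  · intro i s t h1 h2 h3
    have hs0 : 0 ≤ s := (hc1 i).2.1.trans h1
    have ht1 : t ≤ 1 := h3.trans (hc1 i).2.2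
    rw [e01 ⟨hs0, h2.trans ht1⟩, e01 ⟨hs0.trans h2, ht1⟩]
    exact BudGeo.al_cap hg hs0 h2 ht1 fun r hr => (hin i r ⟨h1.trans_lt hr.1, hr.2.trans_le h3⟩).2
  · rw [Set.disjoint_left]
    intro x hx hx'
    obtain ⟨i, hi⟩ := mem_iUnion.1 hx'
    have := (hin i x hi).2
    rw [hx.2.1] at this
    exact lt_irrefl _ this
  · have hnull : volume ({0, 1} ∪ {r : ℝ | ¬ (r ∈ Ioo (0:ℝ) 1 → gg.H r = 0 → budBr (gg.p r) r (gg.S r) (gg.B r) = 0)}) = 0 :=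
      measure_union_null ((Set.toFinite ({0, 1} : Set ℝ)).measure_zero _) (ae_iff.1 (BudGeo.contact_ae hg))
    refine measure_mono_null ?_ hnull
    rintro x ⟨hx, hxn⟩
    by_cases h0 : x = 0
    · left; simp [h0]
    by_cases h1 : x = 1
    · left; simp [h1]
    right
    have hxo : x ∈ Ioo (0 : ℝ) 1 := ⟨lt_of_le_of_ne hx.1 (Ne.symm h0), lt_of_le_of_ne hx.2 h1⟩
    intro hcon
    apply hxn
    rcases lt_trichotomy (gg.H x) 0 with h | h | h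
    · left; left
      show x ∈ ⋃ i, Ioo (cL i) (cR i)
      rw [hcU]
      exact ⟨hxo, h⟩
    · right
      exact ⟨hxo, h, hcon hxo h⟩
    · left; right
      exact ⟨hx, h⟩
  · intro x hx
    have hx' := Ioo_subset_Icc_self hx.1
    rw [hSx x hx.1]
    exact (budBr_zero hx.1.1 (hg.p0 x hx') (hg.p1 x hx') (hg.S0 x hx') (hg.SB x hx') hx.2.2).1
  · intro x hx
    have hx' := Ioo_subset_Icc_self hx.1
    rw [hSx x hx.1, hDx x hx.1]
    have := (budBr_zero hx.1.1 (hg.p0 x hx') (hg.p1 x hx') (hg.S0 x hx') (hg.SB x hx') hx.2.2).2.1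
    nlinarith
  · intro x1 h1 x2 h2 h12 h21
    rw [hSx x1 h1.1, hSx x2 h2.1]
    have hp := BudGeo.contact_pair hg h1.1.1 h12.le h2.1.2.le h1.2.2 h2.2.2
    have hm := hg.Smono (Ioo_subset_Icc_self h1.1) (Ioo_subset_Icc_self h2.1) h12.le
    have hL := hLp x2 (Ioo_subset_Icc_self h2.1)
    have hq : x2 / x1 ≤ 2 := by rw [div_le_iff₀ h1.1.1]; exact h21
    have h6 : (x2 - x1) * (2 + 2 * x2 / x1) ≤ (x2 - x1) * 6 := by
      refine mul_le_mul_of_nonneg_left ?_ (sub_nonneg.2 h12.le)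
      rw [mul_div_assoc]; linarith
    have hd : 0 ≤ gg.S x2 - gg.S x1 := sub_nonneg.2 hm
    calc gg.S x2 - gg.S x1 ≤ (Lp * (1 - gg.p x2)) * (gg.S x2 - gg.S x1) := le_mul_of_one_le_left hd hL
      _ = Lp / 2 * (2 * (1 - gg.p x2) * (gg.S x2 - gg.S x1)) := by ring
      _ ≤ Lp / 2 * ((x2 - x1) * 6) := mul_le_mul_of_nonneg_left (hp.trans h6) (by positivity)
      _ = 3 * Lp * (x2 - x1) := by ring
  · intro i s t h1 h2 h3
    have hlt : cL i < cR i := h1.trans_le (h2.trans h3.le)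
    obtain ⟨hl, hr⟩ := hcap i hlt
    have hs : s ∈ Ioo (cL i) (cR i) := ⟨h1, h2.trans_lt h3⟩
    have ht : t ∈ Ioo (cL i) (cR i) := ⟨h1.trans_le h2, h3⟩
    rw [hSx s (hin i s hs).1, hSx t (hin i t ht).1]
    have hb : cR i ∈ Icc (0 : ℝ) 1 := ⟨(hc1 i).2.1.trans (hc1 i).1, (hc1 i).2.2⟩
    have hL := hLp _ hb
    have hp1 : 0 < 1 - gg.p (cR i) := sub_pos.2 (hg.p1 _ hb)
    refine (BudGeo.cap_dS hg hl hr hs ht h2).trans ?_
    rw [div_le_iff₀ hp1]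
    show 3 * (cR i - cL i) ≤ 3 * Lp * (cR i - cL i) * (1 - gg.p (cR i))
    have : 0 ≤ cR i - cL i := sub_nonneg.2 hlt.le
    nlinarith
  · intro i x hx
    obtain ⟨hl, hr⟩ := hcap i (hx.1.trans hx.2)
    rw [hSx x (hin i x hx).1]
    exact BudGeo.cap_S_le hg hr hx
  · intro i x hx
    obtain ⟨hl, hr⟩ := hcap i (hx.1.trans hx.2)
    have hxo := (hin i x hx).1
    rw [hSx x hxo, hDe x hxo]
    have h1 := BudGeo.cap_S_le hg hr hx
    have h2 := BudGeo.cap_sub_S_le hg hl hx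
    have h3 : 0 ≤ gg.D x := Real.sqrt_nonneg _
    show |gg.S x - x| ≤ gg.D x + (cR i - cL i)
    rw [abs_le]
    constructor
    · linarith
    · linarith [hx.1]
  · intro s t hs hst ht
    rw [e01 ⟨hs, hst.trans ht⟩, e01 ⟨hs.trans hst, ht⟩]
    have : ∫ x in s..t, ef x * Xn.TH (bosAlG gg x) = ∫ x in s..t, ef x * Xn.TH (gg.al x) := by
      refine intervalIntegral.integral_congr fun x hx => ?_
      rw [uIcc_of_le hst] at hx
      show ef x * Xn.TH (bosAlG gg x) = ef x * Xn.TH (gg.al x)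
      rw [e01 ⟨hs.trans hx.1, hx.2.trans ht⟩]
    rw [this]
    exact hclock s t hs hst ht

/-- the logarithmic factor: `1 ≤ L`, `(1-p)⁻¹ ≤ L` on `[0,1]`   (`cm_p_gap_eq`, `C0 x/d³ ≤ C0/d³`) -/
theorem bos_Lp_gap (X : BdFix) (hX : X.Ok) (F : BdFr) (hF : F.Ok X) :
    1 ≤ F.bosLp X ∧ ∀ x ∈ Icc (0 : ℝ) 1, 1 ≤ F.bosLp X * (1 - F.pC X x) := by
  have hT : (1 : ℝ) ≤ max 1 (F.C0 / F.dPE X ^ 3) := le_max_left _ _
  have hlog : 0 ≤ Real.log (max 1 (F.C0 / F.dPE X ^ 3)) := Real.log_nonneg hT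
  have hL : 1 ≤ F.bosLp X := by unfold BdFr.bosLp; linarith
  refine ⟨hL, fun x hx => ?_⟩
  have hC0 := (bud_gb_C0_pos hX hF).le
  have hd := bud_gb_d_pos hX hF
  have hd3 : 0 < F.dPE X ^ 3 := pow_pos hd 3
  have ht : F.C0 * x / F.dPE X ^ 3 ≤ max 1 (F.C0 / F.dPE X ^ 3) := by
    refine le_trans ?_ (le_max_right _ _)
    exact div_le_div_of_nonneg_right (mul_le_of_le_one_right hC0 hx.2) hd3.le
  have h1 : 1 / F.bosLp X ≤ 1 - F.pC X x := cm_p_gap_of_le ht hT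
  have hL0 : 0 < F.bosLp X := by linarith
  calc (1 : ℝ) = F.bosLp X * (1 / F.bosLp X) := by field_simp
    _ ≤ F.bosLp X * (1 - F.pC X x) := mul_le_mul_of_nonneg_left h1 hL0.le

/-- the logarithmic factor is subpolynomial: `C0/d³ = 1/(cd³ u) ≤ CU/(cd³ x)` -/
theorem bos_Lp_sub (X : BdFix) (hX : X.Ok) (ε : ℝ) (hε : 0 < ε) :
    ∃ (Cl : ℝ) (N0 : ℕ), 0 < Cl ∧ ∀ F : BdFr, F.Ok X → N0 ≤ F.N → F.bosLp X ≤ Cl * F.x ^ (-ε) := by
  obtain ⟨A, hA⟩ : ∃ A : ℝ, A = X.CU / X.cd ^ 3 := ⟨_, rfl⟩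
  have hA0 : 0 < A := by rw [hA]; exact div_pos hX.CU_pos (pow_pos hX.cd_pos 3)
  refine ⟨1 + (1 + A) ^ ε / ε, 0, by positivity, fun F hF _ => ?_⟩
  have hx0 := BdFr.bds_x_pos hF
  have hx1 := BdFr.bds_x_lt_one hF
  have hu0 := BdFr.bds_u_pos hF hX
  have hl0 := BdFr.bds_lam_pos hF
  have hl1 := BdFr.bds_lam_lt_one hF hX
  have hC0 := bud_gb_C0_pos hX hF
  have hsS : 0 ≤ X.sS := by
    have := hX.tau_le; unfold BdFix.sS; linarith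
  -- `x ≤ CU u`
  have hxu : F.x ≤ X.CU * F.u := by
    refine le_trans ?_ hF.u_lo
    unfold BdFr.U
    have : 1 ≤ F.lam ^ (-(X.sS / 2)) := Real.one_le_rpow_of_pos_of_le_one_of_nonpos hl0 hl1.le (by linarith)
    exact le_mul_of_one_le_right hx0.le this
  have harg : F.C0 / F.dPE X ^ 3 ≤ A / F.x := by
    rw [bud_gb_d_cube hF, hA, div_div, div_le_div_iff₀ (by have := hX.cd_pos; positivity) (by have := hX.cd_pos; positivity)]
    have h3 : 0 < X.cd ^ 3 := pow_pos hX.cd_pos 3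
    have : F.C0 * X.cd ^ 3 * F.x ≤ F.C0 * X.cd ^ 3 * (X.CU * F.u) := mul_le_mul_of_nonneg_left hxu (by positivity)
    nlinarith
  have hmax : max 1 (F.C0 / F.dPE X ^ 3) ≤ (1 + A) / F.x := by
    apply max_le
    · rw [le_div_iff₀ hx0]; linarith
    · refine harg.trans ?_
      exact div_le_div_of_nonneg_right (by linarith) hx0.le
  have hm0 : (0 : ℝ) ≤ max 1 (F.C0 / F.dPE X ^ 3) := le_trans zero_le_one (le_max_left _ _)
  have h1 : Real.log (max 1 (F.C0 / F.dPE X ^ 3)) ≤ (max 1 (F.C0 / F.dPE X ^ 3)) ^ ε / ε := Real.log_le_rpow_div hm0 hε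
  have h2 : (max 1 (F.C0 / F.dPE X ^ 3)) ^ ε ≤ (1 + A) ^ ε * F.x ^ (-ε) := by
    calc (max 1 (F.C0 / F.dPE X ^ 3)) ^ ε ≤ ((1 + A) / F.x) ^ ε := Real.rpow_le_rpow hm0 hmax hε.le
      _ = (1 + A) ^ ε * F.x ^ (-ε) := by
          rw [Real.div_rpow (by linarith) hx0.le, Real.rpow_neg hx0.le, div_eq_mul_inv]
  have h3 : 1 ≤ F.x ^ (-ε) := Real.one_le_rpow_of_pos_of_le_one_of_nonpos hx0 hx1.le (by linarith)
  unfold BdFr.bosLp
  calc 1 + Real.log (max 1 (F.C0 / F.dPE X ^ 3)) ≤ F.x ^ (-ε) + (1 + A) ^ ε * F.x ^ (-ε) / ε := by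
        have := div_le_div_of_nonneg_right h2 hε.le
        linarith
    _ = (1 + (1 + A) ^ ε / ε) * F.x ^ (-ε) := by ring

section inst

variable {X : BdFix} {W : BdWorld} {K : BcsK} {Cr : ℝ}

/-- dictionary on `[0,1]`: the frozen maps of the geometry datum are the maps of the optimiser (`bud_n4_al`, `bud_dens_of_bdq`) -/
theorem bos_dict0 (hX : X.Ok) {I : BcsIn X} (hF : I.F.Ok X) :
    (∀ x ∈ Icc (0 : ℝ) 1, bosAlG (I.geo W) x = I.Q.al x) ∧ (∀ v ∈ Icc (0 : ℝ) 1, bosRG (I.geo W) v = I.Q.r v) := by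
  obtain ⟨_, _, h3⟩ := bud_dens_of_bdq X hX I.F hF I.Q
  refine ⟨fun x hx => ?_, fun v hv => ?_⟩
  · unfold bosAlG
    rw [bud_gb_clamp_eq hx]
    exact bud_n4_al X hX I.F hF I.Q W I.g I.c0 hx
  · unfold bosRG
    rw [bud_gb_clamp_eq hv]
    exact h3 v hv

/-- the dictionary for a regular instance -/
theorem bos_dict (hX : X.Ok) {I : BcsIn X} (hI : I.Reg W K Cr) :
    (∀ x ∈ Icc (0 : ℝ) 1, bosAlG (I.geo W) x = I.Q.al x) ∧ (∀ v ∈ Icc (0 : ℝ) 1, bosRG (I.geo W) v = I.Q.r v) :=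
  bos_dict0 hX hI.ok

/-- **PRODUCER: `BosGeo` of an instance** (`bos_geo_of_bud` with `ef = C`, `cn = m/L`, `Lp = L`; `bud_loc_of_frame` for the box; `bud_n4_S`, `bud_n4_B`, `bud_P_of_frame`, `bos_num_*`, `bos_Lp_gap`;
clock: `(m/L) ∫ C·TH ≤ m ∫ (1-p) C·TH`) -/
theorem bos_geo_inst0 (hX : X.Ok) (hW : W.IsHub) {I : BcsIn X} (hF : I.F.Ok X) (hbase : I.F.Base X W I.g) (hclkb : IsClock 1 (I.Q.bq I.g))
    (hclkh : IsClock 1 (I.Q.hq I.g)) (hgeo : (I.geo W).Ok) :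
    ∃ Z : CmCaps, BosGeo (bosAlG (I.geo W)) (bosRG (I.geo W)) (budKb I.F X) (I.F.C X) I.F.Mj ((I.F.m : ℝ) / I.F.bosLp X) (I.F.bosLp X)
      (I.Q.bosNum I.g) Z ∧ Z.Fl = {x | x ∈ Icc (0 : ℝ) 1 ∧ 0 < I.H W x} := by
  obtain ⟨hρ, hal, hr⟩ := bud_dens_of_bdq X hX I.F hF I.Q
  have hbox := bud_gb_box hX hF
  have hm1 := bud_gb_m_ge hF
  have hm : 0 < I.F.m := by exact_mod_cast (lt_of_lt_of_le one_pos hm1)
  have hadm : CkAdm 1 (I.Q.bE I.g) (I.Q.hE I.g) := psi_adm one_pos hclkb hclkh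
  obtain ⟨hL1, hLp⟩ := bos_Lp_gap X hX I.F hF
  have hL0 : 0 < I.F.bosLp X := lt_of_lt_of_le one_pos hL1
  have hC0 := (bud_gb_C0_pos hX hF).le
  have halG : ∀ x ∈ Icc (0 : ℝ) 1, (I.geo W).al x = I.Q.al x := fun x hx => bud_n4_al X hX I.F hF I.Q W I.g I.c0 hx
  have halmem : ∀ x ∈ Icc (0 : ℝ) 1, I.Q.al x ∈ Icc (0 : ℝ) 1 := fun x hx => by
    rw [← hal x hx]; exact budAl_mem_Icc hbox hρ hx
  have halmemo : ∀ x ∈ Ioo (0 : ℝ) 1, I.Q.al x ∈ Ioo (0 : ℝ) 1 := fun x hx => by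
    rw [← hal x (Ioo_subset_Icc_self hx)]; exact budAl_mem hbox hρ hx
  have halsm : StrictMonoOn I.Q.al (Icc 0 1) := fun x hx y hy hxy => by
    rw [← hal x hx, ← hal y hy]; exact budAl_strictMonoOn hbox hρ hx hy hxy
  have hTH : ∀ r ∈ Icc (0 : ℝ) 1, 0 ≤ (I.Q.bosNum I.g).TH (I.Q.al r) := fun r hr => by
    have hmm := halmem r hr
    have hp := gci_posA_ok hmm.1 hmm.2
    have h1 := (exit_clk_H2 hm one_pos hadm hp).1
    have h2 := (exit_clk_D2 hm one_pos hadm hp).2.1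
    show 0 ≤ ckH2 I.F.m 1 (I.Q.bE I.g) (I.Q.hE I.g) (ghPosA (cmkCl (I.Q.al r)))
    rw [gci_cl hmm.1 hmm.2]
    exact (mul_nonneg (sq_nonneg _) h2).trans h1
  refine bos_geo_of_bud (gg := I.geo W) hgeo (kmin := I.F.k X 1) hbox (ef := I.F.C X) (cn := (I.F.m : ℝ) / I.F.bosLp X)
    (Lp := I.F.bosLp X) (Xn := I.Q.bosNum I.g) (bos_num_ok hm hclkb hclkh) hL1 (by positivity)
    (cm_e_cont (I.F.call X) I.F.C0).measurable (fun t _ => cm_e_nonneg (I.F.call X) hC0 t)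
    ⟨I.F.C0, fun t _ => cm_e_le (I.F.call X) hC0 t⟩ ?_ ?_ ?_ ?_
  · intro x hx
    rw [halG x (Ioo_subset_Icc_self hx), bos_num_S hW hm hclkb hclkh (halmemo x hx)]
    exact (bud_n4_S X hX I.F hF I.Q W I.g I.c0 hbase hx).symm
  · intro x hx
    rw [halG x (Ioo_subset_Icc_self hx), bos_num_D hW hm hclkb hclkh (halmemo x hx)]
    have e1 : (I.geo W).S x = _ := bud_n4_S X hX I.F hF I.Q W I.g I.c0 hbase hx
    have e2 : (I.geo W).B x = _ := bud_n4_B X hX I.F hF I.Q W I.g I.c0 hbase hx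
    rw [e1, e2]
    rfl
  · intro x hx
    have e : (I.geo W).p x = I.F.pC X x := bud_gb_P X hX I.F hF x
    rw [e]
    exact hLp x hx
  · intro s t hs hst ht
    have hsub : Icc s t ⊆ Icc (0 : ℝ) 1 := Icc_subset_Icc hs ht
    have hsm : s ∈ Icc (0 : ℝ) 1 := ⟨hs, hst.trans ht⟩
    have htm : t ∈ Icc (0 : ℝ) 1 := ⟨hs.trans hst, ht⟩
    rw [halG s hsm, halG t htm]
    have e0 : ∫ x in s..t, I.F.C X x * (I.Q.bosNum I.g).TH ((I.geo W).al x) = ∫ x in s..t, I.F.C X x * (I.Q.bosNum I.g).TH (I.Q.al x) := by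
      refine intervalIntegral.integral_congr fun x hx => ?_
      rw [uIcc_of_le hst] at hx
      rw [halG x (hsub hx)]
    rw [e0]
    set Lp := I.F.bosLp X with hLpdef
    by_cases hint : IntervalIntegrable (fun r => I.F.C X r * (I.Q.bosNum I.g).TH (I.Q.al r)) volume s t
    · have hsharp := bos_num_clock (Q := I.Q) (g := I.g) hX hF hbase.hh hclkb hclkh hs hst ht
      have hint2 : IntervalIntegrable (fun r => Lp * ((1 - I.F.pC X r) * I.F.C X r * (I.Q.bosNum I.g).TH (I.Q.al r))) volume s t := by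
        have hcc : Continuous fun r => 1 - I.F.pC X r := continuous_const.sub (cm_pp_cont (I.F.call X) I.F.C0)
        have h1 := (hint.continuousOn_mul hcc.continuousOn).const_mul Lp
        refine h1.congr ?_
        intro r _
        simp only
        ring
      have hle := intervalIntegral.integral_mono_on (μ := volume) hst hint hint2 (fun r hr => by
        have h1 := hLp r (hsub hr)
        have h2 : 0 ≤ I.F.C X r * (I.Q.bosNum I.g).TH (I.Q.al r) := mul_nonneg (cm_e_nonneg (I.F.call X) hC0 r) (hTH r (hsub hr))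
        nlinarith)
      rw [intervalIntegral.integral_const_mul] at hle
      calc (I.F.m : ℝ) / Lp * ∫ r in s..t, I.F.C X r * (I.Q.bosNum I.g).TH (I.Q.al r)
          ≤ (I.F.m : ℝ) / Lp * (Lp * ∫ r in s..t, (1 - I.F.pC X r) * I.F.C X r * (I.Q.bosNum I.g).TH (I.Q.al r)) :=
            mul_le_mul_of_nonneg_left hle (by positivity)
        _ = (I.F.m : ℝ) * ∫ r in s..t, (1 - I.F.pC X r) * I.F.C X r * (I.Q.bosNum I.g).TH (I.Q.al r) := by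
            field_simp
        _ ≤ _ := hsharp
    · rw [intervalIntegral.integral_undef hint, mul_zero]
      have hm1 := halmem s hsm
      have hm2 := halmem t htm
      have h1 := (exit_clk_SB hm one_pos hadm (gci_posA_ok hm1.1 hm1.2) (gci_posA_ok hm2.1 hm2.2)
        (gci_posA_le (halsm.monotoneOn hsm htm hst))).2.1
      show 0 ≤ skCS I.F.m 1 (I.Q.bE I.g) (I.Q.hE I.g) (ghPosA (cmkCl (I.Q.al t))) - skCS I.F.m 1 (I.Q.bE I.g) (I.Q.hE I.g) (ghPosA (cmkCl (I.Q.al s)))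
      rw [gci_cl hm1.1 hm1.2, gci_cl hm2.1 hm2.2]
      exact sub_nonneg.2 h1

/-! ## 3. Scales of an instance -/

/-- **PRODUCER: `BosGeo` of a regular instance** -/
theorem bos_geo_inst (hX : X.Ok) (hW : W.IsHub) :
    ∃ N0 : ℕ, ∀ I : BcsIn X, I.Reg W K Cr → N0 ≤ I.F.N →
      ∃ Z : CmCaps, BosGeo (bosAlG (I.geo W)) (bosRG (I.geo W)) (budKb I.F X) (I.F.C X) I.F.Mj ((I.F.m : ℝ) / I.F.bosLp X) (I.F.bosLp X)
        (I.Q.bosNum I.g) Z ∧ Z.Fl = {x | x ∈ Icc (0 : ℝ) 1 ∧ 0 < I.H W x} :=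
  ⟨0, fun _ hI _ => bos_geo_inst0 hX hW hI.ok hI.base hI.clkb hI.clkh hI.geo⟩

/-- raw bounds for the numbers, END POINTS INCLUDED (`S, D ≤ 1` at the mass `1`, `Cr ≥ 1`): for `0 < u ≤ 1`:  `S_u, D_u ≤ Cr (u + w)` if `u < 1`, and `≤ 1` always -/
theorem bos_raw_num (hW : W.IsHub) {I : BcsIn X} (hI : I.Reg W K Cr) (hCr : 1 ≤ Cr) (hw : 0 ≤ I.w) {u : ℝ} (hu : u ∈ Ioc (0 : ℝ) 1) :
    (I.Q.bosNum I.g).S u ≤ Cr * (u + I.w) ∧ (I.Q.bosNum I.g).D u ≤ Cr * (u + I.w) := by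
  have hF := hI.ok
  have hm1 := bud_gb_m_ge hF
  have hm : 0 < I.F.m := by exact_mod_cast (lt_of_lt_of_le one_pos hm1)
  have hadm : CkAdm 1 (I.Q.bE I.g) (I.Q.hE I.g) := psi_adm one_pos hI.clkb hI.clkh
  have hp := gci_posA_ok hu.1.le hu.2
  obtain ⟨hS0, -, -, hSB, hB1⟩ := exit_clk_SB hm one_pos hadm hp hp le_rfl
  have hR0 : 0 ≤ Cr * (u + I.w) := by have := hu.1; positivity
  have hB : skCB I.F.m 1 (I.Q.bE I.g) (I.Q.hE I.g) (ghPosA u) ≤ (Cr * (u + I.w)) ^ 2 := by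
    rcases hu.2.eq_or_lt with rfl | h1
    · refine hB1.trans ?_
      have : 1 ≤ Cr * (1 + I.w) := by nlinarith
      nlinarith
    · have h2 := hI.raw u ⟨hu.1, h1⟩
      have h3 : I.B W u = skCB I.F.m 1 (I.Q.bE I.g) (I.Q.hE I.g) (ghPosA u) := hW.B I.F.m hm _ _ hI.clkb hI.clkh u ⟨hu.1, h1⟩
      rwa [h3] at h2
  constructor
  · show skCS I.F.m 1 (I.Q.bE I.g) (I.Q.hE I.g) (ghPosA (cmkCl u)) ≤ _
    rw [gci_cl hu.1.le hu.2]
    exact (abs_le_of_sq_le_sq' (hSB.trans hB) hR0).2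
  · show Real.sqrt (cmkD2 I.F.m (I.Q.bE I.g) (I.Q.hE I.g) (ghPosA (cmkCl u))) ≤ _
    rw [gci_cl hu.1.le hu.2]
    refine Real.sqrt_le_iff.2 ⟨hR0, ?_⟩
    unfold cmkD2
    nlinarith [sq_nonneg (skCS I.F.m 1 (I.Q.bE I.g) (I.Q.hE I.g) (ghPosA u))]

/-- size facts which hold for all large sizes, with an arbitrary room `Kb` -/
structure BosSz (F : BdFr) (X : BdFix) (Kb : ℝ) : Prop where
  x0 : 0 < F.x
  x1 : F.x < 1
  m0 : 0 < F.m
  /-- `1/m ≤ 2 x⁶` -/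
  mx : 1 / (F.m : ℝ) ≤ 2 * F.x ^ 6
  /-- `m ≤ 3 x⁻⁶` -/
  mx' : (F.m : ℝ) * F.x ^ 6 ≤ 3
  u0 : 0 < F.u
  uK : Kb * F.u ≤ 1
  wc0 : 0 < F.wc X
  /-- `w_c ≥ x^10` -/
  wcx : F.x ^ 10 ≤ F.wc X
  Mj1 : 1 < F.Mj
  /-- caps are negligible -/
  Mj : Kb / F.Mj ≤ F.x ^ 99
  C00 : 0 < F.C0
  C01 : F.C0 ≤ 1
  d0 : 0 < F.dPE X
  /-- `C0 r/d³ = r/(cd³ u)` -/
  arg : F.C0 / F.dPE X ^ 3 = 1 / (X.cd ^ 3 * F.u)
  vs0 : 0 < F.vs X
  /-- `v_* ≥ x³` -/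
  vsx : F.x ^ 3 ≤ F.vs X

/-- `x^κ → 0` -/
theorem bos43_small {κ ε : ℝ} (hκ : 0 < κ) (hε : 0 < ε) :
    ∃ N0 : ℕ, ∀ N : ℕ, N0 ≤ N → ((N : ℝ) ^ (-(1 / 6) : ℝ)) ^ κ ≤ ε := by
  have h1 : Tendsto (fun N : ℕ => ((N : ℝ)) ^ (-(κ / 6))) atTop (𝓝 0) :=
    (tendsto_rpow_neg_atTop (by positivity : 0 < κ / 6)).comp tendsto_natCast_atTop_atTop
  obtain ⟨N0, h0⟩ := eventually_atTop.1 (h1.eventually_le_const hε)
  refine ⟨N0, fun N hN => ?_⟩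
  rw [← Real.rpow_mul (Nat.cast_nonneg N)]
  have : (-(1 / 6) * κ : ℝ) = -(κ / 6) := by ring
  rw [this]
  exact h0 N hN

/-- LEAF (arithmetic): `x = N^(-1/6)`, `N/2 ≤ m ≤ 3N`, `x^12 ≤ λ ≤ x^pS`, `x λ^(-sS/2) ≤ CU u`, `u ≤ λ^bl`; `w_c = y_c u ≥ x^(-10ζ) X_r Λ^(-1/6) u ≥ x`; `M_j ≥ x^(-100)`;
`v_* = 1/(mE) ≥ x⁶/(3 x^(4-ζ) cd u Λ^(1/3)) ≥ x^(2+ζ)/(3 cd) · u⁻¹ ≥ x³` for large sizes -/
theorem bos_sz_ev (X : BdFix) (hX : X.Ok) (Kb : ℝ) : ∃ N0 : ℕ, ∀ F : BdFr, F.Ok X → N0 ≤ F.N → BosSz F X Kb := by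
  have hK : 0 < 1 / (|Kb| + 1) := by positivity
  have hz1 : X.zeta ≤ 1 / 2 := by
    have h1 := hX.zeta_le
    have p0 := hX.pS_pos; have p1 : X.pS ≤ 1 := by linarith [hX.pS_le, hX.he_le]
    have t0 := hX.tau0_pos
    have t1 : X.tau0 ≤ 1 := by linarith [hX.tau0_le, hX.eta_le, hX.tau_le]
    have b0 := hX.bl_pos
    have b1 : X.bl ≤ 1 := by linarith [hX.bl_le, hX.bs_le, hX.eta_le, hX.tau_le]
    have q1 : X.pS * X.tau0 ≤ 1 := mul_le_one₀ p1 t0.le t1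
    have q2 : X.pS * X.tau0 * X.bl ≤ 1 := mul_le_one₀ q1 b0.le b1
    linarith
  obtain ⟨Na, ha⟩ := bos43_small (κ := X.pS * X.bl) (mul_pos hX.pS_pos hX.bl_pos) hK
  obtain ⟨Nb, hb⟩ := bos43_small (κ := 1) one_pos hK
  obtain ⟨Nc, hc⟩ := bos43_small (κ := 1 - X.zeta) (ε := 1 / (3 * X.cd)) (by linarith) (by have := hX.cd_pos; positivity)
  refine ⟨max Na (max Nb Nc), fun F hF hN => ?_⟩
  have hNa : Na ≤ F.N := (le_max_left _ _).trans hN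
  have hNb : Nb ≤ F.N := (le_max_left _ _).trans ((le_max_right _ _).trans hN)
  have hNc : Nc ≤ F.N := (le_max_right _ _).trans ((le_max_right _ _).trans hN)
  have hx0 := BdFr.bds_x_pos hF
  have hx1 := BdFr.bds_x_lt_one hF
  have hu0 := BdFr.bds_u_pos hF hX
  have hu1 := BdFr.bds_u_le_one hF hX
  have hl0 := BdFr.bds_lam_pos hF
  have hl1 := BdFr.bds_lam_lt_one hF hX
  have hL0 := bud_gb_Lam_pos hF
  have hL1 : F.Lam ≤ 1 := BdFr.bds_lam_rpow_le_one hF hX (by norm_num)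
  have hC0 := bud_gb_C0_pos hX hF
  have hd0 := bud_gb_d_pos hX hF
  have hN0 : (0 : ℝ) < F.N := by
    have := hF.N2
    exact_mod_cast (by omega : 0 < F.N)
  have hx6 : F.x ^ 6 = (F.N : ℝ)⁻¹ := by
    unfold BdFr.x
    rw [← Real.rpow_natCast, ← Real.rpow_mul hN0.le]
    have : (-(1 / 6 : ℝ)) * ((6 : ℕ) : ℝ) = -1 := by norm_num
    rw [this, Real.rpow_neg_one]
  have hm0 : 0 < F.m := by
    apply Nat.pos_of_ne_zero
    intro h
    have := hF.m_lo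
    rw [h] at this
    simp at this
    linarith
  have hm : (0 : ℝ) < F.m := by exact_mod_cast hm0
  have hmx' : (F.m : ℝ) * F.x ^ 6 ≤ 3 := by
    rw [hx6, ← div_eq_mul_inv, div_le_iff₀ hN0]; exact hF.m_hi
  -- smallness
  have hxK : F.x ≤ 1 / (|Kb| + 1) := by
    have := hb F.N hNb
    rwa [Real.rpow_one] at this
  have huK : F.u ≤ 1 / (|Kb| + 1) := by
    have h1 : F.lam ^ X.bl ≤ (F.x ^ X.pS) ^ X.bl := Real.rpow_le_rpow hl0.le hF.lam_hi hX.bl_pos.le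
    rw [← Real.rpow_mul hx0.le] at h1
    exact hF.u_hi.trans (h1.trans (ha F.N hNa))
  have hKb1 : (0 : ℝ) < |Kb| + 1 := by positivity
  have hx100 : F.x ^ (-(100 : ℝ)) = (F.x ^ 100)⁻¹ := by
    rw [Real.rpow_neg hx0.le, ← Real.rpow_natCast]; norm_num
  have hp100 : 0 < F.x ^ 100 := pow_pos hx0 100
  have h2st : (1 : ℝ) ≤ 2 ^ F.st := one_le_pow₀ (by norm_num)
  have hMge : (F.x ^ 100)⁻¹ ≤ F.Mj := by
    unfold BdFr.Mj
    rw [hx100]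
    exact le_mul_of_one_le_left (inv_pos.2 hp100).le h2st
  have hMj1 : 1 < F.Mj := by
    refine lt_of_lt_of_le ?_ hMge
    exact (one_lt_inv₀ hp100).2 (pow_lt_one₀ hx0.le hx1 (by norm_num))
  have hXr : F.Xr * F.u = F.x := by unfold BdFr.Xr; field_simp
  have hXr0 : 0 < F.Xr := BdFr.bds_Xr_pos hF hX
  have hyc : F.Xr ≤ F.yc X := by
    unfold BdFr.yc
    have a1 : 1 ≤ F.x ^ (-(10 * X.zeta)) :=
      Real.one_le_rpow_of_pos_of_le_one_of_nonpos hx0 hx1.le (by have := hX.zeta_pos; linarith)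
    have a2 : 1 ≤ F.Lam ^ (-(1 / 6) : ℝ) := Real.one_le_rpow_of_pos_of_le_one_of_nonpos hL0 hL1 (by norm_num)
    have a3 : 0 ≤ F.Xr ^ (3 / 4 : ℝ) * F.lam ^ (0.12 : ℝ) :=
      mul_nonneg (Real.rpow_nonneg hXr0.le _) (Real.rpow_nonneg hl0.le _)
    have a4 : F.Xr ≤ F.Xr * F.Lam ^ (-(1 / 6) : ℝ) + F.Xr ^ (3 / 4 : ℝ) * F.lam ^ (0.12 : ℝ) := by
      have := le_mul_of_one_le_right hXr0.le a2
      linarith
    exact a4.trans (le_mul_of_one_le_left (hXr0.le.trans a4) a1)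
  have hwc : F.x ≤ F.wc X := by
    unfold BdFr.wc
    rw [← hXr]
    exact mul_le_mul_of_nonneg_right hyc hu0.le
  have hE0 : 0 < F.E X := mul_pos (Real.rpow_pos_of_pos hx0 _) hd0
  have evs : F.vs X = 1 / ((F.m : ℝ) * F.E X) := rfl
  exact
    { x0 := hx0
      x1 := hx1
      m0 := hm0
      mx := by
        rw [hx6, div_le_iff₀ hm]
        have h1 : (F.N : ℝ)⁻¹ * ((F.N : ℝ) / 2) ≤ (F.N : ℝ)⁻¹ * F.m :=
          mul_le_mul_of_nonneg_left hF.m_lo (inv_nonneg.2 hN0.le)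
        have h2 : (F.N : ℝ)⁻¹ * ((F.N : ℝ) / 2) = 1 / 2 := by field_simp
        linarith
      mx' := hmx'
      u0 := hu0
      uK := by
        have h1 : Kb * F.u ≤ (|Kb| + 1) * F.u := mul_le_mul_of_nonneg_right (by linarith [le_abs_self Kb]) hu0.le
        have h2 : (|Kb| + 1) * F.u ≤ (|Kb| + 1) * (1 / (|Kb| + 1)) := mul_le_mul_of_nonneg_left huK hKb1.le
        have h3 : (|Kb| + 1) * (1 / (|Kb| + 1)) = 1 := by field_simp
        linarith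
      wc0 := lt_of_lt_of_le hx0 hwc
      wcx := (pow_le_of_le_one hx0.le hx1.le (by norm_num)).trans hwc
      Mj1 := hMj1
      Mj := by
        rw [div_le_iff₀ (lt_trans one_pos hMj1)]
        have h1 : F.x ^ 99 * (F.x ^ 100)⁻¹ ≤ F.x ^ 99 * F.Mj := mul_le_mul_of_nonneg_left hMge (pow_pos hx0 99).le
        have h2 : F.x ^ 99 * (F.x ^ 100)⁻¹ = F.x⁻¹ := by
          rw [pow_succ F.x 99]; field_simp
        have h3 : |Kb| + 1 ≤ F.x⁻¹ := by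
          rw [le_inv_comm₀ hKb1 hx0, ← one_div]; exact hxK
        linarith [le_abs_self Kb]
      C00 := hC0
      C01 := by
        have : F.u ^ 2 ≤ 1 := pow_le_one₀ hu0.le hu1
        exact mul_le_one₀ this hL0.le hL1
      d0 := hd0
      arg := by
        rw [bud_gb_d_cube hF]
        have := hX.cd_pos
        field_simp
      vs0 := by rw [evs]; positivity
      vsx := by
        rw [evs, le_div_iff₀ (mul_pos hm hE0)]
        have e1 : F.x ^ (4 - X.zeta) = F.x ^ 3 * F.x ^ (1 - X.zeta) := by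
          rw [← Real.rpow_natCast, ← Real.rpow_add hx0]; congr 1; norm_num; ring
        have P2 : F.x ^ (1 - X.zeta) ≤ 1 / (3 * X.cd) := hc F.N hNc
        have P20 : 0 ≤ F.x ^ (1 - X.zeta) := Real.rpow_nonneg hx0.le _
        have P3 : F.u * F.Lam ^ (1 / 3 : ℝ) ≤ 1 :=
          mul_le_one₀ hu1 (Real.rpow_nonneg hL0.le _) (Real.rpow_le_one hL0.le hL1 (by norm_num))
        have P30 : 0 ≤ F.u * F.Lam ^ (1 / 3 : ℝ) := mul_nonneg hu0.le (Real.rpow_nonneg hL0.le _)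
        have P4 : F.x ^ (1 - X.zeta) * X.cd ≤ 1 / 3 := by
          have := mul_le_mul_of_nonneg_right P2 hX.cd_pos.le
          have e : 1 / (3 * X.cd) * X.cd = 1 / 3 := by have := hX.cd_pos; field_simp
          linarith
        have P40 : 0 ≤ F.x ^ (1 - X.zeta) * X.cd := mul_nonneg P20 hX.cd_pos.le
        have P5 : (F.m : ℝ) * F.x ^ 6 * (F.x ^ (1 - X.zeta) * X.cd) ≤ 1 := by
          calc (F.m : ℝ) * F.x ^ 6 * (F.x ^ (1 - X.zeta) * X.cd) ≤ 3 * (1 / 3) :=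
                mul_le_mul hmx' P4 P40 (by norm_num)
            _ = 1 := by norm_num
        have P50 : 0 ≤ (F.m : ℝ) * F.x ^ 6 * (F.x ^ (1 - X.zeta) * X.cd) := by positivity
        calc F.x ^ 3 * ((F.m : ℝ) * F.E X)
            = (F.m : ℝ) * F.x ^ 6 * (F.x ^ (1 - X.zeta) * X.cd) * (F.u * F.Lam ^ (1 / 3 : ℝ)) := by
              unfold BdFr.E BdFr.dPE
              rw [e1]; ring
          _ ≤ 1 := mul_le_one₀ P5 P30 P3 }

/-- the removal profile: positive, nonincreasing, `≤ C0`, `C(G r) ≥ C(r)/G`, `C(r) ≥ C0/(1 + r/(cd³u))`   (`cm_e_pos`, `cm_e_anti`, `cm_e_le`, `cm_e_scale`, `cm_e_ge`) -/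
theorem bos_C_facts {F : BdFr} {Kb : ℝ} (hs : BosSz F X Kb) :
    (∀ r, 0 < F.C X r) ∧ Antitone (F.C X) ∧ (∀ r, F.C X r ≤ F.C0) ∧ (∀ G r : ℝ, 1 ≤ G → 0 ≤ r → F.C X r / G ≤ F.C X (G * r)) ∧
      ∀ r : ℝ, 0 ≤ r → F.C0 / (1 + r / (X.cd ^ 3 * F.u)) ≤ F.C X r := by
  have hd : 0 < (F.call X).d := hs.d0
  refine ⟨fun r => cm_e_pos _ hs.C00 r, cm_e_anti _ hd hs.C00.le, fun r => cm_e_le _ hs.C00.le r,
    fun G r hG hr => cm_e_scale _ hd hs.C00.le hG hr, fun r hr => ?_⟩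
  have h := cm_e_ge (F.call X) hd hs.C00.le hr
  have e : F.C0 * r / (F.call X).d ^ 3 = r / (X.cd ^ 3 * F.u) := by
    have := hs.arg
    calc F.C0 * r / (F.call X).d ^ 3 = r * (F.C0 / F.dPE X ^ 3) := by
          show F.C0 * r / F.dPE X ^ 3 = _
          ring
      _ = r / (X.cd ^ 3 * F.u) := by rw [this]; ring
  rw [e] at h
  exact h

/-- the PE floor: measurable, positive, nonincreasing on `[0,∞)`, `k(r) r² ≤ m^δ v_*²` -/
theorem bos_k_facts {F : BdFr} {Kb : ℝ} (hX : X.Ok) (hs : BosSz F X Kb) :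
    Measurable (F.k X) ∧ (∀ r, 0 ≤ r → 0 < F.k X r) ∧ AntitoneOn (F.k X) (Ici 0) ∧
      ∀ r, 0 < r → F.k X r ≤ (F.m : ℝ) ^ X.dPEexp * F.vs X ^ 2 / r ^ 2 := by
  have hm : (0 : ℝ) < F.m := by exact_mod_cast hs.m0
  have hv := hs.vs0
  have ek : ∀ r, F.k X r = (F.m : ℝ) ^ X.dPEexp * F.vs X ^ 2 / (r + (F.m : ℝ) ^ (2 * X.dPEexp) * F.vs X) ^ 2 := fun r => rfl
  have ha : 0 < (F.m : ℝ) ^ X.dPEexp * F.vs X ^ 2 := mul_pos (Real.rpow_pos_of_pos hm _) (pow_pos hv 2)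
  have hb : 0 < (F.m : ℝ) ^ (2 * X.dPEexp) * F.vs X := mul_pos (Real.rpow_pos_of_pos hm _) hv
  refine ⟨?_, ?_, ?_, ?_⟩
  · have : F.k X = fun r => (F.m : ℝ) ^ X.dPEexp * F.vs X ^ 2 / (r + (F.m : ℝ) ^ (2 * X.dPEexp) * F.vs X) ^ 2 := funext ek
    rw [this]
    exact measurable_const.div ((measurable_id.add measurable_const).pow_const 2)
  · intro r hr
    rw [ek]
    have : 0 < r + (F.m : ℝ) ^ (2 * X.dPEexp) * F.vs X := by linarith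
    positivity
  · intro r hr r' hr' hrr
    have hr0 : (0 : ℝ) ≤ r := hr
    rw [ek, ek]
    have h1 : 0 < r + (F.m : ℝ) ^ (2 * X.dPEexp) * F.vs X := by linarith
    exact div_le_div_of_nonneg_left ha.le (pow_pos h1 2) (pow_le_pow_left₀ h1.le (by linarith) 2)
  · intro r hr
    rw [ek]
    exact div_le_div_of_nonneg_left ha.le (pow_pos hr 2) (pow_le_pow_left₀ hr.le (by linarith) 2)

end inst

/-- **"enlarge bands to include complete caps with comparable masses by regularity and the small radius width"** (LL l.360): abstract form -/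
theorem bos_reg_cap {al r kb ef : ℝ → ℝ} {M cn Lp : ℝ} {Xn : CmNum} {Z : CmCaps} (hG : BosGeo al r kb ef M cn Lp Xn Z) {w c C v1 v2 : ℝ}
    (hw : 0 < w) (hc : 0 < c) (hreg : ∀ v : ℝ, 2 * w ≤ v → v ≤ 1 → c * v ≤ r v ∧ r v ≤ C * v)
    (h1 : 0 ≤ v1) (h12 : v1 ≤ v2) (h2 : v2 ≤ 1) (hw2 : 2 * w ≤ v2) {i : ℕ} (hi : (Z.capM al i ∩ Icc v1 v2).Nonempty) :
    al (Z.cR i) ≤ (C * v2 + 1 / M) / c := by
  obtain ⟨kmin, hk0, hk⟩ := hG.kb_pos
  have hM0 : 0 < M := lt_trans one_pos hG.M1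
  have hmono : ∀ s t : ℝ, 0 ≤ s → s ≤ t → t ≤ 1 → al s ≤ al t := by
    intro s t hs hst ht
    have a := hG.lo s t hs hst ht
    have b : 0 ≤ ∫ x in s..t, kb x :=
      intervalIntegral.integral_nonneg hst fun x hx => hk0.le.trans (hk x ⟨hs.trans hx.1, hx.2.trans ht⟩)
    linarith
  obtain ⟨u, hu, huv⟩ := hi
  have hL0 := hG.cap_lo i
  have hR1 := hG.cap_hi i
  have hLR := hG.cap_le i
  have hreg2 := hreg v2 hw2 h2
  rw [le_div_iff₀ hc]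
  have hMi : 0 < 1 / M := by positivity
  rcases le_or_gt (al (Z.cR i)) v2 with hV | hV
  · have : al (Z.cR i) * c ≤ v2 * c := mul_le_mul_of_nonneg_right hV hc.le
    linarith [hreg2.1, hreg2.2]
  · have hV1 : al (Z.cR i) ≤ 1 := by rw [← hG.al_one]; exact hmono _ _ (hL0.trans hLR) hR1 le_rfl
    have hV0 : 0 ≤ al (Z.cL i) := by rw [← hG.al_zero]; exact hmono _ _ le_rfl hL0 (hLR.trans hR1)
    have a1 := (hreg _ (hw2.trans hV.le) hV1).1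
    rw [hG.r_al _ ⟨hL0.trans hLR, hR1⟩] at a1
    have a2 := hG.cap_eq i _ _ le_rfl hLR le_rfl
    have a3 : Z.cR i - Z.cL i ≤ 1 / M := by
      rw [le_div_iff₀ hM0]; linarith
    have hv2m : v2 ∈ Icc (0 : ℝ) 1 := ⟨h1.trans h12, h2⟩
    have a4 : Z.cL i ≤ r v2 := by
      by_contra hlt
      rw [not_le] at hlt
      have b1 := hmono _ _ (hG.r_mem v2 hv2m).1 hlt.le (hLR.trans hR1)
      rw [hG.al_r v2 hv2m] at b1
      have : al (Z.cL i) < u := hu.1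
      linarith [huv.2]
    linarith [hreg2.2]

/-! ## 4. Arithmetic on a frame (no world, no optimiser) -/

section arith

/-- the logarithm of the strip count is subpolynomial -/
theorem bos_ar_h_log {a ε : ℝ} (ha : 0 ≤ a) (hε : 0 < ε) :
    ∃ C : ℝ, 1 ≤ C ∧ ∀ x s : ℝ, 0 < x → x < 1 → 0 ≤ s → s ≤ a →
      1 ≤ 1 + Real.log (1 + s / x ^ 100) ∧ 1 + Real.log (1 + s / x ^ 100) ≤ C * x ^ (-ε) := by
  have hla : 0 ≤ Real.log (1 + a) := Real.log_nonneg (by linarith)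
  have h100 : 0 ≤ 100 / ε := by positivity
  refine ⟨1 + Real.log (1 + a) + 100 / ε, by linarith, ?_⟩
  intro x s hx hx1 hs hsa
  have hx100 : 0 < x ^ 100 := by positivity
  have h1 : 1 ≤ 1 + s / x ^ 100 := by
    have : 0 ≤ s / x ^ 100 := by positivity
    linarith
  refine ⟨by have := Real.log_nonneg h1; linarith, ?_⟩
  have hy : 1 ≤ x ^ (-ε) := Real.one_le_rpow_of_pos_of_le_one_of_nonpos hx hx1.le (by linarith)
  have h2 : 1 + s / x ^ 100 ≤ (1 + a) / x ^ 100 := by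
    rw [add_div]
    have e1 : 1 ≤ 1 / x ^ 100 := by
      rw [le_div_iff₀ hx100, one_mul]
      exact pow_le_one₀ hx.le hx1.le
    have e2 : s / x ^ 100 ≤ a / x ^ 100 := by gcongr
    linarith
  have h3 : Real.log (1 + s / x ^ 100) ≤ Real.log (1 + a) + 100 * Real.log (x⁻¹) := by
    calc Real.log (1 + s / x ^ 100) ≤ Real.log ((1 + a) / x ^ 100) := Real.log_le_log (by linarith) h2
      _ = Real.log (1 + a) + 100 * Real.log (x⁻¹) := by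
          rw [Real.log_div (by positivity) hx100.ne', Real.log_pow, Real.log_inv]
          push_cast
          ring
  have h4 : Real.log (x⁻¹) ≤ x ^ (-ε) / ε := by
    have := Real.log_le_rpow_div (inv_nonneg.mpr hx.le) hε
    rwa [Real.inv_rpow hx.le, ← Real.rpow_neg hx.le] at this
  have h5 : (1 + Real.log (1 + a)) * 1 ≤ (1 + Real.log (1 + a)) * x ^ (-ε) :=
    mul_le_mul_of_nonneg_left hy (by linarith)
  have h6 : 100 * (x ^ (-ε) / ε) = 100 / ε * x ^ (-ε) := by ring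
  calc 1 + Real.log (1 + s / x ^ 100) ≤ (1 + Real.log (1 + a)) * 1 + 100 * (x ^ (-ε) / ε) := by linarith
    _ ≤ (1 + Real.log (1 + a) + 100 / ε) * x ^ (-ε) := by rw [h6]; linarith

/-- `w^(2/3) ≤ K (z^(1/3))²` if `w ≤ K z`, `K ≥ 1` -/
theorem bos_ar_h_23 {K z w : ℝ} (hK : 1 ≤ K) (hz : 0 ≤ z) (hw0 : 0 ≤ w) (hw : w ≤ K * z) :
    w ^ (2 / 3 : ℝ) ≤ K * (z ^ (1 / 3 : ℝ)) ^ 2 := by
  have hK0 : 0 ≤ K := by linarith
  calc w ^ (2 / 3 : ℝ) ≤ (K * z) ^ (2 / 3 : ℝ) := Real.rpow_le_rpow hw0 hw (by norm_num)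
    _ = K ^ (2 / 3 : ℝ) * z ^ (2 / 3 : ℝ) := Real.mul_rpow hK0 hz
    _ ≤ K ^ (1 : ℝ) * z ^ (2 / 3 : ℝ) :=
        mul_le_mul_of_nonneg_right (Real.rpow_le_rpow_of_exponent_le hK (by norm_num)) (Real.rpow_nonneg hz _)
    _ = K * (z ^ (1 / 3 : ℝ)) ^ 2 := by
        rw [Real.rpow_one, ← Real.rpow_natCast (z ^ (1 / 3 : ℝ)) 2, ← Real.rpow_mul hz]
        norm_num

/-- crude cube root -/
theorem bos_ar_h_13 {w : ℝ} (hw : 0 ≤ w) : w ^ (1 / 3 : ℝ) ≤ 1 + w := by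
  rcases le_total w 1 with h | h
  · have := Real.rpow_le_one hw h (by norm_num : (0:ℝ) ≤ 1 / 3)
    linarith
  · have := Real.rpow_le_rpow_of_exponent_le h (by norm_num : (1 / 3 : ℝ) ≤ 1)
    rw [Real.rpow_one] at this
    linarith

variable {X : BdFix} {F : BdFr}

/-- caps are negligible: `ω² + q4 ≤ 25 L² x^49` -/
theorem bos_ar_h_cap (hs : BosSz F X 1) (hL : 1 ≤ F.bosLp X) {y0 : ℝ} (hy0 : 0 < y0) :
    0 ≤ F.bosOm X ^ 2 + F.bosQ4 X y0 ∧ F.bosOm X ^ 2 + F.bosQ4 X y0 ≤ 25 * F.bosLp X ^ 2 * F.x ^ 49 := by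
  have hx := hs.x0
  have hx1 := hs.x1
  have hMj : 0 < F.Mj := by linarith [hs.Mj1]
  obtain ⟨L, hLd⟩ : ∃ L, L = F.bosLp X := ⟨_, rfl⟩
  obtain ⟨x, hxd⟩ : ∃ x, x = F.x := ⟨_, rfl⟩
  rw [← hLd] at hL ⊢
  rw [← hxd] at hx hx1 ⊢
  have hω : F.bosOm X = 3 * L * (1 / F.Mj) := by unfold BdFr.bosOm; rw [← hLd]; ring
  have hω0 : 0 ≤ F.bosOm X := by rw [hω]; positivity
  have hω1 : F.bosOm X ≤ 3 * L * x ^ 99 := by
    rw [hω]
    have := hs.Mj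
    rw [← hxd] at this
    exact mul_le_mul_of_nonneg_left this (by positivity)
  have hs0 : Real.sqrt y0 ≠ 0 := (Real.sqrt_pos.mpr hy0).ne'
  have hQ : F.bosQ4 X y0 = 8 * Real.sqrt (F.bosOm X) := by
    unfold BdFr.bosQ4 cmQ4
    have e1 : (1 - 1 / (((3 : ℕ) : ℝ) - 1)) = 1 / 2 := by norm_num
    have e2 : 2 * ((3 : ℕ) : ℝ) / (((3 : ℕ) : ℝ) - 1) = ((3 : ℕ) : ℝ) := by norm_num
    have e3 : 2 * (1 / Real.sqrt y0) * Real.sqrt y0 = 2 := by field_simp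
    rw [e1, e2, e3, Real.rpow_natCast, Real.sqrt_eq_rpow]
    norm_num
    ring
  have hp98 : x ^ 99 ≤ x ^ 98 := pow_le_pow_of_le_one hx.le hx1.le (by norm_num)
  have hsq : Real.sqrt (F.bosOm X) ≤ 2 * L * x ^ 49 := by
    rw [Real.sqrt_le_iff]
    refine ⟨by positivity, hω1.trans ?_⟩
    have e : (2 * L * x ^ 49) ^ 2 = 4 * L ^ 2 * x ^ 98 := by ring
    rw [e]
    have h1 : 3 * L * x ^ 99 ≤ 3 * L * x ^ 98 := mul_le_mul_of_nonneg_left hp98 (by positivity)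
    have h2 : 3 * L * x ^ 98 ≤ 4 * L ^ 2 * x ^ 98 := by
      apply mul_le_mul_of_nonneg_right _ (by positivity)
      nlinarith
    linarith
  have hω2 : F.bosOm X ^ 2 ≤ 9 * L ^ 2 * x ^ 49 := by
    have h1 : F.bosOm X ^ 2 ≤ (3 * L * x ^ 99) ^ 2 := pow_le_pow_left₀ hω0 hω1 2
    have e : (3 * L * x ^ 99) ^ 2 = 9 * L ^ 2 * x ^ 198 := by ring
    have h2 : x ^ 198 ≤ x ^ 49 := pow_le_pow_of_le_one hx.le hx1.le (by norm_num)
    have h3 : 9 * L ^ 2 * x ^ 198 ≤ 9 * L ^ 2 * x ^ 49 := mul_le_mul_of_nonneg_left h2 (by positivity)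
    linarith
  constructor
  · rw [hQ]; positivity
  · rw [hQ]
    have h4 : 2 * L * x ^ 49 ≤ 2 * L ^ 2 * x ^ 49 := by
      apply mul_le_mul_of_nonneg_right _ (by positivity)
      nlinarith
    linarith

/-- the unit trace bound -/
theorem bos_ar_h_T (hs : BosSz F X 1) (hL : 1 ≤ F.bosLp X) {eg : ℝ} (heg : 0 < eg) :
    0 < F.bosT X eg ∧ F.bosT X eg ≤ 6 * F.bosLp X ^ 2 * F.x ^ 6 / eg ∧ 1 / F.bosT X eg * F.x ^ 6 ≤ eg := by
  have hx := hs.x0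
  have hm : (0 : ℝ) < F.m := by exact_mod_cast hs.m0
  obtain ⟨L, hLd⟩ : ∃ L, L = F.bosLp X := ⟨_, rfl⟩
  rw [← hLd] at hL ⊢
  have hL0 : 0 < L := by linarith
  have hT : F.bosT X eg = 3 * L ^ 2 * (1 / (F.m : ℝ)) / eg := by
    unfold BdFr.bosT
    rw [← hLd]
    field_simp
  refine ⟨by rw [hT]; positivity, ?_, ?_⟩
  · rw [hT]
    apply div_le_div_of_nonneg_right _ heg.le
    have := mul_le_mul_of_nonneg_left hs.mx (by positivity : (0:ℝ) ≤ 3 * L ^ 2)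
    linarith
  · have e : 1 / F.bosT X eg * F.x ^ 6 = ((F.m : ℝ) * F.x ^ 6) * eg / (3 * L ^ 2) := by
      rw [hT]
      field_simp
    rw [e, div_le_iff₀ (by positivity)]
    have h1 : (F.m : ℝ) * F.x ^ 6 * eg ≤ 3 * eg := mul_le_mul_of_nonneg_right hs.mx' heg.le
    have h2 : 3 * eg * 1 ≤ 3 * eg * L ^ 2 := mul_le_mul_of_nonneg_left (by nlinarith) (by positivity)
    linarith


/-- the three terms of `bosR3` -/
theorem bos_ar_h_R3 (hX : X.Ok) (hs : BosSz F X 1) {v : ℝ} (hv : 0 < v) (hC : 0 < F.C X v) :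
    0 ≤ (F.x ^ 6 / (F.C X v * v)) ^ (1 / 3 : ℝ) ∧ (F.x ^ 6 / (F.C X v * v)) ^ (1 / 3 : ℝ) ≤ F.bosR3 X v ∧
    0 ≤ F.x ^ 3 / (v * Real.sqrt (F.C X v)) ∧ F.x ^ 3 / (v * Real.sqrt (F.C X v)) ≤ F.bosR3 X v ∧
    F.x ^ 3 ≤ F.bosR3 X v := by
  have hx := hs.x0
  have ha : 0 ≤ (F.x ^ 6 / (F.C X v * v)) ^ (1 / 3 : ℝ) := Real.rpow_nonneg (by positivity) _
  have hb : 0 ≤ F.x ^ 3 / (v * Real.sqrt (F.C X v)) := by positivity
  have hm : (1 : ℝ) ≤ F.m := by exact_mod_cast hs.m0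
  have hd : 0 ≤ X.dPEexp / 2 := by
    unfold BdFix.dPEexp
    have := hX.mPE_pos
    positivity
  have hm1 : 1 ≤ (F.m : ℝ) ^ (X.dPEexp / 2) := Real.one_le_rpow hm hd
  have hc : F.x ^ 3 ≤ (F.m : ℝ) ^ (X.dPEexp / 2) * F.vs X := by
    have h1 : 1 * F.vs X ≤ (F.m : ℝ) ^ (X.dPEexp / 2) * F.vs X := mul_le_mul_of_nonneg_right hm1 hs.vs0.le
    linarith [hs.vsx]
  have hx3 : 0 ≤ F.x ^ 3 := by positivity
  unfold BdFr.bosR3
  refine ⟨ha, by linarith, hb, by linarith, by linarith⟩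

/-- abstract bookkeeping for `cm6bOrd` -/
theorem bos_ar_h_ord {G v' y0 ω q4 T th L y Uu k1 k2 k3 k4 Cg Cl : ℝ} (hG : 0 ≤ G)
    (hlg0 : 0 ≤ 1 + Real.log (1 + G * v' / th)) (hlg : 1 + Real.log (1 + G * v' / th) ≤ Cg * y)
    (hL0 : 0 ≤ L) (hL : L ≤ Cl * y) (hy : 1 ≤ y) (hU : 0 ≤ Uu)
    (ha : v' * (y0 * T / v' ^ 2) ^ (2 / 3 : ℝ) ≤ k1 * L ^ 2 * Uu) (hb : v' * (T / v' ^ 2) ≤ k2 * L ^ 2 * Uu)
    (hc : v' * (ω ^ 2 + q4) ≤ k3 * L ^ 2 * Uu) (hd : (3 + (y0 ^ 2 * v' ^ 2 / T) ^ (1 / 3 : ℝ)) * th ≤ k4 * Uu)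
    (hk : 0 ≤ k1 + k2 + k3) (hk4 : 0 ≤ k4) :
    cm6bOrd G v' y0 ω q4 T th ≤ (10000000 * G ^ 3 * Cg ^ 2 * Cl ^ 2 * (k1 + k2 + k3) + 1000000 * k4) * (y ^ 4 * Uu) := by
  unfold cm6bOrd
  obtain ⟨lg, hlgd⟩ : ∃ lg, lg = 1 + Real.log (1 + G * v' / th) := ⟨_, rfl⟩
  rw [← hlgd] at hlg0 hlg ⊢
  have hy0 : 0 ≤ y := by linarith
  have hS : v' * ((y0 * T / v' ^ 2) ^ (2 / 3 : ℝ) + T / v' ^ 2 + ω ^ 2 + q4) ≤ (k1 + k2 + k3) * (L ^ 2 * Uu) := by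
    have e : v' * ((y0 * T / v' ^ 2) ^ (2 / 3 : ℝ) + T / v' ^ 2 + ω ^ 2 + q4)
        = v' * (y0 * T / v' ^ 2) ^ (2 / 3 : ℝ) + v' * (T / v' ^ 2) + v' * (ω ^ 2 + q4) := by ring
    rw [e]
    linarith
  have hL2 : L ^ 2 ≤ (Cl * y) ^ 2 := pow_le_pow_left₀ hL0 hL 2
  have hlg2 : lg ^ 2 ≤ (Cg * y) ^ 2 := pow_le_pow_left₀ hlg0 hlg 2
  have hS2 : (k1 + k2 + k3) * (L ^ 2 * Uu) ≤ (k1 + k2 + k3) * ((Cl * y) ^ 2 * Uu) :=
    mul_le_mul_of_nonneg_left (mul_le_mul_of_nonneg_right hL2 hU) hk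
  have hB0 : 0 ≤ (k1 + k2 + k3) * ((Cl * y) ^ 2 * Uu) := by positivity
  have h1 : lg ^ 2 * (v' * ((y0 * T / v' ^ 2) ^ (2 / 3 : ℝ) + T / v' ^ 2 + ω ^ 2 + q4))
      ≤ (Cg * y) ^ 2 * ((k1 + k2 + k3) * ((Cl * y) ^ 2 * Uu)) :=
    (mul_le_mul_of_nonneg_left (hS.trans hS2) (sq_nonneg lg)).trans (mul_le_mul_of_nonneg_right hlg2 hB0)
  have h2 : 10000000 * G ^ 3 * lg ^ 2 * (v' * ((y0 * T / v' ^ 2) ^ (2 / 3 : ℝ) + T / v' ^ 2 + ω ^ 2 + q4))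
      ≤ 10000000 * G ^ 3 * ((Cg * y) ^ 2 * ((k1 + k2 + k3) * ((Cl * y) ^ 2 * Uu))) := by
    have := mul_le_mul_of_nonneg_left h1 (by positivity : 0 ≤ 10000000 * G ^ 3)
    calc _ = 10000000 * G ^ 3 * (lg ^ 2 * (v' * ((y0 * T / v' ^ 2) ^ (2 / 3 : ℝ) + T / v' ^ 2 + ω ^ 2 + q4))) := by ring
      _ ≤ _ := this
  have hy4 : 1 ≤ y ^ 4 := one_le_pow₀ hy
  have h3 : k4 * Uu * 1 ≤ k4 * Uu * y ^ 4 := mul_le_mul_of_nonneg_left hy4 (by positivity)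
  have h4 : 1000000 * (3 + (y0 ^ 2 * v' ^ 2 / T) ^ (1 / 3 : ℝ)) * th ≤ 1000000 * (k4 * Uu * y ^ 4) := by
    have : 1000000 * (3 + (y0 ^ 2 * v' ^ 2 / T) ^ (1 / 3 : ℝ)) * th = 1000000 * ((3 + (y0 ^ 2 * v' ^ 2 / T) ^ (1 / 3 : ℝ)) * th) := by ring
    rw [this]
    linarith
  calc _ ≤ 10000000 * G ^ 3 * ((Cg * y) ^ 2 * ((k1 + k2 + k3) * ((Cl * y) ^ 2 * Uu))) + 1000000 * (k4 * Uu * y ^ 4) := add_le_add h2 h4
    _ = _ := by ring

/-- `(3 + w^(1/3)) x^100 ≤ (4 + a) x^94` if `w x⁶ ≤ a` -/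
theorem bos_ar_h_th {x w a : ℝ} (hx : 0 < x) (hx1 : x < 1) (hw : 0 ≤ w) (hwa : w * x ^ 6 ≤ a) :
    (3 + w ^ (1 / 3 : ℝ)) * x ^ 100 ≤ (4 + a) * x ^ 94 := by
  have h1 := bos_ar_h_13 hw
  have h100 : 0 ≤ x ^ 100 := by positivity
  have h94 : 0 ≤ x ^ 94 := by positivity
  have h2 : (3 + w ^ (1 / 3 : ℝ)) * x ^ 100 ≤ (4 + w) * x ^ 100 := mul_le_mul_of_nonneg_right (by linarith) h100
  have h3 : x ^ 100 ≤ x ^ 94 := pow_le_pow_of_le_one hx.le hx1.le (by norm_num)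
  have h4 : w * x ^ 100 = (w * x ^ 6) * x ^ 94 := by ring
  have h5 : (w * x ^ 6) * x ^ 94 ≤ a * x ^ 94 := mul_le_mul_of_nonneg_right hwa h94
  nlinarith


/-- `T(ce C(v))/v ≤ (6/ce) L² v R3²` -/
theorem bos_ar_h_Tv (hX : X.Ok) (hs : BosSz F X 1) (hL : 1 ≤ F.bosLp X) {ce v : ℝ} (hce : 0 < ce) (hv : 0 < v) (hC : 0 < F.C X v) :
    F.bosT X (ce * F.C X v) / v ≤ 6 / ce * F.bosLp X ^ 2 * (v * F.bosR3 X v ^ 2) := by
  obtain ⟨-, hT, -⟩ := bos_ar_h_T hs hL (mul_pos hce hC)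
  obtain ⟨-, -, hb0, hb, -⟩ := bos_ar_h_R3 hX hs hv hC
  have hsq : (F.x ^ 3 / (v * Real.sqrt (F.C X v))) ^ 2 = F.x ^ 6 / (v ^ 2 * F.C X v) := by
    rw [div_pow, mul_pow, Real.sq_sqrt hC.le]
    ring
  have h1 : (F.x ^ 3 / (v * Real.sqrt (F.C X v))) ^ 2 ≤ F.bosR3 X v ^ 2 := pow_le_pow_left₀ hb0 hb 2
  have hL0 : 0 < F.bosLp X := by linarith
  calc F.bosT X (ce * F.C X v) / v ≤ (6 * F.bosLp X ^ 2 * F.x ^ 6 / (ce * F.C X v)) / v :=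
        div_le_div_of_nonneg_right hT hv.le
    _ = 6 / ce * F.bosLp X ^ 2 * (v * (F.x ^ 6 / (v ^ 2 * F.C X v))) := by field_simp
    _ ≤ 6 / ce * F.bosLp X ^ 2 * (v * F.bosR3 X v ^ 2) := by
        rw [← hsq]
        exact mul_le_mul_of_nonneg_left (mul_le_mul_of_nonneg_left h1 hv.le) (by positivity)

/-- (a) of A1, on real numbers -/
theorem bos_ar_r_a {Cy ce v T L x Cv R : ℝ} (hCy : 0 < Cy) (hce : 0 < ce) (hv0 : 0 < v) (hT0 : 0 < T) (hL : 1 ≤ L) (hx : 0 < x)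
    (hC : 0 < Cv) (hT : T ≤ 6 * L ^ 2 * x ^ 6 / (ce * Cv)) (ha : (x ^ 6 / (Cv * v)) ^ (1 / 3 : ℝ) ≤ R) :
    v / 2 * (Cy * v * T / (v / 2) ^ 2) ^ (2 / 3 : ℝ) ≤ (1 + 24 * Cy / ce) * L ^ 2 * (v * R ^ 2) := by
  have hL0 : 0 < L := by linarith
  have ha0 : 0 ≤ (x ^ 6 / (Cv * v)) ^ (1 / 3 : ℝ) := Real.rpow_nonneg (by positivity) _
  have hk : 0 ≤ 24 * Cy / ce := by positivity
  have hw : Cy * v * T / (v / 2) ^ 2 ≤ ((1 + 24 * Cy / ce) * L ^ 2) * (x ^ 6 / (Cv * v)) := by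
    have e1 : Cy * v * T / (v / 2) ^ 2 = 4 * Cy / v * T := by field_simp; ring
    have e2 : 4 * Cy / v * (6 * L ^ 2 * x ^ 6 / (ce * Cv)) = (24 * Cy / ce * L ^ 2) * (x ^ 6 / (Cv * v)) := by field_simp; ring
    have h1 : 4 * Cy / v * T ≤ 4 * Cy / v * (6 * L ^ 2 * x ^ 6 / (ce * Cv)) := mul_le_mul_of_nonneg_left hT (by positivity)
    have h2 : (24 * Cy / ce * L ^ 2) * (x ^ 6 / (Cv * v)) ≤ ((1 + 24 * Cy / ce) * L ^ 2) * (x ^ 6 / (Cv * v)) := by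
      apply mul_le_mul_of_nonneg_right _ (by positivity)
      apply mul_le_mul_of_nonneg_right _ (by positivity)
      linarith
    rw [e1]
    linarith
  have hK1 : 1 ≤ (1 + 24 * Cy / ce) * L ^ 2 := by
    have h1 : (1:ℝ) ≤ L ^ 2 := one_le_pow₀ hL
    have h2 : (1:ℝ) ≤ 1 + 24 * Cy / ce := by linarith
    calc (1:ℝ) = 1 * 1 := by ring
      _ ≤ (1 + 24 * Cy / ce) * L ^ 2 := mul_le_mul h2 h1 (by norm_num) (by linarith)
  have h23 := bos_ar_h_23 (K := (1 + 24 * Cy / ce) * L ^ 2) (z := x ^ 6 / (Cv * v)) hK1 (by positivity) (by positivity) hw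
  have h3 : ((x ^ 6 / (Cv * v)) ^ (1 / 3 : ℝ)) ^ 2 ≤ R ^ 2 := pow_le_pow_left₀ ha0 ha 2
  have h4 : (1 + 24 * Cy / ce) * L ^ 2 * ((x ^ 6 / (Cv * v)) ^ (1 / 3 : ℝ)) ^ 2 ≤ (1 + 24 * Cy / ce) * L ^ 2 * R ^ 2 :=
    mul_le_mul_of_nonneg_left h3 (by positivity)
  have h6 : 0 ≤ (1 + 24 * Cy / ce) * L ^ 2 * R ^ 2 := by positivity
  calc v / 2 * (Cy * v * T / (v / 2) ^ 2) ^ (2 / 3 : ℝ) ≤ v / 2 * ((1 + 24 * Cy / ce) * L ^ 2 * R ^ 2) :=
        mul_le_mul_of_nonneg_left (h23.trans h4) (by positivity)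
    _ ≤ v * ((1 + 24 * Cy / ce) * L ^ 2 * R ^ 2) := mul_le_mul_of_nonneg_right (by linarith) h6
    _ = (1 + 24 * Cy / ce) * L ^ 2 * (v * R ^ 2) := by ring

/-- (d) of A1, on real numbers -/
theorem bos_ar_r_d {Cy ce v T x Cv R : ℝ} (hCy : 0 < Cy) (hce : 0 < ce) (hv0 : 0 < v) (hv1 : v ≤ 1) (hT0 : 0 < T) (hx : 0 < x) (hx1 : x < 1)
    (hC : 0 < Cv) (hC1 : Cv ≤ 1) (hTi : 1 / T * x ^ 6 ≤ ce * Cv) (hwx : x ^ 10 ≤ v) (hR6 : x ^ 6 ≤ R ^ 2) :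
    (3 + ((Cy * v) ^ 2 * (v / 2) ^ 2 / T) ^ (1 / 3 : ℝ)) * x ^ 100 ≤ (4 + Cy ^ 2 * ce) * (v * R ^ 2) := by
  have hw : (Cy * v) ^ 2 * (v / 2) ^ 2 / T * x ^ 6 ≤ Cy ^ 2 * ce := by
    have e1 : (Cy * v) ^ 2 * (v / 2) ^ 2 / T * x ^ 6 = (Cy ^ 2 * (v ^ 4 / 4)) * (1 / T * x ^ 6) := by
      field_simp
      norm_num
    rw [e1]
    have hv4 : v ^ 4 / 4 ≤ 1 := by
      have : v ^ 4 ≤ 1 := pow_le_one₀ hv0.le hv1
      linarith
    have h1 : 1 / T * x ^ 6 ≤ ce := hTi.trans (by nlinarith)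
    have h0 : 0 ≤ 1 / T * x ^ 6 := by positivity
    calc (Cy ^ 2 * (v ^ 4 / 4)) * (1 / T * x ^ 6) ≤ (Cy ^ 2 * 1) * ce :=
          mul_le_mul (mul_le_mul_of_nonneg_left hv4 (by positivity)) h1 h0 (by positivity)
      _ = Cy ^ 2 * ce := by ring
  have h1 := bos_ar_h_th hx hx1 (by positivity) hw
  have h94 : x ^ 94 ≤ x ^ 16 := pow_le_pow_of_le_one hx.le hx1.le (by norm_num)
  have h16 : x ^ 16 ≤ v * R ^ 2 := by
    calc x ^ 16 = x ^ 10 * x ^ 6 := by ring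
      _ ≤ v * R ^ 2 := mul_le_mul hwx hR6 (by positivity) hv0.le
  exact h1.trans (mul_le_mul_of_nonneg_left (h94.trans h16) (by positivity))

/-- (c) of A1, A2: caps against `R²` -/
theorem bos_ar_r_c {L x R Q : ℝ} (hx : 0 < x) (hx1 : x < 1) (hR6 : x ^ 6 ≤ R ^ 2) (hcap : Q ≤ 25 * L ^ 2 * x ^ 49) :
    Q ≤ 25 * L ^ 2 * R ^ 2 := by
  have hx49 : x ^ 49 ≤ x ^ 6 := pow_le_pow_of_le_one hx.le hx1.le (by norm_num)
  exact hcap.trans (mul_le_mul_of_nonneg_left (hx49.trans hR6) (by positivity))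

/-- A2 on real numbers -/
theorem bos_ar_r_sl {v vb Q T L P U k Cb Cl : ℝ} (hv : 0 < v) (hvb0 : 0 ≤ vb) (hvb : vb ≤ Cb * v) (hQ0 : 0 ≤ Q)
    (hQ : v * Q ≤ 25 * L ^ 2 * U) (hT0 : 0 ≤ T) (hTv : T / v ≤ k * L ^ 2 * U) (hL0 : 0 ≤ L) (hLs : L ≤ Cl * P)
    (hk : 0 ≤ k) (hCb : 0 < Cb) (hU : 0 ≤ U) :
    200000 * (vb * Q + 8 / v ^ 2 * (T * vb)) ≤ (200000 * (25 * Cb + 8 * Cb * k) * Cl ^ 2) * (P ^ 2 * U) := by
  have h1 : vb * Q ≤ Cb * (25 * L ^ 2 * U) := by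
    calc vb * Q ≤ (Cb * v) * Q := mul_le_mul_of_nonneg_right hvb hQ0
      _ = Cb * (v * Q) := by ring
      _ ≤ Cb * (25 * L ^ 2 * U) := mul_le_mul_of_nonneg_left hQ hCb.le
  have h2 : 8 / v ^ 2 * (T * vb) ≤ 8 * Cb * (k * L ^ 2 * U) := by
    calc 8 / v ^ 2 * (T * vb) ≤ 8 / v ^ 2 * (T * (Cb * v)) :=
          mul_le_mul_of_nonneg_left (mul_le_mul_of_nonneg_left hvb hT0) (by positivity)
      _ = 8 * Cb * (T / v) := by field_simp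
      _ ≤ 8 * Cb * (k * L ^ 2 * U) := mul_le_mul_of_nonneg_left hTv (by positivity)
  have hL2 : L ^ 2 ≤ (Cl * P) ^ 2 := pow_le_pow_left₀ hL0 hLs 2
  have h3 : (25 * Cb + 8 * Cb * k) * (L ^ 2 * U) ≤ (25 * Cb + 8 * Cb * k) * ((Cl * P) ^ 2 * U) :=
    mul_le_mul_of_nonneg_left (mul_le_mul_of_nonneg_right hL2 hU) (by positivity)
  calc 200000 * (vb * Q + 8 / v ^ 2 * (T * vb)) ≤ 200000 * ((25 * Cb + 8 * Cb * k) * (L ^ 2 * U)) := by nlinarith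
    _ ≤ 200000 * ((25 * Cb + 8 * Cb * k) * ((Cl * P) ^ 2 * U)) := by linarith
    _ = _ := by ring

/-- A5 on real numbers -/
theorem bos_ar_r_sw {w k0 t CR ce c1 m L C0 x P Cl : ℝ} (hw : 0 < w) (hk0 : 0 < k0) (ht : 0 < t) (hCR : 0 < CR) (hce : 0 < ce)
    (hc1 : 0 < c1) (hm : 0 < m) (hL0 : 0 < L) (hC0 : 0 < C0) (hx : 0 < x) (hmx : 1 / m ≤ 2 * x ^ 6) (hLs : L ≤ Cl * P)
    (hCl : 0 < Cl) (hP : 0 < P) :
    bosSwR (t * w) (CR * w) (CR * w) (m / L) (ce * C0) (c1 * w) k0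
      ≤ (600000 * CR ^ 2 * t + (1 + 300000 * Cl * (2 * CR / (ce * c1) + 2 * CR / (ce * c1 ^ 2))) * P
          * (x ^ 6 / (C0 * w ^ 4) / (k0 * t) + x ^ 6 / (C0 * w ^ 4))) * w ^ 3 := by
  unfold bosSwR
  obtain ⟨a, had⟩ : ∃ a, a = x ^ 6 / (C0 * w ^ 4) / (k0 * t) := ⟨_, rfl⟩
  obtain ⟨b, hbd⟩ : ∃ b, b = x ^ 6 / (C0 * w ^ 4) := ⟨_, rfl⟩
  have ha0 : 0 ≤ a := by rw [had]; positivity
  have hb0 : 0 ≤ b := by rw [hbd]; positivity
  have e2 : CR * w / (m / L * (ce * C0) * (c1 * w) * k0 * (t * w)) = CR / (ce * c1) * L * (1 / m) * (1 / (C0 * w * k0 * t)) := by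
    field_simp
  have e3 : CR * w / (m / L * (ce * C0) * (c1 * w) ^ 2) = CR / (ce * c1 ^ 2) * L * (1 / m) * (1 / (C0 * w)) := by
    field_simp
  have h2 : CR / (ce * c1) * L * (1 / m) * (1 / (C0 * w * k0 * t)) ≤ 2 * CR / (ce * c1) * (Cl * P) * (a * w ^ 3) := by
    have e : 2 * CR / (ce * c1) * (Cl * P) * (a * w ^ 3) = CR / (ce * c1) * (Cl * P) * (2 * x ^ 6) * (1 / (C0 * w * k0 * t)) := by
      rw [had]; field_simp
    rw [e]
    apply mul_le_mul_of_nonneg_right _ (by positivity)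
    exact mul_le_mul (mul_le_mul_of_nonneg_left hLs (by positivity)) hmx (by positivity) (by positivity)
  have h3 : CR / (ce * c1 ^ 2) * L * (1 / m) * (1 / (C0 * w)) ≤ 2 * CR / (ce * c1 ^ 2) * (Cl * P) * (b * w ^ 3) := by
    have e : 2 * CR / (ce * c1 ^ 2) * (Cl * P) * (b * w ^ 3) = CR / (ce * c1 ^ 2) * (Cl * P) * (2 * x ^ 6) * (1 / (C0 * w)) := by
      rw [hbd]; field_simp
    rw [e]
    apply mul_le_mul_of_nonneg_right _ (by positivity)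
    exact mul_le_mul (mul_le_mul_of_nonneg_left hLs (by positivity)) hmx (by positivity) (by positivity)
  rw [e2, e3, ← had, ← hbd]
  obtain ⟨α, hα⟩ : ∃ α, α = 2 * CR / (ce * c1) := ⟨_, rfl⟩
  obtain ⟨β, hβ⟩ : ∃ β, β = 2 * CR / (ce * c1 ^ 2) := ⟨_, rfl⟩
  have hα0 : 0 ≤ α := by rw [hα]; positivity
  have hβ0 : 0 ≤ β := by rw [hβ]; positivity
  rw [← hα] at h2 ⊢
  rw [← hβ] at h3 ⊢
  have c1' : 0 ≤ α * (Cl * P) * (b * w ^ 3) := by positivity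
  have c2' : 0 ≤ β * (Cl * P) * (a * w ^ 3) := by positivity
  have c3' : 0 ≤ P * (a + b) * w ^ 3 := by positivity
  have e4 : (600000 * CR ^ 2 * t + (1 + 300000 * Cl * (α + β)) * P * (a + b)) * w ^ 3
      = 300000 * (t * w * ((CR * w) ^ 2 + (CR * w) ^ 2) + (α * (Cl * P) * (a * w ^ 3) + α * (Cl * P) * (b * w ^ 3))
          + (β * (Cl * P) * (b * w ^ 3) + β * (Cl * P) * (a * w ^ 3))) + P * (a + b) * w ^ 3 := by ring
  rw [e4]
  linarith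

/-- A4 on real numbers -/
theorem bos_ar_r_kap {κ u Λ m L x a1 G Y CR ce cv CU : ℝ} (hκ0 : 0 ≤ κ) (hu : 0 < u) (hΛ : 0 < Λ) (hm : 0 < m) (hL : 1 ≤ L)
    (hx : 0 < x) (ha1 : 0 < a1) (hG : 0 < G) (hY : Y = x ^ 3 * a1 * G) (hκ : κ / Λ ≤ a1 ^ 2 * G ^ 2) (hYu : Y ≤ CU ^ 3 * u ^ 3)
    (hmx : 1 / m ≤ 2 * x ^ 6) (hCR : 0 < CR) (hce : 0 < ce) (hcv : 0 < cv) (hCU : 0 < CU) :
    bosKap κ (CR * u) (CR * u) (m / L) (ce * (u ^ 2 * Λ)) (cv * u)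
      ≤ 300000 * (2 * (1 + 4 * CR ^ 3 / (ce * cv)) + 2 * CR * CU ^ 3 / (ce * cv ^ 2)) * (L * Y) := by
  unfold bosKap
  have hL0 : 0 < L := by linarith
  have hY0 : 0 < Y := by rw [hY]; positivity
  have hκΛ0 : 0 ≤ κ / Λ := by positivity
  obtain ⟨A, hA⟩ : ∃ A, A = 4 * CR ^ 3 / (ce * cv) := ⟨_, rfl⟩
  have hA0 : 0 < A := by rw [hA]; positivity
  have hκm : κ / Λ * (1 / m) ≤ a1 ^ 2 * G ^ 2 * (2 * x ^ 6) := mul_le_mul hκ hmx (by positivity) (by positivity)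
  have eY2 : a1 ^ 2 * G ^ 2 * (2 * x ^ 6) = 2 * Y ^ 2 := by rw [hY]; ring
  rw [eY2] at hκm
  have h1 : κ * (((CR * u) ^ 2 + (CR * u) ^ 2) * (CR * u) / (m / L * (ce * (u ^ 2 * Λ)) * (cv * u))) ≤ A * L * Y ^ 2 := by
    have e : κ * (((CR * u) ^ 2 + (CR * u) ^ 2) * (CR * u) / (m / L * (ce * (u ^ 2 * Λ)) * (cv * u)))
        = (2 * CR ^ 3 / (ce * cv) * L) * (κ / Λ * (1 / m)) := by
      field_simp
      ring
    rw [e]
    have := mul_le_mul_of_nonneg_left hκm (by positivity : 0 ≤ 2 * CR ^ 3 / (ce * cv) * L)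
    refine this.trans (le_of_eq ?_)
    rw [hA]
    ring
  have h2 : Real.sqrt (κ * (((CR * u) ^ 2 + (CR * u) ^ 2) * (CR * u) / (m / L * (ce * (u ^ 2 * Λ)) * (cv * u)))) ≤ (1 + A) * (L * Y) := by
    rw [Real.sqrt_le_iff]
    refine ⟨by positivity, h1.trans ?_⟩
    have e : ((1 + A) * (L * Y)) ^ 2 = ((1 + A) ^ 2 * L) * (L * Y ^ 2) := by ring
    have e' : A * L * Y ^ 2 = A * (L * Y ^ 2) := by ring
    rw [e, e']
    apply mul_le_mul_of_nonneg_right _ (by positivity)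
    have : (1 + A) ^ 2 * 1 ≤ (1 + A) ^ 2 * L := mul_le_mul_of_nonneg_left hL (by positivity)
    nlinarith
  have h3 : κ * (CR * u / (m / L * (ce * (u ^ 2 * Λ)) * (cv * u) ^ 2)) ≤ 2 * CR * CU ^ 3 / (ce * cv ^ 2) * (L * Y) := by
    have e : κ * (CR * u / (m / L * (ce * (u ^ 2 * Λ)) * (cv * u) ^ 2)) = (CR / (ce * cv ^ 2) * L / u ^ 3) * (κ / Λ * (1 / m)) := by
      field_simp
    rw [e]
    have h4 := mul_le_mul_of_nonneg_left hκm (by positivity : 0 ≤ CR / (ce * cv ^ 2) * L / u ^ 3)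
    refine h4.trans ?_
    have e2 : CR / (ce * cv ^ 2) * L / u ^ 3 * (2 * Y ^ 2) = (2 * CR / (ce * cv ^ 2) * (L * Y)) * (Y / u ^ 3) := by
      field_simp
    have e3 : 2 * CR * CU ^ 3 / (ce * cv ^ 2) * (L * Y) = (2 * CR / (ce * cv ^ 2) * (L * Y)) * CU ^ 3 := by
      field_simp
    rw [e2, e3]
    apply mul_le_mul_of_nonneg_left _ (by positivity)
    rw [div_le_iff₀ (by positivity)]
    exact hYu
  rw [← hA]
  nlinarith

/-- `w0^(2/3) ≤ K z^(2/3) w²` if `w0 ≤ K z w³` -/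
theorem bos_ar_h_23b {K z w w0 : ℝ} (hK : 1 ≤ K) (hz : 0 ≤ z) (hw : 0 ≤ w) (hw0 : 0 ≤ w0) (h : w0 ≤ K * (z * w ^ 3)) :
    w0 ^ (2 / 3 : ℝ) ≤ K * (z ^ (2 / 3 : ℝ) * w ^ 2) := by
  have hK0 : 0 ≤ K := by linarith
  have hw3 : 0 ≤ w ^ 3 := by positivity
  have e : (w ^ 3) ^ (2 / 3 : ℝ) = w ^ 2 := by
    rw [← Real.rpow_natCast w 3, ← Real.rpow_mul hw, ← Real.rpow_natCast w 2]
    norm_num
  calc w0 ^ (2 / 3 : ℝ) ≤ (K * (z * w ^ 3)) ^ (2 / 3 : ℝ) := Real.rpow_le_rpow hw0 h (by norm_num)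
    _ = K ^ (2 / 3 : ℝ) * (z ^ (2 / 3 : ℝ) * w ^ 2) := by
        rw [Real.mul_rpow hK0 (by positivity), Real.mul_rpow hz hw3, e]
    _ ≤ K ^ (1 : ℝ) * (z ^ (2 / 3 : ℝ) * w ^ 2) :=
        mul_le_mul_of_nonneg_right (Real.rpow_le_rpow_of_exponent_le hK (by norm_num))
          (mul_nonneg (Real.rpow_nonneg hz _) (by positivity))
    _ = K * (z ^ (2 / 3 : ℝ) * w ^ 2) := by rw [Real.rpow_one]

/-- A6 on real numbers: the four inputs of `bos_ar_h_ord` and the two of `bos_ar_r_sl`; `U = (z^(2/3) + z) w³`, `z = x⁶/(C0 w⁴)` -/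
theorem bos_ar_r_nf {c1 Cy ce w T L x C0 Q : ℝ} (hc1 : 0 < c1) (hCy : 0 < Cy) (hce : 0 < ce) (hw0 : 0 < w) (hw1 : w ≤ 1)
    (hT0 : 0 < T) (hL : 1 ≤ L) (hx : 0 < x) (hx1 : x < 1) (hC0 : 0 < C0) (hC1 : C0 ≤ 1)
    (hT : T ≤ 6 * L ^ 2 * x ^ 6 / (ce * C0)) (hTi : 1 / T * x ^ 6 ≤ ce * C0) (hQ0 : 0 ≤ Q) (hQ : Q ≤ 25 * L ^ 2 * x ^ 49) :
    0 ≤ ((x ^ 6 / (C0 * w ^ 4)) ^ (2 / 3 : ℝ) + x ^ 6 / (C0 * w ^ 4)) * w ^ 3 ∧
    c1 * w / 2 * (Cy * w * T / (c1 * w / 2) ^ 2) ^ (2 / 3 : ℝ)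
      ≤ (c1 * (1 + 24 * Cy / (c1 ^ 2 * ce))) * L ^ 2 * (((x ^ 6 / (C0 * w ^ 4)) ^ (2 / 3 : ℝ) + x ^ 6 / (C0 * w ^ 4)) * w ^ 3) ∧
    c1 * w / 2 * (T / (c1 * w / 2) ^ 2)
      ≤ (12 / (c1 * ce)) * L ^ 2 * (((x ^ 6 / (C0 * w ^ 4)) ^ (2 / 3 : ℝ) + x ^ 6 / (C0 * w ^ 4)) * w ^ 3) ∧
    c1 * w / 2 * Q ≤ (25 * c1) * L ^ 2 * (((x ^ 6 / (C0 * w ^ 4)) ^ (2 / 3 : ℝ) + x ^ 6 / (C0 * w ^ 4)) * w ^ 3) ∧
    (3 + ((Cy * w) ^ 2 * (c1 * w / 2) ^ 2 / T) ^ (1 / 3 : ℝ)) * x ^ 100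
      ≤ (4 + Cy ^ 2 * c1 ^ 2 * ce) * (((x ^ 6 / (C0 * w ^ 4)) ^ (2 / 3 : ℝ) + x ^ 6 / (C0 * w ^ 4)) * w ^ 3) ∧
    c1 * w * Q ≤ 25 * L ^ 2 * (c1 * (((x ^ 6 / (C0 * w ^ 4)) ^ (2 / 3 : ℝ) + x ^ 6 / (C0 * w ^ 4)) * w ^ 3)) ∧
    T / (c1 * w) ≤ 6 / (ce * c1 ^ 2) * L ^ 2 * (c1 * (((x ^ 6 / (C0 * w ^ 4)) ^ (2 / 3 : ℝ) + x ^ 6 / (C0 * w ^ 4)) * w ^ 3)) := by
  obtain ⟨z, hz⟩ : ∃ z, z = x ^ 6 / (C0 * w ^ 4) := ⟨_, rfl⟩
  rw [← hz]
  have hz0 : 0 < z := by rw [hz]; positivity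
  obtain ⟨z23, hz23⟩ : ∃ z23, z23 = z ^ (2 / 3 : ℝ) := ⟨_, rfl⟩
  have hz230 : 0 ≤ z23 := by rw [hz23]; exact Real.rpow_nonneg hz0.le _
  have hL0 : 0 < L := by linarith
  have hw3 : 0 < w ^ 3 := by positivity
  obtain ⟨U, hU⟩ : ∃ U, U = (z23 + z) * w ^ 3 := ⟨_, rfl⟩
  have hU0 : 0 ≤ U := by rw [hU]; positivity
  have hzU : z * w ^ 3 ≤ U := by
    rw [hU]
    exact mul_le_mul_of_nonneg_right (by linarith) hw3.le
  have hz23U : z23 * w ^ 3 ≤ U := by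
    rw [hU]
    exact mul_le_mul_of_nonneg_right (by linarith) hw3.le
  have ezw : z * w ^ 3 = x ^ 6 / (C0 * w) := by rw [hz]; field_simp
  have hx6 : x ^ 6 ≤ z * w ^ 3 := by
    rw [ezw, le_div_iff₀ (by positivity)]
    have : C0 * w ≤ 1 := by nlinarith
    have h6 : 0 ≤ x ^ 6 := by positivity
    nlinarith
  have hTw : T / w ≤ 6 / ce * L ^ 2 * (z * w ^ 3) := by
    rw [ezw]
    calc T / w ≤ (6 * L ^ 2 * x ^ 6 / (ce * C0)) / w := div_le_div_of_nonneg_right hT hw0.le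
      _ = 6 / ce * L ^ 2 * (x ^ 6 / (C0 * w)) := by field_simp
  have hx49 : x ^ 49 ≤ x ^ 6 := pow_le_pow_of_le_one hx.le hx1.le (by norm_num)
  have hQU : Q ≤ 25 * L ^ 2 * U := hQ.trans (mul_le_mul_of_nonneg_left (hx49.trans (hx6.trans hzU)) (by positivity))
  have hwQ : w * Q ≤ 25 * L ^ 2 * U := by
    calc w * Q ≤ 1 * Q := mul_le_mul_of_nonneg_right hw1 hQ0
      _ = Q := one_mul _
      _ ≤ _ := hQU
  rw [← hz23, ← hU]
  refine ⟨hU0, ?_, ?_, ?_, ?_, ?_, ?_⟩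
  · obtain ⟨k, hk⟩ : ∃ k, k = 24 * Cy / (c1 ^ 2 * ce) := ⟨_, rfl⟩
    have hk0 : 0 ≤ k := by rw [hk]; positivity
    rw [← hk]
    have hK1 : 1 ≤ (1 + k) * L ^ 2 := by
      have h1 : (1:ℝ) ≤ L ^ 2 := one_le_pow₀ hL
      calc (1:ℝ) = 1 * 1 := by ring
        _ ≤ (1 + k) * L ^ 2 := mul_le_mul (by linarith) h1 (by norm_num) (by linarith)
    have hw' : Cy * w * T / (c1 * w / 2) ^ 2 ≤ ((1 + k) * L ^ 2) * (z * w ^ 3) := by
      have e1 : Cy * w * T / (c1 * w / 2) ^ 2 = 4 * Cy / c1 ^ 2 * (T / w) := by field_simp; ring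
      rw [e1]
      have h1 := mul_le_mul_of_nonneg_left hTw (by positivity : 0 ≤ 4 * Cy / c1 ^ 2)
      have e2 : 4 * Cy / c1 ^ 2 * (6 / ce * L ^ 2 * (z * w ^ 3)) = (k * L ^ 2) * (z * w ^ 3) := by
        rw [hk]; field_simp; ring
      rw [e2] at h1
      refine h1.trans (mul_le_mul_of_nonneg_right ?_ (by positivity))
      exact mul_le_mul_of_nonneg_right (by linarith) (by positivity)
    have h23 := bos_ar_h_23b hK1 hz0.le hw0.le (by positivity) hw'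
    rw [← hz23] at h23
    calc c1 * w / 2 * (Cy * w * T / (c1 * w / 2) ^ 2) ^ (2 / 3 : ℝ) ≤ c1 * w / 2 * ((1 + k) * L ^ 2 * (z23 * w ^ 2)) :=
          mul_le_mul_of_nonneg_left h23 (by positivity)
      _ = (c1 * (1 + k) * L ^ 2 / 2) * (z23 * w ^ 3) := by ring
      _ ≤ (c1 * (1 + k) * L ^ 2 / 2) * U := mul_le_mul_of_nonneg_left hz23U (by positivity)
      _ ≤ (c1 * (1 + k) * L ^ 2) * U := mul_le_mul_of_nonneg_right (by
            have : 0 ≤ c1 * (1 + k) * L ^ 2 := by positivity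
            linarith) hU0
  · have e1 : c1 * w / 2 * (T / (c1 * w / 2) ^ 2) = 2 / c1 * (T / w) := by field_simp
    rw [e1]
    calc 2 / c1 * (T / w) ≤ 2 / c1 * (6 / ce * L ^ 2 * (z * w ^ 3)) := mul_le_mul_of_nonneg_left hTw (by positivity)
      _ = 12 / (c1 * ce) * L ^ 2 * (z * w ^ 3) := by field_simp; ring
      _ ≤ 12 / (c1 * ce) * L ^ 2 * U := mul_le_mul_of_nonneg_left hzU (by positivity)
  · calc c1 * w / 2 * Q = c1 / 2 * (w * Q) := by ring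
      _ ≤ c1 / 2 * (25 * L ^ 2 * U) := mul_le_mul_of_nonneg_left hwQ (by positivity)
      _ ≤ c1 * (25 * L ^ 2 * U) := mul_le_mul_of_nonneg_right (by linarith) (by positivity)
      _ = 25 * c1 * L ^ 2 * U := by ring
  · have hw' : (Cy * w) ^ 2 * (c1 * w / 2) ^ 2 / T * x ^ 6 ≤ Cy ^ 2 * c1 ^ 2 * ce := by
      have e1 : (Cy * w) ^ 2 * (c1 * w / 2) ^ 2 / T * x ^ 6 = (Cy ^ 2 * c1 ^ 2 * (w ^ 4 / 4)) * (1 / T * x ^ 6) := by
        field_simp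
        norm_num
      rw [e1]
      have hv4 : w ^ 4 / 4 ≤ 1 := by
        have : w ^ 4 ≤ 1 := pow_le_one₀ hw0.le hw1
        linarith
      have h1 : 1 / T * x ^ 6 ≤ ce := hTi.trans (by nlinarith)
      have h0 : 0 ≤ 1 / T * x ^ 6 := by positivity
      calc (Cy ^ 2 * c1 ^ 2 * (w ^ 4 / 4)) * (1 / T * x ^ 6) ≤ (Cy ^ 2 * c1 ^ 2 * 1) * ce :=
            mul_le_mul (mul_le_mul_of_nonneg_left hv4 (by positivity)) h1 h0 (by positivity)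
        _ = Cy ^ 2 * c1 ^ 2 * ce := by ring
    have h1 := bos_ar_h_th hx hx1 (by positivity) hw'
    have h94 : x ^ 94 ≤ x ^ 6 := pow_le_pow_of_le_one hx.le hx1.le (by norm_num)
    exact h1.trans (mul_le_mul_of_nonneg_left (h94.trans (hx6.trans hzU)) (by positivity))
  · calc c1 * w * Q = c1 * (w * Q) := by ring
      _ ≤ c1 * (25 * L ^ 2 * U) := mul_le_mul_of_nonneg_left hwQ hc1.le
      _ = 25 * L ^ 2 * (c1 * U) := by ring
  · calc T / (c1 * w) = 1 / c1 * (T / w) := by field_simp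
      _ ≤ 1 / c1 * (6 / ce * L ^ 2 * (z * w ^ 3)) := mul_le_mul_of_nonneg_left hTw (by positivity)
      _ ≤ 1 / c1 * (6 / ce * L ^ 2 * U) := by
          apply mul_le_mul_of_nonneg_left _ (by positivity)
          exact mul_le_mul_of_nonneg_left hzU (by positivity)
      _ = 6 / (ce * c1 ^ 2) * L ^ 2 * (c1 * U) := by field_simp

/-- the constant is absorbed in a square -/
theorem bos_ar_h_fin {K v P R Z : ℝ} (hK : 0 ≤ K) (hv : 0 ≤ v) (h : Z ≤ K * (P ^ 2 * (v * R ^ 2))) :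
    Z ≤ v * ((1 + K) * P * R) ^ 2 := by
  have e : v * ((1 + K) * P * R) ^ 2 = (1 + K) ^ 2 * (P ^ 2 * (v * R ^ 2)) := by ring
  rw [e]
  refine h.trans (mul_le_mul_of_nonneg_right ?_ (by positivity))
  nlinarith

variable (X)

/-- LEAF A1: the group term on the dyad `[v,2v]` -/
theorem bos_ar_ord (hX : X.Ok) {Γ Cy ce : ℝ} (hΓ : 1 ≤ Γ) (hCy : 0 < Cy) (hce : 0 < ce) (ε : ℝ) (hε : 0 < ε) :
    ∃ (Cc : ℝ) (N0 : ℕ), 0 < Cc ∧ ∀ F : BdFr, F.Ok X → N0 ≤ F.N → ∀ v : ℝ, F.wc X ≤ v → v ≤ 1 →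
      cm6bOrd Γ (v / 2) (Cy * v) (F.bosOm X) (F.bosQ4 X (Cy * v)) (F.bosT X (ce * F.C X v)) (F.x ^ 100)
        ≤ v * (Cc * F.x ^ (-ε) * F.bosR3 X v) ^ 2 := by
  obtain ⟨N1, hN1⟩ := bos_sz_ev X hX 1
  obtain ⟨Cl, N2, hCl, hN2⟩ := bos_Lp_sub X hX (ε / 2) (by positivity)
  obtain ⟨Cg, hCg1, hCg⟩ := bos_ar_h_log (a := Γ) (by linarith) (by positivity : 0 < ε / 2)
  obtain ⟨K, hKd⟩ : ∃ K : ℝ, K = 10000000 * Γ ^ 3 * Cg ^ 2 * Cl ^ 2 * ((1 + 24 * Cy / ce) + 12 / ce + 25)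
      + 1000000 * (4 + Cy ^ 2 * ce) := ⟨_, rfl⟩
  have hΓ0 : 0 ≤ Γ := by linarith
  have hK0 : 0 ≤ K := by rw [hKd]; positivity
  refine ⟨1 + K, max N1 N2, by linarith, ?_⟩
  intro F hF hN v hwv hv1
  have hs := hN1 F hF (le_trans (le_max_left _ _) hN)
  have hLs := hN2 F hF (le_trans (le_max_right _ _) hN)
  have hL := (bos_Lp_gap X hX F hF).1
  obtain ⟨hCpos, -, hCle, -, -⟩ := bos_C_facts hs
  have hx := hs.x0
  have hx1 := hs.x1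
  have hv0 : 0 < v := lt_of_lt_of_le hs.wc0 hwv
  have hC := hCpos v
  have hC1 : F.C X v ≤ 1 := (hCle v).trans hs.C01
  obtain ⟨hT0, hT, hTi⟩ := bos_ar_h_T hs hL (mul_pos hce hC)
  obtain ⟨ha0, ha, hb0, hb, hx3⟩ := bos_ar_h_R3 hX hs hv0 hC
  obtain ⟨hcap0, hcap⟩ := bos_ar_h_cap hs hL (mul_pos hCy hv0)
  have hTv := bos_ar_h_Tv hX hs hL hce hv0 hC
  obtain ⟨hlg1, hlg⟩ := hCg F.x (Γ * (v / 2)) hx hx1 (by positivity) (by nlinarith)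
  have hwx : F.x ^ 10 ≤ v := hs.wcx.trans hwv
  have hL0 : 0 < F.bosLp X := by linarith
  have hy1 : 1 ≤ F.x ^ (-(ε / 2)) := Real.one_le_rpow_of_pos_of_le_one_of_nonpos hx hx1.le (by linarith)
  have hy4 : (F.x ^ (-(ε / 2))) ^ 4 = (F.x ^ (-ε)) ^ 2 := by
    rw [← Real.rpow_natCast, ← Real.rpow_mul hx.le, ← Real.rpow_natCast (F.x ^ (-ε)), ← Real.rpow_mul hx.le]
    congr 1
    push_cast
    ring
  have hR0 : 0 ≤ F.bosR3 X v := le_trans (by positivity) hx3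
  have hR6 : F.x ^ 6 ≤ F.bosR3 X v ^ 2 := by
    have := pow_le_pow_left₀ (by positivity : 0 ≤ F.x ^ 3) hx3 2
    calc F.x ^ 6 = (F.x ^ 3) ^ 2 := by ring
      _ ≤ F.bosR3 X v ^ 2 := this
  have hU0 : 0 ≤ v * F.bosR3 X v ^ 2 := by positivity
  have hA := bos_ar_r_a hCy hce hv0 hT0 hL hx hC hT ha
  have hB : v / 2 * (F.bosT X (ce * F.C X v) / (v / 2) ^ 2) ≤ 12 / ce * F.bosLp X ^ 2 * (v * F.bosR3 X v ^ 2) := by
    have e1 : v / 2 * (F.bosT X (ce * F.C X v) / (v / 2) ^ 2) = 2 * (F.bosT X (ce * F.C X v) / v) := by field_simp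
    rw [e1]
    have e2 : 12 / ce * F.bosLp X ^ 2 * (v * F.bosR3 X v ^ 2) = 2 * (6 / ce * F.bosLp X ^ 2 * (v * F.bosR3 X v ^ 2)) := by ring
    rw [e2]
    linarith
  have hCc : v / 2 * (F.bosOm X ^ 2 + F.bosQ4 X (Cy * v)) ≤ 25 * F.bosLp X ^ 2 * (v * F.bosR3 X v ^ 2) := by
    have h1 := bos_ar_r_c hx hx1 hR6 hcap
    have h3 : 0 ≤ 25 * F.bosLp X ^ 2 * F.bosR3 X v ^ 2 := by positivity
    calc v / 2 * (F.bosOm X ^ 2 + F.bosQ4 X (Cy * v)) ≤ v / 2 * (25 * F.bosLp X ^ 2 * F.bosR3 X v ^ 2) :=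
          mul_le_mul_of_nonneg_left h1 (by positivity)
      _ ≤ v * (25 * F.bosLp X ^ 2 * F.bosR3 X v ^ 2) := mul_le_mul_of_nonneg_right (by linarith) h3
      _ = _ := by ring
  have hD := bos_ar_r_d hCy hce hv0 hv1 hT0 hx hx1 hC hC1 hTi hwx hR6
  have hk123 : (0:ℝ) ≤ (1 + 24 * Cy / ce) + 12 / ce + 25 := by positivity
  have hk4 : (0:ℝ) ≤ 4 + Cy ^ 2 * ce := by positivity
  have main := bos_ar_h_ord (k3 := 25) hΓ0 (by linarith) hlg hL0.le hLs hy1 hU0 hA hB hCc hD hk123 hk4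
  exact bos_ar_h_fin hK0 hv0.le (by rw [hKd, ← hy4]; exact main)

/-- LEAF A2: the crossing cap on the dyad `[v,2v]` -/
theorem bos_ar_sl (hX : X.Ok) {Cb Cy ce : ℝ} (hCb : 0 < Cb) (hCy : 0 < Cy) (hce : 0 < ce) (ε : ℝ) (hε : 0 < ε) :
    ∃ (Cc : ℝ) (N0 : ℕ), 0 < Cc ∧ ∀ F : BdFr, F.Ok X → N0 ≤ F.N → ∀ v vb : ℝ, F.wc X ≤ v → v ≤ 1 → 0 ≤ vb → vb ≤ Cb * v →
      bosSl v vb (F.bosOm X) (F.bosQ4 X (Cy * v)) (F.bosT X (ce * F.C X v)) ≤ v * (Cc * F.x ^ (-ε) * F.bosR3 X v) ^ 2 := by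
  obtain ⟨N1, hN1⟩ := bos_sz_ev X hX 1
  obtain ⟨Cl, N2, hCl, hN2⟩ := bos_Lp_sub X hX ε hε
  refine ⟨1 + 200000 * (25 * Cb + 8 * Cb * (6 / ce)) * Cl ^ 2, max N1 N2, by positivity, ?_⟩
  intro F hF hN v vb hwv hv1 hvb0 hvb
  have hs := hN1 F hF (le_trans (le_max_left _ _) hN)
  have hLs := hN2 F hF (le_trans (le_max_right _ _) hN)
  have hL := (bos_Lp_gap X hX F hF).1
  obtain ⟨hCpos, -, hCle, -, -⟩ := bos_C_facts hs
  have hx := hs.x0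
  have hx1 := hs.x1
  have hv0 : 0 < v := lt_of_lt_of_le hs.wc0 hwv
  have hC := hCpos v
  obtain ⟨hT0, -, -⟩ := bos_ar_h_T hs hL (mul_pos hce hC)
  obtain ⟨-, -, -, -, hx3⟩ := bos_ar_h_R3 hX hs hv0 hC
  obtain ⟨hcap0, hcap⟩ := bos_ar_h_cap hs hL (mul_pos hCy hv0)
  have hTv := bos_ar_h_Tv hX hs hL hce hv0 hC
  have hR6 : F.x ^ 6 ≤ F.bosR3 X v ^ 2 := by
    have := pow_le_pow_left₀ (by positivity : 0 ≤ F.x ^ 3) hx3 2
    calc F.x ^ 6 = (F.x ^ 3) ^ 2 := by ring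
      _ ≤ F.bosR3 X v ^ 2 := this
  have hQ : v * (F.bosOm X ^ 2 + F.bosQ4 X (Cy * v)) ≤ 25 * F.bosLp X ^ 2 * (v * F.bosR3 X v ^ 2) := by
    have h1 := mul_le_mul_of_nonneg_left (bos_ar_r_c hx hx1 hR6 hcap) hv0.le
    calc _ ≤ v * (25 * F.bosLp X ^ 2 * F.bosR3 X v ^ 2) := h1
      _ = _ := by ring
  have main := bos_ar_r_sl hv0 hvb0 hvb hcap0 hQ hT0.le hTv (by linarith) hLs (by positivity) hCb (by positivity)
  unfold bosSl
  exact bos_ar_h_fin (by positivity) hv0.le main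

/-- LEAF A3: the PE floor: `yR² ∫ k ≤ (18 Cr² C/c²) v m^δ v_*²`  (`∫_s^t k ≤ (t-s) k(s)`, `k(s) s² ≤ m^δ v_*²`) -/
theorem bos_ar_fl (hX : X.Ok) {c C Cr : ℝ} (hc : 0 < c) (hC : 0 < C) (hCr : 0 < Cr) :
    ∃ (Cc : ℝ) (N0 : ℕ), 0 < Cc ∧ ∀ F : BdFr, F.Ok X → N0 ≤ F.N → ∀ v s t : ℝ, 0 < v → c * v ≤ s → s ≤ t → t ≤ 2 * C * v →
      (3 * Cr * v) ^ 2 * (∫ r in s..t, F.k X r) ≤ v * (Cc * ((F.m : ℝ) ^ (X.dPEexp / 2) * F.vs X)) ^ 2 := by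
  obtain ⟨N1, hN1⟩ := bos_sz_ev X hX 1
  refine ⟨1 + 18 * Cr ^ 2 * C / c ^ 2, N1, by positivity, ?_⟩
  intro F hF hN v s t hv hcs hst ht
  have hs := hN1 F hF hN
  obtain ⟨-, hkpos, hkanti, hkle⟩ := bos_k_facts hX hs
  have hcv : 0 < c * v := by positivity
  have hs0 : 0 < s := lt_of_lt_of_le hcv hcs
  have hm0 : (0 : ℝ) ≤ F.m := Nat.cast_nonneg _
  have hint : IntervalIntegrable (F.k X) volume s t :=
    (hkanti.mono (by
      intro r hr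
      rw [uIcc_of_le hst] at hr
      exact le_trans hs0.le hr.1)).intervalIntegrable
  have h1 : ∫ r in s..t, F.k X r ≤ ∫ _r in s..t, F.k X s :=
    intervalIntegral.integral_mono_on hst hint intervalIntegrable_const
      (fun r hr => hkanti (mem_Ici.mpr hs0.le) (mem_Ici.mpr (hs0.le.trans hr.1)) hr.1)
  rw [intervalIntegral.integral_const, smul_eq_mul] at h1
  obtain ⟨M, hM⟩ : ∃ M, M = (F.m : ℝ) ^ X.dPEexp * F.vs X ^ 2 := ⟨_, rfl⟩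
  have hM0 : 0 ≤ M := by rw [hM]; exact mul_nonneg (Real.rpow_nonneg hm0 _) (sq_nonneg _)
  have hMe : ((F.m : ℝ) ^ (X.dPEexp / 2) * F.vs X) ^ 2 = M := by
    rw [hM, mul_pow, ← Real.rpow_natCast ((F.m : ℝ) ^ (X.dPEexp / 2)) 2, ← Real.rpow_mul hm0]
    congr 2
    push_cast
    ring
  have h2 : F.k X s ≤ M / (c * v) ^ 2 := by
    have := hkle s hs0
    rw [← hM] at this
    exact this.trans (div_le_div_of_nonneg_left hM0 (by positivity) (pow_le_pow_left₀ hcv.le hcs 2))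
  have h3 : (t - s) * F.k X s ≤ (2 * C * v) * (M / (c * v) ^ 2) :=
    mul_le_mul (by linarith) h2 (hkpos s hs0.le).le (by positivity)
  have h4 : (3 * Cr * v) ^ 2 * (∫ r in s..t, F.k X r) ≤ (3 * Cr * v) ^ 2 * ((2 * C * v) * (M / (c * v) ^ 2)) :=
    mul_le_mul_of_nonneg_left (h1.trans h3) (by positivity)
  have e5 : (3 * Cr * v) ^ 2 * ((2 * C * v) * (M / (c * v) ^ 2)) = (18 * Cr ^ 2 * C / c ^ 2) * (v * M) := by
    field_simp
    ring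
  rw [mul_pow (1 + 18 * Cr ^ 2 * C / c ^ 2), hMe]
  rw [e5] at h4
  refine h4.trans ?_
  have hK : 0 ≤ 18 * Cr ^ 2 * C / c ^ 2 := by positivity
  have e6 : v * ((1 + 18 * Cr ^ 2 * C / c ^ 2) ^ 2 * M) = (1 + 18 * Cr ^ 2 * C / c ^ 2) ^ 2 * (v * M) := by ring
  rw [e6]
  apply mul_le_mul_of_nonneg_right _ (by positivity)
  nlinarith

/-- LEAF A5: the sliding estimate at the scale `w`, window `h = t w` -/
theorem bos_ar_sw (hX : X.Ok) {c1 CR ce : ℝ} (hc1 : 0 < c1) (hCR : 0 < CR) (hce : 0 < ce) (ε : ℝ) (hε : 0 < ε) :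
    ∃ (Cc : ℝ) (N0 : ℕ), 0 < Cc ∧ ∀ F : BdFr, F.Ok X → N0 ≤ F.N → ∀ w k0 t : ℝ, 0 < w → 0 < k0 → 0 < t →
      bosSwR (t * w) (CR * w) (CR * w) ((F.m : ℝ) / F.bosLp X) (ce * F.C0) (c1 * w) k0
        ≤ (600000 * CR ^ 2 * t + Cc * F.x ^ (-ε) * (F.x ^ 6 / (F.C0 * w ^ 4) / (k0 * t) + F.x ^ 6 / (F.C0 * w ^ 4))) * w ^ 3 := by
  obtain ⟨N1, hN1⟩ := bos_sz_ev X hX 1
  obtain ⟨Cl, N2, hCl, hN2⟩ := bos_Lp_sub X hX ε hε
  refine ⟨1 + 300000 * Cl * (2 * CR / (ce * c1) + 2 * CR / (ce * c1 ^ 2)), max N1 N2, by positivity, ?_⟩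
  intro F hF hN w k0 t hw hk0 ht
  have hs := hN1 F hF (le_trans (le_max_left _ _) hN)
  have hLs := hN2 F hF (le_trans (le_max_right _ _) hN)
  have hL := (bos_Lp_gap X hX F hF).1
  exact bos_ar_r_sw hw hk0 ht hCR hce hc1 (by exact_mod_cast hs.m0) (by linarith) hs.C00 hs.x0 hs.mx hLs hCl
    (Real.rpow_pos_of_pos hs.x0 _)

/-- the powers of `λ` in A4 -/
theorem bos_ar_h_kap {X : BdFix} (hX : X.Ok) {F : BdFr} (hF : F.Ok X) (hs : BosSz F X 1) :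
    0 < F.Lam ∧ 0 < F.lam ^ X.s0 ∧ 0 < F.Lam ^ (-(5 / 6) : ℝ) ∧
      F.kap / F.Lam ≤ (F.lam ^ X.s0) ^ 2 * (F.Lam ^ (-(5 / 6) : ℝ)) ^ 2 ∧
      (F.u * F.Bf X) ^ 2 * F.u = F.x ^ 3 * F.lam ^ X.s0 * F.Lam ^ (-(5 / 6) : ℝ) ∧
      F.x ^ 3 * F.lam ^ X.s0 * F.Lam ^ (-(5 / 6) : ℝ) ≤ X.CU ^ 3 * F.u ^ 3 := by
  have hx := hs.x0
  have hx1 := hs.x1
  have hu := hs.u0
  have hlam : 0 < F.lam := lt_of_lt_of_le (Real.rpow_pos_of_pos hx _) hF.lam_lo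
  have hlam1 : F.lam ≤ 1 := hF.lam_hi.trans (Real.rpow_le_one hx.le hx1.le hX.pS_pos.le)
  have hΛ : 0 < F.Lam := by unfold BdFr.Lam; exact Real.rpow_pos_of_pos hlam _
  have ha1 : 0 < F.lam ^ X.s0 := Real.rpow_pos_of_pos hlam _
  have hG : 0 < F.Lam ^ (-(5 / 6) : ℝ) := Real.rpow_pos_of_pos hΛ _
  refine ⟨hΛ, ha1, hG, ?_, ?_, ?_⟩
  · rw [div_le_iff₀ hΛ]
    refine hF.kap1.trans (le_of_eq ?_)
    have e1 : F.lam ^ (2 * X.s0) = (F.lam ^ X.s0) ^ 2 := by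
      rw [← Real.rpow_natCast (F.lam ^ X.s0) 2, ← Real.rpow_mul hlam.le]
      congr 1
      push_cast
      ring
    have e2 : (F.Lam ^ (-(5 / 6) : ℝ)) ^ 2 * F.Lam = F.Lam ^ (-(2 / 3) : ℝ) := by
      rw [← Real.rpow_natCast (F.Lam ^ (-(5 / 6) : ℝ)) 2, ← Real.rpow_mul hΛ.le]
      nth_rewrite 2 [← Real.rpow_one F.Lam]
      rw [← Real.rpow_add hΛ]
      norm_num
    rw [e1, mul_assoc, e2]
  · unfold BdFr.Bf BdFr.Xr
    have hxu : 0 < F.x / F.u := by positivity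
    have e1 : ((F.x / F.u) ^ (3 / 2 : ℝ)) ^ 2 = (F.x / F.u) ^ 3 := by
      rw [← Real.rpow_natCast ((F.x / F.u) ^ (3 / 2 : ℝ)) 2, ← Real.rpow_mul hxu.le, ← Real.rpow_natCast (F.x / F.u) 3]
      norm_num
    have e2 : (F.lam ^ (X.s0 / 2)) ^ 2 = F.lam ^ X.s0 := by
      rw [← Real.rpow_natCast (F.lam ^ (X.s0 / 2)) 2, ← Real.rpow_mul hlam.le]
      congr 1
      push_cast
      ring
    have e3 : (F.Lam ^ (-(5 / 12) : ℝ)) ^ 2 = F.Lam ^ (-(5 / 6) : ℝ) := by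
      rw [← Real.rpow_natCast (F.Lam ^ (-(5 / 12) : ℝ)) 2, ← Real.rpow_mul hΛ.le]
      norm_num
    rw [mul_pow, mul_pow, mul_pow, e1, e2, e3]
    field_simp
  · have hsS : 0 < F.lam ^ (X.sS / 2) := Real.rpow_pos_of_pos hlam _
    have hxle : F.x ≤ X.CU * F.u * F.lam ^ (X.sS / 2) := by
      have h1 := hF.u_lo
      unfold BdFr.U at h1
      have h2 := mul_le_mul_of_nonneg_right h1 hsS.le
      have e : F.x * F.lam ^ (-(X.sS / 2)) * F.lam ^ (X.sS / 2) = F.x := by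
        rw [mul_assoc, ← Real.rpow_add hlam]
        simp
      rwa [e] at h2
    have h3 : F.x ^ 3 ≤ (X.CU * F.u * F.lam ^ (X.sS / 2)) ^ 3 := pow_le_pow_left₀ hx.le hxle 3
    have e4 : (F.lam ^ (X.sS / 2)) ^ 3 * F.lam ^ X.s0 * F.Lam ^ (-(5 / 6) : ℝ) = F.lam ^ (X.sS / 2 * 3 + X.s0 + 0.03 * (-(5 / 6))) := by
      unfold BdFr.Lam
      rw [← Real.rpow_natCast (F.lam ^ (X.sS / 2)) 3, ← Real.rpow_mul hlam.le, ← Real.rpow_mul hlam.le, ← Real.rpow_add hlam,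
        ← Real.rpow_add hlam]
      norm_num
    have hexp : 0 ≤ X.sS / 2 * 3 + X.s0 + 0.03 * (-(5 / 6)) := by
      unfold BdFix.s0 BdFix.sS
      have := hX.tau_le
      have := hX.tau0_le
      have := hX.eta_le
      linarith
    have h5 : (F.lam ^ (X.sS / 2)) ^ 3 * F.lam ^ X.s0 * F.Lam ^ (-(5 / 6) : ℝ) ≤ 1 := by
      rw [e4]
      exact Real.rpow_le_one hlam.le hlam1 hexp
    have hCU := hX.CU_pos
    calc F.x ^ 3 * F.lam ^ X.s0 * F.Lam ^ (-(5 / 6) : ℝ)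
        ≤ (X.CU * F.u * F.lam ^ (X.sS / 2)) ^ 3 * F.lam ^ X.s0 * F.Lam ^ (-(5 / 6) : ℝ) := by
          apply mul_le_mul_of_nonneg_right _ hG.le
          exact mul_le_mul_of_nonneg_right h3 ha1.le
      _ = (X.CU ^ 3 * F.u ^ 3) * ((F.lam ^ (X.sS / 2)) ^ 3 * F.lam ^ X.s0 * F.Lam ^ (-(5 / 6) : ℝ)) := by ring
      _ ≤ (X.CU ^ 3 * F.u ^ 3) * 1 := mul_le_mul_of_nonneg_left h5 (by positivity)
      _ = X.CU ^ 3 * F.u ^ 3 := by ring

/-- LEAF A4: the extra floor (LL l.427-433: `A^{3/2} √κ ≤ B_f²`) -/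
theorem bos_ar_kap (hX : X.Ok) {CR ce cv clo : ℝ} (hCR : 0 < CR) (hce : 0 < ce) (hcv : 0 < cv) (hclo : 0 < clo) (ε : ℝ) (hε : 0 < ε) :
    ∃ (Cc : ℝ) (N0 : ℕ), 0 < Cc ∧ ∀ F : BdFr, F.Ok X → N0 ≤ F.N → ∀ v : ℝ, clo * F.u ≤ v →
      bosKap F.kap (CR * F.u) (CR * F.u) ((F.m : ℝ) / F.bosLp X) (ce * F.C0) (cv * F.u) ≤ v * (Cc * F.x ^ (-ε) * (F.u * F.Bf X)) ^ 2 := by
  obtain ⟨N1, hN1⟩ := bos_sz_ev X hX 1
  obtain ⟨Cl, N2, hCl, hN2⟩ := bos_Lp_sub X hX ε hε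
  have hCU := hX.CU_pos
  obtain ⟨K0, hK0d⟩ : ∃ K0 : ℝ, K0 = 300000 * (2 * (1 + 4 * CR ^ 3 / (ce * cv)) + 2 * CR * X.CU ^ 3 / (ce * cv ^ 2)) := ⟨_, rfl⟩
  have hK0 : 0 < K0 := by rw [hK0d]; positivity
  refine ⟨1 + K0 * Cl / clo, max N1 N2, by positivity, ?_⟩
  intro F hF hN v hv
  have hs := hN1 F hF (le_trans (le_max_left _ _) hN)
  have hLs := hN2 F hF (le_trans (le_max_right _ _) hN)
  have hL := (bos_Lp_gap X hX F hF).1
  obtain ⟨hΛ, ha1, hG, hκ, hBf, hYu⟩ := bos_ar_h_kap hX hF hs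
  have hx := hs.x0
  have hP1 : 1 ≤ F.x ^ (-ε) := Real.one_le_rpow_of_pos_of_le_one_of_nonpos hx hs.x1.le (by linarith)
  have main := bos_ar_r_kap hF.kap0 hs.u0 hΛ (by exact_mod_cast hs.m0 : (0:ℝ) < F.m) hL hx ha1 hG rfl hκ hYu hs.mx hCR hce hcv hCU
  rw [← hK0d] at main
  have eC0 : F.C0 = F.u ^ 2 * F.Lam := rfl
  rw [eC0]
  refine main.trans ?_
  obtain ⟨Y, hY⟩ : ∃ Y, Y = F.x ^ 3 * F.lam ^ X.s0 * F.Lam ^ (-(5 / 6) : ℝ) := ⟨_, rfl⟩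
  obtain ⟨P, hP⟩ : ∃ P, P = F.x ^ (-ε) := ⟨_, rfl⟩
  rw [← hY] at hBf ⊢
  rw [← hP] at hLs hP1 ⊢
  have hY0 : 0 < Y := by rw [hY]; positivity
  have h1 : K0 * (F.bosLp X * Y) ≤ K0 * (Cl * P * Y) :=
    mul_le_mul_of_nonneg_left (mul_le_mul_of_nonneg_right hLs hY0.le) hK0.le
  have h2 : (clo * F.u) * ((1 + K0 * Cl / clo) * P * (F.u * F.Bf X)) ^ 2 ≤ v * ((1 + K0 * Cl / clo) * P * (F.u * F.Bf X)) ^ 2 :=
    mul_le_mul_of_nonneg_right hv (sq_nonneg _)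
  have e3 : (clo * F.u) * ((1 + K0 * Cl / clo) * P * (F.u * F.Bf X)) ^ 2 = clo * (1 + K0 * Cl / clo) ^ 2 * P ^ 2 * Y := by
    rw [← hBf]
    ring
  rw [e3] at h2
  refine h1.trans (le_trans ?_ h2)
  obtain ⟨q, hq⟩ : ∃ q, q = K0 * Cl / clo := ⟨_, rfl⟩
  have hq0 : 0 < q := by rw [hq]; positivity
  have eq1 : K0 * (Cl * P * Y) = clo * q * P * Y := by rw [hq]; field_simp
  rw [eq1, ← hq]
  apply mul_le_mul_of_nonneg_right _ hY0.le
  have h4 : q * P ≤ (1 + q) ^ 2 * P ^ 2 := by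
    have a1 : q ≤ (1 + q) ^ 2 := by nlinarith
    have a2 : P ≤ P ^ 2 := by nlinarith
    exact mul_le_mul a1 a2 (by linarith) (by positivity)
  calc clo * q * P = clo * (q * P) := by ring
    _ ≤ clo * ((1 + q) ^ 2 * P ^ 2) := mul_le_mul_of_nonneg_left h4 hclo.le
    _ = clo * (1 + q) ^ 2 * P ^ 2 := by ring

/-- LEAF A6: caps and contacts of a target band of scale `w` -/
theorem bos_ar_nf (hX : X.Ok) {Γ c1 Cy Cb ce : ℝ} (hΓ : 1 ≤ Γ) (hc1 : 0 < c1) (hCy : 0 < Cy) (hCb : 0 < Cb) (hce : 0 < ce) (ε : ℝ) (hε : 0 < ε) :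
    ∃ (Cc : ℝ) (N0 : ℕ), 0 < Cc ∧ ∀ F : BdFr, F.Ok X → N0 ≤ F.N → ∀ w : ℝ, F.wc X ≤ w → w ≤ 1 →
      cm6bOrd Γ (c1 * w / 2) (Cy * w) (F.bosOm X) (F.bosQ4 X (Cy * w)) (F.bosT X (ce * F.C0)) (F.x ^ 100)
          + bosSl (c1 * w) (Cb * w) (F.bosOm X) (F.bosQ4 X (Cy * w)) (F.bosT X (ce * F.C0))
        ≤ Cc * F.x ^ (-ε) * ((F.x ^ 6 / (F.C0 * w ^ 4)) ^ (2 / 3 : ℝ) + F.x ^ 6 / (F.C0 * w ^ 4)) * w ^ 3 := by
  obtain ⟨N1, hN1⟩ := bos_sz_ev X hX 1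
  obtain ⟨Cl, N2, hCl, hN2⟩ := bos_Lp_sub X hX (ε / 4) (by positivity)
  have hΓ0 : 0 ≤ Γ := by linarith
  obtain ⟨Cg, hCg1, hCg⟩ := bos_ar_h_log (a := Γ * c1) (by positivity) (by positivity : 0 < ε / 4)
  obtain ⟨K1, hK1d⟩ : ∃ K1 : ℝ, K1 = 10000000 * Γ ^ 3 * Cg ^ 2 * Cl ^ 2 * (c1 * (1 + 24 * Cy / (c1 ^ 2 * ce)) + 12 / (c1 * ce) + 25 * c1)
      + 1000000 * (4 + Cy ^ 2 * c1 ^ 2 * ce) := ⟨_, rfl⟩
  obtain ⟨K2, hK2d⟩ : ∃ K2 : ℝ, K2 = 200000 * (25 * (Cb / c1) + 8 * (Cb / c1) * (6 / (ce * c1 ^ 2))) * Cl ^ 2 := ⟨_, rfl⟩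
  have hK1 : 0 ≤ K1 := by rw [hK1d]; positivity
  have hK2 : 0 ≤ K2 := by rw [hK2d]; positivity
  refine ⟨1 + K1 + K2 * c1, max N1 N2, by positivity, ?_⟩
  intro F hF hN w hww hw1
  have hs := hN1 F hF (le_trans (le_max_left _ _) hN)
  have hLs := hN2 F hF (le_trans (le_max_right _ _) hN)
  have hL := (bos_Lp_gap X hX F hF).1
  have hx := hs.x0
  have hx1 := hs.x1
  have hw0 : 0 < w := lt_of_lt_of_le hs.wc0 hww
  obtain ⟨hT0, hT, hTi⟩ := bos_ar_h_T hs hL (mul_pos hce hs.C00)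
  obtain ⟨hcap0, hcap⟩ := bos_ar_h_cap hs hL (mul_pos hCy hw0)
  obtain ⟨hlg1, hlg⟩ := hCg F.x (Γ * (c1 * w / 2)) hx hx1 (by positivity) (by
    have : c1 * w / 2 ≤ c1 := by nlinarith
    exact mul_le_mul_of_nonneg_left this hΓ0)
  have hy1 : 1 ≤ F.x ^ (-(ε / 4)) := Real.one_le_rpow_of_pos_of_le_one_of_nonpos hx hx1.le (by linarith)
  have hy4 : (F.x ^ (-(ε / 4))) ^ 4 = F.x ^ (-ε) := by
    rw [← Real.rpow_natCast, ← Real.rpow_mul hx.le]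
    congr 1
    push_cast
    ring
  obtain ⟨hU0, hA, hB, hCc, hD, hQ2, hT2⟩ := bos_ar_r_nf hc1 hCy hce hw0 hw1 hT0 hL hx hx1 hs.C00 hs.C01 hT hTi hcap0 hcap
  have hk123 : (0:ℝ) ≤ c1 * (1 + 24 * Cy / (c1 ^ 2 * ce)) + 12 / (c1 * ce) + 25 * c1 := by positivity
  have hk4 : (0:ℝ) ≤ 4 + Cy ^ 2 * c1 ^ 2 * ce := by positivity
  have main1 := bos_ar_h_ord hΓ0 (by linarith) hlg (by linarith) hLs hy1 hU0 hA hB hCc hD hk123 hk4
  have hvb : Cb * w ≤ Cb / c1 * (c1 * w) := le_of_eq (by field_simp)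
  have main2 := bos_ar_r_sl (mul_pos hc1 hw0) (by positivity) hvb hcap0 hQ2 hT0.le hT2 (by linarith) hLs (by positivity)
    (by positivity : 0 < Cb / c1) (by positivity)
  rw [← hK1d, hy4] at main1
  rw [← hK2d] at main2
  unfold bosSl
  obtain ⟨U, hU⟩ : ∃ U, U = ((F.x ^ 6 / (F.C0 * w ^ 4)) ^ (2 / 3 : ℝ) + F.x ^ 6 / (F.C0 * w ^ 4)) * w ^ 3 := ⟨_, rfl⟩
  obtain ⟨y, hy⟩ : ∃ y, y = F.x ^ (-(ε / 4)) := ⟨_, rfl⟩
  rw [← hU] at main1 main2 hU0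
  rw [← hy] at main2 hy1 hy4
  have e : (1 + K1 + K2 * c1) * F.x ^ (-ε) * ((F.x ^ 6 / (F.C0 * w ^ 4)) ^ (2 / 3 : ℝ) + F.x ^ 6 / (F.C0 * w ^ 4)) * w ^ 3
      = (1 + K1 + K2 * c1) * (F.x ^ (-ε) * U) := by rw [hU]; ring
  rw [e]
  have hy24 : y ^ 2 ≤ F.x ^ (-ε) := by
    rw [← hy4]
    exact pow_le_pow_right₀ hy1 (by norm_num)
  have hP0 : 0 ≤ F.x ^ (-ε) := Real.rpow_nonneg hx.le _
  have h3 : K2 * (y ^ 2 * (c1 * U)) ≤ K2 * (F.x ^ (-ε) * (c1 * U)) :=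
    mul_le_mul_of_nonneg_left (mul_le_mul_of_nonneg_right hy24 (by positivity)) hK2
  have h4 : 0 ≤ F.x ^ (-ε) * U := by positivity
  calc _ ≤ K1 * (F.x ^ (-ε) * U) + K2 * (F.x ^ (-ε) * (c1 * U)) := add_le_add main1 (main2.trans h3)
    _ = (K1 + K2 * c1) * (F.x ^ (-ε) * U) := by ring
    _ ≤ (1 + K1 + K2 * c1) * (F.x ^ (-ε) * U) := mul_le_mul_of_nonneg_right (by linarith) h4

end arith

/-! ## 5. The core theorems -/

section core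

variable {X : BdFix} {W : BdWorld} {K : BcsK} {Cr : ℝ}

/-- common facts of a regular instance (for the three `_pt` leaves) -/
theorem bos_pt_kit (hX : X.Ok) (hW : W.IsHub) (hCr : 1 ≤ Cr) {I : BcsIn X} (hI : I.Reg W K Cr) {Kb : ℝ} (hs : BosSz I.F X Kb) :
    0 < I.w ∧
    (∀ v : ℝ, 2 * I.w ≤ v → v ≤ 1 → K.c * v ≤ bosRG (I.geo W) v ∧ bosRG (I.geo W) v ≤ K.C * v) ∧
    (∀ u ∈ Ioc (0 : ℝ) 1, (I.Q.bosNum I.g).S u ≤ Cr * (u + I.w) ∧ (I.Q.bosNum I.g).D u ≤ Cr * (u + I.w)) ∧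
    (∀ x A : ℝ, 0 ≤ x → x ≤ A * (X.cd ^ 3 * I.F.u) → 1 / (1 + A) * I.F.C0 ≤ I.F.C X x) ∧
    (∀ v ∈ Ioo (0 : ℝ) 1, (I.Q.bosNum I.g).D v ^ 2 = I.D2 W v) := by
  have hw0 : 0 < I.w := lt_of_lt_of_le hs.wc0 hI.w_lo
  have hd := bos_dict hX hI
  refine ⟨hw0, fun v h1 h2 => ?_, fun u hu => bos_raw_num hW hI hCr hw0.le hu, fun x A hx hxA => ?_, fun v hv => ?_⟩
  · rw [hd.2 v ⟨by linarith, h2⟩]
    exact hI.reg v h1 h2
  · have h5 := (bos_C_facts hs).2.2.2.2 x hx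
    refine le_trans ?_ h5
    have hcu : 0 < X.cd ^ 3 * I.F.u := mul_pos (pow_pos hX.cd_pos 3) hs.u0
    have h6 : x / (X.cd ^ 3 * I.F.u) ≤ A := (div_le_iff₀ hcu).2 hxA
    have h7 : 0 ≤ x / (X.cd ^ 3 * I.F.u) := div_nonneg hx hcu.le
    rw [one_div, inv_mul_eq_div]
    exact div_le_div_of_nonneg_left hs.C00.le (by linarith) (by linarith)
  · exact bos_num_D hW hs.m0 hI.clkb hI.clkh hv

/-- **(C10) on one dyad, explicit right side**: `bos_c10` with the parameters of the header.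
Hypotheses of `bos_c10`: `hcap` `bos_reg_cap` (`1/M_j ≤ C v`); `heg` `bos_C_facts` (`r u ≤ C vb ≤ (3C²/c) v`); `hS hyR hsg hR` `bos_raw_num`; `hNX` `NX_le`; `hkb` definition of `kbar`;
`hv`: `r(i0 u/C) ≤ i0 u ≤ Ilo u`; `α(Ihi u) ≤ max (2w) (Ihi u/c) ≤ (cI/c) u`; `he` `bos_C_facts`.      Left side: `bos_num_D` a.e. on `[v,2v]`; `bos_dict`. -/
theorem bos_c10_pt (hX : X.Ok) (hK : K.Ok) (hW : W.IsHub) (hCr : 1 ≤ Cr) :
    ∃ N0 : ℕ, ∀ I : BcsIn X, I.Reg W K Cr → N0 ≤ I.F.N → ∀ v : ℝ, 4 * I.w ≤ v → 2 * v ≤ 1 →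
      ∫ t in v..(2 * v), I.D2 W t ≤
        cm6bOrd (6 * K.C / K.c) (v / 2) (Cr * (3 * K.C / K.c + 1) * v) (I.F.bosOm X) (I.F.bosQ4 X (Cr * (3 * K.C / K.c + 1) * v))
            (I.F.bosT X (K.c / (3 * K.C ^ 2) * I.F.C X v)) (I.F.x ^ 100)
          + bosSl v (min 1 (3 * K.C / K.c * v)) (I.F.bosOm X) (I.F.bosQ4 X (Cr * (3 * K.C / K.c + 1) * v)) (I.F.bosT X (K.c / (3 * K.C ^ 2) * I.F.C X v))
          + (3 * Cr * v) ^ 2 * (∫ r in (I.Q.r v)..(I.Q.r (2 * v)), I.F.k X r)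
          + if I.Q.r v ≤ I.F.Ihi * I.F.u ∧ I.F.Ilo * I.F.u ≤ I.Q.r (2 * v) then
              bosKap I.F.kap (Cr * (X.cI / K.c + X.cI) * I.F.u) (Cr * (X.cI / K.c + X.cI) * I.F.u) ((I.F.m : ℝ) / I.F.bosLp X)
                (1 / (1 + X.cI / X.cd ^ 3) * I.F.C0) (K.i0 / K.C * I.F.u)
            else 0 := by
  obtain ⟨N1, hN1⟩ := bos_geo_inst (K := K) (Cr := Cr) hX hW
  obtain ⟨N2, hN2⟩ := bos_sz_ev X hX (max 1 X.cI)
  refine ⟨max N1 N2, fun I hI hN v hwv hv2 => ?_⟩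
  obtain ⟨Z, hG, -⟩ := hN1 I hI ((le_max_left _ _).trans hN)
  have hs := hN2 I.F hI.ok ((le_max_right _ _).trans hN)
  obtain ⟨hw0, hreg, hraw, hClow, hD2⟩ := bos_pt_kit hX hW hCr hI hs
  obtain ⟨hCpos, hCanti, -, hCsc, -⟩ := bos_C_facts hs
  obtain ⟨hkm, hkpos, -, -⟩ := bos_k_facts hX hs
  have hd := bos_dict hX hI
  have hF := hI.ok
  have hXn := bos_num_ok (Q := I.Q) (g := I.g) hs.m0 hI.clkb hI.clkh
  have hc0 := hK.c0
  have hc1 := hK.c1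
  have hC1 := hK.C1
  have hC0 : 0 < K.C := lt_of_lt_of_le one_pos hC1
  have hi0 := hK.i00
  have hu0 := hs.u0
  have hCr0 : 0 < Cr := lt_of_lt_of_le one_pos hCr
  have hv0 : 0 < v := by linarith
  have hcI := hX.cI_pos
  have hcIu : X.cI * I.F.u ≤ 1 := (mul_le_mul_of_nonneg_right (le_max_right _ _) hu0.le).trans hs.uK
  have hCc : 1 ≤ K.C / K.c := (one_le_div hc0).2 (hc1.trans hC1)
  have h3Cc : 3 * K.C / K.c = 3 * (K.C / K.c) := by ring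
  have hma := (bos_al_strictMono hG).monotoneOn
  -- the small cap width
  have hMv : 1 / I.F.Mj ≤ v := by
    have hM0 : 0 < I.F.Mj := lt_trans one_pos hs.Mj1
    have h1 : 1 / I.F.Mj ≤ max 1 X.cI / I.F.Mj := div_le_div_of_nonneg_right (le_max_left _ _) hM0.le
    have h2 : I.F.x ^ 99 ≤ I.F.x ^ 10 := pow_le_pow_of_le_one hs.x0.le hs.x1.le (by norm_num)
    linarith [hs.Mj, hs.wcx, hI.w_lo]
  set vb : ℝ := min 1 (3 * K.C / K.c * v) with hvb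
  have hvb1 : vb ≤ 1 := min_le_left _ _
  have hvb2 : vb ≤ 3 * K.C / K.c * v := min_le_right _ _
  have h2vb : 2 * v ≤ vb := by
    refine le_min hv2 ?_
    rw [h3Cc]
    nlinarith
  set y0 : ℝ := Cr * (3 * K.C / K.c + 1) * v with hy0
  have hy0pos : 0 < y0 := by positivity
  have hIlo := hF.I0
  have hI12 := hF.I1
  have hIhi := hF.I2
  have ha0 : 0 < I.F.Ilo * I.F.u := mul_pos hIlo hu0
  have hab : I.F.Ilo * I.F.u ≤ I.F.Ihi * I.F.u := mul_le_mul_of_nonneg_right hI12 hu0.le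
  have hbcI : I.F.Ihi * I.F.u ≤ X.cI * I.F.u := mul_le_mul_of_nonneg_right hIhi.le hu0.le
  have hb1 : I.F.Ihi * I.F.u ≤ 1 := hbcI.trans hcIu
  have ham : I.F.Ilo * I.F.u ∈ Icc (0 : ℝ) 1 := ⟨ha0.le, hab.trans hb1⟩
  have hbm : I.F.Ihi * I.F.u ∈ Icc (0 : ℝ) 1 := ⟨ha0.le.trans hab, hb1⟩
  -- `w ≤ cI u`, `2 w ≤ (cI/c) u`
  have hroom := hI.room
  have hi0cI : K.i0 ≤ X.cI := (hI.ilo.trans hI12).trans hIhi.le
  have hw1 : 2 * I.w ≤ K.i0 / K.C * I.F.u := by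
    rw [div_mul_eq_mul_div, le_div_iff₀ hC0]
    linarith
  have hv0le : K.i0 / K.C * I.F.u ≤ K.i0 * I.F.u := by
    have : K.i0 / K.C ≤ K.i0 := div_le_self hi0.le hC1
    exact mul_le_mul_of_nonneg_right this hu0.le
  have hi0u : K.i0 * I.F.u ≤ X.cI * I.F.u := mul_le_mul_of_nonneg_right hi0cI hu0.le
  have hwcI : I.w ≤ X.cI * I.F.u := by linarith
  -- masses of the patch
  have halb : ∀ x ∈ Icc (I.F.Ilo * I.F.u) (I.F.Ihi * I.F.u), bosAlG (I.geo W) x ∈ Ioc (0 : ℝ) 1 ∧ bosAlG (I.geo W) x ≤ X.cI / K.c * I.F.u := by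
    intro x hx
    have hxm : x ∈ Icc (0 : ℝ) 1 := ⟨ha0.le.trans hx.1, hx.2.trans hb1⟩
    have hmem := bos_al_mem hG hxm
    have hpos : 0 < bosAlG (I.geo W) x := by
      have := bos_al_strictMono hG (left_mem_Icc.2 zero_le_one) hxm (lt_of_lt_of_le ha0 hx.1)
      rwa [hG.al_zero] at this
    refine ⟨⟨hpos, hmem.2⟩, ?_⟩
    have hcc : X.cI * I.F.u ≤ X.cI / K.c * I.F.u := by
      have : X.cI ≤ X.cI / K.c := le_div_self hcI.le hc0 hc1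
      exact mul_le_mul_of_nonneg_right this hu0.le
    by_cases h2w : 2 * I.w ≤ bosAlG (I.geo W) x
    · have h3 := (hreg _ h2w hmem.2).1
      rw [hG.r_al x hxm] at h3
      rw [div_mul_eq_mul_div, le_div_iff₀ hc0]
      linarith [hx.2]
    · linarith
  have main := bos_c10 hXn hG (k := I.F.k X) (v1 := v) (v2 := 2 * v) (vb := vb) (Γ := 6 * K.C / K.c) (y0 := y0)
    (eg := K.c / (3 * K.C ^ 2) * I.F.C X v) (th := I.F.x ^ 100) (Cq := 1 / Real.sqrt y0) (yR := 3 * Cr * v) (κ := I.F.kap)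
    (a := I.F.Ilo * I.F.u) (b := I.F.Ihi * I.F.u) (v0 := K.i0 / K.C * I.F.u) (e0 := 1 / (1 + X.cI / X.cd ^ 3) * I.F.C0)
    (sg := Cr * (X.cI / K.c + X.cI) * I.F.u) (R := Cr * (X.cI / K.c + X.cI) * I.F.u) (qq := 3)
    hv0 (by linarith) h2vb hvb1
    (by
      have : 6 * K.C / K.c * v = 2 * (3 * K.C / K.c * v) := by ring
      linarith)
    hy0pos (mul_pos (by positivity) (hCpos v)) (pow_pos hs.x0 100) (by positivity) le_rfl
    (fun i _ hi => by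
      refine le_min (bos_al_mem hG ⟨(hG.cap_lo i).trans (hG.cap_le i), hG.cap_hi i⟩).2 ?_
      have h1 := bos_reg_cap hG hw0 hc0 hreg hv0.le (by linarith : v ≤ 2 * v) hv2 (by linarith) hi
      refine h1.trans ?_
      rw [div_le_iff₀ hc0]
      have e : 3 * K.C / K.c * v * K.c = 3 * K.C * v := by field_simp
      rw [e]
      nlinarith)
    (fun u hu => by
      have hu1 : u ≤ 1 := hu.2.trans hvb1
      have h1 := (hreg u (by linarith [hu.1]) hu1).2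
      have h2 : bosRG (I.geo W) u ≤ 3 * K.C ^ 2 / K.c * v := by
        refine h1.trans ?_
        have : K.C * u ≤ K.C * (3 * K.C / K.c * v) := mul_le_mul_of_nonneg_left (hu.2.trans hvb2) hC0.le
        refine this.trans (le_of_eq ?_)
        ring
      have h3 := hCanti h2
      have hG1 : 1 ≤ 3 * K.C ^ 2 / K.c := by
        rw [one_le_div hc0]
        nlinarith
      have h4 := hCsc _ v hG1 hv0.le
      refine le_trans (le_of_eq ?_) (h4.trans h3)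
      field_simp)
    (fun u hu => by
      have hu0 : 0 < u := by linarith [hu.1]
      have h1 := (hraw u ⟨hu0, hu.2.trans hvb1⟩).1
      refine h1.trans ?_
      rw [hy0, mul_assoc]
      refine mul_le_mul_of_nonneg_left ?_ hCr0.le
      nlinarith [hu.2.trans hvb2])
    (fun u hu => by
      have hu0 : 0 < u := by linarith [hu.1]
      rw [one_div, inv_mul_cancel₀ (Real.sqrt_pos.2 hy0pos).ne']
      exact hXn.NX_le 3 u ⟨hu0.le, hu.2.trans hvb1⟩)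
    (fun u hu => by
      have hu0 : 0 < u := by linarith [hu.1]
      have h1 := (hraw u ⟨hu0, by linarith [hu.2]⟩).2
      refine h1.trans ?_
      have : u + I.w ≤ 3 * v := by linarith [hu.2]
      calc Cr * (u + I.w) ≤ Cr * (3 * v) := mul_le_mul_of_nonneg_left this hCr0.le
        _ = 3 * Cr * v := by ring)
    hkm (fun x hx => (hkpos x hx.1).le) hF.kap0
    (fun x hx => by rw [bud_gb_Kb_eq I.F X hx]; rfl)
    ha0.le hab hb1 (by positivity)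
    (by
      have hv01 : K.i0 / K.C * I.F.u ≤ 1 := (hv0le.trans hi0u).trans hcIu
      have hv0m : K.i0 / K.C * I.F.u ∈ Icc (0 : ℝ) 1 := ⟨by positivity, hv01⟩
      have h1 := (hreg _ hw1 hv01).2
      have h2 : bosRG (I.geo W) (K.i0 / K.C * I.F.u) ≤ I.F.Ilo * I.F.u := by
        refine h1.trans ?_
        have e : K.C * (K.i0 / K.C * I.F.u) = K.i0 * I.F.u := by field_simp
        rw [e]
        exact mul_le_mul_of_nonneg_right hI.ilo hu0.le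
      have h3 := hma (hG.r_mem _ hv0m) ham h2
      rwa [hG.al_r _ hv0m] at h3)
    (by have := hs.C00; have := hX.cd_pos; positivity)
    (fun x hx => hClow x _ (ha0.le.trans hx.1) (by
      have e : X.cI / X.cd ^ 3 * (X.cd ^ 3 * I.F.u) = X.cI * I.F.u := by
        have := hX.cd_pos
        field_simp
      rw [e]
      exact hx.2.trans hbcI))
    (by
      obtain ⟨h1, h2⟩ := halb _ ⟨hab, le_rfl⟩
      have h3 := (hraw _ h1).1
      have h4 := hXn.S_nn _ (bos_al_mem hG ham)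
      have h5 : Cr * (bosAlG (I.geo W) (I.F.Ihi * I.F.u) + I.w) ≤ Cr * (X.cI / K.c + X.cI) * I.F.u := by
        rw [mul_assoc]
        refine mul_le_mul_of_nonneg_left ?_ hCr0.le
        linarith
      linarith)
    (fun x hx => by
      obtain ⟨h1, h2⟩ := halb x hx
      have h3 := (hraw _ h1).2
      refine h3.trans ?_
      rw [mul_assoc]
      refine mul_le_mul_of_nonneg_left ?_ hCr0.le
      linarith)
    (by positivity)
  rw [hd.2 v ⟨hv0.le, by linarith⟩, hd.2 (2 * v) ⟨by linarith, hv2⟩] at main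
  have eL : ∫ t in v..(2 * v), I.D2 W t = ∫ u in Icc v (2 * v), (I.Q.bosNum I.g).D u ^ 2 := by
    rw [intervalIntegral.integral_of_le (by linarith), integral_Ioc_eq_integral_Ioo, integral_Icc_eq_integral_Ioo]
    refine setIntegral_congr_fun measurableSet_Ioo fun u hu => ?_
    exact (hD2 u ⟨by linarith [hu.1], by linarith [hu.2]⟩).symm
  rw [eL]
  exact main

/-- scalar glue: four bounds against the four terms of (C10) -/
theorem bos_sum4 {v xe R3 ind th3 Cc1 Cc2 Cc3 Cc4 T1 T2 T3 T4 : ℝ} (hv : 0 < v) (hxe : 1 ≤ xe) (hR3 : 0 ≤ R3) (hind : 0 ≤ ind) (ht3 : 0 ≤ th3)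
    (hth : th3 ≤ R3) (h1 : 0 < Cc1) (h2 : 0 < Cc2) (h3 : 0 < Cc3) (h4 : 0 < Cc4)
    (b1 : T1 ≤ v * (Cc1 * xe * R3) ^ 2) (b2 : T2 ≤ v * (Cc2 * xe * R3) ^ 2) (b3 : T3 ≤ v * (Cc3 * th3) ^ 2)
    (b4 : T4 ≤ v * (Cc4 * xe * ind) ^ 2) :
    T1 + T2 + T3 + T4 ≤ v * ((Cc1 + Cc2 + Cc3 + Cc4) * xe * (R3 + ind)) ^ 2 := by
  have hxe0 : 0 < xe := by linarith
  have c1 : v * (Cc1 * xe * R3) ^ 2 ≤ v * (Cc1 * xe * (R3 + ind)) ^ 2 := by gcongr; linarith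
  have c2 : v * (Cc2 * xe * R3) ^ 2 ≤ v * (Cc2 * xe * (R3 + ind)) ^ 2 := by gcongr; linarith
  have c3 : v * (Cc3 * th3) ^ 2 ≤ v * (Cc3 * xe * (R3 + ind)) ^ 2 := by
    have e1 : th3 ≤ xe * (R3 + ind) := by
      calc th3 ≤ 1 * (R3 + ind) := by linarith
        _ ≤ xe * (R3 + ind) := by gcongr
    have : Cc3 * th3 ≤ Cc3 * xe * (R3 + ind) := by
      calc Cc3 * th3 ≤ Cc3 * (xe * (R3 + ind)) := by gcongr
        _ = Cc3 * xe * (R3 + ind) := by ring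
    gcongr
  have c4 : v * (Cc4 * xe * ind) ^ 2 ≤ v * (Cc4 * xe * (R3 + ind)) ^ 2 := by gcongr; linarith
  obtain ⟨Y, hY⟩ : ∃ Y, Y = xe * (R3 + ind) := ⟨_, rfl⟩
  have e : ∀ c : ℝ, c * xe * (R3 + ind) = c * Y := fun c => by rw [hY]; ring
  rw [e] at c1 c2 c3 c4 ⊢
  have key : Cc1 ^ 2 + Cc2 ^ 2 + Cc3 ^ 2 + Cc4 ^ 2 ≤ (Cc1 + Cc2 + Cc3 + Cc4) ^ 2 := by
    nlinarith [mul_pos h1 h2, mul_pos h1 h3, mul_pos h1 h4, mul_pos h2 h3, mul_pos h2 h4, mul_pos h3 h4]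
  have h5 := mul_le_mul_of_nonneg_left key (mul_nonneg hv.le (sq_nonneg Y))
  have e2 : v * (Cc1 * Y) ^ 2 + v * (Cc2 * Y) ^ 2 + v * (Cc3 * Y) ^ 2 + v * (Cc4 * Y) ^ 2 = v * Y ^ 2 * (Cc1 ^ 2 + Cc2 ^ 2 + Cc3 ^ 2 + Cc4 ^ 2) := by ring
  have e3 : v * ((Cc1 + Cc2 + Cc3 + Cc4) * Y) ^ 2 = v * Y ^ 2 * (Cc1 + Cc2 + Cc3 + Cc4) ^ 2 := by ring
  linarith

/-- the quantile of a feasible `Q` is nondecreasing on `[0,1]` (`kbar ≥ 0`) -/
theorem bos_q_r_mono {F : BdFr} (hF : F.Ok X) (Q : BdQ F X) {v1 v2 : ℝ} (h1 : v1 ∈ Icc (0 : ℝ) 1) (h2 : v2 ∈ Icc (0 : ℝ) 1) (h : v1 ≤ v2) :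
    Q.r v1 ≤ Q.r v2 := by
  by_contra hlt
  rw [not_le] at hlt
  have hlo := Q.lo (Q.r v2) (Q.r v1) (Q.r_mem v2 h2).1 hlt.le (Q.r_mem v1 h1).2
  rw [Q.al_r v1 h1, Q.al_r v2 h2] at hlo
  have hnn : 0 ≤ ∫ t in (Q.r v2)..(Q.r v1), F.kbar X t := by
    refine intervalIntegral.integral_nonneg hlt.le fun t _ => ?_
    have hk : 0 ≤ F.k X t := by
      unfold BdFr.k CmCall.k
      have : 0 ≤ (F.call X).N ^ (F.call X).dl := Real.rpow_nonneg (Nat.cast_nonneg _) _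
      positivity
    unfold BdFr.kbar
    split_ifs
    · have := hF.kap0; linarith
    · linarith
  have : v1 = v2 := le_antisymm h (by linarith)
  subst this
  exact lt_irrefl _ hlt

/-- `u B_f ≥ 0` -/
theorem bos_uBf_nonneg {F : BdFr} {Kb : ℝ} (hs : BosSz F X Kb) (hF : F.Ok X) : 0 ≤ F.u * F.Bf X := by
  have hlam : 0 ≤ F.lam := le_trans (Real.rpow_nonneg hs.x0.le _) hF.lam_lo
  refine mul_nonneg hs.u0.le ?_
  unfold BdFr.Bf
  refine mul_nonneg (mul_nonneg (Real.rpow_nonneg ?_ _) (Real.rpow_nonneg hlam _)) (Real.rpow_nonneg ?_ _)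
  · unfold BdFr.Xr; exact div_nonneg hs.x0.le hs.u0.le
  · unfold BdFr.Lam; exact Real.rpow_nonneg hlam _

/-- the first three terms of (C10) are nonnegative -/
theorem bos_R3_nonneg {F : BdFr} {Kb : ℝ} (hs : BosSz F X Kb) {v : ℝ} (hv : 0 < v) : 0 ≤ F.bosR3 X v := by
  have hCv : 0 < F.C X v := (bos_C_facts hs).1 v
  have hx0 := hs.x0
  have t1 : 0 ≤ (F.x ^ 6 / (F.C X v * v)) ^ (1 / 3 : ℝ) := Real.rpow_nonneg (by positivity) _
  have t2 : 0 ≤ F.x ^ 3 / (v * Real.sqrt (F.C X v)) := by positivity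
  have t3 : 0 ≤ (F.m : ℝ) ^ (X.dPEexp / 2) * F.vs X := mul_nonneg (Real.rpow_nonneg (Nat.cast_nonneg _) _) hs.vs0.le
  unfold BdFr.bosR3; linarith

/-- **CORE (C10), raw indicator**: all regular mass dyads `4w ≤ v ≤ 1/2`; the extra-floor term is present only when the radius dyad `[r v, r 2v]` meets the patch `[Ilo u, Ihi u]`.      TEX[LL:bud:outer-second] -/
theorem bos_c10_raw (hX : X.Ok) (hK : K.Ok) (hW : W.IsHub) (hCr : 1 ≤ Cr) (ε : ℝ) (hε : 0 < ε) :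
    ∃ (Cc : ℝ) (N0 : ℕ), 0 < Cc ∧ ∀ I : BcsIn X, I.Reg W K Cr → N0 ≤ I.F.N → ∀ v : ℝ, 4 * I.w ≤ v → 2 * v ≤ 1 →
      ∫ t in v..(2 * v), I.D2 W t ≤ v * (Cc * I.F.x ^ (-ε) * (I.F.bosR3 X v +
        if I.Q.r v ≤ I.F.Ihi * I.F.u ∧ I.F.Ilo * I.F.u ≤ I.Q.r (2 * v) then I.F.u * I.F.Bf X else 0)) ^ 2 := by
  have hc := hK.c0; have hc1' := hK.c1; have hC := hK.C1; have hi0 := hK.i00; have hcd := hX.cd_pos; have hcI := hX.cI_pos
  have hCr0 : 0 < Cr := by linarith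
  obtain ⟨N1, h1⟩ := bos_c10_pt (W := W) (K := K) (Cr := Cr) hX hK hW hCr
  have hΓ : 1 ≤ 6 * K.C / K.c := by rw [le_div_iff₀ hc]; linarith
  have hCy : 0 < Cr * (3 * K.C / K.c + 1) := by positivity
  have hce : 0 < K.c / (3 * K.C ^ 2) := by positivity
  have hCb : 0 < 3 * K.C / K.c := by positivity
  obtain ⟨Cc1, N2, hCc1, h2⟩ := bos_ar_ord X hX hΓ hCy hce ε hε
  obtain ⟨Cc2, N3, hCc2, h3⟩ := bos_ar_sl X hX hCb hCy hce ε hε
  obtain ⟨Cc3, N4, hCc3, h4⟩ := bos_ar_fl X hX hc (by linarith : 0 < K.C) hCr0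
  have hCR : 0 < Cr * (X.cI / K.c + X.cI) := by positivity
  have hce' : 0 < 1 / (1 + X.cI / X.cd ^ 3) := by positivity
  have hcv : 0 < K.i0 / K.C := by positivity
  have hclo : 0 < K.i0 / (2 * K.C) := by positivity
  obtain ⟨Cc4, N5, hCc4, h5⟩ := bos_ar_kap X hX hCR hce' hcv hclo ε hε
  obtain ⟨N6, h6⟩ := bos_sz_ev X hX 1
  refine ⟨Cc1 + Cc2 + Cc3 + Cc4, max N1 (max N2 (max N3 (max N4 (max N5 N6)))), by positivity, fun I hI hN v hv hv2 => ?_⟩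
  have hN1 : N1 ≤ I.F.N := (le_max_left _ _).trans hN
  have hN' := (le_max_right _ _).trans hN
  have hN2 : N2 ≤ I.F.N := (le_max_left _ _).trans hN'
  have hN'' := (le_max_right _ _).trans hN'
  have hN3 : N3 ≤ I.F.N := (le_max_left _ _).trans hN''
  have hN''' := (le_max_right _ _).trans hN''
  have hN4 : N4 ≤ I.F.N := (le_max_left _ _).trans hN'''
  have hN'''' := (le_max_right _ _).trans hN'''
  have hN5 : N5 ≤ I.F.N := (le_max_left _ _).trans hN''''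
  have hN6 : N6 ≤ I.F.N := (le_max_right _ _).trans hN''''
  have hs := h6 I.F hI.ok hN6
  have hw : 0 < I.w := lt_of_lt_of_le hs.wc0 hI.w_lo
  have hv0 : 0 < v := by linarith
  have hv1 : v ≤ 1 := by linarith
  have hwcv : I.F.wc X ≤ v := by linarith [hI.w_lo]
  have hu := hs.u0
  have hx0 := hs.x0
  -- the four bounds
  have b0 := h1 I hI hN1 v hv hv2
  have b1 := h2 I.F hI.ok hN2 v hwcv hv1
  have b2 := h3 I.F hI.ok hN3 v (min 1 (3 * K.C / K.c * v)) hwcv hv1 (le_min zero_le_one (by positivity)) (min_le_right _ _)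
  have hr1 := hI.reg v (by linarith) hv1
  have hr2 := hI.reg (2 * v) (by linarith) hv2
  have hr12 : I.Q.r v ≤ I.Q.r (2 * v) := bos_q_r_mono hI.ok I.Q ⟨hv0.le, hv1⟩ ⟨by linarith, hv2⟩ (by linarith)
  have b3 := h4 I.F hI.ok hN4 v (I.Q.r v) (I.Q.r (2 * v)) hv0 hr1.1 hr12 (by linarith [hr2.2])
  -- nonnegativity
  have hCv : 0 < I.F.C X v := (bos_C_facts hs).1 v
  have t1 : 0 ≤ (I.F.x ^ 6 / (I.F.C X v * v)) ^ (1 / 3 : ℝ) := Real.rpow_nonneg (by positivity) _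
  have t2 : 0 ≤ I.F.x ^ 3 / (v * Real.sqrt (I.F.C X v)) := by positivity
  have t3 : 0 ≤ (I.F.m : ℝ) ^ (X.dPEexp / 2) * I.F.vs X :=
    mul_nonneg (Real.rpow_nonneg (Nat.cast_nonneg _) _) hs.vs0.le
  have hlam : 0 ≤ I.F.lam := le_trans (Real.rpow_nonneg hx0.le _) hI.ok.lam_lo
  have t4 : 0 ≤ I.F.u * I.F.Bf X := by
    refine mul_nonneg hu.le ?_
    unfold BdFr.Bf
    refine mul_nonneg (mul_nonneg (Real.rpow_nonneg ?_ _) (Real.rpow_nonneg hlam _)) (Real.rpow_nonneg ?_ _)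
    · unfold BdFr.Xr; positivity
    · unfold BdFr.Lam; exact Real.rpow_nonneg hlam _
  have hxe : 1 ≤ I.F.x ^ (-ε) := by
    rw [Real.rpow_neg hx0.le]
    exact (one_le_inv₀ (Real.rpow_pos_of_pos hx0 _)).2 (Real.rpow_le_one hx0.le hs.x1.le hε.le)
  obtain ⟨xe, hxe_def⟩ : ∃ xe, xe = I.F.x ^ (-ε) := ⟨_, rfl⟩
  obtain ⟨ind, hind⟩ : ∃ ind : ℝ, ind = if I.Q.r v ≤ I.F.Ihi * I.F.u ∧ I.F.Ilo * I.F.u ≤ I.Q.r (2 * v) then I.F.u * I.F.Bf X else 0 := ⟨_, rfl⟩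
  have hind0 : 0 ≤ ind := by rw [hind]; split_ifs <;> [exact t4; exact le_rfl]
  have hR3 : 0 ≤ I.F.bosR3 X v := by unfold BdFr.bosR3; linarith
  have hthird : (I.F.m : ℝ) ^ (X.dPEexp / 2) * I.F.vs X ≤ I.F.bosR3 X v := by unfold BdFr.bosR3; linarith
  -- the patch
  have b4 : (if I.Q.r v ≤ I.F.Ihi * I.F.u ∧ I.F.Ilo * I.F.u ≤ I.Q.r (2 * v) then
              bosKap I.F.kap (Cr * (X.cI / K.c + X.cI) * I.F.u) (Cr * (X.cI / K.c + X.cI) * I.F.u) ((I.F.m : ℝ) / I.F.bosLp X)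
                (1 / (1 + X.cI / X.cd ^ 3) * I.F.C0) (K.i0 / K.C * I.F.u)
            else 0) ≤ v * (Cc4 * I.F.x ^ (-ε) * ind) ^ 2 := by
    split_ifs with hcond
    · have hlo : K.i0 / (2 * K.C) * I.F.u ≤ v := by
        rw [div_mul_eq_mul_div, div_le_iff₀ (by positivity)]
        have e1 : K.i0 * I.F.u ≤ I.F.Ilo * I.F.u := mul_le_mul_of_nonneg_right hI.ilo hu.le
        linarith [hcond.2, hr2.2]
      have : ind = I.F.u * I.F.Bf X := by rw [hind, if_pos hcond]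
      rw [this]
      exact h5 I.F hI.ok hN5 v hlo
    · positivity
  rw [← hind]
  have := bos_sum4 hv0 hxe hR3 hind0 t3 hthird hCc1 hCc2 hCc3 hCc4 b1 b2 b3 b4
  linarith

/-- **CORE (C10)**: all regular mass dyads `4w ≤ v ≤ 1/2`; the band of the indicator is `[i0/(2C) u, cI/c u]` (corollary of `bos_c10_raw` by outer regularity).      TEX[LL:bud:outer-second] -/
theorem bos_c10_core (hX : X.Ok) (hK : K.Ok) (hW : W.IsHub) (hCr : 1 ≤ Cr) (ε : ℝ) (hε : 0 < ε) :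
    ∃ (Cc : ℝ) (N0 : ℕ), 0 < Cc ∧ ∀ I : BcsIn X, I.Reg W K Cr → N0 ≤ I.F.N → ∀ v : ℝ, 4 * I.w ≤ v → 2 * v ≤ 1 →
      ∫ t in v..(2 * v), I.D2 W t ≤ v * (Cc * I.F.x ^ (-ε) * bcsR10 I.F X (K.i0 / (2 * K.C)) (X.cI / K.c) v) ^ 2 := by
  have hc := hK.c0; have hC := hK.C1; have hi0 := hK.i00
  obtain ⟨Cc, N1, hCc, h1⟩ := bos_c10_raw (W := W) (K := K) (Cr := Cr) hX hK hW hCr ε hε
  obtain ⟨N6, h6⟩ := bos_sz_ev X hX 1
  refine ⟨Cc, max N1 N6, hCc, fun I hI hN v hv hv2 => ?_⟩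
  have hs := h6 I.F hI.ok ((le_max_right _ _).trans hN)
  have hw : 0 < I.w := lt_of_lt_of_le hs.wc0 hI.w_lo
  have hv0 : 0 < v := by linarith
  have hv1 : v ≤ 1 := by linarith
  have hu := hs.u0
  have hr1 := hI.reg v (by linarith) hv1
  have hr2 := hI.reg (2 * v) (by linarith) hv2
  have t4 := bos_uBf_nonneg hs hI.ok
  have hR3 := bos_R3_nonneg hs hv0
  have hxe : 0 ≤ I.F.x ^ (-ε) := Real.rpow_nonneg hs.x0.le _
  refine (h1 I hI ((le_max_left _ _).trans hN) v hv hv2).trans ?_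
  have hle : (if I.Q.r v ≤ I.F.Ihi * I.F.u ∧ I.F.Ilo * I.F.u ≤ I.Q.r (2 * v) then I.F.u * I.F.Bf X else 0)
      ≤ if K.i0 / (2 * K.C) * I.F.u ≤ v ∧ v ≤ X.cI / K.c * I.F.u then I.F.u * I.F.Bf X else 0 := by
    by_cases hcond : I.Q.r v ≤ I.F.Ihi * I.F.u ∧ I.F.Ilo * I.F.u ≤ I.Q.r (2 * v)
    · have hlo : K.i0 / (2 * K.C) * I.F.u ≤ v := by
        rw [div_mul_eq_mul_div, div_le_iff₀ (by positivity)]
        have e1 : K.i0 * I.F.u ≤ I.F.Ilo * I.F.u := mul_le_mul_of_nonneg_right hI.ilo hu.le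
        linarith [hcond.2, hr2.2]
      have hhi : v ≤ X.cI / K.c * I.F.u := by
        rw [div_mul_eq_mul_div, le_div_iff₀ hc]
        have e1 : I.F.Ihi * I.F.u ≤ X.cI * I.F.u := mul_le_mul_of_nonneg_right hI.ok.I2.le hu.le
        linarith [hcond.1, hr1.1]
      rw [if_pos hcond, if_pos ⟨hlo, hhi⟩]
    · rw [if_neg hcond]; split_ifs <;> linarith
  have hind0 : 0 ≤ (if I.Q.r v ≤ I.F.Ihi * I.F.u ∧ I.F.Ilo * I.F.u ≤ I.Q.r (2 * v) then I.F.u * I.F.Bf X else 0) := by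
    split_ifs <;> linarith
  have hR10 : bcsR10 I.F X (K.i0 / (2 * K.C)) (X.cI / K.c) v = I.F.bosR3 X v +
      if K.i0 / (2 * K.C) * I.F.u ≤ v ∧ v ≤ X.cI / K.c * I.F.u then I.F.u * I.F.Bf X else 0 := rfl
  rw [hR10]
  refine mul_le_mul_of_nonneg_left (pow_le_pow_left₀ (mul_nonneg (mul_nonneg hCc.le hxe) (by linarith)) ?_ 2) hv0.le
  exact mul_le_mul_of_nonneg_left (by linarith) (mul_nonneg hCc.le hxe)

/-- **the sliding estimate on a target band, explicit right side**: `bos_sw` with `r1 = r(c1 w)`, `r2 = r(C1 w)`, `k0 = k(C max(C1,2) w)`, `v0 = c1 w`, `e0 = C0/(1 + max(C1,2) i0/(2cd³))`, `sg = R = Cr (C1+1) w`, `h = t w` -/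
theorem bos_sw_pt (hX : X.Ok) (hK : K.Ok) (hW : W.IsHub) (hCr : 1 ≤ Cr) {c1 C1 : ℝ} (hc1 : 0 < c1) (hC1 : c1 < C1) :
    ∃ N0 : ℕ, ∀ I : BcsIn X, I.Reg W K Cr → N0 ≤ I.F.N → ∀ t : ℝ, 0 < t →
      ∫ r in (I.Q.r (c1 * I.w))..(I.Q.r (C1 * I.w)), I.D2 W (I.Q.al r) ≤
        bosSwR (t * I.w) (Cr * (C1 + 1) * I.w) (Cr * (C1 + 1) * I.w) ((I.F.m : ℝ) / I.F.bosLp X)
          (1 / (1 + max C1 2 * K.i0 / (2 * X.cd ^ 3)) * I.F.C0) (c1 * I.w) (I.F.k X (K.C * max C1 2 * I.w)) := by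
  obtain ⟨N1, hN1⟩ := bos_geo_inst (K := K) (Cr := Cr) hX hW
  obtain ⟨N2, hN2⟩ := bos_sz_ev X hX (max C1 2 * K.i0)
  refine ⟨max N1 N2, fun I hI hN t ht => ?_⟩
  obtain ⟨Z, hG, -⟩ := hN1 I hI ((le_max_left _ _).trans hN)
  have hs := hN2 I.F hI.ok ((le_max_right _ _).trans hN)
  obtain ⟨hw0, hreg, hraw, hClow, hD2⟩ := bos_pt_kit hX hW hCr hI hs
  obtain ⟨hkm, hkpos, hkanti, -⟩ := bos_k_facts hX hs
  have hd := bos_dict hX hI
  have hF := hI.ok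
  have hXn := bos_num_ok (Q := I.Q) (g := I.g) hs.m0 hI.clkb hI.clkh
  have hc0 := hK.c0
  have hKC1 := hK.C1
  have hC0 : 0 < K.C := lt_of_lt_of_le one_pos hKC1
  have hi0 := hK.i00
  have hu0 := hs.u0
  have hCr0 : 0 < Cr := lt_of_lt_of_le one_pos hCr
  have hma := (bos_al_strictMono hG).monotoneOn
  have hrm := (bos_r_mono hG).monotoneOn
  set Mx : ℝ := max C1 2 with hMx
  have hMx2 : 2 ≤ Mx := le_max_right _ _
  have hMxC : C1 ≤ Mx := le_max_left _ _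
  have hroom := hI.room
  -- `C Mx w ≤ Mx i0 u / 2 ≤ 1/2`
  have hCw : K.C * Mx * I.w ≤ Mx * K.i0 * I.F.u / 2 := by nlinarith
  have hMw : Mx * I.w ≤ 1 / 2 := by
    have h1 : Mx * I.w ≤ K.C * Mx * I.w := by
      have : 0 ≤ Mx * I.w := by positivity
      nlinarith
    linarith [hs.uK]
  have hC1w : C1 * I.w ≤ 1 / 2 := (mul_le_mul_of_nonneg_right hMxC hw0.le).trans hMw
  have hc1w0 : 0 < c1 * I.w := mul_pos hc1 hw0
  have hcC : c1 * I.w ≤ C1 * I.w := mul_le_mul_of_nonneg_right hC1.le hw0.le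
  have hm1 : c1 * I.w ∈ Icc (0 : ℝ) 1 := ⟨hc1w0.le, by linarith⟩
  have hm2 : C1 * I.w ∈ Icc (0 : ℝ) 1 := ⟨hc1w0.le.trans hcC, by linarith⟩
  have hm3 : Mx * I.w ∈ Icc (0 : ℝ) 1 := ⟨by positivity, by linarith⟩
  have hr1 := hG.r_mem _ hm1
  have hr2 := hG.r_mem _ hm2
  have hr12 := hrm hm1 hm2 hcC
  have hr2le : bosRG (I.geo W) (C1 * I.w) ≤ K.C * Mx * I.w := by
    have h1 := hrm hm2 hm3 (mul_le_mul_of_nonneg_right hMxC hw0.le)
    have h2 := (hreg (Mx * I.w) (mul_le_mul_of_nonneg_right hMx2 hw0.le) hm3.2).2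
    linarith
  have halx : ∀ x ∈ Icc (bosRG (I.geo W) (c1 * I.w)) (bosRG (I.geo W) (C1 * I.w)),
      x ∈ Icc (0 : ℝ) 1 ∧ c1 * I.w ≤ bosAlG (I.geo W) x ∧ bosAlG (I.geo W) x ≤ C1 * I.w := by
    intro x hx
    have hxm : x ∈ Icc (0 : ℝ) 1 := ⟨hr1.1.trans hx.1, hx.2.trans hr2.2⟩
    have a1 := hma hr1 hxm hx.1
    have a2 := hma hxm hr2 hx.2
    rw [hG.al_r _ hm1] at a1
    rw [hG.al_r _ hm2] at a2
    exact ⟨hxm, a1, a2⟩
  obtain ⟨kmin, hk1, hk2⟩ := hG.kb_pos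
  have ikb : IntegrableOn (budKb I.F X) (Icc (0 : ℝ) 1) :=
    cm_g_intOn hG.kb_meas (fun x hx => hk1.le.trans (hk2 x hx)) hG.kb_le subset_rfl
  have main := bos_sw hXn hG (r1 := bosRG (I.geo W) (c1 * I.w)) (r2 := bosRG (I.geo W) (C1 * I.w))
    (k0 := I.F.k X (K.C * Mx * I.w)) (v0 := c1 * I.w) (e0 := 1 / (1 + Mx * K.i0 / (2 * X.cd ^ 3)) * I.F.C0)
    (sg := Cr * (C1 + 1) * I.w) (R := Cr * (C1 + 1) * I.w) (h := t * I.w)
    hr1.1 hr12 hr2.2 (hkpos _ (by positivity))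
    (fun s t' hs' hst ht' => by
      refine le_trans ?_ (hG.lo s t' (hr1.1.trans hs') hst (ht'.trans hr2.2))
      have hsub : Icc s t' ⊆ Icc (0 : ℝ) 1 := Icc_subset_Icc (hr1.1.trans hs') (ht'.trans hr2.2)
      have hi : IntervalIntegrable (budKb I.F X) volume s t' :=
        (intervalIntegrable_iff_integrableOn_Icc_of_le hst).2 (ikb.mono_set hsub)
      have := intervalIntegral.integral_mono_on hst (intervalIntegrable_const (c := I.F.k X (K.C * Mx * I.w))) hi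
        (fun x hx => by
          have hx1 := hsub hx
          rw [bud_gb_Kb_eq I.F X hx1]
          have h1 : I.F.k X (K.C * Mx * I.w) ≤ I.F.k X x :=
            hkanti (mem_Ici.2 hx1.1) (mem_Ici.2 (by positivity)) ((hx.2.trans ht').trans hr2le)
          unfold BdFr.kbar
          split_ifs
          · linarith [hF.kap0]
          · linarith)
      rw [intervalIntegral.integral_const, smul_eq_mul] at this
      linarith)
    hc1w0 (by rw [hG.al_r _ hm1])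
    (by have := hs.C00; have := hX.cd_pos; positivity)
    (fun x hx => hClow x _ (hr1.1.trans hx.1) (by
      have e : Mx * K.i0 / (2 * X.cd ^ 3) * (X.cd ^ 3 * I.F.u) = Mx * K.i0 * I.F.u / 2 := by
        have := hX.cd_pos
        field_simp
      rw [e]
      exact (hx.2.trans hr2le).trans hCw))
    (by
      rw [hG.al_r _ hm1, hG.al_r _ hm2]
      have h3 := (hraw _ ⟨hc1w0.trans_le hcC, hm2.2⟩).1
      have h4 := hXn.S_nn _ hm1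
      have e : Cr * (C1 + 1) * I.w = Cr * (C1 * I.w + I.w) := by ring
      linarith)
    (fun x hx => by
      obtain ⟨hxm, a1, a2⟩ := halx x hx
      have h3 := (hraw _ ⟨hc1w0.trans_le a1, a2.trans hm2.2⟩).2
      refine h3.trans ?_
      have e : Cr * (C1 + 1) * I.w = Cr * (C1 * I.w + I.w) := by ring
      rw [e]
      exact mul_le_mul_of_nonneg_left (by linarith) hCr0.le)
    (mul_pos ht hw0)
  have eL : ∫ r in (I.Q.r (c1 * I.w))..(I.Q.r (C1 * I.w)), I.D2 W (I.Q.al r)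
      = ∫ x in (bosRG (I.geo W) (c1 * I.w))..(bosRG (I.geo W) (C1 * I.w)), (I.Q.bosNum I.g).D (bosAlG (I.geo W) x) ^ 2 := by
    rw [hd.2 _ hm1, hd.2 _ hm2]
    refine intervalIntegral.integral_congr fun x hx => ?_
    rw [← hd.2 _ hm1, ← hd.2 _ hm2, uIcc_of_le hr12] at hx
    obtain ⟨hxm, a1, a2⟩ := halx x hx
    rw [hD2 _ ⟨hc1w0.trans_le a1, by linarith⟩, hd.1 x hxm]
  rw [eL]
  exact main

/-- **CORE (sliding estimate at the scale `w`)**, every `t > 0`.      TEX[LL:bud:outer-second] (l.377-431), used l.479-487 -/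
theorem bos_sw_core (hX : X.Ok) (hK : K.Ok) (hW : W.IsHub) (hCr : 1 ≤ Cr) {c1 C1 : ℝ} (hc1 : 0 < c1) (hC1 : c1 < C1) (ε : ℝ) (hε : 0 < ε) :
    ∃ (Cc : ℝ) (N0 : ℕ), 0 < Cc ∧ ∀ I : BcsIn X, I.Reg W K Cr → N0 ≤ I.F.N → ∀ t : ℝ, 0 < t →
      ∫ r in (I.Q.r (c1 * I.w))..(I.Q.r (C1 * I.w)), I.D2 W (I.Q.al r)
        ≤ (600000 * (Cr * (C1 + 1)) ^ 2 * t + Cc * I.F.x ^ (-ε) * (I.a3 / (I.F.k X (K.C * max C1 2 * I.w) * t) + I.a3)) * I.w ^ 3 := by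
  obtain ⟨N1, h1⟩ := bos_sw_pt (W := W) (K := K) (Cr := Cr) hX hK hW hCr hc1 hC1
  have hC10 : 0 < C1 := hc1.trans hC1
  have hCR : 0 < Cr * (C1 + 1) := by positivity
  have hce : 0 < 1 / (1 + max C1 2 * K.i0 / (2 * X.cd ^ 3)) := by
    have := hK.i00; have := hX.cd_pos
    have : 0 < max C1 2 := lt_of_lt_of_le hC10 (le_max_left _ _)
    positivity
  obtain ⟨Cc, N2, hCc, h2⟩ := bos_ar_sw X hX hc1 hCR hce ε hε
  obtain ⟨N3, h3⟩ := bos_sz_ev X hX 1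
  refine ⟨Cc, max N1 (max N2 N3), hCc, fun I hI hN t ht => ?_⟩
  have hN1 : N1 ≤ I.F.N := (le_max_left _ _).trans hN
  have hN2 : N2 ≤ I.F.N := ((le_max_left _ _).trans (le_max_right _ _)).trans hN
  have hN3 : N3 ≤ I.F.N := ((le_max_right _ _).trans (le_max_right _ _)).trans hN
  have hs := h3 I.F hI.ok hN3
  have hw : 0 < I.w := lt_of_lt_of_le hs.wc0 hI.w_lo
  have hk0 : 0 < I.F.k X (K.C * max C1 2 * I.w) := by
    refine (bos_k_facts hX hs).2.1 _ ?_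
    have := hK.C1
    have : 0 < max C1 2 := lt_of_lt_of_le hC10 (le_max_left _ _)
    positivity
  exact (h1 I hI hN1 t ht).trans (h2 I.F hI.ok hN2 I.w _ t hw hk0 ht)

/-- **caps and contacts of a target band, explicit right side**: `bos_band_nf` with `v1 = c1 w`, `v2 = C1 w`, `vb = Cb w`, `Cb = (C max(C1,2) + 1)/c`, `Γ = 2 Cb/c1`, `y0 = Cr (Cb+1) w`,
`eg = C0/(1 + C Cb i0/(2C cd³))`.      The set: for `v ∈ [0,1]`, `v ∈ α(Fl) ⟺ H(r v) > 0`. -/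
theorem bos_nf_pt (hX : X.Ok) (hK : K.Ok) (hW : W.IsHub) (hCr : 1 ≤ Cr) {c1 C1 : ℝ} (hc1 : 0 < c1) (hC1 : c1 < C1) :
    ∃ N0 : ℕ, ∀ I : BcsIn X, I.Reg W K Cr → N0 ≤ I.F.N →
      ∫ v in Ioc (c1 * I.w) (C1 * I.w) ∩ {v | I.H W (I.Q.r v) ≤ 0}, I.D2 W v ≤
        cm6bOrd (2 * ((K.C * max C1 2 + 1) / K.c) / c1) (c1 * I.w / 2) (Cr * ((K.C * max C1 2 + 1) / K.c + 1) * I.w) (I.F.bosOm X)
            (I.F.bosQ4 X (Cr * ((K.C * max C1 2 + 1) / K.c + 1) * I.w))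
            (I.F.bosT X (1 / (1 + (K.C * max C1 2 + 1) / K.c * K.i0 / (2 * X.cd ^ 3)) * I.F.C0)) (I.F.x ^ 100)
          + bosSl (c1 * I.w) ((K.C * max C1 2 + 1) / K.c * I.w) (I.F.bosOm X) (I.F.bosQ4 X (Cr * ((K.C * max C1 2 + 1) / K.c + 1) * I.w))
            (I.F.bosT X (1 / (1 + (K.C * max C1 2 + 1) / K.c * K.i0 / (2 * X.cd ^ 3)) * I.F.C0)) := by
  obtain ⟨N1, hN1⟩ := bos_geo_inst (K := K) (Cr := Cr) hX hW
  obtain ⟨N2, hN2⟩ := bos_sz_ev X hX (max 1 ((K.C * max C1 2 + 1) / K.c * K.i0))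
  refine ⟨max N1 N2, fun I hI hN => ?_⟩
  obtain ⟨Z, hG, hFl⟩ := hN1 I hI ((le_max_left _ _).trans hN)
  have hs := hN2 I.F hI.ok ((le_max_right _ _).trans hN)
  obtain ⟨hw0, hreg, hraw, hClow, hD2⟩ := bos_pt_kit hX hW hCr hI hs
  have hd := bos_dict hX hI
  have hXn := bos_num_ok (Q := I.Q) (g := I.g) hs.m0 hI.clkb hI.clkh
  have hc0 := hK.c0
  have hKc1 := hK.c1
  have hKC1 := hK.C1
  have hC0 : 0 < K.C := lt_of_lt_of_le one_pos hKC1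
  have hi0 := hK.i00
  have hu0 := hs.u0
  have hCr0 : 0 < Cr := lt_of_lt_of_le one_pos hCr
  have hrm := (bos_r_mono hG).monotoneOn
  set Mx : ℝ := max C1 2 with hMx
  have hMx2 : 2 ≤ Mx := le_max_right _ _
  have hMxC : C1 ≤ Mx := le_max_left _ _
  set Cb : ℝ := (K.C * Mx + 1) / K.c with hCb
  have hCbge : K.C * Mx + 1 ≤ Cb := le_div_self (by positivity) hc0 hKc1
  have hCbMx : Mx ≤ Cb := by nlinarith
  have hCb0 : 0 < Cb := by linarith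
  have hroom := hI.room
  have hCw : K.C * (Cb * I.w) ≤ Cb * K.i0 * I.F.u / 2 := by nlinarith
  have hKbu : Cb * K.i0 * I.F.u ≤ 1 := (mul_le_mul_of_nonneg_right (le_max_right _ _) hu0.le).trans hs.uK
  have hCbw : Cb * I.w ≤ 1 / 2 := by
    have h1 : Cb * I.w ≤ K.C * (Cb * I.w) := by
      have : 0 ≤ Cb * I.w := by positivity
      nlinarith
    linarith
  have hMw : Mx * I.w ≤ 1 / 2 := (mul_le_mul_of_nonneg_right hCbMx hw0.le).trans hCbw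
  have hC1w : C1 * I.w ≤ 1 / 2 := (mul_le_mul_of_nonneg_right hMxC hw0.le).trans hMw
  have hc1w0 : 0 < c1 * I.w := mul_pos hc1 hw0
  have hcC : c1 * I.w ≤ C1 * I.w := mul_le_mul_of_nonneg_right hC1.le hw0.le
  have hmb : Cb * I.w ∈ Icc (0 : ℝ) 1 := ⟨by positivity, by linarith⟩
  have hMjw : 1 / I.F.Mj ≤ I.w := by
    have hM0 : 0 < I.F.Mj := lt_trans one_pos hs.Mj1
    have h1 : 1 / I.F.Mj ≤ max 1 (Cb * K.i0) / I.F.Mj := div_le_div_of_nonneg_right (le_max_left _ _) hM0.le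
    have h2 : I.F.x ^ 99 ≤ I.F.x ^ 10 := pow_le_pow_of_le_one hs.x0.le hs.x1.le (by norm_num)
    linarith [hs.Mj, hs.wcx, hI.w_lo]
  set y0 : ℝ := Cr * (Cb + 1) * I.w with hy0
  have hy0pos : 0 < y0 := by positivity
  have main := bos_band_nf hXn hG (v1 := c1 * I.w) (v2 := C1 * I.w) (vb := Cb * I.w) (Γ := 2 * Cb / c1) (y0 := y0)
    (eg := 1 / (1 + Cb * K.i0 / (2 * X.cd ^ 3)) * I.F.C0) (th := I.F.x ^ 100) (Cq := 1 / Real.sqrt y0) (qq := 3)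
    hc1w0 hcC (mul_le_mul_of_nonneg_right (hMxC.trans hCbMx) hw0.le) hmb.2
    (le_of_eq (by field_simp))
    hy0pos (by have := hs.C00; have := hX.cd_pos; positivity) (pow_pos hs.x0 100) (by positivity) le_rfl
    (fun i _ hi => by
      have hi' : (Z.capM (bosAlG (I.geo W)) i ∩ Icc (c1 * I.w) (Mx * I.w)).Nonempty :=
        hi.mono (inter_subset_inter_right _ (Icc_subset_Icc_right (mul_le_mul_of_nonneg_right hMxC hw0.le)))
      have h1 := bos_reg_cap hG hw0 hc0 hreg hc1w0.le (hcC.trans (mul_le_mul_of_nonneg_right hMxC hw0.le)) (by linarith)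
        (mul_le_mul_of_nonneg_right hMx2 hw0.le) hi'
      refine h1.trans ?_
      rw [hCb, div_mul_eq_mul_div]
      refine div_le_div_of_nonneg_right ?_ hc0.le
      linarith)
    (fun u hu => by
      have hu0 : 0 ≤ u := by linarith [hu.1]
      have hum : u ∈ Icc (0 : ℝ) 1 := ⟨hu0, hu.2.trans hmb.2⟩
      have h1 := hrm hum hmb hu.2
      have h2 := (hreg (Cb * I.w) (mul_le_mul_of_nonneg_right (hMx2.trans hCbMx) hw0.le) hmb.2).2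
      refine hClow _ _ (hG.r_mem u hum).1 ?_
      have e : Cb * K.i0 / (2 * X.cd ^ 3) * (X.cd ^ 3 * I.F.u) = Cb * K.i0 * I.F.u / 2 := by
        have := hX.cd_pos
        field_simp
      rw [e]
      linarith)
    (fun u hu => by
      have hu0 : 0 < u := by linarith [hu.1]
      have h1 := (hraw u ⟨hu0, hu.2.trans hmb.2⟩).1
      refine h1.trans ?_
      rw [hy0, mul_assoc]
      refine mul_le_mul_of_nonneg_left ?_ hCr0.le
      linarith [hu.2])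
    (fun u hu => by
      have hu0 : 0 < u := by linarith [hu.1]
      rw [one_div, inv_mul_cancel₀ (Real.sqrt_pos.2 hy0pos).ne']
      exact hXn.NX_le 3 u ⟨hu0.le, hu.2.trans hmb.2⟩)
  have e1 : ∫ v in Ioc (c1 * I.w) (C1 * I.w) ∩ {v | I.H W (I.Q.r v) ≤ 0}, I.D2 W v
      = ∫ v in Ioc (c1 * I.w) (C1 * I.w) ∩ {v | I.H W (I.Q.r v) ≤ 0}, (I.Q.bosNum I.g).D v ^ 2 := by
    refine integral_congr_ae ?_
    have h : ∀ᵐ v ∂(volume.restrict (Ioc (c1 * I.w) (C1 * I.w))), I.D2 W v = (I.Q.bosNum I.g).D v ^ 2 :=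
      (ae_restrict_iff' measurableSet_Ioc).2 (ae_of_all _ fun v hv => (hD2 v ⟨hc1w0.trans hv.1, by linarith [hv.2]⟩).symm)
    exact ae_restrict_of_ae_restrict_of_subset inter_subset_left h
  have hsubI : Icc (c1 * I.w) (C1 * I.w) ⊆ Icc (0 : ℝ) 1 := Icc_subset_Icc hc1w0.le (by linarith)
  have e2 : ∫ v in Ioc (c1 * I.w) (C1 * I.w) ∩ {v | I.H W (I.Q.r v) ≤ 0}, (I.Q.bosNum I.g).D v ^ 2
      ≤ ∫ u in Icc (c1 * I.w) (C1 * I.w) \ bosAlG (I.geo W) '' Z.Fl, (I.Q.bosNum I.g).D u ^ 2 := by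
    refine setIntegral_mono_set ?_ (ae_of_all _ fun u => sq_nonneg _) (LE.le.eventuallyLE ?_)
    · refine cm_g_intOn (B := 1) (hXn.D_meas.pow_const 2) (fun u _ => sq_nonneg _) (fun u hu => ?_) (sdiff_subset.trans hsubI)
      have h1 := hXn.D_nn u hu
      have h2 := hXn.D_le u hu
      nlinarith
    · rintro v ⟨hv, hH⟩
      refine ⟨Ioc_subset_Icc_self hv, ?_⟩
      rintro ⟨x, hx, rfl⟩
      rw [hFl] at hx
      have hH' : I.H W (I.Q.r (bosAlG (I.geo W) x)) ≤ 0 := hH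
      rw [← hd.2 _ (bos_al_mem hG hx.1), hG.r_al x hx.1] at hH'
      exact absurd hx.2 (not_lt.2 hH')
  rw [e1]
  exact e2.trans main

/-- **CORE (PE (20)-(21) on a target band)**.      TEX[LL:bud:outer-second] (l.360), used l.489-499 -/
theorem bos_nf_core (hX : X.Ok) (hK : K.Ok) (hW : W.IsHub) (hCr : 1 ≤ Cr) {c1 C1 : ℝ} (hc1 : 0 < c1) (hC1 : c1 < C1) (ε : ℝ) (hε : 0 < ε) :
    ∃ (Cc : ℝ) (N0 : ℕ), 0 < Cc ∧ ∀ I : BcsIn X, I.Reg W K Cr → N0 ≤ I.F.N →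
      ∫ v in Ioc (c1 * I.w) (C1 * I.w) ∩ {v | I.H W (I.Q.r v) ≤ 0}, I.D2 W v
        ≤ Cc * I.F.x ^ (-ε) * (I.a3 ^ (2 / 3 : ℝ) + I.a3) * I.w ^ 3 := by
  obtain ⟨N1, h1⟩ := bos_nf_pt (W := W) (K := K) (Cr := Cr) hX hK hW hCr hc1 hC1
  have hC10 : 0 < C1 := hc1.trans hC1
  have hm : 0 < max C1 2 := lt_of_lt_of_le hC10 (le_max_left _ _)
  have hc := hK.c0; have hc1' := hK.c1; have hC := hK.C1; have hi0 := hK.i00; have hcd := hX.cd_pos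
  have hCb : 0 < (K.C * max C1 2 + 1) / K.c := by positivity
  have hCbC1 : C1 ≤ (K.C * max C1 2 + 1) / K.c := by
    rw [le_div_iff₀ hc]
    have h5 : C1 ≤ max C1 2 := le_max_left _ _
    nlinarith
  have hΓ : 1 ≤ 2 * ((K.C * max C1 2 + 1) / K.c) / c1 := by
    rw [le_div_iff₀ hc1]; linarith
  have hCy : 0 < Cr * ((K.C * max C1 2 + 1) / K.c + 1) := by positivity
  have hce : 0 < 1 / (1 + (K.C * max C1 2 + 1) / K.c * K.i0 / (2 * X.cd ^ 3)) := by positivity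
  obtain ⟨Cc, N2, hCc, h2⟩ := bos_ar_nf X hX hΓ hc1 hCy hCb hce ε hε
  obtain ⟨N3, h3⟩ := bos_sz_ev X hX (K.i0 / (2 * K.C))
  refine ⟨Cc, max N1 (max N2 N3), hCc, fun I hI hN => ?_⟩
  have hN1 : N1 ≤ I.F.N := (le_max_left _ _).trans hN
  have hN2 : N2 ≤ I.F.N := ((le_max_left _ _).trans (le_max_right _ _)).trans hN
  have hN3 : N3 ≤ I.F.N := ((le_max_right _ _).trans (le_max_right _ _)).trans hN
  have hs := h3 I.F hI.ok hN3
  have hw1 : I.w ≤ 1 := by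
    have h4 := hs.uK
    have h5 := hI.room
    have h6 : I.w ≤ K.i0 / (2 * K.C) * I.F.u := by
      rw [div_mul_eq_mul_div, le_div_iff₀ (by positivity)]; linarith
    linarith
  exact (h1 I hI hN1).trans (h2 I.F hI.ok hN2 I.w hI.w_lo hw1)

end core

/-! ## 6. EXITS -/

section exits

variable {X : BdFix} {W : BdWorld} {Fam : BdFr → Prop} {K : BcsK}

/-- the class of Lemma 7.6 (190) lies in the class `Reg`: `room` by `bcs_num_scale` (`Kb W < i0 u`, `w ≤ W`) -/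
theorem bos_reg_of_cls (hX : X.Ok) (hK : K.Ok) {Cr : ℝ} {N1 : ℕ} (hCr : 0 < Cr)
    (h8 : ∀ I : BcsIn X, I.Cls W Fam K → N1 ≤ I.F.N → ∀ v ∈ Ioo (0 : ℝ) 1, I.B W v ≤ (Cr * (v + I.w)) ^ 2) :
    ∃ N0 : ℕ, ∀ I : BcsIn X, I.Cls W Fam K → N0 ≤ I.F.N → I.Reg W K (max 1 Cr) := by
  obtain ⟨N2, h2⟩ := bcs_num_scale X hX K.cs K.i0 (2 * K.C) hK.cs0 hK.i00 (by linarith [hK.C1])
  refine ⟨max N1 N2, fun I hI hN => ?_⟩
  have hsc := h2 I.F hI.ok ((le_max_right _ _).trans hN) I.w hI.w_lo hI.strong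
  refine ⟨hI.ok, hI.base, hI.clkb, hI.clkh, hI.geo, hI.w_lo, hI.reg, hI.ilo, ?_, fun v hv => ?_⟩
  · have h3 := hsc.patch
    have h4 : 2 * K.C * I.w ≤ 2 * K.C * I.F.Wsc X I.w := mul_le_mul_of_nonneg_left hsc.wW (by linarith [hK.C1])
    linarith
  · refine (h8 I hI ((le_max_left _ _).trans hN) v hv).trans ?_
    have hvw : 0 ≤ v + I.w := by linarith [hv.1, hsc.w0]
    have : Cr * (v + I.w) ≤ max 1 Cr * (v + I.w) := mul_le_mul_of_nonneg_right (le_max_right _ _) hvw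
    exact pow_le_pow_left₀ (by positivity) this 2

/-- the right side of (C10) is nonnegative and nondecreasing in the upper end of the band of the indicator -/
theorem bos_R10_mono {F : BdFr} {Kb : ℝ} (hs : BosSz F X Kb) (hF : F.Ok X) {v clo chi chi' : ℝ} (hv : 0 < v) (h : chi ≤ chi') :
    0 ≤ bcsR10 F X clo chi v ∧ bcsR10 F X clo chi v ≤ bcsR10 F X clo chi' v := by
  have h3 := bos_R3_nonneg hs hv
  have h4 := bos_uBf_nonneg hs hF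
  have e : ∀ c : ℝ, bcsR10 F X clo c v = F.bosR3 X v + if clo * F.u ≤ v ∧ v ≤ c * F.u then F.u * F.Bf X else 0 := fun _ => rfl
  rw [e, e]
  constructor
  · split_ifs <;> linarith
  · by_cases h1 : clo * F.u ≤ v ∧ v ≤ chi * F.u
    · have h2 : clo * F.u ≤ v ∧ v ≤ chi' * F.u := ⟨h1.1, h1.2.trans (mul_le_mul_of_nonneg_right h hs.u0.le)⟩
      rw [if_pos h1, if_pos h2]
    · rw [if_neg h1]
      split_ifs <;> linarith

/-- **EXIT (C10)** for 190.      TEX[LL:bud:outer-second] -/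
theorem bos_inst_c10 (hX : X.Ok) (hK : K.Ok) (hW : W.IsHub) (h8 : BcsRaw W (BcsIn.Cls (X := X) · W Fam K)) :
    BcsC10 W (BcsIn.Cls (X := X) · W Fam K) := by
  obtain ⟨Cr, N1, hCr, h8'⟩ := h8
  obtain ⟨N2, h2⟩ := bos_reg_of_cls (W := W) (Fam := Fam) hX hK hCr h8'
  have hc := hK.c0; have hC := hK.C1; have hi0 := hK.i00
  refine ⟨4, K.i0 / (2 * K.C), max (X.cI / K.c) (K.i0 / (2 * K.C)), by norm_num, by positivity, le_max_right _ _, fun ε hε => ?_⟩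
  obtain ⟨Cc, N3, hCc, h3⟩ := bos_c10_core (W := W) (K := K) (Cr := max 1 Cr) hX hK hW (le_max_left _ _) ε hε
  obtain ⟨N4, h4⟩ := bos_sz_ev X hX 1
  refine ⟨Cc, max N2 (max N3 N4), hCc, fun I hI hN v hv _ hv2 => ?_⟩
  have hN2 : N2 ≤ I.F.N := (le_max_left _ _).trans hN
  have hN3 : N3 ≤ I.F.N := ((le_max_left _ _).trans (le_max_right _ _)).trans hN
  have hN4 : N4 ≤ I.F.N := ((le_max_right _ _).trans (le_max_right _ _)).trans hN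
  have hR := h2 I hI hN2
  have hs := h4 I.F hR.ok hN4
  have hw : 0 < I.w := lt_of_lt_of_le hs.wc0 hR.w_lo
  have hv0 : 0 < v := by linarith
  have hm := bos_R10_mono hs hR.ok (clo := K.i0 / (2 * K.C)) hv0 (le_max_left (X.cI / K.c) (K.i0 / (2 * K.C)))
  refine (h3 I hR hN3 v hv hv2).trans ?_
  have hxe : 0 ≤ I.F.x ^ (-ε) := Real.rpow_nonneg hs.x0.le _
  have h5 : 0 ≤ Cc * I.F.x ^ (-ε) * bcsR10 I.F X (K.i0 / (2 * K.C)) (X.cI / K.c) v := mul_nonneg (mul_nonneg hCc.le hxe) hm.1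
  have h6 : Cc * I.F.x ^ (-ε) * bcsR10 I.F X (K.i0 / (2 * K.C)) (X.cI / K.c) v
      ≤ Cc * I.F.x ^ (-ε) * bcsR10 I.F X (K.i0 / (2 * K.C)) (max (X.cI / K.c) (K.i0 / (2 * K.C))) v :=
    mul_le_mul_of_nonneg_left hm.2 (mul_nonneg hCc.le hxe)
  exact mul_le_mul_of_nonneg_left (pow_le_pow_left₀ h5 h6 2) hv0.le

/-- **EXIT (sliding estimate at the scale `w`)** for 190.      TEX[LL:bud:outer-second] -/
theorem bos_inst_sw (hX : X.Ok) (hK : K.Ok) (hW : W.IsHub) (h8 : BcsRaw W (BcsIn.Cls (X := X) · W Fam K)) :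
    BcsSW W (BcsIn.Cls (X := X) · W Fam K) K := by
  obtain ⟨Cr, N1, hCr, h8'⟩ := h8
  obtain ⟨N2, h2⟩ := bos_reg_of_cls (W := W) (Fam := Fam) hX hK hCr h8'
  intro c1 C1 hc1 hC1
  have hC10 : 0 < C1 := hc1.trans hC1
  have hm : 0 < max 1 Cr := lt_of_lt_of_le one_pos (le_max_left _ _)
  refine ⟨600000 * (max 1 Cr * (C1 + 1)) ^ 2, 1, by positivity, one_pos, fun ε hε => ?_⟩
  obtain ⟨Cc, N3, hCc, h3⟩ := bos_sw_core (W := W) (K := K) (Cr := max 1 Cr) hX hK hW (le_max_left _ _) hc1 hC1 ε hε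
  exact ⟨Cc, max N2 N3, hCc, fun I hI hN t ht _ =>
    h3 I (h2 I hI ((le_max_left _ _).trans hN)) ((le_max_right _ _).trans hN) t ht⟩

/-- **EXIT (PE (20)-(21) on target bands)** for 190.      TEX[LL:bud:outer-second] -/
theorem bos_inst_nf (hX : X.Ok) (hK : K.Ok) (hW : W.IsHub) (h8 : BcsRaw W (BcsIn.Cls (X := X) · W Fam K)) :
    BcsNF W (BcsIn.Cls (X := X) · W Fam K) := by
  obtain ⟨Cr, N1, hCr, h8'⟩ := h8
  obtain ⟨N2, h2⟩ := bos_reg_of_cls (W := W) (Fam := Fam) hX hK hCr h8'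
  intro c1 C1 hc1 hC1 ε hε
  obtain ⟨Cc, N3, hCc, h3⟩ := bos_nf_core (W := W) (K := K) (Cr := max 1 Cr) hX hK hW (le_max_left _ _) hc1 hC1 ε hε
  exact ⟨Cc, max N2 N3, hCc, fun I hI hN =>
    h3 I (h2 I hI ((le_max_left _ _).trans hN)) ((le_max_right _ _).trans hN)⟩

/-- **EXIT (C10) at `w = w_c`** for 161 (after (C7)).   `I := ⟨⟨i.F, i.g, i.Q, w_c⟩, c0⟩`, `c0` of `bud_n4_geo`; `room`: `y_c → 0`; the indicator: `hpatch` ("`c_H` so large that `v ≥ c_H u` lies beyond the extra floor",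
produced by 161 from (C7) and `Cb cI + 1 ≤ cH`);   `x^(-6ε) = N^ε`.      TEX[LL:bud:outer-second] -/
theorem bos_inst_ff (hW : W.IsHub) {P : BdI X → Prop} {clo c C Cr : ℝ} (hS : BudFfStd X W P clo) (hc : 0 < c) (hc1 : c ≤ 1) (hC : 1 ≤ C)
    (h7 : BudFfC7 X P c C)
    (hpatch : ∃ N1 : ℕ, ∀ i, P i → N1 ≤ i.F.N → ∀ v : ℝ, X.cH * i.F.u ≤ v → v ≤ 1 → i.F.Ihi * i.F.u < i.Q.r v) (hCr : 0 < Cr)
    (hclk : ∃ N1 : ℕ, ∀ i, P i → N1 ≤ i.F.N → IsClock 1 (i.Q.bq i.g) ∧ IsClock 1 (i.Q.hq i.g))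
    (h8 : ∃ N1 : ℕ, ∀ i, P i → N1 ≤ i.F.N → ∀ v ∈ Ioo (0 : ℝ) 1, i.Q.Bq W i.g v ≤ (Cr * (v + i.F.wc X)) ^ 2) :
    BudFfC10 X W P 4 := by
  have hX := hS.fix
  obtain ⟨N1, h1⟩ := hclk
  obtain ⟨N2, h2⟩ := h8
  obtain ⟨N3, h3⟩ := h7
  obtain ⟨N4, h4⟩ := bud_n4_geo X hX
  have hclo := hS.clo_pos
  have hK : (⟨c, C, 1, clo⟩ : BcsK).Ok := ⟨hc, hc1, hC, one_pos, hclo⟩
  obtain ⟨N5, h5⟩ := ff_sc_ev X hX (2 * C / clo)
  obtain ⟨N6, h6⟩ := bos_sz_ev X hX 1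
  obtain ⟨N8, h8p⟩ := hpatch
  intro ε hε
  obtain ⟨Cc, N7, hCc, h7'⟩ := bos_c10_raw (W := W) (K := ⟨c, C, 1, clo⟩) (Cr := max 1 Cr) hX hK hW (le_max_left _ _) (6 * ε) (by positivity)
  refine ⟨Cc, max N1 (max N2 (max N3 (max N4 (max N5 (max N6 (max N7 N8)))))), fun i hi hN w hw hw2 => ?_⟩
  have hN1 : N1 ≤ i.F.N := (le_max_left _ _).trans hN
  have hNa := (le_max_right _ _).trans hN
  have hN2 : N2 ≤ i.F.N := (le_max_left _ _).trans hNa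
  have hNb := (le_max_right _ _).trans hNa
  have hN3 : N3 ≤ i.F.N := (le_max_left _ _).trans hNb
  have hNc := (le_max_right _ _).trans hNb
  have hN4 : N4 ≤ i.F.N := (le_max_left _ _).trans hNc
  have hNd := (le_max_right _ _).trans hNc
  have hN5 : N5 ≤ i.F.N := (le_max_left _ _).trans hNd
  have hNe := (le_max_right _ _).trans hNd
  have hN6 : N6 ≤ i.F.N := (le_max_left _ _).trans hNe
  have hNf := (le_max_right _ _).trans hNe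
  have hN7 : N7 ≤ i.F.N := (le_max_left _ _).trans hNf
  have hN8 : N8 ≤ i.F.N := (le_max_right _ _).trans hNf
  have hF := hS.ok i hi
  have hs := h6 i.F hF hN6
  have hsc := h5 i.F hF hN5
  obtain ⟨c0, hg, _⟩ := h4 i.F hF hN4 W i.g (hS.base i hi) i.Q (hS.opt i hi)
  have hwc := hs.wc0
  have hu := hs.u0
  have hR : BcsIn.Reg (⟨⟨i.F, i.g, i.Q, i.F.wc X⟩, c0⟩ : BcsIn X) W ⟨c, C, 1, clo⟩ (max 1 Cr) := by
    refine ⟨hF, hS.base i hi, (h1 i hi hN1).1, (h1 i hi hN1).2, hg, le_rfl, fun v hv hv1 => h3 i hi hN3 v ?_ hv1, hS.ilo i hi, ?_, fun v hv => ?_⟩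
    · show i.F.wc X ≤ v
      have : 2 * i.F.wc X ≤ v := hv
      linarith
    · show 2 * C * i.F.wc X ≤ clo * i.F.u
      have h8 := hsc.yK
      rw [div_mul_eq_mul_div, div_le_one hclo] at h8
      have : i.F.wc X = i.F.yc X * i.F.u := rfl
      rw [this]
      nlinarith
    · refine (h2 i hi hN2 v hv).trans ?_
      show (Cr * (v + i.F.wc X)) ^ 2 ≤ (max 1 Cr * (v + i.F.wc X)) ^ 2
      have hvw : 0 ≤ v + i.F.wc X := by linarith [hv.1]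
      have : Cr * (v + i.F.wc X) ≤ max 1 Cr * (v + i.F.wc X) := mul_le_mul_of_nonneg_right (le_max_right _ _) hvw
      exact pow_le_pow_left₀ (by positivity) this 2
  have hw0 : 0 < w := by linarith
  obtain ⟨Y, hYdef⟩ : ∃ Y : ℝ, Y = i.F.bosR3 X w + if i.Q.r w ≤ i.F.Ihi * i.F.u ∧ i.F.Ilo * i.F.u ≤ i.Q.r (2 * w) then i.F.u * i.F.Bf X else 0 := ⟨_, rfl⟩
  have key : ∫ t in w..(2 * w), i.Q.Dq2 W i.g t ≤ w * (Cc * i.F.x ^ (-(6 * ε)) * Y) ^ 2 := by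
    rw [hYdef]; exact h7' _ hR hN7 w hw (by linarith)
  have hxe : i.F.x ^ (-(6 * ε)) = (i.F.N : ℝ) ^ ε := by
    unfold BdFr.x
    rw [← Real.rpow_mul (Nat.cast_nonneg _)]
    congr 1; ring
  have h4' := bos_uBf_nonneg hs hF
  have hR3 := bos_R3_nonneg hs hw0
  have hY0' : 0 ≤ Y := by rw [hYdef]; split_ifs <;> linarith
  have hle : Y ≤ i.F.R10 X w := by
    have e : i.F.R10 X w = i.F.bosR3 X w + if w < X.cH * i.F.u then i.F.u * i.F.Bf X else 0 := by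
      unfold BdFr.R10 BdFr.bosR3
      simp only [Real.rpow_ofNat]
    rw [e, hYdef]
    have : (if i.Q.r w ≤ i.F.Ihi * i.F.u ∧ i.F.Ilo * i.F.u ≤ i.Q.r (2 * w) then i.F.u * i.F.Bf X else 0)
        ≤ if w < X.cH * i.F.u then i.F.u * i.F.Bf X else 0 := by
      by_cases hb : i.Q.r w ≤ i.F.Ihi * i.F.u ∧ i.F.Ilo * i.F.u ≤ i.Q.r (2 * w)
      · have : w < X.cH * i.F.u := by
          by_contra hcon
          rw [not_lt] at hcon
          exact absurd hb.1 (not_le.2 (h8p i hi hN8 w hcon (by linarith)))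
        rw [if_pos hb, if_pos this]
      · rw [if_neg hb]; split_ifs <;> linarith
    linarith
  have hNe0 : 0 ≤ (i.F.N : ℝ) ^ ε := Real.rpow_nonneg (Nat.cast_nonneg _) _
  rw [hxe] at key
  have hY0 : 0 ≤ Cc * (i.F.N : ℝ) ^ ε * Y := mul_nonneg (mul_nonneg hCc.le hNe0) hY0'
  have h9 : w⁻¹ * ∫ v in w..(2 * w), i.Q.Dq2 W i.g v ≤ (Cc * (i.F.N : ℝ) ^ ε * Y) ^ 2 := by
    rw [inv_mul_le_iff₀ hw0]; exact key
  calc Real.sqrt (w⁻¹ * ∫ v in w..(2 * w), i.Q.Dq2 W i.g v)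
      ≤ Real.sqrt ((Cc * (i.F.N : ℝ) ^ ε * Y) ^ 2) := Real.sqrt_le_sqrt h9
    _ = Cc * (i.F.N : ℝ) ^ ε * Y := Real.sqrt_sq hY0
    _ ≤ Cc * (i.F.N : ℝ) ^ ε * i.F.R10 X w := mul_le_mul_of_nonneg_left hle (mul_nonneg hCc.le hNe0)
    _ = Cc * ((i.F.N : ℝ) ^ ε * i.F.R10 X w) := by ring

end exits

end

end Claimed.Agent.R286
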