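import Claimed.Agent.R286.Bud.FfTop
import Claimed.Agent.R286.Bud.Brg248
import Claimed.Agent.R286.Bud.L07C
import Claimed.Agent.R286.Cmp.InstNum
import Claimed.Agent.R286.Exit.GeoClkInst
import Claimed.Agent.R286.Bud.SecInst

/-!
# Row 286, LL sec. 7, node N14: THE NUMBERS OF THE CHANGED PATH OF A FRAME = producer of the input `BudFfNum` of `Bud/FfTop.lean`      (owner helper248; prefix `ffn_`)

`i.num := cmkNum i.F.m (i.Q.bE i.g) (i.Q.hE i.g)` : the SK numbers (295, `Cmp/DefsSk`) of the changed clocks of an instance `(F, g, Q)`, extended by `bmExt` (198).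
PROVED here, for EVERY feasible `Q` (no minimality):
* `ffn_adm`       the extended changed clocks are admissible (`CkAdm 1`)                                   [`BdStd.clk`, `bd7c_ext_clk`]
* `ffn_ok`        `i.num.Ok`                                                                               [`cmk_num_ok`, 295/59/21]
* `ffn_S`, `ffn_B`, `ffn_D2`      dictionary with the world: `S = Q.Sq`, `NR² = Q.Bq`, `D² = Q.Dq2` on `(0,1)`                    [`BdWorld.IsHub`]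
* `ffn_clock`     **(A1) line 2 in the RADIUS coordinate on the flat region**: `m C₀ ∫_s^t E tr H²(α r) dr ≤ S(α t) - S(α s)`      [`gci_pull` (251), `exit_clk_sus_int`, `exit_clk_intble`]
* `ffn_raw_unif`  thresholds which depend on the exponent `q` may be made uniform (`‖X‖_{2q} ≤ 1`, `w_c ≥ x`)
INPUT (ONE): `BudFfRaw` = (C8) at the scale `w_c`, one exponent at a time, on `i.num`.      OWNER helper7 (`Bud/RawExit.lean`, transfers `Raw ⟹ cmkMX`, `R2 ⟹ skCB` of `Cmp/P5Chain.lean`).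
EXIT: `bud_ff_num : BdStd → IsSk → BudFfRaw X P → ∃ Cp, BudFfNum X W P Cp`.
TEX[LL:bud:free-forks] TEX[LL:bud:outer-moments] TEX[LL:found:estimates]
-/

set_option autoImplicit false

namespace Claimed.Agent.R286

open MeasureTheory Set Filter Topology
open scoped NNReal

noncomputable section

/-- the SK numbers of the changed path of an instance -/
def BdI.num {X : BdFix} (i : BdI X) : CmNum := cmkNum i.F.m (i.Q.bE i.g) (i.Q.hE i.g)

/-- [INPUT, N5, owner helper7]  (C8) at the scale `w_c`, one exponent at a time.     TEX[LL:bud:outer-moments] -/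
def BudFfRaw (X : BdFix) (P : BdI X → Prop) : Prop :=
  ∀ q : ℕ, 1 ≤ q → ∃ C : ℝ, ∃ N0 : ℕ, ∀ i, P i → N0 ≤ i.F.N → ∀ u ∈ Icc (0 : ℝ) 1,
    i.num.NX q u ≤ C * Real.sqrt (u + i.F.wc X) ∧ i.num.NR u ≤ C * (u + i.F.wc X)

theorem ffn_eqns_cite : True := by
  have := @BdI.num.eq_1; have := @BudFfRaw.eq_1
  trivial

variable {X : BdFix} {W : BdWorld} {Fam : BdFr → Prop} {K : BdCst}

/-! ## 1. the inverse distribution of a feasible `Q` -/

theorem ffn_m_pos {F : BdFr} (hF : F.Ok X) : 0 < F.m := by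
  have := bud_gb_m_ge hF
  exact_mod_cast (lt_of_lt_of_le one_pos this)

/-- lower slope `k(1)` -/
theorem ffn_al_lower {F : BdFr} (hF : F.Ok X) (hX : X.Ok) (Q : BdQ F X) {r1 r2 : ℝ} (h0 : 0 ≤ r1) (h12 : r1 ≤ r2) (h1 : r2 ≤ 1) :
    F.k X 1 * (r2 - r1) ≤ Q.al r2 - Q.al r1 := by
  have hbox := bud_gb_box hX hF
  refine le_trans ?_ (Q.lo r1 r2 h0 h12 h1)
  rw [← bud_gb_int_Kb F X h0 h12 h1]
  have : ∫ _r in r1..r2, F.k X 1 ≤ ∫ r in r1..r2, budKb F X r :=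
    intervalIntegral.integral_mono_on h12 intervalIntegrable_const (hbox.kb_intervalIntegrable _ _) fun r _ => hbox.kb_ge r
  rw [intervalIntegral.integral_const, smul_eq_mul] at this
  linarith

theorem ffn_al_strictMono {F : BdFr} (hF : F.Ok X) (hX : X.Ok) (Q : BdQ F X) : StrictMonoOn Q.al (Icc 0 1) := by
  intro r1 h1 r2 h2 h12
  have := ffn_al_lower hF hX Q h1.1 h12.le h2.2
  have hk := (bud_gb_box hX hF).kmin0
  have : 0 < F.k X 1 * (r2 - r1) := mul_pos hk (by linarith)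
  linarith

theorem ffn_al_mem {F : BdFr} (hF : F.Ok X) (hX : X.Ok) (Q : BdQ F X) {r : ℝ} (hr : r ∈ Icc (0:ℝ) 1) : Q.al r ∈ Icc (0:ℝ) 1 := by
  have hm := (ffn_al_strictMono hF hX Q).monotoneOn
  constructor
  · have := hm ⟨le_rfl, zero_le_one⟩ hr hr.1
    rwa [Q.al_zero] at this
  · have := hm hr ⟨zero_le_one, le_rfl⟩ hr.2
    rwa [Q.al_one] at this

theorem ffn_al_cont {F : BdFr} (hF : F.Ok X) (hX : X.Ok) (Q : BdQ F X) : ContinuousOn Q.al (Icc 0 1) := by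
  have hM : 0 ≤ F.Mj := by have := bud_gb_Mj_ge hF; linarith
  have hm := (ffn_al_strictMono hF hX Q).monotoneOn
  have : LipschitzOnWith F.Mj.toNNReal Q.al (Icc 0 1) := by
    refine LipschitzOnWith.of_le_add_mul _ fun x hx y hy => ?_
    rw [Real.coe_toNNReal _ hM, Real.dist_eq]
    rcases le_total x y with hxy | hxy
    · have := hm hx hy hxy
      have h2 : 0 ≤ F.Mj * |x - y| := by positivity
      linarith
    · have := Q.hi y x hy.1 hxy hx.2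
      rw [abs_of_nonneg (sub_nonneg.2 hxy)]
      linarith
  exact this.continuousOn

theorem ffn_r_mono {F : BdFr} (hF : F.Ok X) (hX : X.Ok) (Q : BdQ F X) : MonotoneOn Q.r (Icc 0 1) := by
  intro x hx y hy hxy
  by_contra hlt
  have hlt : Q.r y < Q.r x := not_le.1 hlt
  have := ffn_al_strictMono hF hX Q (Q.r_mem y hy) (Q.r_mem x hx) hlt
  rw [Q.al_r y hy, Q.al_r x hx] at this
  linarith

theorem ffn_r_lip {F : BdFr} (hF : F.Ok X) (hX : X.Ok) (Q : BdQ F X) :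
    LipschitzOnWith (1 / F.k X 1).toNNReal Q.r (Icc 0 1) := by
  have hk := (bud_gb_box hX hF).kmin0
  have hm := ffn_r_mono hF hX Q
  refine LipschitzOnWith.of_le_add_mul _ fun x hx y hy => ?_
  rw [Real.coe_toNNReal _ (by positivity), Real.dist_eq]
  rcases le_total x y with hxy | hxy
  · have := hm hx hy hxy
    have h2 : 0 ≤ 1 / F.k X 1 * |x - y| := by positivity
    linarith
  · have h1 := ffn_al_lower hF hX Q (Q.r_mem y hy).1 (hm hy hx hxy) (Q.r_mem x hx).2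
    rw [Q.al_r x hx, Q.al_r y hy] at h1
    rw [abs_of_nonneg (sub_nonneg.2 hxy)]
    have : Q.r x - Q.r y ≤ 1 / F.k X 1 * (x - y) := by
      rw [one_div, ← div_eq_inv_mul, le_div_iff₀ hk]
      linarith
    linarith

/-! ## 2. admissibility, dictionary -/

theorem ffn_adm (hS : BdStd X W Fam K) {i : BdI X} (hF : Fam i.F) (hg : i.g ∈ Icc (X.glo 0) (X.ghi 0)) :
    CkAdm 1 (i.Q.bE i.g) (i.Q.hE i.g) :=
  ⟨bd7c_ext_clk (hS.clk _ hF _ hg i.Q).1, bd7c_ext_clk (hS.clk _ hF _ hg i.Q).2⟩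

theorem ffn_ok (hS : BdStd X W Fam K) {i : BdI X} (hF : Fam i.F) (hg : i.g ∈ Icc (X.glo 0) (X.ghi 0)) : i.num.Ok :=
  cmk_num_ok _ (ffn_m_pos (hS.ok _ hF)) (ffn_adm hS hF hg)

theorem ffn_S (hS : BdStd X W Fam K) (hW : W.IsSk) {i : BdI X} (hF : Fam i.F) (hg : i.g ∈ Icc (X.glo 0) (X.ghi 0)) {v : ℝ}
    (hv : v ∈ Ioo (0:ℝ) 1) : i.num.S v = i.Q.Sq W i.g v := by
  obtain ⟨c1, c2⟩ := hS.clk _ hF _ hg i.Q
  show skCS i.F.m 1 (i.Q.bE i.g) (i.Q.hE i.g) (ghPosA (cmkCl v)) = (W.ps i.F.m).S (i.Q.bq i.g) (i.Q.hq i.g) v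
  rw [gci_cl hv.1.le hv.2.le, hW.S _ (ffn_m_pos (hS.ok _ hF)) _ _ c1 c2 v hv]
  rfl

theorem ffn_B (hS : BdStd X W Fam K) (hW : W.IsSk) {i : BdI X} (hF : Fam i.F) (hg : i.g ∈ Icc (X.glo 0) (X.ghi 0)) {v : ℝ}
    (hv : v ∈ Ioo (0:ℝ) 1) : skCB i.F.m 1 (i.Q.bE i.g) (i.Q.hE i.g) (ghPosA (cmkCl v)) = i.Q.Bq W i.g v := by
  obtain ⟨c1, c2⟩ := hS.clk _ hF _ hg i.Q
  show _ = (W.ps i.F.m).B (i.Q.bq i.g) (i.Q.hq i.g) v
  rw [gci_cl hv.1.le hv.2.le, hW.B _ (ffn_m_pos (hS.ok _ hF)) _ _ c1 c2 v hv]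
  rfl

theorem ffn_Dq2_nonneg (hS : BdStd X W Fam K) {i : BdI X} (hF : Fam i.F) (hg : i.g ∈ Icc (X.glo 0) (X.ghi 0)) {v : ℝ}
    (hv : v ∈ Ioo (0:ℝ) 1) : 0 ≤ i.Q.Dq2 W i.g v := by
  obtain ⟨c1, c2⟩ := hS.clk _ hF _ hg i.Q
  have ha := hS.a1 i.F.m
  have := (W.ps i.F.m).S_sq_le (i.Q.bq i.g) (i.Q.hq i.g) (by rw [ha]; exact c1) (by rw [ha]; exact c2) v (by rw [ha]; exact hv)
  unfold BdQ.Dq2 BdQ.Bq BdQ.Sq
  linarith

theorem ffn_D2 (hS : BdStd X W Fam K) (hW : W.IsSk) {i : BdI X} (hF : Fam i.F) (hg : i.g ∈ Icc (X.glo 0) (X.ghi 0)) {v : ℝ}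
    (hv : v ∈ Ioo (0:ℝ) 1) : i.num.D v ^ 2 = i.Q.Dq2 W i.g v := by
  have e : cmkD2 i.F.m (i.Q.bE i.g) (i.Q.hE i.g) (ghPosA (cmkCl v)) = i.Q.Dq2 W i.g v := by
    have e1 := ffn_S hS hW hF hg hv
    have e2 := ffn_B hS hW hF hg hv
    unfold cmkD2 BdQ.Dq2
    rw [e2, ← e1]
    rfl
  show Real.sqrt (cmkD2 i.F.m (i.Q.bE i.g) (i.Q.hE i.g) (ghPosA (cmkCl v))) ^ 2 = _
  rw [e, Real.sq_sqrt (ffn_Dq2_nonneg hS hF hg hv)]

/-! ## 3. the clock inequality in the radius coordinate -/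

/-- the gain of the extended changed field clock on the flat region -/
theorem ffn_h_gain (hS : BdStd X W Fam K) {i : BdI X} (hF : Fam i.F) (hg : i.g ∈ Icc (X.glo 0) (X.ghi 0)) {s' t' : ℝ}
    (h0 : 0 ≤ s') (hst : s' ≤ t') (h1 : t' < 1) (hfl : i.Q.r t' ≤ X.cd ^ 3 * i.F.u) :
    i.F.C0 * (i.Q.r t' - i.Q.r s') ≤ i.Q.hE i.g t' - i.Q.hE i.g s' := by
  have hX := hS.fix
  have hFok := hS.ok _ hF
  obtain ⟨_, hh⟩ := hS.clk0 _ hF _ hg
  have hC0 := bud_gb_C0_pos hX hFok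
  have hs'I : s' ∈ Icc (0:ℝ) 1 := ⟨h0, by linarith⟩
  have ht'I : t' ∈ Icc (0:ℝ) 1 := ⟨h0.trans hst, h1.le⟩
  have hrm := ffn_r_mono hFok hX i.Q hs'I ht'I hst
  have hval : ∀ v : ℝ, 0 < v → v ≤ t' → i.Q.hE i.g v = i.F.h i.g v + i.F.C0 * i.Q.r v := by
    intro v hv0 hvt
    have hvI : v ∈ Icc (0:ℝ) 1 := ⟨hv0.le, by linarith⟩
    have hr := ffn_r_mono hFok hX i.Q hvI ht'I hvt
    show bmExt (i.Q.hq i.g) v = _
    unfold bmExt
    rw [if_neg (not_le.2 hv0), if_pos (lt_of_le_of_lt hvt h1)]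
    unfold BdQ.hq
    rw [bud_gb_C_flat hX hFok (hr.trans hfl)]
  rcases eq_or_lt_of_le h0 with hs0 | hs0
  · have e0 : i.Q.hE i.g s' = 0 := by
      show bmExt (i.Q.hq i.g) s' = 0
      unfold bmExt
      rw [if_pos (by linarith)]
    have er0 : i.Q.r s' = 0 := by
      rw [← hs0]
      have := i.Q.r_al 0 ⟨le_rfl, zero_le_one⟩
      rwa [i.Q.al_zero] at this
    rcases eq_or_lt_of_le (h0.trans hst) with ht0 | ht0
    · have : t' = s' := by linarith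
      rw [this]; simp
    · rw [e0, er0, hval t' ht0 le_rfl]
      have := hh.nonneg t' ⟨ht0, h1⟩
      linarith
  · rw [hval s' hs0 hst, hval t' (lt_of_lt_of_le hs0 hst) le_rfl]
    have := hh.mono ⟨hs0, lt_of_le_of_lt hst h1⟩ ⟨lt_of_lt_of_le hs0 hst, h1⟩ hst
    linarith

/-- **(A1), line 2, pulled back to the radius coordinate on the flat region** (any feasible `Q`) -/
theorem ffn_clock (hS : BdStd X W Fam K) {i : BdI X} (hF : Fam i.F) (hg : i.g ∈ Icc (X.glo 0) (X.ghi 0))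
    (hu1 : X.cd ^ 3 * i.F.u < 1) {s t : ℝ} (hs : 0 ≤ s) (hst : s ≤ t) (ht : t ≤ X.cd ^ 3 * i.F.u) :
    (i.F.m : ℝ) * i.F.C0 * ∫ r in s..t, i.num.TH (i.Q.al r) ≤ i.num.S (i.Q.al t) - i.num.S (i.Q.al s) := by
  have hX := hS.fix
  have hFok := hS.ok _ hF
  have hn := ffn_m_pos hFok
  have hadm := ffn_adm hS hF hg
  have hC0 := bud_gb_C0_pos hX hFok
  have ht1 : t < 1 := lt_of_le_of_lt ht hu1
  have hsI : s ∈ Icc (0:ℝ) 1 := ⟨hs, by linarith⟩
  have htI : t ∈ Icc (0:ℝ) 1 := ⟨hs.trans hst, ht1.le⟩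
  have hsub : Icc s t ⊆ Icc (0:ℝ) 1 := Icc_subset_Icc hs ht1.le
  have hsm := ffn_al_strictMono hFok hX i.Q
  have has := ffn_al_mem hFok hX i.Q hsI
  have hat := ffn_al_mem hFok hX i.Q htI
  have hat1 : i.Q.al t < 1 := by
    have := hsm htI ⟨zero_le_one, le_rfl⟩ ht1
    rwa [i.Q.al_one] at this
  have hle : i.Q.al s ≤ i.Q.al t := hsm.monotoneOn hsI htI hst
  have hsubJ : Icc (i.Q.al s) (i.Q.al t) ⊆ Icc (0:ℝ) 1 := Icc_subset_Icc has.1 hat.2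
  have hFi : IntervalIntegrable (fun u => ckH2 i.F.m 1 (i.Q.bE i.g) (i.Q.hE i.g) (ghPosA u)) volume (i.Q.al s) (i.Q.al t) := by
    refine (exit_clk_intble hn one_pos hadm).2.2.1.mono_set ?_
    rw [uIcc_of_le hle, uIcc_of_le zero_le_one]
    exact hsubJ
  obtain ⟨γ, hγ0, hγi, hγ1, hγ2⟩ := gci_pull ((ffn_al_cont hFok hX i.Q).mono hsub) (hsm.mono hsub)
    (fun x hx => i.Q.r_al x (hsub hx)) ((ffn_r_lip hFok hX i.Q).mono hsubJ) (w := fun _ => i.F.C0) continuous_const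
    (fun _ => hC0.le) hFi hst
  have hrm := ffn_r_mono hFok hX i.Q
  have hmain := exit_clk_sus_int hn one_pos hadm has.1 hle hat.2 γ (fun w _ => hγ0 w) hγi
    (fun s' t' h1 h2 h3 => by
      have hs' : s' ∈ Icc (0:ℝ) 1 := hsubJ ⟨h1, h2.trans h3⟩
      have ht' : t' ∈ Icc (0:ℝ) 1 := hsubJ ⟨h1.trans h2, h3⟩
      have e1 := i.Q.al_r s' hs'
      have e2 := i.Q.al_r t' ht'
      have hx0 : s ≤ i.Q.r s' := by
        have := hrm has hs' h1
        rwa [i.Q.r_al s hsI] at this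
      have hxy : i.Q.r s' ≤ i.Q.r t' := hrm hs' ht' h2
      have hy1 : i.Q.r t' ≤ t := by
        have := hrm ht' hat h3
        rwa [i.Q.r_al t htI] at this
      have h4 := hγ1 (i.Q.r s') (i.Q.r t') hx0 hxy hy1
      rw [e1, e2, intervalIntegral.integral_const, smul_eq_mul] at h4
      rw [h4, mul_comm]
      exact ffn_h_gain hS hF hg hs'.1 h2 (lt_of_le_of_lt h3 hat1) (hy1.trans ht))
  rw [hγ2, intervalIntegral.integral_const_mul, ← mul_assoc] at hmain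
  have hcl : ∀ r ∈ Icc s t, cmkCl (i.Q.al r) = i.Q.al r := fun r hr => by
    have hm := ffn_al_mem hFok hX i.Q (hsub hr)
    exact gci_cl hm.1 hm.2
  have e1 : ∫ r in s..t, i.num.TH (i.Q.al r) = ∫ r in s..t, ckH2 i.F.m 1 (i.Q.bE i.g) (i.Q.hE i.g) (ghPosA (i.Q.al r)) := by
    refine intervalIntegral.integral_congr fun r hr => ?_
    rw [uIcc_of_le hst] at hr
    show ckH2 i.F.m 1 (i.Q.bE i.g) (i.Q.hE i.g) (ghPosA (cmkCl (i.Q.al r))) = _
    rw [hcl r hr]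
  rw [e1]
  show _ ≤ skCS i.F.m 1 (i.Q.bE i.g) (i.Q.hE i.g) (ghPosA (cmkCl (i.Q.al t)))
    - skCS i.F.m 1 (i.Q.bE i.g) (i.Q.hE i.g) (ghPosA (cmkCl (i.Q.al s)))
  rw [hcl t ⟨hst, le_rfl⟩, hcl s ⟨le_rfl, hst⟩]
  exact hmain

/-! ## 4. the raw moments: uniform threshold -/

/-- `x ≤ w_c` -/
theorem ffn_wc_ge {F : BdFr} (hF : F.Ok X) (hX : X.Ok) : F.x ≤ F.wc X := by
  have hx := BdFr.bds_x_pos hF
  have hx1 := (BdFr.bds_x_lt_one hF).le
  have hu := BdFr.bds_u_pos hF hX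
  have hl := BdFr.bds_lam_pos hF
  have hXr := BdFr.bds_Xr_pos hF hX
  have hLam := bud_gb_Lam_pos hF
  have hLam1 : F.Lam ≤ 1 := Real.rpow_le_one hl.le (BdFr.bds_lam_lt_one hF hX).le (by norm_num)
  have h1 : (1:ℝ) ≤ F.x ^ (-(10 * X.zeta)) :=
    Real.one_le_rpow_of_pos_of_le_one_of_nonpos hx hx1 (by have := hX.zeta_pos; linarith)
  have h2 : (1:ℝ) ≤ F.Lam ^ (-(1 / 6) : ℝ) := Real.one_le_rpow_of_pos_of_le_one_of_nonpos hLam hLam1 (by norm_num)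
  have h3 : 0 ≤ F.Xr ^ (3 / 4 : ℝ) * F.lam ^ (0.12 : ℝ) :=
    mul_nonneg (Real.rpow_nonneg hXr.le _) (Real.rpow_nonneg hl.le _)
  have h4 : F.Xr ≤ F.Xr * F.Lam ^ (-(1 / 6) : ℝ) + F.Xr ^ (3 / 4 : ℝ) * F.lam ^ (0.12 : ℝ) := by nlinarith
  have h5 : F.Xr ≤ F.yc X := by
    unfold BdFr.yc
    calc F.Xr ≤ 1 * (F.Xr * F.Lam ^ (-(1 / 6) : ℝ) + F.Xr ^ (3 / 4 : ℝ) * F.lam ^ (0.12 : ℝ)) := by linarith
      _ ≤ _ := mul_le_mul_of_nonneg_right h1 (le_trans hXr.le h4)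
  have e : F.x = F.Xr * F.u := by unfold BdFr.Xr; field_simp
  unfold BdFr.wc
  calc F.x = F.Xr * F.u := e
    _ ≤ F.yc X * F.u := mul_le_mul_of_nonneg_right h5 hu.le

/-- thresholds which depend on the exponent may be made uniform: below the threshold of `q`, `‖X‖_{2q} ≤ 1 ≤ N_q^{1/12} √x` -/
theorem ffn_raw_unif {P : BdI X → Prop} (hX : X.Ok) (hok : ∀ i, P i → i.F.Ok X) (hnum : ∀ i, P i → i.num.Ok)
    (hraw : BudFfRaw X P) : ∃ Cp : ℕ → ℝ, ∃ N0 : ℕ, ∀ i, P i → N0 ≤ i.F.N → i.num.Raw (i.F.wc X) Cp := by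
  choose! C N h using hraw
  refine ⟨fun q => max (C q) ((N q : ℝ) ^ (1 / 12 : ℝ)), N 1, fun i hi hN u hu => ⟨fun q hq => ?_, ?_⟩⟩
  · have hF := hok i hi
    have hx := BdFr.bds_x_pos hF
    have hs0 : 0 ≤ Real.sqrt (u + i.F.wc X) := Real.sqrt_nonneg _
    by_cases hNq : N q ≤ i.F.N
    · exact ((h q hq i hi hNq u hu).1).trans (mul_le_mul_of_nonneg_right (le_max_left _ _) hs0)
    · have hNq : (i.F.N : ℝ) ≤ N q := by exact_mod_cast (not_le.1 hNq).le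
      have hN0 : (0:ℝ) < i.F.N := by
        have := hF.N2
        positivity
      have h1 : (i.F.N : ℝ) ^ (1 / 12 : ℝ) ≤ (N q : ℝ) ^ (1 / 12 : ℝ) := Real.rpow_le_rpow hN0.le hNq (by norm_num)
      have h2 : Real.sqrt i.F.x ≤ Real.sqrt (u + i.F.wc X) :=
        Real.sqrt_le_sqrt (by linarith [ffn_wc_ge hF hX, hu.1])
      have h3 : (i.F.N : ℝ) ^ (1 / 12 : ℝ) * Real.sqrt i.F.x = 1 := by
        rw [Real.sqrt_eq_rpow]
        unfold BdFr.x
        rw [← Real.rpow_mul hN0.le, ← Real.rpow_add hN0]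
        norm_num
      calc i.num.NX q u ≤ 1 := (hnum i hi).NX_le q u hu
        _ = (i.F.N : ℝ) ^ (1 / 12 : ℝ) * Real.sqrt i.F.x := h3.symm
        _ ≤ (N q : ℝ) ^ (1 / 12 : ℝ) * Real.sqrt (u + i.F.wc X) :=
            mul_le_mul h1 h2 (Real.sqrt_nonneg _) (Real.rpow_nonneg (Nat.cast_nonneg _) _)
        _ ≤ _ := mul_le_mul_of_nonneg_right (le_max_right _ _) hs0
  · have hF := hok i hi
    have hw : 0 ≤ u + i.F.wc X := by linarith [ffn_wc_ge hF hX, hu.1, (BdFr.bds_x_pos hF).le]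
    exact ((h 1 le_rfl i hi hN u hu).2).trans (mul_le_mul_of_nonneg_right (le_max_left _ _) hw)

/-! ## 5. EXIT -/

/-- **the input `BudFfNum` of N14**, on every class of instances of the family (feasible `Q`, parameter in the widest interval), from (C8) -/
theorem bud_ff_num (hS : BdStd X W Fam K) (hW : W.IsSk) {P : BdI X → Prop}
    (hP : ∀ i, P i → Fam i.F ∧ i.g ∈ Icc (X.glo 0) (X.ghi 0)) (hraw : BudFfRaw X P) : ∃ Cp : ℕ → ℝ, BudFfNum X W P Cp := by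
  have hX := hS.fix
  obtain ⟨Cp, N1, h1⟩ := ffn_raw_unif hX (fun i hi => hS.ok _ (hP i hi).1) (fun i hi => ffn_ok hS (hP i hi).1 (hP i hi).2) hraw
  have hcd : 0 < X.cd ^ 3 := pow_pos hX.cd_pos 3
  obtain ⟨N2, h2⟩ := bdg_lam_small hX hX.bl_pos (ε := 1 / (2 * X.cd ^ 3)) (by positivity)
  refine ⟨Cp, max N1 N2, fun i hi hN => ?_⟩
  obtain ⟨hF, hg⟩ := hP i hi
  have hFok := hS.ok _ hF
  have hu1 : X.cd ^ 3 * i.F.u < 1 := by
    have h3 : i.F.u ≤ 1 / (2 * X.cd ^ 3) := hFok.u_hi.trans (h2 _ hFok (le_trans (le_max_right _ _) hN))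
    calc X.cd ^ 3 * i.F.u ≤ X.cd ^ 3 * (1 / (2 * X.cd ^ 3)) := mul_le_mul_of_nonneg_left h3 hcd.le
      _ = 1 / 2 := by
          have := hX.cd_pos.ne'
          field_simp
      _ < 1 := by norm_num
  refine ⟨i.num, ffn_ok hS hF hg, fun v hv => ffn_S hS hW hF hg hv, fun v hv => ffn_D2 hS hW hF hg hv,
    h1 i hi (le_trans (le_max_left _ _) hN), fun s t hs hst ht => ?_⟩
  exact ffn_clock hS hF hg hu1 hs hst (ht.trans (min_le_left _ _))

/-- the form used by `BudFfIn.num` -/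
theorem bud_ff_num_st (hS : BdStd X W Fam K) (hW : W.IsSk) (hraw : BudFfRaw X (fun i => i.OkSt W Fam)) :
    ∃ Cp : ℕ → ℝ, BudFfNum X W (fun i => i.OkSt W Fam) Cp :=
  bud_ff_num hS hW (fun _ hi => ⟨hi.1.1, hi.1.2.1⟩) hraw

/-- the field `BudFfIn.base` is a consequence of `BdStd` on every instance (`bdg_base`) -/
theorem ffn_base (hS : BdStd X W Fam K) {i : BdI X} (hF : Fam i.F) (hg : i.g ∈ Icc (X.glo 0) (X.ghi 0)) : i.F.Base X W i.g :=
  bdg_base hS hF i.Q hg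

/-- **PRODUCER of `BudFfIn`** (161): ALL the inputs of N14 from the spine ((C7), both halves), "`c_H` large", and ONE open input, (C8) at `w_c` (`BudFfRaw`, helper7).
`num` = `bud_ff_num_st` (248), `c10` = `bos_inst_ff` (111). -/
theorem bud_ff_in (hS : BdStd X W Fam K) (hW : W.IsSk) {c C : ℝ} (hc : 0 < c) (h7a : BudFfC7 X (fun i => i.OkSt W Fam) c C)
    (h7 : BudC7al X W Fam) (hcH : K.Cb * X.cI + 1 ≤ X.cH) (hraw : BudFfRaw X (fun i => i.OkSt W Fam)) : BudFfIn X W Fam := by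
  obtain ⟨Cp, hnum⟩ := bud_ff_num_st hS hW hraw
  have hstd := ff_std_of hS
  refine ⟨⟨Cp, hnum⟩, 4, by norm_num, ?_⟩
  obtain ⟨N8, h8⟩ := ff_B_of_num hnum
  obtain ⟨Ns, hs⟩ := ff_sc_ev X hS.fix 1
  refine bos_inst_ff hW hstd (lt_min hc one_pos) (min_le_right _ _) (le_max_right _ _) (ff_c7_norm hS.fix hstd.ok h7a)
    (ff_patch_of hS h7 hcH) (Cr := |Cp 1| + Cp 1 ^ 2 + 1) (by positivity)
    ⟨0, fun i hi _ => hS.clk _ hi.1.1 _ hi.1.2.1 i.Q⟩
    ⟨max N8 Ns, fun i hi hN v hv => h8 i hi (le_trans (le_max_left _ _) hN) ?_ v hv⟩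
  have s := hs i.F (hstd.ok i hi) (le_trans (le_max_right _ _) hN)
  have := s.y0
  have := s.u0
  unfold BdFr.wc
  positivity

end

end Claimed.Agent.R286
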