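import Claimed.Agent.R286.Bud.GeoDefs

/-!
# Row 286, N4: pointwise algebra of the bracket (C6)   (head helper109; proofs helper2)
`budBr p r S B = (2-p) r - 2 (1-p) S - p B / r`.   Key identity: with `B = S² + D²`,
`(2-p) r - 2(1-p) S - p S²/r = (r - S) ((2-p) + p S / r)`, and `∂_p budBr = -((r-S)² + (B - S²))/r ≤ 0`.
-/

set_option autoImplicit false

namespace Claimed.Agent.R286

/-- `r * budBr` is a polynomial -/
theorem budBr_mul {p r S B : ℝ} (hr : 0 < r) :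
    r * budBr p r S B = (2 - p) * r ^ 2 - 2 * (1 - p) * S * r - p * B := by
  unfold budBr
  field_simp

theorem budBr_anti_p {p p' r S B : ℝ} (hr : 0 < r) (hSB : S ^ 2 ≤ B) (hp : p ≤ p') :
    budBr p' r S B ≤ budBr p r S B := by
  refine le_of_mul_le_mul_left ?_ hr
  rw [budBr_mul hr, budBr_mul hr]
  nlinarith [mul_nonneg (sub_nonneg.2 hp) (sq_nonneg (r - S)), mul_nonneg (sub_nonneg.2 hp) (sub_nonneg.2 hSB)]

theorem budBr_neg_of_lt {p r S B : ℝ} (hr : 0 < r) (hp0 : 0 ≤ p) (hp1 : p < 1) (hSB : S ^ 2 ≤ B)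
    (h : r < S) : budBr p r S B < 0 := by
  have h0 : r * budBr p r S B < 0 := by
    rw [budBr_mul hr]
    have h1 : p * S ^ 2 ≤ p * B := mul_le_mul_of_nonneg_left hSB hp0
    have h2 : 0 < (S - r) * ((2 - p) * r + p * S) := by
      apply mul_pos (by linarith)
      have : 0 ≤ p * S := mul_nonneg hp0 (by linarith)
      nlinarith
    nlinarith
  by_contra hc
  push Not at hc
  have := mul_nonneg hr.le hc
  linarith

/-- left point with bracket `≤ 0`, right point with bracket `≥ 0` (same slope `p`): increase of `S`.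
Proof: `hu` gives `p B' ≤ 2 r'²`; subtract; `p B / r ≤ p B' / r`; `p B' (1/r - 1/r') ≤ 2 r' (r'-r)/r`. -/
theorem budBr_pair {p r r' S S' B B' : ℝ} (hr : 0 < r) (hrr : r ≤ r') (hp0 : 0 ≤ p) (hp1 : p < 1)
    (hS' : 0 ≤ S') (hB : B ≤ B') (hl : budBr p r S B ≤ 0) (hu : 0 ≤ budBr p r' S' B') :
    2 * (1 - p) * (S' - S) ≤ (r' - r) * (2 + 2 * r' / r) := by
  have hr' : 0 < r' := lt_of_lt_of_le hr hrr
  have hu' : 0 ≤ (2 - p) * r' ^ 2 - 2 * (1 - p) * S' * r' - p * B' := by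
    rw [← budBr_mul hr']; exact mul_nonneg hr'.le hu
  have hpB' : p * B' ≤ 2 * r' ^ 2 := by
    have : 0 ≤ (1 - p) * S' * r' := mul_nonneg (mul_nonneg (by linarith) hS') hr'.le
    nlinarith [mul_nonneg hp0 (sq_nonneg r')]
  have hpB : p * B ≤ p * B' := mul_le_mul_of_nonneg_left hB hp0
  -- the two brackets
  unfold budBr at hl hu
  have h1 : p * B / r ≤ p * B' / r := div_le_div_of_nonneg_right hpB hr.le
  have h2 : p * B' / r - p * B' / r' ≤ 2 * r' / r * (r' - r) := by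
    have e : p * B' / r - p * B' / r' = p * B' * ((r' - r) / (r * r')) := by
      field_simp
    have e2 : 2 * r' / r * (r' - r) = 2 * r' ^ 2 * ((r' - r) / (r * r')) := by
      field_simp
    rw [e, e2]
    exact mul_le_mul_of_nonneg_right hpB' (div_nonneg (by linarith) (mul_pos hr hr').le)
  have h3 : (2 - p) * (r' - r) ≤ 2 * (r' - r) := by nlinarith
  nlinarith

/-- bracket `≤ 0` at an earlier point `r0` bounds `r0 - S` at a later point by `D`.
Proof: `(r0 - S)((2-p) + p S/r0) ≤ p D²/r0`; if `S < r0`: `r0 - S ≤ D²/r0` and `r0 - S ≤ r0`, so `(r0-S)² ≤ D²`. -/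
theorem budBr_lower {p r0 S0 B0 S B : ℝ} (hr : 0 < r0) (hp0 : 0 ≤ p) (hp1 : p < 1)
    (hS0 : S0 ≤ S) (hB0 : B0 ≤ B) (hS : 0 ≤ S) (hSB : S ^ 2 ≤ B) (hl : budBr p r0 S0 B0 ≤ 0) :
    r0 - S ≤ Real.sqrt (B - S ^ 2) := by
  rcases le_or_gt r0 S with hle | hlt
  · exact le_trans (by linarith) (Real.sqrt_nonneg _)
  apply Real.le_sqrt_of_sq_le
  have hl' : (2 - p) * r0 ^ 2 - 2 * (1 - p) * S0 * r0 - p * B0 ≤ 0 := by
    rw [← budBr_mul hr]; exact mul_nonpos_of_nonneg_of_nonpos hr.le hl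
  have h1 : (2 - p) * r0 ^ 2 - 2 * (1 - p) * S * r0 - p * B ≤ 0 := by
    have a1 : (1 - p) * S0 * r0 ≤ (1 - p) * S * r0 :=
      mul_le_mul_of_nonneg_right (mul_le_mul_of_nonneg_left hS0 (by linarith)) hr.le
    have a2 : p * B0 ≤ p * B := mul_le_mul_of_nonneg_left hB0 hp0
    linarith
  -- (r0 - S) ((2-p) r0 + p S) ≤ p (B - S²)
  have h2 : (r0 - S) * ((2 - p) * r0 + p * S) ≤ p * (B - S ^ 2) := by nlinarith
  have h3 : (r0 - S) * (r0 - S) ≤ (r0 - S) * ((2 - p) * r0 + p * S) := by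
    apply mul_le_mul_of_nonneg_left _ (by linarith)
    have : 0 ≤ p * S := mul_nonneg hp0 hS
    nlinarith
  have h4 : p * (B - S ^ 2) ≤ B - S ^ 2 := by nlinarith
  nlinarith

/-- bracket `= 0`: contact relations -/
theorem budBr_zero {p r S B : ℝ} (hr : 0 < r) (hp0 : 0 ≤ p) (hp1 : p < 1) (hS : 0 ≤ S)
    (hSB : S ^ 2 ≤ B) (h : budBr p r S B = 0) :
    S ≤ r ∧ (r - S) ^ 2 ≤ B - S ^ 2 ∧ p * B ≤ 2 * r ^ 2 := by
  have h0 : (2 - p) * r ^ 2 - 2 * (1 - p) * S * r - p * B = 0 := by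
    rw [← budBr_mul hr, h, mul_zero]
  have hSr : S ≤ r := by
    by_contra hc
    push Not at hc
    have := budBr_neg_of_lt hr hp0 hp1 hSB hc
    linarith
  refine ⟨hSr, ?_, ?_⟩
  · have h2 : (r - S) * ((2 - p) * r + p * S) = p * (B - S ^ 2) := by nlinarith
    have h3 : (r - S) * (r - S) ≤ (r - S) * ((2 - p) * r + p * S) := by
      apply mul_le_mul_of_nonneg_left _ (by linarith)
      have : 0 ≤ p * S := mul_nonneg hp0 hS
      nlinarith
    have h4 : p * (B - S ^ 2) ≤ B - S ^ 2 := by nlinarith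
    nlinarith
  · have : 0 ≤ (1 - p) * S * r := mul_nonneg (mul_nonneg (by linarith) hS) hr.le
    nlinarith [mul_nonneg hp0 (sq_nonneg r)]

/-- at `r = 1` the bracket is nonnegative -/
theorem budBr_one_nonneg {p S B : ℝ} (hp0 : 0 ≤ p) (hp1 : p < 1) (hS : S ≤ 1) (hB : B ≤ 1) :
    0 ≤ budBr p 1 S B := by
  unfold budBr
  have h1 : (1 - p) * S ≤ (1 - p) * 1 := mul_le_mul_of_nonneg_left hS (by linarith)
  have h2 : p * B ≤ p * 1 := mul_le_mul_of_nonneg_left hB hp0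
  simp only [div_one]
  linarith

/-- slope zero -/
theorem budBr_p_zero (r S B : ℝ) : budBr 0 r S B = 2 * (r - S) := by
  unfold budBr
  ring

end Claimed.Agent.R286
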