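import Claimed.Agent.R286.Bud.PSys

/-!
# Row 286, LL 07-budgets, node N4: first-variation geometry of a density box : DEFINITIONS  (head helper109)

Radius coordinate `r ∈ [0,1]`, mass coordinate `v ∈ (0,1)` (local argument, terminal mass normalised to `1`).
* `ρ` = density of the inverse quantile, `α r = budAl ρ r = ∫_0^r ρ`; box `kb ≤ ρ ≤ M` a.e., total mass `1`  (LL (C5)).
* `budQ ρ` = forward quantile `r(v) = α⁻¹(v)`.
* `C` = removal profile, `C'` its derivative, `p = -r C'/C`.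
* objective `budObj = f(b - C∘r, h + (C·id)∘r) + ¼ ∫ C(r) r²`.
* `G = C * bracket` (C6), `H r = ∫_0^r G - c0` the normalised potential; cap `{H<0}`, floor `{H>0}`, contact `{H=0}`.
Sources: LL Lemma 7.2 (bud:geometry), PE Lemma 3.3 (9)-(10), LL 06-global l.185-220.
Files: GeoAlg (bracket algebra), GeoBath (bathtub), GeoPot (potential, caps as intervals), GeoCap, GeoCon, GeoFlat, GeoFV (minimiser, first variation, assembly).
-/

set_option autoImplicit false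

open MeasureTheory Set Filter Topology

namespace Claimed.Agent.R286

/-- density box on `(0,1)`: floor `kb`, constant cap `M`, total mass one -/
structure BudDens (kb : ℝ → ℝ) (M : ℝ) (ρ : ℝ → ℝ) : Prop where
  meas : Measurable ρ
  lo : ∀ᵐ r ∂volume, r ∈ Ioo (0:ℝ) 1 → kb r ≤ ρ r
  hi : ∀ᵐ r ∂volume, r ∈ Ioo (0:ℝ) 1 → ρ r ≤ M
  mass : ∫ r in (0:ℝ)..1, ρ r = 1

/-- the inverse quantile of a density -/
noncomputable def budAl (ρ : ℝ → ℝ) (r : ℝ) : ℝ := ∫ t in (0:ℝ)..r, ρ t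

/-- the forward quantile `r(v)` -/
noncomputable def budQ (ρ : ℝ → ℝ) (v : ℝ) : ℝ := sSup {r ∈ Icc (0:ℝ) 1 | budAl ρ r ≤ v}

/-- first-variation inequality at `ρ` for the variation density `G` (`δObj = -(1/4) ∫ G δα ≥ 0`) -/
def BudFV (G kb : ℝ → ℝ) (M : ℝ) (ρ : ℝ → ℝ) : Prop :=
  ∀ ρ', BudDens kb M ρ' → ∫ r in (0:ℝ)..1, G r * (budAl ρ' r - budAl ρ r) ≤ 0

/-- bracket of (C6) -/
noncomputable def budBr (p r S B : ℝ) : ℝ := (2 - p) * r - 2 * (1 - p) * S - p * B / r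

/-- data of the geometry, in radius coordinates -/
structure BudGeo where
  kb : ℝ → ℝ
  M : ℝ
  ρ : ℝ → ℝ
  C : ℝ → ℝ
  p : ℝ → ℝ
  S : ℝ → ℝ
  B : ℝ → ℝ
  c0 : ℝ

namespace BudGeo

variable (g : BudGeo)

/-- variation density (C6) -/
noncomputable def G (r : ℝ) : ℝ := g.C r * budBr (g.p r) r (g.S r) (g.B r)

/-- normalised potential -/
noncomputable def H (r : ℝ) : ℝ := (∫ t in (0:ℝ)..r, g.G t) - g.c0

/-- inverse quantile -/
noncomputable def al (r : ℝ) : ℝ := budAl g.ρ r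

/-- `D = sqrt (B - S²)` -/
noncomputable def D (r : ℝ) : ℝ := Real.sqrt (g.B r - g.S r ^ 2)

/-- standing hypotheses (= conclusion of the bathtub principle + monotonicity of the statistics).
INSTANCE: `bud_geometry` (Bud/GeoFV.lean, abstract `PSys`), `bud_n4_geo` (Bud/GeoBr.lean, frame of Bud/Defs.lean); owner helper109.   TEX[LL:bud:geometry] -/
structure Ok : Prop where
  M1 : 1 < g.M
  kbm : Measurable g.kb
  kb0 : ∀ r, 0 ≤ g.kb r
  dens : BudDens g.kb g.M g.ρ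
  Cm : Measurable g.C
  Cpos : ∀ r ∈ Icc (0:ℝ) 1, 0 < g.C r
  Cbd : ∃ K, ∀ r ∈ Icc (0:ℝ) 1, g.C r ≤ K
  pm : Measurable g.p
  Sm : Measurable g.S
  Bm : Measurable g.B
  pmono : MonotoneOn g.p (Icc 0 1)
  p0 : ∀ r ∈ Icc (0:ℝ) 1, 0 ≤ g.p r
  p1 : ∀ r ∈ Icc (0:ℝ) 1, g.p r < 1
  pz : ∃ e > 0, ∀ r ∈ Icc (0:ℝ) e, g.p r = 0
  Smono : MonotoneOn g.S (Icc 0 1)
  Bmono : MonotoneOn g.B (Icc 0 1)
  S0 : ∀ r ∈ Icc (0:ℝ) 1, 0 ≤ g.S r
  SB : ∀ r ∈ Icc (0:ℝ) 1, g.S r ^ 2 ≤ g.B r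
  B1 : ∀ r ∈ Icc (0:ℝ) 1, g.B r ≤ 1
  cap : ∀ᵐ r ∂volume, r ∈ Ioo (0:ℝ) 1 → g.H r < 0 → g.ρ r = g.M
  floor : ∀ᵐ r ∂volume, r ∈ Ioo (0:ℝ) 1 → 0 < g.H r → g.ρ r = g.kb r

/-- `(a,b)` is a cap interval closed on the right: `H < 0` inside, `H b = 0` or `b = 1` -/
def CapR (a b : ℝ) : Prop := 0 ≤ a ∧ a < b ∧ b ≤ 1 ∧ (∀ r ∈ Ioo a b, g.H r < 0) ∧ (g.H b = 0 ∨ b = 1)

/-- `(a,b)` is a cap interval closed on the left: `H < 0` inside, `H a = 0` or `a = 0` -/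
def CapL (a b : ℝ) : Prop := 0 ≤ a ∧ a < b ∧ b ≤ 1 ∧ (∀ r ∈ Ioo a b, g.H r < 0) ∧ (g.H a = 0 ∨ a = 0)

/-- the constant part of the removal: `p = 0`, `C = C0` on `[0,R0]` -/
structure Flat (R0 C0 : ℝ) : Prop where
  hR : R0 ≤ 1
  hC0 : 0 < C0
  hC : ∀ r ∈ Icc (0:ℝ) R0, g.C r = C0
  hp : ∀ r ∈ Icc (0:ℝ) R0, g.p r = 0

end BudGeo

/-! ### the optimisation problem over an abstract pressure system -/

/-- removal profile: `C > 0`, `C' ≤ 0`, `p = -r C'/C ∈ [0,1)` nondecreasing, `C` constant near `0` -/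
structure BudProf (C C' : ℝ → ℝ) : Prop where
  meas : Measurable C
  meas' : Measurable C'
  deriv : ∀ r ∈ Icc (0:ℝ) 1, HasDerivAt C (C' r) r
  cont' : ContinuousOn C' (Icc 0 1)
  pos : ∀ r ∈ Icc (0:ℝ) 1, 0 < C r
  anti : ∀ r ∈ Icc (0:ℝ) 1, C' r ≤ 0
  slope : ∀ r ∈ Icc (0:ℝ) 1, -(r * C' r) < C r
  pmono : MonotoneOn (fun r => -(r * C' r) / C r) (Icc 0 1)
  flat0 : ∃ e > 0, ∀ r ∈ Icc (0:ℝ) e, C' r = 0

/-- logarithmic slope -/
noncomputable def budP (C C' : ℝ → ℝ) (r : ℝ) : ℝ := -(r * C' r) / C r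

/-- changed matrix clock `b - C(r(v))` -/
noncomputable def budCb (b C ρ : ℝ → ℝ) : ℝ → ℝ := fun v => b v - C (budQ ρ v)

/-- changed field clock `h + C(r(v)) r(v)` -/
noncomputable def budCh (h C ρ : ℝ → ℝ) : ℝ → ℝ := fun v => h v + C (budQ ρ v) * budQ ρ v

/-- objective of (C5) -/
noncomputable def budObj (P : PSys) (b h C ρ : ℝ → ℝ) : ℝ :=
  P.f (budCb b C ρ) (budCh h C ρ) + (1/4) * ∫ v in Ioo (0:ℝ) 1, C (budQ ρ v) * budQ ρ v ^ 2

/-- `S` of the changed path in radius coordinates, with the harmless end values `0`, `1` -/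
noncomputable def budSr (P : PSys) (b h C ρ : ℝ → ℝ) (r : ℝ) : ℝ :=
  if r ≤ 0 then 0 else if 1 ≤ r then 1 else P.S (budCb b C ρ) (budCh h C ρ) (budAl ρ r)

/-- `B` of the changed path in radius coordinates, with the harmless end values `0`, `1` -/
noncomputable def budBr' (P : PSys) (b h C ρ : ℝ → ℝ) (r : ℝ) : ℝ :=
  if r ≤ 0 then 0 else if 1 ≤ r then 1 else P.B (budCb b C ρ) (budCh h C ρ) (budAl ρ r)

/-- the local frame: base clocks, profile, box.   INSTANCE: `bud_loc_of_frame` (Bud/GeoBr.lean), owner helper109. -/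
structure BudLoc (P : PSys) (b h kb C C' : ℝ → ℝ) (M kmin : ℝ) : Prop where
  a1 : P.a = 1
  hb : IsClock 1 b
  hh : IsClock 1 h
  marg : ∀ v ∈ Ioo (0:ℝ) 1, C 0 ≤ b v
  prof : BudProf C C'
  kbm : Measurable kb
  kmin0 : 0 < kmin
  kb_ge : ∀ r, kmin ≤ kb r
  kb_le : ∀ r, kb r ≤ M
  kb_int : ∫ r in (0:ℝ)..1, kb r ≤ 1
  M1 : 1 < M

/-- minimiser of the objective in the box -/
def BudMin (P : PSys) (b h kb C : ℝ → ℝ) (M : ℝ) (ρ : ℝ → ℝ) : Prop :=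
  BudDens kb M ρ ∧ ∀ ρ', BudDens kb M ρ' → budObj P b h C ρ ≤ budObj P b h C ρ'

/-- the geometry datum of a density -/
noncomputable def budGeoOf (P : PSys) (b h kb C C' : ℝ → ℝ) (M : ℝ) (ρ : ℝ → ℝ) (c0 : ℝ) : BudGeo :=
  ⟨kb, M, ρ, C, budP C C', budSr P b h C ρ, budBr' P b h C ρ, c0⟩

/-- forces the equation lemmas of all definitions to be generated HERE (unique names across the tree) -/
theorem bud_geo_defs_eqns_cite : True := by
  have := @budBr.eq_1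
  have := @budAl.eq_1; have := @budQ.eq_1; have := @BudFV.eq_1; have := @BudGeo.G.eq_1; have := @BudGeo.H.eq_1
  have := @BudGeo.al.eq_1; have := @BudGeo.D.eq_1; have := @BudGeo.CapR.eq_1; have := @BudGeo.CapL.eq_1; have := @budP.eq_1
  have := @budCb.eq_1; have := @budCh.eq_1; have := @budObj.eq_1; have := @budSr.eq_1; have := @budBr'.eq_1
  have := @BudMin.eq_1; have := @budGeoOf.eq_1
  trivial

end Claimed.Agent.R286
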