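import Mathlib

/-!
# Row 286, LL sec. 7, node N15 = Lemma `bud:high-primitive` (07-budgets.tex l.1643-1768): ABSTRACT LAYER      (owner helper8; head helper212; prefix `hp_`, types `Hp*`)

TEX[LL:bud:high-primitive], second assertion (centred primitive over a high dyad, plateau included).   Mathlib only: NOTHING here knows the spin system.

`HpS` = the NUMBERS of one path (terminal mass `1`) seen by the centred primitive: `m` sites, `S_v = E|X_v|²`, `T_v = E tr H_v²`, the field clock `h`,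
and the functional `nr k = ‖∫_0^1 k_v (L_v - E L_v) dv‖_2` of a deterministic weight.
`HpS.Ok cV` = ALL that the proof uses of the model = LL (A1):
* `sus`   line 2, `dS ≥ m E tr H² dh`, integrated form (= `exit_clk_sus_int`; the slope of `h` is only asked at masses `< 1`);
* `var`   line 3 at `p = 2` + `E W = E tr CH ≤ E tr H²/v` (`v C ≼ H`);      `tri`, `bdd`: Minkowski, `|L| ≤ 3/2`.
INSTANCE DEBT: `bud_hp_inst` (file `Bud/HpFr.lean`, owner helper8): the changed path of every feasible `Q : BdQ F X` in an SK world.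

DAG of the paper's proof (l.1679-1766):
  `hp_I_slope`      `∫_{v1}^{v2} E W ≤ osc S/(m σ v1)` if `dh ≥ σ dv`                      (used 5 times: actual field, edge strips, linear seed (b), (c))
  `hp_mono_L2_*`    "Cauchy-Schwarz and monotonicity compare `S` to the constant reference on neighbouring intervals" (l.1701-1709)
  `hp_osc`          pointwise form on the whole plateau, with the capped left strip (reference varies by `Eq` on the preceding active interval) and the capped right strip (boundedness)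
  `hp_edge`         "summing the dyadic strips gives the edge bound" (l.1716-1727)
  `hp_mid_osc`      case (c), l.1757-1762
  `hp_nr_I`, `hp_nr_len`, `hp_nr_plateau`      (A1) on the pieces of the dyad; end strips by boundedness (case (c), l.1751-1756)
-/

set_option autoImplicit false

namespace Claimed.Agent.R286

open MeasureTheory Set

noncomputable section

/-- the numbers of ONE path (terminal mass `1`) which the centred primitive sees -/
structure HpS where
  /-- number of sites -/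
  m : ℝ
  /-- `S_v = E|X_v|²` -/
  S : ℝ → ℝ
  /-- `T_v = E tr H_v²` -/
  T : ℝ → ℝ
  /-- the field clock -/
  h : ℝ → ℝ
  /-- `nr k = ‖∫_0^1 k_v (L_v - E L_v) dv‖_2` -/
  nr : (ℝ → ℝ) → ℝ

/-- deterministic weights: bounded measurable functions -/
def HpK (k : ℝ → ℝ) : Prop := Measurable k ∧ ∃ C : ℝ, ∀ v, |k v| ≤ C

namespace HpS

variable (P : HpS)

/-- `I(a,b) = ∫_a^b E tr H_v²/v dv ≥ ∫_a^b E W_v dv` -/
def I (a b : ℝ) : ℝ := ∫ v in a..b, P.T v / v

/-- **all that N15 (second assertion) uses of the model**: LL (A1), lines 2 and 3 (`p = 2`).      INSTANCE: `bud_hp_inst` (`Bud/HpFr.lean`) -/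
structure Ok (cV : ℝ) : Prop where
  m_pos : 0 < P.m
  cV_nn : 0 ≤ cV
  S_mono : MonotoneOn P.S (Icc 0 1)
  S_nn : ∀ v ∈ Icc (0 : ℝ) 1, 0 ≤ P.S v
  S_le : ∀ v ∈ Icc (0 : ℝ) 1, P.S v ≤ 1
  T_nn : ∀ v ∈ Icc (0 : ℝ) 1, 0 ≤ P.T v
  T_int : IntervalIntegrable P.T volume 0 1
  /-- (A1) line 2, integrated: `dh ≥ g dv` on `[u,v]` (asked at masses `< 1` only) -/
  sus : ∀ (u v : ℝ) (g : ℝ → ℝ), 0 ≤ u → u ≤ v → v ≤ 1 → (∀ w ∈ Icc u v, 0 ≤ g w) → IntervalIntegrable g volume u v →
    (∀ s t, u ≤ s → s ≤ t → t ≤ v → t < 1 → ∫ w in s..t, g w ≤ P.h t - P.h s) →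
    P.m * ∫ w in u..v, g w * P.T w ≤ P.S v - P.S u
  /-- Minkowski -/
  tri : ∀ k1 k2, HpK k1 → HpK k2 → P.nr (fun v => k1 v + k2 v) ≤ P.nr k1 + P.nr k2
  /-- (A1) line 3 at `p = 2`, `E W_v ≤ E tr H_v²/v`; the weight vanishes near the mass `0` -/
  var : ∀ (v0 : ℝ) (k : ℝ → ℝ), 0 < v0 → HpK k → (∀ v, v < v0 → k v = 0) →
    P.nr k ≤ Real.sqrt (cV * ∫ v in (0 : ℝ)..1, k v ^ 2 * (P.T v / v))
  /-- boundedness: `|L_v - E L_v| ≤ 3` -/
  bdd : ∀ k, HpK k → P.nr k ≤ 3 * ∫ v in (0 : ℝ)..1, |k v|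

variable {P} {cV : ℝ}

/-! ### the integral `I` -/

theorem hp_T_int (h : P.Ok cV) {a b : ℝ} (ha : 0 ≤ a) (hab : a ≤ b) (hb : b ≤ 1) : IntervalIntegrable P.T volume a b := by
  refine h.T_int.mono_set ?_
  rw [uIcc_of_le hab, uIcc_of_le zero_le_one]
  exact Icc_subset_Icc ha hb

theorem hp_Tv_int (h : P.Ok cV) {a b : ℝ} (ha : 0 < a) (hab : a ≤ b) (hb : b ≤ 1) :
    IntervalIntegrable (fun v => P.T v / v) volume a b := by
  have h1 := (hp_T_int h ha.le hab hb).mul_continuousOn (g := fun v => v⁻¹) ?_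
  · simpa only [div_eq_mul_inv] using h1
  · rw [uIcc_of_le hab]
    exact continuousOn_id.inv₀ fun v hv => (lt_of_lt_of_le ha hv.1).ne'

theorem hp_I_nonneg (h : P.Ok cV) {a b : ℝ} (ha : 0 < a) (hab : a ≤ b) (hb : b ≤ 1) : 0 ≤ P.I a b := by
  refine intervalIntegral.integral_nonneg hab fun v hv => ?_
  exact div_nonneg (h.T_nn v ⟨ha.le.trans hv.1, hv.2.trans hb⟩) (ha.le.trans hv.1)

theorem hp_I_add (h : P.Ok cV) {a b c : ℝ} (ha : 0 < a) (hab : a ≤ b) (hbc : b ≤ c) (hc : c ≤ 1) :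
    P.I a b + P.I b c = P.I a c := by
  exact intervalIntegral.integral_add_adjacent_intervals (hp_Tv_int h ha hab (hbc.trans hc))
    (hp_Tv_int h (lt_of_lt_of_le ha hab) hbc hc)

theorem hp_I_mono (h : P.Ok cV) {a a' b' b : ℝ} (ha : 0 < a) (h1 : a ≤ a') (h2 : a' ≤ b') (h3 : b' ≤ b) (hb : b ≤ 1) :
    P.I a' b' ≤ P.I a b := by
  have e1 := hp_I_add h ha h1 (h2.trans h3) hb
  have e2 := hp_I_add h (lt_of_lt_of_le ha h1) h2 h3 hb
  have n1 := hp_I_nonneg h ha h1 ((h2.trans h3).trans hb)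
  have n2 := hp_I_nonneg h (lt_of_lt_of_le ha (h1.trans h2)) h3 hb
  linarith

theorem hp_I_le_T (h : P.Ok cV) {a b : ℝ} (ha : 0 < a) (hab : a ≤ b) (hb : b ≤ 1) :
    P.I a b ≤ (∫ v in a..b, P.T v) / a := by
  unfold HpS.I
  rw [← intervalIntegral.integral_div]
  refine intervalIntegral.integral_mono_on hab (hp_Tv_int h ha hab hb) ((hp_T_int h ha.le hab hb).div_const a) fun v hv => ?_
  exact div_le_div_of_nonneg_left (h.T_nn v ⟨ha.le.trans hv.1, hv.2.trans hb⟩) ha hv.1

/-- (A1) line 2 with a constant slope -/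
theorem hp_T_slope (h : P.Ok cV) {v1 v2 σ : ℝ} (h1 : 0 ≤ v1) (h12 : v1 ≤ v2) (h2 : v2 ≤ 1) (hσ : 0 < σ)
    (hs : ∀ s t, v1 ≤ s → s ≤ t → t ≤ v2 → t < 1 → σ * (t - s) ≤ P.h t - P.h s) :
    ∫ v in v1..v2, P.T v ≤ (P.S v2 - P.S v1) / (P.m * σ) := by
  have hm := h.m_pos
  have h3 := h.sus v1 v2 (fun _ => σ) h1 h12 h2 (fun _ _ => hσ.le) intervalIntegrable_const (fun s t a b c d => by
    rw [intervalIntegral.integral_const, smul_eq_mul, mul_comm]
    exact hs s t a b c d)
  rw [intervalIntegral.integral_const_mul] at h3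
  rw [le_div_iff₀ (mul_pos hm hσ)]
  linarith

/-- **the slope lemma**: `∫_{v1}^{v2} E W_v dv ≤ osc S/(m σ v1)` if `dh ≥ σ dv` on `[v1,v2]`.      TEX[LL:bud:high-primitive] l.1684-1690, 1719-1724, 1745, 1763 -/
theorem hp_I_slope (h : P.Ok cV) {v1 v2 σ : ℝ} (h1 : 0 < v1) (h12 : v1 ≤ v2) (h2 : v2 ≤ 1) (hσ : 0 < σ)
    (hs : ∀ s t, v1 ≤ s → s ≤ t → t ≤ v2 → t < 1 → σ * (t - s) ≤ P.h t - P.h s) :
    P.I v1 v2 ≤ (P.S v2 - P.S v1) / (P.m * σ * v1) := by
  have hm := h.m_pos
  refine (hp_I_le_T h h1 h12 h2).trans ?_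
  rw [← div_div]
  exact div_le_div_of_nonneg_right (hp_T_slope h h1.le h12 h2 hσ hs) h1.le

/-! ### the norm on pieces of a dyad -/

theorem hp_nr_I_K {k : ℝ → ℝ} (hk : Measurable k) (hk1 : ∀ v, |k v| ≤ 1) : HpK k := ⟨hk, 1, hk1⟩

/-- (A1) line 3 on an interval -/
theorem hp_nr_I (h : P.Ok cV) {a b : ℝ} (ha : 0 < a) (hab : a ≤ b) (hb : b ≤ 1) {k : ℝ → ℝ} (hk : Measurable k)
    (hk1 : ∀ v, |k v| ≤ 1) (hk0 : ∀ v, v ∉ Icc a b → k v = 0) : P.nr k ≤ Real.sqrt (cV * P.I a b) := by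
  have hK : HpK k := hp_nr_I_K hk hk1
  refine (h.var a k ha hK fun v hv => hk0 v fun hv' => absurd hv'.1 (not_le.2 hv)).trans ?_
  refine Real.sqrt_le_sqrt (mul_le_mul_of_nonneg_left ?_ h.cV_nn)
  have e1 : ∫ v in (0 : ℝ)..1, k v ^ 2 * (P.T v / v) = ∫ v in a..b, k v ^ 2 * (P.T v / v) := by
    rw [intervalIntegral.integral_of_le zero_le_one, intervalIntegral.integral_of_le hab, ← integral_Icc_eq_integral_Ioc (x := a) (y := b)]
    refine setIntegral_eq_of_subset_of_forall_sdiff_eq_zero measurableSet_Ioc ?_ fun v hv => ?_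
    · exact fun v hv => ⟨lt_of_lt_of_le ha hv.1, hv.2.trans hb⟩
    · rw [hk0 v hv.2]
      simp
  rw [e1]
  unfold HpS.I
  have hi := hp_Tv_int h ha hab hb
  have hi2 : IntervalIntegrable (fun v => k v ^ 2 * (P.T v / v)) volume a b := by
    rw [intervalIntegrable_iff] at hi ⊢
    refine hi.bdd_mul (c := 1) (hk.pow_const 2).aestronglyMeasurable (Filter.Eventually.of_forall fun v => ?_)
    rw [Real.norm_eq_abs, abs_pow]
    exact pow_le_one₀ (abs_nonneg _) (hk1 v)
  refine intervalIntegral.integral_mono_on hab hi2 hi fun v hv => ?_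
  have h0 : 0 ≤ P.T v / v := div_nonneg (h.T_nn v ⟨ha.le.trans hv.1, hv.2.trans hb⟩) (ha.le.trans hv.1)
  have h1 : k v ^ 2 ≤ 1 := by
    rw [← sq_abs]
    exact pow_le_one₀ (abs_nonneg _) (hk1 v)
  nlinarith

/-- boundedness on an interval -/
theorem hp_nr_len (h : P.Ok cV) {a b : ℝ} (ha : 0 ≤ a) (hab : a ≤ b) (hb : b ≤ 1) {k : ℝ → ℝ} (hk : Measurable k)
    (hk1 : ∀ v, |k v| ≤ 1) (hk0 : ∀ v, v ∉ Icc a b → k v = 0) : P.nr k ≤ 3 * (b - a) := by
  have hK : HpK k := hp_nr_I_K hk hk1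
  refine (h.bdd k hK).trans (mul_le_mul_of_nonneg_left ?_ (by norm_num))
  rw [intervalIntegral.integral_of_le zero_le_one]
  have e1 : ∫ v in Ioc (0 : ℝ) 1, |k v| = ∫ v in Ioc (0 : ℝ) 1 ∩ Icc a b, |k v| := by
    refine setIntegral_eq_of_subset_of_forall_sdiff_eq_zero measurableSet_Ioc inter_subset_left fun v hv => ?_
    rw [hk0 v fun hv' => hv.2 ⟨hv.1, hv'⟩, abs_zero]
  rw [e1]
  have hfin : volume (Ioc (0 : ℝ) 1 ∩ Icc a b) < ⊤ :=
    lt_of_le_of_lt (measure_mono inter_subset_right) (by rw [Real.volume_Icc]; exact ENNReal.ofReal_lt_top)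
  have h2 := norm_setIntegral_le_of_norm_le_const (f := fun v => |k v|) (C := 1) hfin fun v _ => by
    rw [Real.norm_eq_abs, abs_abs]
    exact hk1 v
  have h3 : volume.real (Ioc (0 : ℝ) 1 ∩ Icc a b) ≤ b - a := by
    have := measureReal_mono (μ := volume) (inter_subset_right : Ioc (0 : ℝ) 1 ∩ Icc a b ⊆ Icc a b)
      (by rw [Real.volume_Icc]; exact ENNReal.ofReal_ne_top)
    rwa [Real.volume_real_Icc_of_le hab] at this
  have h4 := le_abs_self (∫ v in Ioc (0 : ℝ) 1 ∩ Icc a b, |k v|)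
  rw [Real.norm_eq_abs] at h2
  linarith

theorem hp_nr_split_K {k : ℝ → ℝ} (hk : HpK k) {A : Set ℝ} (hA : MeasurableSet A) : HpK (A.indicator k) := by
  obtain ⟨hm, C, hC⟩ := hk
  refine ⟨hm.indicator hA, C, fun v => ?_⟩
  by_cases hv : v ∈ A
  · rw [indicator_of_mem hv]
    exact hC v
  · rw [indicator_of_notMem hv, abs_zero]
    exact (abs_nonneg _).trans (hC v)

/-- Minkowski along a measurable set -/
theorem hp_nr_split (h : P.Ok cV) {k : ℝ → ℝ} (hk : HpK k) {A : Set ℝ} (hA : MeasurableSet A) :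
    P.nr k ≤ P.nr (A.indicator k) + P.nr (Aᶜ.indicator k) := by
  have h1 := h.tri _ _ (hp_nr_split_K hk hA) (hp_nr_split_K hk hA.compl)
  have e : (fun v => A.indicator k v + Aᶜ.indicator k v) = k := by
    funext v
    exact congrFun (indicator_self_add_compl A k) v
  rwa [e] at h1

theorem hp_nr_plateau_ind {k : ℝ → ℝ} (hk1 : ∀ v, |k v| ≤ 1) (A : Set ℝ) (v : ℝ) : |A.indicator k v| ≤ 1 := by
  by_cases hv : v ∈ A
  · rw [indicator_of_mem hv]
    exact hk1 v
  · rw [indicator_of_notMem hv, abs_zero]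
    exact zero_le_one

/-- **a dyad which meets the plateau `[p,1]`**: active part, plateau without two end strips of width `δ`, end strips by boundedness.
TEX[LL:bud:high-primitive] l.1751-1756 (`δ = 0`: all the other cases) -/
theorem hp_nr_plateau (h : P.Ok cV) {a p δ : ℝ} (ha : 0 < a) (hap : a ≤ p) (hp : p < 1) (hδ0 : 0 ≤ δ) (hδ : 2 * δ ≤ 1 - p)
    {k : ℝ → ℝ} (hk : Measurable k) (hk1 : ∀ v, |k v| ≤ 1) (hk0 : ∀ v, v ∉ Icc a 1 → k v = 0) :
    P.nr k ≤ Real.sqrt (cV * P.I a p) + Real.sqrt (cV * P.I (p + δ) (1 - δ)) + 6 * δ := by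
  have hK : HpK k := hp_nr_I_K hk hk1
  have mA1 : MeasurableSet (Icc a p) := measurableSet_Icc
  have mA2 : MeasurableSet (Icc (p + δ) (1 - δ)) := measurableSet_Icc
  have mA3 : MeasurableSet (Iic (p + δ)) := measurableSet_Iic
  obtain ⟨k1, hk1d⟩ : ∃ k1, k1 = (Icc a p)ᶜ.indicator k := ⟨_, rfl⟩
  obtain ⟨k2, hk2d⟩ : ∃ k2, k2 = (Icc (p + δ) (1 - δ))ᶜ.indicator k1 := ⟨_, rfl⟩
  have hk1m : Measurable k1 := by rw [hk1d]; exact hk.indicator mA1.compl
  have hk2m : Measurable k2 := by rw [hk2d]; exact hk1m.indicator mA2.compl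
  have hk1b : ∀ v, |k1 v| ≤ 1 := by rw [hk1d]; exact hp_nr_plateau_ind hk1 _
  have hk2b : ∀ v, |k2 v| ≤ 1 := by rw [hk2d]; exact hp_nr_plateau_ind hk1b _
  have s1 := hp_nr_split h hK mA1
  have s2 := hp_nr_split h (hp_nr_I_K hk1m hk1b) mA2
  have s3 := hp_nr_split h (hp_nr_I_K hk2m hk2b) mA3
  rw [← hk1d] at s1
  rw [← hk2d] at s2
  -- support of `k2`
  have hk2z : ∀ v, k2 v ≠ 0 → (v ∈ Icc a 1 ∧ v ∉ Icc a p ∧ v ∉ Icc (p + δ) (1 - δ)) := by
    intro v hv
    have h2 : v ∉ Icc (p + δ) (1 - δ) := by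
      intro hv'
      apply hv
      rw [hk2d, indicator_of_notMem (by simpa using hv')]
    have e2 : k2 v = k1 v := by rw [hk2d, indicator_of_mem (by simpa using h2)]
    have h1 : v ∉ Icc a p := by
      intro hv'
      apply hv
      rw [e2, hk1d, indicator_of_notMem (by simpa using hv')]
    have e1 : k1 v = k v := by rw [hk1d, indicator_of_mem (by simpa using h1)]
    refine ⟨?_, h1, h2⟩
    by_contra hv'
    exact hv (by rw [e2, e1, hk0 v hv'])
  have b1 : P.nr ((Icc a p).indicator k) ≤ Real.sqrt (cV * P.I a p) :=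
    hp_nr_I h ha hap hp.le (hk.indicator mA1) (hp_nr_plateau_ind hk1 _) fun v hv => indicator_of_notMem hv _
  have b2 : P.nr ((Icc (p + δ) (1 - δ)).indicator k1) ≤ Real.sqrt (cV * P.I (p + δ) (1 - δ)) :=
    hp_nr_I h (by linarith) (by linarith) (by linarith) (hk1m.indicator mA2) (hp_nr_plateau_ind hk1b _)
      fun v hv => indicator_of_notMem hv _
  have b3 : P.nr ((Iic (p + δ)).indicator k2) ≤ 3 * (p + δ - p) := by
    refine hp_nr_len h (by linarith) (by linarith) (by linarith) (hk2m.indicator mA3) (hp_nr_plateau_ind hk2b _) fun v hv => ?_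
    by_cases hv3 : v ∈ Iic (p + δ)
    · rw [indicator_of_mem hv3]
      by_contra hne
      obtain ⟨c1, c2, -⟩ := hk2z v hne
      apply hv
      refine ⟨?_, hv3⟩
      by_contra hlt
      exact c2 ⟨c1.1, (not_le.1 hlt).le⟩
    · exact indicator_of_notMem hv3 _
  have b4 : P.nr ((Iic (p + δ))ᶜ.indicator k2) ≤ 3 * (1 - (1 - δ)) := by
    refine hp_nr_len h (by linarith) (by linarith) le_rfl (hk2m.indicator mA3.compl) (hp_nr_plateau_ind hk2b _) fun v hv => ?_
    by_cases hv3 : v ∈ (Iic (p + δ))ᶜ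
    · rw [indicator_of_mem hv3]
      by_contra hne
      obtain ⟨c1, -, c3⟩ := hk2z v hne
      apply hv
      refine ⟨?_, c1.2⟩
      by_contra hlt
      have hv4 : p + δ < v := by simpa using hv3
      exact c3 ⟨hv4.le, (not_le.1 hlt).le⟩
    · exact indicator_of_notMem hv3 _
  linarith

end HpS

/-! ### monotone functions close in `L²` to a constant -/

/-- a nondecreasing function is below its `L²` distance to a constant on the following interval -/
theorem hp_mono_L2_right {S : ℝ → ℝ} {a δ q0 : ℝ} (hδ : 0 < δ) (hS : MonotoneOn S (Icc a (a + δ))) :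
    S a - q0 ≤ Real.sqrt ((∫ v in a..(a + δ), (S v - q0) ^ 2) / δ) := by
  by_cases hc : S a - q0 ≤ 0
  · exact hc.trans (Real.sqrt_nonneg _)
  have hc' : 0 < S a - q0 := not_le.1 hc
  have hab : a ≤ a + δ := by linarith
  have hge : ∀ v ∈ Icc a (a + δ), S a - q0 ≤ S v - q0 := fun v hv => by
    have := hS (left_mem_Icc.2 hab) hv hv.1
    linarith
  have hmono : MonotoneOn (fun v => (S v - q0) ^ 2) (Icc a (a + δ)) := by
    intro x hx y hy hxy
    have h1 := hS hx hy hxy
    have h2 := hge x hx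
    exact pow_le_pow_left₀ (by linarith) (by linarith) 2
  have hint : IntervalIntegrable (fun v => (S v - q0) ^ 2) volume a (a + δ) := by
    refine MonotoneOn.intervalIntegrable ?_
    rwa [uIcc_of_le hab]
  have h1 : ∫ _v in a..(a + δ), (S a - q0) ^ 2 ≤ ∫ v in a..(a + δ), (S v - q0) ^ 2 :=
    intervalIntegral.integral_mono_on hab intervalIntegrable_const hint fun v hv =>
      pow_le_pow_left₀ hc'.le (hge v hv) 2
  rw [intervalIntegral.integral_const, smul_eq_mul, add_sub_cancel_left] at h1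
  refine Real.le_sqrt_of_sq_le ?_
  rw [le_div_iff₀ hδ]
  linarith

/-- a nondecreasing function is above minus its `L²` distance to a constant on the preceding interval -/
theorem hp_mono_L2_left {S : ℝ → ℝ} {a δ q0 : ℝ} (hδ : 0 < δ) (hS : MonotoneOn S (Icc (a - δ) a)) :
    q0 - S a ≤ Real.sqrt ((∫ v in (a - δ)..a, (S v - q0) ^ 2) / δ) := by
  by_cases hc : q0 - S a ≤ 0
  · exact hc.trans (Real.sqrt_nonneg _)
  have hc' : 0 < q0 - S a := not_le.1 hc
  have hab : a - δ ≤ a := by linarith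
  have hge : ∀ v ∈ Icc (a - δ) a, q0 - S a ≤ q0 - S v := fun v hv => by
    have := hS hv (right_mem_Icc.2 hab) hv.2
    linarith
  have hanti : AntitoneOn (fun v => (S v - q0) ^ 2) (Icc (a - δ) a) := by
    intro x hx y hy hxy
    have h1 := hS hx hy hxy
    have h2 := hge y hy
    have h3 : (q0 - S y) ^ 2 ≤ (q0 - S x) ^ 2 := pow_le_pow_left₀ (by linarith) (by linarith) 2
    show (S y - q0) ^ 2 ≤ (S x - q0) ^ 2
    nlinarith
  have hint : IntervalIntegrable (fun v => (S v - q0) ^ 2) volume (a - δ) a := by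
    refine AntitoneOn.intervalIntegrable ?_
    rwa [uIcc_of_le hab]
  have h1 : ∫ _v in (a - δ)..a, (q0 - S a) ^ 2 ≤ ∫ v in (a - δ)..a, (S v - q0) ^ 2 :=
    intervalIntegral.integral_mono_on hab intervalIntegrable_const hint fun v hv => by
      have h3 : (q0 - S a) ^ 2 ≤ (q0 - S v) ^ 2 := pow_le_pow_left₀ hc'.le (hge v hv) 2
      nlinarith
  rw [intervalIntegral.integral_const, smul_eq_mul, sub_sub_cancel] at h1
  refine Real.le_sqrt_of_sq_le ?_
  rw [le_div_iff₀ hδ]
  linarith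

/-- the square of the distance of a monotone function to a constant is integrable -/
theorem hp_mid_osc_int {S : ℝ → ℝ} {a b : ℝ} (q0 : ℝ) (hab : a ≤ b) (hS : MonotoneOn S (Icc a b)) :
    IntervalIntegrable (fun v => (S v - q0) ^ 2) volume a b := by
  have hm : MonotoneOn (fun v => S v - q0) (Icc a b) := fun x hx y hy hxy => by
    have := hS hx hy hxy
    show S x - q0 ≤ S y - q0
    linarith
  have hi : IntervalIntegrable (fun v => S v - q0) volume a b := by
    refine MonotoneOn.intervalIntegrable ?_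
    rwa [uIcc_of_le hab]
  rw [intervalIntegrable_iff, uIoc_of_le hab] at hi ⊢
  have h2 := hi.bdd_mul (c := max |S a - q0| |S b - q0|) hi.aestronglyMeasurable
    (ae_restrict_of_forall_mem measurableSet_Ioc fun v hv => by
      have hv' : v ∈ Icc a b := Ioc_subset_Icc_self hv
      have h1 := hS (left_mem_Icc.2 hab) hv' hv'.1
      have h2 := hS hv' (right_mem_Icc.2 hab) hv'.2
      rw [Real.norm_eq_abs]
      refine abs_le_max_abs_abs (by linarith) (by linarith))
  have e : (fun v => (S v - q0) ^ 2) = fun v => (S v - q0) * (S v - q0) := by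
    funext v
    ring
  rw [e]
  exact h2

/-- **case (c)**: oscillation on the plateau without its end strips.      TEX[LL:bud:high-primitive] l.1757-1762 -/
theorem hp_mid_osc {S : ℝ → ℝ} {p δ q0 N2 : ℝ} (hδ : 0 < δ) (hpδ : 2 * δ ≤ 1 - p) (hS : MonotoneOn S (Icc p 1))
    (hN : ∫ v in p..1, (S v - q0) ^ 2 ≤ N2) : S (1 - δ) - S (p + δ) ≤ 2 * Real.sqrt (N2 / δ) := by
  have hp1 : p ≤ 1 := by linarith
  have hi := hp_mid_osc_int q0 hp1 hS
  have hnn : 0 ≤ᵐ[volume.restrict (Ioc p 1)] fun v => (S v - q0) ^ 2 := Filter.Eventually.of_forall fun v => sq_nonneg _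
  have h1 := hp_mono_L2_right (S := S) (a := 1 - δ) (δ := δ) (q0 := q0) hδ
    (hS.mono (Icc_subset_Icc (by linarith) (by linarith)))
  have h2 := hp_mono_L2_left (S := S) (a := p + δ) (δ := δ) (q0 := q0) hδ
    (hS.mono (Icc_subset_Icc (by linarith) (by linarith)))
  rw [sub_add_cancel] at h1
  rw [add_sub_cancel_right] at h2
  have i1 : ∫ v in (1 - δ)..1, (S v - q0) ^ 2 ≤ N2 :=
    (intervalIntegral.integral_mono_interval (by linarith) (by linarith) le_rfl hnn hi).trans hN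
  have i2 : ∫ v in p..(p + δ), (S v - q0) ^ 2 ≤ N2 :=
    (intervalIntegral.integral_mono_interval le_rfl (by linarith) (by linarith) hnn hi).trans hN
  have j1 := Real.sqrt_le_sqrt (div_le_div_of_nonneg_right i1 hδ.le)
  have j2 := Real.sqrt_le_sqrt (div_le_div_of_nonneg_right i2 hδ.le)
  linarith

theorem hp_osc_sqrt_add {x y : ℝ} (hx : 0 ≤ x) (hy : 0 ≤ y) : Real.sqrt (x + y) ≤ Real.sqrt x + Real.sqrt y := by
  refine Real.sqrt_le_iff.2 ⟨add_nonneg (Real.sqrt_nonneg _) (Real.sqrt_nonneg _), ?_⟩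
  have h1 := Real.sq_sqrt hx
  have h2 := Real.sq_sqrt hy
  have h3 := mul_nonneg (Real.sqrt_nonneg x) (Real.sqrt_nonneg y)
  nlinarith

theorem hp_osc_sqrt_two {x y : ℝ} (hx : 0 ≤ x) (hy : 0 ≤ y) : Real.sqrt x + Real.sqrt y ≤ Real.sqrt (2 * (x + y)) := by
  refine Real.le_sqrt_of_sq_le ?_
  have h1 := Real.sq_sqrt hx
  have h2 := Real.sq_sqrt hy
  have h3 := sq_nonneg (Real.sqrt x - Real.sqrt y)
  nlinarith

theorem hp_osc_const {f : ℝ → ℝ} {a b c : ℝ} (hab : a ≤ b) (hf : IntervalIntegrable f volume a b)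
    (h : ∀ w ∈ Icc a b, c ^ 2 ≤ f w) : c * Real.sqrt (b - a) ≤ Real.sqrt (∫ w in a..b, f w) := by
  refine Real.le_sqrt_of_sq_le ?_
  rw [mul_pow, Real.sq_sqrt (sub_nonneg.2 hab)]
  have h1 : ∫ _w in a..b, c ^ 2 ≤ ∫ w in a..b, f w :=
    intervalIntegral.integral_mono_on hab intervalIntegrable_const hf h
  rw [intervalIntegral.integral_const, smul_eq_mul] at h1
  linarith

/-- **oscillation of `S` on the plateau `[p,1]`**, pointwise form.  `q = q0` on the plateau, `|q - q0| ≤ Eq` on the preceding interval `[p - dm, p]`,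
`∫_{p-dm}^1 (S - q)² ≤ N2`.  Capped left strip: the preceding active interval; capped right strip (width `dp`): boundedness.
TEX[LL:bud:high-primitive] l.1701-1715 -/
theorem hp_osc {S q : ℝ → ℝ} {p dm dp q0 Eq N2 : ℝ} (hdm : 0 < dm) (hdmp : dm ≤ p) (hdm1 : 2 * dm ≤ 1 - p) (hdp : 0 < dp) (hp1 : p < 1)
    (hS : MonotoneOn S (Icc 0 1)) (hS0 : ∀ v ∈ Icc (0 : ℝ) 1, 0 ≤ S v) (hS1 : ∀ v ∈ Icc (0 : ℝ) 1, S v ≤ 1)
    (hq0 : q0 ∈ Icc (0 : ℝ) 1) (hq : ∀ v ∈ Icc p 1, q v = q0) (hEq : ∀ v ∈ Icc (p - dm) p, |q v - q0| ≤ Eq)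
    (hqi : IntervalIntegrable (fun v => (S v - q v) ^ 2) volume (p - dm) 1)
    (hN : ∫ v in (p - dm)..1, (S v - q v) ^ 2 ≤ N2) :
    ∀ v ∈ Icc p 1, |S v - q0| ≤ (Real.sqrt (2 * N2) + Eq * Real.sqrt dm + Real.sqrt (2 * dp))
      / Real.sqrt (min (v - p + dm) (1 - v + dp)) := by
  intro v hv
  have hpd : p - dm ≤ 1 := by linarith
  have hnn : 0 ≤ᵐ[volume.restrict (Ioc (p - dm) 1)] fun w => (S w - q w) ^ 2 :=
    Filter.Eventually.of_forall fun w => sq_nonneg _
  have hN0 : 0 ≤ N2 := (intervalIntegral.integral_nonneg hpd fun w _ => sq_nonneg _).trans hN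
  have hEq0 : 0 ≤ Eq := (abs_nonneg _).trans (hEq p ⟨by linarith, le_rfl⟩)
  have hv01 : v ∈ Icc (0 : ℝ) 1 := ⟨by linarith [hv.1], hv.2⟩
  have hd1 : 0 < v - p + dm := by linarith [hv.1]
  have hd2 : 0 < 1 - v + dp := by linarith [hv.2]
  have hd : 0 < min (v - p + dm) (1 - v + dp) := lt_min hd1 hd2
  rw [le_div_iff₀ (Real.sqrt_pos.2 hd)]
  have sN : Real.sqrt N2 ≤ Real.sqrt (2 * N2) := Real.sqrt_le_sqrt (by linarith)
  have sdp : Real.sqrt dp ≤ Real.sqrt (2 * dp) := Real.sqrt_le_sqrt (by linarith)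
  have sdm0 := Real.sqrt_nonneg dm
  have sub : ∀ a b, p - dm ≤ a → a ≤ b → b ≤ 1 → IntervalIntegrable (fun w => (S w - q w) ^ 2) volume a b := by
    intro a b h1 h2 h3
    refine hqi.mono_set ?_
    rw [uIcc_of_le h2, uIcc_of_le hpd]
    exact Icc_subset_Icc h1 h3
  rcases le_total 0 (S v - q0) with hc | hc
  · -- above the reference: the following interval and boundedness
    rw [abs_of_nonneg hc]
    have h1 : Real.sqrt (min (v - p + dm) (1 - v + dp)) ≤ Real.sqrt (1 - v) + Real.sqrt dp :=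
      (Real.sqrt_le_sqrt (min_le_right _ _)).trans (hp_osc_sqrt_add (by linarith [hv.2]) hdp.le)
    have h2 : (S v - q0) * Real.sqrt (1 - v) ≤ Real.sqrt (∫ w in v..1, (S w - q w) ^ 2) := by
      refine hp_osc_const hv.2 (sub v 1 (by linarith [hv.1]) hv.2 le_rfl) fun w hw => ?_
      rw [hq w ⟨hv.1.trans hw.1, hw.2⟩]
      have := hS hv01 ⟨hv01.1.trans hw.1, hw.2⟩ hw.1
      exact pow_le_pow_left₀ hc (by linarith) 2
    have h3 : ∫ w in v..1, (S w - q w) ^ 2 ≤ N2 :=
      (intervalIntegral.integral_mono_interval (by linarith [hv.1]) hv.2 le_rfl hnn hqi).trans hN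
    have h4 := Real.sqrt_le_sqrt h3
    have h5 : (S v - q0) * Real.sqrt dp ≤ Real.sqrt dp := by
      have : S v - q0 ≤ 1 := by linarith [hS1 v hv01, hq0.1]
      nlinarith [Real.sqrt_nonneg dp]
    have h6 := mul_le_mul_of_nonneg_left h1 hc
    have h7 := mul_nonneg hEq0 sdm0
    nlinarith
  · -- below the reference: the plateau before `v` and the preceding active interval
    rw [abs_of_nonpos hc]
    have hc' : 0 ≤ q0 - S v := by linarith
    have h1 : Real.sqrt (min (v - p + dm) (1 - v + dp)) ≤ Real.sqrt (v - p) + Real.sqrt dm :=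
      (Real.sqrt_le_sqrt (min_le_left _ _)).trans (hp_osc_sqrt_add (by linarith [hv.1]) hdm.le)
    have h2 : (q0 - S v) * Real.sqrt (v - p) ≤ Real.sqrt (∫ w in p..v, (S w - q w) ^ 2) := by
      refine hp_osc_const hv.1 (sub p v (by linarith) hv.1 hv.2) fun w hw => ?_
      rw [hq w ⟨hw.1, hw.2.trans hv.2⟩]
      have := hS ⟨by linarith [hw.1], hw.2.trans hv.2⟩ hv01 hw.2
      have h3 : (q0 - S v) ^ 2 ≤ (q0 - S w) ^ 2 := pow_le_pow_left₀ hc' (by linarith) 2
      nlinarith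
    have h3 : (q0 - S v - Eq) * Real.sqrt dm ≤ Real.sqrt (∫ w in (p - dm)..p, (S w - q w) ^ 2) := by
      by_cases hce : q0 - S v - Eq ≤ 0
      · exact (mul_nonpos_of_nonpos_of_nonneg hce sdm0).trans (Real.sqrt_nonneg _)
      have hce' : 0 ≤ q0 - S v - Eq := (not_le.1 hce).le
      have := hp_osc_const (f := fun w => (S w - q w) ^ 2) (a := p - dm) (b := p) (c := q0 - S v - Eq) (by linarith)
        (sub (p - dm) p le_rfl (by linarith) hp1.le) fun w hw => by
          have m1 := hS ⟨by linarith [hw.1], by linarith [hw.2]⟩ hv01 (hw.2.trans hv.1)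
          have m2 := (abs_le.1 (hEq w hw)).1
          have h3 : (q0 - S v - Eq) ^ 2 ≤ (q w - S w) ^ 2 := pow_le_pow_left₀ hce' (by linarith) 2
          nlinarith
      rwa [sub_sub_cancel] at this
    have n1 : 0 ≤ ∫ w in p..v, (S w - q w) ^ 2 := intervalIntegral.integral_nonneg hv.1 fun w _ => sq_nonneg _
    have n2 : 0 ≤ ∫ w in (p - dm)..p, (S w - q w) ^ 2 :=
      intervalIntegral.integral_nonneg (by linarith) fun w _ => sq_nonneg _
    have h4 : (∫ w in (p - dm)..p, (S w - q w) ^ 2) + ∫ w in p..v, (S w - q w) ^ 2 ≤ N2 := by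
      rw [intervalIntegral.integral_add_adjacent_intervals (sub (p - dm) p le_rfl (by linarith) hp1.le)
        (sub p v (by linarith) hv.1 hv.2)]
      exact (intervalIntegral.integral_mono_interval le_rfl (by linarith [hv.1]) hv.2 hnn hqi).trans hN
    have h5 := (hp_osc_sqrt_two n2 n1).trans (Real.sqrt_le_sqrt (mul_le_mul_of_nonneg_left h4 (by norm_num : (0 : ℝ) ≤ 2)))
    have h6 := mul_le_mul_of_nonneg_left h1 hc'
    have h7 := Real.sqrt_nonneg (2 * dp)
    nlinarith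

/-- the density of the edge profile (P7), without its amplitude: `(v - p + d_-)^{-3/2} + (1 - v + d_+)^{-3/2}` -/
def hpEdge (p dm dp v : ℝ) : ℝ := (v - p + dm) ^ (-(3 / 2) : ℝ) + (1 - v + dp) ^ (-(3 / 2) : ℝ)

/-- dyadic summation, abstract form -/
theorem hp_edge_dyadic {Φ : ℝ → ℝ} {d R B : ℝ} (hd : 0 < d) (hB : 0 ≤ B) (h0 : Φ d ≤ 0)
    (hstep : ∀ r' r, d ≤ r' → r' ≤ r → r ≤ R → r ≤ 2 * r' → Φ r - Φ r' ≤ B * r) :
    ∀ r, d ≤ r → r ≤ R → Φ r ≤ 2 * B * r := by
  have key : ∀ n : ℕ, ∀ r, d ≤ r → r ≤ R → r ≤ d * 2 ^ n → Φ r ≤ 2 * B * r := by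
    intro n
    induction n with
    | zero =>
      intro r h1 _ h3
      have e : r = d := le_antisymm (by simpa using h3) h1
      rw [e]
      have := mul_nonneg hB hd.le
      linarith
    | succ n ih =>
      intro r h1 h2 h3
      have hr : 0 < r := lt_of_lt_of_le hd h1
      have hBr := mul_nonneg hB hr.le
      by_cases hh : r / 2 ≤ d
      · have := hstep d r le_rfl h1 h2 (by linarith)
        linarith
      · have hh' : d ≤ r / 2 := (not_le.1 hh).le
        have i1 := ih (r / 2) hh' (by linarith) (by rw [pow_succ] at h3; linarith)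
        have i2 := hstep (r / 2) r hh' (by linarith) h2 (by linarith)
        linarith
  intro r h1 h2
  obtain ⟨n, hn⟩ := pow_unbounded_of_one_lt (r / d) (by norm_num : (1 : ℝ) < 2)
  exact key n r h1 h2 (by rw [div_lt_iff₀ hd] at hn; linarith)

theorem hp_edge_rpow {r : ℝ} (hr : 0 < r) : r ^ (-(3 / 2) : ℝ) = (r * Real.sqrt r)⁻¹ := by
  rw [Real.rpow_neg hr.le, Real.sqrt_eq_rpow]
  congr 1
  rw [show (3 / 2 : ℝ) = 1 + 1 / 2 by norm_num, Real.rpow_add hr, Real.rpow_one]

theorem hp_edge_cont {p dm dp : ℝ} (hdm : 0 < dm) (hdp : 0 < dp) : ContinuousOn (hpEdge p dm dp) (Icc p 1) := by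
  have e : hpEdge p dm dp = fun v => (v - p + dm) ^ (-(3 / 2) : ℝ) + (1 - v + dp) ^ (-(3 / 2) : ℝ) := rfl
  rw [e]
  refine ContinuousOn.add ?_ ?_
  · refine ContinuousOn.rpow_const (by fun_prop) fun v hv => Or.inl ?_
    have : 0 < v - p + dm := by linarith [hv.1]
    exact this.ne'
  · refine ContinuousOn.rpow_const (by fun_prop) fun v hv => Or.inl ?_
    have : 0 < 1 - v + dp := by linarith [hv.2]
    exact this.ne'

theorem hp_edge_low {p dm dp s t c : ℝ} (hdm : 0 < dm) (hdp : 0 < dp) (hps : p ≤ s) (hst : s ≤ t) (ht : t ≤ 1)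
    (hc : ∀ v ∈ Icc s t, c ≤ hpEdge p dm dp v) : c * (t - s) ≤ ∫ v in s..t, hpEdge p dm dp v := by
  have hi : IntervalIntegrable (hpEdge p dm dp) volume s t := by
    refine ContinuousOn.intervalIntegrable ?_
    rw [uIcc_of_le hst]
    exact (hp_edge_cont hdm hdp).mono (Icc_subset_Icc hps ht)
  have h1 : ∫ _v in s..t, c ≤ ∫ v in s..t, hpEdge p dm dp v :=
    intervalIntegral.integral_mono_on hst intervalIntegrable_const hi hc
  rw [intervalIntegral.integral_const, smul_eq_mul] at h1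
  linarith

theorem hp_edge_step {P : HpS} {cV : ℝ} (h : P.Ok cV) {y x κ w : ℝ} (hy : 0 ≤ y) (hyx : y ≤ x) (hx : x ≤ 1) (hκ : 0 < κ)
    (hw : 0 < w) (hs : ∀ s t, y ≤ s → s ≤ t → t ≤ x → t < 1 → κ * w⁻¹ * (t - s) ≤ P.h t - P.h s) :
    P.m * κ * ∫ v in y..x, P.T v ≤ (P.S x - P.S y) * w := by
  have hm := h.m_pos
  have h1 := HpS.hp_T_slope h hy hyx hx (mul_pos hκ (inv_pos.2 hw)) hs
  rw [le_div_iff₀ (mul_pos hm (mul_pos hκ (inv_pos.2 hw)))] at h1
  have h2 := mul_le_mul_of_nonneg_right h1 hw.le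
  have e : (∫ v in y..x, P.T v) * (P.m * (κ * w⁻¹)) * w = P.m * κ * ∫ v in y..x, P.T v := by
    field_simp
  rwa [e] at h2

theorem hp_edge_arith {O r r' D : ℝ} (hO : 0 ≤ O) (hr' : 0 < r') (hrr : r' ≤ r) (h2 : r ≤ 2 * r')
    (hD : D ≤ O / Real.sqrt r + O / Real.sqrt r') : D * (r * Real.sqrt r) ≤ 4 * O * r := by
  have hr : 0 < r := lt_of_lt_of_le hr' hrr
  have s' := Real.sqrt_pos.2 hr'
  have s := Real.sqrt_pos.2 hr
  have hss : Real.sqrt r' ≤ Real.sqrt r := Real.sqrt_le_sqrt hrr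
  have hs2 : Real.sqrt r ≤ 2 * Real.sqrt r' := by
    refine Real.sqrt_le_iff.2 ⟨by positivity, ?_⟩
    rw [mul_pow, Real.sq_sqrt hr'.le]
    linarith
  have h1 : O / Real.sqrt r ≤ O / Real.sqrt r' := div_le_div_of_nonneg_left hO s' hss
  have h3 : D ≤ 2 * O / Real.sqrt r' := by
    rw [mul_div_assoc]
    linarith
  calc D * (r * Real.sqrt r) ≤ (2 * O / Real.sqrt r') * (r * Real.sqrt r) :=
        mul_le_mul_of_nonneg_right h3 (by positivity)
    _ ≤ (2 * O / Real.sqrt r') * (r * (2 * Real.sqrt r')) :=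
        mul_le_mul_of_nonneg_left (mul_le_mul_of_nonneg_left hs2 hr.le) (by positivity)
    _ = 4 * O * r := by
        field_simp
        ring

/-- **the edge bound**: `dh ≥ κ hpEdge dv` on the plateau and `|S - q0| ≤ O/√(distance to the nearer capped edge)` give `m ∫_p^1 E tr H² ≤ 100 O/κ`.
Paper: dyadic strips at distance `≍ d'` from an edge up to the midpoint + one capped strip at each edge; on a strip the slope is `≥ κ (3d')^{-3/2}` and `osc S ≤ 2·O/√(d'/2)`;
`hp_T_slope` on each strip; the sum of the `d'` is geometric.      (Continuous variant: layer cake with the increasing weight `(v-p+dm)^{3/2}`: constant `8`.)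
TEX[LL:bud:high-primitive] l.1716-1727 -/
theorem hp_edge {P : HpS} {cV : ℝ} (h : P.Ok cV) {p dm dp κ q0 O : ℝ} (hp0 : 0 < p) (hp1 : p < 1) (hdm : 0 < dm) (hdm1 : 2 * dm ≤ 1 - p)
    (hdp : 0 < dp) (hdp1 : 2 * dp ≤ 1 - p) (hκ : 0 < κ) (hO : 0 ≤ O)
    (hs : ∀ s t, p ≤ s → s ≤ t → t < 1 → κ * ∫ v in s..t, hpEdge p dm dp v ≤ P.h t - P.h s)
    (ho : ∀ v ∈ Icc p 1, |P.S v - q0| ≤ O / Real.sqrt (min (v - p + dm) (1 - v + dp))) :
    P.m * ∫ v in p..1, P.T v ≤ 100 * O / κ := by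
  have hm := h.m_pos
  obtain ⟨c, hc⟩ : ∃ c : ℝ, c = (1 + p + dp - dm) / 2 := ⟨_, rfl⟩
  have hpc : p ≤ c := by rw [hc]; linarith
  have hc1 : c ≤ 1 := by rw [hc]; linarith
  have Tint : ∀ a b, 0 ≤ a → a ≤ b → b ≤ 1 → IntervalIntegrable P.T volume a b := fun a b => HpS.hp_T_int h
  -- the left half
  have hL : P.m * κ * ∫ v in p..c, P.T v ≤ 2 * (4 * O) * (c - p + dm) := by
    have key := hp_edge_dyadic (Φ := fun r => P.m * κ * ∫ v in p..(p - dm + r), P.T v) (d := dm) (R := c - p + dm)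
      (B := 4 * O) hdm (by positivity) (by simp) ?_ (c - p + dm) (by linarith) le_rfl
    · have e : p - dm + (c - p + dm) = c := by ring
      simpa only [e] using key
    · intro r' r h1 h2 h3 h4
      have hy0 : p ≤ p - dm + r' := by linarith
      have hyx : p - dm + r' ≤ p - dm + r := by linarith
      have hx1 : p - dm + r ≤ c := by linarith
      have e : (P.m * κ * ∫ v in p..(p - dm + r), P.T v) - P.m * κ * ∫ v in p..(p - dm + r'), P.T v
          = P.m * κ * ∫ v in (p - dm + r')..(p - dm + r), P.T v := by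
        rw [← intervalIntegral.integral_add_adjacent_intervals (Tint p _ hp0.le hy0 (by linarith))
          (Tint _ _ (by linarith) hyx (by linarith))]
        ring
      show (P.m * κ * ∫ v in p..(p - dm + r), P.T v) - P.m * κ * ∫ v in p..(p - dm + r'), P.T v ≤ 4 * O * r
      rw [e]
      have hr' : 0 < r' := lt_of_lt_of_le hdm h1
      have hr : 0 < r := lt_of_lt_of_le hr' h2
      have hw : 0 < r * Real.sqrt r := mul_pos hr (Real.sqrt_pos.2 hr)
      refine (hp_edge_step h (by linarith) hyx (by linarith) hκ hw ?_).trans (hp_edge_arith hO hr' h2 h4 ?_)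
      · intro s t a1 a2 a3 a4
        refine le_trans ?_ (hs s t (by linarith) a2 a4)
        rw [mul_assoc]
        refine mul_le_mul_of_nonneg_left ?_ hκ.le
        refine hp_edge_low hdm hdp (by linarith) a2 a4.le fun v hv => ?_
        rw [← hp_edge_rpow hr]
        unfold hpEdge
        have b1 : r ^ (-(3 / 2) : ℝ) ≤ (v - p + dm) ^ (-(3 / 2) : ℝ) :=
          Real.rpow_le_rpow_of_nonpos (by linarith [hv.1]) (by linarith [hv.2]) (by norm_num)
        have b2 : 0 ≤ (1 - v + dp) ^ (-(3 / 2) : ℝ) := Real.rpow_nonneg (by linarith [hv.2]) _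
        linarith
      · have o1 := ho (p - dm + r) ⟨by linarith, by linarith⟩
        have o2 := ho (p - dm + r') ⟨by linarith, by linarith⟩
        rw [min_eq_left (by rw [hc] at hx1; linarith), show p - dm + r - p + dm = r by ring] at o1
        rw [min_eq_left (by rw [hc] at hx1; linarith), show p - dm + r' - p + dm = r' by ring] at o2
        have := (abs_le.1 o1).2
        have := (abs_le.1 o2).1
        linarith
  -- the right half
  have hR : P.m * κ * ∫ v in c..1, P.T v ≤ 2 * (4 * O) * (1 - c + dp) := by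
    have key := hp_edge_dyadic (Φ := fun r => P.m * κ * ∫ v in (1 + dp - r)..1, P.T v) (d := dp) (R := 1 - c + dp)
      (B := 4 * O) hdp (by positivity) (by simp) ?_ (1 - c + dp) (by linarith) le_rfl
    · have e : 1 + dp - (1 - c + dp) = c := by ring
      simpa only [e] using key
    · intro r' r h1 h2 h3 h4
      have hy0 : 1 + dp - r' ≤ 1 := by linarith
      have hyx : 1 + dp - r ≤ 1 + dp - r' := by linarith
      have hx1 : c ≤ 1 + dp - r := by linarith
      have e : (P.m * κ * ∫ v in (1 + dp - r)..1, P.T v) - P.m * κ * ∫ v in (1 + dp - r')..1, P.T v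
          = P.m * κ * ∫ v in (1 + dp - r)..(1 + dp - r'), P.T v := by
        rw [← intervalIntegral.integral_add_adjacent_intervals (Tint _ _ (by linarith) hyx hy0)
          (Tint _ _ (by linarith) hy0 le_rfl)]
        ring
      show (P.m * κ * ∫ v in (1 + dp - r)..1, P.T v) - P.m * κ * ∫ v in (1 + dp - r')..1, P.T v ≤ 4 * O * r
      rw [e]
      have hr' : 0 < r' := lt_of_lt_of_le hdp h1
      have hr : 0 < r := lt_of_lt_of_le hr' h2
      have hw : 0 < r * Real.sqrt r := mul_pos hr (Real.sqrt_pos.2 hr)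
      refine (hp_edge_step h (by linarith) hyx hy0 hκ hw ?_).trans (hp_edge_arith hO hr' h2 h4 ?_)
      · intro s t a1 a2 a3 a4
        refine le_trans ?_ (hs s t (by linarith) a2 a4)
        rw [mul_assoc]
        refine mul_le_mul_of_nonneg_left ?_ hκ.le
        refine hp_edge_low hdm hdp (by linarith) a2 a4.le fun v hv => ?_
        rw [← hp_edge_rpow hr]
        unfold hpEdge
        have b1 : r ^ (-(3 / 2) : ℝ) ≤ (1 - v + dp) ^ (-(3 / 2) : ℝ) :=
          Real.rpow_le_rpow_of_nonpos (by linarith [hv.2]) (by linarith [hv.1]) (by norm_num)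
        have b2 : 0 ≤ (v - p + dm) ^ (-(3 / 2) : ℝ) := Real.rpow_nonneg (by linarith [hv.1]) _
        linarith
      · have o1 := ho (1 + dp - r) ⟨by linarith, by linarith⟩
        have o2 := ho (1 + dp - r') ⟨by linarith, by linarith⟩
        rw [min_eq_right (by rw [hc] at hx1; linarith), show 1 - (1 + dp - r) + dp = r by ring] at o1
        rw [min_eq_right (by rw [hc] at hx1; linarith), show 1 - (1 + dp - r') + dp = r' by ring] at o2
        have := (abs_le.1 o1).1
        have := (abs_le.1 o2).2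
        linarith
  have e : ∫ v in p..1, P.T v = (∫ v in p..c, P.T v) + ∫ v in c..1, P.T v :=
    (intervalIntegral.integral_add_adjacent_intervals (Tint p c hp0.le hpc hc1) (Tint c 1 (by linarith) hc1 le_rfl)).symm
  rw [le_div_iff₀ hκ, e]
  have h8 : 2 * (4 * O) * (c - p + dm) + 2 * (4 * O) * (1 - c + dp) ≤ 16 * O := by
    have : O * (1 - p + dm + dp) ≤ O * 2 := mul_le_mul_of_nonneg_left (by linarith) hO
    nlinarith
  nlinarith

theorem hp_eqns_cite : True := by
  have := @HpK.eq_1; have := @HpS.I.eq_1; have := @hpEdge.eq_1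
  trivial

end

end Claimed.Agent.R286
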