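import Claimed.Agent.R286.Bud.Pow

/-!
# Row 286, LL sec. 7, node N16: (C18) d          (helper27; prefix `bud_pd_`)

`bud_BudC18d : BudC18d`.   Logs: `λ = e^a` (`a ≤ 0`), `X = e^b`, `Z = e^c` (`c ≥ 0`); every monomial is `exp (affine)`.
* `≤ λ^{0.04} λ^{0.03}`: use `Z ≤ X^{-2} λ^{s₀}` (from `a_goal Z ≤ L ≤ 1`) and `X ≤ λ^{s_*/2 - κ}`.
* `≤ λ^{0.04} max (L², λ)`: if `b ≥ 0.6 a` use `L² ≥ (X² λ^{-s₀} Z)²`, otherwise use `λ`.
-/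

set_option autoImplicit false

namespace Claimed.Agent.R286

/-- the affine inequalities between the exponents -/
theorem bud_pd_lin (τ τ0 η κ a b c : ℝ) (hτ0 : 0 ≤ τ) (hτ1 : τ ≤ 1/10000) (hτ00 : 0 ≤ τ0)
    (hτ01 : τ0 ≤ 1/10000) (hη0 : 0 ≤ η) (hη1 : η ≤ 1/10000) (hκ0 : 0 ≤ κ) (hκ1 : κ ≤ 1/10000)
    (ha : a ≤ 0) (hc : 0 ≤ c) (hb : b ≤ a * ((1/2 - τ) / 2 - κ))
    (hM : b * 2 + a * (-(1/2 - τ - τ0)) + c ≤ 0) :
    (b * 3 + a * (-(1/100) - (1 + η) / 6) + c * (1/6) ≤ a * (4/100) + a * (3/100)) ∧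
    ((6/10) * a ≤ b → b * 3 + a * (-(1/100) - (1 + η) / 6) + c * (1/6)
        ≤ a * (4/100) + (b * 2 + a * (-(1/2 - τ - τ0)) + c) * 2) ∧
    (b ≤ (6/10) * a → b * 3 + a * (-(1/100) - (1 + η) / 6) + c * (1/6) ≤ a * (4/100) + a) := by
  have p1 : a / 10000 ≤ τ * a := by nlinarith
  have p1' : τ * a ≤ 0 := by nlinarith
  have p2 : a / 10000 ≤ τ0 * a := by nlinarith
  have p2' : τ0 * a ≤ 0 := by nlinarith
  have p3 : a / 10000 ≤ η * a := by nlinarith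
  have p3' : η * a ≤ 0 := by nlinarith
  have p4 : a / 10000 ≤ κ * a := by nlinarith
  have p4' : κ * a ≤ 0 := by nlinarith
  refine ⟨by linarith, fun h => by linarith, fun h => by linarith⟩

/-- the statement for `λ = e^a`, `X = e^b`, `Z = e^c` -/
theorem bud_pd_exp (τ τ0 η κ a b c L : ℝ) (hτ0 : 0 ≤ τ) (hτ1 : τ ≤ 1/10000) (hτ00 : 0 ≤ τ0)
    (hτ01 : τ0 ≤ 1/10000) (hη0 : 0 ≤ η) (hη1 : η ≤ 1/10000) (hκ0 : 0 ≤ κ) (hκ1 : κ ≤ 1/10000)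
    (ha : a ≤ 0) (hc : 0 ≤ c) (hb : b ≤ a * ((1/2 - τ) / 2 - κ))
    (hL0 : Real.exp (b * 2 + a * (-(1/2 - τ - τ0)) + c) ≤ L) (hL1 : L ≤ 1) :
    Real.exp (b * 3 + a * (-(1/100) - (1 + η) / 6) + c * (1/6))
      ≤ Real.exp (a * (4/100)) * min (max (L ^ (2:ℝ)) (Real.exp a)) (Real.exp (a * (3/100))) := by
  have hM : b * 2 + a * (-(1/2 - τ - τ0)) + c ≤ 0 := Real.exp_le_one_iff.mp (hL0.trans hL1)
  obtain ⟨l1, l2, l3⟩ := bud_pd_lin τ τ0 η κ a b c hτ0 hτ1 hτ00 hτ01 hη0 hη1 hκ0 hκ1 ha hc hb hM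
  have hl4 : 0 ≤ Real.exp (a * (4/100)) := (Real.exp_pos _).le
  have h1 : Real.exp (b * 3 + a * (-(1/100) - (1 + η) / 6) + c * (1/6))
      ≤ Real.exp (a * (4/100)) * Real.exp (a * (3/100)) := by
    rw [← Real.exp_add]; exact Real.exp_le_exp.mpr l1
  have h2 : Real.exp (b * 3 + a * (-(1/100) - (1 + η) / 6) + c * (1/6))
      ≤ Real.exp (a * (4/100)) * max (L ^ (2:ℝ)) (Real.exp a) := by
    rcases le_total ((6/10) * a) b with hcase | hcase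
    · have hLM : Real.exp (b * 2 + a * (-(1/2 - τ - τ0)) + c) ^ (2:ℝ) ≤ L ^ (2:ℝ) :=
        Real.rpow_le_rpow (Real.exp_pos _).le hL0 (by norm_num)
      rw [← Real.exp_mul] at hLM
      calc _ ≤ Real.exp (a * (4/100)) * Real.exp ((b * 2 + a * (-(1/2 - τ - τ0)) + c) * 2) := by
            rw [← Real.exp_add]; exact Real.exp_le_exp.mpr (l2 hcase)
        _ ≤ Real.exp (a * (4/100)) * L ^ (2:ℝ) := mul_le_mul_of_nonneg_left hLM hl4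
        _ ≤ _ := mul_le_mul_of_nonneg_left (le_max_left _ _) hl4
    · calc _ ≤ Real.exp (a * (4/100)) * Real.exp a := by
            rw [← Real.exp_add]; exact Real.exp_le_exp.mpr (l3 hcase)
        _ ≤ _ := mul_le_mul_of_nonneg_left (le_max_right _ _) hl4
  rcases min_choice (max (L ^ (2:ℝ)) (Real.exp a)) (Real.exp (a * (3/100))) with h | h
  · rw [h]; exact h2
  · rw [h]; exact h1

theorem bud_BudC18d : BudC18d := by
  intro τ τ0 η ρ κ lam X Z L w h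
  obtain ⟨hτ0, hτ1, hτ00, hτ01, hη0, hη1, -, -, hκ0, hκ1, hlam0, hlam1, hX0, hX1, hZ1, hL0, hL1,
    -, -⟩ := h
  have hZ0 : 0 < Z := by linarith
  obtain ⟨a, rfl⟩ : ∃ a, lam = Real.exp a := ⟨Real.log lam, (Real.exp_log hlam0).symm⟩
  obtain ⟨b, rfl⟩ : ∃ b, X = Real.exp b := ⟨Real.log X, (Real.exp_log hX0).symm⟩
  obtain ⟨c, rfl⟩ : ∃ c, Z = Real.exp c := ⟨Real.log Z, (Real.exp_log hZ0).symm⟩
  have ha : a ≤ 0 := Real.exp_le_one_iff.mp hlam1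
  have hc : 0 ≤ c := Real.one_le_exp_iff.mp hZ1
  rw [← Real.exp_mul] at hX1
  have hb : b ≤ a * ((1/2 - τ) / 2 - κ) := Real.exp_le_exp.mp hX1
  rw [← Real.exp_mul, ← Real.exp_mul, ← Real.exp_add, ← Real.exp_add] at hL0
  have key := bud_pd_exp τ τ0 η κ a b c L hτ0 hτ1 hτ00 hτ01 hη0 hη1 hκ0 hκ1 ha hc hb hL0 hL1
  unfold bpG1 bpLam
  rw [← Real.exp_mul, ← Real.exp_mul, ← Real.exp_mul, ← Real.exp_mul, ← Real.exp_mul,
    ← Real.exp_add, ← Real.exp_add]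
  have hpos : 0 ≤ Real.exp (a * (4/100)) * min (max (L ^ (2:ℝ)) (Real.exp a)) (Real.exp (a * (3/100))) :=
    (Real.exp_pos _).le.trans key
  calc _ ≤ _ := key
    _ ≤ _ := by linarith

end Claimed.Agent.R286
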