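import Claimed.Agent.R286.Bud.Hp
import Claimed.Agent.R286.Bud.EnvA
import Claimed.Agent.R286.Bud.L8Defs
import Claimed.Agent.R286.Bud.Mom
import Claimed.Agent.R286.Fd.ClkDefs
import Claimed.Agent.R286.Cmp.P5Ctr
import Claimed.Agent.R286.Cmp.P5L8
import Claimed.Agent.R286.L08.SPI
import Claimed.Agent.R286.Cmp.P5Chain
import Claimed.Agent.R286.Cmp.P5Tbl
import Claimed.Agent.R286.Exit.ClkSus
import Claimed.Agent.R286.Exit.ClkStat
import Claimed.Agent.R286.Brg.Step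
import Claimed.Agent.R286.Bud.PinPath
import Claimed.Agent.R286.Bud.PinUq
import Claimed.Agent.R286.Bud.PowFr
import Claimed.Agent.R286.Bud.PowD
import Claimed.Agent.R286.Cmp.Prof

/-!
# Row 286, LL sec. 7, node N15 = Lemma `bud:high-primitive` (07-budgets.tex l.1643-1768): FRAME LEVEL      (owner helper8; prover helper154; head helper212; prefix `bud_hp_`, types `BdHp*`, Props `BudHp*`)

ENDS IN the two exits of 212 (`Bud/L8Defs.lean`): `bud_hp_c17 : … → BudC17a X W Fam n Cbuf s` ((C17)) and `bud_hp_prim : … → BudC17b X W Fam n Cbuf` (centred primitive).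
HOSTILE READING: the two exits do NOT follow from `BdStd + IsSk` alone.  What the paper's proof really consumes:

| input | what | TeX | supplier |
| `BdHpStd`   | deterministic facts on the bare paths: active slope (P4), plateau `[ptop,1]`: `q` constant, edge slope (P7), linear slope (P6), `E_b = U²/√d_-` | 03-paths l.391-460 | LL03 (253/272) + frames (157)  INSTANCE DEBT |
| `BudHpSv`   | `S_v ≤ CS v` above `c_H u` ((C8), (C7)) | l.236, 262 | N5 (141/109) |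
| `BudHpTr`   | FIRST OPTION: `∫_{v∼w} E tr H²/v dv ≲_∘ x⁶/C(w)`, all high dyads, plateau included (PE (20) on complete caps + contact, radius on the floor) | l.1691-1695 | helper8, cut in `Bud/HpTr.lean` |
| `BudHpRaw`  | (C8) at step level: `‖X_j‖_p ≤ Q0 √(w_c + mass)` on all fine chains | l.236-330 | N5 (141/109) |
| `BudC13`, `BudZ` | (C13), `Z ≥ 1` | l.1290 | N10 (5) |
| `cm5_tbl`   | two-branch layer lemma on `CmPath` (PE Lemma 3.6) | PE l.575-640 | 247/38 |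
| `l8i_*`, `cm5_l8_*` | the SK instance of the abstract path | | 257, 247 |
| `exit_clk_*` | clock API | | 42/150 |

LEAVES of this file (sorried): `bud_hp_inst_det`, `bud_hp_inst_nr` (instance of `HpS.Ok`), `bud_hp_hE_slope`, `bud_hp_act`, `bud_hp_tr_pl`, `bud_hp_taper`, `bud_hp_N2`, `bud_hp_edge`, `bud_hp_lin_b`, `bud_hp_lin_c`,
arithmetic `bud_hp_ar_*`, assembly `bud_hp_prim`;  part A: `hp_proj`, `bud_hp_adm`, `bud_hp_clk`, `bud_hp_mpr`, `bud_hp_fork`, `bud_hp_ar_zw`, assembly `bud_hp_c17`.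
-/

set_option autoImplicit false

namespace Claimed.Agent.R286

open MeasureTheory Set Filter Topology

noncomputable section

/-! ## 0. Standing hypothesis on the bare paths, numbers of the changed path -/

/-- fixed constants of N15 -/
structure BdHpC where
  /-- the top plateau of the normalised direct path is `[ptop, 1]` -/
  ptop : ℝ
  /-- `dh ≥ ca λ v² dv` on the active part -/
  ca : ℝ
  /-- constant of the edge and linear slopes on the plateau -/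
  ce : ℝ
  /-- `q(ptop) - q(ptop - d_-) ≤ Cq U²/√d_-` -/
  Cq : ℝ
  /-- everything holds for `N ≥ N0` (`U ≤ U_0/2`, the ramp is absorbed, `d_- ` small) -/
  N0 : ℕ

/-- **deterministic facts on the bare paths used by N15** (`dm F = d_-`; `d_+ = U⁴`).      TEX[LL:eq:P4], TEX[LL:eq:P6], TEX[LL:eq:P7]
INSTANCE DEBT: `exit_bud_hpstd` (supplier LL03 253/272 + frames 157): the family of normalised direct paths at `γ_u = 0`.
* `act`: (P4) `dh_* ≥ cλ(v²+U²)dt`, bounded active density `dt ≥ c dv`; `H_lo, H_lin` nondecreasing; the edge ramp loses `O(λ_1) dt` at a fixed positive mass: absorbed.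
* `pl`: on the plateau `h_*` is constant, `H_lo` nondecreasing, `H_lin' = x³`, `H_e' = ½ λ_1 U² hpEdge` (`Υ = 1`, `Ũ = U` for large `N`). -/
structure BdHpStd (X : BdFix) (Fam : BdFr → Prop) (C : BdHpC) (dm : BdFr → ℝ) : Prop where
  p0 : 0 < C.ptop
  p1 : C.ptop < 1
  ca_pos : 0 < C.ca
  ce_pos : 0 < C.ce
  Cq_nn : 0 ≤ C.Cq
  dm_pos : ∀ F, Fam F → C.N0 ≤ F.N → 0 < dm F
  dm_le : ∀ F, Fam F → C.N0 ≤ F.N → 2 * dm F ≤ min C.ptop (1 - C.ptop)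
  U_le : ∀ F, Fam F → C.N0 ≤ F.N → 2 * F.U X ^ 4 ≤ 1 - C.ptop
  cHu : ∀ F, Fam F → C.N0 ≤ F.N → 2 * (X.cH * F.u) ≤ C.ptop
  /-- the mask lies below the scale `u` -/
  xm_le : ∀ F, Fam F → C.N0 ≤ F.N → F.xm ≤ min 1 X.cH * F.u
  act : ∀ F, Fam F → C.N0 ≤ F.N → ∀ g ∈ Icc (X.glo 0) (X.ghi 0), ∀ s t, F.xm ≤ s → s ≤ t → t ≤ C.ptop →
    C.ca * F.lam * s ^ 2 * (t - s) ≤ F.h g t - F.h g s
  pl : ∀ F, Fam F → C.N0 ≤ F.N → ∀ g ∈ Icc (X.glo 0) (X.ghi 0), ∀ s t, C.ptop ≤ s → s ≤ t → t < 1 →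
    C.ce * (F.chiL * F.x ^ 3 * (t - s)
      + F.chiE * F.lam1 X * F.U X ^ 2 * ∫ v in s..t, hpEdge C.ptop (dm F) (F.U X ^ 4) v) ≤ F.h g t - F.h g s
  q_pl : ∀ F, Fam F → C.N0 ≤ F.N → ∀ v ∈ Icc C.ptop 1, F.q v = F.q C.ptop
  q_var : ∀ F, Fam F → C.N0 ≤ F.N → ∀ v ∈ Icc (C.ptop - dm F) C.ptop,
    F.q C.ptop - F.q v ≤ C.Cq * F.U X ^ 2 / Real.sqrt (dm F)

namespace BdQ

variable {F : BdFr} {X : BdFix} (Q : BdQ F X) (W : BdWorld) (g : ℝ)

/-- `E tr H_v²` of the changed path (clocks extended as in `Bud/Mom.lean`) -/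
def hpT (v : ℝ) : ℝ := ckH2 F.m 1 (Q.bE g) (Q.hE g) (ghPosA v)

/-- `∫_a^b E tr H_v²/v dv` -/
def hpI (a b : ℝ) : ℝ := ∫ v in a..b, Q.hpT g v / v

/-- the numbers of the changed path seen by the centred primitive -/
def hpS : HpS where
  m := F.m
  S := fun v => skCS F.m 1 (Q.bE g) (Q.hE g) (ghPosA v)
  T := Q.hpT g
  h := Q.hE g
  nr := fun k => (fun _ : BdWorld => Q.nLcU g k) W   -- the solid norm does not see `W`; the argument `W` of `hpS` is kept for the callers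

/-- the sampled changed path as an abstract path of PE Sec. 3 -/
def hpM (ps : List GhPos) : CmPath F.m (SkOm F.m) := cm5OfL8 (skSP F.m 1 (Q.stp g ps))

end BdQ

/-- lower bound of the field clock of the changed path on `[w, Γ w]`: removal (radius slope `(1-p)C ≥ C/O(log)`, `r ≍ v`) or actual field -/
def BdFr.hpTh (F : BdFr) (X : BdFix) (c1 ca w : ℝ) : ℝ := max (c1 * w * F.C X w / Real.log F.N) (ca * F.lam * w ^ 3)

/-- `u² X³ Λ^{-1/3} λ^{-1/6}` -/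
def BdFr.hpBa (F : BdFr) : ℝ := F.u ^ 2 * F.Xr ^ 3 * F.Lam ^ (-(1 / 3) : ℝ) * F.lam ^ (-(1 / 6) : ℝ)

/-- `u² X³ Λ^{-1/3} λ_1^{-1/6} Z^{1/6}` -/
def BdFr.hpBp (F : BdFr) (X : BdFix) (Z : ℝ) : ℝ :=
  F.u ^ 2 * F.Xr ^ 3 * F.Lam ^ (-(1 / 3) : ℝ) * F.lam1 X ^ (-(1 / 6) : ℝ) * Z ^ (1 / 6 : ℝ)

/-- **the instance class of N15**: any parameter of the widest interval, any minimiser, on a frame of the family WHICH CARRIES THE BOX OF ITS STAGE
(hostile reading of 161: for an arbitrary box `0 < Ilo` the paper claims neither (C7) nor (C8), (C10); the violations of `BdVI.Ok` are at stage) -/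
def BdI.OkS {X : BdFix} (W : BdWorld) (Fam : BdFr → Prop) (i : BdI X) : Prop := i.Ok W Fam ∧ i.F.AtStage X

section Props

variable (X : BdFix) (W : BdWorld) (Fam : BdFr → Prop)

/-- [INPUT, owner N5 (141/109)]  (C8)/(C7): `S_v ≤ CS v` for `c_H u ≤ v < 1`, every box, every minimiser.      TEX[LL:bud:outer-moments] -/
def BudHpSv (CS : ℝ) : Prop :=
  BdEv (fun i : BdI X => i.F.N) (fun i => i.OkS W Fam) fun i => ∀ v ∈ Ico (X.cH * i.F.u) 1, i.Q.Sq W i.g v ≤ CS * v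

/-- [FIRST OPTION, owner helper8, cut in `Bud/HpTr.lean`]  `∫_{v ∼ w} E tr H_v²/v dv ≲_∘ x⁶/C(w)` for all high dyads, plateau included.
TEX[LL:bud:high-primitive] l.1691-1695 = PE (20) TEX[PE:comp:unit-trace] on the box (C5) -/
def BudHpTr : Prop :=
  BdSub (fun i : BdI X × ℝ => i.1.F.N) (fun i => i.1.OkS W Fam ∧ X.cH * i.1.F.u ≤ i.2 ∧ i.2 ≤ 1)
    (fun i => i.1.Q.hpI i.1.g i.2 (min (2 * i.2) 1)) (fun i => i.1.F.x ^ 6 / i.1.F.C X i.2)

/-- [INPUT, owner N5 (141/109)]  (C8), first half, at STEP level: on all sufficiently fine chains the raw bound at the scale `w_c`, exponents `4l` (= the exit `bud_rw_raw` of `Bud/RawBoot.lean`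
on the sampled changed path `Q.hpM g ps`; lower exponents by `cmN_exp_mono`).      TEX[LL:bud:outer-moments] -/
def BudHpRaw : Prop :=
  ∀ l : ℕ, 1 ≤ l → ∃ Q0 : ℝ, 1 ≤ Q0 ∧ ∃ N0 : ℕ, ∀ i : BdI X, i.OkS W Fam → N0 ≤ i.F.N →
    BmEv 1 fun ps => (i.Q.hpM i.g ps).Raw (4 * l) Q0 (i.F.wc X)

end Props

variable {X : BdFix} {W : BdWorld} {Fam : BdFr → Prop} {K : BdCst} {C : BdHpC} {dm : BdFr → ℝ}

/-! ## 0'. Auxiliary lemmas of the prover (helper154) -/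

/-- (helper154) a fixed positive power of `N⁻¹` is eventually below any positive constant -/
theorem bud_hp_aux_N_small (e c : ℝ) (he : 0 < e) (hc : 0 < c) : ∃ N0 : ℕ, ∀ N : ℕ, N0 ≤ N → (N : ℝ) ^ (-e) ≤ c := by
  have h1 : Tendsto (fun n : ℕ => (n : ℝ) ^ (-e)) atTop (𝓝 0) :=
    (tendsto_rpow_neg_atTop he).comp tendsto_natCast_atTop_atTop
  obtain ⟨N0, h⟩ := Filter.eventually_atTop.1 (h1.eventually (Iio_mem_nhds hc))
  exact ⟨N0, fun N hN => le_of_lt (h N hN)⟩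

/-- (helper154) a fixed positive power of `λ` is eventually below any positive constant -/
theorem bud_hp_aux_lam_small (hX : X.Ok) (e c : ℝ) (he : 0 < e) (hc : 0 < c) :
    ∃ N0 : ℕ, ∀ F : BdFr, F.Ok X → N0 ≤ F.N → F.lam ^ e ≤ c := by
  obtain ⟨N0, h⟩ := bud_hp_aux_N_small (e * X.pS / 6) c (by have := hX.pS_pos; positivity) hc
  exact ⟨N0, fun F hF hN => (BdFr.bpf_lam_le_N hF he.le).trans (h F.N hN)⟩

theorem bud_hp_aux_Lam13 {F : BdFr} (hF : F.Ok X) : F.Lam ^ (-(1 / 3) : ℝ) = F.lam ^ (-(1 / 100) : ℝ) := by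
  unfold BdFr.Lam
  rw [← Real.rpow_mul (BdFr.bds_lam_pos hF).le]
  norm_num

theorem bud_hp_aux_lam1 {F : BdFr} (hF : F.Ok X) (e : ℝ) : F.lam1 X ^ e = F.lam ^ ((1 + X.eta) * e) := by
  unfold BdFr.lam1
  rw [← Real.rpow_mul (BdFr.bds_lam_pos hF).le]

/-- (helper154) `min(a,b) ≤ a^{2/3} b^{1/3}` -/
theorem bud_hp_aux_min_le {a b : ℝ} (ha : 0 ≤ a) (hb : 0 ≤ b) : min a b ≤ a ^ (2 / 3 : ℝ) * b ^ (1 / 3 : ℝ) := by
  have hm : 0 ≤ min a b := le_min ha hb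
  calc min a b = min a b ^ (2 / 3 + 1 / 3 : ℝ) := by norm_num
    _ = min a b ^ (2 / 3 : ℝ) * min a b ^ (1 / 3 : ℝ) := Real.rpow_add_of_nonneg hm (by norm_num) (by norm_num)
    _ ≤ _ := mul_le_mul (Real.rpow_le_rpow hm (min_le_left _ _) (by norm_num))
        (Real.rpow_le_rpow hm (min_le_right _ _) (by norm_num)) (Real.rpow_nonneg hm _) (Real.rpow_nonneg ha _)

theorem bud_hp_aux_pl_id {x u Lm l1 Z c0 : ℝ} (hx : 0 < x) (hu : 0 < u) (hL : 0 < Lm) (hl : 0 < l1) (hZ : 0 < Z) (hc : 0 < c0) :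
    (x ^ 6 / (c0 * (u ^ 2 * Lm * u))) ^ (2 / 3 : ℝ) * (x ^ 6 * Z / l1) ^ (1 / 3 : ℝ)
      = c0 ^ (-(2 / 3) : ℝ) * (u ^ 2 * (x / u) ^ 3 * Lm ^ (-(1 / 3) : ℝ) * l1 ^ (-(1 / 6) : ℝ) * Z ^ (1 / 6 : ℝ)) ^ 2 := by
  apply Real.log_injOn_pos (mem_Ioi.2 (by positivity)) (mem_Ioi.2 (by positivity))
  simp (disch := positivity) only [Real.log_mul, Real.log_div, Real.log_rpow, Real.log_pow]
  push_cast
  ring

theorem bud_hp_aux_inv_sqrt {D R : ℝ} (hD : 0 < D) (hR : 0 ≤ R) (h : 1 ≤ R ^ 2 * D) : 1 / Real.sqrt D ≤ R := by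
  have hs : 0 < Real.sqrt D := Real.sqrt_pos.2 hD
  rw [div_le_iff₀ hs]
  have h1 : Real.sqrt (R ^ 2 * D) = R * Real.sqrt D := by
    rw [Real.sqrt_mul (sq_nonneg R), Real.sqrt_sq hR]
  rw [← h1]
  exact Real.one_le_sqrt.2 h

theorem bud_hp_aux_C_pos (hX : X.Ok) {F : BdFr} (hF : F.Ok X) (r : ℝ) : 0 < F.C X r := by
  have hl := BdFr.bds_lam_pos hF
  have hu := BdFr.bds_u_pos hF hX
  have hLam : 0 < F.Lam := Real.rpow_pos_of_pos hl _
  exact cm_e_pos (F.call X) (by unfold BdFr.C0; positivity) r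

/-- `x⁶ N = 1` -/
theorem bud_hp_aux_x6 {F : BdFr} (hF : F.Ok X) : F.x ^ 6 * (F.N : ℝ) = 1 := by
  have hN : (0 : ℝ) < F.N := by
    have := hF.N2
    positivity
  unfold BdFr.x
  rw [← Real.rpow_natCast _ 6, ← Real.rpow_mul hN.le]
  norm_num
  rw [Real.rpow_neg_one]
  exact inv_mul_cancel₀ hN.ne'

theorem bud_hp_aux_log_pow (ε : ℝ) (hε : 0 < ε) (N : ℕ) (hN : 1 ≤ N) :
    (Real.log N + 2) ^ 3 ≤ (3 / ε + 2) ^ 3 * (N : ℝ) ^ ε := by
  have hN1 : (1 : ℝ) ≤ N := by exact_mod_cast hN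
  have h1 : Real.log N ≤ (N : ℝ) ^ (ε / 3) / (ε / 3) := Real.log_le_rpow_div (by linarith) (by positivity)
  have h2 : (1 : ℝ) ≤ (N : ℝ) ^ (ε / 3) := Real.one_le_rpow hN1 (by positivity)
  have h3 : Real.log N + 2 ≤ (3 / ε + 2) * (N : ℝ) ^ (ε / 3) := by
    have : (N : ℝ) ^ (ε / 3) / (ε / 3) = 3 / ε * (N : ℝ) ^ (ε / 3) := by field_simp
    rw [this] at h1
    nlinarith
  have h0 : 0 ≤ Real.log N + 2 := by have := Real.log_nonneg hN1; linarith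
  calc (Real.log N + 2) ^ 3 ≤ ((3 / ε + 2) * (N : ℝ) ^ (ε / 3)) ^ 3 := pow_le_pow_left₀ h0 h3 3
    _ = (3 / ε + 2) ^ 3 * (N : ℝ) ^ ε := by
        rw [mul_pow, ← Real.rpow_natCast ((N : ℝ) ^ _) 3, ← Real.rpow_mul (by linarith)]
        congr 2
        push_cast
        ring

theorem bud_hp_aux_dPE_pos (hX : X.Ok) {F : BdFr} (hF : F.Ok X) : 0 < (F.call X).d := by
  have hl := BdFr.bds_lam_pos hF
  have hu := BdFr.bds_u_pos hF hX
  have hLam : 0 < F.Lam := Real.rpow_pos_of_pos hl _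
  have hcd := hX.cd_pos
  show 0 < F.dPE X
  unfold BdFr.dPE
  positivity

theorem bud_hp_aux_C0_pos (hX : X.Ok) {F : BdFr} (hF : F.Ok X) : 0 < F.C0 := by
  have hl := BdFr.bds_lam_pos hF
  have hu := BdFr.bds_u_pos hF hX
  have hLam : 0 < F.Lam := Real.rpow_pos_of_pos hl _
  unfold BdFr.C0
  positivity

/-- a clock of `Bud/PSys` extended by `bmExt` is a clock of `Defs/Clk` -/
theorem bud_hp_aux_ext_clk {c : ℝ → ℝ} (h : IsClock 1 c) : GhClk1 1 (bmExt c) := by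
  obtain ⟨C, hC⟩ := h.bdd
  have hbdd : BddAbove (c '' Ioo 0 1) := ⟨C, by rintro _ ⟨v, hv, rfl⟩; exact hC v hv⟩
  refine ⟨?_, by simp [bmExt]⟩
  intro u hu u' hu' huu
  unfold bmExt
  by_cases h0 : u ≤ 0
  · rw [if_pos h0]
    by_cases h0' : u' ≤ 0
    · rw [if_pos h0']
    · rw [if_neg h0']
      by_cases h1' : u' < 1
      · rw [if_pos h1']; exact h.nonneg u' ⟨not_le.1 h0', h1'⟩
      · rw [if_neg h1']
        have hm : (1 / 2 : ℝ) ∈ Ioo (0 : ℝ) 1 := by constructor <;> norm_num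
        exact (h.nonneg _ hm).trans (le_csSup hbdd ⟨_, hm, rfl⟩)
  · have h0' : ¬ u' ≤ 0 := fun hh => h0 (huu.trans hh)
    rw [if_neg h0, if_neg h0']
    by_cases h1' : u' < 1
    · have h1 : u < 1 := lt_of_le_of_lt huu h1'
      rw [if_pos h1, if_pos h1']
      exact h.mono ⟨not_le.1 h0, h1⟩ ⟨not_le.1 h0', h1'⟩ huu
    · rw [if_neg h1']
      by_cases h1 : u < 1
      · rw [if_pos h1]; exact le_csSup hbdd ⟨u, ⟨not_le.1 h0, h1⟩, rfl⟩
      · rw [if_neg h1]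

theorem bud_hp_aux_ckadm (hS : BdStd X W Fam K) {F : BdFr} (hF : Fam F) {g : ℝ} (hg : g ∈ Icc (X.glo 0) (X.ghi 0)) (Q : BdQ F X) :
    CkAdm 1 (Q.bE g) (Q.hE g) :=
  ⟨bud_hp_aux_ext_clk (hS.clk F hF g hg Q).1, bud_hp_aux_ext_clk (hS.clk F hF g hg Q).2⟩

theorem bud_hp_aux_m_pos {F : BdFr} (hF : F.Ok X) : 0 < F.m := by
  have h1 := hF.m_lo
  have h2 : (2 : ℝ) ≤ F.N := by exact_mod_cast hF.N2
  have h3 : (0 : ℝ) < F.m := by linarith
  exact_mod_cast h3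

theorem bud_hp_aux_posA_le {u v : ℝ} (h : u ≤ v) : ghPosA u ≤ ghPosA v := by
  rw [gh_os_pos_le_iff]
  rcases eq_or_lt_of_le h with h | h
  · exact Or.inr ⟨h, le_rfl⟩
  · exact Or.inl h

theorem bud_hp_aux_x_rpow (F : BdFr) (a : ℝ) : F.x ^ a = (F.N : ℝ) ^ (-(a / 6)) := by
  unfold BdFr.x
  rw [← Real.rpow_mul (Nat.cast_nonneg _)]
  congr 1
  ring

/-- (helper154) `y_c → 0` -/
theorem bud_hp_aux_yc_small (hX : X.Ok) {ε : ℝ} (hε : 0 < ε) :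
    ∃ N0 : ℕ, ∀ F : BdFr, F.Ok X → N0 ≤ F.N → F.yc X ≤ ε := by
  have hCU := hX.CU_pos
  have hp := hX.pS_pos
  obtain ⟨M, hM⟩ : ∃ M, M = X.CU + X.CU ^ (3 / 4 : ℝ) := ⟨_, rfl⟩
  have hM0 : 0 < M := by rw [hM]; positivity
  obtain ⟨N0, hN0⟩ := bud_hp_aux_N_small (0.1 * X.pS / 6) (ε / M) (by positivity) (by positivity)
  refine ⟨N0, fun F h hN => ?_⟩
  have hx := BdFr.bds_x_pos h
  have hx1 := (BdFr.bds_x_lt_one h).le
  have hl := BdFr.bds_lam_pos h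
  have hl1 := (BdFr.bds_lam_lt_one h hX).le
  have hXr := BdFr.bds_Xr_le h hX
  have hXr0 := BdFr.bds_Xr_pos h hX
  have hsS : 0.49 ≤ X.sS := by unfold BdFix.sS; linarith [hX.tau_le]
  have t1 : F.Xr * F.Lam ^ (-(1 / 6) : ℝ) ≤ X.CU * F.lam ^ (0.2 : ℝ) := by
    have e : F.Lam ^ (-(1 / 6) : ℝ) = F.lam ^ (-0.005 : ℝ) := by
      unfold BdFr.Lam; rw [← Real.rpow_mul hl.le]; norm_num
    rw [e]
    calc F.Xr * F.lam ^ (-0.005 : ℝ) ≤ (X.CU * F.lam ^ (X.sS / 2)) * F.lam ^ (-0.005 : ℝ) :=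
          mul_le_mul_of_nonneg_right hXr (Real.rpow_nonneg hl.le _)
      _ = X.CU * F.lam ^ (X.sS / 2 + -0.005) := by rw [mul_assoc, ← Real.rpow_add hl]
      _ ≤ X.CU * F.lam ^ (0.2 : ℝ) :=
          mul_le_mul_of_nonneg_left (Real.rpow_le_rpow_of_exponent_ge hl hl1 (by linarith)) hCU.le
  have t2 : F.Xr ^ (3 / 4 : ℝ) * F.lam ^ (0.12 : ℝ) ≤ X.CU ^ (3 / 4 : ℝ) * F.lam ^ (0.2 : ℝ) := by
    have h1 : F.Xr ^ (3 / 4 : ℝ) ≤ X.CU ^ (3 / 4 : ℝ) * F.lam ^ (X.sS / 2 * (3 / 4)) := by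
      calc F.Xr ^ (3 / 4 : ℝ) ≤ (X.CU * F.lam ^ (X.sS / 2)) ^ (3 / 4 : ℝ) :=
            Real.rpow_le_rpow hXr0.le hXr (by norm_num)
        _ = _ := by rw [Real.mul_rpow hCU.le (Real.rpow_nonneg hl.le _), ← Real.rpow_mul hl.le]
    calc F.Xr ^ (3 / 4 : ℝ) * F.lam ^ (0.12 : ℝ)
        ≤ (X.CU ^ (3 / 4 : ℝ) * F.lam ^ (X.sS / 2 * (3 / 4))) * F.lam ^ (0.12 : ℝ) :=
          mul_le_mul_of_nonneg_right h1 (Real.rpow_nonneg hl.le _)
      _ = X.CU ^ (3 / 4 : ℝ) * F.lam ^ (X.sS / 2 * (3 / 4) + 0.12) := by rw [mul_assoc, ← Real.rpow_add hl]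
      _ ≤ _ := mul_le_mul_of_nonneg_left (Real.rpow_le_rpow_of_exponent_ge hl hl1 (by linarith))
          (Real.rpow_nonneg hCU.le _)
  have t3 : F.lam ^ (0.2 : ℝ) ≤ F.x ^ (X.pS * 0.2) := by
    calc F.lam ^ (0.2 : ℝ) ≤ (F.x ^ X.pS) ^ (0.2 : ℝ) := Real.rpow_le_rpow hl.le h.lam_hi (by norm_num)
      _ = _ := by rw [← Real.rpow_mul hx.le]
  have hz : 10 * X.zeta ≤ 0.1 * X.pS := by
    have a1 : X.tau0 ≤ 1 := by linarith [hX.tau0_le, hX.eta_le, hX.tau_le]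
    have a2 : X.bl ≤ 1 := by linarith [hX.bl_le, hX.bs_le, hX.eta_le, hX.tau_le]
    have a3 : X.pS * X.tau0 * X.bl ≤ X.pS * 1 * 1 :=
      mul_le_mul (mul_le_mul_of_nonneg_left a1 hp.le) a2 hX.bl_pos.le (by positivity)
    linarith [hX.zeta_le]
  have hpz : 0 < F.x ^ (-(10 * X.zeta)) := Real.rpow_pos_of_pos hx _
  have hxs : F.x ^ (0.1 * X.pS) ≤ ε / M := by
    rw [bud_hp_aux_x_rpow]
    exact hN0 F.N hN
  unfold BdFr.yc
  calc F.x ^ (-(10 * X.zeta)) * (F.Xr * F.Lam ^ (-(1 / 6) : ℝ) + F.Xr ^ (3 / 4 : ℝ) * F.lam ^ (0.12 : ℝ))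
      ≤ F.x ^ (-(10 * X.zeta)) * (M * F.x ^ (X.pS * 0.2)) := by
        refine mul_le_mul_of_nonneg_left ?_ hpz.le
        calc _ ≤ X.CU * F.lam ^ (0.2 : ℝ) + X.CU ^ (3 / 4 : ℝ) * F.lam ^ (0.2 : ℝ) := add_le_add t1 t2
          _ = M * F.lam ^ (0.2 : ℝ) := by rw [hM]; ring
          _ ≤ _ := mul_le_mul_of_nonneg_left t3 hM0.le
    _ = M * F.x ^ (-(10 * X.zeta) + X.pS * 0.2) := by rw [Real.rpow_add hx]; ring
    _ ≤ M * F.x ^ (0.1 * X.pS) :=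
        mul_le_mul_of_nonneg_left (Real.rpow_le_rpow_of_exponent_ge hx hx1 (by linarith)) hM0.le
    _ ≤ M * (ε / M) := mul_le_mul_of_nonneg_left hxs hM0.le
    _ = ε := by field_simp

/-- (helper154) for large `N`: `C_0 ≤ d_PE²` and `1 + log(1 + 1/d_PE) ≤ 4 log N` -/
theorem bud_hp_aux_gap (hX : X.Ok) : ∃ N0 : ℕ, ∀ F : BdFr, F.Ok X → N0 ≤ F.N →
    F.C0 ≤ (F.call X).d ^ 2 ∧ 1 + Real.log (1 + 1 / (F.call X).d) ≤ 4 * Real.log F.N := by
  have hcd := hX.cd_pos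
  have hCU := hX.CU_pos
  obtain ⟨N1, h1⟩ := bud_hp_aux_lam_small hX 0.01 (X.cd ^ 2) (by norm_num) (by positivity)
  obtain ⟨N2, h2⟩ := bud_hp_aux_N_small (1 / 2) (X.cd / X.CU) (by norm_num) (by positivity)
  refine ⟨max N1 N2, fun F hF hN => ?_⟩
  have hl := BdFr.bds_lam_pos hF
  have hl1 := (BdFr.bds_lam_lt_one hF hX).le
  have hu := BdFr.bds_u_pos hF hX
  have hx := BdFr.bds_x_pos hF
  have hN2 : (2 : ℝ) ≤ F.N := by exact_mod_cast hF.N2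
  have hN0 : (0 : ℝ) < F.N := by linarith
  have hd : (F.call X).d = X.cd * F.u * F.Lam ^ (1 / 3 : ℝ) := rfl
  have e3 : F.Lam ^ (1 / 3 : ℝ) = F.lam ^ (0.01 : ℝ) := by
    unfold BdFr.Lam; rw [← Real.rpow_mul hl.le]; norm_num
  have eL : F.Lam = (F.lam ^ (0.01 : ℝ)) ^ 3 := by
    unfold BdFr.Lam
    rw [← Real.rpow_natCast _ 3, ← Real.rpow_mul hl.le]; norm_num
  have hL3 : 0 < F.lam ^ (0.01 : ℝ) := Real.rpow_pos_of_pos hl _
  have hs := h1 F hF ((le_max_left _ _).trans hN)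
  rw [hd, e3]
  constructor
  · unfold BdFr.C0
    rw [eL]
    generalize F.lam ^ (0.01 : ℝ) = L at hL3 hs ⊢
    have : F.u ^ 2 * L ^ 3 = (F.u ^ 2 * L ^ 2) * L := by ring
    rw [this]
    calc F.u ^ 2 * L ^ 2 * L ≤ F.u ^ 2 * L ^ 2 * X.cd ^ 2 := mul_le_mul_of_nonneg_left hs (by positivity)
      _ = _ := by ring
  · -- `d ≥ 1/N`
    have hsS : 0 ≤ X.sS := by unfold BdFix.sS; linarith [hX.tau_le]
    have a1 : F.x ≤ X.CU * F.u := by
      refine le_trans ?_ hF.u_lo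
      unfold BdFr.U
      have : (1 : ℝ) ≤ F.lam ^ (-(X.sS / 2)) := Real.one_le_rpow_of_pos_of_le_one_of_nonpos hl hl1 (by linarith)
      nlinarith
    have a2 : F.x ^ (0.12 : ℝ) ≤ F.lam ^ (0.01 : ℝ) := by
      calc F.x ^ (0.12 : ℝ) = (F.x ^ (12 : ℝ)) ^ (0.01 : ℝ) := by rw [← Real.rpow_mul hx.le]; norm_num
        _ ≤ _ := Real.rpow_le_rpow (Real.rpow_nonneg hx.le _) hF.lam_lo (by norm_num)
    have a3 : (F.N : ℝ) ^ (-(1 / 2) : ℝ) ≤ F.x * F.x ^ (0.12 : ℝ) := by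
      have : F.x * F.x ^ (0.12 : ℝ) = F.x ^ (1.12 : ℝ) := by
        rw [show (1.12 : ℝ) = 1 + 0.12 by norm_num, Real.rpow_add hx, Real.rpow_one]
      rw [this, bud_hp_aux_x_rpow]
      exact Real.rpow_le_rpow_of_exponent_le (by linarith) (by norm_num)
    have a4 := h2 F.N ((le_max_right _ _).trans hN)
    have a5 : (F.N : ℝ)⁻¹ = (F.N : ℝ) ^ (-(1 / 2) : ℝ) * (F.N : ℝ) ^ (-(1 / 2) : ℝ) := by
      rw [← Real.rpow_add hN0, ← Real.rpow_neg_one]; norm_num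
    have hNh : 0 < (F.N : ℝ) ^ (-(1 / 2) : ℝ) := Real.rpow_pos_of_pos hN0 _
    have a6 : (F.N : ℝ)⁻¹ ≤ X.cd * F.u * F.lam ^ (0.01 : ℝ) := by
      rw [a5]
      calc (F.N : ℝ) ^ (-(1 / 2) : ℝ) * (F.N : ℝ) ^ (-(1 / 2) : ℝ) ≤ X.cd / X.CU * (F.x * F.x ^ (0.12 : ℝ)) :=
            mul_le_mul a4 a3 hNh.le (by positivity)
        _ ≤ X.cd / X.CU * ((X.CU * F.u) * F.lam ^ (0.01 : ℝ)) := by
            refine mul_le_mul_of_nonneg_left ?_ (by positivity)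
            exact mul_le_mul a1 a2 (Real.rpow_nonneg hx.le _) (by positivity)
        _ = _ := by field_simp
    have hdpos : 0 < X.cd * F.u * F.lam ^ (0.01 : ℝ) := by positivity
    have a7 : 1 / (X.cd * F.u * F.lam ^ (0.01 : ℝ)) ≤ F.N := by
      rw [div_le_iff₀ hdpos]
      have := mul_le_mul_of_nonneg_left a6 hN0.le
      rw [mul_inv_cancel₀ hN0.ne'] at this
      exact this
    have a8 : Real.log (1 + 1 / (X.cd * F.u * F.lam ^ (0.01 : ℝ))) ≤ 2 * Real.log F.N := by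
      have : Real.log ((F.N : ℝ) ^ 2) = 2 * Real.log F.N := by rw [Real.log_pow]; norm_num
      rw [← this]
      refine Real.log_le_log (by positivity) ?_
      nlinarith
    have a9 : (1 : ℝ) ≤ 2 * Real.log F.N := by
      have := Real.log_two_gt_d9
      have h3 : Real.log 2 ≤ Real.log F.N := Real.log_le_log (by norm_num) hN2
      linarith
    linarith

/-- (helper154) slope of `φ(r) = r C(r)`: `φ' = (1-p) C ≥ C(r_2)/(4 log N)` on `[r_1,r_2]` -/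
theorem bud_hp_aux_phi_slope (hX : X.Ok) {F : BdFr} (hF : F.Ok X) (h1 : F.C0 ≤ (F.call X).d ^ 2)
    (h2 : 1 + Real.log (1 + 1 / (F.call X).d) ≤ 4 * Real.log F.N) {r1 r2 : ℝ} (hr1 : 0 ≤ r1) (h12 : r1 ≤ r2) (hr2 : r2 ≤ 1) :
    (r2 - r1) * (F.C X r2 / (4 * Real.log F.N)) ≤ F.C X r2 * r2 - F.C X r1 * r1 := by
  have hd := bud_hp_aux_dPE_pos hX hF
  have hC0 := bud_hp_aux_C0_pos hX hF
  have hI := cm_re_integral (F.call X) hd hC0.le hr1 h12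
  have e : F.C X r2 * r2 - F.C X r1 * r1 = r2 * (F.call X).e F.C0 r2 - r1 * (F.call X).e F.C0 r1 := by
    unfold BdFr.C; ring
  rw [e, hI]
  have hc : ∫ _r in r1..r2, F.C X r2 / (4 * Real.log F.N) = (r2 - r1) * (F.C X r2 / (4 * Real.log F.N)) := by
    rw [intervalIntegral.integral_const, smul_eq_mul]
  rw [← hc]
  refine intervalIntegral.integral_mono_on h12 intervalIntegrable_const
    (((continuous_const.sub (cm_pp_cont (F.call X) F.C0)).mul (cm_e_cont (F.call X) F.C0)).intervalIntegrable _ _) fun r hr => ?_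
  have g1 := cm_pp_gap (F.call X) hd hC0.le h1 (hr1.trans hr.1) (hr.2.trans hr2)
  have g2 : F.C X r2 ≤ (F.call X).e F.C0 r := cm_e_anti (F.call X) hd hC0.le hr.2
  have hpos : 0 < 1 + Real.log (1 + 1 / (F.call X).d) := by
    have : 0 ≤ Real.log (1 + 1 / (F.call X).d) := Real.log_nonneg (by have : 0 < 1 / (F.call X).d := by positivity
                                                                      linarith)
    linarith
  have g3 : 1 / (4 * Real.log F.N) ≤ 1 / (1 + Real.log (1 + 1 / (F.call X).d)) := one_div_le_one_div_of_le hpos h2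
  have hCr := bud_hp_aux_C_pos hX hF r2
  have hlog : 0 < 4 * Real.log F.N := lt_of_lt_of_le hpos h2
  calc F.C X r2 / (4 * Real.log F.N) = 1 / (4 * Real.log F.N) * F.C X r2 := by ring
    _ ≤ (1 - (F.call X).pp F.C0 r) * (F.call X).e F.C0 r :=
        mul_le_mul (g3.trans g1) g2 hCr.le (cm_pp_gap_pos _ _ _).le

theorem bud_hp_aux_hE_eq {F : BdFr} (Q : BdQ F X) (g : ℝ) {v : ℝ} (h0 : 0 < v) (h1 : v < 1) : Q.hE g v = Q.hq g v := by
  unfold BdQ.hE bmExt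
  rw [if_neg (not_le.2 h0), if_pos h1]

/-- (helper154) abstract form of `bud_hp_clk`: a path which samples a field clock with an active slope `σ s²` on `[u,p]` and a dyadic gain `th1` -/
theorem bud_hp_aux_clk_abs {n : ℕ} {Ω : Type} [MeasurableSpace Ω] (M : CmPath n Ω) {h : ℝ → ℝ} {δ u Γ ηm p σ : ℝ} {th1 : ℝ → ℝ}
    (hsm : Cm5Smp M h δ) (hmono : MonotoneOn h (Icc 0 1)) (hδ0 : 0 < δ) (hηm : 0 < ηm) (hδ1 : δ ≤ ηm / 4) (hδ2 : δ ≤ u / 2) (hu : 0 < u)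
    (hu1 : u ≤ 1 / (8 * Γ ^ 2)) (hΓ1 : 4 ≤ Γ) (hp0 : 0 < p) (hΓp : 2 ≤ Γ * p) (hp1 : p < 1) (hσ : 0 < σ)
    (hB : ∀ s t : ℝ, u ≤ s → s ≤ t → t ≤ p → σ * s ^ 2 * (t - s) ≤ h t - h s)
    (hR : ∀ w, u ≤ w → Γ * w ≤ 1 → th1 w ≤ h (Γ * w - δ) - h (w + δ))
    (hth : ∀ w w', u ≤ w → w ≤ w' → th1 w ≤ th1 w') :
    Cm5Clk M u (1 / (8 * Γ ^ 2)) Γ ηm (fun w => max (th1 w) (σ * w ^ 3)) (fun w => σ * w ^ 2 / 2) := by
  have hΓ0 : 0 < Γ := by linarith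
  have hA : ∀ a b : ℝ, 0 ≤ a → a + δ ≤ b - δ → b ≤ 1 → h (b - δ) - h (a + δ) ≤ M.H b - M.H a := by
    intro a b ha hab hb
    have h1 := hsm.lo (b - δ) b (by linarith) (by linarith) hb
    have h2 := hsm.hi (a + δ) a ha le_rfl (by linarith)
    linarith
  have h2Γ : 2 / Γ ≤ p := by rw [div_le_iff₀ hΓ0]; linarith
  have hump : 4 * (1 / (8 * Γ ^ 2)) ≤ p := by
    refine le_trans ?_ h2Γ
    rw [mul_one_div, div_le_div_iff₀ (by positivity) hΓ0]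
    nlinarith
  refine ⟨by linarith, hu, hu1, le_of_eq (by field_simp), hηm.le, ?_, ?_, ?_, ?_, ?_, ?_⟩
  · intro w hw
    have hw0 : 0 < w := hu.trans_le hw
    exact lt_max_of_lt_right (by positivity)
  · intro w w' hw hww' _
    have hw0 : 0 < w := hu.trans_le hw
    refine max_le_max (hth w w' hw hww') ?_
    gcongr
  · intro w hw hΓw
    have hw0 : 0 < w := hu.trans_le hw
    have hδw : δ ≤ w / 2 := by linarith
    have h4w : 4 * w ≤ Γ * w := mul_le_mul_of_nonneg_right hΓ1 hw0.le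
    have hA1 := hA w (Γ * w) hw0.le (by linarith) hΓw
    refine le_trans ?_ hA1
    refine max_le (hR w hw hΓw) ?_
    have h2w : 2 * w ≤ p := by
      have : 2 * w ≤ Γ * p * w := mul_le_mul_of_nonneg_right hΓp hw0.le
      have h3 : Γ * p * w = (Γ * w) * p := by ring
      have h4 : (Γ * w) * p ≤ 1 * p := mul_le_mul_of_nonneg_right hΓw hp0.le
      linarith
    have hB1 := hB (w + δ) (2 * w) (by linarith) (by linarith) h2w
    have hm1 : h (2 * w) ≤ h (Γ * w - δ) :=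
      hmono ⟨by linarith, by linarith⟩ ⟨by linarith, by linarith⟩ (by linarith)
    have hcube : w ^ 3 ≤ (w + δ) ^ 2 * (2 * w - (w + δ)) := by
      have e : (w + δ) ^ 2 * (2 * w - (w + δ)) - w ^ 3 = δ * (w ^ 2 - w * δ - δ ^ 2) := by ring
      have h5 : 0 ≤ w ^ 2 - w * δ - δ ^ 2 := by nlinarith
      have h6 := mul_nonneg hδ0.le h5
      linarith
    have h6 : σ * w ^ 3 ≤ σ * (w + δ) ^ 2 * (2 * w - (w + δ)) := by
      rw [mul_assoc σ]
      exact mul_le_mul_of_nonneg_left hcube hσ.le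
    linarith
  · intro u' hu' _
    have : 0 < u' := hu.trans_le hu'
    positivity
  · intro u' hu' hum t η hut hη htη
    have hu0 : 0 < u' := hu.trans_le hu'
    have h4u : 4 * u' ≤ p := le_trans (by linarith) hump
    have hA1 := hA t (t + η) (by linarith) (by linarith) (by linarith)
    have hB1 := hB (t + δ) (t + η - δ) (by linarith) (by linarith) (by linarith)
    refine le_trans ?_ (hB1.trans hA1)
    have h1 : u' ^ 2 ≤ (t + δ) ^ 2 := pow_le_pow_left₀ hu0.le (by linarith) 2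
    have h2 : η / 2 ≤ t + η - δ - (t + δ) := by linarith
    have hη0 : 0 < η := by linarith
    calc σ * u' ^ 2 / 2 * η = σ * (u' ^ 2 * (η / 2)) := by ring
      _ ≤ σ * ((t + δ) ^ 2 * (t + η - δ - (t + δ))) :=
          mul_le_mul_of_nonneg_left (mul_le_mul h1 h2 (by positivity) (by positivity)) hσ.le
      _ = _ := by ring
  · intro u' hu' _
    have hu0 : 0 < u' := hu.trans_le hu'
    refine le_max_of_le_right ?_
    have : 0 ≤ σ * u' ^ 3 := by positivity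
    have e : σ * u' ^ 2 / 2 * u' = σ * u' ^ 3 / 2 := by ring
    show σ * u' ^ 2 / 2 * u' ≤ _
    rw [e]
    linarith

/-- (helper154) the removal option of `bud_hp_clk` -/
theorem bud_hp_aux_clk_rem (hS : BdStd X W Fam K) {F : BdFr} (hF : Fam F) {g : ℝ} (hg : g ∈ Icc (X.glo 0) (X.ghi 0)) (Q : BdQ F X)
    {cL CL Γ G δ w : ℝ} (hcL : 0 < cL) (hcLCL : cL ≤ CL) (hΓ1 : 4 ≤ Γ) (hΓc : 4 * CL ≤ Γ * cL) (hG1 : 1 ≤ G) (hG2 : CL * Γ ≤ G)
    (hg1 : F.C0 ≤ (F.call X).d ^ 2) (hg2 : 1 + Real.log (1 + 1 / (F.call X).d) ≤ 4 * Real.log F.N)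
    (h7' : ∀ v ∈ Icc (F.wc X) 1, cL * v ≤ Q.r v ∧ Q.r v ≤ CL * v) (hwc : F.wc X ≤ w) (hw0 : 0 < w) (hΓw : Γ * w ≤ 1)
    (hδ0 : 0 < δ) (hδw : δ ≤ w / 2) :
    cL * Γ / (8 * G) * w * F.C X w / Real.log F.N ≤ Q.hE g (Γ * w - δ) - Q.hE g (w + δ) := by
  have hX := hS.fix
  have hFo := hS.ok F hF
  have hd := bud_hp_aux_dPE_pos hX hFo
  have hC0 := bud_hp_aux_C0_pos hX hFo
  have hN2 : (2 : ℝ) ≤ F.N := by exact_mod_cast hFo.N2
  have hlog : 0 < Real.log F.N := Real.log_pos (by linarith)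
  have hΓ0 : 0 < Γ := by linarith
  have hG0 : 0 < G := by linarith
  have hCL : 0 < CL := lt_of_lt_of_le hcL hcLCL
  have h4w : 4 * w ≤ Γ * w := mul_le_mul_of_nonneg_right hΓ1 hw0.le
  have hs0 : 0 < w + δ := by linarith
  have ht1 : Γ * w - δ < 1 := by linarith
  have hst : w + δ ≤ Γ * w - δ := by linarith
  rw [bud_hp_aux_hE_eq Q g (hs0.trans_le hst) ht1, bud_hp_aux_hE_eq Q g hs0 (lt_of_le_of_lt hst ht1)]
  have hh0 : F.h g (w + δ) ≤ F.h g (Γ * w - δ) :=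
    (hS.clk0 F hF g hg).2.mono ⟨hs0, lt_of_le_of_lt hst ht1⟩ ⟨hs0.trans_le hst, ht1⟩ hst
  have hrs := (h7' (w + δ) ⟨by linarith, by linarith⟩).2
  have hrt := h7' (Γ * w - δ) ⟨by linarith, by linarith⟩
  have hrs0 := (Q.r_mem (w + δ) ⟨hs0.le, by linarith⟩).1
  have hrt1 := (Q.r_mem (Γ * w - δ) ⟨by linarith, ht1.le⟩).2
  have k1 : cL * δ ≤ CL * (w / 2) := mul_le_mul hcLCL hδw hδ0.le hCL.le
  have k2 : CL * δ ≤ CL * (w / 2) := mul_le_mul_of_nonneg_left hδw hCL.le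
  have k3 : 4 * CL * w ≤ Γ * cL * w := mul_le_mul_of_nonneg_right hΓc hw0.le
  have hdiff : cL * Γ * w / 2 ≤ Q.r (Γ * w - δ) - Q.r (w + δ) := by
    have e1 : cL * (Γ * w - δ) = Γ * cL * w - cL * δ := by ring
    have e2 : CL * (w + δ) = CL * w + CL * δ := by ring
    have e3 : cL * Γ * w / 2 = Γ * cL * w / 2 := by ring
    have hrt' := hrt.1
    rw [e1] at hrt'
    rw [e2] at hrs
    rw [e3]
    linarith
  have hpos : 0 ≤ cL * Γ * w / 2 := by positivity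
  have hsl := bud_hp_aux_phi_slope hX hFo hg1 hg2 hrs0 (by linarith : Q.r (w + δ) ≤ Q.r (Γ * w - δ)) hrt1
  have hCt : F.C X w / G ≤ F.C X (Q.r (Γ * w - δ)) := by
    have c1 : F.C X w / G ≤ F.C X (G * w) := cm_e_scale (F.call X) hd hC0.le hG1 hw0.le
    have c2 : Q.r (Γ * w - δ) ≤ G * w := by
      calc Q.r (Γ * w - δ) ≤ CL * (Γ * w - δ) := hrt.2
        _ ≤ CL * (Γ * w) := mul_le_mul_of_nonneg_left (by linarith) hCL.le
        _ = CL * Γ * w := by ring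
        _ ≤ G * w := mul_le_mul_of_nonneg_right hG2 hw0.le
    exact c1.trans (cm_e_anti (F.call X) hd hC0.le c2)
  have hCw := bud_hp_aux_C_pos hX hFo w
  have hfin : cL * Γ / (8 * G) * w * F.C X w / Real.log F.N
      ≤ (Q.r (Γ * w - δ) - Q.r (w + δ)) * (F.C X (Q.r (Γ * w - δ)) / (4 * Real.log F.N)) := by
    have e : cL * Γ / (8 * G) * w * F.C X w / Real.log F.N = cL * Γ * w / 2 * (F.C X w / G / (4 * Real.log F.N)) := by
      field_simp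
      ring
    rw [e]
    refine mul_le_mul hdiff ?_ (by positivity) (by linarith)
    exact div_le_div_of_nonneg_right hCt (by positivity)
  unfold BdQ.hq
  linarith

/-- (helper154) two spines (the labels `0, 1`, which share `jv` revelations); the label `2 + k` follows the spine `a k` through `jc` revelations and is fresh afterwards -/
def hpCat (jv jc : ℕ) (a : ℕ → Fin 2) : (q : ℕ) → GhTree (2 + q)
  | 0 => obT2 jv
  | q + 1 => (hpCat jv jc a q).att jc ⟨(a q).1, by have := (a q).2; omega⟩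

/-- the spine of a label -/
def hpGrp (a : ℕ → Fin 2) (x : ℕ) : Fin 2 := if x = 0 then 0 else if x = 1 then 1 else a (x - 2)

theorem hp_grp_val (a : ℕ → Fin 2) (c : Fin 2) : hpGrp a c.1 = c := by
  unfold hpGrp
  fin_cases c <;> simp

theorem hp_cat_sh (jv jc : ℕ) (hjv : jv ≤ jc) (a : ℕ → Fin 2) : ∀ (q : ℕ) (x y : Fin (2 + q)), x ≠ y →
    (hpCat jv jc a q).sh x y = if hpGrp a x.1 = hpGrp a y.1 then jc else jv
  | 0, x, y, hxy => by
    have h1 : hpGrp a x.1 = x := hp_grp_val a x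
    have h2 : hpGrp a y.1 = y := hp_grp_val a y
    rw [h1, h2, if_neg hxy]
    rfl
  | q + 1, x, y, hxy => by
    have hlast : hpGrp a (Fin.last (2 + q)).1 = a q := by
      unfold hpGrp
      have : (Fin.last (2 + q)).1 = 2 + q := rfl
      rw [this, if_neg (by omega), if_neg (by omega)]
      congr 1
      omega
    have ha0 : hpGrp a (a q).1 = a q := hp_grp_val a (a q)
    have key : ∀ b : Fin (2 + q), (if b = (⟨(a q).1, by have := (a q).2; omega⟩ : Fin (2 + q)) then jc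
        else min jc ((hpCat jv jc a q).sh ⟨(a q).1, by have := (a q).2; omega⟩ b)) = if a q = hpGrp a b.1 then jc else jv := by
      intro b
      by_cases hb : b = (⟨(a q).1, by have := (a q).2; omega⟩ : Fin (2 + q))
      · rw [if_pos hb, hb]
        simp only [ha0, if_true]
      · rw [if_neg hb, hp_cat_sh jv jc hjv a q _ b (fun h => hb h.symm)]
        simp only [ha0]
        split_ifs
        · simp
        · exact min_eq_right hjv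
    show ((hpCat jv jc a q).att jc ⟨(a q).1, by have := (a q).2; omega⟩).sh x y = _
    induction x using Fin.lastCases with
    | last =>
      induction y using Fin.lastCases with
      | last => exact absurd rfl hxy
      | cast b =>
        refine (ghp_att_lc (hpCat jv jc a q) jc _ b).trans ((key b).trans ?_)
        have e : hpGrp a (Fin.last (Nat.add 2 q)).1 = a q := hlast
        rw [e]
        rfl
    | cast c =>
      induction y using Fin.lastCases with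
      | last =>
        refine (ghp_att_cl (hpCat jv jc a q) jc _ c).trans ((key c).trans ?_)
        have e : hpGrp a (Fin.last (Nat.add 2 q)).1 = a q := hlast
        rw [e]
        by_cases h : a q = hpGrp a c.1
        · rw [if_pos h, if_pos]; exact h.symm
        · rw [if_neg h, if_neg]; exact fun h' => h h'.symm
      | cast b =>
        exact (ghp_att_cc (hpCat jv jc a q) jc _ c b).trans (hp_cat_sh jv jc hjv a q c b (fun h => hxy (by rw [h])))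

theorem hp_cat_rep (jv jc : ℕ) (hjv : jv ≤ jc) (a : ℕ → Fin 2) (q : ℕ) (sh : ℕ → ℕ → ℕ)
    (hsh : ∀ x y, x < 2 + q → y < 2 + q → x ≠ y → sh x y = if hpGrp a x = hpGrp a y then jc else jv) :
    ghRepN (2 + q) sh = (hpCat jv jc a q).rep := by
  funext t x
  unfold ghRepN GhTree.rep
  congr 1
  ext b
  simp only [Finset.mem_filter, Finset.mem_univ, true_and]
  by_cases hb : b = x
  · simp [hb]
  · have h1 : sh x.1 b.1 = if hpGrp a x.1 = hpGrp a b.1 then jc else jv := hsh x.1 b.1 x.2 b.2 (fun h => hb (Fin.ext h.symm))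
    have h2 := hp_cat_sh jv jc hjv a q x b (fun h => hb h.symm)
    simp only [hb, false_or, h1, h2]

/-- peeling the attached labels one by one -/
theorem hp_cat_peel {S ι : Type} [Fintype S] [Fintype ι] (B : GhB S) (hB : B.Ok) (ls : List (GhLv S ι)) (hls : GhNn ls) (z : S → ℝ)
    (jv jc : ℕ) (hjc : jc ≤ ls.length) (a : ℕ → Fin 2) (q : ℕ) (G : GhTest S ι 2) (f : ℕ → S → ℝ) :
    (hpCat jv jc a q).nu B ls z (fun η σ => G (fun t c => η t ⟨c.1, by have := c.2; omega⟩) (fun c => σ ⟨c.1, by have := c.2; omega⟩)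
        * ∏ k : Fin q, f k (σ ⟨2 + k.1, by have := k.2; omega⟩))
      = (obT2 jv).nu B ls z fun η σ => G η σ * ∏ k : Fin q, ghE B (ls.drop jc) (f k) (z + ghPre ls (fun t => η t (a k)) jc) := by
  induction q generalizing G with
  | zero =>
    simp only [Finset.univ_eq_empty, Finset.prod_empty, mul_one]
    rfl
  | succ q ih =>
    have h1 := gh_n_tree_att B hB ls hls (hpCat jv jc a q) jc hjc ⟨(a q).1, by have := (a q).2; omega⟩ z
      (fun η σ => G (fun t c => η t ⟨c.1, by have := c.2; omega⟩) (fun c => σ ⟨c.1, by have := c.2; omega⟩)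
        * ∏ k : Fin q, f k (σ ⟨2 + k.1, by have := k.2; omega⟩)) (f q)
    have e1 : (fun (η : ℕ → Fin (2 + (q + 1)) → ι → ℝ) (σ : Fin (2 + (q + 1)) → S) =>
        G (fun t c => η t ⟨c.1, by have := c.2; omega⟩) (fun c => σ ⟨c.1, by have := c.2; omega⟩)
          * ∏ k : Fin (q + 1), f k (σ ⟨2 + k.1, by have := k.2; omega⟩))
        = fun η σ => ghOld (fun (η : ℕ → Fin (2 + q) → ι → ℝ) (σ : Fin (2 + q) → S) =>
            G (fun t c => η t ⟨c.1, by have := c.2; omega⟩) (fun c => σ ⟨c.1, by have := c.2; omega⟩)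
              * ∏ k : Fin q, f k (σ ⟨2 + k.1, by have := k.2; omega⟩)) η σ * f q (σ (Fin.last (2 + q))) := by
      funext η σ
      rw [Fin.prod_univ_castSucc]
      simp only [ghOld, Fin.val_castSucc, Fin.val_last]
      rw [mul_assoc]
      rfl
    show ((hpCat jv jc a q).att jc ⟨(a q).1, by have := (a q).2; omega⟩).nu B ls z _ = _
    rw [e1, h1]
    have h2 := ih (fun η σ => G η σ * ghE B (ls.drop jc) (f q) (z + ghPre ls (fun t => η t (a q)) jc))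
    have e2 : (fun (η : ℕ → Fin (2 + q) → ι → ℝ) (σ : Fin (2 + q) → S) =>
        (G (fun t c => η t ⟨c.1, by have := c.2; omega⟩) (fun c => σ ⟨c.1, by have := c.2; omega⟩)
          * ∏ k : Fin q, f k (σ ⟨2 + k.1, by have := k.2; omega⟩))
          * ghE B (ls.drop jc) (f q) (z + ghPre ls (fun j => η j ⟨(a q).1, by have := (a q).2; omega⟩) jc))
        = fun η σ => G (fun t c => η t ⟨c.1, by have := c.2; omega⟩) (fun c => σ ⟨c.1, by have := c.2; omega⟩)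
            * ghE B (ls.drop jc) (f q) (z + ghPre ls (fun t => η t ⟨(a q).1, by have := (a q).2; omega⟩) jc)
            * ∏ k : Fin q, f k (σ ⟨2 + k.1, by have := k.2; omega⟩) := by
      funext η σ; ring
    rw [e2, h2]
    congr 1
    funext η σ
    rw [Fin.prod_univ_castSucc]
    simp only [Fin.val_castSucc, Fin.val_last]
    ring

/-- (helper154) **product tests on the two-spine tree**: conditional means along the two branches of the fork law -/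
theorem hp_sk_prod2 (n : ℕ) (hn : 1 ≤ n) (P : SkStp) (hP : SkAdm 1 P) (jv jc : ℕ) (hjv : jv ≤ jc) (hjc : jc ≤ P.length)
    (a : ℕ → Fin 2) (q : ℕ) (sh : ℕ → ℕ → ℕ)
    (hsh : ∀ x y, x < 2 + q → y < 2 + q → x ≠ y → sh x y = if hpGrp a x = hpGrp a y then jc else jv)
    (G : SkCfg n → SkCfg n → ℝ) (f : ℕ → SkCfg n → ℝ) :
    ghNu (skBase n 1) (skLvs n P) (ghRepN (2 + q) sh) (fun _ => 0)
        (fun _ σ => G (σ ⟨0, by omega⟩) (σ ⟨1, by omega⟩) * ∏ k : Fin q, f k (σ ⟨2 + k.1, by have := k.2; omega⟩))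
      = ∫ z, G z.1.2 z.2.2 * ∏ k : Fin q, (cm5Sk n P).cE jc (fun ω' => f k ω'.2) (if a k = 0 then z.1 else z.2)
          ∂(cm5Sk n P).P2 jv := by
  have hM := cm5_sk_ok n hn P hP
  have hlen : (skLvs n P).length = P.length := by simp [skLvs]
  rw [hp_cat_rep jv jc hjv a q sh hsh]
  have h1 := hp_cat_peel (skBase n 1) (obt_base_ok n one_pos) (skLvs n P) ((l8i_adm hP).ghNn le_rfl) 0 jv jc
    (by rw [hlen]; exact hjc) a q (fun _ σ => G (σ 0) (σ 1)) f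
  refine Eq.trans h1 ?_
  obtain ⟨CG, hCG⟩ : ∃ CG : ℝ, ∀ s t : SkCfg n, |G s t| ≤ CG :=
    ⟨∑ s, ∑ t, |G s t|, fun s t =>
      (Finset.single_le_sum (f := fun t => |G s t|) (fun _ _ => abs_nonneg _) (Finset.mem_univ t)).trans
        (Finset.single_le_sum (f := fun s => ∑ t, |G s t|) (fun _ _ => Finset.sum_nonneg fun _ _ => abs_nonneg _)
          (Finset.mem_univ s))⟩
  have hCG0 : 0 ≤ CG := (abs_nonneg _).trans (hCG (fun _ => true) (fun _ => true))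
  have e : ∀ (ξ : ℕ → SkDr n → ℝ) (s : SkCfg n) (k : ℕ),
      ghE (skBase n 1) ((skLvs n P).drop jc) (f k) (0 + ghPre (skLvs n P) ξ jc) = (cm5Sk n P).cE jc (fun ω' => f k ω'.2) (ξ, s) :=
    fun ξ s k => (cm5_sk_cE_spin n P hP jc hjc (f k) (ξ, s)).symm
  have hpt : ∀ p : SkOm n × SkOm n,
      G (skSp2 p 0) (skSp2 p 1) * ∏ k : Fin q, ghE (skBase n 1) ((skLvs n P).drop jc) (f k)
          (0 + ghPre (skLvs n P) (fun t => skDr2 p t (a k)) jc)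
        = G p.1.2 p.2.2 * ∏ k : Fin q, (cm5Sk n P).cE jc (fun ω' => f k ω'.2) (if a k = 0 then p.1 else p.2) := by
    intro p
    have e0 : skSp2 p 0 = p.1.2 := by simp [skSp2]
    have e1 : skSp2 p 1 = p.2.2 := by simp [skSp2]
    rw [e0, e1]
    congr 1
    refine Finset.prod_congr rfl fun k _ => ?_
    by_cases hk : a k = 0
    · have : (fun t => skDr2 p t (a k)) = p.1.1 := by funext t; simp [skDr2, hk]
      rw [this, if_pos hk, e p.1.1 p.1.2]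
    · have : (fun t => skDr2 p t (a k)) = p.2.1 := by funext t; simp [skDr2, hk]
      rw [this, if_neg hk, e p.2.1 p.2.2]
  have hmeas : Measurable fun p : SkOm n × SkOm n =>
      G p.1.2 p.2.2 * ∏ k : Fin q, (cm5Sk n P).cE jc (fun ω' => f k ω'.2) (if a k = 0 then p.1 else p.2) := by
    refine (cm5_sk_pair_meas G).mul (Finset.measurable_prod _ fun k _ => ?_)
    by_cases hk : a k = 0
    · simp only [hk, if_true]
      exact (CmPath.cE_meas hM jc (cm5_sk_spin_meas (f k))).comp measurable_fst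
    · simp only [hk, if_false]
      exact (CmPath.cE_meas hM jc (cm5_sk_spin_meas (f k))).comp measurable_snd
  have h2 := l8i_fork n 1 one_pos P hP jv (hjv.trans hjc)
    (fun η σ => G (σ 0) (σ 1) * ∏ k : Fin q, ghE (skBase n 1) ((skLvs n P).drop jc) (f k)
      (0 + ghPre (skLvs n P) (fun t => η t (a k)) jc))
    (by simp only [hpt]; exact hmeas) (CG * ∏ k : Fin q, ∑ σ, |f k σ|) (fun ξ σ => by
      rw [abs_mul, Finset.abs_prod]
      refine mul_le_mul (hCG _ _) ?_ (Finset.prod_nonneg fun _ _ => abs_nonneg _) hCG0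
      refine Finset.prod_le_prod (fun _ _ => abs_nonneg _) fun k _ => ?_
      rw [e _ (σ 0)]
      exact CmPath.cE_bound hM jc (cm5_sk_spin_bdd (f k)) _)
  rw [← h2]
  simp only [hpt]
  rfl

/-- coefficient of one term of `A - skOv = ∑ κ, hpGc A κ * (Psi κ ⊗ Psi κ)` -/
def hpGc {n : ℕ} (A : ℝ) : Option (Fin n) → ℝ
  | none => A
  | some _ => -1

theorem hp_ov_sub {n : ℕ} (hn : 0 < n) (A : ℝ) (σ τ : SkCfg n) :
    A - skOv σ τ = ∑ κ : Option (Fin n), hpGc A κ * (cm5Psi κ σ * cm5Psi κ τ) := by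
  rw [Fintype.sum_option, obt_ov hn]
  simp only [hpGc, cm5Psi, mul_one, neg_one_mul, Finset.sum_neg_distrib]
  ring

/-- the single-label factors of one term of the expansion -/
def hpFc {n r : ℕ} (c : Fin r → Option (Fin n)) (k : ℕ) : SkCfg n → ℝ :=
  if h : k < r then cm5Psi (c ⟨k, h⟩) else if h' : k - r < r then cm5Psi (c ⟨k - r, h'⟩) else fun _ => 1

theorem hp_Fc_lo {n r : ℕ} (c : Fin r → Option (Fin n)) (i : Fin r) : hpFc c i.1 = cm5Psi (c i) := by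
  unfold hpFc
  simp only [i.2, dif_pos, Fin.eta]

theorem hp_Fc_hi {n r : ℕ} (c : Fin r → Option (Fin n)) (i : Fin r) : hpFc c (r + i.1) = cm5Psi (c i) := by
  have h1 : ¬ r + i.1 < r := by omega
  have h2 : r + i.1 - r = i.1 := by omega
  unfold hpFc
  simp only [h1, h2, i.2, dif_pos, dif_neg, not_false_iff, Fin.eta]

theorem hp_sk_inner (n : ℕ) (P : SkStp) (j : ℕ) (ω ω' : SkOm n) :
    inner ℝ ((cm5Sk n P).X j ω) ((cm5Sk n P).X j ω')
      = ∑ i, (cm5Sk n P).cE j (fun ω'' => obY i ω''.2) ω * (cm5Sk n P).cE j (fun ω'' => obY i ω''.2) ω' := by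
  rw [cm5_l8_inner]
  rfl

theorem hp_sk_prod2_int (n : ℕ) (hn : 1 ≤ n) (P : SkStp) (hP : SkAdm 1 P) (jv jc : ℕ) (a : ℕ → Fin 2) (q : ℕ)
    (G : SkCfg n → SkCfg n → ℝ) (f : ℕ → SkCfg n → ℝ) :
    Integrable (fun z : SkOm n × SkOm n =>
      G z.1.2 z.2.2 * ∏ k : Fin q, (cm5Sk n P).cE jc (fun ω' => f k ω'.2) (if a k = 0 then z.1 else z.2)) ((cm5Sk n P).P2 jv) := by
  have hM := cm5_sk_ok n hn P hP
  have hP2 := CmPath.P2_prob hM jv
  obtain ⟨CG, hCG⟩ : ∃ CG : ℝ, ∀ s t : SkCfg n, |G s t| ≤ CG :=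
    ⟨∑ s, ∑ t, |G s t|, fun s t =>
      (Finset.single_le_sum (f := fun t => |G s t|) (fun _ _ => abs_nonneg _) (Finset.mem_univ t)).trans
        (Finset.single_le_sum (f := fun s => ∑ t, |G s t|) (fun _ _ => Finset.sum_nonneg fun _ _ => abs_nonneg _)
          (Finset.mem_univ s))⟩
  have hCG0 : 0 ≤ CG := (abs_nonneg _).trans (hCG (fun _ => true) (fun _ => true))
  have hmeas : Measurable fun p : SkOm n × SkOm n =>
      G p.1.2 p.2.2 * ∏ k : Fin q, (cm5Sk n P).cE jc (fun ω' => f k ω'.2) (if a k = 0 then p.1 else p.2) := by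
    refine (cm5_sk_pair_meas G).mul (Finset.measurable_prod _ fun k _ => ?_)
    by_cases hk : a k = 0
    · simp only [hk, if_true]
      exact (CmPath.cE_meas hM jc (cm5_sk_spin_meas (f k))).comp measurable_fst
    · simp only [hk, if_false]
      exact (CmPath.cE_meas hM jc (cm5_sk_spin_meas (f k))).comp measurable_snd
  refine CmPath.cm5k_integrable _ hmeas.aestronglyMeasurable (C := CG * ∏ k : Fin q, ∑ σ, |f k σ|) fun z => ?_
  rw [Real.norm_eq_abs, abs_mul, Finset.abs_prod]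
  refine mul_le_mul (hCG _ _) ?_ (Finset.prod_nonneg fun _ _ => abs_nonneg _) hCG0
  exact Finset.prod_le_prod (fun _ _ => abs_nonneg _) fun k _ => CmPath.cE_bound hM jc (cm5_sk_spin_bdd (f k)) _

/-- the spine of the attached label `2 + k` -/
def hpA (r : ℕ) (k : ℕ) : Fin 2 := if k < r then 0 else 1

/-- (helper154) **the tree of `mPr` on one chain**: the pair `0, 1` forks after `jv` revelations, `r` labels continue each branch from the cut `jc` -/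
theorem hp_sk_mpr (n : ℕ) (hn : 1 ≤ n) (P : SkStp) (hP : SkAdm 1 P) (jv jc : ℕ) (hjv : jv ≤ jc) (hjc : jc ≤ P.length) (r q : ℕ)
    (hq : q = r + r) (sh : ℕ → ℕ → ℕ)
    (hsh : ∀ x y, x < 2 + q → y < 2 + q → x ≠ y → sh x y = if hpGrp (hpA r) x = hpGrp (hpA r) y then jc else jv) :
    ghNu (skBase n 1) (skLvs n P) (ghRepN (2 + q) sh) (fun _ => 0)
        (fun _ σ => ∏ i : Fin r, (skOv (σ ⟨0, by omega⟩) (σ ⟨1, by omega⟩)
          - skOv (σ ⟨2 + i.1, by have := i.2; omega⟩) (σ ⟨2 + r + i.1, by have := i.2; omega⟩)))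
      = ∫ z, ((cm5Sk n P).R2 z - inner ℝ ((cm5Sk n P).X jc z.1) ((cm5Sk n P).X jc z.2)) ^ r ∂(cm5Sk n P).P2 jv := by
  subst hq
  have hM := cm5_sk_ok n hn P hP
  have hP2 := CmPath.P2_prob hM jv
  have := hM.markov jc
  have e1 : (fun (_ : ℕ → Fin (2 + (r + r)) → SkDr n → ℝ) (σ : Fin (2 + (r + r)) → SkCfg n) =>
        ∏ i : Fin r, (skOv (σ ⟨0, by omega⟩) (σ ⟨1, by omega⟩)
          - skOv (σ ⟨2 + i.1, by have := i.2; omega⟩) (σ ⟨2 + r + i.1, by have := i.2; omega⟩)))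
      = fun _ σ => ∑ c ∈ (Finset.univ : Finset (Fin r → Option (Fin n))), 1 *
          ((fun s t => ∏ i : Fin r, hpGc (skOv s t) (c i)) (σ ⟨0, by omega⟩) (σ ⟨1, by omega⟩)
            * ∏ k : Fin (r + r), hpFc c k (σ ⟨2 + k.1, by have := k.2; omega⟩)) := by
    funext _ σ
    simp only [hp_ov_sub hn, one_mul]
    rw [Finset.prod_univ_sum, Fintype.piFinset_univ]
    refine Finset.sum_congr rfl fun c _ => ?_
    rw [Fin.prod_univ_add, ← Finset.prod_mul_distrib, ← Finset.prod_mul_distrib]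
    refine Finset.prod_congr rfl fun i _ => ?_
    simp only [Fin.val_castAdd, Fin.val_natAdd, hp_Fc_lo, hp_Fc_hi]
    have : (⟨2 + (r + i.1), by have := i.2; omega⟩ : Fin (2 + (r + r))) = ⟨2 + r + i.1, by have := i.2; omega⟩ :=
      Fin.ext (by simp only []; omega)
    rw [this]
  rw [e1, tr_b1_nu_sum (obt_base_ok n one_pos) Finset.univ (fun _ => 1)
    (fun c σ => (fun s t => ∏ i : Fin r, hpGc (skOv s t) (c i)) (σ ⟨0, by omega⟩) (σ ⟨1, by omega⟩)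
            * ∏ k : Fin (r + r), hpFc c k (σ ⟨2 + k.1, by have := k.2; omega⟩)) (skLvs n P) ((l8i_adm hP).ghNn le_rfl)]
  simp only [one_mul]
  have e2 := fun c : Fin r → Option (Fin n) => hp_sk_prod2 n hn P hP jv jc hjv hjc (hpA r) (r + r) sh hsh
    (fun s t => ∏ i : Fin r, hpGc (skOv s t) (c i)) (hpFc c)
  simp only [e2]
  rw [← integral_finsetSum _ fun c _ => hp_sk_prod2_int n hn P hP jv jc (hpA r) (r + r)
    (fun s t => ∏ i : Fin r, hpGc (skOv s t) (c i)) (hpFc c)]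
  refine integral_congr_ae (Filter.Eventually.of_forall fun z => ?_)
  simp only
  have h3 := Finset.prod_univ_sum (fun _ : Fin r => (Finset.univ : Finset (Option (Fin n))))
    (fun (_ : Fin r) (κ : Option (Fin n)) => hpGc (skOv z.1.2 z.2.2) κ * ((cm5Sk n P).cE jc (fun ω' => cm5Psi κ ω'.2) z.1
          * (cm5Sk n P).cE jc (fun ω' => cm5Psi κ ω'.2) z.2))
  rw [Fintype.piFinset_univ] at h3
  have h4 : ∑ κ : Option (Fin n), hpGc (skOv z.1.2 z.2.2) κ * ((cm5Sk n P).cE jc (fun ω' => cm5Psi κ ω'.2) z.1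
          * (cm5Sk n P).cE jc (fun ω' => cm5Psi κ ω'.2) z.2)
      = (cm5Sk n P).R2 z - inner ℝ ((cm5Sk n P).X jc z.1) ((cm5Sk n P).X jc z.2) := by
    rw [Fintype.sum_option, hp_sk_inner, cm5_sk_R2 n hn P]
    simp only [hpGc, cm5Psi, CmPath.cE, integral_const, probReal_univ, smul_eq_mul, mul_one, neg_one_mul,
      Finset.sum_neg_distrib]
    ring
  rw [← h4]
  have h5 : (∑ κ : Option (Fin n), hpGc (skOv z.1.2 z.2.2) κ * ((cm5Sk n P).cE jc (fun ω' => cm5Psi κ ω'.2) z.1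
          * (cm5Sk n P).cE jc (fun ω' => cm5Psi κ ω'.2) z.2)) ^ r
      = ∏ _i : Fin r, ∑ κ : Option (Fin n), hpGc (skOv z.1.2 z.2.2) κ * ((cm5Sk n P).cE jc (fun ω' => cm5Psi κ ω'.2) z.1
          * (cm5Sk n P).cE jc (fun ω' => cm5Psi κ ω'.2) z.2) := by
    rw [Finset.prod_const, Finset.card_univ, Fintype.card_fin]
  rw [h5, h3]
  refine Finset.sum_congr rfl fun c _ => ?_
  rw [Fin.prod_univ_add, ← Finset.prod_mul_distrib, ← Finset.prod_mul_distrib]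
  refine Finset.prod_congr rfl fun i _ => ?_
  have a1 : hpA r (Fin.castAdd r i).1 = 0 := by simp [hpA, i.2]
  have a2 : hpA r (Fin.natAdd r i).1 ≠ 0 := by simp [hpA]
  rw [if_pos a1, if_neg a2]
  simp only [Fin.val_castAdd, Fin.val_natAdd, hp_Fc_lo, hp_Fc_hi]

theorem bud_hp_aux_eqns_cite : True := by
  have := @hpCat.eq_1; have := @hpCat.eq_2; have := @hpCat.eq_def; have := @hpCat.induct; have := @hpGrp.eq_1
  have := @hpGc.eq_1; have := @hpGc.eq_2; have := @hpGc.eq_def; have := @hpFc.eq_1; have := @hpA.eq_1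
  trivial

/-- (helper154) closed LOWER bounds on all fine chains pass to `skCNu` (twin of `ckm_nu_le`) -/
theorem hp_nu_ge {n : ℕ} {b h : ℝ → ℝ} (hn : 0 < n) (H : CkAdm 1 b h) {q : ℕ} {τ : ℕ → ℕ → WithTop GhPos} (hτ : GhIsRT 1 q τ)
    (T : (Fin q → SkCfg n) → ℝ) {B : ℝ} (hB : BmEv 1 fun ps => B ≤ ckNuF n 1 b h q τ T ps) : B ≤ skCNu n 1 b h q τ T := by
  classical
  obtain ⟨K, hK⟩ : ∃ K : ℝ, ∀ σ, |T σ| ≤ K :=
    ⟨∑ σ, |T σ|, fun σ => Finset.single_le_sum (f := fun σ => |T σ|) (fun _ _ => abs_nonneg _) (Finset.mem_univ σ)⟩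
  have hK0 : 0 ≤ K := (abs_nonneg _).trans (hK fun _ _ => true)
  obtain ⟨F1, hF1⟩ := hB.exists_base
  refine le_of_forall_pos_le_add fun ε hε => ?_
  obtain ⟨F0, hF0⟩ := exit_clk_lim_nu hn one_pos H q (δ := ε / (K + 1)) (by positivity)
  have h1 := hF0 (F0 ∪ F1 ∪ ghForks q τ) (Finset.subset_union_left.trans Finset.subset_union_left) τ hτ
    (fun x y p hx hy hp => Finset.mem_union_right _ (by
      unfold ghForks
      refine Finset.mem_image.2 ⟨(x, y), Finset.mem_product.2 ⟨Finset.mem_range.2 hx, Finset.mem_range.2 hy⟩, ?_⟩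
      simp [hp])) T K hK
  have h2 := hF1 (F0 ∪ F1 ∪ ghForks q τ) (Finset.subset_union_right.trans Finset.subset_union_left)
  have h3 : ε / (K + 1) * K ≤ ε := by
    rw [div_mul_eq_mul_div, div_le_iff₀ (by positivity)]
    nlinarith
  have h4 := (abs_le.1 h1).2
  linarith

/-- the group of a label of the tree of `mPr` -/
theorem hp_grp_iff (l x : ℕ) : hpGrp (hpA (2 * l)) x = 0 ↔ (x = 0 ∨ (2 ≤ x ∧ x < 2 + 2 * l)) := by
  unfold hpGrp hpA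
  by_cases h0 : x = 0
  · simp [h0]
  · by_cases h1 : x = 1
    · simp [h1]
    · rw [if_neg h0, if_neg h1]
      by_cases h2 : x - 2 < 2 * l
      · rw [if_pos h2]
        simp only [true_iff]
        right
        omega
      · rw [if_neg h2]
        simp only [Fin.isValue, one_ne_zero, false_iff]
        omega

theorem hp_fin2_eq_iff (a b : Fin 2) : a = b ↔ (a = 0 ↔ b = 0) := by
  fin_cases a <;> fin_cases b <;> simp

/-- the real tree of `mPr` -/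
theorem hp_mpr_rt (l : ℕ) {v c : ℝ} (hv : 0 ≤ v) (hvc : v ≤ c) (hc : c ≤ 1) :
    GhIsRT 1 (2 + 4 * l) (bmTree fun a e => if (a = 0 ∨ (2 ≤ a ∧ a < 2 + 2 * l)) ↔ (e = 0 ∨ (2 ≤ e ∧ e < 2 + 2 * l)) then c else v) where
  diag := fun x _ => by simp [bmTree]
  symm := fun x y _ _ => by
    unfold bmTree
    by_cases hxy : x = y
    · rw [if_pos hxy, if_pos hxy.symm]
    · rw [if_neg hxy, if_neg (fun h => hxy h.symm)]
      simp only [iff_comm]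
  ultra := fun x y z _ _ _ => by
    have hle : ((ghPosA v : GhPos) : WithTop GhPos) ≤ ((ghPosA c : GhPos) : WithTop GhPos) :=
      WithTop.coe_le_coe.2 (bud_hp_aux_posA_le hvc)
    unfold bmTree
    by_cases hxz : x = z
    · rw [if_pos hxz]; exact le_top
    · rw [if_neg hxz]
      by_cases hxy : x = y
      · subst hxy
        rw [if_neg hxz]; exact min_le_right _ _
      · by_cases hyz : y = z
        · subst hyz
          rw [if_neg hxy]; exact min_le_left _ _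
        · rw [if_neg hxy, if_neg hyz]
          beta_reduce
          by_cases hC : ((x = 0 ∨ (2 ≤ x ∧ x < 2 + 2 * l)) ↔ (z = 0 ∨ (2 ≤ z ∧ z < 2 + 2 * l)))
          · rw [if_pos hC]
            refine (min_le_left _ _).trans ?_
            split_ifs
            · exact le_rfl
            · exact hle
          · rw [if_neg hC]
            by_cases hA : ((x = 0 ∨ (2 ≤ x ∧ x < 2 + 2 * l)) ↔ (y = 0 ∨ (2 ≤ y ∧ y < 2 + 2 * l)))
            · have hB : ¬ ((y = 0 ∨ (2 ≤ y ∧ y < 2 + 2 * l)) ↔ (z = 0 ∨ (2 ≤ z ∧ z < 2 + 2 * l))) := fun hB => hC (hA.trans hB)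
              rw [if_neg hB]; exact min_le_right _ _
            · rw [if_neg hA]; exact min_le_left _ _
  ok := fun x y _ _ p h => by
    unfold bmTree at h
    beta_reduce at h
    split_ifs at h with hxy h2
    · exact absurd h WithTop.top_ne_coe
    · rw [← WithTop.coe_injective h]; exact gh_os_posA_ok (hv.trans hvc) hc
    · rw [← WithTop.coe_injective h]; exact gh_os_posA_ok hv (hvc.trans hc)

/-- (helper154) the tree number of `mPr` on one chain of the net -/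
theorem hp_mpr_chain {n : ℕ} {b h : ℝ → ℝ} (hn : 0 < n) (H : CkAdm 1 b h) (Fs : Finset GhPos) (l : ℕ) {v c : ℝ} (hvc : v ≤ c) :
    ckNuF n 1 b h (2 + 4 * l)
        (bmTree fun a e => if (a = 0 ∨ (2 ≤ a ∧ a < 2 + 2 * l)) ↔ (e = 0 ∨ (2 ≤ e ∧ e < 2 + 2 * l)) then c else v)
        (bmTest n (2 + 4 * l) fun O => ∏ i ∈ Finset.range (2 * l), (O 0 1 - O (2 + i) (2 + 2 * l + i))) (ghPs 1 Fs)
      = ∫ z, ((ckM n b h (ghPs 1 Fs)).R2 z - inner ℝ ((ckM n b h (ghPs 1 Fs)).X (BdQ.ixV (ghPs 1 Fs) c) z.1)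
          ((ckM n b h (ghPs 1 Fs)).X (BdQ.ixV (ghPs 1 Fs) c) z.2)) ^ (2 * l) ∂(ckM n b h (ghPs 1 Fs)).P2 (BdQ.ixV (ghPs 1 Fs) v) := by
  have hlen : (ckStp 1 b h (ghPs 1 Fs)).length = (ghPs 1 Fs).length := (cm5_sk_L n _).symm.trans (ckm_L n b h _)
  have hle : ((ghPosA v : GhPos) : WithTop GhPos) ≤ ((ghPosA c : GhPos) : WithTop GhPos) :=
    WithTop.coe_le_coe.2 (bud_hp_aux_posA_le hvc)
  have h1 := hp_sk_mpr n hn (ckStp 1 b h (ghPs 1 Fs)) (cmk_chain_adm H Fs) (BdQ.ixV (ghPs 1 Fs) v) (BdQ.ixV (ghPs 1 Fs) c)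
    (brg_t_idx_mono _ hle) (hlen ▸ brg_t_idx_coe_le _ _) (2 * l) (4 * l) (by omega)
    (ghDisc (ghPs 1 Fs) (bmTree fun a e => if (a = 0 ∨ (2 ≤ a ∧ a < 2 + 2 * l)) ↔ (e = 0 ∨ (2 ≤ e ∧ e < 2 + 2 * l)) then c else v))
    (fun x y _ _ hxy => by
      have hiff : hpGrp (hpA (2 * l)) x = hpGrp (hpA (2 * l)) y
          ↔ ((x = 0 ∨ (2 ≤ x ∧ x < 2 + 2 * l)) ↔ (y = 0 ∨ (2 ≤ y ∧ y < 2 + 2 * l))) := by
        rw [hp_fin2_eq_iff, hp_grp_iff, hp_grp_iff]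
      unfold ghDisc bmTree
      rw [if_neg hxy]
      beta_reduce
      by_cases hc' : ((x = 0 ∨ (2 ≤ x ∧ x < 2 + 2 * l)) ↔ (y = 0 ∨ (2 ≤ y ∧ y < 2 + 2 * l)))
      · rw [if_pos hc', if_pos (hiff.2 hc')]; rfl
      · rw [if_neg hc', if_neg (fun h' => hc' (hiff.1 h'))]; rfl)
  refine Eq.trans ?_ h1
  unfold ckNuF
  congr 1
  funext _ σ
  unfold bmTest
  beta_reduce
  rw [Finset.prod_range]
  refine Finset.prod_congr rfl fun i _ => ?_
  have hi := i.2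
  rw [dif_pos ⟨by omega, by omega⟩, dif_pos ⟨by omega, by omega⟩]

/-! ## 1. The instance of the abstract layer -/

/-- the deterministic fields of `HpS.Ok` for the changed path: `exit_clk_SB`, `exit_clk_H2`, `exit_clk_D2`, `exit_clk_intble`, `exit_clk_sus_int`
(`bmExt c` is an admissible clock of `Defs/Clk` for every `IsClock 1 c`; a slope at masses `< 1` extends to the mass `1` because `bmExt c 1 = sup`). -/
theorem bud_hp_inst_det (hS : BdStd X W Fam K) {F : BdFr} (hF : Fam F) {g : ℝ} (hg : g ∈ Icc (X.glo 0) (X.ghi 0)) (Q : BdQ F X) :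
    0 < (Q.hpS W g).m ∧ MonotoneOn (Q.hpS W g).S (Icc 0 1) ∧ (∀ v ∈ Icc (0 : ℝ) 1, 0 ≤ (Q.hpS W g).S v) ∧
    (∀ v ∈ Icc (0 : ℝ) 1, (Q.hpS W g).S v ≤ 1) ∧ (∀ v ∈ Icc (0 : ℝ) 1, 0 ≤ (Q.hpS W g).T v) ∧
    IntervalIntegrable (Q.hpS W g).T volume 0 1 ∧
    ∀ (u v : ℝ) (γ : ℝ → ℝ), 0 ≤ u → u ≤ v → v ≤ 1 → (∀ w ∈ Icc u v, 0 ≤ γ w) → IntervalIntegrable γ volume u v →
      (∀ s t, u ≤ s → s ≤ t → t ≤ v → t < 1 → ∫ w in s..t, γ w ≤ (Q.hpS W g).h t - (Q.hpS W g).h s) →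
      (Q.hpS W g).m * ∫ w in u..v, γ w * (Q.hpS W g).T w ≤ (Q.hpS W g).S v - (Q.hpS W g).S u := by
  have hm := bud_hp_aux_m_pos (hS.ok F hF)
  have hadm := bud_hp_aux_ckadm hS hF hg Q
  have h01 : (0 : ℝ) < 1 := one_pos
  have hok : ∀ v ∈ Icc (0 : ℝ) 1, (ghPosA v).Ok 1 := fun v hv => gh_os_posA_ok hv.1 hv.2
  refine ⟨by show (0 : ℝ) < (F.m : ℝ); exact_mod_cast hm, ?_, ?_, ?_, ?_, ?_, ?_⟩
  · intro u hu v hv huv
    exact (exit_clk_SB hm h01 hadm (hok u hu) (hok v hv) (bud_hp_aux_posA_le huv)).2.1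
  · intro v hv
    exact (exit_clk_SB hm h01 hadm (hok v hv) (hok v hv) le_rfl).1
  · intro v hv
    obtain ⟨h0, -, -, h1, h2⟩ := exit_clk_SB hm h01 hadm (hok v hv) (hok v hv) le_rfl
    show skCS F.m 1 (Q.bE g) (Q.hE g) (ghPosA v) ≤ 1
    nlinarith
  · intro v hv
    have h1 := (exit_clk_H2 hm h01 hadm (hok v hv)).1
    have h2 := (exit_clk_D2 hm h01 hadm (hok v hv)).2.1
    exact le_trans (mul_nonneg (sq_nonneg _) h2) h1
  · exact (exit_clk_intble hm h01 hadm).2.2.1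
  · intro u v γ hu huv hv hγ0 hγi hγh
    refine exit_clk_sus_int hm h01 hadm hu huv hv γ hγ0 hγi fun s t hs hst ht => ?_
    rcases lt_or_ge t 1 with ht1 | ht1
    · exact hγh s t hs hst ht ht1
    · have ht1' : t = 1 := le_antisymm (ht.trans hv) ht1
      have hv1 : v = 1 := le_antisymm hv (ht1.trans ht)
      subst ht1'
      rcases eq_or_lt_of_le hst with hs1 | hs1
      · rw [hs1]; simp
      · -- limit `t ↑ 1`
        have hsub : IntervalIntegrable γ volume s 1 := by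
          refine hγi.mono_set ?_
          rw [uIcc_of_le hst, uIcc_of_le huv, hv1]
          exact Icc_subset_Icc_left hs
        have hcont : ContinuousOn (fun t => ∫ w in s..t, γ w) (uIcc s 1) := by
          refine intervalIntegral.continuousOn_primitive_interval ?_
          rw [uIcc_of_le hst]
          exact (intervalIntegrable_iff_integrableOn_Icc_of_le hst).1 hsub
        rw [uIcc_of_le hst] at hcont
        have hlim : Tendsto (fun t => ∫ w in s..t, γ w) (𝓝[Ico s 1] 1) (𝓝 (∫ w in s..1, γ w)) :=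
          ((hcont 1 ⟨hst, le_rfl⟩).mono Ico_subset_Icc_self).tendsto
        have : (𝓝[Ico s 1] (1 : ℝ)).NeBot := by
          rw [← mem_closure_iff_nhdsWithin_neBot, closure_Ico hs1.ne]
          exact ⟨hst, le_rfl⟩
        refine le_of_tendsto hlim ?_
        filter_upwards [self_mem_nhdsWithin] with t' ht'
        have h1 := hγh s t' hs ht'.1 (by rw [hv1]; exact ht'.2.le) ht'.2
        have h2 : (Q.hpS W g).h t' ≤ (Q.hpS W g).h 1 :=
          hadm.2.1 ⟨(hu.trans hs).trans ht'.1, ht'.2.le⟩ ⟨zero_le_one, le_rfl⟩ ht'.2.le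
        have h3 : (Q.hpS W g).h = Q.hE g := rfl
        rw [h3] at h1 h2
        linarith

/-- **(A1), line 3, `p = 2`, at PATH level**, for the SOLID norm `nLcU` (= `limsup` along the net of chains of `sup_{|κ| ≤ |k|}` of the step-level `L²` norms, `bdLcU` of `Bud/L8Defs.lean`; theory `Bud/PinUq.lean`): Minkowski, variance bound, boundedness.
PROOF: on a chain `ps`: `∫ k_v (L - E L)_{idx v} dv = ∑_j κ_j (L_j - E L_j)`, `κ_j = ∫_{cut j} k`; `exit_pin` (`p = 2`, `φ = id`, constant `1 + 4/3 ≤ 3`), `κ_j²/gap_j ≤ ∫_{cut j} k²`,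
`exit_pin_trace`, `v C ≼ H` (`E W_j ≤ E tr H_j²/mass`); then `limsup` along the net: UNIFORM convergence in the cut of `obTrH2 → ckH2` (bridge C1), no DCT along a net.
TEX[LL:found:estimates] (A1) line 3.      ASK to the clock API (42/150): this is the path form of the pinned inequality, also behind `exit_clk_Vx`. -/
theorem bud_hp_inst_nr (hS : BdStd X W Fam K) (hW : W.IsSk) {F : BdFr} (hF : Fam F) {g : ℝ} (hg : g ∈ Icc (X.glo 0) (X.ghi 0))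
    (Q : BdQ F X) :
    (∀ k1 k2, HpK k1 → HpK k2 → (Q.hpS W g).nr (fun v => k1 v + k2 v) ≤ (Q.hpS W g).nr k1 + (Q.hpS W g).nr k2) ∧
    (∀ (v0 : ℝ) (k : ℝ → ℝ), 0 < v0 → HpK k → (∀ v, v < v0 → k v = 0) →
      (Q.hpS W g).nr k ≤ Real.sqrt (3 * ∫ v in (0 : ℝ)..1, k v ^ 2 * ((Q.hpS W g).T v / v))) ∧
    ∀ k, HpK k → (Q.hpS W g).nr k ≤ 3 * ∫ v in (0 : ℝ)..1, |k v| := by
  obtain ⟨hb, hh⟩ := hS.clk F hF g hg Q
  have hm := bud_hp_aux_m_pos (hS.ok F hF)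
  have hadm : CkAdm 1 (bmExt (Q.bq g)) (bmExt (Q.hq g)) := bud_pp_adm hb hh
  have e : ∀ k, (Q.hpS W g).nr k = ppU F.m 1 (bmExt (Q.bq g)) (bmExt (Q.hq g)) k := fun k => rfl
  refine ⟨fun k1 k2 h1 h2 => ?_, fun v0 k hv0 hk hk0 => ?_, fun k hk => ?_⟩
  · obtain ⟨m1, C1, hC1⟩ := h1
    obtain ⟨m2, C2, hC2⟩ := h2
    rw [e, e, e]
    exact bud_uq_tri hm one_pos hadm m1 m2 hC1 hC2
  · obtain ⟨m1, C1, hC1⟩ := hk
    rw [e]
    refine (bud_uq_var hm one_pos hadm m1 hC1 hv0 hk0).trans (Real.sqrt_le_sqrt ?_)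
    have hI : 0 ≤ ∫ v in (0 : ℝ)..1, k v ^ 2 * (ckH2 F.m 1 (bmExt (Q.bq g)) (bmExt (Q.hq g)) (ghPosA v) / v) :=
      intervalIntegral.integral_nonneg zero_le_one fun v hv =>
        mul_nonneg (sq_nonneg _) (div_nonneg ((bud_hp_inst_det (W := W) hS hF hg Q).2.2.2.2.1 v hv) hv.1)
    have e2 : ∫ v in (0 : ℝ)..1, k v ^ 2 * ((Q.hpS W g).T v / v)
        = ∫ v in (0 : ℝ)..1, k v ^ 2 * (ckH2 F.m 1 (bmExt (Q.bq g)) (bmExt (Q.hq g)) (ghPosA v) / v) := rfl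
    rw [e2]
    linarith
  · obtain ⟨m1, C1, hC1⟩ := hk
    rw [e]
    exact bud_uq_bdd hm one_pos hadm m1 hC1

/-- **INSTANCE of `HpS.Ok`** (glue) -/
theorem bud_hp_inst (hS : BdStd X W Fam K) (hW : W.IsSk) {F : BdFr} (hF : Fam F) {g : ℝ} (hg : g ∈ Icc (X.glo 0) (X.ghi 0))
    (Q : BdQ F X) : (Q.hpS W g).Ok 3 := by
  obtain ⟨h1, h2, h3, h4, h5, h6, h7⟩ := bud_hp_inst_det hS hF hg Q
  obtain ⟨h8, h9, h10⟩ := bud_hp_inst_nr hS hW hF hg Q
  exact ⟨h1, by norm_num, h2, h3, h4, h5, h6, h7, h8, h9, h10⟩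

/-- dictionary: `S` of the abstract record is `Sq` on `(0,1)` -/
theorem bud_hp_S_eq (hS : BdStd X W Fam K) (hW : W.IsSk) {F : BdFr} (hF : Fam F) {g : ℝ} (hg : g ∈ Icc (X.glo 0) (X.ghi 0))
    (Q : BdQ F X) {v : ℝ} (hv : v ∈ Ioo (0 : ℝ) 1) : (Q.hpS W g).S v = Q.Sq W g v := by
  obtain ⟨hb, hh⟩ := hS.clk F hF g hg Q
  have hm : 0 < F.m := by
    have h1 := (hS.ok F hF).m_lo
    have h2 : (2 : ℝ) ≤ F.N := by exact_mod_cast (hS.ok F hF).N2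
    have h3 : (0 : ℝ) < F.m := by linarith
    exact_mod_cast h3
  exact (hW.S F.m hm (Q.bq g) (Q.hq g) hb hh v hv).symm

theorem bud_hp_aux_kbar_nn {F : BdFr} (hF : F.Ok X) (r : ℝ) : 0 ≤ F.kbar X r := by
  unfold BdFr.kbar BdFr.k CmCall.k
  have h1 : 0 ≤ (F.call X).N ^ (F.call X).dl * (F.call X).us ^ 2 /
      (r + (F.call X).N ^ (2 * (F.call X).dl) * (F.call X).us) ^ 2 := by
    have : 0 ≤ (F.call X).N := by unfold CmCall.N; positivity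
    have := Real.rpow_nonneg this (F.call X).dl
    positivity
  have h2 : (0 : ℝ) ≤ if r ∈ Icc (F.Ilo * F.u) (F.Ihi * F.u) then F.kap else 0 := by
    split_ifs
    · exact hF.kap0
    · exact le_rfl
  linarith

theorem bud_hp_aux_r_mono {F : BdFr} (hF : F.Ok X) (Q : BdQ F X) : MonotoneOn Q.r (Icc 0 1) := by
  intro v1 h1 v2 h2 h12
  by_contra hc
  rw [not_le] at hc
  have hlo := Q.lo (Q.r v2) (Q.r v1) (Q.r_mem v2 h2).1 hc.le (Q.r_mem v1 h1).2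
  have h0 : 0 ≤ ∫ t in (Q.r v2)..(Q.r v1), F.kbar X t :=
    intervalIntegral.integral_nonneg hc.le fun t _ => bud_hp_aux_kbar_nn hF t
  rw [Q.al_r v1 h1, Q.al_r v2 h2] at hlo
  have he : v1 = v2 := le_antisymm h12 (by linarith)
  rw [he] at hc
  exact lt_irrefl _ hc

/-- the removal only adds field: `v ↦ C(r(v)) r(v)` is nondecreasing (`(rC)' = (1-p)C ≥ 0`), so every slope of the bare field clock is a slope of the changed one -/
theorem bud_hp_hE_slope (hS : BdStd X W Fam K) {F : BdFr} (hF : Fam F) (g : ℝ) (Q : BdQ F X) {s t : ℝ} (hs : 0 < s) (hst : s ≤ t)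
    (ht : t < 1) : F.h g t - F.h g s ≤ Q.hE g t - Q.hE g s := by
  have hX := hS.fix
  have hFo := hS.ok F hF
  have hd := bud_hp_aux_dPE_pos hX hFo
  have hC0 := bud_hp_aux_C0_pos hX hFo
  have hsI : s ∈ Icc (0 : ℝ) 1 := ⟨hs.le, (hst.trans_lt ht).le⟩
  have htI : t ∈ Icc (0 : ℝ) 1 := ⟨(hs.trans_le hst).le, ht.le⟩
  rw [bud_hp_aux_hE_eq Q g (hs.trans_le hst) ht, bud_hp_aux_hE_eq Q g hs (hst.trans_lt ht)]
  have hr : Q.r s ≤ Q.r t := bud_hp_aux_r_mono hFo Q hsI htI hst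
  have h3 := cm_re_mono (F.call X) hd hC0.le (mem_Ici.2 (Q.r_mem s hsI).1) (mem_Ici.2 (Q.r_mem t htI).1) hr
  have h4 : Q.r s * F.C X (Q.r s) ≤ Q.r t * F.C X (Q.r t) := h3
  unfold BdQ.hq
  linarith

/-! ## 2. The four estimates of `∫ E W` -/

/-- **first option on the whole plateau**: `[ptop,1]` is covered by `⌈log₂(1/ptop)⌉` dyads, `C` is antitone: `∫_{ptop}^1 E W ≲_∘ x⁶/C(1)` ("the auxiliary-removal bound at `w ≍ 1`", l.1728) -/
theorem bud_hp_tr_pl (hS : BdStd X W Fam K) (hH : BdHpStd X Fam C dm) (hW : W.IsSk) (hTr : BudHpTr X W Fam) :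
    ∀ ε : ℝ, 0 < ε → ∃ A : ℝ, ∃ N0 : ℕ, ∀ i : BdI X, i.OkS W Fam → N0 ≤ i.F.N →
      i.Q.hpI i.g C.ptop 1 ≤ A * ((i.F.N : ℝ) ^ ε * (i.F.x ^ 6 / i.F.C X 1)) := by
  have hX := hS.fix
  intro ε hε
  have hcl := (bd_sub_iff (N := fun i : BdI X × ℝ => i.1.F.N) (P := fun i => i.1.OkS W Fam ∧ X.cH * i.1.F.u ≤ i.2 ∧ i.2 ≤ 1)
    (F := fun i => i.1.Q.hpI i.1.g i.2 (min (2 * i.2) 1)) (G := fun i => i.1.F.x ^ 6 / i.1.F.C X i.2) ?_ ?_).1 hTr ε hε
  rotate_left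
  · rintro ⟨i, w⟩ ⟨hi, hw, hw1⟩
    have hFo := hS.ok i.F hi.1.1
    have hw0 : 0 < w := lt_of_lt_of_le (mul_pos hX.cH_pos (BdFr.bds_u_pos hFo hX)) hw
    exact HpS.hp_I_nonneg (bud_hp_inst hS hW hi.1.1 hi.1.2.1 i.Q) hw0 (le_min (by linarith) hw1) (min_le_right _ _)
  · rintro ⟨i, w⟩ ⟨hi, hw, hw1⟩
    have hFo := hS.ok i.F hi.1.1
    have := bud_hp_aux_C_pos hX hFo w
    have := BdFr.bds_x_pos hFo
    positivity
  obtain ⟨A0, N0, hA⟩ := hcl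
  obtain ⟨n, hn⟩ := pow_unbounded_of_one_lt (1 / C.ptop) one_lt_two
  refine ⟨n * max A0 0, max N0 C.N0, fun i hi hN => ?_⟩
  have hF := hi.1.1
  have hFo := hS.ok i.F hF
  have hu := BdFr.bds_u_pos hFo hX
  have hx := BdFr.bds_x_pos hFo
  have hcu : 0 < X.cH * i.F.u := mul_pos hX.cH_pos hu
  have hOk := bud_hp_inst hS hW hF hi.1.2.1 i.Q
  have hC1 := bud_hp_aux_C_pos hX hFo 1
  obtain ⟨B, hB⟩ : ∃ B, B = max A0 0 * ((i.F.N : ℝ) ^ ε * (i.F.x ^ 6 / i.F.C X 1)) := ⟨_, rfl⟩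
  have hN0 : (0 : ℝ) ≤ (i.F.N : ℝ) ^ ε := Real.rpow_nonneg (Nat.cast_nonneg _) _
  have hB0 : 0 ≤ B := by
    rw [hB]
    have := le_max_right A0 0
    positivity
  have hstep : ∀ w, X.cH * i.F.u ≤ w → w ≤ 1 → i.Q.hpI i.g w (min (2 * w) 1) ≤ B := by
    intro w hw hw1
    have hw0 : 0 < w := hcu.trans_le hw
    have h1 := hA ⟨i, w⟩ ⟨hi, hw, hw1⟩ ((le_max_left _ _).trans hN)
    have h2 : i.F.C X 1 ≤ i.F.C X w := cm_e_anti (i.F.call X) (bud_hp_aux_dPE_pos hX hFo) (bud_hp_aux_C0_pos hX hFo).le hw1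
    have h3 : i.F.x ^ 6 / i.F.C X w ≤ i.F.x ^ 6 / i.F.C X 1 := div_le_div_of_nonneg_left (by positivity) hC1 h2
    have h4 : 0 ≤ i.F.x ^ 6 / i.F.C X w := by
      have := bud_hp_aux_C_pos hX hFo w
      positivity
    calc i.Q.hpI i.g w (min (2 * w) 1) ≤ A0 * ((i.F.N : ℝ) ^ ε * (i.F.x ^ 6 / i.F.C X w)) := h1
      _ ≤ max A0 0 * ((i.F.N : ℝ) ^ ε * (i.F.x ^ 6 / i.F.C X w)) := mul_le_mul_of_nonneg_right (le_max_left _ _) (by positivity)
      _ ≤ B := by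
          rw [hB]
          exact mul_le_mul_of_nonneg_left (mul_le_mul_of_nonneg_left h3 hN0) (le_max_right _ _)
  have hind : ∀ k : ℕ, ∀ w, X.cH * i.F.u ≤ w → w ≤ 1 → 1 ≤ 2 ^ k * w → i.Q.hpI i.g w 1 ≤ k * B := by
    intro k
    induction k with
    | zero =>
      intro w _ hw1 h2
      have : w = 1 := le_antisymm hw1 (by simpa using h2)
      rw [this]
      unfold BdQ.hpI
      simp
    | succ k ih =>
      intro w hw hw1 h2
      have hw0 : 0 < w := hcu.trans_le hw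
      push_cast
      by_cases h : 1 ≤ 2 * w
      · have := hstep w hw hw1
        rw [min_eq_right h] at this
        have h5 : 0 ≤ (k : ℝ) * B := by positivity
        linarith
      · rw [not_le] at h
        have h6 := hstep w hw hw1
        rw [min_eq_left h.le] at h6
        have h7 := ih (2 * w) (by linarith) h.le (by rw [pow_succ] at h2; linarith)
        have h8 : i.Q.hpI i.g w (2 * w) + i.Q.hpI i.g (2 * w) 1 = i.Q.hpI i.g w 1 :=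
          HpS.hp_I_add hOk hw0 (by linarith) h.le le_rfl
        linarith
  have hp0 := hH.p0
  have h9 := hind n C.ptop (by have := hH.cHu i.F hF ((le_max_right _ _).trans hN); linarith) hH.p1.le (by
    rw [div_lt_iff₀ hp0] at hn
    exact hn.le)
  rw [hB] at h9
  linarith

/-- the taper: `r C(r)` is nondecreasing and `C = C_0` on `[0, c_I u]`, so `C(w) w ≥ min(c_H,c_I) C_0 u` for `c_H u ≤ w ≤ 1`; `C` is antitone (`bud_prof_of_frame`, `bfv_phi_mono`, `bfv_C_anti`) -/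
theorem bud_hp_taper (hS : BdStd X W Fam K) {F : BdFr} (hF : Fam F) :
    (∀ w, X.cH * F.u ≤ w → w ≤ 1 → min X.cH X.cI * (F.C0 * F.u) ≤ F.C X w * w) ∧
      ∀ r1 r2 : ℝ, 0 < r1 → r1 ≤ r2 → r2 ≤ 1 → F.C X r2 ≤ F.C X r1 := by
  have hX := hS.fix
  have hFo := hS.ok F hF
  have hd := bud_hp_aux_dPE_pos hX hFo
  have hC0 := bud_hp_aux_C0_pos hX hFo
  have hu := BdFr.bds_u_pos hFo hX
  refine ⟨fun w hw _ => ?_, fun r1 r2 _ h12 _ => cm_e_anti (F.call X) hd hC0.le h12⟩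
  have hc0 : 0 < min X.cH X.cI := lt_min hX.cH_pos hX.cI_pos
  have hr0 : 0 ≤ min X.cH X.cI * F.u := by positivity
  have h1 : min X.cH X.cI * F.u ≤ w := (mul_le_mul_of_nonneg_right (min_le_left _ _) hu.le).trans hw
  have h2 : F.C X (min X.cH X.cI * F.u) = F.C0 :=
    hS.Cconst F hF _ ⟨hr0, mul_le_mul_of_nonneg_right (min_le_right _ _) hu.le⟩
  have h3 := cm_re_mono (F.call X) hd hC0.le (mem_Ici.2 hr0) (mem_Ici.2 (hr0.trans h1)) h1
  have h4 : min X.cH X.cI * F.u * F.C X (min X.cH X.cI * F.u) ≤ w * F.C X w := h3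
  rw [h2] at h4
  linarith

/-- the integrand of `𝓝²` is integrable and nonnegative on `(0,1)` -/
theorem bud_hp_aux_Nn2_int (hS : BdStd X W Fam K) {F : BdFr} (hF : Fam F) {g : ℝ} (hg : g ∈ Icc (X.glo 0) (X.ghi 0)) (Q : BdQ F X) :
    IntegrableOn (fun v => (v ^ 2 + F.U X ^ 2) * (Q.Dq2 W g v + (Q.Sq W g v - F.q v) ^ 2)) (Ioo 0 1) ∧
      IntegrableOn (fun v => (Q.Sq W g v - F.q v) ^ 2) (Ioo 0 1) ∧
      ∀ v ∈ Ioo (0 : ℝ) 1, 0 ≤ Q.Dq2 W g v := by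
  have h1 := hS.clk F hF g hg Q
  rw [← hS.a1 F.m] at h1
  have hq : ∀ v ∈ Ioo (0 : ℝ) 1, 0 ≤ F.q v ∧ F.q v ≤ 1 := fun v hv => hS.q_mem F hF v (Ioo_subset_Icc_self hv)
  have mB := (aemeasurable_restrict_of_monotoneOn (μ := volume) measurableSet_Ioo ((W.ps F.m).B_mono _ _ h1.1 h1.2)).aestronglyMeasurable
  have mS := (aemeasurable_restrict_of_monotoneOn (μ := volume) measurableSet_Ioo ((W.ps F.m).S_mono _ _ h1.1 h1.2)).aestronglyMeasurable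
  have mq := (aemeasurable_restrict_of_monotoneOn (μ := volume) measurableSet_Ioo ((hS.q_mono F hF).mono Ioo_subset_Icc_self)).aestronglyMeasurable
  rw [hS.a1] at mB mS
  have hb : ∀ v ∈ Ioo (0 : ℝ) 1, 0 ≤ Q.Dq2 W g v ∧ Q.Dq2 W g v ≤ 1 ∧ (Q.Sq W g v - F.q v) ^ 2 ≤ 1 := by
    intro v hv
    have hv' : v ∈ Ioo 0 (W.ps F.m).a := by rw [hS.a1]; exact hv
    have a1 := (W.ps F.m).S_sq_le _ _ h1.1 h1.2 v hv'
    have a2 := (W.ps F.m).B_le _ _ h1.1 h1.2 v hv'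
    have a3 := (W.ps F.m).S_nonneg _ _ h1.1 h1.2 v hv'
    have a4 := hq v hv
    have a5 : (W.ps F.m).S (Q.bq g) (Q.hq g) v ≤ 1 := by nlinarith
    unfold BdQ.Dq2 BdQ.Bq BdQ.Sq
    refine ⟨by linarith, by nlinarith, ?_⟩
    have a6 : |(W.ps F.m).S (Q.bq g) (Q.hq g) v - F.q v| ≤ 1 := by
      rw [abs_le]
      constructor <;> linarith [a4.1, a4.2]
    calc ((W.ps F.m).S (Q.bq g) (Q.hq g) v - F.q v) ^ 2 = |(W.ps F.m).S (Q.bq g) (Q.hq g) v - F.q v| ^ 2 := (sq_abs _).symm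
      _ ≤ 1 := pow_le_one₀ (abs_nonneg _) a6
  have mSq : AEStronglyMeasurable (fun v => (Q.Sq W g v - F.q v) ^ 2) (volume.restrict (Ioo 0 1)) := (mS.sub mq).pow 2
  have mD : AEStronglyMeasurable (fun v => Q.Dq2 W g v) (volume.restrict (Ioo 0 1)) := mB.sub (mS.pow 2)
  refine ⟨?_, ?_, fun v hv => (hb v hv).1⟩
  · refine Integrable.of_bound (μ := volume.restrict (Ioo (0 : ℝ) 1)) ?_ ((1 + F.U X ^ 2) * 2) ?_
    · exact ((continuous_id.pow 2).add continuous_const).aestronglyMeasurable.mul (mD.add mSq)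
    · refine (ae_restrict_iff' measurableSet_Ioo).2 (Eventually.of_forall fun v hv => ?_)
      obtain ⟨b1, b2, b3⟩ := hb v hv
      have b4 : 0 ≤ (Q.Sq W g v - F.q v) ^ 2 := sq_nonneg _
      have b5 : v ^ 2 ≤ 1 := pow_le_one₀ hv.1.le hv.2.le
      have b6 : 0 ≤ F.U X ^ 2 := sq_nonneg _
      rw [Real.norm_eq_abs, abs_of_nonneg (by positivity)]
      exact mul_le_mul (by linarith) (by linarith) (by linarith) (by positivity)
  · refine Integrable.of_bound (μ := volume.restrict (Ioo (0 : ℝ) 1)) mSq 1 ?_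
    refine (ae_restrict_iff' measurableSet_Ioo).2 (Eventually.of_forall fun v hv => ?_)
    rw [Real.norm_eq_abs, abs_of_nonneg (sq_nonneg _)]
    exact (hb v hv).2.2

/-- (helper103) balance of the two options without fractional powers: `I ≤ P`, `I ≤ R` give `I³ ≤ P² R` -/
theorem bud_hp_act_arith {I n x u Lm lam Cw w c ca C1 CS L3 l6 : ℝ} (hI : 0 ≤ I) (hn : 1 ≤ n) (hx : 0 < x) (hu : 0 < u) (hLm : 0 < Lm)
    (hlam : 0 < lam) (hCw : 0 < Cw) (hw : 0 < w) (hc : 0 < c) (hca : 0 < ca) (hC1 : 0 ≤ C1) (hCS : 0 ≤ CS) (hL3 : 0 < L3) (hl6 : 0 < l6)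
    (eL : L3 ^ 3 * Lm = 1) (el : l6 ^ 6 * lam = 1)
    (h1 : I ≤ C1 * (n * (x ^ 6 / Cw))) (h2 : I ≤ 4 * CS * x ^ 6 / (ca * lam * w ^ 2)) (h3 : c * (u ^ 2 * Lm * u) ≤ Cw * w) :
    I ≤ (1 + C1 ^ 2 * (4 * CS / ca) / c ^ 2) * (n * (u ^ 2 * (x / u) ^ 3 * L3 * l6) ^ 2) := by
  obtain ⟨D, hD⟩ : ∃ D, D = C1 ^ 2 * (4 * CS / ca) / c ^ 2 := ⟨_, rfl⟩
  have hD0 : 0 ≤ D := by rw [hD]; positivity
  rw [← hD]
  have hB0 : 0 ≤ (1 + D) * (n * (u ^ 2 * (x / u) ^ 3 * L3 * l6) ^ 2) := by positivity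
  refine le_of_pow_le_pow_left₀ (by norm_num : (3 : ℕ) ≠ 0) hB0 ?_
  have hP0 : 0 ≤ C1 * (n * (x ^ 6 / Cw)) := by positivity
  have a1 : I ^ 3 ≤ (C1 * (n * (x ^ 6 / Cw))) ^ 2 * (4 * CS * x ^ 6 / (ca * lam * w ^ 2)) := by
    have : I ^ 3 = I ^ 2 * I := by ring
    rw [this]
    exact mul_le_mul (pow_le_pow_left₀ hI h1 2) h2 hI (by positivity)
  have a2 : (C1 * (n * (x ^ 6 / Cw))) ^ 2 * (4 * CS * x ^ 6 / (ca * lam * w ^ 2))
      = C1 ^ 2 * (4 * CS / ca) * (n ^ 2 * x ^ 18 / lam) / (Cw * w) ^ 2 := by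
    field_simp
  have a3 : (c * (u ^ 2 * Lm * u)) ^ 2 ≤ (Cw * w) ^ 2 := pow_le_pow_left₀ (by positivity) h3 2
  have a4 : C1 ^ 2 * (4 * CS / ca) * (n ^ 2 * x ^ 18 / lam) / (Cw * w) ^ 2
      ≤ C1 ^ 2 * (4 * CS / ca) * (n ^ 2 * x ^ 18 / lam) / (c * (u ^ 2 * Lm * u)) ^ 2 :=
    div_le_div_of_nonneg_left (by positivity) (by positivity) a3
  have eL' : L3 ^ 6 = 1 / Lm ^ 2 := by
    have : L3 ^ 3 = 1 / Lm := by field_simp; linarith
    calc L3 ^ 6 = (L3 ^ 3) ^ 2 := by ring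
      _ = _ := by rw [this]; ring
  have el' : l6 ^ 6 = 1 / lam := by field_simp; linarith
  have a5 : C1 ^ 2 * (4 * CS / ca) * (n ^ 2 * x ^ 18 / lam) / (c * (u ^ 2 * Lm * u)) ^ 2
      = D * n ^ 2 * ((u ^ 2 * (x / u) ^ 3 * L3 * l6) ^ 2) ^ 3 := by
    have : ((u ^ 2 * (x / u) ^ 3 * L3 * l6) ^ 2) ^ 3 = u ^ 12 * (x / u) ^ 18 * L3 ^ 6 * l6 ^ 6 := by ring
    rw [this, eL', el', hD]
    field_simp
  have hBB : 0 ≤ ((u ^ 2 * (x / u) ^ 3 * L3 * l6) ^ 2) ^ 3 := by positivity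
  have a6 : D * n ^ 2 ≤ (1 + D) ^ 3 * n ^ 3 := by
    have b1 : D ≤ (1 + D) ^ 3 := by nlinarith [sq_nonneg D, mul_nonneg hD0 hD0, mul_nonneg hD0 (mul_nonneg hD0 hD0)]
    have b2 : n ^ 2 ≤ n ^ 3 := pow_le_pow_right₀ hn (by norm_num)
    exact mul_le_mul b1 b2 (by positivity) (by positivity)
  calc I ^ 3 ≤ D * n ^ 2 * ((u ^ 2 * (x / u) ^ 3 * L3 * l6) ^ 2) ^ 3 := by rw [← a5]; exact (a1.trans_eq a2).trans a4
    _ ≤ (1 + D) ^ 3 * n ^ 3 * ((u ^ 2 * (x / u) ^ 3 * L3 * l6) ^ 2) ^ 3 := mul_le_mul_of_nonneg_right a6 hBB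
    _ = ((1 + D) * (n * (u ^ 2 * (x / u) ^ 3 * L3 * l6) ^ 2)) ^ 3 := by ring

/-- **active part**: both options and their balance, `∫_a^b E W ≲_∘ (u² X³ Λ^{-1/3} λ^{-1/6})²` for `[a,b] ⊆ [w, 2w] ∩ [c_H u, ptop]`.
First option `BudHpTr`; second option `hp_I_slope` with `σ = ca λ w²`, `osc S ≤ 2 CS w`, `m ≥ x⁻⁶/2`; `min(A,B) ≤ A^{2/3} B^{1/3}`, `C(w) w ≥ min(c_H,c_I) C_0 u` (`rC(r)` nondecreasing).
TEX[LL:bud:high-primitive] l.1683-1699 -/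
theorem bud_hp_act (hS : BdStd X W Fam K) (hH : BdHpStd X Fam C dm) (hW : W.IsSk) {CS : ℝ} (hSv : BudHpSv X W Fam CS)
    (hTr : BudHpTr X W Fam) : ∀ ε : ℝ, 0 < ε → ∃ A : ℝ, ∃ N0 : ℕ, ∀ i : BdI X, i.OkS W Fam → N0 ≤ i.F.N →
      ∀ w a b : ℝ, X.cH * i.F.u ≤ w → w ≤ a → a ≤ b → b ≤ min (2 * w) C.ptop →
        i.Q.hpI i.g a b ≤ A * ((i.F.N : ℝ) ^ ε * i.F.hpBa ^ 2) := by
  intro ε hε
  have hX := hS.fix
  have hcH := hX.cH_pos
  have hTr' := (bd_sub_iff (N := fun i : BdI X × ℝ => i.1.F.N) (P := fun i => i.1.OkS W Fam ∧ X.cH * i.1.F.u ≤ i.2 ∧ i.2 ≤ 1)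
    (F := fun i => i.1.Q.hpI i.1.g i.2 (min (2 * i.2) 1)) (G := fun i => i.1.F.x ^ 6 / i.1.F.C X i.2) (fun i hi => by
      obtain ⟨⟨⟨hF, hg, -⟩, -⟩, h1, h2⟩ := hi
      have hu := BdFr.bds_u_pos (hS.ok _ hF) hX
      have hw : 0 < i.2 := lt_of_lt_of_le (by positivity) h1
      exact HpS.hp_I_nonneg (bud_hp_inst hS hW hF hg i.1.Q) hw (le_min (by linarith) h2) (min_le_right _ _)) (fun i hi => by
      obtain ⟨⟨⟨hF, hg, -⟩, -⟩, h1, h2⟩ := hi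
      have := bud_hp_aux_C_pos hX (hS.ok _ hF) i.2
      positivity)).1 hTr ε hε
  obtain ⟨C1, N1, h1⟩ := hTr'
  obtain ⟨N2, h2⟩ := bd_ev_iff.1 hSv
  refine ⟨1 + (max C1 0) ^ 2 * (4 * (max CS 0) / C.ca) / (min X.cH X.cI) ^ 2, max (max N1 N2) C.N0, ?_⟩
  intro i hi hN w a b hw hwa hab hb
  obtain ⟨⟨hF, hg, hopt⟩, hst⟩ := hi
  have hi' : i.OkS W Fam := ⟨⟨hF, hg, hopt⟩, hst⟩
  have hFo := hS.ok _ hF
  have hu := BdFr.bds_u_pos hFo hX
  have hl := BdFr.bds_lam_pos hFo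
  have hN1 : N1 ≤ i.F.N := ((le_max_left _ _).trans (le_max_left _ _)).trans hN
  have hN2 : N2 ≤ i.F.N := ((le_max_right _ _).trans (le_max_left _ _)).trans hN
  have hN3 : C.N0 ≤ i.F.N := (le_max_right _ _).trans hN
  have hw0 : 0 < w := lt_of_lt_of_le (by positivity) hw
  have ha0 : 0 < a := lt_of_lt_of_le hw0 hwa
  have hb2 : b ≤ 2 * w := hb.trans (min_le_left _ _)
  have hbp : b ≤ C.ptop := hb.trans (min_le_right _ _)
  have hb1 : b < 1 := lt_of_le_of_lt hbp hH.p1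
  have hw1 : w ≤ 1 := (hwa.trans hab).trans hb1.le
  have hOk := bud_hp_inst hS hW hF hg i.Q
  have hNr : (2 : ℝ) ≤ i.F.N := by exact_mod_cast hFo.N2
  have hx0 : 0 < i.F.x := Real.rpow_pos_of_pos (by linarith) _
  have hCw := bud_hp_aux_C_pos hX hFo w
  have hI0 : 0 ≤ i.Q.hpI i.g a b := HpS.hp_I_nonneg hOk ha0 hab hb1.le
  -- first option
  have o1 : i.Q.hpI i.g a b ≤ max C1 0 * ((i.F.N : ℝ) ^ ε * (i.F.x ^ 6 / i.F.C X w)) := by
    have t1 := h1 (i, w) ⟨hi', hw, hw1⟩ hN1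
    have t2 : i.Q.hpI i.g a b ≤ i.Q.hpI i.g w (min (2 * w) 1) :=
      HpS.hp_I_mono hOk hw0 hwa hab (le_min hb2 hb1.le) (min_le_right _ _)
    refine t2.trans (t1.trans (mul_le_mul_of_nonneg_right (le_max_left _ _) ?_))
    positivity
  -- second option
  have o2 : i.Q.hpI i.g a b ≤ 4 * max CS 0 * i.F.x ^ 6 / (C.ca * i.F.lam * w ^ 2) := by
    have hσ : 0 < C.ca * i.F.lam * w ^ 2 := by have := hH.ca_pos; positivity
    have t1 := HpS.hp_I_slope hOk ha0 hab hb1.le hσ (fun s t hs hst' ht _ => by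
      have hs0 : 0 < s := lt_of_lt_of_le ha0 hs
      have ht1 : t < 1 := lt_of_le_of_lt ht hb1
      have q1 := bud_hp_hE_slope hS hF i.g i.Q hs0 hst' ht1
      have hxm : i.F.xm ≤ s := by
        have := hH.xm_le _ hF hN3
        have h5 : min 1 X.cH * i.F.u ≤ X.cH * i.F.u := mul_le_mul_of_nonneg_right (min_le_right _ _) hu.le
        linarith
      have q2 := hH.act _ hF hN3 i.g hg s t hxm hst' (ht.trans hbp)
      have q3 : C.ca * i.F.lam * w ^ 2 * (t - s) ≤ C.ca * i.F.lam * s ^ 2 * (t - s) := by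
        refine mul_le_mul_of_nonneg_right ?_ (by linarith)
        refine mul_le_mul_of_nonneg_left (pow_le_pow_left₀ hw0.le (hwa.trans hs) 2) ?_
        have := hH.ca_pos
        positivity
      show C.ca * i.F.lam * w ^ 2 * (t - s) ≤ i.Q.hE i.g t - i.Q.hE i.g s
      linarith)
    have hSb : (i.Q.hpS W i.g).S b ≤ max CS 0 * (2 * w) := by
      rw [bud_hp_S_eq hS hW hF hg i.Q ⟨lt_of_lt_of_le ha0 hab, hb1⟩]
      have t3 := h2 i hi' hN2 b ⟨(hw.trans hwa).trans hab, hb1⟩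
      refine t3.trans ?_
      calc CS * b ≤ max CS 0 * b := mul_le_mul_of_nonneg_right (le_max_left _ _) (ha0.le.trans hab)
        _ ≤ _ := mul_le_mul_of_nonneg_left hb2 (le_max_right _ _)
    have hSa : 0 ≤ (i.Q.hpS W i.g).S a := hOk.S_nn a ⟨ha0.le, hab.trans hb1.le⟩
    have hm : (i.F.N : ℝ) / 2 ≤ (i.Q.hpS W i.g).m := hFo.m_lo
    have hx6 := bud_hp_aux_x6 hFo
    have hden : (i.F.N : ℝ) / 2 * (C.ca * i.F.lam * w ^ 2) * w ≤ (i.Q.hpS W i.g).m * (C.ca * i.F.lam * w ^ 2) * a :=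
      mul_le_mul (mul_le_mul_of_nonneg_right hm hσ.le) hwa hw0.le (mul_nonneg hOk.m_pos.le hσ.le)
    have hnum : (i.Q.hpS W i.g).S b - (i.Q.hpS W i.g).S a ≤ max CS 0 * (2 * w) := by linarith
    have hnum0 : 0 ≤ max CS 0 * (2 * w) := mul_nonneg (le_max_right _ _) (by linarith)
    have t4 : ((i.Q.hpS W i.g).S b - (i.Q.hpS W i.g).S a) / ((i.Q.hpS W i.g).m * (C.ca * i.F.lam * w ^ 2) * a)
        ≤ max CS 0 * (2 * w) / ((i.F.N : ℝ) / 2 * (C.ca * i.F.lam * w ^ 2) * w) :=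
      div_le_div₀ hnum0 hnum (by positivity) hden
    have t5 : max CS 0 * (2 * w) / ((i.F.N : ℝ) / 2 * (C.ca * i.F.lam * w ^ 2) * w)
        = 4 * max CS 0 * i.F.x ^ 6 / (C.ca * i.F.lam * w ^ 2) := by
      have hN0 : (i.F.N : ℝ) ≠ 0 := by linarith
      have : i.F.x ^ 6 = 1 / (i.F.N : ℝ) := by field_simp; linarith
      rw [this]
      have := hH.ca_pos
      field_simp
      ring
    exact (t1.trans t4).trans_eq t5
  have o3 := (bud_hp_taper hS hF).1 w hw hw1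
  have hLam : 0 < i.F.Lam := Real.rpow_pos_of_pos hl _
  have hn1 : 1 ≤ (i.F.N : ℝ) ^ ε := Real.one_le_rpow (by linarith) hε.le
  exact bud_hp_act_arith hI0 hn1 hx0 hu hLam hl hCw hw0 (lt_min hcH hX.cI_pos) hH.ca_pos (le_max_right _ _) (le_max_right _ _)
    (Real.rpow_pos_of_pos hLam _) (Real.rpow_pos_of_pos hl _)
    (by rw [← Real.rpow_natCast, ← Real.rpow_mul hLam.le]
        norm_num
        rw [Real.rpow_neg_one]; exact inv_mul_cancel₀ hLam.ne')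
    (by rw [← Real.rpow_natCast, ← Real.rpow_mul hl.le]
        norm_num
        rw [Real.rpow_neg_one]; exact inv_mul_cancel₀ hl.ne')
    o1 o2 o3

/-- the `L²` distance of `S` to `q` at macroscopic masses is controlled by `𝓝`: `∫_{ptop - d_-}^1 (S - q)² ≤ (2/ptop)² 𝓝²` (weight `v² + U² ≥ (ptop/2)²`, `D² ≥ 0`) -/
theorem bud_hp_N2 (hS : BdStd X W Fam K) (hH : BdHpStd X Fam C dm) (hW : W.IsSk) {F : BdFr} (hF : Fam F) (hN : C.N0 ≤ F.N) {g : ℝ}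
    (hg : g ∈ Icc (X.glo 0) (X.ghi 0)) (Q : BdQ F X) :
    IntervalIntegrable (fun v => ((Q.hpS W g).S v - F.q v) ^ 2) volume (C.ptop - dm F) 1 ∧
      ∫ v in (C.ptop - dm F)..1, ((Q.hpS W g).S v - F.q v) ^ 2 ≤ (2 / C.ptop) ^ 2 * Q.Nn2 W g := by
  obtain ⟨hG, hSq, hD⟩ := bud_hp_aux_Nn2_int hS hF hg Q
  have hp0 := hH.p0
  have hp1 := hH.p1
  have hdm := hH.dm_pos F hF hN
  have hdl := hH.dm_le F hF hN
  have hdl1 : 2 * dm F ≤ C.ptop := hdl.trans (min_le_left _ _)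
  have ha : C.ptop / 2 ≤ C.ptop - dm F := by linarith
  have ha0 : 0 < C.ptop - dm F := by linarith
  have ha1 : C.ptop - dm F ≤ 1 := by linarith
  have hsub : Ioo (C.ptop - dm F) 1 ⊆ Ioo (0 : ℝ) 1 := Ioo_subset_Ioo_left ha0.le
  have heq : EqOn (fun v => ((Q.hpS W g).S v - F.q v) ^ 2) (fun v => (Q.Sq W g v - F.q v) ^ 2) (Ioo (C.ptop - dm F) 1) := by
    intro v hv
    show ((Q.hpS W g).S v - F.q v) ^ 2 = (Q.Sq W g v - F.q v) ^ 2
    rw [bud_hp_S_eq hS hW hF hg Q (hsub hv)]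
  have hint : IntegrableOn (fun v => ((Q.hpS W g).S v - F.q v) ^ 2) (Ioo (C.ptop - dm F) 1) :=
    (hSq.mono_set hsub).congr_fun heq.symm measurableSet_Ioo
  refine ⟨(intervalIntegrable_iff_integrableOn_Ioo_of_le ha1).2 hint, ?_⟩
  rw [intervalIntegral.integral_of_le ha1, integral_Ioc_eq_integral_Ioo]
  unfold BdQ.Nn2
  rw [intervalIntegral.integral_of_le zero_le_one, integral_Ioc_eq_integral_Ioo]
  have hnn : ∀ v ∈ Ioo (0 : ℝ) 1, 0 ≤ (v ^ 2 + F.U X ^ 2) * (Q.Dq2 W g v + (Q.Sq W g v - F.q v) ^ 2) := by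
    intro v hv
    have := hD v hv
    positivity
  calc ∫ v in Ioo (C.ptop - dm F) 1, ((Q.hpS W g).S v - F.q v) ^ 2
      ≤ ∫ v in Ioo (C.ptop - dm F) 1, (2 / C.ptop) ^ 2 * ((v ^ 2 + F.U X ^ 2) * (Q.Dq2 W g v + (Q.Sq W g v - F.q v) ^ 2)) := by
        refine setIntegral_mono_on hint ((hG.mono_set hsub).const_mul _) measurableSet_Ioo fun v hv => ?_
        rw [bud_hp_S_eq hS hW hF hg Q (hsub hv)]
        have h1 := hD v (hsub hv)
        have h2 : C.ptop / 2 ≤ v := ha.trans hv.1.le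
        have h3 : (C.ptop / 2) ^ 2 ≤ v ^ 2 := pow_le_pow_left₀ (by positivity) h2 2
        have h4 : 1 ≤ (2 / C.ptop) ^ 2 * (v ^ 2 + F.U X ^ 2) := by
          have e : (2 / C.ptop) ^ 2 * (C.ptop / 2) ^ 2 = 1 := by field_simp
          have h5 : (2 / C.ptop) ^ 2 * (C.ptop / 2) ^ 2 ≤ (2 / C.ptop) ^ 2 * (v ^ 2 + F.U X ^ 2) :=
            mul_le_mul_of_nonneg_left (by nlinarith [sq_nonneg (F.U X)]) (by positivity)
          linarith
        have h6 : 0 ≤ (Q.Sq W g v - F.q v) ^ 2 := sq_nonneg _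
        calc (Q.Sq W g v - F.q v) ^ 2 ≤ 1 * (Q.Dq2 W g v + (Q.Sq W g v - F.q v) ^ 2) := by linarith
          _ ≤ (2 / C.ptop) ^ 2 * (v ^ 2 + F.U X ^ 2) * (Q.Dq2 W g v + (Q.Sq W g v - F.q v) ^ 2) :=
              mul_le_mul_of_nonneg_right h4 (by linarith)
          _ = _ := by ring
    _ = (2 / C.ptop) ^ 2 * ∫ v in Ioo (C.ptop - dm F) 1, (v ^ 2 + F.U X ^ 2) * (Q.Dq2 W g v + (Q.Sq W g v - F.q v) ^ 2) :=
        integral_const_mul _ _
    _ ≤ (2 / C.ptop) ^ 2 * ∫ v in Ioo (0 : ℝ) 1, (v ^ 2 + F.U X ^ 2) * (Q.Dq2 W g v + (Q.Sq W g v - F.q v) ^ 2) := by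
        refine mul_le_mul_of_nonneg_left ?_ (by positivity)
        exact setIntegral_mono_set hG ((ae_restrict_iff' measurableSet_Ioo).2 (Eventually.of_forall hnn)) hsub.eventuallyLE

/-- (helper103) final arithmetic of the edge bound -/
theorem bud_hp_edge_arith {I T m N x6 O κ A0 U2 Z ce chiE l1 p : ℝ} (hN : 0 < N) (hm : N / 2 ≤ m) (hx : x6 * N = 1) (hU2 : 0 < U2)
    (hce : 0 < ce) (hchi : 0 < chiE) (hl1 : 0 < l1) (hp : 0 < p) (hκ : κ = ce * (chiE * l1 * U2)) (hO : 0 ≤ O)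
    (h1 : m * T ≤ 100 * O / κ) (h2 : O ≤ A0 * (U2 * Z)) (h3 : I ≤ T / p) :
    I ≤ 200 * A0 / (ce * p) * (x6 * Z / (l1 * chiE)) := by
  have hκ0 : 0 < κ := by rw [hκ]; positivity
  have hm0 : 0 < m := by linarith
  have hx6 : x6 = 1 / N := by field_simp; linarith
  have a1 : T ≤ 100 * O / κ / m := by rw [le_div_iff₀ hm0]; linarith
  have a2 : 100 * O / κ ≤ 100 * (A0 * (U2 * Z)) / κ := div_le_div_of_nonneg_right (by linarith) hκ0.le
  have hT : 0 ≤ 100 * (A0 * (U2 * Z)) / κ := div_nonneg (by linarith) hκ0.le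
  · have a3 : 100 * (A0 * (U2 * Z)) / κ / m ≤ 100 * (A0 * (U2 * Z)) / κ / (N / 2) :=
      div_le_div_of_nonneg_left hT (by positivity) hm
    have a4 : T ≤ 100 * (A0 * (U2 * Z)) / κ / (N / 2) :=
      a1.trans ((div_le_div_of_nonneg_right a2 hm0.le).trans a3)
    refine h3.trans ((div_le_div_of_nonneg_right a4 hp.le).trans_eq ?_)
    rw [hκ, hx6]
    field_simp
    ring

/-- **plateau, edge bound**: `∫_{ptop}^1 E W ≲ x⁶ Z/(λ_1 χ_e)`.      `hp_osc` (`N2` from `bud_hp_N2` + (C13), `𝓝 ≤ x² λ^{-s_0} Z ≤ U² Z`; `Eq √d_- ≤ Cq U²`; `√(2 d_+) = √2 U²`), `hp_edge` with `κ = ce χ_e λ_1 U²`.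
TEX[LL:bud:high-primitive] l.1700-1727 -/
theorem bud_hp_edge (hS : BdStd X W Fam K) (hH : BdHpStd X Fam C dm) (hW : W.IsSk) {n : ℕ} (hn : n ≤ X.J + 1) (hZ : BudZ X W Fam n)
    (h13 : BudC13 X W Fam n) :
    ∃ A : ℝ, ∃ N0 : ℕ, ∀ i : BdI X, BdAt X Fam n i.F → i.g ∈ Icc (X.glo n) (X.ghi n) → i.F.GoodG X W i.g → i.Q.IsOpt W i.g →
      N0 ≤ i.F.N → 0 < i.F.chiE →
        i.Q.hpI i.g C.ptop 1 ≤ A * (i.F.x ^ 6 * i.F.Zj X W i.g / (i.F.lam1 X * i.F.chiE)) := by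
  have hX := hS.fix
  obtain ⟨CZ, NZ, hZ'⟩ := hZ
  obtain ⟨N13, h13'⟩ := bd_ev_iff.1 h13
  refine ⟨200 * (Real.sqrt 2 * (2 / C.ptop) + C.Cq + Real.sqrt 2) / (C.ce * C.ptop), max (max NZ N13) C.N0, ?_⟩
  intro i hAt hg hgood hopt hN hchi
  have hF := hAt.1
  have hg0 := bud_env_G_sub hX hn hg
  have hFo := hS.ok _ hF
  have hNZ : NZ ≤ i.F.N := ((le_max_left _ _).trans (le_max_left _ _)).trans hN
  have hN13 : N13 ≤ i.F.N := ((le_max_right _ _).trans (le_max_left _ _)).trans hN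
  have hN3 : C.N0 ≤ i.F.N := (le_max_right _ _).trans hN
  have hl := BdFr.bds_lam_pos hFo
  have hNr : (2 : ℝ) ≤ i.F.N := by exact_mod_cast hFo.N2
  have hx0 : 0 < i.F.x := Real.rpow_pos_of_pos (by linarith) _
  have hx1 : i.F.x < 1 := Real.rpow_lt_one_of_one_lt_of_neg (by linarith) (by norm_num)
  have hl1 : i.F.lam ≤ 1 := hFo.lam_hi.trans (Real.rpow_le_one hx0.le hx1.le hX.pS_pos.le)
  have hU0 : 0 < i.F.U X := mul_pos hx0 (Real.rpow_pos_of_pos hl _)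
  have hOk := bud_hp_inst hS hW hF hg0 i.Q
  have hZ1 : 1 ≤ i.F.Zj X W i.g := (hZ' i.F hAt hNZ).1 i.g hg
  have hNn := (h13' i ⟨hAt, hg, hgood, hopt⟩ hN13).1
  obtain ⟨hqi, hN2⟩ := bud_hp_N2 hS hH hW hF hN3 hg0 i.Q
  have hdm := hH.dm_pos _ hF hN3
  have hdmle := hH.dm_le _ hF hN3
  have hUle := hH.U_le _ hF hN3
  have hp0 := hH.p0
  have hp1 := hH.p1
  have hdmp : dm i.F ≤ C.ptop := by linarith [min_le_left C.ptop (1 - C.ptop)]
  have hdm1 : 2 * dm i.F ≤ 1 - C.ptop := hdmle.trans (min_le_right _ _)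
  have hsd : 0 < Real.sqrt (dm i.F) := Real.sqrt_pos.2 hdm
  have hEq : ∀ v ∈ Icc (C.ptop - dm i.F) C.ptop, |i.F.q v - i.F.q C.ptop| ≤ C.Cq * i.F.U X ^ 2 / Real.sqrt (dm i.F) := by
    intro v hv
    have m1 : i.F.q v ≤ i.F.q C.ptop := hS.q_mono _ hF ⟨by linarith [hv.1], hv.2.trans hp1.le⟩ ⟨hp0.le, hp1.le⟩ hv.2
    rw [abs_sub_comm, abs_of_nonneg (sub_nonneg.2 m1)]
    exact hH.q_var _ hF hN3 v hv
  have hosc := hp_osc (S := (i.Q.hpS W i.g).S) (q := i.F.q) (q0 := i.F.q C.ptop) hdm hdmp hdm1 (pow_pos hU0 4) hp1 hOk.S_mono hOk.S_nn hOk.S_le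
    (hS.q_mem _ hF _ ⟨hp0.le, hp1.le⟩) (hH.q_pl _ hF hN3) hEq hqi hN2
  -- the size of `O`
  have hU2 : i.F.x ^ (2 : ℝ) * i.F.lam ^ (-X.s0) ≤ i.F.U X ^ 2 := by
    have e : i.F.U X ^ 2 = i.F.x ^ (2 : ℝ) * i.F.lam ^ (-X.sS) := by
      unfold BdFr.U
      rw [mul_pow, ← Real.rpow_natCast (i.F.lam ^ _), ← Real.rpow_mul hl.le, ← Real.rpow_natCast i.F.x]
      norm_num
    rw [e]
    refine mul_le_mul_of_nonneg_left ?_ (Real.rpow_nonneg hx0.le _)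
    refine Real.rpow_le_rpow_of_exponent_ge hl hl1 ?_
    have := hX.tau0_pos
    unfold BdFix.s0
    linarith
  have hO : Real.sqrt (2 * ((2 / C.ptop) ^ 2 * i.Q.Nn2 W i.g)) + C.Cq * i.F.U X ^ 2 / Real.sqrt (dm i.F) * Real.sqrt (dm i.F)
      + Real.sqrt (2 * i.F.U X ^ 4) ≤ (Real.sqrt 2 * (2 / C.ptop) + C.Cq + Real.sqrt 2) * (i.F.U X ^ 2 * i.F.Zj X W i.g) := by
    have hUZ : i.F.U X ^ 2 ≤ i.F.U X ^ 2 * i.F.Zj X W i.g := le_mul_of_one_le_right (by positivity) hZ1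
    have b1 : Real.sqrt (2 * ((2 / C.ptop) ^ 2 * i.Q.Nn2 W i.g)) ≤ Real.sqrt 2 * (2 / C.ptop) * (i.F.U X ^ 2 * i.F.Zj X W i.g) := by
      refine Real.sqrt_le_iff.2 ⟨by positivity, ?_⟩
      have c1 : i.Q.Nn2 W i.g ≤ (i.F.U X ^ 2 * i.F.Zj X W i.g) ^ 2 :=
        hNn.trans (pow_le_pow_left₀ (by positivity) (mul_le_mul_of_nonneg_right hU2 (by linarith)) 2)
      calc 2 * ((2 / C.ptop) ^ 2 * i.Q.Nn2 W i.g) ≤ 2 * ((2 / C.ptop) ^ 2 * (i.F.U X ^ 2 * i.F.Zj X W i.g) ^ 2) := by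
            refine mul_le_mul_of_nonneg_left (mul_le_mul_of_nonneg_left c1 (by positivity)) (by norm_num)
        _ = (Real.sqrt 2 * (2 / C.ptop) * (i.F.U X ^ 2 * i.F.Zj X W i.g)) ^ 2 := by
            have e2 : Real.sqrt 2 ^ 2 = 2 := Real.sq_sqrt (by norm_num)
            calc 2 * ((2 / C.ptop) ^ 2 * (i.F.U X ^ 2 * i.F.Zj X W i.g) ^ 2)
                = Real.sqrt 2 ^ 2 * ((2 / C.ptop) ^ 2 * (i.F.U X ^ 2 * i.F.Zj X W i.g) ^ 2) := by rw [e2]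
              _ = _ := by ring
    have b2 : C.Cq * i.F.U X ^ 2 / Real.sqrt (dm i.F) * Real.sqrt (dm i.F) ≤ C.Cq * (i.F.U X ^ 2 * i.F.Zj X W i.g) := by
      rw [div_mul_cancel₀ _ hsd.ne']
      exact mul_le_mul_of_nonneg_left hUZ hH.Cq_nn
    have b3 : Real.sqrt (2 * i.F.U X ^ 4) ≤ Real.sqrt 2 * (i.F.U X ^ 2 * i.F.Zj X W i.g) := by
      have : Real.sqrt (2 * i.F.U X ^ 4) = Real.sqrt 2 * i.F.U X ^ 2 := by
        rw [Real.sqrt_mul (by norm_num), show i.F.U X ^ 4 = (i.F.U X ^ 2) ^ 2 by ring, Real.sqrt_sq (by positivity)]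
      rw [this]
      exact mul_le_mul_of_nonneg_left hUZ (Real.sqrt_nonneg _)
    linarith
  have hl10 : 0 < i.F.lam1 X := Real.rpow_pos_of_pos hl _
  have hκ : 0 < C.ce * (i.F.chiE * i.F.lam1 X * i.F.U X ^ 2) := by have := hH.ce_pos; positivity
  have hO0 : 0 ≤ Real.sqrt (2 * ((2 / C.ptop) ^ 2 * i.Q.Nn2 W i.g)) + C.Cq * i.F.U X ^ 2 / Real.sqrt (dm i.F) * Real.sqrt (dm i.F)
      + Real.sqrt (2 * i.F.U X ^ 4) := by
    have := hH.Cq_nn
    positivity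
  have hedge := hp_edge hOk hp0 hp1 hdm hdm1 (pow_pos hU0 4) hUle hκ hO0 (fun s t hs hst ht => by
      have q1 := bud_hp_hE_slope hS hF i.g i.Q (lt_of_lt_of_le hp0 hs) hst ht
      have q2 := hH.pl _ hF hN3 i.g hg0 s t hs hst ht
      have q3 : 0 ≤ C.ce * (i.F.chiL * i.F.x ^ 3 * (t - s)) :=
        mul_nonneg hH.ce_pos.le (mul_nonneg (mul_nonneg hFo.chiL.1 (by positivity)) (by linarith))
      show C.ce * (i.F.chiE * i.F.lam1 X * i.F.U X ^ 2) * _ ≤ i.Q.hE i.g t - i.Q.hE i.g s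
      rw [mul_add] at q2
      linarith) hosc
  have hI : i.Q.hpI i.g C.ptop 1 ≤ (∫ v in C.ptop..1, (i.Q.hpS W i.g).T v) / C.ptop := HpS.hp_I_le_T hOk hp0 hp1.le le_rfl
  exact bud_hp_edge_arith (by linarith) hFo.m_lo (bud_hp_aux_x6 hFo) (pow_pos hU0 2) hH.ce_pos hchi hl10 hp0 rfl hO0 hedge hO hI

/-- **plateau, case (b)**: the linear seed and boundedness of `S`: `∫_{ptop}^1 E W ≲ x³`.      TEX[LL:bud:high-primitive] l.1744-1749 -/
theorem bud_hp_lin_b (hS : BdStd X W Fam K) (hH : BdHpStd X Fam C dm) (hW : W.IsSk) :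
    ∃ A : ℝ, ∃ N0 : ℕ, ∀ i : BdI X, i.OkS W Fam → N0 ≤ i.F.N → i.F.chiL = 1 → i.Q.hpI i.g C.ptop 1 ≤ A * i.F.x ^ 3 := by
  have hX := hS.fix
  have hp0 := hH.p0
  have hp1 := hH.p1
  have hce := hH.ce_pos
  refine ⟨2 / (C.ce * C.ptop), C.N0, fun i hi hN hchi => ?_⟩
  have hF := hi.1.1
  have hg := hi.1.2.1
  have hFo := hS.ok i.F hF
  have hx := BdFr.bds_x_pos hFo
  have hl := BdFr.bds_lam_pos hFo
  have hOk := bud_hp_inst hS hW hF hg i.Q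
  have hdm := hH.dm_pos i.F hF hN
  have hσ : 0 < C.ce * i.F.x ^ 3 := by positivity
  have hslope : ∀ s t, C.ptop ≤ s → s ≤ t → t ≤ 1 → t < 1 → C.ce * i.F.x ^ 3 * (t - s) ≤ (i.Q.hpS W i.g).h t - (i.Q.hpS W i.g).h s := by
    intro s t hs hst _ ht
    have h1 := hH.pl i.F hF hN i.g hg s t hs hst ht
    have h2 := bud_hp_hE_slope hS hF i.g i.Q (hp0.trans_le hs) hst ht
    have h3 : 0 ≤ ∫ v in s..t, hpEdge C.ptop (dm i.F) (i.F.U X ^ 4) v := by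
      refine intervalIntegral.integral_nonneg hst fun v hv => ?_
      unfold hpEdge
      have e1 : 0 ≤ v - C.ptop + dm i.F := by linarith [hv.1]
      have e2 : 0 ≤ 1 - v + i.F.U X ^ 4 := by
        have : 0 ≤ i.F.U X ^ 4 := by positivity
        linarith [hv.2]
      exact add_nonneg (Real.rpow_nonneg e1 _) (Real.rpow_nonneg e2 _)
    have h4 : 0 ≤ i.F.chiE * i.F.lam1 X * i.F.U X ^ 2 * ∫ v in s..t, hpEdge C.ptop (dm i.F) (i.F.U X ^ 4) v := by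
      have e1 := hFo.chiE.1
      have e2 : 0 ≤ i.F.lam1 X := Real.rpow_nonneg hl.le _
      positivity
    rw [hchi] at h1
    have h5 : (i.Q.hpS W i.g).h = i.Q.hE i.g := rfl
    rw [h5]
    have h6 : C.ce * i.F.x ^ 3 * (t - s) ≤ C.ce * (1 * i.F.x ^ 3 * (t - s)
      + i.F.chiE * i.F.lam1 X * i.F.U X ^ 2 * ∫ v in s..t, hpEdge C.ptop (dm i.F) (i.F.U X ^ 4) v) := by
      have := mul_nonneg hce.le h4
      nlinarith
    linarith
  have hI := HpS.hp_I_slope hOk hp0 hp1.le le_rfl hσ hslope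
  have hm : (i.Q.hpS W i.g).m = (i.F.m : ℝ) := rfl
  have hS1 := hOk.S_le 1 ⟨zero_le_one, le_rfl⟩
  have hS0 := hOk.S_nn C.ptop ⟨hp0.le, hp1.le⟩
  have hx6 := bud_hp_aux_x6 hFo
  have hmlo := hFo.m_lo
  have hmpos : (0 : ℝ) < i.F.m := by exact_mod_cast bud_hp_aux_m_pos hFo
  refine le_trans hI ?_
  rw [hm, div_le_iff₀ (by positivity)]
  have e : 2 / (C.ce * C.ptop) * i.F.x ^ 3 * ((i.F.m : ℝ) * (C.ce * i.F.x ^ 3) * C.ptop) = 2 * (i.F.x ^ 6 * i.F.m) := by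
    field_simp
  rw [e]
  have h7 : i.F.x ^ 6 * ((i.F.N : ℝ) / 2) ≤ i.F.x ^ 6 * i.F.m := mul_le_mul_of_nonneg_left hmlo (by positivity)
  nlinarith

/-- (helper103) final arithmetic of case (c) -/
theorem bud_hp_lin_c_arith {I D m N x y Z ce p v1 : ℝ} (hN : 0 < N) (hm : N / 2 ≤ m) (hx6 : x ^ 6 * N = 1) (hx : 0 < x) (hy : 0 < y) (hZ : 0 < Z)
    (hce : 0 < ce) (hp : 0 < p) (hv : p ≤ v1) (h1 : I ≤ D / (m * (ce * x ^ 3) * v1)) (h2 : D ≤ 2 * ((2 / p) * y * Z)) :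
    I ≤ 8 / (ce * p ^ 2) * (x ^ 3 * y * Z) := by
  have hm0 : 0 < m := by linarith
  have hden : N / 2 * (ce * x ^ 3) * p ≤ m * (ce * x ^ 3) * v1 :=
    mul_le_mul (mul_le_mul_of_nonneg_right hm (by positivity)) hv hp.le (by positivity)
  have a1 : D / (m * (ce * x ^ 3) * v1) ≤ 2 * ((2 / p) * y * Z) / (N / 2 * (ce * x ^ 3) * p) :=
    div_le_div₀ (by positivity) h2 (by positivity) hden
  refine h1.trans (a1.trans_eq ?_)
  have e : N = 1 / x ^ 6 := by field_simp; linarith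
  rw [e]
  field_simp
  ring

/-- **plateau, case (c)**: without the end strips of width `δ = x^{2+h_e/8}`: `∫ E W ≲ x^{4+3h_e/16} Z`.      `hp_mid_osc` with the stronger part of (C13), `hp_I_slope` with `σ = ce x³`.
TEX[LL:bud:high-primitive] l.1750-1766 -/
theorem bud_hp_lin_c (hS : BdStd X W Fam K) (hH : BdHpStd X Fam C dm) (hW : W.IsSk) {n : ℕ} (hn : n ≤ X.J + 1) (hZ : BudZ X W Fam n)
    (h13 : BudC13 X W Fam n) :
    ∃ A : ℝ, ∃ N0 : ℕ, ∀ i : BdI X, BdAt X Fam n i.F → i.g ∈ Icc (X.glo n) (X.ghi n) → i.F.GoodG X W i.g → i.Q.IsOpt W i.g →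
      N0 ≤ i.F.N → i.F.chiL = 1 → i.F.Fin13 X →
        2 * i.F.x ^ (2 + X.he / 8) ≤ 1 - C.ptop ∧
        i.Q.hpI i.g (C.ptop + i.F.x ^ (2 + X.he / 8)) (1 - i.F.x ^ (2 + X.he / 8))
          ≤ A * (i.F.x ^ (4 + 3 * X.he / 16) * i.F.Zj X W i.g) := by
  have hX := hS.fix
  have hhe : 0 < X.he := by
    have h1 := hX.pS_pos
    have h2 := hX.pS_le
    linarith
  have hp0 := hH.p0
  have hp1 := hH.p1
  obtain ⟨CZ, NZ, hZ'⟩ := hZ
  obtain ⟨N13, h13'⟩ := bd_ev_iff.1 h13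
  obtain ⟨Nd, hNd⟩ := bud_hp_aux_N_small ((2 + X.he / 8) / 6) ((1 - C.ptop) / 2) (by positivity) (by linarith)
  refine ⟨8 / (C.ce * C.ptop ^ 2), max (max NZ N13) (max C.N0 Nd), ?_⟩
  intro i hAt hg hgood hopt hN hchi hfin
  have hF := hAt.1
  have hg0 := bud_env_G_sub hX hn hg
  have hFo := hS.ok _ hF
  have hNZ : NZ ≤ i.F.N := ((le_max_left _ _).trans (le_max_left _ _)).trans hN
  have hN13 : N13 ≤ i.F.N := ((le_max_right _ _).trans (le_max_left _ _)).trans hN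
  have hN3 : C.N0 ≤ i.F.N := ((le_max_left _ _).trans (le_max_right _ _)).trans hN
  have hNd' : Nd ≤ i.F.N := ((le_max_right _ _).trans (le_max_right _ _)).trans hN
  have hl := BdFr.bds_lam_pos hFo
  have hNr : (2 : ℝ) ≤ i.F.N := by exact_mod_cast hFo.N2
  have hx0 : 0 < i.F.x := Real.rpow_pos_of_pos (by linarith) _
  have hU0 : 0 < i.F.U X := mul_pos hx0 (Real.rpow_pos_of_pos hl _)
  have hOk := bud_hp_inst hS hW hF hg0 i.Q
  have hZ1 : 1 ≤ i.F.Zj X W i.g := (hZ' i.F hAt hNZ).1 i.g hg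
  have hNn := (h13' i ⟨hAt, hg, hgood, hopt⟩ hN13).2 hfin
  obtain ⟨hqi, hN2⟩ := bud_hp_N2 hS hH hW hF hN3 hg0 i.Q
  have hdm := hH.dm_pos _ hF hN3
  obtain ⟨δ, hδd⟩ : ∃ δ, δ = i.F.x ^ (2 + X.he / 8) := ⟨_, rfl⟩
  obtain ⟨y, hyd⟩ : ∃ y, y = i.F.x ^ (1 + 3 * X.he / 16) := ⟨_, rfl⟩
  have hδ : 0 < δ := hδd ▸ Real.rpow_pos_of_pos hx0 _
  have hy : 0 < y := hyd ▸ Real.rpow_pos_of_pos hx0 _
  have h2δ : 2 * δ ≤ 1 - C.ptop := by
    have := hNd i.F.N hNd'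
    rw [← bud_hp_aux_x_rpow, ← hδd] at this
    linarith
  rw [← hδd]
  refine ⟨h2δ, ?_⟩
  -- the `L²` distance on the plateau
  have hnn : 0 ≤ᵐ[volume.restrict (Ioc (C.ptop - dm i.F) 1)] fun v => ((i.Q.hpS W i.g).S v - i.F.q v) ^ 2 :=
    Filter.Eventually.of_forall fun v => sq_nonneg _
  have hL2 : ∫ v in C.ptop..1, ((i.Q.hpS W i.g).S v - i.F.q C.ptop) ^ 2 ≤ (2 / C.ptop) ^ 2 * i.Q.Nn2 W i.g := by
    have e : ∫ v in C.ptop..1, ((i.Q.hpS W i.g).S v - i.F.q C.ptop) ^ 2 = ∫ v in C.ptop..1, ((i.Q.hpS W i.g).S v - i.F.q v) ^ 2 := by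
      refine intervalIntegral.integral_congr fun v hv => ?_
      rw [uIcc_of_le hp1.le] at hv
      show _ = ((i.Q.hpS W i.g).S v - i.F.q v) ^ 2
      rw [hH.q_pl _ hF hN3 v hv]
    rw [e]
    exact (intervalIntegral.integral_mono_interval (by linarith) hp1.le le_rfl hnn hqi).trans hN2
  have hosc := hp_mid_osc hδ h2δ (hOk.S_mono.mono (Icc_subset_Icc hp0.le le_rfl)) hL2
  have e1 : (i.F.x ^ (2 + X.he / 4)) ^ 2 = y ^ 2 * δ := by
    rw [hyd, hδd, ← Real.rpow_natCast (i.F.x ^ _), ← Real.rpow_mul hx0.le, ← Real.rpow_natCast (i.F.x ^ _), ← Real.rpow_mul hx0.le,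
      ← Real.rpow_add hx0]
    congr 1
    push_cast
    ring
  have hD : (i.Q.hpS W i.g).S (1 - δ) - (i.Q.hpS W i.g).S (C.ptop + δ) ≤ 2 * ((2 / C.ptop) * y * i.F.Zj X W i.g) := by
    refine hosc.trans (mul_le_mul_of_nonneg_left ?_ (by norm_num))
    refine Real.sqrt_le_iff.2 ⟨by positivity, ?_⟩
    rw [div_le_iff₀ hδ]
    calc (2 / C.ptop) ^ 2 * i.Q.Nn2 W i.g ≤ (2 / C.ptop) ^ 2 * (i.F.x ^ (2 + X.he / 4) * i.F.Zj X W i.g) ^ 2 :=
          mul_le_mul_of_nonneg_left hNn (by positivity)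
      _ = (2 / C.ptop * y * i.F.Zj X W i.g) ^ 2 * δ := by rw [mul_pow (i.F.x ^ _), e1]; ring
  have hσ : 0 < C.ce * i.F.x ^ 3 := by have := hH.ce_pos; positivity
  have hI := HpS.hp_I_slope hOk (v1 := C.ptop + δ) (v2 := 1 - δ) (by linarith) (by linarith) (by linarith) hσ (fun s t hs hst ht ht1 => by
      have hps : C.ptop ≤ s := by linarith
      have q1 := bud_hp_hE_slope hS hF i.g i.Q (lt_of_lt_of_le hp0 hps) hst ht1
      have q2 := hH.pl _ hF hN3 i.g hg0 s t hps hst ht1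
      have q3 : 0 ≤ ∫ v in s..t, hpEdge C.ptop (dm i.F) (i.F.U X ^ 4) v := by
        refine intervalIntegral.integral_nonneg hst fun v hv => ?_
        exact add_nonneg (Real.rpow_nonneg (by linarith [hv.1]) _) (Real.rpow_nonneg (by have := pow_pos hU0 4; linarith [hv.2]) _)
      have q4 : 0 ≤ C.ce * (i.F.chiE * i.F.lam1 X * i.F.U X ^ 2 * ∫ v in s..t, hpEdge C.ptop (dm i.F) (i.F.U X ^ 4) v) :=
        mul_nonneg hH.ce_pos.le (mul_nonneg (mul_nonneg (mul_nonneg hFo.chiE.1 (Real.rpow_nonneg hl.le _)) (by positivity)) q3)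
      show C.ce * i.F.x ^ 3 * (t - s) ≤ i.Q.hE i.g t - i.Q.hE i.g s
      rw [mul_add, hchi, one_mul] at q2
      linarith)
  have e2 : i.F.x ^ (4 + 3 * X.he / 16) = i.F.x ^ 3 * y := by
    rw [hyd, ← Real.rpow_natCast i.F.x 3, ← Real.rpow_add hx0]
    congr 1
    push_cast
    ring
  rw [e2]
  exact bud_hp_lin_c_arith (by linarith) hFo.m_lo (bud_hp_aux_x6 hFo) hx0 hy (by linarith) hH.ce_pos hp0 (by linarith) hI hD

/-! ## 3. Exponent arithmetic (frames; no model) -/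

/-- (C18), last entry, in frame form (instance of `bud_BudC18d`, `Bud/PowD.lean`): `u² X³ Λ^{-1/3} λ_1^{-1/6} Z^{1/6} ≤ λ^{c} u² G_1`; it dominates `hpBa`.
`X ≤ CU λ^{s_*/2}`, `CU ≤ λ^{-κ}` for large `N`; `a_goal ≤ a_j` for `st ≥ 1`. -/
theorem bud_hp_ar_c18 (hX : X.Ok) : ∃ N0 : ℕ, ∀ (F : BdFr) (V : BdViol F X W) (Z : ℝ), F.Ok X → N0 ≤ F.N → 1 ≤ Z →
    F.agoal X * Z ≤ V.L → V.L ≤ 1 →
      F.hpBa ≤ F.hpBp X Z ∧ F.hpBp X Z ≤ F.lam ^ (3 / 100 : ℝ) * (F.u ^ 2 * V.G1) := by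
  obtain ⟨N1, hN1⟩ := bds_big_ev X hX
  obtain ⟨N2, hN2⟩ := bud_hp_aux_lam_small hX (1 / 100) (1 / 16) (by norm_num) (by norm_num)
  refine ⟨max N1 N2, fun F V Z hF hN hZ hL hL1 => ?_⟩
  have hB := hN1 F hF ((le_max_left _ _).trans hN)
  have h16 := hN2 F hF ((le_max_right _ _).trans hN)
  have hl := BdFr.bds_lam_pos hF
  have hl1 := (BdFr.bds_lam_lt_one hF hX).le
  have hu := BdFr.bds_u_pos hF hX
  have hXr := BdFr.bds_Xr_pos hF hX
  have heta : 0 ≤ X.eta := by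
    have := hX.tau0_pos; have := hX.tau0_le; linarith
  constructor
  · unfold BdFr.hpBa BdFr.hpBp
    have h1 : F.lam ^ (-(1 / 6) : ℝ) ≤ F.lam1 X ^ (-(1 / 6) : ℝ) := by
      rw [bud_hp_aux_lam1 hF]
      exact Real.rpow_le_rpow_of_exponent_ge hl hl1 (by nlinarith)
    have h2 : (1 : ℝ) ≤ Z ^ (1 / 6 : ℝ) := Real.one_le_rpow hZ (by norm_num)
    have h3 : 0 ≤ F.u ^ 2 * F.Xr ^ 3 * F.Lam ^ (-(1 / 3) : ℝ) := by
      have : 0 ≤ F.Lam ^ (-(1 / 3) : ℝ) := by rw [bud_hp_aux_Lam13 hF]; exact Real.rpow_nonneg hl.le _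
      positivity
    have h4 : 0 ≤ F.lam ^ (-(1 / 6) : ℝ) := Real.rpow_nonneg hl.le _
    calc F.u ^ 2 * F.Xr ^ 3 * F.Lam ^ (-(1 / 3) : ℝ) * F.lam ^ (-(1 / 6) : ℝ)
        ≤ F.u ^ 2 * F.Xr ^ 3 * F.Lam ^ (-(1 / 3) : ℝ) * F.lam1 X ^ (-(1 / 6) : ℝ) := mul_le_mul_of_nonneg_left h1 h3
      _ = F.u ^ 2 * F.Xr ^ 3 * F.Lam ^ (-(1 / 3) : ℝ) * F.lam1 X ^ (-(1 / 6) : ℝ) * 1 := by ring
      _ ≤ _ := mul_le_mul_of_nonneg_left h2 (mul_nonneg h3 (h4.trans h1))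
  · have hyp := BdFr.bpf_hyp hF hX hB hZ hL hL1
    have h18 := bud_BudC18d _ _ _ _ _ _ _ _ _ _ hyp
    rw [← bpf_G1 V] at h18
    have hG : 0 ≤ V.G1 := by
      unfold BdViol.G1
      exact le_min (le_max_of_le_right hl.le) (Real.rpow_nonneg hl.le _)
    have e1 : F.hpBp X Z = F.u ^ 2 * (F.Xr ^ (3 : ℝ) * F.lam ^ (-(1 / 100) - (1 + X.eta) / 6) * Z ^ (1 / 6 : ℝ)) := by
      unfold BdFr.hpBp
      rw [bud_hp_aux_Lam13 hF, bud_hp_aux_lam1 hF, sub_eq_add_neg, Real.rpow_add hl,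
        show (3 : ℝ) = ((3 : ℕ) : ℝ) by norm_num, Real.rpow_natCast,
        show (1 + X.eta) * -(1 / 6) = -((1 + X.eta) / 6) by ring]
      ring
    rw [e1]
    have e2 : (16 : ℝ) * F.lam ^ (4 / 100 : ℝ) ≤ F.lam ^ (3 / 100 : ℝ) := by
      rw [show (4 / 100 : ℝ) = 1 / 100 + 3 / 100 by norm_num, Real.rpow_add hl]
      have := Real.rpow_nonneg hl.le (3 / 100 : ℝ)
      nlinarith
    calc F.u ^ 2 * (F.Xr ^ (3 : ℝ) * F.lam ^ (-(1 / 100) - (1 + X.eta) / 6) * Z ^ (1 / 6 : ℝ))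
        ≤ F.u ^ 2 * (16 * F.lam ^ (4 / 100 : ℝ) * V.G1) := mul_le_mul_of_nonneg_left h18 (by positivity)
      _ ≤ F.u ^ 2 * (F.lam ^ (3 / 100 : ℝ) * V.G1) :=
          mul_le_mul_of_nonneg_left (mul_le_mul_of_nonneg_right e2 hG) (by positivity)
      _ = _ := by ring

/-- plateau, `χ_e = 1`: `min(x⁶/C(w), x⁶ Z/λ_1) ≲ (u² X³ Λ^{-1/3} λ_1^{-1/6} Z^{1/6})²` for `w ≥ ptop/2` (`C(w) w ≥ min(c_H,c_I) C_0 u`, `min(a,b) ≤ a^{2/3} b^{1/3}`).      l.1728-1735 -/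
theorem bud_hp_ar_pl (hX : X.Ok) (p : ℝ) (hp : 0 < p) : ∃ A : ℝ, ∀ (F : BdFr) (Z w Cw : ℝ), F.Ok X → 1 ≤ Z → p ≤ w → w ≤ 1 →
    min X.cH X.cI * (F.C0 * F.u) ≤ Cw * w → min (F.x ^ 6 / Cw) (F.x ^ 6 * Z / F.lam1 X) ≤ A * F.hpBp X Z ^ 2 := by
  have hc0 : 0 < min X.cH X.cI := lt_min hX.cH_pos hX.cI_pos
  refine ⟨min X.cH X.cI ^ (-(2 / 3) : ℝ), fun F Z w Cw hF hZ hpw hw1 hC => ?_⟩
  have hw : 0 < w := hp.trans_le hpw
  have hx := BdFr.bds_x_pos hF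
  have hl := BdFr.bds_lam_pos hF
  have hu := BdFr.bds_u_pos hF hX
  have hLam : 0 < F.Lam := Real.rpow_pos_of_pos hl _
  have hl1 : 0 < F.lam1 X := Real.rpow_pos_of_pos hl _
  have hZ0 : 0 < Z := by linarith
  have hD : 0 < min X.cH X.cI * (F.C0 * F.u) := by unfold BdFr.C0; positivity
  have hCw0 : 0 < Cw := by
    by_contra h
    have : Cw * w ≤ 0 := mul_nonpos_of_nonpos_of_nonneg (not_lt.1 h) hw.le
    linarith
  have hCw : min X.cH X.cI * (F.C0 * F.u) ≤ Cw := by nlinarith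
  have ha : F.x ^ 6 / Cw ≤ F.x ^ 6 / (min X.cH X.cI * (F.C0 * F.u)) := div_le_div_of_nonneg_left (by positivity) hD hCw
  calc min (F.x ^ 6 / Cw) (F.x ^ 6 * Z / F.lam1 X)
      ≤ min (F.x ^ 6 / (min X.cH X.cI * (F.C0 * F.u))) (F.x ^ 6 * Z / F.lam1 X) := min_le_min_right _ ha
    _ ≤ (F.x ^ 6 / (min X.cH X.cI * (F.C0 * F.u))) ^ (2 / 3 : ℝ) * (F.x ^ 6 * Z / F.lam1 X) ^ (1 / 3 : ℝ) :=
        bud_hp_aux_min_le (by positivity) (by positivity)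
    _ = _ := by
        unfold BdFr.C0 BdFr.hpBp BdFr.Xr
        exact bud_hp_aux_pl_id hx hu hLam hl1 hZ0 hc0

/-- the lower bound of the target: `u² G_1 ≥ u² √λ L ≥ x² λ^{1/2 - s_0} Z`, and `G_1 ≥ λ`.      l.1738-1742 -/
theorem bud_hp_ar_lo (hX : X.Ok) (F : BdFr) (V : BdViol F X W) (Z : ℝ) (hF : F.Ok X) (hZ : 1 ≤ Z) (hL : F.agoal X * Z ≤ V.L)
    (hL1 : V.L ≤ 1) : F.x ^ 2 * F.lam ^ (1 / 2 - X.s0) * Z ≤ F.u ^ 2 * V.G1 ∧ F.lam ≤ V.G1 := by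
  have hx := BdFr.bds_x_pos hF
  have hl := BdFr.bds_lam_pos hF
  have hl1 := (BdFr.bds_lam_lt_one hF hX).le
  have hu := BdFr.bds_u_pos hF hX
  have hag := BdFr.bds_agoal_pos hF hX
  have hL0 : 0 ≤ V.L := le_trans (by positivity) hL
  have hLam : F.lam ≤ F.Lam := by
    unfold BdFr.Lam
    calc F.lam = F.lam ^ (1 : ℝ) := (Real.rpow_one _).symm
      _ ≤ _ := Real.rpow_le_rpow_of_exponent_ge hl hl1 (by norm_num)
  set s := F.lam ^ (1 / 2 : ℝ) with hs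
  have hs0 : 0 < s := Real.rpow_pos_of_pos hl _
  have hss : s * s = F.lam := by
    rw [hs, ← Real.rpow_add hl]; norm_num
  have hsLam : s ≤ F.Lam := by
    unfold BdFr.Lam
    exact Real.rpow_le_rpow_of_exponent_ge hl hl1 (by norm_num)
  have hG : s * V.L ≤ V.G1 := by
    unfold BdViol.G1
    refine le_min ?_ ?_
    · rcases le_total V.L s with h | h
      · exact le_max_of_le_right (by nlinarith)
      · exact le_max_of_le_left (by nlinarith)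
    · nlinarith
  refine ⟨?_, ?_⟩
  · have e1 : F.x ^ 2 * F.lam ^ (1 / 2 - X.s0) * Z = F.u ^ 2 * (s * (F.agoal X * Z)) := by
      unfold BdFr.agoal BdFr.Xr
      rw [sub_eq_add_neg, Real.rpow_add hl, ← hs]
      field_simp
    rw [e1]
    exact mul_le_mul_of_nonneg_left ((mul_le_mul_of_nonneg_left hL hs0.le).trans hG) (by positivity)
  · unfold BdViol.G1
    exact le_min (le_max_right _ _) hLam

/-- the three ratios (a), (b), (c) at final strength `λ = x^{p_*}`: fixed power savings.      l.1743-1766 -/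
theorem bud_hp_ar_abc (hX : X.Ok) : ∃ c : ℝ, 0 < c ∧ ∃ N0 : ℕ, ∀ (F : BdFr) (Z T : ℝ), F.Ok X → N0 ≤ F.N → 1 ≤ Z →
    F.lam = F.x ^ X.pS → F.x ^ 2 * F.lam ^ (1 / 2 - X.s0) * Z ≤ T →
      (F.x ^ X.he ≤ F.chiE → Real.sqrt (F.x ^ 6 * Z / (F.lam1 X * F.chiE)) ≤ F.x ^ c * T) ∧
      (F.x ^ X.he ≤ F.u → F.u ^ 2 * F.lam ≤ T → Real.sqrt (F.x ^ 3) ≤ F.x ^ c * T) ∧
      (F.x ^ (2 + X.he / 8) ≤ F.x ^ c * T ∧ Real.sqrt (F.x ^ (4 + 3 * X.he / 16) * Z) ≤ F.x ^ c * T) := by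
  have hpS := hX.pS_pos
  have hpS1 := hX.pS_le
  have hhe1 := hX.he_le
  have hhe : 0 < X.he := by linarith
  have ht0 := hX.tau0_pos
  have ht1 := hX.tau0_le
  have ht2 := hX.eta_le
  have ht3 := hX.tau_le
  have hδ : 1 / 2 - X.s0 = X.tau + X.tau0 := by unfold BdFix.s0 BdFix.sS; ring
  have hδ0 : 0 ≤ X.tau + X.tau0 := by linarith
  have hδ1 : X.tau + X.tau0 ≤ 1 / 1000 := by linarith
  have hpδ : X.pS * (X.tau + X.tau0) ≤ X.he / 1000000 := by nlinarith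
  have hpδ0 : 0 ≤ X.pS * (X.tau + X.tau0) := by positivity
  have hpe : X.pS * (1 + X.eta) ≤ X.he / 500 := by nlinarith
  refine ⟨X.he / 16, by positivity, 0, fun F Z T hF _ hZ hlam hT => ?_⟩
  have hx := BdFr.bds_x_pos hF
  have hx1 := (BdFr.bds_x_lt_one hF).le
  have hZ0 : 0 < Z := by linarith
  -- monotonicity of powers of `x`
  have hmono : ∀ a b : ℝ, b ≤ a → F.x ^ a ≤ F.x ^ b := fun a b h => Real.rpow_le_rpow_of_exponent_ge hx hx1 h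
  have hT0 : F.x ^ (2 + X.pS * (X.tau + X.tau0)) * Z ≤ T := by
    refine le_trans (le_of_eq ?_) hT
    rw [hlam, hδ, ← Real.rpow_mul hx.le, Real.rpow_add hx, show (2 : ℝ) = ((2 : ℕ) : ℝ) by norm_num, Real.rpow_natCast]
  have hTpos : 0 < T := lt_of_lt_of_le (by positivity) hT0
  have hcT : 0 ≤ F.x ^ (X.he / 16) * T := by positivity
  -- lower bound of the square of the target
  have hsq : F.x ^ (X.he / 8 + 4 + 2 * (X.pS * (X.tau + X.tau0))) * Z ^ 2 ≤ (F.x ^ (X.he / 16) * T) ^ 2 := by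
    have h1 : F.x ^ (X.he / 16) * (F.x ^ (2 + X.pS * (X.tau + X.tau0)) * Z) ≤ F.x ^ (X.he / 16) * T :=
      mul_le_mul_of_nonneg_left hT0 (by positivity)
    have h2 := pow_le_pow_left₀ (by positivity) h1 2
    refine le_trans (le_of_eq ?_) h2
    have e : F.x ^ (X.he / 16) * (F.x ^ (2 + X.pS * (X.tau + X.tau0)) * Z)
        = F.x ^ (X.he / 16 + (2 + X.pS * (X.tau + X.tau0))) * Z := by
      rw [Real.rpow_add hx (X.he / 16)]; ring
    rw [e, mul_pow, ← Real.rpow_natCast (F.x ^ _) 2, ← Real.rpow_mul hx.le]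
    congr 2
    push_cast
    ring
  have hZ2 : Z ≤ Z ^ 2 := by nlinarith
  refine ⟨fun hchi => ?_, fun hu hT2 => ?_, ?_, ?_⟩
  · rw [Real.sqrt_le_iff]
    refine ⟨hcT, le_trans ?_ hsq⟩
    have hl1 : F.lam1 X = F.x ^ (X.pS * (1 + X.eta)) := by
      unfold BdFr.lam1
      rw [hlam, ← Real.rpow_mul hx.le]
    have hden : F.x ^ (X.pS * (1 + X.eta) + X.he) ≤ F.lam1 X * F.chiE := by
      rw [hl1, Real.rpow_add hx]
      exact mul_le_mul_of_nonneg_left hchi (by positivity)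
    calc F.x ^ 6 * Z / (F.lam1 X * F.chiE) ≤ F.x ^ 6 * Z / F.x ^ (X.pS * (1 + X.eta) + X.he) :=
          div_le_div_of_nonneg_left (by positivity) (by positivity) hden
      _ = F.x ^ (6 - (X.pS * (1 + X.eta) + X.he)) * Z := by
          rw [Real.rpow_sub hx, show (6 : ℝ) = ((6 : ℕ) : ℝ) by norm_num, Real.rpow_natCast]
          ring
      _ ≤ F.x ^ (X.he / 8 + 4 + 2 * (X.pS * (X.tau + X.tau0))) * Z ^ 2 :=
          mul_le_mul (hmono _ _ (by linarith)) hZ2 hZ0.le (by positivity)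
  · rw [Real.sqrt_le_iff]
    refine ⟨hcT, ?_⟩
    have h1 : F.x ^ (2 * X.he + X.pS) ≤ T := by
      refine le_trans ?_ hT2
      rw [hlam, Real.rpow_add hx]
      refine mul_le_mul_of_nonneg_right ?_ (by positivity)
      have := pow_le_pow_left₀ (by positivity) hu 2
      refine le_trans (le_of_eq ?_) this
      rw [← Real.rpow_natCast (F.x ^ _) 2, ← Real.rpow_mul hx.le]
      congr 1
      push_cast
      ring
    have h2 : F.x ^ (X.he / 16) * F.x ^ (2 * X.he + X.pS) ≤ F.x ^ (X.he / 16) * T :=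
      mul_le_mul_of_nonneg_left h1 (by positivity)
    have h3 := pow_le_pow_left₀ (by positivity) h2 2
    refine le_trans ?_ h3
    rw [← Real.rpow_add hx, ← Real.rpow_natCast (F.x ^ _) 2, ← Real.rpow_mul hx.le, ← Real.rpow_natCast F.x 3]
    refine hmono _ _ ?_
    push_cast
    linarith
  · calc F.x ^ (2 + X.he / 8) ≤ F.x ^ (X.he / 16 + (2 + X.pS * (X.tau + X.tau0))) := hmono _ _ (by linarith)
      _ = F.x ^ (X.he / 16) * (F.x ^ (2 + X.pS * (X.tau + X.tau0)) * 1) := by rw [Real.rpow_add hx, mul_one]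
      _ ≤ F.x ^ (X.he / 16) * (F.x ^ (2 + X.pS * (X.tau + X.tau0)) * Z) := by gcongr
      _ ≤ _ := mul_le_mul_of_nonneg_left hT0 (by positivity)
  · rw [Real.sqrt_le_iff]
    refine ⟨hcT, le_trans ?_ hsq⟩
    exact mul_le_mul (hmono _ _ (by linarith)) hZ2 hZ0.le (by positivity)

/-! ## 4. The centred primitive -/

/-! (helper212) two square root lemmas of the assembly -/

theorem bud_hp_prim_sq {I A y : ℝ} (hI : I ≤ A * y) (hy : 0 ≤ y) :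
    Real.sqrt (3 * I) ≤ Real.sqrt (3 * max A 0) * Real.sqrt y := by
  rw [← Real.sqrt_mul (mul_nonneg (by norm_num) (le_max_right _ _))]
  refine Real.sqrt_le_sqrt ?_
  have : A * y ≤ max A 0 * y := mul_le_mul_of_nonneg_right (le_max_left _ _) hy
  nlinarith

theorem bud_hp_prim_ar {N ε e I A B T l : ℝ} (hN : 1 ≤ N) (hI : I ≤ A * (N ^ ε * B ^ 2)) (hB0 : 0 ≤ B) (hB : B ≤ l * T)
    (hl : l ≤ N ^ (-e)) (hT : 0 ≤ T) : Real.sqrt (3 * I) ≤ Real.sqrt (3 * max A 0) * (N ^ (-(e - ε / 2)) * T) := by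
  have hN0 : 0 < N := by linarith
  have h1 := bud_hp_prim_sq hI (mul_nonneg (Real.rpow_nonneg hN0.le _) (sq_nonneg _))
  refine h1.trans (mul_le_mul_of_nonneg_left ?_ (Real.sqrt_nonneg _))
  rw [Real.sqrt_mul (Real.rpow_nonneg hN0.le _), Real.sqrt_sq hB0, Real.sqrt_eq_rpow, ← Real.rpow_mul hN0.le]
  have e1 : N ^ (-(e - ε / 2)) = N ^ (ε * (1 / 2)) * N ^ (-e) := by rw [← Real.rpow_add hN0]; congr 1; ring
  rw [e1, mul_assoc]
  refine mul_le_mul_of_nonneg_left ?_ (Real.rpow_nonneg hN0.le _)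
  exact hB.trans (mul_le_mul_of_nonneg_right hl hT)

/-- **the centred primitive over a high dyad** (second assertion of the Lemma).      TEX[LL:bud:high-primitive]
ASSEMBLY.  `k` lives on `[w, min(2w,1)]`.  If `2w ≤ ptop`: `hp_nr_I` + `bud_hp_act`.  Else `hp_nr_plateau` with `a = min w ptop`:
active part `bud_hp_act`; plateau: `χ_e = 1`: `min` of `bud_hp_tr_pl` and `bud_hp_edge`, `bud_hp_taper`, `bud_hp_ar_pl` (`w = 1`), `bud_hp_ar_c18`;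
otherwise (`F.Ok.chi`) `λ = x^{p_*}`, `χ_lin = 1`: (a) `bud_hp_edge`, (b) `bud_hp_lin_b`, (c) `bud_hp_lin_c` with `δ = x^{2+h_e/8}`; `bud_hp_ar_lo`, `bud_hp_ar_abc`.
Sub-power losses: `N^ε ≤ λ^{-6ε/p_*}`; `x = N^{-1/6}`, `λ ≤ x^{p_*}`. -/
theorem bud_hp_prim (hS : BdStd X W Fam K) (hH : BdHpStd X Fam C dm) (hW : W.IsSk) {CS : ℝ} (hSv : BudHpSv X W Fam CS)
    (hTr : BudHpTr X W Fam) {n : ℕ} (hn1 : 1 ≤ n) (hn : n ≤ X.J + 1) (Cbuf : ℝ) (hZ : BudZ X W Fam n) (h13 : BudC13 X W Fam n) :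
    BudC17b X W Fam n Cbuf := by
  have hX := hS.fix
  have hkm : ∀ w : ℝ, Measurable ((Icc w (min (2 * w) 1)).indicator (1 : ℝ → ℝ)) := fun w => measurable_one.indicator measurableSet_Icc
  have hk1 : ∀ w v : ℝ, |(Icc w (min (2 * w) 1)).indicator (1 : ℝ → ℝ) v| ≤ 1 := fun w v => by
    by_cases hv : v ∈ Icc w (min (2 * w) 1)
    · rw [indicator_of_mem hv]; simp
    · rw [indicator_of_notMem hv]; simp
  have hG : ∀ i : BdVI X W × ℝ, (i.1.Ok Fam n Cbuf ∧ X.cH * i.1.F.u ≤ i.2 ∧ i.2 ≤ 1) → 0 ≤ i.1.F.u ^ 2 * i.1.V.G1 := fun i hi => by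
    have hl := BdFr.bds_lam_pos (hS.ok _ hi.1.1)
    refine mul_nonneg (sq_nonneg _) ?_
    unfold BdViol.G1 BdFr.Lam
    exact (lt_min (lt_max_of_lt_right hl) (Real.rpow_pos_of_pos hl _)).le
  have hpos : ∀ i : BdVI X W × ℝ, (i.1.Ok Fam n Cbuf ∧ X.cH * i.1.F.u ≤ i.2 ∧ i.2 ≤ 1) →
      0 ≤ i.1.V.Q.nLcU i.1.V.g ((Icc i.2 (min (2 * i.2) 1)).indicator 1) := fun i hi => by
    obtain ⟨⟨hF, _, hst, hV, _⟩, _, _⟩ := hi
    have hg0 := bud_env_G_sub hX hn (hst ▸ hV.g_mem)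
    obtain ⟨hb, hh⟩ := hS.clk _ hF _ hg0 i.1.V.Q
    exact bud_uq_nonneg (bud_hp_aux_m_pos (hS.ok _ hF)) one_pos (bud_pp_adm hb hh) (hkm _) (hk1 _)
  unfold BudC17b
  rw [bd_pow_iff hpos hG]
  -- the constants
  obtain ⟨cE, hcEd⟩ : ∃ cE : ℝ, cE = 3 / 100 * X.pS / 6 := ⟨_, rfl⟩
  have hcE : 0 < cE := by rw [hcEd]; have := hX.pS_pos; positivity
  obtain ⟨A1, N1, h1⟩ := bud_hp_act hS hH hW hSv hTr cE hcE
  obtain ⟨A2, N2, h2⟩ := bud_hp_tr_pl hS hH hW hTr cE hcE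
  obtain ⟨A3, N3, h3⟩ := bud_hp_edge hS hH hW hn hZ h13
  obtain ⟨A5, N5, h5⟩ := bud_hp_lin_b hS hH hW
  obtain ⟨A6, N6, h6⟩ := bud_hp_lin_c hS hH hW hn hZ h13
  obtain ⟨N7, h7⟩ := bud_hp_ar_c18 (W := W) hX
  obtain ⟨A4, h4⟩ := bud_hp_ar_pl hX 1 one_pos
  obtain ⟨c, hc, N8, h8⟩ := bud_hp_ar_abc hX
  obtain ⟨NB, hBig⟩ := bds_big_ev X hX
  obtain ⟨CZ, NZ, hZ'⟩ := hZ
  obtain ⟨c0, hc0d⟩ : ∃ c0 : ℝ, c0 = min (cE / 2) (c / 6) := ⟨_, rfl⟩
  have hc0 : 0 < c0 := by rw [hc0d]; exact lt_min (by positivity) (by positivity)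
  obtain ⟨S1, hS1⟩ : ∃ S : ℝ, S = Real.sqrt (3 * max A1 0) := ⟨_, rfl⟩
  obtain ⟨S2, hS2⟩ : ∃ S : ℝ, S = Real.sqrt (3 * max (max (max A2 A3) 0 * A4) 0) := ⟨_, rfl⟩
  obtain ⟨S3, hS3⟩ : ∃ S : ℝ, S = Real.sqrt (3 * max A3 0) := ⟨_, rfl⟩
  obtain ⟨S5, hS5⟩ : ∃ S : ℝ, S = Real.sqrt (3 * max A5 0) := ⟨_, rfl⟩
  obtain ⟨S6, hS6⟩ : ∃ S : ℝ, S = Real.sqrt (3 * max A6 0) := ⟨_, rfl⟩
  have n1 : 0 ≤ S1 := by rw [hS1]; exact Real.sqrt_nonneg _
  have n2 : 0 ≤ S2 := by rw [hS2]; exact Real.sqrt_nonneg _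
  have n3 : 0 ≤ S3 := by rw [hS3]; exact Real.sqrt_nonneg _
  have n5 : 0 ≤ S5 := by rw [hS5]; exact Real.sqrt_nonneg _
  have n6 : 0 ≤ S6 := by rw [hS6]; exact Real.sqrt_nonneg _
  refine ⟨c0, hc0, S1 + S2 + S3 + S5 + S6 + 6,
    max (max (max N1 N2) (max N3 N5)) (max (max N6 N7) (max (max N8 NB) (max NZ C.N0))), ?_⟩
  rintro ⟨I, w⟩ ⟨⟨hF, hAt, hst, hV, hL1⟩, hw0, hw1⟩ hN
  dsimp only at hF hAt hst hV hL1 hw0 hw1 hN ⊢
  have m1 : N1 ≤ I.F.N := le_trans (le_trans (le_trans (le_max_left _ _) (le_max_left _ _)) (le_max_left _ _)) hN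
  have m2 : N2 ≤ I.F.N := le_trans (le_trans (le_trans (le_max_right _ _) (le_max_left _ _)) (le_max_left _ _)) hN
  have m3 : N3 ≤ I.F.N := le_trans (le_trans (le_trans (le_max_left _ _) (le_max_right _ _)) (le_max_left _ _)) hN
  have m5 : N5 ≤ I.F.N := le_trans (le_trans (le_trans (le_max_right _ _) (le_max_right _ _)) (le_max_left _ _)) hN
  have m6 : N6 ≤ I.F.N := le_trans (le_trans (le_trans (le_max_left _ _) (le_max_left _ _)) (le_max_right _ _)) hN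
  have m7 : N7 ≤ I.F.N := le_trans (le_trans (le_trans (le_max_right _ _) (le_max_left _ _)) (le_max_right _ _)) hN
  have m8 : N8 ≤ I.F.N :=
    le_trans (le_trans (le_trans (le_trans (le_max_left _ _) (le_max_left _ _)) (le_max_right _ _)) (le_max_right _ _)) hN
  have mB : NB ≤ I.F.N :=
    le_trans (le_trans (le_trans (le_trans (le_max_right _ _) (le_max_left _ _)) (le_max_right _ _)) (le_max_right _ _)) hN
  have mZ : NZ ≤ I.F.N :=
    le_trans (le_trans (le_trans (le_trans (le_max_left _ _) (le_max_right _ _)) (le_max_right _ _)) (le_max_right _ _)) hN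
  have mC : C.N0 ≤ I.F.N :=
    le_trans (le_trans (le_trans (le_trans (le_max_right _ _) (le_max_right _ _)) (le_max_right _ _)) (le_max_right _ _)) hN
  -- the instance
  have hFo := hS.ok _ hF
  have hgn : I.V.g ∈ Icc (X.glo n) (X.ghi n) := hst ▸ hV.g_mem
  have hg0 := bud_env_G_sub hX hn hgn
  have hBdAt : BdAt X Fam n I.F := ⟨hF, hAt, hst⟩
  have hOkS : (⟨I.F, I.V.g, I.V.Q⟩ : BdI X).OkS W Fam := ⟨⟨hF, hg0, hV.opt⟩, hAt⟩
  have hOk := bud_hp_inst hS hW hF hg0 I.V.Q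
  obtain ⟨Z, hZd⟩ : ∃ Z : ℝ, Z = I.F.Zj X W I.V.g := ⟨_, rfl⟩
  have hZ1 : 1 ≤ Z := by rw [hZd]; exact (hZ' I.F hBdAt mZ).1 _ hgn
  have hLZ : I.F.agoal X * Z ≤ I.V.L := by
    rw [hZd]
    refine le_trans ?_ hV.big
    exact mul_le_mul_of_nonneg_right (BdFr.bds_astage_ge hFo hX (hBig _ hFo mB) _) (by rw [← hZd]; linarith)
  obtain ⟨T, hTd⟩ : ∃ T : ℝ, T = I.F.u ^ 2 * I.V.G1 := ⟨_, rfl⟩
  have hT0 : 0 ≤ T := by rw [hTd]; exact hG (I, w) ⟨⟨hF, hAt, hst, hV, hL1⟩, hw0, hw1⟩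
  obtain ⟨hBa, hBp⟩ := h7 I.F I.V Z hFo m7 hZ1 hLZ hL1
  rw [← hTd] at hBp ⊢
  have hNr : (1 : ℝ) ≤ I.F.N := by have := hFo.N2; exact_mod_cast (by omega : 1 ≤ I.F.N)
  have hN0 : (0 : ℝ) < I.F.N := by linarith
  have hlN : I.F.lam ^ (3 / 100 : ℝ) ≤ (I.F.N : ℝ) ^ (-cE) := by
    rw [hcEd]; exact BdFr.bpf_lam_le_N hFo (by norm_num)
  have hx := BdFr.bds_x_pos hFo
  have hu := BdFr.bds_u_pos hFo hX
  have hl := BdFr.bds_lam_pos hFo
  have hXr := BdFr.bds_Xr_pos hFo hX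
  have hLam : 0 < I.F.Lam := Real.rpow_pos_of_pos hl _
  have hl1 : 0 < I.F.lam1 X := Real.rpow_pos_of_pos hl _
  have hBa0 : 0 ≤ I.F.hpBa := by unfold BdFr.hpBa; positivity
  have hBp0 : 0 ≤ I.F.hpBp X Z := hBa0.trans hBa
  obtain ⟨M, hMd⟩ : ∃ M : ℝ, M = (I.F.N : ℝ) ^ (-c0) * T := ⟨_, rfl⟩
  have hM0 : 0 ≤ M := by rw [hMd]; exact mul_nonneg (Real.rpow_nonneg hN0.le _) hT0
  have hME : (I.F.N : ℝ) ^ (-(cE - cE / 2)) * T ≤ M := by
    rw [hMd]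
    refine mul_le_mul_of_nonneg_right (Real.rpow_le_rpow_of_exponent_le hNr ?_) hT0
    have : c0 ≤ cE / 2 := by rw [hc0d]; exact min_le_left _ _
    linarith
  have hMx : I.F.x ^ c * T ≤ M := by
    rw [hMd, bud_hp_aux_x_rpow]
    refine mul_le_mul_of_nonneg_right (Real.rpow_le_rpow_of_exponent_le hNr ?_) hT0
    have : c0 ≤ c / 6 := by rw [hc0d]; exact min_le_right _ _
    linarith
  rw [← hMd]
  -- the active part
  have pAct : ∀ w' b : ℝ, X.cH * I.F.u ≤ w' → w' ≤ b → b ≤ min (2 * w') C.ptop →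
      Real.sqrt (3 * (I.V.Q.hpS W I.V.g).I w' b) ≤ S1 * M := fun w' b a1 a2 a3 => by
    have e := h1 ⟨I.F, I.V.g, I.V.Q⟩ hOkS m1 w' w' b a1 le_rfl a2 a3
    rw [hS1]
    exact (bud_hp_prim_ar hNr e hBa0 (hBa.trans hBp) hlN hT0).trans (mul_le_mul_of_nonneg_left hME (Real.sqrt_nonneg _))
  have hp0 := hH.p0
  have hp1 := hH.p1
  have hcHu := hH.cHu _ hF mC
  have hcHu0 : 0 < X.cH * I.F.u := mul_pos hX.cH_pos hu
  have hw : 0 < w := hcHu0.trans_le hw0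
  show (I.V.Q.hpS W I.V.g).nr ((Icc w (min (2 * w) 1)).indicator 1) ≤ _
  have hk0 : ∀ v, v ∉ Icc w (min (2 * w) 1) → (Icc w (min (2 * w) 1)).indicator (1 : ℝ → ℝ) v = 0 :=
    fun v hv => indicator_of_notMem hv _
  by_cases h2w : 2 * w ≤ C.ptop
  · -- the dyad is active
    have e : min (2 * w) 1 = 2 * w := min_eq_left (by linarith)
    have h9 := HpS.hp_nr_I hOk hw (by linarith : w ≤ 2 * w) (by linarith) (hkm w) (hk1 w) (fun v hv => hk0 v (by rwa [e]))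
    refine h9.trans ((pAct w (2 * w) hw0 (by linarith) (le_min le_rfl h2w)).trans ?_)
    exact mul_le_mul_of_nonneg_right (by linarith) hM0
  have h2w' : C.ptop < 2 * w := not_le.1 h2w
  obtain ⟨a, had⟩ : ∃ a : ℝ, a = min w C.ptop := ⟨_, rfl⟩
  have ha0 : 0 < a := by rw [had]; exact lt_min hw hp0
  have hap : a ≤ C.ptop := by rw [had]; exact min_le_right _ _
  have haw : a ≤ w := by rw [had]; exact min_le_left _ _
  have hp2a : C.ptop ≤ 2 * a := by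
    rw [had]
    rcases le_total w C.ptop with h | h
    · rw [min_eq_left h]; exact h2w'.le
    · rw [min_eq_right h]; linarith
  have hka : ∀ v, v ∉ Icc a 1 → (Icc w (min (2 * w) 1)).indicator (1 : ℝ → ℝ) v = 0 :=
    fun v hv => hk0 v fun hv' => hv ⟨haw.trans hv'.1, hv'.2.trans (min_le_right _ _)⟩
  have hact := pAct a C.ptop (by rw [had]; exact le_min hw0 (by linarith)) hap (le_min hp2a le_rfl)
  -- the plateau without end strips
  have hpl0 : ∀ Sx : ℝ, Real.sqrt (3 * (I.V.Q.hpS W I.V.g).I C.ptop 1) ≤ Sx * M → Sx ≤ S2 + S3 + S5 + S6 + 6 →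
      (I.V.Q.hpS W I.V.g).nr ((Icc w (min (2 * w) 1)).indicator 1) ≤ (S1 + S2 + S3 + S5 + S6 + 6) * M := fun Sx q1 q2 => by
    have h9 := HpS.hp_nr_plateau hOk ha0 hap hp1 le_rfl (by linarith : 2 * (0 : ℝ) ≤ 1 - C.ptop) (hkm w) (hk1 w) hka
    simp only [add_zero, sub_zero, mul_zero] at h9
    have : S1 * M + Sx * M ≤ (S1 + S2 + S3 + S5 + S6 + 6) * M := by
      rw [← add_mul]; exact mul_le_mul_of_nonneg_right (by linarith) hM0
    linarith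
  have hZ0 : 0 < Z := by linarith
  have caseE : I.F.chiE = 1 → Real.sqrt (3 * (I.V.Q.hpS W I.V.g).I C.ptop 1) ≤ S2 * M := fun hE => by
    have e2 := h2 ⟨I.F, I.V.g, I.V.Q⟩ hOkS m2
    have e3 := h3 ⟨I.F, I.V.g, I.V.Q⟩ hBdAt hgn hV.good hV.opt m3 (by show 0 < I.F.chiE; rw [hE]; norm_num)
    dsimp only at e2 e3
    rw [hE, mul_one, ← hZd] at e3
    have hC1 : 0 < I.F.C X 1 := bud_hp_aux_C_pos hX hFo 1
    have tp := (bud_hp_taper hS hF).1 1 (by linarith) le_rfl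
    have e4 := h4 I.F Z 1 (I.F.C X 1) hFo hZ1 le_rfl le_rfl tp
    obtain ⟨Am, hAm⟩ : ∃ Am : ℝ, Am = max (max A2 A3) 0 := ⟨_, rfl⟩
    have hAm0 : 0 ≤ Am := by rw [hAm]; exact le_max_right _ _
    have hA2 : A2 ≤ Am := by rw [hAm]; exact le_max_of_le_left (le_max_left _ _)
    have hA3 : A3 ≤ Am := by rw [hAm]; exact le_max_of_le_left (le_max_right _ _)
    have hNe : 1 ≤ (I.F.N : ℝ) ^ cE := Real.one_le_rpow hNr hcE.le
    have y1 : 0 ≤ I.F.x ^ 6 / I.F.C X 1 := by positivity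
    have y2 : 0 ≤ I.F.x ^ 6 * Z / I.F.lam1 X := by positivity
    have b1 : I.V.Q.hpI I.V.g C.ptop 1 ≤ Am * (I.F.N : ℝ) ^ cE * (I.F.x ^ 6 / I.F.C X 1) := by
      refine e2.trans ?_
      rw [mul_assoc]
      exact mul_le_mul_of_nonneg_right hA2 (by positivity)
    have b2 : I.V.Q.hpI I.V.g C.ptop 1 ≤ Am * (I.F.N : ℝ) ^ cE * (I.F.x ^ 6 * Z / I.F.lam1 X) := by
      refine e3.trans ((mul_le_mul_of_nonneg_right hA3 y2).trans ?_)
      exact mul_le_mul_of_nonneg_right (le_mul_of_one_le_right hAm0 hNe) y2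
    have b3 : I.V.Q.hpI I.V.g C.ptop 1
        ≤ Am * (I.F.N : ℝ) ^ cE * min (I.F.x ^ 6 / I.F.C X 1) (I.F.x ^ 6 * Z / I.F.lam1 X) := by
      rcases le_total (I.F.x ^ 6 / I.F.C X 1) (I.F.x ^ 6 * Z / I.F.lam1 X) with h | h
      · rw [min_eq_left h]; exact b1
      · rw [min_eq_right h]; exact b2
    have b4 : I.V.Q.hpI I.V.g C.ptop 1 ≤ (Am * A4) * ((I.F.N : ℝ) ^ cE * I.F.hpBp X Z ^ 2) := by
      refine b3.trans ((mul_le_mul_of_nonneg_left e4 (by positivity)).trans (le_of_eq ?_))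
      ring
    rw [hS2, ← hAm]
    exact (bud_hp_prim_ar hNr b4 hBp0 hBp hlN hT0).trans (mul_le_mul_of_nonneg_left hME (Real.sqrt_nonneg _))
  by_cases hE : I.F.chiE = 1
  · exact hpl0 S2 (caseE hE) (by linarith)
  obtain ⟨hlam, hL⟩ : I.F.lam = I.F.x ^ X.pS ∧ I.F.chiL = 1 := by
    rcases hFo.chi with ⟨_, h⟩ | ⟨h, h'⟩
    · exact absurd h hE
    · exact ⟨h, h'.resolve_right hE⟩
  have hlo := bud_hp_ar_lo hX I.F I.V Z hFo hZ1 hLZ hL1
  obtain ⟨ka, kb, kc1, kc2⟩ := h8 I.F Z T hFo m8 hZ1 hlam (by rw [hTd]; exact hlo.1)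
  by_cases hca : I.F.x ^ X.he ≤ I.F.chiE
  · -- (a)
    have hchi : 0 < I.F.chiE := lt_of_lt_of_le (Real.rpow_pos_of_pos hx _) hca
    have e3 := h3 ⟨I.F, I.V.g, I.V.Q⟩ hBdAt hgn hV.good hV.opt m3 hchi
    dsimp only at e3
    rw [← hZd] at e3
    refine hpl0 S3 ?_ (by linarith)
    rw [hS3]
    refine (bud_hp_prim_sq e3 (by positivity)).trans (mul_le_mul_of_nonneg_left ((ka hca).trans hMx) (Real.sqrt_nonneg _))
  by_cases hcb : I.F.x ^ X.he ≤ I.F.u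
  · -- (b)
    have e5 := h5 ⟨I.F, I.V.g, I.V.Q⟩ hOkS m5 hL
    dsimp only at e5
    refine hpl0 S5 ?_ (by linarith)
    rw [hS5]
    refine (bud_hp_prim_sq e5 (by positivity)).trans (mul_le_mul_of_nonneg_left ((kb hcb ?_).trans hMx) (Real.sqrt_nonneg _))
    rw [hTd]
    exact mul_le_mul_of_nonneg_left hlo.2 (sq_nonneg _)
  -- (c)
  have hFin : I.F.Fin13 X := ⟨hlam, (not_le.1 hcb).le, (not_le.1 hca).le⟩
  obtain ⟨d1, e6⟩ := h6 ⟨I.F, I.V.g, I.V.Q⟩ hBdAt hgn hV.good hV.opt m6 hL hFin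
  dsimp only at d1 e6
  rw [← hZd] at e6
  have h9 := HpS.hp_nr_plateau hOk ha0 hap hp1 (Real.rpow_pos_of_pos hx (2 + X.he / 8)).le d1 (hkm w) (hk1 w) hka
  have q1 : Real.sqrt (3 * (I.V.Q.hpS W I.V.g).I (C.ptop + I.F.x ^ (2 + X.he / 8)) (1 - I.F.x ^ (2 + X.he / 8))) ≤ S6 * M := by
    rw [hS6]
    exact (bud_hp_prim_sq e6 (by positivity)).trans (mul_le_mul_of_nonneg_left (kc2.trans hMx) (Real.sqrt_nonneg _))
  have q2 : 6 * I.F.x ^ (2 + X.he / 8) ≤ 6 * M := mul_le_mul_of_nonneg_left (kc1.trans hMx) (by norm_num)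
  have : S1 * M + S6 * M + 6 * M ≤ (S1 + S2 + S3 + S5 + S6 + 6) * M := by
    rw [← add_mul, ← add_mul]; exact mul_le_mul_of_nonneg_right (by linarith) hM0
  linarith

/-! ## 5. (C17): the high projection -/

/-- **projection of a pair to a later cut** on the abstract path of PE Sec. 3: two applications of `cm5_tbl`
(`y¹·y² - X¹_c·X²_c = (y¹ - X¹_c)·y² + X¹_c·(y² - X²_c)`; the second by the symmetry of the fork law).      TEX[LL:bud:high-primitive] l.1668-1682 -/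
theorem hp_proj (p : ℕ) (hp : Even p) (hp2 : 2 ≤ p) (Γ : ℝ) : ∃ A : ℝ, 0 < A ∧
    ∀ (n : ℕ) (Ω : Type) [MeasurableSpace Ω] (M : CmPath n Ω) (x0 um ηm : ℝ) (th sg : ℝ → ℝ) (Pi Q x : ℝ) (K : ℕ),
      M.Ok → Cm5Clk M x0 um Γ ηm th sg → M.Proj p Pi → 1 ≤ Pi → 1 ≤ Q → 0 < x → x ≤ x0 → M.Raw p Q x → 1 ≤ Γ ^ K * x0 →
      ∀ (j i1 : ℕ) (w0 : ℝ), j ≤ M.L → x0 ≤ w0 → 2 * M.mass j ≤ w0 → Γ * w0 ≤ 1 → M.nd (Γ * w0) ≤ i1 → i1 ≤ M.L + 1 →
        cmN (M.P2 j) p (fun z : Ω × Ω => M.R2 z - inner ℝ (M.X i1 z.1) (M.X i1 z.2))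
          ≤ A * (K + 2) ^ 2 * Q * Pi / Real.sqrt (n * w0 * th w0) := by
  obtain ⟨C0, hC0, h⟩ := cm5_tbl_pf p hp hp2 Γ
  have h2C : (0 : ℝ) < 2 * C0 := by positivity
  refine Exists.intro (2 * C0) (And.intro h2C ?_)
  intro n Ω _ M x0 um ηm th sg Pi Q x K hM hClk hProj hPi hQ hx hxx0 hRaw hK j i1 w0 hjL hw0 hmj hΓw hi1 hi1L
  have hp1 : 1 ≤ p := by omega
  have := CmPath.P2_prob hM j
  have hw0p : 0 < w0 := hClk.hx0.trans_le hw0
  have hmj0 : 0 ≤ M.mass j := by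
    have := hM.mass_mono (Nat.zero_le j)
    rwa [hM.mass_zero] at this
  have hjm : M.mass j ≤ Γ * w0 := by
    have := hClk.hΓ
    nlinarith
  have hjnd : j ≤ M.nd (Γ * w0) := by
    classical
    unfold CmPath.nd
    exact Nat.le_findGreatest hjL hjm
  have hji1 : j ≤ i1 := hjnd.trans hi1
  have hh := h n Ω M x0 um ηm th sg Pi Q x K hM hClk hProj hPi hQ hx hxx0 hRaw hK
  have a1 : M.L + 1 ≤ M.L + 1 := le_rfl
  have a2 : j ≤ M.L + 1 := by omega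
  have h1 := hh j i1 (M.L + 1) (M.L + 1) w0 hjL hw0 hmj hΓw hi1 hi1L a1 a2 a1
  have h2 := hh j i1 (M.L + 1) i1 w0 hjL hw0 hmj hΓw hi1 hi1L a1 hji1 hi1L
  -- the second term, with the leaves exchanged
  have hFm : Measurable (fun z : Ω × Ω => inner ℝ (M.X (M.L + 1) z.1 - M.X i1 z.1) (M.X i1 z.2)) :=
    ((CmPath.t_Xsub_meas hM (M.L + 1) i1).comp measurable_fst).inner ((hM.meas i1).comp measurable_snd)
  have hsw := CmPath.cmN_P2_swap hM j hFm p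
  have b1 : CmBM (M.P2 j) (fun z : Ω × Ω => inner ℝ (M.X (M.L + 1) z.1 - M.X i1 z.1) (M.X (M.L + 1) z.2)) :=
    CmPath.t_bm2 (M := M) j (g1 := fun ω => M.X (M.L + 1) ω - M.X i1 ω) (g2 := M.X (M.L + 1)) (C1 := 2) (C2 := 1)
      (CmPath.t_Xsub_meas hM (M.L + 1) i1) (hM.meas (M.L + 1)) (CmPath.t_Xsub_le hM (M.L + 1) i1) (hM.norm_le (M.L + 1))
  have b2 : CmBM (M.P2 j) (fun z : Ω × Ω => inner ℝ (M.X i1 z.1) (M.X (M.L + 1) z.2 - M.X i1 z.2)) :=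
    CmPath.t_bm2 (M := M) j (g1 := M.X i1) (g2 := fun ω => M.X (M.L + 1) ω - M.X i1 ω) (C1 := 1) (C2 := 2)
      (hM.meas i1) (CmPath.t_Xsub_meas hM (M.L + 1) i1) (hM.norm_le i1) (CmPath.t_Xsub_le hM (M.L + 1) i1)
  have e2 : (fun z : Ω × Ω => inner ℝ (M.X i1 z.1) (M.X (M.L + 1) z.2 - M.X i1 z.2))
      = fun z : Ω × Ω => (fun z : Ω × Ω => inner ℝ (M.X (M.L + 1) z.1 - M.X i1 z.1) (M.X i1 z.2)) z.swap := by
    funext z; simp [real_inner_comm]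
  have e : (fun z : Ω × Ω => M.R2 z - inner ℝ (M.X i1 z.1) (M.X i1 z.2))
      = fun z : Ω × Ω => inner ℝ (M.X (M.L + 1) z.1 - M.X i1 z.1) (M.X (M.L + 1) z.2)
        + inner ℝ (M.X i1 z.1) (M.X (M.L + 1) z.2 - M.X i1 z.2) := by
    funext z
    simp only [CmPath.R2, CmPath.y, inner_sub_left, inner_sub_right]
    ring
  have hadd := cmN_add_le b1 b2 p hp1
  have hsw' : cmN (M.P2 j) p (fun z : Ω × Ω => inner ℝ (M.X i1 z.1) (M.X (M.L + 1) z.2 - M.X i1 z.2))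
      = cmN (M.P2 j) p (fun z : Ω × Ω => inner ℝ (M.X (M.L + 1) z.1 - M.X i1 z.1) (M.X i1 z.2)) := by rw [e2, hsw]
  rw [hsw'] at hadd
  rw [e]
  have : 2 * C0 * ((K : ℝ) + 2) ^ 2 * Q * Pi / Real.sqrt (n * w0 * th w0)
      = C0 * ((K : ℝ) + 2) ^ 2 * Q * Pi / Real.sqrt (n * w0 * th w0) + C0 * ((K : ℝ) + 2) ^ 2 * Q * Pi / Real.sqrt (n * w0 * th w0) := by
    ring
  rw [this]
  exact hadd.trans (add_le_add h1 h2)

/-- every sampling of the changed clocks is an admissible step path -/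
theorem bud_hp_adm (hS : BdStd X W Fam K) {F : BdFr} (hF : Fam F) {g : ℝ} (hg : g ∈ Icc (X.glo 0) (X.ghi 0)) (Q : BdQ F X)
    (Fs : Finset GhPos) : SkAdm 1 (Q.stp g (ghPs 1 Fs)) := by
  obtain ⟨hb, hh⟩ := bud_hp_aux_ckadm hS hF hg Q
  have hok : ∀ p ∈ ghPs 1 Fs, p.Ok 1 := fun p hp => (gh_os_ps_mem.1 hp).2
  exact sk_stp_chain_adm zero_le_one hb hh _ 0 0 (gh_os_ps_pairwise 1 Fs) hok
    (fun p hp => gh_os_at_nonneg zero_le_one hb (hok p hp).2.2.1) (fun p hp => gh_os_at_nonneg zero_le_one hh (hok p hp).2.2.1)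

/-- **the clock hypotheses of PE Sec. 3 for the sampled changed path**, on all fine chains, above `x0 = u`, with `th = hpTh` = the better of the two options:
removal: `hq(Γw/2) - hq(w) ≥ φ(r(Γw/2)) - φ(r(w))`, `φ = rC(r)`, `φ' = (1-p)C ≥ c C/log N`, `cL v ≤ r(v) ≤ CL v` ((C7a)), `Γ ≥ 4 CL/cL`;
actual field: `BdHpStd.act` on `[w,2w]`, `2w ≤ 2/Γ ≤ ptop`.  "Even at the plateau or a macroscopic band, a preceding active interval is available at a comparable scale."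
The chain must contain a grid of mesh `≤ ηm/2`.      TEX[LL:bud:high-primitive] l.1679-1682 -/
theorem bud_hp_clk (hS : BdStd X W Fam K) (hH : BdHpStd X Fam C dm) {cL CL : ℝ} (hcL : 0 < cL)
    (h7 : BdEv (fun i : BdI X => i.F.N) (fun i => i.OkS W Fam) fun i => ∀ v ∈ Icc (i.F.wc X) 1, cL * v ≤ i.Q.r v ∧ i.Q.r v ≤ CL * v)
    (Γ : ℝ) (hΓ1 : 4 ≤ Γ) (hΓ2 : 2 / C.ptop ≤ Γ) (hΓ3 : 4 * CL / cL ≤ Γ) :
    ∃ c1 : ℝ, 0 < c1 ∧ ∃ N0 : ℕ, ∀ i : BdI X, i.OkS W Fam → N0 ≤ i.F.N → ∀ ηm : ℝ, 0 < ηm →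
      BmEv 1 fun ps => Cm5Clk (i.Q.hpM i.g ps) i.F.u (1 / (8 * Γ ^ 2)) Γ ηm (i.F.hpTh X c1 C.ca)
        (fun w => C.ca * i.F.lam * w ^ 2 / 2) := by
  have hX := hS.fix
  obtain ⟨N7, h7⟩ := bd_ev_iff.1 h7
  obtain ⟨Ny, hy⟩ := bud_hp_aux_yc_small hX (ε := 1) one_pos
  obtain ⟨Ng, hgap⟩ := bud_hp_aux_gap hX
  have hΓ0 : 0 < Γ := by linarith
  obtain ⟨Nu, hus⟩ := bud_hp_aux_lam_small hX X.bl (1 / (8 * Γ ^ 2)) hX.bl_pos (by positivity)
  obtain ⟨G, hG⟩ : ∃ G, G = max 1 (CL * Γ) := ⟨_, rfl⟩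
  have hG1 : 1 ≤ G := hG ▸ le_max_left _ _
  have hG2 : CL * Γ ≤ G := hG ▸ le_max_right _ _
  have hG0 : 0 < G := by linarith
  have hca := hH.ca_pos
  have hp0 := hH.p0
  have hp1 := hH.p1
  have hΓp : 2 ≤ Γ * C.ptop := (div_le_iff₀ hp0).1 hΓ2
  have hΓc : 4 * CL ≤ Γ * cL := (div_le_iff₀ hcL).1 hΓ3
  refine ⟨cL * Γ / (8 * G), by positivity, max (max N7 Ny) (max (max Ng Nu) C.N0), fun i hi hN ηm hηm => ?_⟩
  have hN7 : N7 ≤ i.F.N := ((le_max_left _ _).trans (le_max_left _ _)).trans hN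
  have hNy : Ny ≤ i.F.N := ((le_max_right _ _).trans (le_max_left _ _)).trans hN
  have hNg : Ng ≤ i.F.N := (((le_max_left _ _).trans (le_max_left _ _)).trans (le_max_right _ _)).trans hN
  have hNu : Nu ≤ i.F.N := (((le_max_right _ _).trans (le_max_left _ _)).trans (le_max_right _ _)).trans hN
  have hNC : C.N0 ≤ i.F.N := ((le_max_right _ _).trans (le_max_right _ _)).trans hN
  obtain ⟨F, g, Q⟩ := i
  have hF : Fam F := hi.1.1
  have hg : g ∈ Icc (X.glo 0) (X.ghi 0) := hi.1.2.1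
  have hFo := hS.ok F hF
  have hu := BdFr.bds_u_pos hFo hX
  have hl := BdFr.bds_lam_pos hFo
  have hd := bud_hp_aux_dPE_pos hX hFo
  have hC0 := bud_hp_aux_C0_pos hX hFo
  have hN2 : (2 : ℝ) ≤ F.N := by exact_mod_cast hFo.N2
  have hlog : 0 < Real.log F.N := Real.log_pos (by linarith)
  obtain ⟨hg1, hg2⟩ := hgap F hFo hNg
  have h7' : ∀ v ∈ Icc (F.wc X) 1, cL * v ≤ Q.r v ∧ Q.r v ≤ CL * v := h7 ⟨F, g, Q⟩ hi hN7
  have hwc : F.wc X ≤ F.u := by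
    unfold BdFr.wc
    have := hy F hFo hNy
    nlinarith
  have hu1 : F.u ≤ 1 / (8 * Γ ^ 2) := hFo.u_hi.trans (hus F hFo hNu)
  have hum1 : 1 / (8 * Γ ^ 2) ≤ 1 / 128 := by
    apply one_div_le_one_div_of_le (by norm_num)
    nlinarith
  have hcLCL : cL ≤ CL := by
    have := h7' 1 ⟨by linarith, le_rfl⟩
    linarith [this.1, this.2]
  have hxm : F.xm ≤ F.u := by
    have h1 := hH.xm_le F hF hNC
    have h2 : min 1 X.cH * F.u ≤ 1 * F.u := mul_le_mul_of_nonneg_right (min_le_left _ _) hu.le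
    linarith
  obtain ⟨δ, hδ⟩ : ∃ δ, δ = min (ηm / 4) (F.u / 2) := ⟨_, rfl⟩
  have hδ0 : 0 < δ := by rw [hδ]; exact lt_min (by positivity) (by positivity)
  have hδ1 : δ ≤ ηm / 4 := hδ ▸ min_le_left _ _
  have hδ2 : δ ≤ F.u / 2 := hδ ▸ min_le_right _ _
  have hadm := bud_hp_aux_ckadm hS hF hg Q
  refine (ckm_smp F.m (Q.bE g) hadm.2 hδ0).mono fun ps hsm => ?_
  refine bud_hp_aux_clk_abs (Q.hpM g ps) (th1 := fun w => cL * Γ / (8 * G) * w * F.C X w / Real.log F.N) (σ := C.ca * F.lam)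
    hsm hadm.2.1 hδ0 hηm hδ1 hδ2 hu hu1 hΓ1 hp0 hΓp hp1 (by positivity) ?_ ?_ ?_
  · intro s t hs hst ht
    have h1 := hH.act F hF hNC g hg s t (hxm.trans hs) hst ht
    have h2 := bud_hp_hE_slope hS hF g Q (hu.trans_le hs) hst (lt_of_le_of_lt ht hp1)
    linarith
  · intro w hw hΓw
    exact bud_hp_aux_clk_rem hS hF hg Q hcL hcLCL hΓ1 hΓc hG1 hG2 hg1 hg2 h7' (hwc.trans hw) (hu.trans_le hw) hΓw hδ0 (by linarith)
  · intro w w' hw hww'
    have hw0 : 0 < w := hu.trans_le hw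
    have h3 : w * F.C X w ≤ w' * F.C X w' :=
      cm_re_mono (F.call X) hd hC0.le (mem_Ici.2 hw0.le) (mem_Ici.2 (hw0.le.trans hww')) hww'
    have e : ∀ z : ℝ, cL * Γ / (8 * G) * z * F.C X z / Real.log F.N = cL * Γ / (8 * G) / Real.log F.N * (z * F.C X z) := by
      intro z; ring
    show cL * Γ / (8 * G) * w * F.C X w / Real.log F.N ≤ cL * Γ / (8 * G) * w' * F.C X w' / Real.log F.N
    rw [e, e]
    exact mul_le_mul_of_nonneg_left h3 (by positivity)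

/-- **transfer to the tree numbers**: `mPr` is the limit along the net of the step-level moment
(the labels `2+i`, `2+2l+i` are conditionally independent continuations from the cut `c`: their overlaps average to `X¹_c·X²_c`).      Bridge C1. -/
theorem bud_hp_mpr (hS : BdStd X W Fam K) (hW : W.IsSk) {F : BdFr} (hF : Fam F) {g : ℝ} (hg : g ∈ Icc (X.glo 0) (X.ghi 0)) (Q : BdQ F X)
    (l : ℕ) (hl : 1 ≤ l) {v c B : ℝ} (hv : 0 < v) (hvc : v < c) (hc : c ≤ 1) (hB : 0 ≤ B)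
    (h : BmEv 1 fun ps => cmN ((Q.hpM g ps).P2 (BdQ.ixV ps v)) (2 * l)
      (fun z => (Q.hpM g ps).R2 z - inner ℝ ((Q.hpM g ps).X (BdQ.ixV ps c) z.1) ((Q.hpM g ps).X (BdQ.ixV ps c) z.2)) ≤ B) :
    Q.mPr W g l v c ^ (1 / (2 * (l : ℝ))) ≤ B := by
  obtain ⟨hb, hh⟩ := hS.clk F hF g hg Q
  have hm := bud_hp_aux_m_pos (hS.ok F hF)
  have hadm := bud_hp_aux_ckadm hS hF hg Q
  have hrt := hp_mpr_rt l hv.le hvc.le hc
  have e0 : Q.mPr W g l v c = skCNu F.m 1 (Q.bE g) (Q.hE g) (2 + 4 * l)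
      (bmTree fun a e => if (a = 0 ∨ (2 ≤ a ∧ a < 2 + 2 * l)) ↔ (e = 0 ∨ (2 ≤ e ∧ e < 2 + 2 * l)) then c else v)
      (bmTest F.m (2 + 4 * l) fun O => ∏ i ∈ Finset.range (2 * l), (O 0 1 - O (2 + i) (2 + 2 * l + i))) :=
    hW.nu F.m _ _ hb hh _ _ _
  have hlo : 0 ≤ Q.mPr W g l v c := by
    rw [e0]
    refine hp_nu_ge hm hadm hrt _ (Filter.Eventually.of_forall fun Fs => ?_)
    beta_reduce
    rw [hp_mpr_chain hm hadm Fs l hvc.le]
    exact integral_nonneg fun z => (even_two_mul l).pow_nonneg _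
  have hhi : Q.mPr W g l v c ≤ B ^ (2 * l) := by
    rw [e0]
    refine ckm_nu_le hm hadm hrt _ (Filter.Eventually.mono (f := atTop) h fun Fs hFs => ?_)
    beta_reduce at hFs ⊢
    rw [hp_mpr_chain hm hadm Fs l hvc.le]
    have hM := ckm_ok hm hadm Fs
    have := CmPath.P2_prob hM (BdQ.ixV (ghPs 1 Fs) v)
    have hbm : CmBM ((ckM F.m (Q.bE g) (Q.hE g) (ghPs 1 Fs)).P2 (BdQ.ixV (ghPs 1 Fs) v))
        (fun z => (ckM F.m (Q.bE g) (Q.hE g) (ghPs 1 Fs)).R2 z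
          - inner ℝ ((ckM F.m (Q.bE g) (Q.hE g) (ghPs 1 Fs)).X (BdQ.ixV (ghPs 1 Fs) c) z.1)
            ((ckM F.m (Q.bE g) (Q.hE g) (ghPs 1 Fs)).X (BdQ.ixV (ghPs 1 Fs) c) z.2)) := by
      obtain ⟨m1, C1, hC1⟩ := ckm_R2_bm hM (BdQ.ixV (ghPs 1 Fs) v)
      refine ⟨m1.sub (((hM.meas _).comp measurable_fst).inner ((hM.meas _).comp measurable_snd)).aestronglyMeasurable,
        C1 + 1, fun z => ?_⟩
      refine (norm_sub_le _ _).trans (add_le_add (hC1 z) ?_)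
      calc ‖inner ℝ ((ckM F.m (Q.bE g) (Q.hE g) (ghPs 1 Fs)).X (BdQ.ixV (ghPs 1 Fs) c) z.1)
            ((ckM F.m (Q.bE g) (Q.hE g) (ghPs 1 Fs)).X (BdQ.ixV (ghPs 1 Fs) c) z.2)‖
          ≤ ‖(ckM F.m (Q.bE g) (Q.hE g) (ghPs 1 Fs)).X (BdQ.ixV (ghPs 1 Fs) c) z.1‖
            * ‖(ckM F.m (Q.bE g) (Q.hE g) (ghPs 1 Fs)).X (BdQ.ixV (ghPs 1 Fs) c) z.2‖ := norm_inner_le_norm _ _
        _ ≤ 1 * 1 := mul_le_mul (hM.norm_le _ _) (hM.norm_le _ _) (norm_nonneg _) zero_le_one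
        _ = 1 := one_mul 1
    have e1 := cmN_pow_eq hbm (2 * l) (by omega)
    have e2 : ∫ z, ((ckM F.m (Q.bE g) (Q.hE g) (ghPs 1 Fs)).R2 z
          - inner ℝ ((ckM F.m (Q.bE g) (Q.hE g) (ghPs 1 Fs)).X (BdQ.ixV (ghPs 1 Fs) c) z.1)
            ((ckM F.m (Q.bE g) (Q.hE g) (ghPs 1 Fs)).X (BdQ.ixV (ghPs 1 Fs) c) z.2)) ^ (2 * l)
          ∂(ckM F.m (Q.bE g) (Q.hE g) (ghPs 1 Fs)).P2 (BdQ.ixV (ghPs 1 Fs) v)
        = ∫ z, ‖(ckM F.m (Q.bE g) (Q.hE g) (ghPs 1 Fs)).R2 z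
          - inner ℝ ((ckM F.m (Q.bE g) (Q.hE g) (ghPs 1 Fs)).X (BdQ.ixV (ghPs 1 Fs) c) z.1)
            ((ckM F.m (Q.bE g) (Q.hE g) (ghPs 1 Fs)).X (BdQ.ixV (ghPs 1 Fs) c) z.2)‖ ^ (2 * l)
          ∂(ckM F.m (Q.bE g) (Q.hE g) (ghPs 1 Fs)).P2 (BdQ.ixV (ghPs 1 Fs) v) := by
      refine integral_congr_ae (Filter.Eventually.of_forall fun z => ?_)
      simp only [Real.norm_eq_abs, (even_two_mul l).pow_abs]
    rw [e2, ← e1]
    exact pow_le_pow_left₀ (cmN_nonneg _ _ _) hFs _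
  have hl0 : (0 : ℝ) < l := by exact_mod_cast hl
  calc Q.mPr W g l v c ^ (1 / (2 * (l : ℝ))) ≤ (B ^ (2 * l)) ^ (1 / (2 * (l : ℝ))) :=
        Real.rpow_le_rpow hlo hhi (by positivity)
    _ = B := by
        have h1 := Real.pow_rpow_inv_natCast hB (n := 2 * l) (by omega)
        have h2 : (1 / (2 * (l : ℝ))) = (((2 * l : ℕ) : ℝ))⁻¹ := by
          push_cast
          rw [one_div]
        rw [h2, h1]

/-- the observed fork is low: a mass whose radius lies in the buffer is `≤ (Cb c_I + Cbuf) u` -/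
theorem bud_hp_fork (hS : BdStd X W Fam K) {n : ℕ} (hn : n ≤ X.J + 1) {Cbuf : ℝ} (hC : 0 ≤ Cbuf) (i : BdVI X W) (hi : i.Ok Fam n Cbuf) {v : ℝ}
    (hv : v ∈ Icc (0 : ℝ) 1) (hr : i.V.Q.r v ∈ i.V.Buf 1) : 0 < v ∧ v ≤ (K.Cb * X.cI + Cbuf) * i.F.u := by
  obtain ⟨hF, -, hst, hV, hL1⟩ := hi
  have hX := hS.fix
  have hFo := hS.ok i.F hF
  have hu := BdFr.bds_u_pos hFo hX
  obtain ⟨hp0, -, -, -, hp4⟩ := hX.pat i.F.st (by rw [hst]; exact hn)
  have hr' : i.V.r0 - i.V.bbuf ≤ i.V.Q.r v ∧ i.V.Q.r v ≤ i.V.r0 + i.V.bbuf := by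
    have := hr
    unfold BdViol.Buf at this
    rw [one_mul] at this
    exact this
  have hlo : X.plo i.F.st * i.F.u ≤ i.V.Q.r v := hV.r0_mem.1.1.trans hr'.1
  have hhi : i.V.Q.r v ≤ X.phi i.F.st * i.F.u := hr'.2.trans hV.r0_mem.2.2
  have hrpos : 0 < i.V.Q.r v := lt_of_lt_of_le (by positivity) hlo
  have hrcI : i.V.Q.r v ≤ X.cI * i.F.u := hhi.trans (mul_le_mul_of_nonneg_right hp4.le hu.le)
  constructor
  · rcases eq_or_lt_of_le hv.1 with h0 | h0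
    · exfalso
      have h1 := i.V.Q.r_al 0 ⟨le_rfl, zero_le_one⟩
      rw [i.V.Q.al_zero, h0] at h1
      linarith
    · exact h0
  · have hbuf := hV.buf (i.V.Q.r v) (abs_le.2 ⟨by linarith [hr'.1], by linarith [hr'.2]⟩)
    rw [i.V.Q.al_r v hv] at hbuf
    have h1 := (abs_le.1 hbuf).2
    have h2 := (hS.beta i.F hF 0 (i.V.Q.r v) le_rfl hrpos.le hrcI)
    rw [hS.beta_zero i.F hF, sub_zero, sub_zero] at h2
    have hCb : 0 ≤ K.Cb := by
      have h3 : K.cb * i.V.Q.r v ≤ K.Cb * i.V.Q.r v := h2.1.trans h2.2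
      have h4 := le_of_mul_le_mul_right h3 hrpos
      exact hS.cb_pos.le.trans h4
    have h5 : K.Cb * i.V.Q.r v ≤ K.Cb * (X.cI * i.F.u) := mul_le_mul_of_nonneg_left hrcI hCb
    have h6 : Cbuf * i.V.d0 ≤ Cbuf * i.F.u := by
      refine mul_le_mul_of_nonneg_left ?_ hC
      unfold BdViol.d0
      nlinarith
    nlinarith [h2.2]

/-- arithmetic of (C17): `log`-powers are sub-power, `m ≥ x⁻⁶/2`, `C` antitone: the bound of `hp_proj` at `w0 = w/(2Γ)` is `≲_∘ z_w` -/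
theorem bud_hp_ar_zw (hX : X.Ok) (Γ c1 ca A : ℝ) (hΓ : 1 ≤ Γ) (hc1 : 0 < c1) (hca : 0 < ca) : ∀ ε : ℝ, 0 < ε → ∃ B : ℝ, ∃ N0 : ℕ,
    ∀ (F : BdFr) (w : ℝ) (Kk : ℕ), F.Ok X → N0 ≤ F.N → F.u ≤ w / (2 * Γ) → w ≤ 1 → (Kk : ℝ) ≤ Real.log F.N →
      (∀ r1 r2 : ℝ, 0 < r1 → r1 ≤ r2 → r2 ≤ 1 → F.C X r2 ≤ F.C X r1) →
      A * (Kk + 2) ^ 2 / Real.sqrt (F.m * (w / (2 * Γ)) * F.hpTh X c1 ca (w / (2 * Γ))) ≤ B * ((F.N : ℝ) ^ ε * F.zw X w) := by
  intro ε hε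
  have hΓ0 : 0 < Γ := by linarith
  set κ : ℝ := max (2 * Γ * Real.sqrt (2 / c1)) ((2 * Γ) ^ 2 * Real.sqrt (2 / ca)) with hκ
  have hκ0 : 0 ≤ κ := le_max_of_le_left (by positivity)
  refine ⟨|A| * κ * (3 / ε + 2) ^ 3, 0, fun F w Kk hF _ huw hw1 hKk hanti => ?_⟩
  have hx := BdFr.bds_x_pos hF
  have hl := BdFr.bds_lam_pos hF
  have hu := BdFr.bds_u_pos hF hX
  have hN2 : (2 : ℝ) ≤ F.N := by exact_mod_cast hF.N2
  have hN0 : (0 : ℝ) < F.N := by linarith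
  have hlog : 0 < Real.log F.N := Real.log_pos (by linarith)
  have hw0' : 0 < w / (2 * Γ) := hu.trans_le huw
  have hw : 0 < w := by
    have : w / (2 * Γ) * (2 * Γ) = w := by field_simp
    rw [← this]; positivity
  set w0 := w / (2 * Γ) with hw0
  have hw0w : w0 ≤ w := by
    rw [hw0, div_le_iff₀ (by positivity)]
    nlinarith
  have hww0 : w = 2 * Γ * w0 := by rw [hw0]; field_simp
  have hCw := bud_hp_aux_C_pos hX hF w
  have hCw0 : F.C X w ≤ F.C X w0 := hanti w0 w hw0' hw0w hw1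
  have hm : (F.N : ℝ) / 2 ≤ F.m := hF.m_lo
  have hx6 := bud_hp_aux_x6 hF
  have hx3 : F.x ^ (3 : ℝ) = F.x ^ 3 := by
    rw [show (3 : ℝ) = ((3 : ℕ) : ℝ) by norm_num, Real.rpow_natCast]
  set D := (F.m : ℝ) * w0 * F.hpTh X c1 ca w0 with hD
  have hD1 : (F.N : ℝ) / 2 * w0 * (c1 * w0 * F.C X w / Real.log F.N) ≤ D := by
    rw [hD]
    have h1 : c1 * w0 * F.C X w / Real.log F.N ≤ F.hpTh X c1 ca w0 := by
      unfold BdFr.hpTh
      refine le_max_of_le_left ?_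
      gcongr
    exact mul_le_mul (mul_le_mul_of_nonneg_right hm hw0'.le) h1 (by positivity) (by positivity)
  have hD2 : (F.N : ℝ) / 2 * w0 * (ca * F.lam * w0 ^ 3) ≤ D := by
    rw [hD]
    have h1 : ca * F.lam * w0 ^ 3 ≤ F.hpTh X c1 ca w0 := le_max_right _ _
    exact mul_le_mul (mul_le_mul_of_nonneg_right hm hw0'.le) h1 (by positivity) (by positivity)
  have hDpos : 0 < D := lt_of_lt_of_le (by positivity) hD2
  have hsl : 0 ≤ Real.sqrt (Real.log F.N) := Real.sqrt_nonneg _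
  have hsl1 : Real.sqrt (Real.log F.N) ≤ Real.log F.N + 2 := by
    rw [Real.sqrt_le_iff]
    exact ⟨by linarith, by nlinarith⟩
  -- first option
  have hR1 : 1 / Real.sqrt D ≤ (2 * Γ * Real.sqrt (2 / c1)) * Real.sqrt (Real.log F.N) * (F.x ^ 3 * (w * Real.sqrt (F.C X w))⁻¹) := by
    refine bud_hp_aux_inv_sqrt hDpos (by positivity) ?_
    have e1 : ((2 * Γ * Real.sqrt (2 / c1)) * Real.sqrt (Real.log F.N) * (F.x ^ 3 * (w * Real.sqrt (F.C X w))⁻¹)) ^ 2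
        = (2 * Γ) ^ 2 * (2 / c1) * Real.log F.N * (F.x ^ 6 / (w ^ 2 * F.C X w)) := by
      have q1 : Real.sqrt (2 / c1) ^ 2 = 2 / c1 := Real.sq_sqrt (by positivity)
      have q2 : Real.sqrt (Real.log F.N) ^ 2 = Real.log F.N := Real.sq_sqrt hlog.le
      have q3 : Real.sqrt (F.C X w) ^ 2 = F.C X w := Real.sq_sqrt hCw.le
      generalize Real.sqrt (2 / c1) = s1 at q1 ⊢
      generalize Real.sqrt (Real.log F.N) = s2 at q2 ⊢
      generalize Real.sqrt (F.C X w) = s3 at q3 ⊢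
      rw [← q1, ← q2, ← q3]
      ring
    rw [e1]
    refine le_trans (le_of_eq ?_) (mul_le_mul_of_nonneg_left hD1 (by positivity))
    have : F.x ^ 6 = 1 / (F.N : ℝ) := by rw [eq_div_iff hN0.ne']; exact hx6
    have hw2 : w ^ 2 = (2 * Γ * w0) ^ 2 := by rw [← hww0]
    rw [this, hw2]
    generalize F.C X w = Cw at hCw ⊢
    field_simp
  -- second option
  have hR2 : 1 / Real.sqrt D ≤ ((2 * Γ) ^ 2 * Real.sqrt (2 / ca)) * (F.x ^ 3 * (F.lam ^ (-(1 / 2) : ℝ) * w ^ (-(2 : ℝ)))) := by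
    refine bud_hp_aux_inv_sqrt hDpos (by positivity) ?_
    have e2 : (F.lam ^ (-(1 / 2) : ℝ)) ^ 2 = 1 / F.lam := by
      rw [← Real.rpow_natCast _ 2, ← Real.rpow_mul hl.le]
      norm_num
      rw [Real.rpow_neg_one]
    have e3 : w ^ (-(2 : ℝ)) = 1 / w ^ 2 := by
      rw [Real.rpow_neg hw.le, show (2 : ℝ) = ((2 : ℕ) : ℝ) by norm_num, Real.rpow_natCast]
      simp
    have e1 : (((2 * Γ) ^ 2 * Real.sqrt (2 / ca)) * (F.x ^ 3 * (F.lam ^ (-(1 / 2) : ℝ) * w ^ (-(2 : ℝ))))) ^ 2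
        = (2 * Γ) ^ 4 * (2 / ca) * (F.x ^ 6 * (1 / F.lam) * (1 / w ^ 4)) := by
      have q1 : Real.sqrt (2 / ca) ^ 2 = 2 / ca := Real.sq_sqrt (by positivity)
      generalize Real.sqrt (2 / ca) = s1 at q1 ⊢
      rw [← q1, ← e2, e3]
      ring
    rw [e1]
    refine le_trans (le_of_eq ?_) (mul_le_mul_of_nonneg_left hD2 (by positivity))
    have : F.x ^ 6 = 1 / (F.N : ℝ) := by rw [eq_div_iff hN0.ne']; exact hx6
    rw [this, hww0]
    field_simp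
  have hl2 : (1 : ℝ) ≤ Real.log F.N + 2 := by linarith
  have hzw : 1 / Real.sqrt D ≤ κ * (Real.log F.N + 2) * F.zw X w := by
    unfold BdFr.zw
    rw [hx3, mul_min_of_nonneg _ _ (by positivity : (0 : ℝ) ≤ F.x ^ 3), mul_min_of_nonneg _ _ (by positivity)]
    refine le_min (hR1.trans ?_) (hR2.trans ?_)
    · have hq : 0 ≤ F.x ^ 3 * (w * Real.sqrt (F.C X w))⁻¹ := by positivity
      refine mul_le_mul_of_nonneg_right ?_ hq
      exact mul_le_mul (le_max_left _ _) hsl1 hsl hκ0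
    · have hq : 0 ≤ F.x ^ 3 * (F.lam ^ (-(1 / 2) : ℝ) * w ^ (-(2 : ℝ))) := by positivity
      refine mul_le_mul_of_nonneg_right ?_ hq
      calc (2 * Γ) ^ 2 * Real.sqrt (2 / ca) ≤ κ := le_max_right _ _
        _ = κ * 1 := (mul_one _).symm
        _ ≤ _ := mul_le_mul_of_nonneg_left hl2 hκ0
  have hzw0 : 0 ≤ F.zw X w := by
    unfold BdFr.zw
    have : 0 ≤ min ((w * Real.sqrt (F.C X w))⁻¹) (F.lam ^ (-(1 / 2) : ℝ) * w ^ (-(2 : ℝ))) := le_min (by positivity) (by positivity)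
    positivity
  have hK2 : ((Kk : ℝ) + 2) ^ 2 ≤ (Real.log F.N + 2) ^ 2 := pow_le_pow_left₀ (by positivity) (by linarith) 2
  have hlp := bud_hp_aux_log_pow ε hε F.N (by have := hF.N2; omega)
  calc A * ((Kk : ℝ) + 2) ^ 2 / Real.sqrt D = A * (((Kk : ℝ) + 2) ^ 2 * (1 / Real.sqrt D)) := by ring
    _ ≤ |A| * (((Kk : ℝ) + 2) ^ 2 * (1 / Real.sqrt D)) := mul_le_mul_of_nonneg_right (le_abs_self A) (by positivity)
    _ ≤ |A| * ((Real.log F.N + 2) ^ 2 * (κ * (Real.log F.N + 2) * F.zw X w)) := by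
        refine mul_le_mul_of_nonneg_left ?_ (abs_nonneg A)
        exact mul_le_mul hK2 hzw (by positivity) (by positivity)
    _ = |A| * κ * F.zw X w * (Real.log F.N + 2) ^ 3 := by ring
    _ ≤ |A| * κ * F.zw X w * ((3 / ε + 2) ^ 3 * (F.N : ℝ) ^ ε) := mul_le_mul_of_nonneg_left hlp (by positivity)
    _ = _ := by ring

/-- (helper103) the projected moment is nonnegative (first half of the proof of `bud_hp_mpr`) -/
theorem bud_hp_mpr_nonneg (hS : BdStd X W Fam K) (hW : W.IsSk) {F : BdFr} (hF : Fam F) {g : ℝ} (hg : g ∈ Icc (X.glo 0) (X.ghi 0)) (Q : BdQ F X)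
    (l : ℕ) {v c : ℝ} (hv : 0 < v) (hvc : v < c) (hc : c ≤ 1) : 0 ≤ Q.mPr W g l v c := by
  obtain ⟨hb, hh⟩ := hS.clk F hF g hg Q
  have hm := bud_hp_aux_m_pos (hS.ok F hF)
  have hadm := bud_hp_aux_ckadm hS hF hg Q
  have hrt := hp_mpr_rt l hv.le hvc.le hc
  have e0 : Q.mPr W g l v c = skCNu F.m 1 (Q.bE g) (Q.hE g) (2 + 4 * l)
      (bmTree fun a e => if (a = 0 ∨ (2 ≤ a ∧ a < 2 + 2 * l)) ↔ (e = 0 ∨ (2 ≤ e ∧ e < 2 + 2 * l)) then c else v)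
      (bmTest F.m (2 + 4 * l) fun O => ∏ i ∈ Finset.range (2 * l), (O 0 1 - O (2 + i) (2 + 2 * l + i))) :=
    hW.nu F.m _ _ hb hh _ _ _
  rw [e0]
  refine hp_nu_ge hm hadm hrt _ (Filter.Eventually.of_forall fun Fs => ?_)
  beta_reduce
  rw [hp_mpr_chain hm hadm Fs l hvc.le]
  exact integral_nonneg fun z => (even_two_mul l).pow_nonneg _

/-- (helper103) the number of generations: `K = ⌊log N⌋`, `Γ^K u ≥ e^K u ≥ N^{5/6}/(e C_U) ≥ 1` -/
theorem bud_hp_c17_K (hX : X.Ok) : ∃ N0 : ℕ, ∀ F : BdFr, F.Ok X → N0 ≤ F.N → ∀ Γ : ℝ, 4 ≤ Γ →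
    ∃ Kk : ℕ, (Kk : ℝ) ≤ Real.log F.N ∧ 1 ≤ Γ ^ Kk * F.u := by
  have hCU := hX.CU_pos
  obtain ⟨N0, h0⟩ := bud_hp_aux_N_small (5 / 6) (1 / (Real.exp 1 * X.CU)) (by norm_num) (by positivity)
  refine ⟨N0, fun F hF hN Γ hΓ => ⟨⌊Real.log F.N⌋₊, ?_, ?_⟩⟩
  · have hN2 : (2 : ℝ) ≤ F.N := by exact_mod_cast hF.N2
    exact Nat.floor_le (Real.log_nonneg (by linarith))
  · have hN2 : (2 : ℝ) ≤ F.N := by exact_mod_cast hF.N2
    have hNp : (0 : ℝ) < F.N := by linarith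
    have hx := BdFr.bds_x_pos hF
    have hl := BdFr.bds_lam_pos hF
    have hu := BdFr.bds_u_pos hF hX
    have hx1 : F.x < 1 := Real.rpow_lt_one_of_one_lt_of_neg (by linarith) (by norm_num)
    have hl1 : F.lam ≤ 1 := hF.lam_hi.trans (Real.rpow_le_one hx.le hx1.le hX.pS_pos.le)
    have hsS : 0 ≤ X.sS / 2 := by
      have := hX.tau_le
      unfold BdFix.sS
      linarith
    have a1 : F.x ≤ X.CU * F.u := by
      refine le_trans ?_ hF.u_lo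
      unfold BdFr.U
      exact le_mul_of_one_le_right hx.le (Real.one_le_rpow_of_pos_of_le_one_of_nonpos hl hl1 (by linarith))
    have a2 : Real.exp (Real.log F.N - 1) ≤ Γ ^ ⌊Real.log F.N⌋₊ := by
      have b1 : Real.log F.N - 1 ≤ (⌊Real.log F.N⌋₊ : ℝ) := by linarith [Nat.lt_floor_add_one (Real.log F.N)]
      have b2 : Real.exp 1 ≤ Γ := by linarith [Real.exp_one_lt_d9]
      calc Real.exp (Real.log F.N - 1) ≤ Real.exp (⌊Real.log F.N⌋₊ : ℝ) := Real.exp_le_exp.2 b1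
        _ = Real.exp 1 ^ ⌊Real.log F.N⌋₊ := by rw [← Real.exp_nat_mul, mul_one]
        _ ≤ _ := pow_le_pow_left₀ (Real.exp_pos 1).le b2 _
    have a3 : Real.exp (Real.log F.N - 1) = F.N / Real.exp 1 := by rw [Real.exp_sub, Real.exp_log hNp]
    have a4 := h0 F.N hN
    have a5 : (F.N : ℝ) * F.x = ((F.N : ℝ) ^ (-(5 / 6) : ℝ))⁻¹ := by
      unfold BdFr.x
      rw [← Real.rpow_neg hNp.le]
      nth_rewrite 1 [← Real.rpow_one (F.N : ℝ)]
      rw [← Real.rpow_add hNp]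
      norm_num
    have a6 : Real.exp 1 * X.CU ≤ (F.N : ℝ) * F.x := by
      rw [a5]
      have hp : 0 < (F.N : ℝ) ^ (-(5 / 6) : ℝ) := Real.rpow_pos_of_pos hNp _
      rw [le_inv_comm₀ (by positivity) hp]
      rwa [one_div] at a4
    have he := Real.exp_pos 1
    calc (1 : ℝ) = (Real.exp 1 * X.CU) / (Real.exp 1 * X.CU) := (div_self (by positivity)).symm
      _ ≤ ((F.N : ℝ) * F.x) / (Real.exp 1 * X.CU) := div_le_div_of_nonneg_right a6 (by positivity)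
      _ = (F.N / Real.exp 1) * (F.x / X.CU) := by field_simp
      _ ≤ Γ ^ ⌊Real.log F.N⌋₊ * F.u := by
          refine mul_le_mul (a3 ▸ a2) ?_ (by positivity) (by positivity)
          rw [div_le_iff₀ hCU]
          linarith

/-- **(C17)** (first assertion of the Lemma).      TEX[LL:bud:high-primitive]
ASSEMBLY: `hp_proj` on `Q.hpM g ps` (`l8i_ok`, `cm5_l8_ok`, `l8i_proj`, `cm5_l8_proj`, `bud_hp_adm`, `bud_hp_clk`, `BudHpRaw`), fork `j = ixV ps v` (`bud_hp_fork`; `c_H` large),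
cut `i1 = ixV ps c`, `c ∈ [w/2,w]`, `w0 = w/(2Γ)`; `bud_hp_mpr`; `bud_hp_ar_zw`.
ORDER OF CONSTANTS: `c_H` is chosen AFTER `ptop`, the constants `cL, CL` of (C7a), `Cb`, `c_I`, `Cbuf` (hypothesis `hcH`; paper l.1601: "a sufficiently large fixed `c_H` … with room for prior comparable projection intervals"). -/
theorem bud_hp_c17 (hS : BdStd X W Fam K) (hH : BdHpStd X Fam C dm) (hW : W.IsSk) {cL CL : ℝ} (hcL : 0 < cL)
    (h7 : BdEv (fun i : BdI X => i.F.N) (fun i => i.OkS W Fam) fun i => ∀ v ∈ Icc (i.F.wc X) 1, cL * v ≤ i.Q.r v ∧ i.Q.r v ≤ CL * v)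
    (hRaw : BudHpRaw X W Fam) {n : ℕ} (hn1 : 1 ≤ n) (hn : n ≤ X.J + 1) (Cbuf : ℝ) (hC : 0 ≤ Cbuf)
    (hcH : 4 * max (max 4 (2 / C.ptop)) (4 * CL / cL) * max 1 (K.Cb * X.cI + Cbuf) ≤ X.cH) :
    BudC17a X W Fam n Cbuf 1 := by
  intro l hl
  have hX := hS.fix
  obtain ⟨Γ, hΓd⟩ : ∃ Γ, Γ = max (max 4 (2 / C.ptop)) (4 * CL / cL) := ⟨_, rfl⟩
  obtain ⟨Mx, hMd⟩ : ∃ Mx, Mx = max 1 (K.Cb * X.cI + Cbuf) := ⟨_, rfl⟩
  rw [← hΓd, ← hMd] at hcH
  have hΓ1 : 4 ≤ Γ := hΓd ▸ (le_max_left _ _).trans (le_max_left _ _)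
  have hΓ2 : 2 / C.ptop ≤ Γ := hΓd ▸ (le_max_right _ _).trans (le_max_left _ _)
  have hΓ3 : 4 * CL / cL ≤ Γ := hΓd ▸ le_max_right _ _
  have hM1 : 1 ≤ Mx := hMd ▸ le_max_left _ _
  have hM2 : K.Cb * X.cI + Cbuf ≤ Mx := hMd ▸ le_max_right _ _
  have hΓ0 : 0 < Γ := by linarith
  -- geometry of an instance
  have geo : ∀ i : BdVI X W × ℝ × ℝ × ℝ, (i.1.Ok Fam n Cbuf ∧ i.2.1 ∈ Icc (0 : ℝ) 1 ∧ i.1.V.Q.r i.2.1 ∈ i.1.V.Buf 1 ∧
        X.cH * i.1.F.u ≤ i.2.2.1 ∧ i.2.2.1 ≤ 1 ∧ i.2.2.2 ∈ Icc (i.2.2.1 / 2) i.2.2.1) →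
      Fam i.1.F ∧ i.1.V.g ∈ Icc (X.glo 0) (X.ghi 0) ∧ 0 < i.2.1 ∧ i.2.1 < i.2.2.2 ∧ i.2.2.2 ≤ 1 ∧ i.1.F.u ≤ i.2.2.1 / (2 * Γ) ∧
        2 * i.2.1 ≤ i.2.2.1 / (2 * Γ) := by
    rintro ⟨VI, v, w, c⟩ ⟨hOk, hv, hr, hw, hw1, hc⟩
    have hF := hOk.1
    have hu := BdFr.bds_u_pos (hS.ok _ hF) hX
    obtain ⟨hv0, hvu⟩ := bud_hp_fork hS hn hC VI hOk hv hr
    have hg : VI.V.g ∈ Icc (X.glo 0) (X.ghi 0) := by
      have := hOk.2.2.2.1.g_mem
      rw [hOk.2.2.1] at this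
      exact bud_env_G_sub hX hn this
    have h1 : v ≤ Mx * VI.F.u := hvu.trans (mul_le_mul_of_nonneg_right hM2 hu.le)
    have h2 : 4 * Γ * Mx * VI.F.u ≤ w := (mul_le_mul_of_nonneg_right hcH hu.le).trans hw
    have hMu : 0 < Mx * VI.F.u := by positivity
    have h3 : 2 * (Mx * VI.F.u) ≤ w / (2 * Γ) := by
      rw [le_div_iff₀ (by positivity)]
      nlinarith
    have h4 : VI.F.u ≤ Mx * VI.F.u := le_mul_of_one_le_left hu.le hM1
    have h5 : 8 * (Mx * VI.F.u) ≤ w / 2 := by nlinarith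
    exact ⟨hF, hg, hv0, by show v < c; linarith [hc.1], hc.2.trans hw1, by show VI.F.u ≤ w / (2 * Γ); linarith,
      by show 2 * v ≤ w / (2 * Γ); linarith⟩
  obtain ⟨c1, hc1, Nc, hclk⟩ := bud_hp_clk hS hH hcL h7 Γ hΓ1 hΓ2 hΓ3
  obtain ⟨Q0, hQ0, Nr, hraw⟩ := hRaw l hl
  obtain ⟨A, hA, hproj⟩ := hp_proj (2 * l) (even_two_mul l) (by omega) Γ
  obtain ⟨Pi, hPi, hPr⟩ := ckm_proj l hl
  obtain ⟨Ny, hy⟩ := bud_hp_aux_yc_small hX (ε := 1) one_pos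
  obtain ⟨NK, hK⟩ := bud_hp_c17_K hX
  refine (bd_sub_iff (fun i hi => ?_) (fun i hi => ?_)).2 fun ε hε => ?_
  · obtain ⟨hF, hg, hv0, hvc, hc1', -, -⟩ := geo i hi
    exact Real.rpow_nonneg (bud_hp_mpr_nonneg hS hW hF hg i.1.V.Q l hv0 hvc hc1') _
  · obtain ⟨hF, hg, hv0, hvc, hc1', hu1, -⟩ := geo i hi
    have hFo := hS.ok _ hF
    have hx := BdFr.bds_x_pos hFo
    have hl0 := BdFr.bds_lam_pos hFo
    have hu := BdFr.bds_u_pos hFo hX
    have hw0 : 0 < i.2.2.1 := lt_of_lt_of_le (mul_pos hX.cH_pos hu) hi.2.2.2.1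
    unfold BdFr.zw
    have : 0 ≤ min ((i.2.2.1 * Real.sqrt (i.1.F.C X i.2.2.1))⁻¹) (i.1.F.lam ^ (-(1 / 2) : ℝ) * i.2.2.1 ^ (-(2 : ℝ))) :=
      le_min (by positivity) (by positivity)
    positivity
  obtain ⟨B, Nz, hzw⟩ := bud_hp_ar_zw hX Γ c1 C.ca (A * Q0 * Pi) (by linarith) hc1 hH.ca_pos ε hε
  refine ⟨B, max (max Nc Nr) (max (max Ny NK) Nz), ?_⟩
  intro i hi hN
  obtain ⟨hF, hg, hv0, hvc, hc1', hu1, hv2⟩ := geo i hi
  obtain ⟨VI, v, w, c⟩ := i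
  obtain ⟨hOk, hv, hr, hw, hw1, hc⟩ := hi
  have hN' : max (max Nc Nr) (max (max Ny NK) Nz) ≤ VI.F.N := hN
  have hNc : Nc ≤ VI.F.N := ((le_max_left _ _).trans (le_max_left _ _)).trans hN'
  have hNr : Nr ≤ VI.F.N := ((le_max_right _ _).trans (le_max_left _ _)).trans hN'
  have hNy : Ny ≤ VI.F.N := (((le_max_left _ _).trans (le_max_left _ _)).trans (le_max_right _ _)).trans hN'
  have hNK : NK ≤ VI.F.N := (((le_max_right _ _).trans (le_max_left _ _)).trans (le_max_right _ _)).trans hN'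
  have hNz : Nz ≤ VI.F.N := ((le_max_right _ _).trans (le_max_right _ _)).trans hN'
  have hF : Fam VI.F := hF
  have hg : VI.V.g ∈ Icc (X.glo 0) (X.ghi 0) := hg
  have hv0 : 0 < v := hv0
  have hvc : v < c := hvc
  have hc1' : c ≤ 1 := hc1'
  have hu1 : VI.F.u ≤ w / (2 * Γ) := hu1
  have hv2 : 2 * v ≤ w / (2 * Γ) := hv2
  have hc : c ∈ Icc (w / 2) w := hc
  have hw1 : w ≤ 1 := hw1
  have hFo := hS.ok _ hF
  have hu := BdFr.bds_u_pos hFo hX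
  have hm := bud_hp_aux_m_pos hFo
  have hadm := bud_hp_aux_ckadm hS hF hg VI.V.Q
  have hj : (⟨VI.F, VI.V.g, VI.V.Q⟩ : BdI X).OkS W Fam := ⟨⟨hF, hg, hOk.2.2.2.1.opt⟩, hOk.2.1⟩
  obtain ⟨Kk, hKk, hKu⟩ := hK VI.F hFo hNK Γ hΓ1
  have hwc0 : 0 < VI.F.wc X := by
    have hx := BdFr.bds_x_pos hFo
    have hl0 := BdFr.bds_lam_pos hFo
    have hXr : 0 < VI.F.Xr := div_pos hx hu
    have hLam : 0 < VI.F.Lam := Real.rpow_pos_of_pos hl0 _
    unfold BdFr.wc BdFr.yc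
    positivity
  have hwcu : VI.F.wc X ≤ VI.F.u := by
    have := hy VI.F hFo hNy
    unfold BdFr.wc
    nlinarith
  have hw0 : 0 < w := by
    have : 0 < w / (2 * Γ) := lt_of_lt_of_le hu hu1
    by_contra hcon
    push Not at hcon
    have : w / (2 * Γ) ≤ 0 := div_nonpos_of_nonpos_of_nonneg hcon (by positivity)
    linarith
  have hΓw : Γ * (w / (2 * Γ)) = w / 2 := by field_simp
  have hB0 : 0 ≤ A * ((Kk : ℝ) + 2) ^ 2 * Q0 * Pi / Real.sqrt (VI.F.m * (w / (2 * Γ)) * VI.F.hpTh X c1 C.ca (w / (2 * Γ))) := by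
    have : 0 ≤ Q0 := by linarith
    have : 0 ≤ Pi := by linarith
    positivity
  have key := bud_hp_mpr hS hW hF hg VI.V.Q l hl hv0 hvc hc1' hB0
    (Filter.Eventually.mono (f := atTop) ((hclk ⟨VI.F, VI.V.g, VI.V.Q⟩ hj hNc 1 one_pos).and (hraw ⟨VI.F, VI.V.g, VI.V.Q⟩ hj hNr))
      fun Fs hFs => by
        obtain ⟨hClk, hRw⟩ := hFs
        have hM : (VI.V.Q.hpM VI.V.g (ghPs 1 Fs)).Ok := ckm_ok hm hadm Fs
        have hch := ckm_ch Fs
        have hL : (VI.V.Q.hpM VI.V.g (ghPs 1 Fs)).L = (ghPs 1 Fs).length := ckm_L _ _ _ _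
        have hPj : (VI.V.Q.hpM VI.V.g (ghPs 1 Fs)).Proj (2 * l) Pi := hPr _ _ _ Fs hm hadm
        have hRw' : (VI.V.Q.hpM VI.V.g (ghPs 1 Fs)).Raw (2 * l) Q0 (VI.F.wc X) := ckm_raw_exp hM (by omega) (by omega) hRw
        have hmass : (VI.V.Q.hpM VI.V.g (ghPs 1 Fs)).mass (BdQ.ixV (ghPs 1 Fs) v) ≤ v := by
          have hpu : (ghPosA v).u = v := by simp [ghPosA, GhPos.u]
          have := ckm_idx_mass_le0 VI.F.m (VI.V.Q.bE VI.V.g) (VI.V.Q.hE VI.V.g) hch (p := ghPosA v) (by rw [hpu]; exact hv0.le)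
          rw [hpu] at this
          exact this
        have hnd : (VI.V.Q.hpM VI.V.g (ghPs 1 Fs)).nd (Γ * (w / (2 * Γ))) ≤ BdQ.ixV (ghPs 1 Fs) c := by
          rw [hΓw]
          have e := ckm_nd VI.F.m (VI.V.Q.bE VI.V.g) (VI.V.Q.hE VI.V.g) hch (t := w / 2) (by linarith)
          refine le_of_eq_of_le e ?_
          refine brg_t_idx_mono _ ?_
          exact WithTop.coe_le_coe.2 (bud_hp_aux_posA_le hc.1)
        exact hproj VI.F.m (SkOm VI.F.m) (VI.V.Q.hpM VI.V.g (ghPs 1 Fs)) VI.F.u (1 / (8 * Γ ^ 2)) 1 _ _ Pi Q0 (VI.F.wc X) Kk hM hClk hPj hPi hQ0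
          hwc0 hwcu hRw' hKu (BdQ.ixV (ghPs 1 Fs) v) (BdQ.ixV (ghPs 1 Fs) c) (w / (2 * Γ))
          (hL ▸ brg_t_idx_coe_le _ _) hu1 (by linarith) (by rw [hΓw]; linarith) hnd (by rw [hL]; exact (brg_t_idx_coe_le _ _).trans (Nat.le_succ _)))
  have hz := hzw VI.F w Kk hFo hNz hu1 hw1 hKk (bud_hp_taper hS hF).2
  refine key.trans (le_of_eq_of_le ?_ hz)
  ring

/-! ## 6. ONE Prop for all the inputs of N15; the two exits in the form called by `Bud/L8.lean` -/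

/-- **ALL the inputs of N15** (besides `BdStd`, `IsSk` and (C13), `Z` of the stage) in one closed Prop; `Cbuf` = the buffer constant.
PRODUCER DEBT (one owner each): `BdHpStd` helper8 (`exit_bud_hpstd`, `Bud/HpInst.lean`); `BudHpSv`, `BudHpRaw` N5 (141/109); `BudHpTr` helper8 (`Bud/HpTr.lean`);
(C7a) with EXPLICIT constants N9 (12); the last two clauses = the order of the constants: `c_H` is fixed after `ptop, cL, CL, Cb, c_I, Cbuf`; `c_I ≤ cL c_H`: masses `≥ c_H u` lie beyond the extra floor. -/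
def BudHpIn (X : BdFix) (W : BdWorld) (Fam : BdFr → Prop) (K : BdCst) (Cbuf : ℝ) : Prop :=
  ∃ (C : BdHpC) (dm : BdFr → ℝ) (CS cL CL : ℝ), BdHpStd X Fam C dm ∧ BudHpSv X W Fam CS ∧ BudHpTr X W Fam ∧ BudHpRaw X W Fam ∧ 0 < cL ∧
    BdEv (fun i : BdI X => i.F.N) (fun i => i.OkS W Fam) (fun i => ∀ v ∈ Icc (i.F.wc X) 1, cL * v ≤ i.Q.r v ∧ i.Q.r v ≤ CL * v) ∧
    0 ≤ Cbuf ∧ 4 * max (max 4 (2 / C.ptop)) (4 * CL / cL) * max 1 (K.Cb * X.cI + Cbuf) ≤ X.cH ∧ X.cI ≤ cL * X.cH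

/-- (C17) from the bundled inputs (glue) -/
theorem bud_hp_c17_in (hS : BdStd X W Fam K) (hW : W.IsSk) {Cbuf : ℝ} (hI : BudHpIn X W Fam K Cbuf) {n : ℕ} (hn1 : 1 ≤ n)
    (hn : n ≤ X.J + 1) : BudC17a X W Fam n Cbuf 1 := by
  obtain ⟨C, dm, CS, cL, CL, hH, _, _, hRaw, hcL, h7, hC, hcH, _⟩ := hI
  exact bud_hp_c17 hS hH hW hcL h7 hRaw hn1 hn Cbuf hC hcH

/-- the centred primitive from the bundled inputs (glue) -/
theorem bud_hp_prim_in (hS : BdStd X W Fam K) (hW : W.IsSk) {Cbuf : ℝ} (hI : BudHpIn X W Fam K Cbuf) {n : ℕ} (hn1 : 1 ≤ n)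
    (hn : n ≤ X.J + 1) (hZ : BudZ X W Fam n) (h13 : BudC13 X W Fam n) : BudC17b X W Fam n Cbuf := by
  obtain ⟨C, dm, CS, cL, CL, hH, hSv, hTr, _, _, _, _, _, _⟩ := hI
  exact bud_hp_prim hS hH hW hSv hTr hn1 hn Cbuf hZ h13

/-- (54) `r(1) = 1` for every feasible quantile -/
theorem bud_hp_r_one {F : BdFr} {X : BdFix} (Q : BdQ F X) : Q.r 1 = 1 := by
  have h := Q.r_al 1 ⟨zero_le_one, le_rfl⟩
  rwa [Q.al_one] at h

/-- (54) **the clause `c_I ≤ c_L c_H` of `BudHpIn`**: it does not follow from `hcH` alone (`CL` might be tiny); but `r(1) = 1` forces `CL ≥ 1` as soon as `[w_c, 1]` is nonempty, and otherwise (C7a) is empty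
and holds with the constants `1, 1`. -/
theorem bud_hp_cI {X : BdFix} {W : BdWorld} {Fam : BdFr → Prop} {cL CL A B : ℝ} (hcL : 0 < cL) (hA : 4 ≤ A) (hB : 0 ≤ B)
    (hBI : X.cI ≤ 16 * B)
    (h7 : BdEv (fun i : BdI X => i.F.N) (fun i => i.OkS W Fam) fun i => ∀ v ∈ Icc (i.F.wc X) 1, cL * v ≤ i.Q.r v ∧ i.Q.r v ≤ CL * v)
    (hcH : 4 * max A (4 * CL / cL) * B ≤ X.cH) :
    ∃ cL' CL' : ℝ, 0 < cL' ∧
      BdEv (fun i : BdI X => i.F.N) (fun i => i.OkS W Fam) (fun i => ∀ v ∈ Icc (i.F.wc X) 1, cL' * v ≤ i.Q.r v ∧ i.Q.r v ≤ CL' * v) ∧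
      4 * max A (4 * CL' / cL') * B ≤ X.cH ∧ X.cI ≤ cL' * X.cH := by
  by_cases h1 : 1 ≤ CL
  · refine ⟨cL, CL, hcL, h7, hcH, ?_⟩
    have e : cL * (4 * (4 * CL / cL) * B) = 16 * CL * B := by field_simp; ring
    have a1 : 4 * (4 * CL / cL) * B ≤ 4 * max A (4 * CL / cL) * B :=
      mul_le_mul_of_nonneg_right (mul_le_mul_of_nonneg_left (le_max_right _ _) (by norm_num)) hB
    have a2 : 16 * B ≤ 16 * CL * B := by nlinarith
    calc X.cI ≤ 16 * B := hBI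
      _ ≤ 16 * CL * B := a2
      _ = cL * (4 * (4 * CL / cL) * B) := e.symm
      _ ≤ cL * X.cH := mul_le_mul_of_nonneg_left (a1.trans hcH) hcL.le
  · have a1 : 4 * A * B ≤ 4 * max A (4 * CL / cL) * B :=
      mul_le_mul_of_nonneg_right (mul_le_mul_of_nonneg_left (le_max_left _ _) (by norm_num)) hB
    refine ⟨1, 1, one_pos, h7.mono fun i h v hv => ?_, ?_, ?_⟩
    · exfalso
      have := (h 1 ⟨hv.1.trans hv.2, le_rfl⟩).2
      rw [bud_hp_r_one, mul_one] at this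
      exact h1 this
    · have : max A (4 * 1 / 1) = A := max_eq_left (by norm_num; exact hA)
      rw [this]
      exact a1.trans hcH
    · rw [one_mul]
      have : 16 * B ≤ 4 * A * B := by nlinarith
      exact hBI.trans (this.trans (a1.trans hcH))

theorem bud_hpfr_eqns_cite : True := by
  have := @BudHpIn.eq_1; have := @BdI.OkS.eq_1
  have := @BdQ.hpT.eq_1; have := @BdQ.hpI.eq_1; have := @BdQ.hpS.eq_1; have := @BdQ.hpM.eq_1; have := @BdFr.hpTh.eq_1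
  have := @BdFr.hpBa.eq_1; have := @BdFr.hpBp.eq_1; have := @BudHpSv.eq_1; have := @BudHpTr.eq_1; have := @BudHpRaw.eq_1
  trivial

end

end Claimed.Agent.R286
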