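import Claimed.Agent.R286.Bud.Defs
import Claimed.Agent.R286.Bud.PSysB
import Claimed.Agent.R286.LL04.Contract

/-!
# Row 286 (S0533), LL sec. 7, layer L6 = `Bud/Top`: THE EXIT (C1), (C2) OF THE SECTION, ITS SUPPLIES, THE FAMILY OF LOCAL FRAMES      (owner helper66; prefix `bt_`, `bt`, `Bt`)

TEX[LL:bud:targets]  07-budgets.tex l.32-128 (reduction), l.130-160 (local frames), l.2217-2253 (completion).   Only definitions here.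

EXIT (what LL 08-10 read; PATH LEVEL, on the physical points `ll04Pt` and the law `ll04Mu` of `LL04/Contract`):
* `BtSeg F N ell lam chiL chiE sm`   the four kinds of segments of LL Prop. 4.1.
* `p.wA F 𝔹 m φ = ∫_0^a φ(v) A_v dv`, `A_v = B_v - 2 q S_v + q²`.
* `BtC1 𝔹 F`      (C1) in MAJORANT form: a measurable `Bm ≥ 0` of `γ` with `E_γ Bm ≤ N^ε U⁴` and `u ∫_{u/Cen}^{Cen u} A_v dv ≤ Bm γ` for ALL real `u ∈ [c0 U, a]`, all `γ`.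
* `BtC2 𝔹 F c`    (C2): `E_γ ∫ (v²+U²) A_v dv ≤ x^{4+c}` (integrand continuous in `γ`), `0 ≤ trialGap ≤ x^{4+c}` for EVERY `γ`.

SUPPLIES (each a closed `Prop`; owner in brackets):
* `BtWorld 𝔹 W`   the placeholder world of `Bud/Defs` carries the numbers `𝔹` of `LL/PathsDefs` at terminal mass 1, on clocks with `BtE` (= `ClkEnd`)   [162: `skWorld`]
* `BtSys 𝔹`       the numbers `𝔹` at terminal mass `a` are those of a `PSys` ((A1), line 1), on clocks with `BtE`   [162: `skPSys`]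
* `BtEnd 𝔹 F`     the physical clocks have no jump at the terminal mass   [LL 03: 272 / 253]
* `BtSite 𝔹`      `f_m(0,K) = f_1(0,K)`   [26 + bridge]
* `BtScale 𝔹`     LL 11 l.20-37: terminal mass `a` -> terminal mass one   [LL 02 / Hub instance]
* `BtG1 𝔹 F cG`   (G1)   [LL 06: 291 / 58]
* `LlSec3 𝔹 F`    (P2), (P4), (P8), (P10), (P11), admissibility   [LL 03];   `BtClk 𝔹 F` (the physical clocks are `IsClock`) is DERIVED from it: `bt_clk`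
* `BtLoc X W 𝔉`   the local assertions (i), (ii) of l.88-100 at the last stage, majorant form   [LL 07 part B: `BudB.exit_all` of 157 + `OptEx` + a.e. good parameters]

THE FAMILY: `btFr 𝔹 F p hd m st kap Ilo Ihi : BdFr` = the direct point `p` at `γ_u = 0` (`u = 2^-hd`), NORMALISED to length one, with an arbitrary box (C5);  `BtFam 𝔹 F` = all of them.
`BtFix F X`: the fixed data of LL 03 (`LlFix`) and of LL 07 (`BdFix`) agree.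
-/

set_option autoImplicit false

namespace Claimed.Agent.R286

open MeasureTheory Set Filter Topology
open scoped ENNReal

noncomputable section

/-! ## 1. The exit -/

/-- the segments of LL Prop. 4.1: strength sweep, the two multiplier sweeps, the smoothed size segment -/
def BtSeg (F : LlFix) (N : ℕ) (ell lam chiL chiE : ℝ) (sm : Bool) : Prop :=
  ell ∈ Icc (1 : ℝ) ((2 : ℝ) ^ (1 / 6 : ℝ)) ∧
  ((sm = false ∧ chiL = 0 ∧ chiE = 1 ∧ skX N ^ (12 : ℝ) ≤ lam ∧ lam ≤ skX N ^ F.pS) ∨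
   (sm = false ∧ lam = skX N ^ F.pS ∧ chiL ∈ Icc (0 : ℝ) 1 ∧ chiE = 1) ∨
   (sm = false ∧ lam = skX N ^ F.pS ∧ chiL = 1 ∧ chiE ∈ Icc (0 : ℝ) 1) ∨
   (sm = true ∧ lam = skX N ^ F.pS ∧ chiL = 1 ∧ chiE = 0))

/-- `∫_0^a φ(v) A_v dv` -/
def LlPt.wA (p : LlPt) (F : LlFix) (𝔹 : LlBase) (m : ℕ) (φ : ℝ → ℝ) : ℝ :=
  ∫ v in Ioo (0 : ℝ) p.a, φ v * p.Aerr F 𝔹 m v

/-- **(C1)** for the dyads `u ≥ c0 U` enlarged by the factor `Cen`, majorant form.     TEX[LL:bud:targets] -/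
def BtC1at (𝔹 : LlBase) (F : LlFix) (c0 Cen : ℝ) : Prop :=
  ∀ ε : ℝ, 0 < ε → ∃ N0 : ℕ, ∀ N : ℕ, N0 ≤ N →
    ∀ (ell lam chiL chiE : ℝ) (sm : Bool), BtSeg F N ell lam chiL chiE sm → ∀ m : ℕ, N ≤ 2 * m → m ≤ 3 * N →
    ∃ Bm : (Fin (N + 1) → ℝ) → ℝ, Measurable Bm ∧ (∀ γ, 0 ≤ Bm γ) ∧
      ∫⁻ γ, ENNReal.ofReal (Bm γ) ∂ll04Mu N ≤ ENNReal.ofReal ((N : ℝ) ^ ε * (ll04Pt N ell lam chiL chiE sm 0).U F ^ 4) ∧
      ∀ (γ : Fin (N + 1) → ℝ) (u : ℝ), c0 * (ll04Pt N ell lam chiL chiE sm γ).U F ≤ u → u ≤ (ll04Pt N ell lam chiL chiE sm γ).a →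
        u * (ll04Pt N ell lam chiL chiE sm γ).wA F 𝔹 m (indicator (Icc (u / Cen) (Cen * u)) 1) ≤ Bm γ

/-- **(C1)**: all constants `U ≲ u`, all fixed enlargements.     TEX[LL:bud:targets] -/
def BtC1 (𝔹 : LlBase) (F : LlFix) : Prop := ∀ c0 Cen : ℝ, 0 < c0 → 1 ≤ Cen → BtC1at 𝔹 F c0 Cen

/-- **(C2)** on the size paths, with the saving `c`.     TEX[LL:bud:targets] -/
structure BtC2 (𝔹 : LlBase) (F : LlFix) (c : ℝ) : Prop where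
  avg : ∃ N0 : ℕ, ∀ N : ℕ, N0 ≤ N → ∀ ell ∈ Icc (1 : ℝ) ((2 : ℝ) ^ (1 / 6 : ℝ)), ∀ m : ℕ, N ≤ 2 * m → m ≤ 3 * N →
    Continuous (fun γ : Fin (N + 1) → ℝ => (ll04Pt N ell (skX N ^ F.pS) 1 0 true γ).wA F 𝔹 m
      fun v => v ^ 2 + (ll04Pt N ell (skX N ^ F.pS) 1 0 true γ).U F ^ 2) ∧
    ∫ γ, (ll04Pt N ell (skX N ^ F.pS) 1 0 true γ).wA F 𝔹 m
      (fun v => v ^ 2 + (ll04Pt N ell (skX N ^ F.pS) 1 0 true γ).U F ^ 2) ∂ll04Mu N ≤ skX N ^ (4 + c)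
  gap : ∃ N0 : ℕ, ∀ N : ℕ, N0 ≤ N → ∀ ell ∈ Icc (1 : ℝ) ((2 : ℝ) ^ (1 / 6 : ℝ)), ∀ m : ℕ, N ≤ 2 * m → m ≤ 3 * N →
    ∀ γ : Fin (N + 1) → ℝ, 0 ≤ (ll04Pt N ell (skX N ^ F.pS) 1 0 true γ).trialGap F 𝔹 m ∧
      (ll04Pt N ell (skX N ^ F.pS) 1 0 true γ).trialGap F 𝔹 m ≤ skX N ^ (4 + c)

/-! ## 2. The supplies -/

/-- LL 11 l.20-37: `c~(u) = a² c(a u)` -/
def btResc (a : ℝ) (c : ℝ → ℝ) : ℝ → ℝ := fun u => a ^ 2 * c (a * u)

/-- no jump at the terminal mass (`= ClkEnd a c` of `Exit/BudWorld`, definitionally): the raw numbers `𝔹` read `c a`, the systems `PSys` read the clocks on `(0,a)` only -/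
def BtE (a : ℝ) (c : ℝ → ℝ) : Prop := c a = sSup (c '' Ioo 0 a)

/-- **SUPPLY (WORLD)**: the world of `Bud/Defs` carries the numbers `𝔹` at terminal mass one (on clocks without jump at the end).      OWNER: 162 (`Exit/BudWorld`: `skWorld`) -/
structure BtWorld (𝔹 : LlBase) (W : BdWorld) : Prop where
  a1 : ∀ m, (W.ps m).a = 1
  f : ∀ (m : ℕ) (b h : ℝ → ℝ), 0 < m → IsClock 1 b → IsClock 1 h → BtE 1 b → BtE 1 h → (W.ps m).f b h = 𝔹.pres m 1 b h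
  S : ∀ (m : ℕ) (b h : ℝ → ℝ), 0 < m → IsClock 1 b → IsClock 1 h → BtE 1 b → BtE 1 h → ∀ v ∈ Ioo (0 : ℝ) 1, (W.ps m).S b h v = 𝔹.S m 1 b h v
  B : ∀ (m : ℕ) (b h : ℝ → ℝ), 0 < m → IsClock 1 b → IsClock 1 h → BtE 1 b → BtE 1 h → ∀ v ∈ Ioo (0 : ℝ) 1, (W.ps m).B b h v = 𝔹.B m 1 b h v
  fsp : ∀ K : ℝ → ℝ, IsClock 1 K → BtE 1 K → W.fsp K = 𝔹.pres 1 1 0 K

/-- **SUPPLY (SYS)**: (A1), line 1, at every terminal mass: the numbers `𝔹` (on clocks without jump at the end) are those of a pressure system.     TEX[LL:found:estimates]      OWNER: 162 (`skPSys`) -/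
def BtSys (𝔹 : LlBase) : Prop :=
  ∀ (m : ℕ) (a : ℝ), 1 ≤ m → 0 < a → ∃ P : PSys, P.a = a ∧ ∀ b h : ℝ → ℝ, IsClock a b → IsClock a h → BtE a b → BtE a h →
    P.f b h = 𝔹.f m a b h ∧ ∀ v ∈ Ioo (0 : ℝ) a, P.S b h v = 𝔹.Sv m a b h v ∧ P.B b h v = 𝔹.Bv m a b h v

/-- **SUPPLY (SITE)**: without matrix clock the sites decouple.      OWNER: 26 (`Macro/Site`) + bridge -/
def BtSite (𝔹 : LlBase) : Prop :=
  ∀ (m : ℕ) (a : ℝ) (K : ℝ → ℝ), 1 ≤ m → 0 < a → IsClock a K → BtE a K → 𝔹.f m a 0 K = 𝔹.fspin a K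

/-- **SUPPLY (SCALE)**: LL 11 l.20-37, conversion of the terminal mass `a` to the terminal mass one.      OWNER: LL 02 / Hub instance -/
structure BtScale (𝔹 : LlBase) : Prop where
  f : ∀ (m : ℕ) (a : ℝ) (b h : ℝ → ℝ), 0 < a → IsClock a b → IsClock a h → BtE a b → BtE a h → 𝔹.pres m 1 (btResc a b) (btResc a h) = a * 𝔹.pres m a b h
  S : ∀ (m : ℕ) (a : ℝ) (b h : ℝ → ℝ), 0 < a → IsClock a b → IsClock a h → BtE a b → BtE a h → ∀ w ∈ Ioo (0 : ℝ) 1,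
    𝔹.S m 1 (btResc a b) (btResc a h) w = 𝔹.S m a b h (a * w)
  B : ∀ (m : ℕ) (a : ℝ) (b h : ℝ → ℝ), 0 < a → IsClock a b → IsClock a h → BtE a b → BtE a h → ∀ w ∈ Ioo (0 : ℝ) 1,
    𝔹.B m 1 (btResc a b) (btResc a h) w = 𝔹.B m a b h (a * w)

/-- regularity of the physical clocks at one point -/
structure BtClkAt (𝔹 : LlBase) (F : LlFix) (p : LlPt) : Prop where
  b : IsClock p.a (p.b F 𝔹)
  h : IsClock p.a (p.h F 𝔹)
  hS : IsClock p.a (p.hS F 𝔹)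
  K : IsClock p.a (p.K F 𝔹)
  bE : BtE p.a (p.b F 𝔹)
  hE : BtE p.a (p.h F 𝔹)
  hSE : BtE p.a (p.hS F 𝔹)
  KE : BtE p.a (p.K F 𝔹)
  q_mono : MonotoneOn (p.q F 𝔹) (Ioo 0 p.a)
  q_mem : ∀ v ∈ Ioo 0 p.a, p.q F 𝔹 v ∈ Icc (0 : ℝ) 1

/-- **SUPPLY (END)**: the physical clocks have no jump at the terminal mass (`llInv` is left continuous, `b`, the seeds are continuous).      OWNER: LL 03 (272 / 253: field of `LlAdm` asked by 162) + `bw_end_of_tendsto` -/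
def BtEnd (𝔹 : LlBase) (F : LlFix) : Prop :=
  LlUnif F fun p => BtE p.a (p.b F 𝔹) ∧ BtE p.a (p.h F 𝔹) ∧ BtE p.a (p.hS F 𝔹) ∧ BtE p.a (p.K F 𝔹)

/-- all physical clocks (any `γ ∈ [-4,4]`, masked/seeded or not) are clocks of `Bud/PSys` (03 l.356-437); derived from `LlSec3`, `BtEnd`: `bt_clk` -/
def BtClk (𝔹 : LlBase) (F : LlFix) : Prop := LlUnif F fun p => BtClkAt 𝔹 F p

/-- **SUPPLY (G1)**, upper bound: unmasked, unseeded field `h_*`, direct paths.     TEX[LL:global:trial-gap]      OWNER: LL 06 (291 / 58) -/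
def BtG1 (𝔹 : LlBase) (F : LlFix) (cG : ℝ) : Prop :=
  LlUnif F fun p => p.sm = false → ∀ m : ℕ, p.N ≤ 2 * m → m ≤ 3 * p.N →
    𝔹.fspin p.a (p.K F 𝔹) + (∫ v in Ioo (0 : ℝ) p.a, p.b F 𝔹 v * p.q F 𝔹 v ^ 2) / 4 - 𝔹.f m p.a (p.b F 𝔹) (p.hS F 𝔹) ≤ p.x ^ (4 + cG)

/-! ## 3. The family of local frames -/

/-- the fixed data of LL 03 and LL 07 agree -/
structure BtFix (F : LlFix) (X : BdFix) : Prop where
  T : X.T = F.T
  sS : X.sS = F.sS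
  eta : X.eta = F.eta
  pS : X.pS = F.pS

/-- the point `p` with the global parameter `g` and `γ_u = t` at the dyad `u = 2^-hd` -/
def LlPt.loc (p : LlPt) (hd : ℕ) (g t : ℝ) : LlPt := (p.wG0 g).wGu hd t

/-- the dyadic mass `u = 2^-hd` -/
def btU (hd : ℕ) : ℝ := (2 : ℝ)⁻¹ ^ hd

/-- `c_u = -∂_{γ_u} b` -/
def btCu (F : LlFix) (p : LlPt) (hd : ℕ) (v : ℝ) : ℝ := F.cb * p.lam * F.c1 * btU hd ^ 2 * F.phi (v / btU hd)

/-- **the local frame** of the direct point `p` at the dyad `u = 2^-hd`, `γ_u = 0`, normalised to length one (l.130-135), with the box data `st, kap, Ilo, Ihi` -/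
def btFr (𝔹 : LlBase) (F : LlFix) (p : LlPt) (hd m st : ℕ) (kap Ilo Ihi : ℝ) : BdFr where
  N := p.N
  m := m
  lam := p.lam
  u := btU hd
  ell := p.ell
  chiL := p.chiL
  chiE := p.chiE
  Tm := p.ell ^ 2 * p.b0 F 𝔹
  K := btResc p.ell (p.K F 𝔹)
  q := fun w => p.q F 𝔹 (p.ell * w)
  d := btResc p.ell ((p.loc hd 0 0).d F 𝔹)
  b := fun g => btResc p.ell ((p.loc hd g 0).b F 𝔹)
  h := fun g => btResc p.ell ((p.loc hd g 0).h F 𝔹)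
  cu := btResc p.ell (btCu F p hd)
  st := st
  kap := kap
  Ilo := Ilo
  Ihi := Ihi

/-- **the family**: "the frame comes from an LL path" -/
def BtFam (𝔹 : LlBase) (F : LlFix) (Fr : BdFr) : Prop :=
  ∃ (p : LlPt) (hd : ℕ), p.Ok F ∧ p.sm = false ∧ p.IsDy F hd ∧ Fr = btFr 𝔹 F p hd Fr.m Fr.st Fr.kap Fr.Ilo Fr.Ihi

/-- the frame at the last stage -/
def btFrL (𝔹 : LlBase) (F : LlFix) (X : BdFix) (p : LlPt) (hd m : ℕ) : BdFr :=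
  btFr 𝔹 F p hd m (X.J + 1) ((btFr 𝔹 F p hd m 0 0 0 0).kstage X (X.J + 1)) (X.plo (X.J + 1)) (X.phi (X.J + 1))

/-- the cost scale `x^{4-2ζ} u Λ^{1/3}` of the optimised excess -/
def BdFr.btCost (Fr : BdFr) (X : BdFix) : ℝ := Fr.x ^ (4 - 2 * X.zeta) * Fr.u * Fr.Lam ^ (1 / 3 : ℝ)

/-- **the local assertions (i), (ii)** (l.88-100) for the final constraints, in majorant form, averaged over `γ_0 ∈ [1/3, 2/3]` -/
def BtLoc (X : BdFix) (W : BdWorld) (𝔉 : BdFr → Prop) : Prop :=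
  ∃ C : ℝ, ∃ N0 : ℕ, ∀ Fr : BdFr, 𝔉 Fr → Fr.Ok X → Fr.AtStage X → Fr.st = X.J + 1 → N0 ≤ Fr.N →
    ∃ Z : ℝ → ℝ,
      IntervalIntegrable (Fr.exc X W) volume (1 / 3) (2 / 3) ∧ ∫ g in (1 / 3 : ℝ)..(2 / 3), Fr.exc X W g ≤ C * Fr.btCost X ∧
      IntervalIntegrable (fun g => Z g ^ 2) volume (1 / 3) (2 / 3) ∧ ∫ g in (1 / 3 : ℝ)..(2 / 3), Z g ^ 2 ≤ C ∧
      ∀ᵐ g ∂(volume.restrict (Icc (1 / 3 : ℝ) (2 / 3))), ∃ Q : BdQ Fr X, Q.IsOpt W g ∧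
        ∀ v ∈ Ioo (0 : ℝ) 1, Fr.cu v ≠ 0 →
          |Q.r v - Fr.q v| ≤ C * (Fr.u * Fr.agoal X * Z g) ∧ 2 * Fr.cu v ≤ Fr.C X (Q.r v)

/-! ## 4. Quantities of the global comparison (l.48-78) -/

namespace LlPt

variable (p : LlPt) (F : LlFix) (𝔹 : LlBase)

/-- `Φ = f_m^0 - ¼∫ b q² + ½∫ d q` (ALL masses; `d = -h_*` on the mask) -/
def Phi (m : ℕ) : ℝ :=
  p.f0 F 𝔹 m - (∫ v in Ioo (0 : ℝ) p.a, p.b F 𝔹 v * p.q F 𝔹 v ^ 2) / 4 + (∫ v in Ioo (0 : ℝ) p.a, p.d F 𝔹 v * p.q F 𝔹 v) / 2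

/-- `∫ d²/c_g` -/
def dcg : ℝ := ∫ v in Ioo (0 : ℝ) p.a, p.d F 𝔹 v ^ 2 / p.cg F v

/-- `∫ d²/b` -/
def dbb : ℝ := ∫ v in Ioo (0 : ℝ) p.a, p.d F 𝔹 v ^ 2 / p.b F 𝔹 v

/-- the budget `𝓑` of l.56 with the subpower loss `x^{-ε}` -/
def Bcal (cG ε : ℝ) : ℝ :=
  p.x ^ (4 + cG) + p.x ^ (-ε) * (p.lam ^ (1 + 2 * F.eta) * p.U F ^ 5 + p.chiE ^ 2 * p.lam ^ (1 + 2 * F.eta) * p.U F ^ 4
    + p.chiL ^ 2 * p.x ^ 6 / p.lam)

end LlPt

/-- forces the equation lemmas of the definitions to be generated HERE -/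
theorem bt_defs_eqns_cite : True := by
  have := @BtSeg.eq_1; have := @BtE.eq_1; have := @BtEnd.eq_1; have := @LlPt.wA.eq_1; have := @BtC1at.eq_1; have := @BtC1.eq_1; have := @BtSys.eq_1; have := @BtClk.eq_1
  have := @BtG1.eq_1; have := @btResc.eq_1; have := @BtSite.eq_1; have := @LlPt.loc.eq_1; have := @btU.eq_1; have := @btCu.eq_1
  have := @btFr.eq_1; have := @BtFam.eq_1; have := @btFrL.eq_1; have := @BdFr.btCost.eq_1; have := @BtLoc.eq_1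
  have := @LlPt.Phi.eq_1; have := @LlPt.dcg.eq_1; have := @LlPt.dbb.eq_1; have := @LlPt.Bcal.eq_1
  trivial

end

end Claimed.Agent.R286
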