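import Claimed.Agent.R286.Bud.HpFr
import Claimed.Agent.R286.Bud.TopDefs

/-!
# Row 286, LL sec. 7, node N15: PRODUCER of `BdHpStd` on the family of local frames `BtFam`      (owner helper8; prefix `hpi_`)

`exit_bud_hpstd : LlHp 𝔹 F → F.Ok → BtFix F X → X.Ok → … → ∃ C dm, C.ptop = p_top ∧ BdHpStd X Fam C dm` for EVERY family `Fam ⊆ BtFam 𝔹 F ∩ {Fr.Ok X}`.      ASSEMBLY PROVED.
SUPPLIER of the hypothesis: LL 03: `LlHp 𝔹 F` = the field `hp` of `LlSec3` (`LL/PathsDefs.lean`), produced by `lhp_main` (`LL/PathsHp.lean`: the LL-level leaves `hpi_xi_pl … hpi_q_var` live THERE).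
LEAF here: `hpi_edge_ftc` (pure FTC).      `hpi_congr`, `hpi_scales`, `hpi_loc_ok` PROVED by helper103.
-/

set_option autoImplicit false

namespace Claimed.Agent.R286

open MeasureTheory Set Filter Topology

noncomputable section

/-! ## 0. real lemma: the edge density is the derivative of the edge profile -/

/-- `∫_s^t [(v-p+d_-)^{-3/2} + (1-v+d_+)^{-3/2}] dv = 2 [(1-v+d_+)^{-1/2} - (v-p+d_-)^{-1/2}]_s^t` -/
theorem hpi_edge_ftc {p dm dp s t : ℝ} (hdm : 0 < dm) (hdp : 0 < dp) (hps : p ≤ s) (hst : s ≤ t) (ht : t ≤ 1) :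
    ∫ v in s..t, hpEdge p dm dp v =
      2 * (((1 - t + dp) ^ (-(1 / 2) : ℝ) - (t - p + dm) ^ (-(1 / 2) : ℝ)) - ((1 - s + dp) ^ (-(1 / 2) : ℝ) - (s - p + dm) ^ (-(1 / 2) : ℝ))) := by
  have hder : ∀ v ∈ uIcc s t, HasDerivAt (fun v : ℝ => 2 * ((1 - v + dp) ^ (-(1 / 2) : ℝ) - (v - p + dm) ^ (-(1 / 2) : ℝ)))
      (hpEdge p dm dp v) v := by
    intro v hv
    rw [uIcc_of_le hst] at hv
    have h1 : 0 < 1 - v + dp := by linarith [hv.2]
    have h2 : 0 < v - p + dm := by linarith [hv.1]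
    have d1 : HasDerivAt (fun v : ℝ => 1 - v + dp) (-1) v := by
      simpa using ((hasDerivAt_id v).const_sub 1).add_const dp
    have d2 : HasDerivAt (fun v : ℝ => v - p + dm) 1 v := by
      simpa using ((hasDerivAt_id v).sub_const p).add_const dm
    have e1 := d1.rpow_const (p := (-(1 / 2) : ℝ)) (Or.inl h1.ne')
    have e2 := d2.rpow_const (p := (-(1 / 2) : ℝ)) (Or.inl h2.ne')
    have e3 := (e1.sub e2).const_mul 2
    have x1 : (-(1 / 2) : ℝ) - 1 = -(3 / 2) := by norm_num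
    rw [x1] at e3
    have e4 : hpEdge p dm dp v = 2 * (-1 * (-(1 / 2) : ℝ) * (1 - v + dp) ^ (-(3 / 2) : ℝ) - 1 * (-(1 / 2) : ℝ) * (v - p + dm) ^ (-(3 / 2) : ℝ)) := by
      unfold hpEdge
      ring
    rw [e4]
    exact e3
  have hcont : ContinuousOn (hpEdge p dm dp) (uIcc s t) := by
    rw [uIcc_of_le hst]
    unfold hpEdge
    refine ContinuousOn.add ?_ ?_
    · refine ContinuousOn.rpow_const (by fun_prop) fun v hv => Or.inl ?_
      have : 0 < v - p + dm := by linarith [hv.1]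
      exact this.ne'
    · refine ContinuousOn.rpow_const (by fun_prop) fun v hv => Or.inl ?_
      have : 0 < 1 - v + dp := by linarith [hv.2]
      exact this.ne'
  rw [intervalIntegral.integral_eq_sub_of_hasDerivAt hder hcont.intervalIntegrable]
  ring

variable {𝔹 : LlBase} {F : LlFix}

/-! ## 1. frames -/

/-- the direct point which carries the scales of a frame -/
def BdFr.hpPt (Fr : BdFr) : LlPt := ⟨Fr.N, Fr.ell, Fr.lam, 0, fun _ => 0, Fr.chiL, Fr.chiE, false⟩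

/-- `d_-` of a frame -/
def hpiDm (𝔹 : LlBase) (F : LlFix) (Fr : BdFr) : ℝ := Fr.hpPt.dMi F 𝔹

/-- `U`, `d_±` only depend on `N`, `λ` -/
theorem hpi_congr {p p' : LlPt} (hN : p.N = p'.N) (hl : p.lam = p'.lam) :
    p.x = p'.x ∧ p.U F = p'.U F ∧ p.Ut F = p'.Ut F ∧ p.dPl F = p'.dPl F ∧ p.dMi F 𝔹 = p'.dMi F 𝔹 ∧ p.lam1 F = p'.lam1 F := by
  have hx : p.x = p'.x := by unfold LlPt.x; rw [hN]
  have hU : p.U F = p'.U F := by unfold LlPt.U; rw [hx, hl]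
  have hUt : p.Ut F = p'.Ut F := by unfold LlPt.Ut; rw [hU]
  have hE : p.Eb F 𝔹 = p'.Eb F 𝔹 := by unfold LlPt.Eb; rw [hUt]
  exact ⟨hx, hU, hUt, by unfold LlPt.dPl; rw [hUt], by unfold LlPt.dMi; rw [hUt, hE], by unfold LlPt.lam1; rw [hl]⟩

variable {X : BdFix}

/-- on a frame `U ≤ CU u ≤ CU λ^{b_l} → 0`: the truncations of `U` are inactive -/
theorem hpi_scales (hF : F.Ok) (hFX : BtFix F X) (hX : X.Ok) (δ : ℝ) (hδ : 0 < δ) : ∃ N0 : ℕ, ∀ Fr : BdFr, Fr.Ok X → N0 ≤ Fr.N →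
    ∀ p : LlPt, p.N = Fr.N → p.lam = Fr.lam →
      p.x = Fr.x ∧ p.U F = Fr.U X ∧ p.Ut F = Fr.U X ∧ F.Ups (p.U F) = 1 ∧ p.lam1 F = Fr.lam1 X ∧ p.dPl F = Fr.U X ^ 4 ∧ Fr.U X ≤ δ ∧ Fr.u ≤ δ ∧
      Fr.x ≤ δ * Fr.u := by
  have hCU := hX.CU_pos
  have hsS : 0 < X.sS / 2 := by
    have h1 := hX.tau_le
    unfold BdFix.sS
    linarith
  obtain ⟨ε, hεd⟩ : ∃ ε, ε = min (min δ (δ / X.CU)) (min (1 / X.CU) (F.U0 / 2 / X.CU)) := ⟨_, rfl⟩
  have hε : 0 < ε := by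
    rw [hεd]
    have := hF.U00
    exact lt_min (lt_min hδ (by positivity)) (lt_min (by positivity) (by positivity))
  obtain ⟨N1, h1⟩ := bud_hp_aux_lam_small hX X.bl ε hX.bl_pos hε
  obtain ⟨N2, h2⟩ := bud_hp_aux_lam_small hX (X.sS / 2) (δ / X.CU) hsS (by positivity)
  refine ⟨max N1 N2, fun Fr hFr hN p hpN hpl => ?_⟩
  have hl0 : 0 < Fr.lam := BdFr.bds_lam_pos hFr
  have hN2 : (2 : ℝ) ≤ Fr.N := by exact_mod_cast hFr.N2
  have hx0 : 0 < Fr.x := Real.rpow_pos_of_pos (by linarith) _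
  have hu : Fr.u ≤ ε := hFr.u_hi.trans (h1 Fr hFr ((le_max_left _ _).trans hN))
  have hU0 : 0 < Fr.U X := mul_pos hx0 (Real.rpow_pos_of_pos hl0 _)
  have hUu : Fr.U X ≤ X.CU * ε := hFr.u_lo.trans (mul_le_mul_of_nonneg_left hu hCU.le)
  have e1 : X.CU * ε ≤ δ := by
    have : ε ≤ δ / X.CU := hεd ▸ (min_le_left _ _).trans (min_le_right _ _)
    rwa [le_div_iff₀ hCU, mul_comm] at this
  have e2 : X.CU * ε ≤ 1 := by
    have : ε ≤ 1 / X.CU := hεd ▸ (min_le_right _ _).trans (min_le_left _ _)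
    rwa [le_div_iff₀ hCU, mul_comm] at this
  have e3 : X.CU * ε ≤ F.U0 / 2 := by
    have : ε ≤ F.U0 / 2 / X.CU := hεd ▸ (min_le_right _ _).trans (min_le_right _ _)
    rwa [le_div_iff₀ hCU, mul_comm] at this
  have e4 : ε ≤ δ := hεd ▸ (min_le_left _ _).trans (min_le_left _ _)
  have hx : p.x = Fr.x := by unfold LlPt.x BdFr.x; rw [hpN]
  have hU : p.U F = Fr.U X := by
    unfold LlPt.U
    rw [hx, hpl, ← hFX.sS]
    exact min_eq_right (hUu.trans e2)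
  have hUt : p.Ut F = Fr.U X := by
    unfold LlPt.Ut
    rw [hU]
    exact min_eq_right (by linarith [hF.U00])
  refine ⟨hx, hU, hUt, ?_, ?_, ?_, hUu.trans e1, hu.trans e4, ?_⟩
  · rw [hU]
    exact hF.Ups_one _ ⟨hU0.le, hUu.trans e3⟩
  · unfold LlPt.lam1 BdFr.lam1
    rw [hpl, hFX.eta]
  · unfold LlPt.dPl
    rw [hUt]
  · have h3 := h2 Fr hFr ((le_max_right _ _).trans hN)
    have hl : 0 < Fr.lam ^ (X.sS / 2) := Real.rpow_pos_of_pos hl0 _
    have hu0 : 0 < Fr.u := by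
      have := lt_of_lt_of_le hU0 hFr.u_lo
      exact (mul_pos_iff_of_pos_left hCU).1 this
    have e : Fr.x = Fr.U X * Fr.lam ^ (X.sS / 2) := by
      unfold BdFr.U
      rw [mul_assoc, ← Real.rpow_add hl0]
      simp
    rw [e]
    calc Fr.U X * Fr.lam ^ (X.sS / 2) ≤ (X.CU * Fr.u) * (δ / X.CU) := mul_le_mul hFr.u_lo h3 hl.le (by positivity)
      _ = δ * Fr.u := by field_simp

/-- the point `p.loc hd g 0` is admissible -/
theorem hpi_loc_ok {p : LlPt} (hp : p.Ok F) (hd : ℕ) {g : ℝ} (hg : g ∈ Icc (-4 : ℝ) 4) : (p.loc hd g 0).Ok F := by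
  refine ⟨hp.N2, hp.ell1, hp.ell2, hp.lam_lo, hp.lam_hi, hg, fun h => ?_, hp.chiL, hp.chiE, hp.sm_fin⟩
  show Function.update p.gu hd 0 h ∈ Icc (-4 : ℝ) 4
  by_cases e : h = hd
  · subst e
    rw [Function.update_self]
    constructor <;> norm_num
  · rw [Function.update_of_ne e]
    exact hp.gu h

/-- **PRODUCER of `BdHpStd`** on the family of local frames.      TEX[LL:eq:P4], TEX[LL:eq:P6], TEX[LL:eq:P7]
ASSEMBLY (PROVED): `Fr = btFr 𝔹 F p hd …` (`congrArg` on the fields), `pg = p.loc hd g 0` (`hpi_loc_ok`), `LlHp` at `pg`, `hpi_scales`, `hpi_congr`, `hpi_edge_ftc`. -/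
theorem exit_bud_hpstd (hL : LlHp 𝔹 F) (hF : F.Ok) (hFX : BtFix F X) (hX : X.Ok)
    (hg : Icc (X.glo 0) (X.ghi 0) ⊆ Icc (-4 : ℝ) 4) {Fam : BdFr → Prop} (hFam : ∀ Fr, Fam Fr → BtFam 𝔹 F Fr ∧ Fr.Ok X) :
    ∃ (C : BdHpC) (dm : BdFr → ℝ), C.ptop = 𝔹.pTop F.T ∧ BdHpStd X Fam C dm := by
  obtain ⟨⟨hp0, hp1⟩, ⟨ca, Cq, δ0, hca, hCq, hδ0, N1, H1⟩, hdm⟩ := hL
  obtain ⟨P, hP⟩ : ∃ P, P = 𝔹.pTop F.T := ⟨_, rfl⟩
  rw [← hP] at hp0 hp1
  have hmin : 0 < min P (1 - P) / 2 := by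
    have : 0 < min P (1 - P) := lt_min hp0 (by linarith)
    linarith
  obtain ⟨δ1, hδ1, H2⟩ := hdm _ hmin
  have hcH := hX.cH_pos
  obtain ⟨δ, hδd⟩ : ∃ δ, δ = min (min δ0 δ1) (min (min 1 ((1 - P) / 2)) (min (P / (2 * X.cH)) (min 1 X.cH))) := ⟨_, rfl⟩
  have hδ : 0 < δ := by
    rw [hδd]
    exact lt_min (lt_min hδ0 hδ1) (lt_min (lt_min one_pos (by linarith)) (lt_min (by positivity) (lt_min one_pos hcH)))
  have d1 : δ ≤ δ0 := by rw [hδd]; exact (min_le_left _ _).trans (min_le_left _ _)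
  have d2 : δ ≤ δ1 := by rw [hδd]; exact (min_le_left _ _).trans (min_le_right _ _)
  have d3 : δ ≤ 1 := by rw [hδd]; exact ((min_le_right _ _).trans (min_le_left _ _)).trans (min_le_left _ _)
  have d4 : δ ≤ (1 - P) / 2 := by rw [hδd]; exact ((min_le_right _ _).trans (min_le_left _ _)).trans (min_le_right _ _)
  have d5 : δ ≤ P / (2 * X.cH) := by rw [hδd]; exact ((min_le_right _ _).trans (min_le_right _ _)).trans (min_le_left _ _)
  have d6 : δ ≤ min 1 X.cH := by rw [hδd]; exact ((min_le_right _ _).trans (min_le_right _ _)).trans (min_le_right _ _)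
  obtain ⟨N2, H3⟩ := hpi_scales hF hFX hX δ hδ
  -- everything at one frame
  have key : ∀ Fr, Fam Fr → max N1 N2 ≤ Fr.N → ∃ (p : LlPt) (hd : ℕ), p.Ok F ∧ p.sm = false ∧
      Fr = btFr 𝔹 F p hd Fr.m Fr.st Fr.kap Fr.Ilo Fr.Ihi ∧ N1 ≤ p.N ∧ p.N = Fr.N ∧ p.lam = Fr.lam := by
    intro Fr hFr hN
    obtain ⟨p, hd, hp, hsm, -, he⟩ := (hFam Fr hFr).1
    have eN : Fr.N = p.N := congrArg BdFr.N he
    have el : Fr.lam = p.lam := congrArg BdFr.lam he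
    exact ⟨p, hd, hp, hsm, he, by rw [← eN]; exact (le_max_left _ _).trans hN, eN.symm, el.symm⟩
  have hU0 : ∀ Fr : BdFr, Fr.Ok X → 0 < Fr.U X := fun Fr hO => by
    unfold BdFr.U
    exact mul_pos (BdFr.bds_x_pos hO) (Real.rpow_pos_of_pos (BdFr.bds_lam_pos hO) _)
  -- the facts at the point `pg` of a frame
  have hpt : ∀ Fr, Fam Fr → max N1 N2 ≤ Fr.N → ∀ q : LlPt, q.Ok F → q.sm = false → q.N = Fr.N → q.lam = Fr.lam →
      q.Hp F 𝔹 ca Cq ∧ q.dMi F 𝔹 = hpiDm 𝔹 F Fr := by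
    intro Fr hFr hN q hq hsm eN el
    have hO := (hFam Fr hFr).2
    obtain ⟨-, -, e3, -, -, -, e7, -, -⟩ := H3 Fr hO ((le_max_right _ _).trans hN) q eN el
    refine ⟨H1 q hq (by rw [eN]; exact (le_max_left _ _).trans hN) hsm (by rw [e3]; exact e7.trans d1), ?_⟩
    exact (hpi_congr (F := F) (𝔹 := 𝔹) (p := q) (p' := Fr.hpPt) eN el).2.2.2.2.1
  refine ⟨⟨P, ca, 1 / 2, Cq, max N1 N2⟩, hpiDm 𝔹 F, hP, ?_⟩
  refine
    { p0 := hp0
      p1 := hp1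
      ca_pos := hca
      ce_pos := by norm_num
      Cq_nn := hCq
      dm_pos := ?_
      dm_le := ?_
      U_le := ?_
      cHu := ?_
      xm_le := ?_
      act := ?_
      pl := ?_
      q_pl := ?_
      q_var := ?_ }
  · intro Fr hFr hN
    obtain ⟨p, hd, hp, hsm, -, -, eN, el⟩ := key Fr hFr hN
    obtain ⟨h1, h2⟩ := hpt Fr hFr hN p hp hsm eN el
    rw [← h2]; exact h1.dm_pos
  · intro Fr hFr hN
    obtain ⟨p, hd, hp, hsm, -, -, eN, el⟩ := key Fr hFr hN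
    obtain ⟨-, h2⟩ := hpt Fr hFr hN p hp hsm eN el
    have hO := (hFam Fr hFr).2
    obtain ⟨-, -, e3, -, -, -, e7, -, -⟩ := H3 Fr hO ((le_max_right _ _).trans hN) p eN el
    have := H2 p hp (by rw [e3]; exact e7.trans d2)
    rw [h2] at this
    show 2 * hpiDm 𝔹 F Fr ≤ min P (1 - P)
    linarith
  · intro Fr hFr hN
    obtain ⟨p, hd, hp, hsm, -, -, eN, el⟩ := key Fr hFr hN
    have hO := (hFam Fr hFr).2
    obtain ⟨-, -, -, -, -, -, e7, -, -⟩ := H3 Fr hO ((le_max_right _ _).trans hN) p eN el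
    have h0 := hU0 Fr hO
    have h1 : Fr.U X ^ 4 ≤ Fr.U X := pow_le_of_le_one h0.le (e7.trans d3) (by norm_num)
    show 2 * Fr.U X ^ 4 ≤ 1 - P
    linarith
  · intro Fr hFr hN
    obtain ⟨p, hd, hp, hsm, -, -, eN, el⟩ := key Fr hFr hN
    have hO := (hFam Fr hFr).2
    obtain ⟨-, -, -, -, -, -, -, e8, -⟩ := H3 Fr hO ((le_max_right _ _).trans hN) p eN el
    have h1 : Fr.u ≤ P / (2 * X.cH) := e8.trans d5
    rw [le_div_iff₀ (by positivity)] at h1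
    show 2 * (X.cH * Fr.u) ≤ P
    linarith
  · intro Fr hFr hN
    obtain ⟨p, hd, hp, hsm, -, -, eN, el⟩ := key Fr hFr hN
    have hO := (hFam Fr hFr).2
    obtain ⟨-, -, -, -, -, -, -, -, e9⟩ := H3 Fr hO ((le_max_right _ _).trans hN) p eN el
    have hx := BdFr.bds_x_pos hO
    have hu := BdFr.bds_u_pos hO hX
    have h1 : Fr.xm ≤ Fr.x := by
      unfold BdFr.xm
      exact div_le_self hx.le hO.ell1
    exact h1.trans (e9.trans (mul_le_mul_of_nonneg_right d6 hu.le))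
  · intro Fr hFr hN g hgm s t hs hst ht
    obtain ⟨p, hd, hp, hsm, he, -, eN, el⟩ := key Fr hFr hN
    have hO := (hFam Fr hFr).2
    obtain ⟨h1, -⟩ := hpt Fr hFr hN (p.loc hd g 0) (hpi_loc_ok hp hd (hg hgm)) hsm eN el
    obtain ⟨e1, -⟩ := H3 Fr hO ((le_max_right _ _).trans hN) p eN el
    have eh : Fr.h = fun g => btResc p.ell ((p.loc hd g 0).h F 𝔹) := congrArg BdFr.h he
    have eell : Fr.ell = p.ell := congrArg BdFr.ell he
    have hs' : (p.loc hd g 0).x / (p.loc hd g 0).ell ≤ s := by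
      have : (p.loc hd g 0).x / (p.loc hd g 0).ell = Fr.xm := by
        unfold BdFr.xm
        rw [← e1, eell]; rfl
      rw [this]; exact hs
    have := h1.act s t hs' hst (by rw [← hP]; exact ht)
    rw [eh, ← el]
    exact this
  · intro Fr hFr hN g hgm s t hs hst ht
    obtain ⟨p, hd, hp, hsm, he, -, eN, el⟩ := key Fr hFr hN
    have hO := (hFam Fr hFr).2
    obtain ⟨h1, h2⟩ := hpt Fr hFr hN (p.loc hd g 0) (hpi_loc_ok hp hd (hg hgm)) hsm eN el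
    obtain ⟨e1, e2, e3, e4, e5, e6, -, -, -⟩ := H3 Fr hO ((le_max_right _ _).trans hN) (p.loc hd g 0) eN el
    have eh : Fr.h = fun g => btResc p.ell ((p.loc hd g 0).h F 𝔹) := congrArg BdFr.h he
    have ecL : Fr.chiL = p.chiL := congrArg BdFr.chiL he
    have ecE : Fr.chiE = p.chiE := congrArg BdFr.chiE he
    have hpl := h1.pl s t (by rw [← hP]; exact hs) hst ht.le
    have hdm0 : 0 < hpiDm 𝔹 F Fr := by rw [← h2]; exact h1.dm_pos
    have hdp0 : 0 < Fr.U X ^ 4 := pow_pos (hU0 Fr hO) 4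
    have hftc := hpi_edge_ftc (p := P) hdm0 hdp0 hs hst ht.le
    have hHe : (p.loc hd g 0).HePl F 𝔹 t - (p.loc hd g 0).HePl F 𝔹 s
        = Fr.lam1 X * Fr.U X ^ 2 * (1 / 2 * ∫ v in s..t, hpEdge P (hpiDm 𝔹 F Fr) (Fr.U X ^ 4) v) := by
      rw [hftc]
      unfold LlPt.HePl
      rw [e4, e5, e3, e6, h2, ← hP]
      ring
    rw [hHe, e1] at hpl
    have hcL : (p.loc hd g 0).chiL = Fr.chiL := ecL.symm
    have hcE : (p.loc hd g 0).chiE = Fr.chiE := ecE.symm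
    rw [hcL, hcE] at hpl
    have hx := BdFr.bds_x_pos hO
    have hnn : 0 ≤ Fr.chiL * Fr.x ^ 3 * (t - s) := mul_nonneg (mul_nonneg hO.chiL.1 (by positivity)) (by linarith)
    rw [eh]
    show 1 / 2 * (Fr.chiL * Fr.x ^ 3 * (t - s) + Fr.chiE * Fr.lam1 X * Fr.U X ^ 2 * ∫ v in s..t, hpEdge P (hpiDm 𝔹 F Fr) (Fr.U X ^ 4) v) ≤
      p.ell ^ 2 * (p.loc hd g 0).h F 𝔹 (p.ell * t) - p.ell ^ 2 * (p.loc hd g 0).h F 𝔹 (p.ell * s)
    refine le_trans ?_ hpl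
    have e : 1 / 2 * (Fr.chiL * Fr.x ^ 3 * (t - s) + Fr.chiE * Fr.lam1 X * Fr.U X ^ 2 * ∫ v in s..t, hpEdge P (hpiDm 𝔹 F Fr) (Fr.U X ^ 4) v)
        = 1 / 2 * (Fr.chiL * Fr.x ^ 3 * (t - s))
          + Fr.chiE * (Fr.lam1 X * Fr.U X ^ 2 * (1 / 2 * ∫ v in s..t, hpEdge P (hpiDm 𝔹 F Fr) (Fr.U X ^ 4) v)) := by ring
    rw [e]
    linarith
  · intro Fr hFr hN v hv
    obtain ⟨p, hd, hp, hsm, he, -, eN, el⟩ := key Fr hFr hN
    obtain ⟨h1, -⟩ := hpt Fr hFr hN p hp hsm eN el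
    have eq : Fr.q = fun w => p.q F 𝔹 (p.ell * w) := congrArg BdFr.q he
    rw [eq]
    have := h1.q_pl v (by rw [← hP]; exact hv)
    rw [← hP] at this
    exact this
  · intro Fr hFr hN v hv
    obtain ⟨p, hd, hp, hsm, he, -, eN, el⟩ := key Fr hFr hN
    have hO := (hFam Fr hFr).2
    obtain ⟨h1, h2⟩ := hpt Fr hFr hN p hp hsm eN el
    obtain ⟨-, -, e3, -⟩ := H3 Fr hO ((le_max_right _ _).trans hN) p eN el
    have eq : Fr.q = fun w => p.q F 𝔹 (p.ell * w) := congrArg BdFr.q he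
    rw [eq]
    have := h1.q_var v (by rw [← hP, h2]; exact hv)
    rw [← hP, h2, e3] at this
    exact this

theorem hpi_eqns_cite : True := by
  have := @BdFr.hpPt.eq_1; have := @hpiDm.eq_1
  trivial

end

end Claimed.Agent.R286
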