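import Mathlib

/-!
# Row 286, LL sec. 7, l.2027-2218 (node N18): the abstract rigidity lemma RIG      OWNER helper184 (ADV helper143)

Defs-free, Mathlib only.  UNIFORM form (no sequences in the statement): one record `RigD` = ONE rescaled buffered violation,
`RigD.Ok C cβ A cD δ W` = all hypotheses (H1)-(H8) of origin/helper184:notes/R286/L09_helper184.md with every `o(1)` replaced by `≤ δ`
on the window `[-W, W]`.      EXIT:  `BudRig` : for all constants there are `δ, W` such that NO record is `Ok`.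

Dictionary (LL l.2034-2070):  `z = (r-r₀)/h₁`, `θ = d₀/h₁`, `m = (α-β₀)/d₀`, `mt = (α~-β₀)/d₀`, `Y = (S-r)/d₀`, `φ = (r~(α(r))-r₀)/h₁`,
`g = [Γ_s(k_*(r))-r]/(d₀h₁²)`, `g1 = g'`, `β = β₀'(r)`, `ρ = α'(r)`, `R = Γ_*'C₀/h₁²`, `D = (1-bΓ_*')/h₁²`, `H = 𝓗/(2C₀d₀h₁)` (so `J_n = R(0)·H`),
`F` = floor set `{α' = k̄}`, `e` = the error `e_n` of (C20), `cβ = lim β₀'`, `c_q = 1/cβ`, `A = A_*`.

Split (proved here: `RigD.Ok.mono`, `bud_rig_of`):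
* `BudRigA` (Bud/RigA*.lean)  `R 0` large is impossible.  DIRECT proof at fixed record (energy inequality, good end points by pigeonhole; NO compactness).
* `BudRigB` (Bud/RigB*.lean)  `θ = 1`, `R 0 ≤ RA` is impossible.  Compactness (Helly `Lib/Helly`, limits of primitives), support gaps, cubic lemma.
-/

set_option autoImplicit false

namespace Claimed.Agent.R286

open MeasureTheory Set

/-- one rescaled buffered violation (all functions of the rescaled radius `z`) -/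
structure RigD where
  θ : ℝ
  m : ℝ → ℝ
  mt : ℝ → ℝ
  Y : ℝ → ℝ
  φ : ℝ → ℝ
  g : ℝ → ℝ
  g1 : ℝ → ℝ
  β : ℝ → ℝ
  ρ : ℝ → ℝ
  R : ℝ → ℝ
  D : ℝ → ℝ
  H : ℝ → ℝ
  F : Set ℝ

/-- the error of (C20):  `e = g(φ) - R Y - D (Y - c_q m)`, `c_q = 1/cβ` -/
noncomputable def RigD.e (d : RigD) (cβ : ℝ) (z : ℝ) : ℝ :=
  d.g (d.φ z) - d.R z * d.Y z - d.D z * (d.Y z - d.m z / cβ)

/-- the mass that crosses `z` under the transport `φ` -/
noncomputable def RigD.cross (d : RigD) (z z' : ℝ) : ℝ :=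
  open Classical in if (z' ≤ z ∧ z < d.φ z') ∨ (z < z' ∧ d.φ z' ≤ z) then d.ρ z' else 0

/-- hypotheses (H1)-(H8), smallness `δ`, window `[-W, W]` -/
structure RigD.Ok (d : RigD) (C cβ A cD δ W : ℝ) : Prop where
  θ_pos : 0 < d.θ
  θ_le : d.θ ≤ 1
  /- (H1) -/
  m_bd : ∀ z ∈ Icc (-W) W, |d.m z| ≤ C
  mt_bd : ∀ z ∈ Icc (-W) W, |d.mt z| ≤ C
  Y_bd : ∀ z ∈ Icc (-W) W, |d.Y z| ≤ C
  m_zero : |d.m 0| = 1
  /- (H2): `a = B + θ m` has density `ρ ≥ 0`, `B' = β ≈ cβ`, small density on the floor -/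
  ρ_int : IntervalIntegrable d.ρ volume (-W) W
  β_int : IntervalIntegrable d.β volume (-W) W
  m_eq : ∀ z₁ ∈ Icc (-W) W, ∀ z₂ ∈ Icc (-W) W, d.θ * (d.m z₂ - d.m z₁) = ∫ z in z₁..z₂, (d.ρ z - d.β z)
  ρ_nonneg : ∀ z ∈ Icc (-W) W, 0 ≤ d.ρ z
  β_near : ∀ z ∈ Icc (-W) W, |d.β z - cβ| ≤ δ
  F_meas : MeasurableSet d.F
  ρ_floor : ∀ z ∈ Icc (-W) W, z ∈ d.F → d.ρ z ≤ δ
  /- (H3) -/
  Y_mono : MonotoneOn (fun z => z + d.θ * d.Y z) (Icc (-W) W)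
  Y_off : ∀ z ∈ Icc (-W) W, z ∉ d.F → max 1 (d.R 0) * |d.Y z| ≤ δ
  /- (H4) -/
  φ_mono : MonotoneOn d.φ (Icc (-W) W)
  φ_near : ∀ z ∈ Icc (-W) W, |d.φ z - z - d.θ * d.Y z| ≤ δ * d.θ
  mt_int : IntervalIntegrable d.mt volume (-W) W
  transp : ∀ z ∈ Icc (-(W - (C + 2))) (W - (C + 2)),
    d.θ * |d.mt z - d.m z| ≤ ∫ z' in (z - (C + 2))..(z + (C + 2)), d.cross z z'
  /- (H5): `g' = g1`, `g'' = -A mt + O(δ)` in integrated form -/
  g_der : ∀ z ∈ Icc (-W) W, HasDerivAt d.g (d.g1 z) z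
  g1_eq : ∀ z₁ ∈ Icc (-W) W, ∀ z₂ ∈ Icc (-W) W, z₁ ≤ z₂ →
    |d.g1 z₂ - d.g1 z₁ + A * ∫ z in z₁..z₂, d.mt z| ≤ δ * (z₂ - z₁)
  /- (H6) -/
  R_pos : 0 < d.R 0
  R_near : ∀ z ∈ Icc (-W) W, |d.R z - d.R 0| ≤ δ * d.R 0
  D_nonneg : ∀ z ∈ Icc (-W) W, 0 ≤ d.D z
  D_le : ∀ z ∈ Icc (-W) W, d.D z ≤ C
  D_near : ∀ z ∈ Icc (-W) W, |d.D z - d.D 0| ≤ δ
  D_R : ∀ z ∈ Icc (-W) W, d.D z ≤ δ * d.R 0
  link : d.θ < 1 → cD ≤ d.D 0 ∧ 1 ≤ δ * d.R 0
  /- (H7): both box averages of `e` (radius and mass), boxes of length `θ`, RELATIVE to `min 1 (R 0)` -/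
  e_int : IntervalIntegrable (d.e cβ) volume (-W) W
  eρ_int : IntervalIntegrable (fun z => d.e cβ z * d.ρ z) volume (-W) W
  e_box : ∀ p, -W ≤ p → p + d.θ ≤ W →
    ∫ z in p..(p + d.θ), |d.e cβ z| * (1 + d.ρ z) ≤ δ * d.θ * min 1 (d.R 0)
  /- (H8): the normalised potential -/
  H_eq : ∀ z₁ ∈ Icc (-W) W, ∀ z₂ ∈ Icc (-W) W, d.H z₂ - d.H z₁ = -∫ z in z₁..z₂, d.Y z
  H_lb : ∀ z ∈ Icc (-W) W, -(δ * d.θ) ≤ max 1 (d.R 0) * d.H z
  H_off : ∀ z ∈ Icc (-W) W, z ∉ d.F → d.H z ≤ 0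
  H_sign : ∀ᵐ z ∂(volume : Measure ℝ), z ∈ Icc (-W) W → d.H z * (d.ρ z - d.β z) ≤ 0

/-- **RIG** (exit of node N18) -/
def BudRig : Prop := ∀ C cβ A cD : ℝ, 0 < C → 0 < cβ → 0 < A → 0 < cD →
  ∃ δ W : ℝ, 0 < δ ∧ 0 < W ∧ ∀ d : RigD, ¬ d.Ok C cβ A cD δ W

/-- regime A: unbounded rescaled removal (LL l.2071-2124), all `θ ∈ (0,1]` -/
def BudRigA : Prop := ∀ C cβ A cD : ℝ, 0 < C → 0 < cβ → 0 < A → 0 < cD →
  ∃ δ W RA : ℝ, 0 < δ ∧ 0 < W ∧ 0 < RA ∧ ∀ d : RigD, d.Ok C cβ A cD δ W → d.R 0 < RA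

/-- regime B: bounded rescaled removal, including `R 0` arbitrarily small (LL l.2126-2216) -/
def BudRigB : Prop := ∀ C cβ A cD RA : ℝ, 0 < C → 0 < cβ → 0 < A → 0 < cD → 0 < RA →
  ∃ δ W : ℝ, 0 < δ ∧ 0 < W ∧ ∀ d : RigD, d.Ok C cβ A cD δ W → d.θ = 1 → RA ≤ d.R 0

/-- `Ok` is monotone: larger `δ`, smaller window -/
theorem RigD.Ok.mono {d : RigD} {C cβ A cD δ W δ' W' : ℝ} (h : d.Ok C cβ A cD δ W) (hδ : δ ≤ δ')
    (hW0 : 0 ≤ W') (hW : W' ≤ W) : d.Ok C cβ A cD δ' W' := by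
  have hs : Icc (-W') W' ⊆ Icc (-W) W := Icc_subset_Icc (by linarith) hW
  have hu : uIcc (-W') W' ⊆ uIcc (-W) W := by
    rw [uIcc_of_le (by linarith), uIcc_of_le (by linarith)]; exact hs
  have hθ := h.θ_pos
  have hR := h.R_pos
  have hmin : 0 ≤ min 1 (d.R 0) := le_min zero_le_one hR.le
  exact
  { θ_pos := h.θ_pos
    θ_le := h.θ_le
    m_bd := fun z hz => h.m_bd z (hs hz)
    mt_bd := fun z hz => h.mt_bd z (hs hz)
    Y_bd := fun z hz => h.Y_bd z (hs hz)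
    m_zero := h.m_zero
    ρ_int := h.ρ_int.mono_set hu
    β_int := h.β_int.mono_set hu
    m_eq := fun z₁ h₁ z₂ h₂ => h.m_eq z₁ (hs h₁) z₂ (hs h₂)
    ρ_nonneg := fun z hz => h.ρ_nonneg z (hs hz)
    β_near := fun z hz => (h.β_near z (hs hz)).trans hδ
    F_meas := h.F_meas
    ρ_floor := fun z hz hF => (h.ρ_floor z (hs hz) hF).trans hδ
    Y_mono := h.Y_mono.mono hs
    Y_off := fun z hz hF => (h.Y_off z (hs hz) hF).trans hδ
    φ_mono := h.φ_mono.mono hs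
    φ_near := fun z hz => (h.φ_near z (hs hz)).trans (mul_le_mul_of_nonneg_right hδ hθ.le)
    mt_int := h.mt_int.mono_set hu
    transp := fun z hz => h.transp z (Icc_subset_Icc (by linarith) (by linarith) hz)
    g_der := fun z hz => h.g_der z (hs hz)
    g1_eq := fun z₁ h₁ z₂ h₂ h12 => (h.g1_eq z₁ (hs h₁) z₂ (hs h₂) h12).trans
      (mul_le_mul_of_nonneg_right hδ (by linarith))
    R_pos := h.R_pos
    R_near := fun z hz => (h.R_near z (hs hz)).trans (mul_le_mul_of_nonneg_right hδ hR.le)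
    D_nonneg := fun z hz => h.D_nonneg z (hs hz)
    D_le := fun z hz => h.D_le z (hs hz)
    D_near := fun z hz => (h.D_near z (hs hz)).trans hδ
    D_R := fun z hz => (h.D_R z (hs hz)).trans (mul_le_mul_of_nonneg_right hδ hR.le)
    link := fun ht => ⟨(h.link ht).1, (h.link ht).2.trans (mul_le_mul_of_nonneg_right hδ hR.le)⟩
    e_int := h.e_int.mono_set hu
    eρ_int := h.eρ_int.mono_set hu
    e_box := fun p h₁ h₂ => (h.e_box p (by linarith) (by linarith)).trans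
      (mul_le_mul_of_nonneg_right (mul_le_mul_of_nonneg_right hδ hθ.le) hmin)
    H_eq := fun z₁ h₁ z₂ h₂ => h.H_eq z₁ (hs h₁) z₂ (hs h₂)
    H_lb := fun z hz => by
      have := h.H_lb z (hs hz)
      have h2 : δ * d.θ ≤ δ' * d.θ := mul_le_mul_of_nonneg_right hδ hθ.le
      linarith
    H_off := fun z hz hF => h.H_off z (hs hz) hF
    H_sign := by
      filter_upwards [h.H_sign] with z hz hz'
      exact hz (hs hz') }

/-- RIG from the two regimes -/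
theorem bud_rig_of (hA : BudRigA) (hB : BudRigB) : BudRig := by
  intro C cβ A cD hC hcβ hA0 hcD
  obtain ⟨δA, WA, RA, hδA, hWA, hRA, hAm⟩ := hA C cβ A cD hC hcβ hA0 hcD
  obtain ⟨δB, WB, hδB, hWB, hBm⟩ := hB C cβ A cD RA hC hcβ hA0 hcD hRA
  refine ⟨min (min δA δB) (1 / RA), max WA WB, lt_min (lt_min hδA hδB) (by positivity),
    lt_max_of_lt_left hWA, fun d hd => ?_⟩
  have h1 : d.R 0 < RA :=
    hAm d (hd.mono ((min_le_left _ _).trans (min_le_left _ _)) hWA.le (le_max_left _ _))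
  rcases lt_or_eq_of_le hd.θ_le with hθ | hθ
  · have h2 := (hd.link hθ).2
    have h3 : min (min δA δB) (1 / RA) * d.R 0 ≤ 1 / RA * d.R 0 :=
      mul_le_mul_of_nonneg_right (min_le_right _ _) hd.R_pos.le
    have h4 : 1 / RA * d.R 0 < 1 := by
      rw [div_mul_eq_mul_div, one_mul, div_lt_one hRA]; exact h1
    linarith
  · have h2 : RA ≤ d.R 0 :=
      hBm d (hd.mono ((min_le_left _ _).trans (min_le_right _ _)) hWB.le (le_max_right _ _)) hθ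
    linarith

theorem bud_rigdefs_eqns_cite : True := by
  have := @RigD.e.eq_1
  have := @RigD.cross.eq_1
  have := @BudRig.eq_1
  have := @BudRigA.eq_1
  have := @BudRigB.eq_1
  trivial

end Claimed.Agent.R286
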