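import Claimed.Agent.R286.Bud.Defs
import Claimed.Agent.R286.Bud.RigDefs

/-!
# Row 286, LL sec. 7, node N18w: THE INSTANCE of `RigD` for a buffered violation      OWNER helper143 (prefix `bd_ri_`)

`Bud/RigDefs.lean` (184) = abstract rigidity: no record `RigD` is `Ok C cβ A cD δ W` for `δ` small, `W` large (`BudRig`).
This file CONSTRUCTS the record from the objects of `Bud/Defs.lean` (LL l.2039-2062):

* `BdViol.RigAux`   the data that `Bud/Defs` does not determine: potential `H`, density `rho = α'`, floor set `Fl` (radii; contains the null set of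
                    contact exceptions), `bet = β₀'`, `G1 = d/dr Γ_s(k_*(r))`, `Gp = Γ_*'`.
* `BdViol.rig`      the rescaled record, `r = r0 + h1 z`.
* `BdViol.RigIn`    the UNRESCALED inputs on the radius window `|r - r0| ≤ W h1`.  Every field carries the node that has to deliver it:
                    [N4] geometry (C6), [N11] buffer + transport l.1305-1400, [N12] curvature (C14), [N17] closure (C19), [P] (P2)-(P5) for `Γ_*', b, d`.
* `bd_ri_ok`        `RigIn → (V.rig a).Ok`       (pure change of variables).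
* `BdViol.eU`, `bd_ri_eU`   the algebra of (C20): `eU = [Γ_s(K_s) - S] + (1 - bΓ_*')[r - q(α r) + (α - β₀)/cβ] - Γ_*' d - Taylor remainder`.
* `bd_ri_noviol`    `BudRig` + "`RigIn` holds eventually, uniformly" ⇒ eventually there is NO buffered violation  (= (C12) after the doubling lemma of N11).
-/

set_option autoImplicit false

namespace Claimed.Agent.R286

open MeasureTheory Set

noncomputable section

/-! ## 0. affine change of variables -/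

theorem bd_ri_ii_comp {f : ℝ → ℝ} {c d a b : ℝ} (hc : 0 < c)
    (hf : IntervalIntegrable f volume (d + c * a) (d + c * b)) :
    IntervalIntegrable (fun z => f (d + c * z)) volume a b := by
  have h1 := hf.comp_add_left d
  have h2 := h1.comp_mul_left (c := c)
  have e1 : (d + c * a - d) / c = a := by field_simp; ring
  have e2 : (d + c * b - d) / c = b := by field_simp; ring
  rw [e1, e2] at h2
  exact h2

theorem bd_ri_int_comp (f : ℝ → ℝ) {c : ℝ} (d a b : ℝ) (hc : 0 < c) :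
    ∫ z in a..b, f (d + c * z) = c⁻¹ * ∫ r in (d + c * a)..(d + c * b), f r := by
  rw [intervalIntegral.integral_comp_add_mul f hc.ne' d, smul_eq_mul]

/-! ## 1. the record -/

/-- data of a buffered violation that `Bud/Defs` does not determine -/
structure BdRigAux where
  /-- first-variation potential `𝓗` (radius) -/
  H : ℝ → ℝ
  /-- density `α'` -/
  rho : ℝ → ℝ
  /-- floor radii (with the null set of contact exceptions) -/
  Fl : Set ℝ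
  /-- `β₀'` -/
  bet : ℝ → ℝ
  /-- `d/dr Γ_s(k_*(r))` -/
  G1 : ℝ → ℝ
  /-- `Γ_*'` (a function of scalar time) -/
  Gp : ℝ → ℝ

namespace BdViol

variable {F : BdFr} {X : BdFix} {W : BdWorld} (V : BdViol F X W) (a : BdRigAux)

/-- the radius of the rescaled coordinate `z` -/
def rz (z : ℝ) : ℝ := V.r0 + V.h1 * z
/-- the radius window `|r - r0| ≤ Wd h1` -/
def Win (Wd : ℝ) : Set ℝ := Icc (V.r0 - Wd * V.h1) (V.r0 + Wd * V.h1)
/-- `S_{α(r)}` -/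
def Sr (r : ℝ) : ℝ := V.Q.Sq W V.g (V.Q.al r)
/-- `r~(α(r))` -/
def rtr (r : ℝ) : ℝ := V.rtil (V.Q.al r)
/-- `Γ_*'(K_*(α(r)))` -/
def Gpr (r : ℝ) : ℝ := a.Gp (F.K (V.Q.al r))
/-- `1 - b(α(r)) Γ_*'(K_*(α(r)))` -/
def Dr (r : ℝ) : ℝ := 1 - F.b V.g (V.Q.al r) * V.Gpr a r
/-- `R_n(0) = Γ_*'(K_*(α(r0))) C0/h1²` -/
def R0 : ℝ := V.Gpr a V.r0 * F.C0 / V.h1 ^ 2

/-- **the rescaled record** (LL l.2039-2062) -/
def rig : RigD where
  θ := V.th
  m z := (V.Q.al (V.rz z) - F.beta0 (V.rz z)) / V.d0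
  mt z := (V.altil (V.rz z) - F.beta0 (V.rz z)) / V.d0
  Y z := (V.Sr (V.rz z) - V.rz z) / V.d0
  φ z := (V.rtr (V.rz z) - V.r0) / V.h1
  g z := (V.Q.Gs W V.g (F.kst W (V.rz z)) - V.rz z) / (V.d0 * V.h1 ^ 2)
  g1 z := (a.G1 (V.rz z) - 1) / (V.d0 * V.h1)
  β z := a.bet (V.rz z)
  ρ z := a.rho (V.rz z)
  R z := V.Gpr a (V.rz z) * F.C0 / V.h1 ^ 2
  D z := V.Dr a (V.rz z) / V.h1 ^ 2
  H z := a.H (V.rz z) / (2 * F.C0 * V.d0 * V.h1)
  F := {z | V.rz z ∈ a.Fl}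

/-- the unrescaled error of (C20) at the radius `r` (`v = α(r)`):
`Γ_s(k_*(r~(v))) - r~(v) - Γ_*' C0 (S - r) - (1 - bΓ_*')[(S - r) - (α - β₀)/cβ]` -/
def eU (cβ r : ℝ) : ℝ :=
  V.Q.Gs W V.g (F.kst W (V.rtr r)) - V.rtr r - V.Gpr a r * F.C0 * (V.Sr r - r)
    - V.Dr a r * ((V.Sr r - r) - (V.Q.al r - F.beta0 r) / cβ)

/-- the mass that crosses the radius `r` under `r' ↦ r~(α(r'))` -/
def crossU (r r' : ℝ) : ℝ :=
  open Classical in if (r' ≤ r ∧ r < V.rtr r') ∨ (r < r' ∧ V.rtr r' ≤ r) then a.rho r' else 0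

/-- the unrescaled inputs of N18 on the window `|r - r0| ≤ Wd h1`, WITHOUT the closure bound; the tag is the node that delivers the field -/
structure RigPre (C cβ A cD δ Wd : ℝ) : Prop where
  /- scales [frame] -/
  u_pos : 0 < F.u
  L_pos : 0 < V.L
  lam_pos : 0 < F.lam
  /- [N11] buffer bounds, l.1305-1352 -/
  m_bd : ∀ r ∈ V.Win Wd, |V.Q.al r - F.beta0 r| ≤ C * V.d0
  mt_bd : ∀ r ∈ V.Win Wd, |V.altil r - F.beta0 r| ≤ C * V.d0
  Y_bd : ∀ r ∈ V.Win Wd, |V.Sr r - r| ≤ C * V.d0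
  disc : |V.Q.al V.r0 - F.beta0 V.r0| = V.d0
  /- [N4] density of `α`; [P] `β₀ = q⁻¹` is `C¹` with slope `→ cβ` -/
  rho_int : IntervalIntegrable a.rho volume (V.r0 - Wd * V.h1) (V.r0 + Wd * V.h1)
  bet_int : IntervalIntegrable a.bet volume (V.r0 - Wd * V.h1) (V.r0 + Wd * V.h1)
  al_eq : ∀ r₁ ∈ V.Win Wd, ∀ r₂ ∈ V.Win Wd, V.Q.al r₂ - V.Q.al r₁ = ∫ r in r₁..r₂, a.rho r
  be_eq : ∀ r₁ ∈ V.Win Wd, ∀ r₂ ∈ V.Win Wd, F.beta0 r₂ - F.beta0 r₁ = ∫ r in r₁..r₂, a.bet r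
  rho_nonneg : ∀ r ∈ V.Win Wd, 0 ≤ a.rho r
  bet_near : ∀ r ∈ V.Win Wd, |a.bet r - cβ| ≤ δ
  Fl_meas : MeasurableSet a.Fl
  rho_floor : ∀ r ∈ V.Win Wd, r ∈ a.Fl → a.rho r ≤ δ
  /- [PSys] monotonicity of `S`; [N4] `|S - r| ≤ 1/M_j` off the floor -/
  S_mono : MonotoneOn V.Sr (V.Win Wd)
  Y_off : ∀ r ∈ V.Win Wd, r ∉ a.Fl → max 1 (V.R0 a) * |V.Sr r - r| ≤ δ * V.d0
  /- [N11] `r~ ∘ α` nondecreasing (`K_s` is a clock), `r~(α r) = S + o(d0)` (l.2054-2058), transport definition of `α~` -/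
  rt_mono : MonotoneOn V.rtr (V.Win Wd)
  rt_near : ∀ r ∈ V.Win Wd, |V.rtr r - V.Sr r| ≤ δ * V.d0
  at_int : IntervalIntegrable V.altil volume (V.r0 - Wd * V.h1) (V.r0 + Wd * V.h1)
  be_int : IntervalIntegrable F.beta0 volume (V.r0 - Wd * V.h1) (V.r0 + Wd * V.h1)
  transp : ∀ r ∈ V.Win (Wd - (C + 2)),
    |V.altil r - V.Q.al r| ≤ ∫ r' in (r - (C + 2) * V.h1)..(r + (C + 2) * V.h1), V.crossU a r r'
  /- [N12] (C14), integrated -/
  g_der : ∀ r ∈ V.Win Wd, HasDerivAt (fun r => V.Q.Gs W V.g (F.kst W r)) (a.G1 r) r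
  g1_eq : ∀ r₁ ∈ V.Win Wd, ∀ r₂ ∈ V.Win Wd, r₁ ≤ r₂ →
    |a.G1 r₂ - a.G1 r₁ + A * ∫ r in r₁..r₂, (V.altil r - F.beta0 r)| ≤ δ * V.d0 * (r₂ - r₁)
  /- [P] (P2)-(P5): `Γ_*' > 0`, nearly constant; `1 - bΓ_*' ≍ λ u²` -/
  G_pos : 0 < V.Gpr a V.r0
  G_near : ∀ r ∈ V.Win Wd, |V.Gpr a r - V.Gpr a V.r0| ≤ δ * V.Gpr a V.r0
  D_nonneg : ∀ r ∈ V.Win Wd, 0 ≤ V.Dr a r
  D_le : ∀ r ∈ V.Win Wd, V.Dr a r ≤ C * V.h1 ^ 2
  D_near : ∀ r ∈ V.Win Wd, |V.Dr a r - V.Dr a V.r0| ≤ δ * V.h1 ^ 2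
  D_R : ∀ r ∈ V.Win Wd, V.Dr a r ≤ δ * (V.Gpr a V.r0 * F.C0)
  link : V.d0 < V.h1 → cD * V.h1 ^ 2 ≤ V.Dr a V.r0 ∧ V.h1 ^ 2 ≤ δ * (V.Gpr a V.r0 * F.C0)
  /- [measurability] of the error of (C20) -/
  e_int : IntervalIntegrable (V.eU a cβ) volume (V.r0 - Wd * V.h1) (V.r0 + Wd * V.h1)
  er_int : IntervalIntegrable (fun r => V.eU a cβ r * a.rho r) volume (V.r0 - Wd * V.h1) (V.r0 + Wd * V.h1)
  /- [N4] the potential in the constant part of `C`: `𝓗' = 2 C0 (r - S)`, `𝓗 ≥ -O(C0/M_j²)`, `𝓗 ≤ 0` off the floor, bang-bang sign -/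
  H_eq : ∀ r₁ ∈ V.Win Wd, ∀ r₂ ∈ V.Win Wd, a.H r₂ - a.H r₁ = ∫ r in r₁..r₂, 2 * F.C0 * (r - V.Sr r)
  H_lb : ∀ r ∈ V.Win Wd, -(δ * (2 * F.C0 * V.d0 ^ 2)) ≤ max 1 (V.R0 a) * a.H r
  H_off : ∀ r ∈ V.Win Wd, r ∉ a.Fl → a.H r ≤ 0
  H_sign : ∀ᵐ r ∂(volume : Measure ℝ), r ∈ V.Win Wd → a.H r * (a.rho r - a.bet r) ≤ 0

/-- **the unrescaled inputs of N18**: `RigPre` + the closure bound -/
structure RigIn (C cβ A cD δ Wd : ℝ) : Prop extends V.RigPre a C cβ A cD δ Wd where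
  /- [N17] (C19) + the algebra of (C20) (`bd_ri_in_of`): both box averages, boxes of radius length `d0` -/
  e_box : ∀ p, V.r0 - Wd * V.h1 ≤ p → p + V.d0 ≤ V.r0 + Wd * V.h1 →
    ∫ r in p..(p + V.d0), |V.eU a cβ r| * (1 + a.rho r) ≤ δ * V.d0 * (V.d0 * V.h1 ^ 2) * min 1 (V.R0 a)

end BdViol

/-! ## 2. `RigIn → Ok`: change of variables -/

section Ok

variable {F : BdFr} {X : BdFix} {W : BdWorld} {V : BdViol F X W} {a : BdRigAux} {C cβ A cD δ Wd : ℝ}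

theorem bd_ri_ae_comp {c : ℝ} (d : ℝ) (hc : 0 < c) {P : ℝ → Prop} (h : ∀ᵐ r ∂(volume : Measure ℝ), P r) :
    ∀ᵐ z ∂(volume : Measure ℝ), P (d + c * z) := by
  have h1 : Measure.QuasiMeasurePreserving (fun z : ℝ => c * z) volume volume := by
    refine ⟨measurable_const_mul c, ?_⟩
    rw [Real.map_volume_mul_left hc.ne']
    exact Measure.smul_absolutelyContinuous
  have h2 : Measure.QuasiMeasurePreserving (fun z : ℝ => d + z) volume volume :=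
    (measurePreserving_add_left volume d).quasiMeasurePreserving
  exact (h2.comp h1).ae h

theorem bd_ri_d0_pos (h : V.RigPre a C cβ A cD δ Wd) : 0 < V.d0 := mul_pos h.u_pos h.L_pos

theorem bd_ri_h1_pos (h : V.RigPre a C cβ A cD δ Wd) : 0 < V.h1 :=
  mul_pos h.u_pos (lt_max_of_lt_left h.L_pos)

theorem bd_ri_d0_le (h : V.RigPre a C cβ A cD δ Wd) : V.d0 ≤ V.h1 :=
  mul_le_mul_of_nonneg_left (le_max_left _ _) h.u_pos.le

theorem bd_ri_C0_pos (h : V.RigPre a C cβ A cD δ Wd) : 0 < F.C0 :=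
  mul_pos (pow_pos h.u_pos 2) (Real.rpow_pos_of_pos h.lam_pos _)

theorem bd_ri_rz_zero : V.rz 0 = V.r0 := by simp [BdViol.rz]

theorem bd_ri_rz_mem (h1 : 0 < V.h1) {z w : ℝ} (hz : z ∈ Icc (-w) w) : V.rz z ∈ V.Win w := by
  constructor
  · have := mul_le_mul_of_nonneg_left hz.1 h1.le
    simp only [BdViol.rz]; nlinarith
  · have := mul_le_mul_of_nonneg_left hz.2 h1.le
    simp only [BdViol.rz]; nlinarith

theorem bd_ri_rz_le (h1 : 0 < V.h1) {z₁ z₂ : ℝ} (hz : z₁ ≤ z₂) : V.rz z₁ ≤ V.rz z₂ := by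
  have := mul_le_mul_of_nonneg_left hz h1.le
  simp only [BdViol.rz]; linarith

theorem bd_ri_rz_lt_iff (h1 : 0 < V.h1) {z₁ z₂ : ℝ} : V.rz z₁ < V.rz z₂ ↔ z₁ < z₂ := by
  simp only [BdViol.rz, add_lt_add_iff_left]
  exact mul_lt_mul_iff_right₀ h1

theorem bd_ri_rz_le_iff (h1 : 0 < V.h1) {z₁ z₂ : ℝ} : V.rz z₁ ≤ V.rz z₂ ↔ z₁ ≤ z₂ := by
  simp only [BdViol.rz, add_le_add_iff_left]
  exact mul_le_mul_iff_right₀ h1

/-- `rz (φ z) = r~(α(rz z))` -/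
theorem bd_ri_rz_phi (h1 : 0 < V.h1) (z : ℝ) : V.rz ((V.rig a).φ z) = V.rtr (V.rz z) := by
  simp only [BdViol.rz, BdViol.rig]
  field_simp
  ring

/-- integrability on a subinterval of the window, in the rescaled variable -/
theorem bd_ri_ii_sub {f : ℝ → ℝ} (h1 : 0 < V.h1)
    (hf : IntervalIntegrable f volume (V.r0 - Wd * V.h1) (V.r0 + Wd * V.h1)) {z₁ z₂ : ℝ}
    (hz₁ : z₁ ∈ Icc (-Wd) Wd) (hz₂ : z₂ ∈ Icc (-Wd) Wd) :
    IntervalIntegrable f volume (V.rz z₁) (V.rz z₂) := by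
  have hW : -Wd ≤ Wd := hz₁.1.trans hz₁.2
  have hle : V.r0 - Wd * V.h1 ≤ V.r0 + Wd * V.h1 := by nlinarith
  refine hf.mono_set ?_
  rw [uIcc_of_le hle]
  exact uIcc_subset_Icc (bd_ri_rz_mem h1 hz₁) (bd_ri_rz_mem h1 hz₂)

theorem bd_ri_ii_win {f : ℝ → ℝ} (h1 : 0 < V.h1)
    (hf : IntervalIntegrable f volume (V.r0 - Wd * V.h1) (V.r0 + Wd * V.h1)) :
    IntervalIntegrable (fun z => f (V.rz z)) volume (-Wd) Wd := by
  refine bd_ri_ii_comp h1 ?_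
  have e1 : V.r0 + V.h1 * -Wd = V.r0 - Wd * V.h1 := by ring
  have e2 : V.r0 + V.h1 * Wd = V.r0 + Wd * V.h1 := by ring
  rw [e1, e2]; exact hf

theorem bd_ri_int_rz (f : ℝ → ℝ) (h1 : 0 < V.h1) (z₁ z₂ : ℝ) :
    ∫ z in z₁..z₂, f (V.rz z) = V.h1⁻¹ * ∫ r in (V.rz z₁)..(V.rz z₂), f r :=
  bd_ri_int_comp f V.r0 z₁ z₂ h1

/-- the rescaled error is the unrescaled one divided by `d0 h1²` -/
theorem bd_ri_e_eq (h1 : 0 < V.h1) (z : ℝ) :
    (V.rig a).e cβ z = V.eU a cβ (V.rz z) / (V.d0 * V.h1 ^ 2) := by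
  have hφ := bd_ri_rz_phi (a := a) h1 z
  simp only [RigD.e]
  have e1 : (V.rig a).g ((V.rig a).φ z)
      = (V.Q.Gs W V.g (F.kst W (V.rtr (V.rz z))) - V.rtr (V.rz z)) / (V.d0 * V.h1 ^ 2) := by
    show (V.Q.Gs W V.g (F.kst W (V.rz ((V.rig a).φ z))) - V.rz ((V.rig a).φ z)) / (V.d0 * V.h1 ^ 2) = _
    rw [hφ]
  rw [e1]
  simp only [BdViol.rig, BdViol.eU]
  rcases eq_or_ne V.d0 0 with hd | hd
  · simp [hd]
  · field_simp

theorem bd_ri_R_zero : (V.rig a).R 0 = V.R0 a := by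
  simp only [BdViol.rig, BdViol.R0, bd_ri_rz_zero]

theorem bd_ri_th_mul (h1 : 0 < V.h1) : V.h1 * V.th = V.d0 := by
  simp only [BdViol.th]; field_simp

/-- the crossing density in the two coordinates -/
theorem bd_ri_cross_eq (h1 : 0 < V.h1) (z z' : ℝ) :
    (V.rig a).cross z z' = V.crossU a (V.rz z) (V.rz z') := by
  have hφ := bd_ri_rz_phi (a := a) h1 z'
  simp only [RigD.cross, BdViol.crossU]
  have e1 : (z < (V.rig a).φ z') ↔ V.rz z < V.rtr (V.rz z') := by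
    rw [← hφ, bd_ri_rz_lt_iff h1]
  have e2 : ((V.rig a).φ z' ≤ z) ↔ V.rtr (V.rz z') ≤ V.rz z := by
    rw [← hφ, bd_ri_rz_le_iff h1]
  have e3 : ((z' ≤ z ∧ z < (V.rig a).φ z') ∨ (z < z' ∧ (V.rig a).φ z' ≤ z)) ↔
      ((V.rz z' ≤ V.rz z ∧ V.rz z < V.rtr (V.rz z')) ∨ (V.rz z < V.rz z' ∧ V.rtr (V.rz z') ≤ V.rz z)) := by
    rw [e1, e2, bd_ri_rz_le_iff h1, bd_ri_rz_lt_iff h1]
  by_cases hc : (z' ≤ z ∧ z < (V.rig a).φ z') ∨ (z < z' ∧ (V.rig a).φ z' ≤ z)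
  · rw [if_pos hc, if_pos (e3.1 hc)]; rfl
  · rw [if_neg hc, if_neg (fun hh => hc (e3.2 hh))]

/-- **the instance**: the unrescaled inputs give `RigD.Ok` for the rescaled record -/
theorem bd_ri_ok (h : V.RigIn a C cβ A cD δ Wd) : (V.rig a).Ok C cβ A cD δ Wd := by
  have hd := bd_ri_d0_pos h.toRigPre
  have h1 := bd_ri_h1_pos h.toRigPre
  have hle := bd_ri_d0_le h.toRigPre
  have hC0 := bd_ri_C0_pos h.toRigPre
  have hmem : ∀ {z : ℝ}, z ∈ Icc (-Wd) Wd → V.rz z ∈ V.Win Wd := fun hz => bd_ri_rz_mem h1 hz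
  have hR0 : 0 < V.R0 a := div_pos (mul_pos h.G_pos hC0) (pow_pos h1 2)
  have hth : (V.rig a).θ = V.d0 / V.h1 := rfl
  refine
  { θ_pos := div_pos hd h1
    θ_le := (div_le_one h1).2 hle
    m_bd := fun z hz => ?_
    mt_bd := fun z hz => ?_
    Y_bd := fun z hz => ?_
    m_zero := ?_
    ρ_int := bd_ri_ii_win h1 h.rho_int
    β_int := bd_ri_ii_win h1 h.bet_int
    m_eq := fun z₁ hz₁ z₂ hz₂ => ?_
    ρ_nonneg := fun z hz => h.rho_nonneg _ (hmem hz)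
    β_near := fun z hz => h.bet_near _ (hmem hz)
    F_meas := ?_
    ρ_floor := fun z hz hF => h.rho_floor _ (hmem hz) hF
    Y_mono := ?_
    Y_off := fun z hz hF => ?_
    φ_mono := ?_
    φ_near := fun z hz => ?_
    mt_int := ?_
    transp := fun z hz => ?_
    g_der := fun z hz => ?_
    g1_eq := fun z₁ hz₁ z₂ hz₂ h12 => ?_
    R_pos := by rw [bd_ri_R_zero]; exact hR0
    R_near := fun z hz => ?_
    D_nonneg := fun z hz => div_nonneg (h.D_nonneg _ (hmem hz)) (pow_pos h1 2).le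
    D_le := fun z hz => ?_
    D_near := fun z hz => ?_
    D_R := fun z hz => ?_
    link := fun ht => ?_
    e_int := ?_
    eρ_int := ?_
    e_box := fun p hp₁ hp₂ => ?_
    H_eq := fun z₁ hz₁ z₂ hz₂ => ?_
    H_lb := fun z hz => ?_
    H_off := fun z hz hF => ?_
    H_sign := ?_ }
  · -- m_bd
    show |(V.Q.al (V.rz z) - F.beta0 (V.rz z)) / V.d0| ≤ C
    rw [abs_div, abs_of_pos hd, div_le_iff₀ hd]; exact h.m_bd _ (hmem hz)
  · -- mt_bd
    show |(V.altil (V.rz z) - F.beta0 (V.rz z)) / V.d0| ≤ C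
    rw [abs_div, abs_of_pos hd, div_le_iff₀ hd]; exact h.mt_bd _ (hmem hz)
  · -- Y_bd
    show |(V.Sr (V.rz z) - V.rz z) / V.d0| ≤ C
    rw [abs_div, abs_of_pos hd, div_le_iff₀ hd]; exact h.Y_bd _ (hmem hz)
  · -- m_zero
    show |(V.Q.al (V.rz 0) - F.beta0 (V.rz 0)) / V.d0| = 1
    rw [bd_ri_rz_zero, abs_div, abs_of_pos hd, h.disc, div_self hd.ne']
  · -- m_eq
    show V.d0 / V.h1 * ((V.Q.al (V.rz z₂) - F.beta0 (V.rz z₂)) / V.d0 - (V.Q.al (V.rz z₁) - F.beta0 (V.rz z₁)) / V.d0)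
      = ∫ z in z₁..z₂, (a.rho (V.rz z) - a.bet (V.rz z))
    rw [bd_ri_int_rz (fun r => a.rho r - a.bet r) h1,
      intervalIntegral.integral_sub (bd_ri_ii_sub h1 h.rho_int hz₁ hz₂) (bd_ri_ii_sub h1 h.bet_int hz₁ hz₂),
      ← h.al_eq _ (hmem hz₁) _ (hmem hz₂), ← h.be_eq _ (hmem hz₁) _ (hmem hz₂)]
    field_simp
    ring
  · -- F_meas
    exact ((measurable_const_add V.r0).comp (measurable_const_mul V.h1)) h.Fl_meas
  · -- Y_mono
    intro z₁ hz₁ z₂ hz₂ h12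
    have hS := h.S_mono (hmem hz₁) (hmem hz₂) (bd_ri_rz_le h1 h12)
    have key : ∀ z, z + V.d0 / V.h1 * ((V.Sr (V.rz z) - V.rz z) / V.d0) = (V.Sr (V.rz z) - V.r0) / V.h1 := by
      intro z
      have : V.rz z = V.r0 + V.h1 * z := rfl
      rw [this]; field_simp; ring
    show z₁ + V.d0 / V.h1 * ((V.Sr (V.rz z₁) - V.rz z₁) / V.d0) ≤ z₂ + V.d0 / V.h1 * ((V.Sr (V.rz z₂) - V.rz z₂) / V.d0)
    rw [key, key]
    exact div_le_div_of_nonneg_right (by linarith) h1.le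
  · -- Y_off
    rw [bd_ri_R_zero]
    show max 1 (V.R0 a) * |(V.Sr (V.rz z) - V.rz z) / V.d0| ≤ δ
    rw [abs_div, abs_of_pos hd, ← mul_div_assoc, div_le_iff₀ hd]
    exact h.Y_off _ (hmem hz) hF
  · -- φ_mono
    intro z₁ hz₁ z₂ hz₂ h12
    have hS := h.rt_mono (hmem hz₁) (hmem hz₂) (bd_ri_rz_le h1 h12)
    show (V.rtr (V.rz z₁) - V.r0) / V.h1 ≤ (V.rtr (V.rz z₂) - V.r0) / V.h1
    exact div_le_div_of_nonneg_right (by linarith) h1.le
  · -- φ_near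
    have key : (V.rtr (V.rz z) - V.r0) / V.h1 - z - V.d0 / V.h1 * ((V.Sr (V.rz z) - V.rz z) / V.d0)
        = (V.rtr (V.rz z) - V.Sr (V.rz z)) / V.h1 := by
      have : V.rz z = V.r0 + V.h1 * z := rfl
      rw [this]; field_simp; ring
    show |(V.rtr (V.rz z) - V.r0) / V.h1 - z - V.d0 / V.h1 * ((V.Sr (V.rz z) - V.rz z) / V.d0)| ≤ δ * (V.d0 / V.h1)
    rw [key, abs_div, abs_of_pos h1, ← mul_div_assoc]
    exact div_le_div_of_nonneg_right (h.rt_near _ (hmem hz)) h1.le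
  · -- mt_int
    exact ((bd_ri_ii_win h1 h.at_int).sub (bd_ri_ii_win h1 h.be_int)).div_const _
  · -- transp
    have hz' : V.rz z ∈ V.Win (Wd - (C + 2)) := bd_ri_rz_mem h1 hz
    have ht := h.transp _ hz'
    have e1 : V.rz (z - (C + 2)) = V.rz z - (C + 2) * V.h1 := by simp only [BdViol.rz]; ring
    have e2 : V.rz (z + (C + 2)) = V.rz z + (C + 2) * V.h1 := by simp only [BdViol.rz]; ring
    have e3 : ∫ z' in (z - (C + 2))..(z + (C + 2)), (V.rig a).cross z z'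
        = V.h1⁻¹ * ∫ r' in (V.rz z - (C + 2) * V.h1)..(V.rz z + (C + 2) * V.h1), V.crossU a (V.rz z) r' := by
      simp_rw [bd_ri_cross_eq h1]
      rw [bd_ri_int_rz (fun r' => V.crossU a (V.rz z) r') h1, e1, e2]
    rw [e3]
    show V.d0 / V.h1 * |(V.altil (V.rz z) - F.beta0 (V.rz z)) / V.d0 - (V.Q.al (V.rz z) - F.beta0 (V.rz z)) / V.d0| ≤ _
    have e4 : (V.altil (V.rz z) - F.beta0 (V.rz z)) / V.d0 - (V.Q.al (V.rz z) - F.beta0 (V.rz z)) / V.d0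
        = (V.altil (V.rz z) - V.Q.al (V.rz z)) / V.d0 := by ring
    rw [e4, abs_div, abs_of_pos hd]
    have e5 : V.d0 / V.h1 * (|V.altil (V.rz z) - V.Q.al (V.rz z)| / V.d0)
        = V.h1⁻¹ * |V.altil (V.rz z) - V.Q.al (V.rz z)| := by field_simp
    rw [e5]
    exact mul_le_mul_of_nonneg_left ht (inv_pos.2 h1).le
  · -- g_der
    have hΦ := h.g_der _ (hmem hz)
    have hrz : HasDerivAt V.rz V.h1 z := by
      have := ((hasDerivAt_id z).const_mul V.h1).const_add V.r0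
      rw [mul_one] at this
      exact this
    have hcomp := hΦ.comp z hrz
    have h3 := (hcomp.sub hrz).div_const (V.d0 * V.h1 ^ 2)
    have e1 : (a.G1 (V.rz z) * V.h1 - V.h1) / (V.d0 * V.h1 ^ 2) = (V.rig a).g1 z := by
      show _ = (a.G1 (V.rz z) - 1) / (V.d0 * V.h1)
      field_simp
    rw [e1] at h3
    exact h3
  · -- g1_eq
    have hg := h.g1_eq _ (hmem hz₁) _ (hmem hz₂) (bd_ri_rz_le h1 h12)
    have e1 : ∫ z in z₁..z₂, (V.rig a).mt z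
        = V.h1⁻¹ * ((∫ r in (V.rz z₁)..(V.rz z₂), (V.altil r - F.beta0 r)) / V.d0) := by
      show ∫ z in z₁..z₂, (V.altil (V.rz z) - F.beta0 (V.rz z)) / V.d0 = _
      rw [bd_ri_int_rz (fun r => (V.altil r - F.beta0 r) / V.d0) h1, intervalIntegral.integral_div]
    rw [e1]
    show |(a.G1 (V.rz z₂) - 1) / (V.d0 * V.h1) - (a.G1 (V.rz z₁) - 1) / (V.d0 * V.h1) + _| ≤ _
    set I := ∫ r in (V.rz z₁)..(V.rz z₂), (V.altil r - F.beta0 r) with hI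
    have e2 : (a.G1 (V.rz z₂) - 1) / (V.d0 * V.h1) - (a.G1 (V.rz z₁) - 1) / (V.d0 * V.h1) + A * (V.h1⁻¹ * (I / V.d0))
        = (a.G1 (V.rz z₂) - a.G1 (V.rz z₁) + A * I) / (V.d0 * V.h1) := by field_simp; ring
    rw [e2, abs_div, abs_of_pos (mul_pos hd h1), div_le_iff₀ (mul_pos hd h1)]
    have e3 : V.rz z₂ - V.rz z₁ = V.h1 * (z₂ - z₁) := by simp only [BdViol.rz]; ring
    rw [e3] at hg
    calc _ ≤ δ * V.d0 * (V.h1 * (z₂ - z₁)) := hg
      _ = δ * (z₂ - z₁) * (V.d0 * V.h1) := by ring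
  · -- R_near
    rw [bd_ri_R_zero]
    show |V.Gpr a (V.rz z) * F.C0 / V.h1 ^ 2 - V.Gpr a V.r0 * F.C0 / V.h1 ^ 2| ≤ δ * (V.Gpr a V.r0 * F.C0 / V.h1 ^ 2)
    have e1 : V.Gpr a (V.rz z) * F.C0 / V.h1 ^ 2 - V.Gpr a V.r0 * F.C0 / V.h1 ^ 2
        = (V.Gpr a (V.rz z) - V.Gpr a V.r0) * (F.C0 / V.h1 ^ 2) := by ring
    have hq : 0 < F.C0 / V.h1 ^ 2 := div_pos hC0 (pow_pos h1 2)
    rw [e1, abs_mul, abs_of_pos hq]
    calc _ ≤ δ * V.Gpr a V.r0 * (F.C0 / V.h1 ^ 2) := mul_le_mul_of_nonneg_right (h.G_near _ (hmem hz)) hq.le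
      _ = _ := by ring
  · -- D_le
    show V.Dr a (V.rz z) / V.h1 ^ 2 ≤ C
    rw [div_le_iff₀ (pow_pos h1 2)]; exact h.D_le _ (hmem hz)
  · -- D_near
    show |V.Dr a (V.rz z) / V.h1 ^ 2 - V.Dr a (V.rz 0) / V.h1 ^ 2| ≤ δ
    rw [bd_ri_rz_zero, ← sub_div, abs_div, abs_of_pos (pow_pos h1 2), div_le_iff₀ (pow_pos h1 2)]
    exact h.D_near _ (hmem hz)
  · -- D_R
    rw [bd_ri_R_zero]
    show V.Dr a (V.rz z) / V.h1 ^ 2 ≤ δ * (V.Gpr a V.r0 * F.C0 / V.h1 ^ 2)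
    rw [← mul_div_assoc]
    exact div_le_div_of_nonneg_right (h.D_R _ (hmem hz)) (pow_pos h1 2).le
  · -- link
    have ht' : V.d0 < V.h1 := by
      have : V.d0 / V.h1 < 1 := ht
      rwa [div_lt_one h1] at this
    obtain ⟨l1, l2⟩ := h.link ht'
    refine ⟨?_, ?_⟩
    · show cD ≤ V.Dr a (V.rz 0) / V.h1 ^ 2
      rw [bd_ri_rz_zero, le_div_iff₀ (pow_pos h1 2)]; exact l1
    · rw [bd_ri_R_zero]
      show 1 ≤ δ * (V.Gpr a V.r0 * F.C0 / V.h1 ^ 2)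
      rw [← mul_div_assoc, le_div_iff₀ (pow_pos h1 2), one_mul]; exact l2
  · -- e_int
    have : (V.rig a).e cβ = fun z => V.eU a cβ (V.rz z) / (V.d0 * V.h1 ^ 2) := funext (bd_ri_e_eq h1)
    rw [this]
    exact (bd_ri_ii_win h1 h.e_int).div_const _
  · -- eρ_int
    have : (fun z => (V.rig a).e cβ z * (V.rig a).ρ z)
        = fun z => (V.eU a cβ (V.rz z) * a.rho (V.rz z)) / (V.d0 * V.h1 ^ 2) := by
      funext z
      rw [bd_ri_e_eq h1]
      show V.eU a cβ (V.rz z) / (V.d0 * V.h1 ^ 2) * a.rho (V.rz z) = _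
      ring
    rw [this]
    exact (bd_ri_ii_win (f := fun r => V.eU a cβ r * a.rho r) h1 h.er_int).div_const _
  · -- e_box
    rw [bd_ri_R_zero]
    have hp₂' : p + V.d0 / V.h1 ≤ Wd := hp₂
    have e0 : V.rz (p + V.d0 / V.h1) = V.rz p + V.d0 := by
      simp only [BdViol.rz]; field_simp; ring
    have b1 : V.r0 - Wd * V.h1 ≤ V.rz p := by
      have := mul_le_mul_of_nonneg_left hp₁ h1.le
      simp only [BdViol.rz]; nlinarith
    have b2 : V.rz p + V.d0 ≤ V.r0 + Wd * V.h1 := by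
      rw [← e0]
      have := mul_le_mul_of_nonneg_left hp₂' h1.le
      simp only [BdViol.rz]; nlinarith
    have hb := h.e_box _ b1 b2
    have hq : 0 < V.d0 * V.h1 ^ 2 := mul_pos hd (pow_pos h1 2)
    have e1 : ∫ z in p..(p + (V.rig a).θ), |(V.rig a).e cβ z| * (1 + (V.rig a).ρ z)
        = V.h1⁻¹ * ((∫ r in (V.rz p)..(V.rz p + V.d0), |V.eU a cβ r| * (1 + a.rho r)) / (V.d0 * V.h1 ^ 2)) := by
      have : (fun z => |(V.rig a).e cβ z| * (1 + (V.rig a).ρ z))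
          = fun z => (fun r => |V.eU a cβ r| * (1 + a.rho r) / (V.d0 * V.h1 ^ 2)) (V.rz z) := by
        funext z
        rw [bd_ri_e_eq h1, abs_div, abs_of_pos hq]
        show |V.eU a cβ (V.rz z)| / (V.d0 * V.h1 ^ 2) * (1 + a.rho (V.rz z)) = _
        ring
      rw [this, bd_ri_int_rz (fun r => |V.eU a cβ r| * (1 + a.rho r) / (V.d0 * V.h1 ^ 2)) h1,
        intervalIntegral.integral_div]
      show V.h1⁻¹ * ((∫ r in (V.rz p)..(V.rz (p + V.d0 / V.h1)), _) / _) = _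
      rw [e0]
    rw [e1]
    show _ ≤ δ * (V.d0 / V.h1) * min 1 (V.R0 a)
    calc V.h1⁻¹ * ((∫ r in (V.rz p)..(V.rz p + V.d0), |V.eU a cβ r| * (1 + a.rho r)) / (V.d0 * V.h1 ^ 2))
        ≤ V.h1⁻¹ * ((δ * V.d0 * (V.d0 * V.h1 ^ 2) * min 1 (V.R0 a)) / (V.d0 * V.h1 ^ 2)) :=
          mul_le_mul_of_nonneg_left (div_le_div_of_nonneg_right hb hq.le) (inv_pos.2 h1).le
      _ = δ * (V.d0 / V.h1) * min 1 (V.R0 a) := by field_simp
  · -- H_eq
    have hH := h.H_eq _ (hmem hz₁) _ (hmem hz₂)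
    show a.H (V.rz z₂) / (2 * F.C0 * V.d0 * V.h1) - a.H (V.rz z₁) / (2 * F.C0 * V.d0 * V.h1)
      = -∫ z in z₁..z₂, (V.Sr (V.rz z) - V.rz z) / V.d0
    rw [bd_ri_int_rz (fun r => (V.Sr r - r) / V.d0) h1, ← sub_div, hH]
    have e1 : (fun r => 2 * F.C0 * (r - V.Sr r)) = fun r => (-(2 * F.C0 * V.d0)) * ((V.Sr r - r) / V.d0) := by
      funext r; field_simp; ring
    rw [e1, intervalIntegral.integral_const_mul]
    field_simp
  · -- H_lb
    rw [bd_ri_R_zero]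
    have hq : 0 < 2 * F.C0 * V.d0 * V.h1 := by positivity
    show -(δ * (V.d0 / V.h1)) ≤ max 1 (V.R0 a) * (a.H (V.rz z) / (2 * F.C0 * V.d0 * V.h1))
    rw [← mul_div_assoc (max 1 (V.R0 a)), le_div_iff₀ hq]
    calc -(δ * (V.d0 / V.h1)) * (2 * F.C0 * V.d0 * V.h1) = -(δ * (2 * F.C0 * V.d0 ^ 2)) := by field_simp
      _ ≤ _ := h.H_lb _ (hmem hz)
  · -- H_off
    have hq : 0 < 2 * F.C0 * V.d0 * V.h1 := by positivity
    exact div_nonpos_of_nonpos_of_nonneg (h.H_off _ (hmem hz) hF) hq.le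
  · -- H_sign
    have hq : 0 < 2 * F.C0 * V.d0 * V.h1 := by positivity
    filter_upwards [bd_ri_ae_comp V.r0 h1 h.H_sign] with z hz hzm
    have := hz (hmem hzm)
    show a.H (V.rz z) / (2 * F.C0 * V.d0 * V.h1) * (a.rho (V.rz z) - a.bet (V.rz z)) ≤ 0
    rw [div_mul_eq_mul_div]
    exact div_nonpos_of_nonpos_of_nonneg this hq.le

end Ok

/-! ## 2b. the algebra of (C20), LL l.2054-2062 -/

namespace BdViol

variable {F : BdFr} {X : BdFix} {W : BdWorld} (V : BdViol F X W) (a : BdRigAux)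

/-- `K_s(α(r))` -/
def Ksr (r : ℝ) : ℝ := V.Q.Ks W V.g (V.Q.al r)
/-- the closure defect of (C19) at the radius `r`: `|S - Γ_s(K_s)|` at `v = α(r)` -/
def c19r (r : ℝ) : ℝ := |V.Sr r - V.Q.Gs W V.g (V.Ksr r)|
/-- second order Taylor remainder of `r~ = Γ_*(K_s)` at `K_*` -/
def tay (r : ℝ) : ℝ := V.rtr r - F.q (V.Q.al r) - V.Gpr a r * (V.Ksr r - F.K (V.Q.al r))

/-- **inputs of (C20)** on the window; accuracy `η` -/
structure C20In (cβ cG η Wd : ℝ) : Prop where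
  /- [frame] the window lies in `[0,1]`, in the constant part of `C`; `h = K - b q + d` -/
  r_in : ∀ r ∈ V.Win Wd, r ∈ Icc (0 : ℝ) 1
  C_const : ∀ r ∈ V.Win Wd, F.C X r = F.C0
  h_eq : ∀ r ∈ V.Win Wd, F.h V.g (V.Q.al r) = F.K (V.Q.al r) - F.b V.g (V.Q.al r) * F.q (V.Q.al r) + F.d (V.Q.al r)
  /- [BOX-C] `Γ_*` strictly increasing: `k_*(Γ_*(t)) = t` at `t = K_s(v)` -/
  kst_rt : ∀ r ∈ V.Win Wd, F.kst W (V.rtr r) = V.Ksr r
  /- [P] `Γ_*'' = O(λ u)`, increment `O(d0)`: quadratic error `O(λ u d0²) = o(u³P1)` -/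
  taylor : ∀ r ∈ V.Win Wd, |V.tay a r| ≤ η * (F.u ^ 3 * V.P1)
  /- [N11] l.1342: the defect is the logarithmic seed, `|d| = o(u³P1)` -/
  seed : ∀ r ∈ V.Win Wd, |V.Gpr a r * F.d (V.Q.al r)| ≤ η * (F.u ^ 3 * V.P1)
  /- [P] `q(α r) - r = d0 (c_q m + o(1))` -/
  q_lin : ∀ r ∈ V.Win Wd, |r - F.q (V.Q.al r) + (V.Q.al r - F.beta0 r) / cβ| ≤ η * V.d0
  /- [P] `Γ_*'` bounded below -/
  G_lb : cG ≤ V.Gpr a V.r0
  /- [N17] (C19): radius + mass box average (`dv = α' dr`), boxes of radius length `d0` -/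
  c19_int : IntervalIntegrable (fun r => V.c19r r * (1 + a.rho r)) volume (V.r0 - Wd * V.h1) (V.r0 + Wd * V.h1)
  c19 : ∀ p, V.r0 - Wd * V.h1 ≤ p → p + V.d0 ≤ V.r0 + Wd * V.h1 →
    ∫ r in p..(p + V.d0), V.c19r r * (1 + a.rho r) ≤ η * V.d0 * (F.u ^ 3 * V.P1)

end BdViol

section C20

variable {F : BdFr} {X : BdFix} {W : BdWorld} {V : BdViol F X W} {a : BdRigAux} {C cβ cG A cD δ η Wd : ℝ}

/-- `K_s - K_* = b (S - q) - C0 (S - r) + d` (l.2056) -/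
theorem bd_ri_inc (h : V.C20In a cβ cG η Wd) {r : ℝ} (hr : r ∈ V.Win Wd) :
    V.Ksr r - F.K (V.Q.al r)
      = F.b V.g (V.Q.al r) * (V.Sr r - F.q (V.Q.al r)) - F.C0 * (V.Sr r - r) + F.d (V.Q.al r) := by
  have h1 := V.Q.r_al r (h.r_in r hr)
  simp only [BdViol.Ksr, BdQ.Ks, BdQ.hq, BdQ.bq, BdViol.Sr, h1, h.C_const r hr, h.h_eq r hr]
  ring

/-- **(C20) as an identity**:
`eU = [Γ_s(K_s) - S] + (1 - bΓ_*')[r - q(α r) + (α - β₀)/cβ] - Γ_*' d - Taylor remainder` -/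
theorem bd_ri_eU (h : V.C20In a cβ cG η Wd) {r : ℝ} (hr : r ∈ V.Win Wd) :
    V.eU a cβ r = (V.Q.Gs W V.g (V.Ksr r) - V.Sr r)
      + V.Dr a r * (r - F.q (V.Q.al r) + (V.Q.al r - F.beta0 r) / cβ)
      - V.Gpr a r * F.d (V.Q.al r) - V.tay a r := by
  have hi := bd_ri_inc h hr
  simp only [BdViol.eU, BdViol.tay, h.kst_rt r hr, hi, BdViol.Dr]
  ring

/-- `h1² = u² max(L², λ)` -/
theorem bd_ri_h1_sq (hL : 0 < V.L) (hlam : 0 < F.lam) : V.h1 ^ 2 = F.u ^ 2 * max (V.L ^ 2) F.lam := by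
  have hs : 0 ≤ Real.sqrt F.lam := Real.sqrt_nonneg _
  have e : (max V.L (Real.sqrt F.lam)) ^ 2 = max (V.L ^ 2) F.lam := by
    rcases le_total V.L (Real.sqrt F.lam) with hc | hc
    · rw [max_eq_right hc, Real.sq_sqrt hlam.le, max_eq_right]
      calc V.L ^ 2 ≤ (Real.sqrt F.lam) ^ 2 := pow_le_pow_left₀ hL.le hc 2
        _ = F.lam := Real.sq_sqrt hlam.le
    · rw [max_eq_left hc, max_eq_left]
      calc F.lam = (Real.sqrt F.lam) ^ 2 := (Real.sq_sqrt hlam.le).symm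
        _ ≤ V.L ^ 2 := pow_le_pow_left₀ hs hc 2
  simp only [BdViol.h1, mul_pow, e]

/-- `u³ P1 = d0 h1² min(1, Λ/max(L²,λ)) ≤ max(1, 1/cG) d0 h1² min(1, R0)`   (l.2014-2020) -/
theorem bd_ri_P1_le (hu : 0 < F.u) (hL : 0 < V.L) (hlam : 0 < F.lam) (hcG : 0 < cG) (hG : cG ≤ V.Gpr a V.r0) :
    F.u ^ 3 * V.P1 ≤ max 1 (1 / cG) * (V.d0 * V.h1 ^ 2 * min 1 (V.R0 a)) := by
  have hM : 0 < max (V.L ^ 2) F.lam := lt_max_of_lt_right hlam
  have hLam : 0 < F.Lam := Real.rpow_pos_of_pos hlam _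
  have hsq := bd_ri_h1_sq (V := V) hL hlam
  have hR : V.R0 a = V.Gpr a V.r0 * (F.Lam / max (V.L ^ 2) F.lam) := by
    simp only [BdViol.R0, hsq, BdFr.C0]
    field_simp
  set M := max (V.L ^ 2) F.lam with hMdef
  set t := F.Lam / M with ht
  have ht0 : 0 < t := div_pos hLam hM
  have hK : 1 ≤ max 1 (1 / cG) := le_max_left _ _
  have hK0 : 0 < max 1 (1 / cG) := lt_of_lt_of_le one_pos hK
  -- `min M Λ = M min(1,t)`
  have e1 : V.G1 = M * min 1 t := by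
    simp only [BdViol.G1]
    rw [← hMdef]
    rcases le_total M F.Lam with hc | hc
    · have : 1 ≤ t := by rw [ht, le_div_iff₀ hM]; linarith
      rw [min_eq_left hc, min_eq_left this, mul_one]
    · have : t ≤ 1 := by rw [ht, div_le_iff₀ hM]; linarith
      rw [min_eq_right hc, min_eq_right this, ht]; field_simp
  have e2 : min 1 t ≤ max 1 (1 / cG) * min 1 (V.R0 a) := by
    rw [hR]
    rcases le_total 1 (V.Gpr a V.r0 * t) with hc | hc
    · rw [min_eq_left hc, mul_one]; exact (min_le_left _ _).trans hK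
    · rw [min_eq_right hc]
      have h1 : 1 ≤ (1 / cG) * V.Gpr a V.r0 := by
        rw [div_mul_eq_mul_div, one_mul, le_div_iff₀ hcG]; linarith
      calc min 1 t ≤ t := min_le_right _ _
        _ ≤ ((1 / cG) * V.Gpr a V.r0) * t := by nlinarith
        _ = (1 / cG) * (V.Gpr a V.r0 * t) := by ring
        _ ≤ max 1 (1 / cG) * (V.Gpr a V.r0 * t) :=
          mul_le_mul_of_nonneg_right (le_max_right _ _) (mul_pos (lt_of_lt_of_le hcG hG) ht0).le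
  have hpos : 0 < F.u ^ 3 * V.L * M := by positivity
  calc F.u ^ 3 * V.P1 = (F.u ^ 3 * V.L * M) * min 1 t := by simp only [BdViol.P1, e1]; ring
    _ ≤ (F.u ^ 3 * V.L * M) * (max 1 (1 / cG) * min 1 (V.R0 a)) := mul_le_mul_of_nonneg_left e2 hpos.le
    _ = max 1 (1 / cG) * (V.d0 * V.h1 ^ 2 * min 1 (V.R0 a)) := by
      rw [hsq]; simp only [BdViol.d0]; ring

/-- the constant of `bd_ri_in_of` -/
def bdRiK (C cβ cG : ℝ) : ℝ := max 1 (1 / cG) + (max C 1 + 2 * max 1 (1 / cG)) * (2 + 2 * C + cβ)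

/-- integrability on a subinterval of the window -/
theorem bd_ri_ii_box {f : ℝ → ℝ} (hf : IntervalIntegrable f volume (V.r0 - Wd * V.h1) (V.r0 + Wd * V.h1))
    {p q : ℝ} (hp : V.r0 - Wd * V.h1 ≤ p) (hpq : p ≤ q) (hq : q ≤ V.r0 + Wd * V.h1) :
    IntervalIntegrable f volume p q := by
  refine hf.mono_set ?_
  rw [uIcc_of_le hpq, uIcc_of_le (hp.trans (hpq.trans hq))]
  exact Icc_subset_Icc hp hq

/-- the mass of a box is `O(d0)` -/
theorem bd_ri_box_mass (hp : V.RigPre a C cβ A cD δ Wd) {p : ℝ} (h₁ : V.r0 - Wd * V.h1 ≤ p)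
    (h₂ : p + V.d0 ≤ V.r0 + Wd * V.h1) : V.Q.al (p + V.d0) - V.Q.al p ≤ (2 * C + cβ + δ) * V.d0 := by
  have hd := bd_ri_d0_pos hp
  have m1 : p ∈ V.Win Wd := ⟨h₁, by linarith⟩
  have m2 : p + V.d0 ∈ V.Win Wd := ⟨by linarith, h₂⟩
  have b1 := abs_le.1 (hp.m_bd _ m1)
  have b2 := abs_le.1 (hp.m_bd _ m2)
  have hb := hp.be_eq _ m1 _ m2
  have hi : ∫ r in p..(p + V.d0), a.bet r ≤ ∫ _r in p..(p + V.d0), (cβ + δ) := by
    refine intervalIntegral.integral_mono_on (by linarith) (bd_ri_ii_box hp.bet_int h₁ (by linarith) h₂)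
      intervalIntegrable_const (fun r hr => ?_)
    have := abs_le.1 (hp.bet_near r ⟨h₁.trans hr.1, hr.2.trans h₂⟩)
    linarith [this.2]
  rw [intervalIntegral.integral_const, smul_eq_mul] at hi
  have : p + V.d0 - p = V.d0 := by ring
  rw [this] at hi
  nlinarith [b1.1, b1.2, b2.1, b2.2]

/-- **(C19) ⇒ the closure bound of `RigIn`** (= (C20) with `e_n = o(min(1,R_n))` in both box averages) -/
theorem bd_ri_in_of (hp : V.RigPre a C cβ A cD δ Wd) (hc : V.C20In a cβ cG η Wd) (hcG : 0 < cG) (hη : 0 ≤ η)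
    (hδ1 : δ ≤ 1) (hηδ : η * bdRiK C cβ cG ≤ δ) :
    V.RigIn a C cβ A cD δ Wd := by
  refine { toRigPre := hp, e_box := fun p h₁ h₂ => ?_ }
  have hd := bd_ri_d0_pos hp
  have h1 := bd_ri_h1_pos hp
  have hC0 := bd_ri_C0_pos hp
  have hR0 : 0 < V.R0 a := div_pos (mul_pos hp.G_pos hC0) (pow_pos h1 2)
  have hmin : 0 < min 1 (V.R0 a) := lt_min one_pos hR0
  set Cg := max 1 (1 / cG) with hCg
  set Cm := max C 1 with hCm
  have hCg1 : 1 ≤ Cg := le_max_left _ _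
  have hCm1 : 1 ≤ Cm := le_max_right _ _
  set μ := V.d0 * V.h1 ^ 2 * min 1 (V.R0 a) with hμ
  have hμ0 : 0 < μ := by positivity
  have hP := bd_ri_P1_le (V := V) (a := a) hp.u_pos hp.L_pos hp.lam_pos hcG hc.G_lb
  set κ := η * (Cm + 2 * Cg) * μ with hκ
  have hκ0 : 0 ≤ κ := by positivity
  have hsub : ∀ r ∈ Icc p (p + V.d0), r ∈ V.Win Wd := fun r hr => ⟨h₁.trans hr.1, hr.2.trans h₂⟩
  -- pointwise bound
  have hpt : ∀ r ∈ Icc p (p + V.d0), |V.eU a cβ r| ≤ V.c19r r + κ := by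
    intro r hr
    have hw := hsub r hr
    rw [bd_ri_eU hc hw]
    have t1 : |V.Q.Gs W V.g (V.Ksr r) - V.Sr r| = V.c19r r := by
      simp only [BdViol.c19r]; exact abs_sub_comm _ _
    have hD0 := hp.D_nonneg r hw
    have hDle : V.Dr a r ≤ Cm * (V.h1 ^ 2 * min 1 (V.R0 a)) := by
      rcases le_total 1 (V.R0 a) with hcase | hcase
      · rw [min_eq_left hcase, mul_one]
        calc V.Dr a r ≤ C * V.h1 ^ 2 := hp.D_le r hw
          _ ≤ Cm * V.h1 ^ 2 := mul_le_mul_of_nonneg_right (le_max_left _ _) (pow_pos h1 2).le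
      · rw [min_eq_right hcase]
        have e : V.h1 ^ 2 * V.R0 a = V.Gpr a V.r0 * F.C0 := by
          simp only [BdViol.R0]; field_simp
        rw [e]
        have hGC : 0 < V.Gpr a V.r0 * F.C0 := mul_pos hp.G_pos hC0
        calc V.Dr a r ≤ δ * (V.Gpr a V.r0 * F.C0) := hp.D_R r hw
          _ ≤ Cm * (V.Gpr a V.r0 * F.C0) := mul_le_mul_of_nonneg_right (hδ1.trans hCm1) hGC.le
    have t2 : |V.Dr a r * (r - F.q (V.Q.al r) + (V.Q.al r - F.beta0 r) / cβ)| ≤ η * Cm * μ := by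
      rw [abs_mul, abs_of_nonneg hD0]
      calc V.Dr a r * |r - F.q (V.Q.al r) + (V.Q.al r - F.beta0 r) / cβ|
          ≤ (Cm * (V.h1 ^ 2 * min 1 (V.R0 a))) * (η * V.d0) :=
            mul_le_mul hDle (hc.q_lin r hw) (abs_nonneg _) (by positivity)
        _ = η * Cm * μ := by rw [hμ]; ring
    have t3 : |V.Gpr a r * F.d (V.Q.al r)| ≤ η * Cg * μ :=
      calc _ ≤ η * (F.u ^ 3 * V.P1) := hc.seed r hw
        _ ≤ η * (Cg * μ) := mul_le_mul_of_nonneg_left hP hη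
        _ = _ := by ring
    have t4 : |V.tay a r| ≤ η * Cg * μ :=
      calc _ ≤ η * (F.u ^ 3 * V.P1) := hc.taylor r hw
        _ ≤ η * (Cg * μ) := mul_le_mul_of_nonneg_left hP hη
        _ = _ := by ring
    have tri : ∀ x y z w : ℝ, |x + y - z - w| ≤ |x| + |y| + |z| + |w| := by
      intro x y z w
      have a1 := abs_sub (x + y - z) w
      have a2 := abs_sub (x + y) z
      have a3 := abs_add_le x y
      linarith
    calc _ ≤ _ := tri _ _ _ _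
      _ ≤ V.c19r r + η * Cm * μ + η * Cg * μ + η * Cg * μ := by rw [t1]; linarith
      _ = V.c19r r + κ := by rw [hκ]; ring
  -- integrate
  have hle : p ≤ p + V.d0 := by linarith
  have i1 := bd_ri_ii_box hp.e_int h₁ hle h₂
  have i2 := bd_ri_ii_box hp.er_int h₁ hle h₂
  have i3 := bd_ri_ii_box hc.c19_int h₁ hle h₂
  have i4 := bd_ri_ii_box hp.rho_int h₁ hle h₂
  have i5 : IntervalIntegrable (fun r => κ * (1 + a.rho r)) volume p (p + V.d0) :=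
    (intervalIntegrable_const.add i4).const_mul κ
  have e1 : ∫ r in p..(p + V.d0), |V.eU a cβ r| * (1 + a.rho r)
      = ∫ r in p..(p + V.d0), (|V.eU a cβ r| + |V.eU a cβ r * a.rho r|) := by
    refine intervalIntegral.integral_congr (fun r hr => ?_)
    rw [uIcc_of_le hle] at hr
    have := hp.rho_nonneg r (hsub r hr)
    show |V.eU a cβ r| * (1 + a.rho r) = |V.eU a cβ r| + |V.eU a cβ r * a.rho r|
    rw [abs_mul, abs_of_nonneg this]; ring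
  have e2 : ∫ r in p..(p + V.d0), (|V.eU a cβ r| + |V.eU a cβ r * a.rho r|)
      ≤ ∫ r in p..(p + V.d0), (V.c19r r * (1 + a.rho r) + κ * (1 + a.rho r)) := by
    refine intervalIntegral.integral_mono_on hle (i1.abs.add i2.abs) (i3.add i5) (fun r hr => ?_)
    have h0 := hp.rho_nonneg r (hsub r hr)
    rw [abs_mul, abs_of_nonneg h0]
    have := mul_le_mul_of_nonneg_right (hpt r hr) (by linarith : (0 : ℝ) ≤ 1 + a.rho r)
    nlinarith
  have e3 : ∫ r in p..(p + V.d0), (1 + a.rho r) = V.d0 + (V.Q.al (p + V.d0) - V.Q.al p) := by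
    rw [intervalIntegral.integral_add intervalIntegrable_const i4, intervalIntegral.integral_const, smul_eq_mul,
      ← hp.al_eq _ ⟨h₁, by linarith⟩ _ ⟨by linarith, h₂⟩]
    ring
  have hmass := bd_ri_box_mass hp h₁ h₂
  rw [e1]
  refine e2.trans ?_
  rw [intervalIntegral.integral_add i3 i5, intervalIntegral.integral_const_mul, e3]
  have c1 := hc.c19 p h₁ h₂
  have c2 : η * V.d0 * (F.u ^ 3 * V.P1) ≤ η * V.d0 * (Cg * μ) :=
    mul_le_mul_of_nonneg_left hP (by positivity)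
  have c3 : κ * (V.d0 + (V.Q.al (p + V.d0) - V.Q.al p)) ≤ κ * ((2 + 2 * C + cβ) * V.d0) := by
    refine mul_le_mul_of_nonneg_left ?_ hκ0
    nlinarith
  have c4 : η * V.d0 * (Cg * μ) + κ * ((2 + 2 * C + cβ) * V.d0) = (η * bdRiK C cβ cG) * (V.d0 * μ) := by
    rw [hκ]; simp only [bdRiK]; ring
  have c5 : (η * bdRiK C cβ cG) * (V.d0 * μ) ≤ δ * (V.d0 * μ) :=
    mul_le_mul_of_nonneg_right hηδ (by positivity)
  calc _ ≤ η * V.d0 * (Cg * μ) + κ * ((2 + 2 * C + cβ) * V.d0) := by linarith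
    _ ≤ δ * (V.d0 * μ) := by rw [c4]; exact c5
    _ = _ := by rw [hμ]; ring

end C20

/-! ## 3. exit of N18 -/

/-- **exit of N18**: for large sizes there is NO buffered violation with buffer constant `Cbuf` at a frame satisfying `P`
(`P` = standing hypotheses of the stage: `F.Ok X`, `F.AtStage X`, the induction hypothesis (C12) at the preceding stage, ...).
With the doubling lemma of N11 (l.1313-1325) this is (C12) at the stage of the frame. -/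
def BudNoViol (X : BdFix) (W : BdWorld) (P : BdFr → Prop) (Cbuf : ℝ) : Prop :=
  ∃ N0 : ℕ, ∀ F : BdFr, P F → N0 ≤ F.N → ∀ V : BdViol F X W, ¬ V.Ok Cbuf

/-- what N4, N11, N12, N17 and (P2)-(P5) have to deliver TOGETHER: for every accuracy `δ` and window `Wd`, every buffered violation of a large
frame carries auxiliary data with `RigIn`.  The constants `C cβ A cD` are fixed BEFORE `δ, Wd`. -/
def BudRigInputs (X : BdFix) (W : BdWorld) (P : BdFr → Prop) (Cbuf C cβ A cD : ℝ) : Prop :=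
  ∀ δ Wd : ℝ, 0 < δ → 0 < Wd → ∃ N0 : ℕ, ∀ F : BdFr, P F → N0 ≤ F.N → ∀ V : BdViol F X W, V.Ok Cbuf →
    ∃ a : BdRigAux, V.RigIn a C cβ A cD δ Wd

/-- `BudRig` + the inputs ⇒ no buffered violation -/
theorem bd_ri_noviol (hR : BudRig) {X : BdFix} {W : BdWorld} {P : BdFr → Prop} {Cbuf C cβ A cD : ℝ}
    (hC : 0 < C) (hcβ : 0 < cβ) (hA : 0 < A) (hcD : 0 < cD) (hin : BudRigInputs X W P Cbuf C cβ A cD) :
    BudNoViol X W P Cbuf := by
  obtain ⟨δ, Wd, hδ, hWd, hno⟩ := hR C cβ A cD hC hcβ hA hcD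
  obtain ⟨N0, hN0⟩ := hin δ Wd hδ hWd
  refine ⟨N0, fun F hF hN V hV => ?_⟩
  obtain ⟨a, ha⟩ := hN0 F hF hN V hV
  exact hno _ (bd_ri_ok ha)

end

end Claimed.Agent.R286
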