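import Claimed.Agent.R286.Bud.L8Defs
import Claimed.Agent.R286.Bud.RigInst
import Claimed.Agent.R286.Bud.Stage
import Claimed.Agent.R286.Bud.GeoBr

/-!
# Row 286, LL sec. 7, PART B (l.1151-2253): STATEMENTS of the nodes N11, N12, N17, N18a, N19 + standing hypotheses on the paths + KIT        (helper157; namespace `BudB`)

Only `def … : Prop`, structures and small PROVED lemmas: every prover of a node of part B imports THIS file (not `Bud/HubB`), states his theorem on these Props in his own file;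
`Bud/HubB.lean` (the spine) imports the provers' files and calls them.
* Props: `OSt VSt PotEx C7a BufSel LSmall BufGeo Seed Transport Gf C14 Drift clo C19 RigHyp C3`.
* standing hypotheses besides `BdStd` (212): `CuStd` (184: direction `c_u`), `PathStd` (157: what N11, N12, N18a use of (P2)-(P8): ties `K = h_* + b q`, `q = Γ_*(K)`, sizes, seeds),
  `GamLink` (the response of the world is the response of the scalar block).      PRODUCER of all of them for `BtFam`: helper131 (INST[BdStd]).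
* kit `vst_*` (elementary facts on a buffered violation), `ev_*` (uniform "for large sizes" facts on frames).
-/

set_option autoImplicit false

namespace Claimed.Agent.R286

open MeasureTheory Set Filter Topology Asymptotics

noncomputable section

namespace BudB

section Props

variable (X : BdFix) (W : BdWorld) (Fam : BdFr → Prop)

/-- an optimiser at the stage index `n`, at a nonexceptional parameter of the `n`-th interval (the class of `BudC12`, `BudC13`) -/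
def OSt (n : ℕ) (i : BdI X) : Prop :=
  BdAt X Fam n i.F ∧ i.g ∈ Icc (X.glo n) (X.ghi n) ∧ i.F.GoodG X W i.g ∧ i.Q.IsOpt W i.g

/-- a buffered violation at the stage index `n` (buffer constant `2`) -/
def VSt (n : ℕ) (i : BdVI X W) : Prop := i.Ok Fam n 2

/-! ### inputs from part A -/

/-- N4: every optimiser has a (continuous) first-variation potential (C6).      PROVED: `BudB.potex` (from `bud_n4_geo` + `bdg_base`).
Every potential is the potential of a geometry datum `budGeoQ` which is `Ok`: `bdg_ok_of_pot` (248, `Bud/Brg248`) -/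
def PotEx : Prop := ∃ N0 : ℕ, ∀ i : BdI X, i.Ok W Fam → N0 ≤ i.F.N → ∃ H : ℝ → ℝ, Continuous H ∧ i.Q.IsPot W i.g H

/-- (C7), first half -/
def C7a : Prop := ∃ cL CL : ℝ, 0 < cL ∧ ∃ N0 : ℕ, ∀ i : BdI X, i.Ok W Fam → N0 ≤ i.F.N →
  ∀ v ∈ Icc (i.F.wc X) 1, cL * v ≤ i.Q.r v ∧ i.Q.r v ≤ CL * v

/-! ### N11: buffered geometry -/

/-- buffer selection by doubling: a violation of (C12) with constant `1` produces a buffered violation -/
def BufSel (n : ℕ) : Prop := ∃ N0 : ℕ, ∀ i : BdI X, OSt X W Fam n i → N0 ≤ i.F.N →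
  ∀ r1 ∈ Icc (X.qlo n * i.F.u) (X.qhi n * i.F.u), i.F.u * i.F.aj X * i.F.Zj X W i.g < |i.Q.al r1 - i.F.beta0 r1| →
    ∃ V : BdViol i.F X W, VSt X W Fam n ⟨i.F, V⟩

/-- `L → 0` -/
def LSmall (n : ℕ) : Prop := ∀ ε : ℝ, 0 < ε → ∃ N0 : ℕ, ∀ i : BdVI X W, VSt X W Fam n i → N0 ≤ i.F.N → i.V.L ≤ ε

/-- B5: geometry in the buffer shrunk by `s` -/
def BufGeo (n : ℕ) : Prop := ∃ C s : ℝ, 0 < s ∧ s ≤ 1 ∧ ∃ N0 : ℕ, ∀ i : BdVI X W, VSt X W Fam n i → N0 ≤ i.F.N →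
  ∀ H : ℝ → ℝ, i.V.Q.IsPot W i.V.g H →
    (∀ r ∈ i.V.Buf s, |i.V.Q.Sq W i.V.g (i.V.Q.al r) - r| ≤ C * i.V.d0) ∧
    (∀ a ∈ i.V.Buf s, ∀ b ∈ i.V.Buf s, C * i.V.d0 ≤ b - a → ∃ r ∈ Icc a b, r ∈ bdNonfloor H) ∧
    (∀ a ∈ i.V.Buf s, ∀ b ∈ i.V.Buf s, a ≤ b →
      i.V.Q.Sq W i.V.g (i.V.Q.al b) - i.V.Q.Sq W i.V.g (i.V.Q.al a) ≤ C * (i.V.d0 + (b - a)) ∧
      i.V.Q.al b - i.V.Q.al a ≤ C * (i.V.d0 + (b - a))) ∧
    (∀ r ∈ i.V.Buf s, r ∈ bdNonfloor H → |i.V.Q.Sq W i.V.g (i.V.Q.al r) - r| ≤ 2 / i.F.Mj) ∧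
    (∀ r ∈ i.V.Buf s, -(C * i.F.C0 / i.F.Mj ^ 2) ≤ H r)

/-- B6: near the tested band the defect is only the logarithmic seed: `|d| ≪ u³ P₁` -/
def Seed (n : ℕ) : Prop := ∃ c : ℝ, 0 < c ∧ ∃ N0 : ℕ, ∀ i : BdVI X W, VSt X W Fam n i → N0 ≤ i.F.N →
  ∀ r ∈ i.V.Buf 1, |i.F.d (i.V.Q.al r)| ≤ i.F.lam ^ c * (i.F.u ^ 3 * i.V.P1)

/-- B7: the transport estimate `∫ min(u,t) |δα_t| dt = o(d₀)` (`Q0` = the common bound of the extended clocks) -/
def Transport (n : ℕ) (Q0 : ℝ) : Prop := ∀ ε : ℝ, 0 < ε → ∃ N0 : ℕ, ∀ i : BdVI X W, VSt X W Fam n i → N0 ≤ i.F.N →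
  ∫ t in (0 : ℝ)..Q0, min i.F.u t * |i.V.dal t| ≤ ε * i.V.d0

/-! ### N12: scalar curvature -/

/-- `r ↦ Γ_s(k_*(r)) - r` -/
def Gf (i : BdVI X W) (r : ℝ) : ℝ := i.V.Q.Gs W i.V.g (i.F.kst W r) - r

/-- **(C14)**, integrated form: `Gf` is differentiable on `Buf s`, its derivative is absolutely continuous with derivative `-A_*(α~ - β₀) + o(d₀)` -/
def C14 (n : ℕ) (Astar s : ℝ) : Prop := ∀ ε : ℝ, 0 < ε → ∃ N0 : ℕ, ∀ i : BdVI X W, VSt X W Fam n i → N0 ≤ i.F.N →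
  (∀ r ∈ i.V.Buf s, DifferentiableAt ℝ (Gf X W i) r) ∧
    ∀ r1 ∈ i.V.Buf s, ∀ r2 ∈ i.V.Buf s, r1 ≤ r2 →
      |deriv (Gf X W i) r2 - deriv (Gf X W i) r1 + Astar * ∫ r in r1..r2, (i.V.altil r - i.F.beta0 r)| ≤ ε * i.V.d0 * (r2 - r1)

/-- S1-drift: `|Γ_s''(K_s(i))| ≲ d₀ + λ u` in the buffer, as a Lipschitz bound of `Γ_s'` on the image of the buffer -/
def Drift (n : ℕ) (s : ℝ) : Prop := ∃ C : ℝ, ∃ N0 : ℕ, ∀ i : BdVI X W, VSt X W Fam n i → N0 ≤ i.F.N →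
  ∀ r1 ∈ i.V.Buf s, ∀ r2 ∈ i.V.Buf s,
    |deriv (i.V.Q.Gs W i.V.g) (i.V.Q.Ks W i.V.g (i.V.Q.al r2)) - deriv (i.V.Q.Gs W i.V.g) (i.V.Q.Ks W i.V.g (i.V.Q.al r1))|
      ≤ C * (i.V.d0 + i.F.lam * i.F.u) * |i.V.Q.Ks W i.V.g (i.V.Q.al r2) - i.V.Q.Ks W i.V.g (i.V.Q.al r1)|

/-! ### N17: the buffered one-row closure -/

/-- `|S_v - Γ_s(K_s(v))|` -/
def clo (i : BdVI X W) (v : ℝ) : ℝ := |i.V.Q.Sq W i.V.g v - i.V.Q.Gs W i.V.g (i.V.Q.Ks W i.V.g v)|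

/-- **(C19)**: both box averages, boxes `c d₀ ≤ |J| ≤ C d₀` in `Buf s` -/
def C19 (n : ℕ) (s : ℝ) : Prop := ∀ c C ε : ℝ, 0 < c → c < C → 0 < ε → ∃ N0 : ℕ, ∀ i : BdVI X W, VSt X W Fam n i → N0 ≤ i.F.N →
  ∀ a b : ℝ, i.V.IsBox s c C a b →
    i.V.avgR a b (clo X W i) + i.V.avgV a b (clo X W i) ≤ ε * (i.F.u ^ 3 * i.V.P1)

/-! ### N18a: translation to the rigidity record of 184 -/

/-- **N18a** ((C20) and all the translations): for every smallness `δ` and window `Wd`, every buffered violation of large size carries auxiliary data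
(`BdRigAux`: potential, densities, floor set, `Γ_*'`) for which the rescaled record `BdViol.rig` of 143's `Bud/RigInst` is `Ok` (via `bd_ri_ok`: unrescaled inputs `BdViol.RigIn`) -/
def RigHyp (n : ℕ) : Prop := ∃ C cβ A cD : ℝ, 0 < C ∧ 0 < cβ ∧ 0 < A ∧ 0 < cD ∧ ∀ δ Wd : ℝ, 0 < δ → 0 < Wd →
  ∃ N0 : ℕ, ∀ i : BdVI X W, VSt X W Fam n i → N0 ≤ i.F.N → ∃ a : BdRigAux, (i.V.rig a).Ok C cβ A cD δ Wd

/-! ### the exit of part B -/

/-- **(C3)** in majorant form: at the last stage, for every nonexceptional parameter and EVERY optimiser, on the support of `c_u`;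
together with `BudZ (J+1)` this is `E_{γ_0} sup |r - q|² ≲ (u X² λ^{-s_0})²`; the second clause is `C(r) ≫ c_u` -/
def C3 : Prop := ∃ C : ℝ, ∃ N0 : ℕ, ∀ i : BdI X, OSt X W Fam (X.J + 1) i → N0 ≤ i.F.N →
  ∀ v ∈ Icc (0 : ℝ) 1, i.F.cu v ≠ 0 →
    |i.Q.r v - i.F.q v| ≤ C * (i.F.u * i.F.agoal X * i.F.Zj X W i.g) ∧ 2 * i.F.cu v ≤ i.F.C X (i.Q.r v)

/-- **what N19 uses of the direction `c_u` and of the number of stages** (P3: `c_u = c λ u² φ(v/u)`; the last band contains `q(supp c_u)` with room `sg u`;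
`J` = number of stages that reaches `a_goal`, `bds_stage_exists`).      INSTANCE: owner of the instance of `BdStd` (66 / 212), for `BtFam` of `Bud/TopDefs` -/
structure CuStd (sg Cu : ℝ) : Prop where
  sg_pos : 0 < sg
  J_big : (2 / 3 : ℝ) ^ (X.J + 1) * (2 / X.pS) ≤ 0.12
  supp : ∀ F, Fam F → ∀ v ∈ Icc (0 : ℝ) 1, F.cu v ≠ 0 →
    (X.qlo (X.J + 1) + sg) * F.u ≤ F.q v ∧ F.q v ≤ (X.qhi (X.J + 1) - sg) * F.u
  hi : ∀ F, Fam F → ∀ v ∈ Icc (0 : ℝ) 1, F.cu v ≤ Cu * F.lam * F.u ^ 2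


/-! ### standing hypotheses on the paths (besides `BdStd`) -/

/-- the logarithmic seed `λ₁ U³ log(1/x)` -/
def sd (F : BdFr) : ℝ := F.lam1 X * F.U X ^ 3 * Real.log (1 / F.x)

/-- the budget of (P8) -/
def p8B (F : BdFr) : ℝ :=
  F.lam ^ (1 + 2 * X.eta) * F.U X ^ (5 : ℝ) + F.chiE ^ 2 * F.lam ^ (1 + 2 * X.eta) * F.U X ^ (4 : ℝ) + F.chiL ^ 2 * F.x ^ (6 : ℝ) / F.lam

end Props

/-- fixed constants of `PathStd` -/
structure PCst where
  /-- common bound of the scalar clocks -/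
  Q0 : ℝ
  /-- `K_*(v) ≤ CK v`, `h(v) ≤ CK v + seed` -/
  CK : ℝ
  /-- `bmin ≤ b ≤ bmax` -/
  bmin : ℝ
  bmax : ℝ
  /-- `|d| ≤ dmax` -/
  dmax : ℝ
  /-- below the FIXED mass `vS` the defect is the logarithmic seed only and `q` is Lipschitz -/
  vS : ℝ
  Cd : ℝ
  Cq : ℝ

section Props2

variable (X : BdFix) (W : BdWorld) (Fam : BdFr → Prop)

/-- **what N11, N12, N18a use of the paths besides `BdStd`** ((P2)-(P8), normalised to length one; `g` in the widest parameter interval).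
`K_eq`: `K_* = h_* + b q`, `h_* = h - d` above the mask;  `q_eq`: `q = Γ_*(K_*)` with `Γ_* = W.Gam K_*` (TIE of the path to the world);
`h_le`: (P4) + (P6), (P7): only the logarithmic seed is not `O(v)`;  `d_seed`: l.1353;  `p8`: (P8), restricted to the unmasked masses.
PRODUCER for `BtFam` (`Bud/TopDefs`): helper131 -/
structure PathStd (P : PCst) : Prop where
  Q0_pos : 0 < P.Q0
  CK1 : 1 ≤ P.CK
  bmin_pos : 0 < P.bmin
  vS_pos : 0 < P.vS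
  vS_le : P.vS ≤ 1
  Cd_pos : 0 < P.Cd
  K_eq : ∀ F, Fam F → ∀ g ∈ Icc (X.glo 0) (X.ghi 0), ∀ v ∈ Ico F.xm 1, F.K v = F.h g v - F.d v + F.b g v * F.q v
  K_clk : ∀ F, Fam F → IsClock 1 F.K
  K_le : ∀ F, Fam F → ∀ v ∈ Ioo (0 : ℝ) 1, F.K v ≤ P.CK * v ∧ F.K v ≤ P.Q0
  q_eq : ∀ F, Fam F → ∀ v ∈ Ioo (0 : ℝ) 1, F.q v = W.Gam F.K (F.K v)
  b_ge : ∀ F, Fam F → ∀ g ∈ Icc (X.glo 0) (X.ghi 0), ∀ v ∈ Ioo (0 : ℝ) 1, P.bmin ≤ F.b g v
  b_le : ∀ F, Fam F → ∀ g ∈ Icc (X.glo 0) (X.ghi 0), ∀ v ∈ Ioo (0 : ℝ) 1, F.b g v ≤ P.bmax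
  h_le : ∀ F, Fam F → ∀ g ∈ Icc (X.glo 0) (X.ghi 0), ∀ v ∈ Ioo (0 : ℝ) 1, F.h g v ≤ P.CK * v + P.Cd * sd X F
  d_meas : ∀ F, Fam F → Measurable F.d
  d_le : ∀ F, Fam F → ∀ v ∈ Ioo (0 : ℝ) 1, |F.d v| ≤ P.dmax
  d_seed : ∀ F, Fam F → ∀ v ∈ Icc F.xm P.vS, |F.d v| ≤ P.Cd * sd X F
  p8 : BdSub (fun F : BdFr => F.N) Fam (fun F => ∫ v in F.xm..1, F.d v ^ 2 / F.cg v) (p8B X)
  q_lip : ∀ F, Fam F → ∀ v ∈ Ioc (0 : ℝ) P.vS, ∀ v' ∈ Ioc (0 : ℝ) P.vS, |F.q v - F.q v'| ≤ P.Cq * |v - v'|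

end Props2

variable {X : BdFix} {W : BdWorld} {Fam : BdFr → Prop} {K : BdCst}

/-! ## KIT 1: a buffered violation -/

section vst

variable {n : ℕ} {i : BdVI X W}

theorem vst_fam (h : VSt X W Fam n i) : Fam i.F := h.1
theorem vst_at (h : VSt X W Fam n i) : BdAt X Fam n i.F := ⟨h.1, h.2.1, h.2.2.1⟩
theorem vst_st (h : VSt X W Fam n i) : i.F.st = n := h.2.2.1
theorem vst_V (h : VSt X W Fam n i) : i.V.Ok 2 := h.2.2.2.1
theorem vst_L1 (h : VSt X W Fam n i) : i.V.L ≤ 1 := h.2.2.2.2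
theorem vst_ok (hS : BdStd X W Fam K) (h : VSt X W Fam n i) : i.F.Ok X := hS.ok _ h.1
theorem vst_u_pos (hS : BdStd X W Fam K) (h : VSt X W Fam n i) : 0 < i.F.u := BdFr.bds_u_pos (vst_ok hS h) hS.fix
theorem vst_lam_pos (hS : BdStd X W Fam K) (h : VSt X W Fam n i) : 0 < i.F.lam := BdFr.bds_lam_pos (vst_ok hS h)

theorem vst_g (h : VSt X W Fam n i) : i.V.g ∈ Icc (X.glo n) (X.ghi n) := by
  have := (vst_V h).g_mem
  rwa [vst_st h] at this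

/-- the nested data: every stage lies inside the stage `0` -/
theorem fix_nest (hX : X.Ok) : ∀ n ≤ X.J + 1, X.plo 0 ≤ X.plo n ∧ X.phi n ≤ X.phi 0 ∧ X.glo 0 ≤ X.glo n ∧ X.ghi n ≤ X.ghi 0 := by
  intro n
  induction n with
  | zero => exact fun _ => ⟨le_rfl, le_rfl, le_rfl, le_rfl⟩
  | succ n ih =>
    intro hn
    obtain ⟨a1, a2, a3, a4⟩ := ih (by omega)
    obtain ⟨b1, b2⟩ := hX.nest n (by omega)
    obtain ⟨c1, c2⟩ := hX.gnest n (by omega)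
    obtain ⟨_, d1, _, d2, _⟩ := hX.pat n (by omega)
    exact ⟨by linarith, by linarith, by linarith, by linarith⟩

theorem vst_g0 (hS : BdStd X W Fam K) (hn : n ≤ X.J + 1) (h : VSt X W Fam n i) : i.V.g ∈ Icc (X.glo 0) (X.ghi 0) := by
  obtain ⟨_, _, a, b⟩ := fix_nest hS.fix n hn
  exact ⟨a.trans (vst_g h).1, (vst_g h).2.trans b⟩

/-- the optimiser of a buffered violation as an instance of the class of (C7) -/
theorem vst_I (hS : BdStd X W Fam K) (hn : n ≤ X.J + 1) (h : VSt X W Fam n i) : (⟨i.F, i.V.g, i.V.Q⟩ : BdI X).Ok W Fam :=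
  ⟨h.1, vst_g0 hS hn h, (vst_V h).opt⟩

/-- ... and of the class of (C12), (C13) -/
theorem vst_O (h : VSt X W Fam n i) : OSt X W Fam n ⟨i.F, i.V.g, i.V.Q⟩ :=
  ⟨vst_at h, vst_g h, (vst_V h).good, (vst_V h).opt⟩

theorem vst_bbuf_nonneg (hS : BdStd X W Fam K) (h : VSt X W Fam n i) : 0 ≤ i.V.bbuf :=
  mul_nonneg (vst_u_pos hS h).le (add_nonneg (Real.sqrt_nonneg _) (Real.rpow_nonneg (vst_lam_pos hS h).le _))

/-- the buffer lies in the patch of the stage -/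
theorem vst_buf_sub (hS : BdStd X W Fam K) (h : VSt X W Fam n i) {s : ℝ} (hs : s ≤ 1) :
    i.V.Buf s ⊆ Icc (X.plo n * i.F.u) (X.phi n * i.F.u) := by
  intro r hr
  have hb := vst_bbuf_nonneg hS h
  have h1 := (vst_V h).r0_mem
  rw [vst_st h] at h1
  have : s * i.V.bbuf ≤ i.V.bbuf := by nlinarith
  exact ⟨by linarith [h1.1.1, hr.1], by linarith [h1.2.2, hr.2]⟩

/-- the patch of a stage lies in `(0, c_I u) ⊆ [0,1]`-radii where the removal is constant -/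
theorem vst_buf_cI (hS : BdStd X W Fam K) (hn : n ≤ X.J + 1) (h : VSt X W Fam n i) {s : ℝ} (hs : s ≤ 1) {r : ℝ} (hr : r ∈ i.V.Buf s) :
    0 < r ∧ r < X.cI * i.F.u := by
  obtain ⟨a, _, _, _, b⟩ := hS.fix.pat n hn
  have hu := vst_u_pos hS h
  have := vst_buf_sub hS h hs hr
  exact ⟨lt_of_lt_of_le (mul_pos a hu) this.1, lt_of_le_of_lt this.2 (mul_lt_mul_of_pos_right b hu)⟩

/-- the discrepancy in the buffer -/
theorem vst_buf_al (hS : BdStd X W Fam K) (h : VSt X W Fam n i) {s : ℝ} (hs : s ≤ 1) {r : ℝ} (hr : r ∈ i.V.Buf s) :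
    |i.V.Q.al r - i.F.beta0 r| ≤ 2 * i.V.d0 := by
  refine (vst_V h).buf r ?_
  have hb := vst_bbuf_nonneg hS h
  have : s * i.V.bbuf ≤ i.V.bbuf := by nlinarith
  rw [abs_le]
  exact ⟨by linarith [hr.1], by linarith [hr.2]⟩

/-- `β₀(r) ∈ [cb r, Cb r]` on `[0, c_I u]` -/
theorem fam_beta (hS : BdStd X W Fam K) {F : BdFr} (hF : Fam F) {r : ℝ} (h0 : 0 ≤ r) (h1 : r ≤ X.cI * F.u) :
    K.cb * r ≤ F.beta0 r ∧ F.beta0 r ≤ K.Cb * r := by
  have := hS.beta F hF 0 r le_rfl h0 h1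
  rw [hS.beta_zero F hF] at this
  simpa using this

end vst

/-! ## KIT 2: uniform facts for large sizes -/

/-- `λ^e ≤ ε` for large sizes, uniformly over the frames -/
theorem ev_lam (hX : X.Ok) {e ε : ℝ} (he : 0 < e) (hε : 0 < ε) :
    ∃ N0 : ℕ, ∀ F : BdFr, F.Ok X → N0 ≤ F.N → F.lam ^ e ≤ ε := by
  obtain ⟨c, hc⟩ : ∃ c : ℝ, c = X.pS * e / 6 := ⟨_, rfl⟩
  have hc0 : 0 < c := by rw [hc]; have := hX.pS_pos; positivity
  refine ⟨⌈ε ^ (-(1 / c))⌉₊ + 2, fun F h hN => ?_⟩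
  have hNpos : (0:ℝ) < F.N := by
    have := h.N2
    positivity
  have hb : 0 < ε ^ (-(1 / c)) := Real.rpow_pos_of_pos hε _
  have hN' : ε ^ (-(1 / c)) ≤ F.N := by
    calc ε ^ (-(1 / c)) ≤ (⌈ε ^ (-(1 / c))⌉₊ : ℝ) := Nat.le_ceil _
      _ ≤ F.N := by exact_mod_cast (by omega : ⌈ε ^ (-(1 / c))⌉₊ ≤ F.N)
  have hl := BdFr.bds_lam_pos h
  calc F.lam ^ e ≤ (F.x ^ X.pS) ^ e := Real.rpow_le_rpow hl.le h.lam_hi he.le
    _ = (F.N : ℝ) ^ (-c) := by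
        unfold BdFr.x
        rw [← Real.rpow_mul hNpos.le, ← Real.rpow_mul hNpos.le]
        congr 1
        rw [hc]; ring
    _ ≤ (ε ^ (-(1 / c))) ^ (-c) := Real.rpow_le_rpow_of_nonpos hb hN' (by linarith)
    _ = ε := by
        rw [← Real.rpow_mul hε.le]
        have : -(1 / c) * -c = 1 := by field_simp
        rw [this, Real.rpow_one]

/-- `log(1/x) ≤ λ^{-e}` for large sizes: a logarithm is absorbed by any power of `λ` -/
theorem ev_log (hX : X.Ok) {e : ℝ} (he : 0 < e) :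
    ∃ N0 : ℕ, ∀ F : BdFr, F.Ok X → N0 ≤ F.N → Real.log (1 / F.x) ≤ F.lam ^ (-e) := by
  have hp := hX.pS_pos
  set c : ℝ := X.pS * e with hc
  have hc0 : 0 < c := by positivity
  -- `log y ≤ y^c / c`, and `1/c ≤ λ^{-e/2}`-type absorption is avoided: use exponent `c/2` twice
  obtain ⟨N0, hN0⟩ := ev_lam hX (e := e / 2) (ε := c / 2) (by positivity) (by positivity)
  refine ⟨N0, fun F h hN => ?_⟩
  have hx := BdFr.bds_x_pos h
  have hx1 := BdFr.bds_x_lt_one h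
  have hl := BdFr.bds_lam_pos h
  have hy : 0 ≤ 1 / F.x := by positivity
  have h1 : Real.log (1 / F.x) ≤ (1 / F.x) ^ (c / 2) / (c / 2) := Real.log_le_rpow_div hy (by positivity)
  have h2 : (1 / F.x) ^ (c / 2) ≤ F.lam ^ (-(e / 2)) := by
    have : (1 / F.x) ^ (c / 2) = (F.x ^ X.pS) ^ (-(e / 2)) := by
      rw [one_div, Real.inv_rpow hx.le, ← Real.rpow_neg hx.le, ← Real.rpow_mul hx.le]
      congr 1
      rw [hc]; ring
    rw [this]
    exact Real.rpow_le_rpow_of_nonpos hl h.lam_hi (by linarith)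
  have h3 : 1 / (c / 2) ≤ F.lam ^ (-(e / 2)) := by
    have := hN0 F h hN
    rw [Real.rpow_neg hl.le, ← one_div]
    exact one_div_le_one_div_of_le (Real.rpow_pos_of_pos hl _) this
  calc Real.log (1 / F.x) ≤ (1 / F.x) ^ (c / 2) * (1 / (c / 2)) := by rw [mul_one_div]; exact h1
    _ ≤ F.lam ^ (-(e / 2)) * F.lam ^ (-(e / 2)) :=
        mul_le_mul h2 h3 (by positivity) (Real.rpow_nonneg hl.le _)
    _ = F.lam ^ (-e) := by rw [← Real.rpow_add hl]; congr 1; ring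

/-- `x/u ≤ ε` for large sizes -/
theorem ev_Xr (hX : X.Ok) {ε : ℝ} (hε : 0 < ε) : ∃ N0 : ℕ, ∀ F : BdFr, F.Ok X → N0 ≤ F.N → F.Xr ≤ ε := by
  have hs : 0 < X.sS / 2 := by
    have := hX.tau_le
    unfold BdFix.sS
    linarith
  obtain ⟨N0, hN0⟩ := ev_lam hX hs (div_pos hε hX.CU_pos)
  refine ⟨N0, fun F h hN => (BdFr.bds_Xr_le h hX).trans ?_⟩
  calc X.CU * F.lam ^ (X.sS / 2) ≤ X.CU * (ε / X.CU) := mul_le_mul_of_nonneg_left (hN0 F h hN) hX.CU_pos.le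
    _ = ε := by field_simp [hX.CU_pos.ne']

/-- `u ≤ ε` for large sizes -/
theorem ev_u (hX : X.Ok) {ε : ℝ} (hε : 0 < ε) : ∃ N0 : ℕ, ∀ F : BdFr, F.Ok X → N0 ≤ F.N → F.u ≤ ε := by
  obtain ⟨N0, hN0⟩ := ev_lam hX hX.bl_pos hε
  exact ⟨N0, fun F h hN => h.u_hi.trans (hN0 F h hN)⟩

/-- with the majorant `Z ≥ 1`: `a_goal ≤ L`, in particular `L > 0` -/
theorem vst_L_ge (hS : BdStd X W Fam K) {n : ℕ} (hZ : BudZ X W Fam n) :
    ∃ N0 : ℕ, ∀ i : BdVI X W, VSt X W Fam n i → N0 ≤ i.F.N → i.F.agoal X ≤ i.V.L ∧ 0 < i.V.L := by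
  obtain ⟨_, N1, hZ⟩ := hZ
  obtain ⟨N2, hB⟩ := bds_big_ev X hS.fix
  refine ⟨max N1 N2, fun i h hN => ?_⟩
  have hF := vst_ok hS h
  have hz := (hZ i.F (vst_at h) (le_trans (le_max_left _ _) hN)).1 i.V.g (by have hg := (vst_V h).g_mem; rwa [h.2.2.1] at hg)
  have ha := BdFr.bds_astage_ge hF hS.fix (hB i.F hF (le_trans (le_max_right _ _) hN)) i.F.st
  have hg := BdFr.bds_agoal_pos hF hS.fix
  have hbig := (vst_V h).big
  have : i.F.agoal X ≤ i.V.L := by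
    calc i.F.agoal X ≤ i.F.aj X * 1 := by rw [mul_one]; exact ha
      _ ≤ i.F.aj X * i.F.Zj X W i.V.g := mul_le_mul_of_nonneg_left hz (hg.le.trans ha)
      _ ≤ i.V.L := hbig
  exact ⟨this, lt_of_lt_of_le hg this⟩

end BudB

theorem bd_hubbdefs_eqns_cite : True := by
  have := @BudB.OSt.eq_1; have := @BudB.VSt.eq_1; have := @BudB.PotEx.eq_1; have := @BudB.C7a.eq_1
  have := @BudB.BufSel.eq_1; have := @BudB.LSmall.eq_1; have := @BudB.BufGeo.eq_1; have := @BudB.Seed.eq_1; have := @BudB.Transport.eq_1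
  have := @BudB.Gf.eq_1; have := @BudB.C14.eq_1; have := @BudB.Drift.eq_1; have := @BudB.clo.eq_1; have := @BudB.C19.eq_1
  have := @BudB.RigHyp.eq_1; have := @BudB.C3.eq_1; have := @BudB.sd.eq_1; have := @BudB.p8B.eq_1
  trivial

end

end Claimed.Agent.R286
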