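import Claimed.Agent.R286.Bud.L07T
import Claimed.Agent.R286.Bud.L07C
import Claimed.Agent.R286.Bud.Star
import Claimed.Agent.R286.Bud.Cp
import Claimed.Agent.R286.Bud.HubBDefs
import Claimed.Agent.R286.Bud.FfBr

/-!
# Row 286, LL sec. 7, PART A (l.126-1150): THE SPINE  N4-N8 ⟹ (C7) ⟹ the inputs of part B        (owner helper198, by 162's ruling 03:00Z; namespace `BudA`, lemmas `buda_*`)

This file only GLUES: it imports the contract files of the nodes of part A and PROVES the chain; every mismatch of types / quantifiers between two nodes shows up here as a compile error.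
`BudA.Sup X W Fam Sc k c` = ALL the supplies of part A, ONE field per node theorem still owed.   Each field has ONE owner and ONE producer (name of the theorem which must end with this Prop):

| field   | Prop                               | TeX                    | owner      | producer (file)                                         |
| `std`   | `BdStd X W Fam K`                  | (P3),(P6),(P10), l.130-160 | 66 / 162 | instance for `BtFam` (`Bud/Top*`)                       |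
| `hub`   | `W.IsHub`                          |                        | 162        | `skWorld_isHub` (`Exit/BudWorld`)  DONE                 |
| `base`  | `BcsBase X W Fam`                  | (P3)-(P7)              | 253 / 66   | instance for `BtFam`                                    |
| `ilo`   | `i0 ≤ F.Ilo`                       | l.152                  | 66         | instance for `BtFam` (patches of `BdFix`)               |
| `adm`   | `Bd7Adm X W Fam Kb`                | l.139-146              | 109 / 66   | `bd7_adm_of_std` (12, `Bud/L07X`) PROVED                  |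
| `geo`   | `Bd7Geo X W Fam`                   | Lemma 7.2              | 109 / 86   | `bd7_geo_of_n4` (12, `Bud/L07X`) PROVED                   |
| `raw`   | `Bd7Raw X W Fam cL CL`             | Lemma 7.4 (C8)         | 7 (109)    | `Bud/RawExit.lean` on `Bud/Raw*`                        |
| `c10 sw nf` | `BcsC10`, `BcsSW`, `BcsNF`     | Lemma 7.5 (C10), PE (20)-(21) | 111 | `Bud/SecInst.lean` on `Bud/Sec`                         |
| `lp`    | `BcsLp`                            | Lemma 7.6, l.511-541   | 190        | `Bud/StarLp.lean`                                       |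
| `p9`    | `Bd7P9 X Fam`                      | (P9)                   | 272        | instance for `BtFam`                                    |
| `sc`    | `Sc.Ok W k`                        | PE Lemma 5.3, scalar API | 183      | BOX-C                                                   |
| `rc`    | `Bd7CRc X W Fam`                   | clocks right-continuous | 66 / 162  | instance for `BtFam` (+ continuity of `r`, `C`)         |
| `gam`   | `Bd7CGam X W Fam`                  | two codings of `Γ_{K_s}(K_s v)` | 76 | clock API                                               |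
| `sup`   | `Bd7CSup X W Fam cL CL`            | Prop. 7.7, ledger (i)-(iii) | 33 / 76 | `Bud/L07Ca*.lean`, `Cav/Lim.lean`                      |
| `pK`    | `BcpK X p ..`, `κ0 + 2 ≤ p.K`      | constants of Steps 1, 3 | 286       | arithmetic                                              |
| `in3`   | `BcpIn3 W Sc k p ..`               | PE Sec. 6 exits, PE Thm 5.1 (29), Prop. 5.9, (18), stability | 14/207, 98/24, 155/67, 295/294, 183/100 | see header of `Bud/Cp.lean` |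
| `chd`   | `BcpChild X W Fam p ..`            | l.889-900              | 129        |                                                         |
| `nosep` | `BcpNoSep X W Fam c0 cL CL`        | l.902-960              | 186        | `Bud/L07Mv, L07Sep, L07W*`                              |
| `p2`    | `BcpP2 X Fam κ_T`                  | (P2), l.1142           | 272        | instance for `BtFam`                                    |

Steps 1 and 3 are the EXITS of 286 (`bcp_weak`, `bcp_C7b`, `bcp_C7c`, `bcp_C7al`, `Bud/Cp.lean`), cited here.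
PROVED HERE (from `Sup`):  `band` (Lemma 7.6 ⟹ 12's `Bd7Band`), `clo` (Prop. 7.7), `strong` (Step 2), `c7a` (**(C7), first half**), `c7a'` (= `BudB.C7a`), `str_wc` (**after (C7) every conditional
estimate of l.217-547 applies at the threshold `w = w_c`**: an optimiser with the scale `w_c` is a STRONG instance), `optex`.   (`BudB.PotEx` is proved by 157 in `Bud/HubB`: `BudB.potex`.)
STATUS 05:40Z: 0 sorry.   THE SPINE WIRED TO `exit_bud` IS 12's `Bud/L07X.lean` (`Bd7In`, `bd7_adm_of_std`, `bd7_geo_of_n4`, `bd7_exit`) + `bi7_*` of `Bud/Inst.lean`; this file is kept as a TOOL file: `str_wc`, `raw_wc` (conditional estimates at `w = w_c` after (C7)), `buda_wc_num`, `buda_cpgeo` (138).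
FINDINGS for the heads (mismatches met while gluing) are listed at the end of the file.
-/

set_option autoImplicit false

namespace Claimed.Agent.R286

open MeasureTheory Set Filter Topology

noncomputable section

namespace BudA

/-- the fixed constants of part A: loose comparability constants, bound of the clocks, lower end of the patches -/
structure Cst where
  cL : ℝ
  CL : ℝ
  Kb : ℝ
  i0 : ℝ
  /-- the constants of the PE calls of Steps 1 and 3 (`Bud/Cp.lean`) -/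
  p : P6C
  c0 : ℝ
  β0 : ℝ
  κ0 : ℝ
  cκ : ℝ
  Cκ : ℝ
  cT : ℝ
  CT : ℝ
  /-- the Parisi quantile at the temperature `T` -/
  qT : ℝ → ℝ

/-- the constants of 190 at the removal constant `cs` -/
def Cst.bcs (c : Cst) (cs : ℝ) : BcsK := ⟨c.cL, c.CL, cs, c.i0⟩

/-- **all the supplies of part A** (table in the header) -/
structure Sup (X : BdFix) (W : BdWorld) (Fam : BdFr → Prop) (K : BdCst) (Sc : Bd7Sc) (k : Bd7ScC) (c : Cst) : Prop where
  std : BdStd X W Fam K
  hub : W.IsHub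
  cL_pos : 0 < c.cL
  cL_le : c.cL ≤ 1
  CL_ge : 1 ≤ c.CL
  i0_pos : 0 < c.i0
  /-- the loose constants lie strictly outside the bounds of the PE direct profile limits (l.880) -/
  lo : c.cL < 2 * k.c2 ^ 3 / (X.T * k.C4 ^ 2)
  hi : 2 * k.C2 ^ 3 / (X.T * k.c4 ^ 2) < c.CL
  Kb_le : 2 * c.Kb ≤ k.Kmax
  Tmax : X.T + 1 ≤ k.Tmax
  Kmax_le : k.Kmax ≤ k.Tmax
  ilo : ∀ F, Fam F → c.i0 ≤ F.Ilo
  base : BcsBase X W Fam
  adm : Bd7Adm X W Fam c.Kb
  geo : Bd7Geo X W Fam
  raw : Bd7Raw X W Fam c.cL c.CL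
  c10 : ∀ cs : ℝ, 0 < cs → BcsC10 W (BcsIn.Cls (X := X) · W Fam (c.bcs cs))
  sw : ∀ cs : ℝ, 0 < cs → BcsSW W (BcsIn.Cls (X := X) · W Fam (c.bcs cs)) (c.bcs cs)
  nf : ∀ cs : ℝ, 0 < cs → BcsNF W (BcsIn.Cls (X := X) · W Fam (c.bcs cs))
  lp : ∀ cs : ℝ, 0 < cs → BcsLp W (BcsIn.Cls (X := X) · W Fam (c.bcs cs))
  p9 : Bd7P9 X Fam
  sc : Sc.Ok W k
  rc : Bd7CRc X W Fam
  gam : Bd7CGam X W Fam
  sup : Bd7CSup X W Fam c.cL c.CL
  pK : BcpK X c.p c.c0 c.β0 c.κ0 c.cκ c.Cκ c.cT c.CT c.cL c.CL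
  pκ : c.κ0 + 2 ≤ c.p.K
  in3 : BcpIn3 W Sc k c.p c.cκ c.Cκ c.cT c.CT c.qT
  chd : BcpChild X W Fam c.p c.c0 c.β0 c.κ0 c.cL c.CL
  nosep : BcpNoSep X W Fam c.c0 c.cL c.CL
  p2 : BcpP2 X Fam (bcpKap Sc X.T (fun s => X.T * c.qT s))
  cpgeo : BcpGeo X W Fam

variable {X : BdFix} {W : BdWorld} {Fam : BdFr → Prop} {K : BdCst} {Sc : Bd7Sc} {k : Bd7ScC} {c : Cst}

namespace Sup

variable (h : Sup X W Fam K Sc k c)
include h

theorem hX : X.Ok := h.std.fix

theorem bcsOk {cs : ℝ} (hcs : 0 < cs) : (c.bcs cs).Ok := ⟨h.cL_pos, h.cL_le, h.CL_ge, hcs, h.i0_pos⟩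

/-- (C8), `p = 2`, in the form of 190 -/
theorem raw' {cs : ℝ} (hcs : 0 < cs) : BcsRaw W (BcsIn.Cls (X := X) · W Fam (c.bcs cs)) :=
  bcs_raw_of_bd7 (K := c.bcs cs) (h.bcsOk hcs) h.raw

/-- **Lemma 7.6**, all four exits, at every removal constant -/
theorem star {cs : ℝ} (hcs : 0 < cs) :
    BcsS1 W (BcsIn.Cls (X := X) · W Fam (c.bcs cs)) ∧ BcsS2 W (BcsIn.Cls (X := X) · W Fam (c.bcs cs)) ∧
      BcsS3 W (BcsIn.Cls (X := X) · W Fam (c.bcs cs)) ∧ BcsCut W (BcsIn.Cls (X := X) · W Fam (c.bcs cs)) (c.bcs cs) :=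
  bud_star h.hX (h.bcsOk hcs) (h.raw' hcs) (h.c10 cs hcs) (h.sw cs hcs) (h.nf cs hcs) (h.lp cs hcs)

/-- the band integrals of `D²` in the form of 12 -/
theorem band : Bd7Band X W Fam c.cL c.CL :=
  bd7_band_of_star h.hX h.cL_pos h.cL_le h.CL_ge h.i0_pos h.base h.adm h.ilo
    (fun cs hcs => (h.star hcs).1) (fun cs hcs => (h.star hcs).2.1)

/-- **Prop. 7.7** -/
theorem clo : Bd7Clo X W Fam c.cL c.CL :=
  bd7c_clo h.hX h.hub h.adm h.raw h.band h.rc h.gam h.sup

/-- the imports of Step 2 -/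
theorem sIn : Bd7SIn X W Fam Sc k c.Kb c.cL c.CL where
  hX := h.hX
  a1 := h.std.a1
  cL_pos := h.cL_pos
  cL_le := h.cL_le.trans h.CL_ge
  Kb_le := h.Kb_le
  Tmax := h.Tmax
  Kmax_le := h.Kmax_le
  Ilo_lb := ⟨c.i0, h.i0_pos, h.ilo⟩
  adm := h.adm
  geo := h.geo
  raw := h.raw
  band := h.band
  p9 := h.p9
  sc := h.sc
  clo := h.clo

/-- **Step 2** -/
theorem strong : Bd7Strong X W Fam c.cL c.CL := bd7_strong h.sIn h.lo h.hi

/-- **Step 1** -/
theorem weak : Bd7Weak X W Fam c.cL c.CL := bcp_weak h.pK h.in3.pe h.chd h.nosep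

/-- **(C7), first half** -/
theorem c7a : Bd7C7a X W Fam c.cL c.CL := bd7_C7a_of_excl h.hX h.weak h.strong

/-- **(C7), second half** (Step 3) -/
theorem c7b : Bd7C7b X W Fam := bcp_C7b h.pK h.pκ h.in3 h.chd h.nosep h.c7a h.p2

/-- l.1146-1149 -/
theorem c7c : Bd7C7c X W Fam :=
  bcp_C7c h.hX (bcp3_kap_pos h.pK h.in3) h.std.a1 h.adm h.c7b h.p2 h.cpgeo

/-- (C7), second half, in the inverse variable (212's form) -/
theorem c7al : BudC7al X W Fam := bcp_C7al h.std h.cL_pos h.c7a h.c7b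

end Sup

/-! ### dictionary `BdI` (212) ↔ `Bd7I` (12) -/

/-- an optimiser with a test scale -/
def at7 (i : BdI X) (w : ℝ) : Bd7I X := ⟨i.F, i.g, i.Q, w⟩

theorem std_at7 (hok : ∀ F, Fam F → F.Ok X) {i : BdI X} (hi : i.Ok W Fam) (w : ℝ) : (at7 i w).Std W Fam :=
  ⟨hi.1, hok _ hi.1, hi.2.1, hi.2.2⟩

/-- (C7a) in the form of `Bud/HubB` -/
theorem c7a_hubB (hok : ∀ F, Fam F → F.Ok X) {cL CL : ℝ} (hc : 0 < cL) (h : Bd7C7a X W Fam cL CL) : BudB.C7a X W Fam := by
  obtain ⟨N0, hN⟩ := h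
  exact ⟨cL, CL, hc, N0, fun i hi hNi v hv => hN (at7 i v) (std_at7 hok hi v) hNi hv⟩

/-- `y_c ≤ x^{-10ζ} (C_U + C_U^{3/4}) λ^{0.12}` -/
theorem yc_le (hX : X.Ok) {F : BdFr} (h : F.Ok X) :
    F.yc X ≤ F.x ^ (-(10 * X.zeta)) * ((X.CU + X.CU ^ (3 / 4 : ℝ)) * F.lam ^ (0.12 : ℝ)) := by
  obtain ⟨hx0, hx1, hl0, hl1, hu0, -, hle, -, hXr⟩ := bcp3_num_wc_base hX h
  have hCU := hX.CU_pos
  have hXr0 : 0 < F.Xr := div_pos hx0 hu0
  have hs : (0.125 : ℝ) ≤ X.sS / 2 + -0.005 := by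
    have := hX.tau_le
    unfold BdFix.sS; linarith
  have hl12 : 0 < F.lam ^ (0.12 : ℝ) := Real.rpow_pos_of_pos hl0 _
  have t1 : F.Xr * F.Lam ^ (-(1 / 6) : ℝ) ≤ X.CU * F.lam ^ (0.12 : ℝ) := by
    have e1 : F.Lam ^ (-(1 / 6) : ℝ) = F.lam ^ (-0.005 : ℝ) := by
      unfold BdFr.Lam
      rw [← Real.rpow_mul hl0.le]; norm_num
    rw [e1]
    calc F.Xr * F.lam ^ (-0.005 : ℝ) ≤ X.CU * F.lam ^ (X.sS / 2) * F.lam ^ (-0.005 : ℝ) :=
          mul_le_mul_of_nonneg_right hXr (Real.rpow_pos_of_pos hl0 _).le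
      _ = X.CU * F.lam ^ (X.sS / 2 + -0.005) := by rw [mul_assoc, ← Real.rpow_add hl0]
      _ ≤ X.CU * F.lam ^ (0.12 : ℝ) :=
          mul_le_mul_of_nonneg_left (Real.rpow_le_rpow_of_exponent_ge hl0 hl1 (by linarith)) hCU.le
  have t2 : F.Xr ^ (3 / 4 : ℝ) * F.lam ^ (0.12 : ℝ) ≤ X.CU ^ (3 / 4 : ℝ) * F.lam ^ (0.12 : ℝ) := by
    refine mul_le_mul_of_nonneg_right (Real.rpow_le_rpow hXr0.le ?_ (by norm_num)) hl12.le
    refine hXr.trans (mul_le_of_le_one_right hCU.le (Real.rpow_le_one hl0.le hl1 ?_))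
    linarith
  unfold BdFr.yc
  refine mul_le_mul_of_nonneg_left ?_ (Real.rpow_pos_of_pos hx0 _).le
  linarith

/-- (pure exponent arithmetic on a frame; PROVED helper138): eventually `w_c ≤ 1/2`, `w_c` lies in the constant region and `w_c² ≤ C(w_c) = C0`.
Proof: `y_c = x^{-10ζ}(X Λ^{-1/6} + X^{3/4} λ^{0.12})`, `X ≤ CU λ^{s_*/2}`, `x^{-10ζ} ≤ λ^{-10ζ/p_*}`, so `y_c ≤ C λ^{0.2}`, `y_c² ≤ Λ = λ^{0.03}` and `y_c ≤ min(c_I, 1/2)` for large `N` (`λ ≤ x^{p_*} → 0`);
`C = C0` on `[0, c_I u]`: `BdStd.Cconst` (or `bud_gb_C_flat`).   Compare `bcs_num_scale` (`Bud/Star`), `bds_*` (`Bud/Stage`). -/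
theorem buda_wc_num (hS : BdStd X W Fam K) : ∃ N0 : ℕ, ∀ F, Fam F → N0 ≤ F.N → F.wc X ≤ 1 / 2 ∧ F.Strong X (F.wc X) 1 := by
  have hX := hS.fix
  obtain ⟨z1, z2, -, -, -, -⟩ := bcp3_num_wc_exp hX
  have hpS := hX.pS_pos
  have hcd : 0 < X.cd ^ 3 := pow_pos hX.cd_pos 3
  obtain ⟨N1, h1⟩ := bcp3_num_wc hX (ε := 1 / 2) (by norm_num)
  obtain ⟨N2, h2⟩ := bcp3_num_wc hX (ε := X.cd ^ 3) hcd
  obtain ⟨N3, h3⟩ := bcp3_num_wc_x (e := X.pS * 0.105 + -(10 * X.zeta)) (by linarith) (X.CU + X.CU ^ (3 / 4 : ℝ)) one_pos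
  refine ⟨max N1 (max N2 N3), fun F hF hN => ?_⟩
  have h := hS.ok F hF
  have hN1 : N1 ≤ F.N := (le_max_left _ _).trans hN
  have hN2 : N2 ≤ F.N := (le_max_left _ _).trans ((le_max_right _ _).trans hN)
  have hN3 : N3 ≤ F.N := (le_max_right _ _).trans ((le_max_right _ _).trans hN)
  obtain ⟨hx0, hx1, hl0, hl1, hu0, -, hle, hu, -⟩ := bcp3_num_wc_base hX h
  have hu1 : F.u ≤ 1 := hu.trans (Real.rpow_le_one hx0.le hx1.le (mul_pos hpS hX.bl_pos).le)
  refine ⟨(h1 F h hN1).trans (by linarith), ?_⟩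
  unfold BdFr.Strong
  rw [bud_gb_C_flat hX h (h2 F h hN2), one_mul]
  unfold BdFr.wc BdFr.C0
  have hK : 0 ≤ X.CU + X.CU ^ (3 / 4 : ℝ) := by have := hX.CU_pos; positivity
  have hyc0 : 0 ≤ F.yc X := by
    unfold BdFr.yc BdFr.Xr BdFr.Lam
    positivity
  -- `y_c ≤ λ^{0.015}`
  have hy : F.yc X ≤ F.lam ^ (0.015 : ℝ) := by
    have e : F.lam ^ (0.12 : ℝ) = F.lam ^ (0.105 : ℝ) * F.lam ^ (0.015 : ℝ) := by
      rw [← Real.rpow_add hl0]; norm_num
    calc F.yc X ≤ F.x ^ (-(10 * X.zeta)) * ((X.CU + X.CU ^ (3 / 4 : ℝ)) * F.lam ^ (0.12 : ℝ)) := yc_le hX h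
      _ = ((X.CU + X.CU ^ (3 / 4 : ℝ)) * (F.x ^ (-(10 * X.zeta)) * F.lam ^ (0.105 : ℝ))) * F.lam ^ (0.015 : ℝ) := by rw [e]; ring
      _ ≤ ((X.CU + X.CU ^ (3 / 4 : ℝ)) * (F.x ^ (-(10 * X.zeta)) * F.x ^ (X.pS * 0.105))) * F.lam ^ (0.015 : ℝ) := by
          refine mul_le_mul_of_nonneg_right ?_ (Real.rpow_pos_of_pos hl0 _).le
          refine mul_le_mul_of_nonneg_left ?_ hK
          exact mul_le_mul_of_nonneg_left (hle 0.105 (by norm_num)) (Real.rpow_pos_of_pos hx0 _).le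
      _ = ((X.CU + X.CU ^ (3 / 4 : ℝ)) * F.x ^ (X.pS * 0.105 + -(10 * X.zeta))) * F.lam ^ (0.015 : ℝ) := by
          rw [Real.rpow_add hx0]; ring
      _ ≤ 1 * F.lam ^ (0.015 : ℝ) := mul_le_mul_of_nonneg_right (h3 F hN3) (Real.rpow_pos_of_pos hl0 _).le
      _ = F.lam ^ (0.015 : ℝ) := one_mul _
  have hy2 : F.yc X ^ 2 ≤ F.Lam := by
    have e : F.Lam = (F.lam ^ (0.015 : ℝ)) ^ 2 := by
      unfold BdFr.Lam
      rw [← Real.rpow_natCast, ← Real.rpow_mul hl0.le]; norm_num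
    rw [e]
    exact pow_le_pow_left₀ hyc0 hy 2
  calc (F.yc X * F.u) ^ 2 = F.u ^ 2 * F.yc X ^ 2 := by ring
    _ ≤ F.u ^ 2 * F.Lam := mul_le_mul_of_nonneg_left hy2 (by positivity)

/-- **after (C7)**: an optimiser, taken with the scale `w = w_c`, is a STRONG instance (`cs = 1`): all the conditional estimates of l.217-547, typed on `Bd7I.Str` / `BcsIn.Cls`, apply with the threshold `w_c` (l.213-215). -/
theorem str_wc (hS : BdStd X W Fam K) {cL CL : ℝ} (h : Bd7C7a X W Fam cL CL) :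
    ∃ N0 : ℕ, ∀ i : BdI X, i.Ok W Fam → N0 ≤ i.F.N → (at7 i (i.F.wc X)).Str W Fam cL CL 1 := by
  obtain ⟨N1, h1⟩ := h
  obtain ⟨N2, h2⟩ := buda_wc_num hS
  refine ⟨max N1 N2, fun i hi hN => ?_⟩
  have hw := h2 i.F hi.1 ((le_max_right _ _).trans hN)
  have hwc : 0 < i.F.wc X := BdFr.wc_pos' hS.fix (hS.ok _ hi.1)
  exact
    { toStd := std_at7 hS.ok hi _
      w_lo := le_rfl
      w_hi := hw.1.trans (by norm_num)
      reg := fun v hv1 hv2 => h1 (at7 i v) (std_at7 hS.ok hi v) ((le_max_left _ _).trans hN)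
        ⟨by
          have : (2 : ℝ) * i.F.wc X ≤ v := hv1
          show i.F.wc X ≤ v
          linarith, hv2⟩
      strong := hw.2 }

/-- (C8), first two moments, UNCONDITIONAL, threshold `w_c` -/
theorem raw_wc (hS : BdStd X W Fam K) {cL CL : ℝ} (h7 : Bd7C7a X W Fam cL CL) (hraw : Bd7Raw X W Fam cL CL) :
    ∃ C' : ℝ, ∃ N0 : ℕ, ∀ i : BdI X, i.Ok W Fam → N0 ≤ i.F.N → ∀ v ∈ Ioo (0 : ℝ) 1,
      i.Q.Sq W i.g v ≤ C' * (v + i.F.wc X) ∧ i.Q.Dq W i.g v ≤ C' * (v + i.F.wc X) := by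
  obtain ⟨N1, h1⟩ := str_wc hS h7
  obtain ⟨C', N2, h2⟩ := hraw 1 one_pos
  exact ⟨C', max N1 N2, fun i hi hN v hv =>
    h2 (at7 i (i.F.wc X)) (h1 i hi ((le_max_left _ _).trans hN)) ((le_max_right _ _).trans hN) v hv⟩

/-! ### N4 in the forms of part B -/

/-- **N4a ⟹ existence of minimisers** for the frames of large size.   (`BudOptEx` of 212 asks it for ALL frames of the family: see FINDING 1.) -/
theorem optex (hX : X.Ok) (hok : ∀ F, Fam F → F.Ok X) (hb : BcsBase X W Fam) :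
    ∃ N0 : ℕ, BudOptEx X W fun F => Fam F ∧ N0 ≤ F.N := by
  obtain ⟨N0, h⟩ := bud_n4_exists X hX
  exact ⟨N0, fun F hF g hg => h F (hok _ hF.1) hF.2 W g (hb F hF.1 (hok _ hF.1) g hg)⟩

/-- the floor mass of a radius interval, as the volume of its image in the mass coordinate (`BudGeo.floor_mass` + change of variables) -/
theorem fl_mass_geo {g : BudGeo} {kmin : ℝ} (hg : g.Ok) (hB : BudBoxOk g.kb g.M kmin) {s t : ℝ} (hs : 0 ≤ s) (hst : s ≤ t)
    (ht : t ≤ 1) :
    volume (budAl g.ρ '' ({r | 0 < g.H r} ∩ Icc s t)) ≤ ENNReal.ofReal (∫ r in s..t, g.kb r) := by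
  have hsI : s ∈ Icc (0 : ℝ) 1 := ⟨hs, hst.trans ht⟩
  have htI : t ∈ Icc (0 : ℝ) 1 := ⟨hs.trans hst, ht⟩
  have hmono := budAl_strictMonoOn hB hg.dens
  set E : Set ℝ := (Ioo (0 : ℝ) 1 ∩ (fun u => g.H (budQ g.ρ u)) ⁻¹' Ioi 0) ∩ Ioc (budAl g.ρ s) (budAl g.ρ t) with hEd
  have hE : MeasurableSet E :=
    ((((ff_br_H_cont hg hB).mono Ioo_subset_Icc_self).isOpen_inter_preimage isOpen_Ioo isOpen_Ioi).measurableSet).inter
      measurableSet_Ioc
  have hsub : budAl g.ρ '' ({r | 0 < g.H r} ∩ Icc s t) ⊆ E ∪ (({0} ∪ {1}) ∪ {budAl g.ρ s}) := by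
    rintro u ⟨r, ⟨hH, hr⟩, rfl⟩
    have hrI : r ∈ Icc (0 : ℝ) 1 := ⟨hs.trans hr.1, hr.2.trans ht⟩
    have hu := budAl_mem_Icc hB hg.dens hrI
    by_cases e0 : budAl g.ρ r = 0
    · exact Or.inr (Or.inl (Or.inl e0))
    by_cases e1 : budAl g.ρ r = 1
    · exact Or.inr (Or.inl (Or.inr e1))
    by_cases e2 : budAl g.ρ r = budAl g.ρ s
    · exact Or.inr (Or.inr e2)
    refine Or.inl ⟨⟨⟨lt_of_le_of_ne hu.1 (Ne.symm e0), lt_of_le_of_ne hu.2 e1⟩, ?_⟩, ?_, ?_⟩
    · show 0 < g.H (budQ g.ρ (budAl g.ρ r))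
      rw [budQ_al hB hg.dens hrI]; exact hH
    · exact lt_of_le_of_ne (hmono.monotoneOn hsI hrI hr.1) (Ne.symm e2)
    · exact hmono.monotoneOn hrI htI hr.2
  have hnull : volume ((({0} : Set ℝ) ∪ {1}) ∪ {budAl g.ρ s}) = 0 := by
    refine measure_union_null (measure_union_null ?_ ?_) ?_ <;> simp
  have h2 : volume (budAl g.ρ '' ({r | 0 < g.H r} ∩ Icc s t)) ≤ volume E :=
    (measure_mono hsub).trans ((measure_union_le _ _).trans (by rw [hnull, add_zero]))
  refine h2.trans ?_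
  rw [ff_br_vol hg hB hE (fun u hu => hu.1.1)]
  have hs' : budAl g.ρ ⁻¹' E ∩ Ioo (0 : ℝ) 1 ⊆ Ioc s t ∩ {r | 0 < g.H r} := by
    rintro r ⟨hr1, hr2⟩
    have hrI := Ioo_subset_Icc_self hr2
    have hH : 0 < g.H (budQ g.ρ (budAl g.ρ r)) := hr1.1.2
    rw [budQ_al hB hg.dens hrI] at hH
    exact ⟨⟨(hmono.lt_iff_lt hsI hrI).1 hr1.2.1, (hmono.le_iff_le hrI htI).1 hr1.2.2⟩, hH⟩
  refine (lintegral_mono_set hs').trans ?_
  have hint : IntegrableOn g.ρ (Ioc s t ∩ {r | 0 < g.H r}) := by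
    have := hg.dens.intervalIntegrable hB hsI htI
    rw [intervalIntegrable_iff_integrableOn_Ioc_of_le hst] at this
    exact this.mono_set inter_subset_left
  have hnn : 0 ≤ᵐ[volume.restrict (Ioc s t ∩ {r | 0 < g.H r})] g.ρ := by
    refine ae_restrict_of_ae_restrict_of_subset (t := Ioc s t) inter_subset_left ?_
    rw [ae_restrict_iff' measurableSet_Ioc]
    filter_upwards [hg.dens.ae_bounds hB] with r hr hrm
    exact hB.kmin0.le.trans ((hB.kb_ge r).trans (hr ⟨hs.trans hrm.1.le, hrm.2.trans ht⟩).1)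
  rw [← ofReal_integral_eq_lintegral_ofReal hint hnn]
  exact ENNReal.ofReal_le_ofReal (BudGeo.floor_mass hg hs hst ht)

/-- the same on a frame -/
theorem fl_mass_frame {X : BdFix} (hX : X.Ok) {F : BdFr} (hF : F.Ok X) (Q : BdQ F X) (W : BdWorld) (g c0 : ℝ)
    (hg : (budGeoQ Q W g c0).Ok) {s t : ℝ} (hs : 0 ≤ s) (hst : s ≤ t) (ht : t ≤ 1) :
    volume (Q.al '' ({r | 0 < (budGeoQ Q W g c0).H r} ∩ Icc s t)) ≤ ENNReal.ofReal (∫ r in s..t, F.kbar X r) := by
  have h := fl_mass_geo hg (bud_gb_box hX hF) hs hst ht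
  have e1 : Q.al '' ({r | 0 < (budGeoQ Q W g c0).H r} ∩ Icc s t)
      = budAl (deriv Q.al) '' ({r | 0 < (budGeoQ Q W g c0).H r} ∩ Icc s t) := by
    refine image_congr fun r hr => ?_
    exact ((bud_dens_of_bdq X hX F hF Q).2.1 r ⟨hs.trans hr.2.1, hr.2.2.trans ht⟩).symm
  rw [e1, ← bud_gb_int_Kb F X hs hst ht]
  exact h

/-- every nonfloor radius of the constant region, on a frame -/
theorem flat_frame {X : BdFix} (hX : X.Ok) {F : BdFr} (hF : F.Ok X) (Q : BdQ F X) (W : BdWorld) (g c0 : ℝ) (hB : F.Base X W g)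
    (hg : (budGeoQ Q W g c0).Ok) (hu : X.cI * F.u ≤ 1) {ρ : ℝ} (h0 : 0 < ρ) (h1 : ρ + 1 / F.Mj ≤ X.cI * F.u)
    (hH : (budGeoQ Q W g c0).H ρ ≤ 0) : |Q.Sq W g (Q.al ρ) - ρ| ≤ 2 / F.Mj := by
  have hu0 : 0 < F.u := BdFr.u_pos' hX hF
  have hM : (0 : ℝ) < 1 / F.Mj := by
    have : (1 : ℝ) < F.Mj := hg.M1
    positivity
  have hR : X.cI * F.u ≤ min (X.cd ^ 3 * F.u) 1 := le_min (mul_le_mul_of_nonneg_right hX.cI_le hu0.le) hu
  have h := BudGeo.flat_nonfloor hg (bud_n4_flat X hX F hF Q W g c0) h0.le (h1.trans hR) hH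
  rwa [bud_n4_S X hX F hF Q W g c0 hB ⟨h0, by linarith⟩] at h

/-- Lemma 7.2 in the form consumed by Step 3 (`Bd7I.Flat`): floor mass, and `|S - r| ≤ 2/M_j` at EVERY nonfloor radius `ρ > 0` of the constant region (`BudGeo.flat_nonfloor`, `BudGeo.floor_mass`, `bud_n4_flat`).
(helper138; `ρ = 0` removed from `Bd7I.Flat.flat`: a `PSys` says nothing at the mass `0`.) -/
theorem buda_cpgeo (hS : BdStd X W Fam K) (hb : BcsBase X W Fam) : BcpGeo X W Fam := by
  have hX := hS.fix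
  have hcI := hX.cI_pos
  obtain ⟨N1, h1⟩ := bud_n4_geo X hX
  obtain ⟨N2, h2⟩ := bcp3_num_weak hX (ε := 1 / (X.cI + 1)) (by positivity)
  refine ⟨max N1 N2, fun i hi hN => ?_⟩
  have hB := hb i.F hi.fam hi.ok i.g hi.g_mem
  obtain ⟨c0, hg, -⟩ := h1 i.F hi.ok ((le_max_left _ _).trans hN) W i.g hB i.Q hi.opt
  have hcu : X.cI * i.F.u ≤ 1 := by
    have := (h2 i.F hi.ok ((le_max_right _ _).trans hN)).2
    calc X.cI * i.F.u ≤ X.cI * (1 / (X.cI + 1)) := mul_le_mul_of_nonneg_left this hcI.le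
      _ ≤ 1 := by rw [mul_one_div, div_le_one (by linarith)]; linarith
  exact ⟨(budGeoQ i.Q W i.g c0).H, fun s t hs hst ht => fl_mass_frame hX hi.ok i.Q W i.g c0 hg hs hst ht,
    fun ρ h0 h1 hH => flat_frame hX hi.ok i.Q W i.g c0 hB hg hcu h0 h1 hH⟩

/-- **THE EXIT OF PART A**: everything part B (`BudB.c12_all`, `BudB.exit_all`) reads from l.126-1150 -/
theorem exit_all (h : Sup X W Fam K Sc k c) :
    BudB.C7a X W Fam ∧ BudC7al X W Fam ∧ (∃ N0 : ℕ, BudOptEx X W fun F => Fam F ∧ N0 ≤ F.N) :=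
  ⟨c7a_hubB h.std.ok h.cL_pos h.c7a, h.c7al, optex h.hX h.std.ok h.base⟩

end BudA

theorem buda_eqns_cite : True := by
  have := @BudA.Cst.bcs.eq_1; have := @BudA.at7.eq_1
  trivial

/-!
## FINDINGS (mismatches between the nodes, met while gluing)
1. `BudOptEx` (212) asks a minimiser for EVERY frame of the family; N4a (`bud_n4_exists`, 109) gives it for `N0 ≤ F.N` only.   REMEDY (no retyping): apply part B to the family `fun F => Fam F ∧ N0 ≤ F.N`
   (`BdStd` is stable under this restriction: `box` keeps `N`); all exits are "for large `N`".   The top (66) must restrict `BtFam` accordingly.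
2. `Bd7SIn.cL_le : cL ≤ CL` and 190's `cL ≤ 1 ≤ CL`: compatible; the loose constants must ALSO satisfy `lo`, `hi` (bounds of the PE direct profile): `cL ≤ 1 ≤ CL` is a restriction on nobody (shrink / enlarge).
3. `Bd7Raw` is typed on STRONG instances only; this is enough for both uses (Step 2, and `w = w_c` after (C7): `str_wc`).   Same for every Prop typed on `BcsIn.Cls`.
-/

end

end Claimed.Agent.R286
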