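import Claimed.Agent.R286.Cmp.P6Band

/-!
# Row 286 (S0533), LL 07-budgets, node N6 = Lemma 7.5 (bud:outer-second), (C10): ABSTRACT NON-ASYMPTOTIC LAYER      (owner helper111; prefix `bos_`, types `Bos*`)

N6 is typed as DETERMINISTIC REAL ANALYSIS over NUMBERS, on the vocabulary of PE package P06 (helper294): `CmNum` (numbers of ONE path, with the MASTER inequality
`CmNum.Ok.master` = two-sided averaging at one point), `CmWt`, `CmCaps` (cap components, floor set, good contact set, unit labels `lab`, groups `IsGroup`),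
on the ABSTRACT leaves of `Cmp/P6Abs.lean`: `cm_br_abs` (= PE (21)), `cm_br1`, `cm_density_le`, on `cm_brR_opt` (`Cmp/P6Geo.lean`) and `cm6bOrd`, `cm6b_Q4_*`, `cm6b_small` (`Cmp/P6Band.lean`, helper35).
`CmGeo` itself cannot be used: the box (C5) of LL has the CONSTANT cap `M_j`, no wall, and the floor `kbar = k + κ 1_I`.

VOCABULARY
* `BosCo al ϖ L`       a deterministic COORDINATE `x ∈ [0,L] ↦ al x ∈ [0,1]` on the masses, whose length measure is `ϖ(u) du`.   Instances: the radius (`ϖ = r'`, `bos_co_of_geo`),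
                       the nonfloor coordinate `s(v) = ∫^v 1_nonfloor` of LL l.1573 (`ϖ = 1_nonfloor`, `bos_co_exists`).
* `BosGeo al r kb ef M cn Lp X Z`    the CLOSED output of LL Lemma 7.2 (N4, `Bud/Geo*.lean`) + the clock inequality (A1) line 2 pulled back to the radius:
       `al` inverse quantile, `r` quantile, `kb` floor, `ef` lower bound of the field slope per unit radius (up to `cn`), `M` cap, `Lp ≥ sup (1-p)⁻¹`.
* `bosGrp Z al J a`    the group of a mass set `J` above the cutoff `a`: contact points of `J` and the COMPLETE caps meeting `J` whose lower end is `≥ a`.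
* `bosWin`             window weights (coordinate windows seen in the mass coordinate).

EXITS
* `bos_sw_gen`  §1   THE SLIDING ESTIMATE on any coordinate (LL l.362-433; reused l.481-487, l.1545-1585 in BOTH measures):   for EVERY `h > 0`
      `∫_{r1}^{r2} D(al x)² dx ≤ 4hR² + 17 h sg² + 64 ∫TW(al x)dx/(k0 h) + 221186 ∫TC(al x)dx`.      No smallness of `h`, no lower bound on `r2 - r1`.
* `bos_sw`, `bos_sw_opt`  §2   the same on a `BosGeo`, traces by the clock inequality.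
* `bos_band_nf`, `bos_band`  §4   PE (20)-(21) on the caps and contacts of ANY mass band `[v1,v2]` (a cap crossing `v1` from below `v1/2` is used above `v1/2`: LL l.489-497).
* `bos_c10`     §4   non-asymptotic (C10).
The instances in the vocabulary of `Bud/Defs.lean`, `Bud/Star.lean` (`BcsC10`, `BcsSW`, `BcsNF`) are in `Bud/SecInst.lean`.

PAPER PROOF of the sliding estimate, with the constants (checked by 111).   `d = D∘al`, `t = √(TC∘al)`, `s = S∘al`, `w = TW∘al`, `J_h = [r1+h, r2-h]`, `𝒟 = ∫ d²`, `T = ∫ t²`.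
 (1) `bos_master_rad`: `CmNum.Ok.master` at the mass `al i`, `i ∈ J_h`, with the two ORDERED windows `(i,i+h)`, `(i-h,i)` (so `q4 = 0`).
 (2) integrate over `i ∈ J_h`: windows have marginal density `≤ 1` (`bos_win_marg`); `∫∫ K (s_x - s_i)² ≤ h sg²` (`bos_win_shift`); Cauchy-Schwarz for the noise:
     `N ≤ (4T)^{1/2} (3 h sg² + 54 𝒟)^{1/2}`;   `𝒟 ≤ 2hR² + T + 32 ∫w/(k0 h) + 8 h sg² + 64 √(T (3 h sg² + 54 𝒟))`;
     Young `64 √(T Y) ≤ Y/108 + 110592 T`:   `𝒟 ≤ 4hR² + 17 h sg² + 64 ∫w/(k0 h) + 221186 T`      (`bos_sw_det`).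
 (3) `∫ TH∘al ≤ sg/(cn e0)` (`bos_ut_rad`), `TW ≤ TH/v0`, `TC ≤ TH/v0²`.
PROVERS: prove IN PLACE (auxiliary lemmas just above, name = theorem + suffix); claim `Bud/Sec.lean#<name>` in claim286; a false/awkward statement: one line to 111.
-/

set_option autoImplicit false

namespace Claimed.Agent.R286

open MeasureTheory Set

noncomputable section

/-! ## 0. Vocabulary -/

/-- **a deterministic coordinate on the masses**: `al : [0,L] → [0,1]` strictly increasing (jumps allowed), with length measure `ϖ(u) du` -/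
structure BosCo (al ϖ : ℝ → ℝ) (L : ℝ) : Prop where
  al_meas : Measurable al
  al_mono : StrictMonoOn al (Icc 0 L)
  al_mem : ∀ x ∈ Icc (0 : ℝ) L, al x ∈ Icc (0 : ℝ) 1
  meas : Measurable ϖ
  nn : ∀ u, 0 ≤ ϖ u
  bdd : ∃ B : ℝ, ∀ u, ϖ u ≤ B
  cov : ∀ F : ℝ → ℝ, Measurable F → (∃ B : ℝ, ∀ u, |F u| ≤ B) → ∀ a b : ℝ, 0 ≤ a → a ≤ b → b ≤ L →
    ∫ x in a..b, F (al x) = ∫ u in Ioo (al a) (al b), F u * ϖ u

/-- **the closed output of LL Lemma 7.2** for a box with floor `kb` and constant cap `M`, for the numbers `X` of the changed path and the geometric data `Z` (radius coordinates),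
together with the clock inequality in the radius coordinate.      SUPPLIER: N4 (`bud_n4_geo`) + Hub (`CmNum` of the changed path): `bos_geo_of_cls` in `Bud/SecInst.lean`. -/
structure BosGeo (al r kb ef : ℝ → ℝ) (M cn Lp : ℝ) (X : CmNum) (Z : CmCaps) : Prop where
  M1 : 1 < M
  Lp1 : 1 ≤ Lp
  cn0 : 0 < cn
  al_meas : Measurable al
  r_meas : Measurable r
  al_zero : al 0 = 0
  al_one : al 1 = 1
  kb_meas : Measurable kb
  kb_pos : ∃ kmin : ℝ, 0 < kmin ∧ ∀ t ∈ Icc (0 : ℝ) 1, kmin ≤ kb t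
  kb_le : ∀ t ∈ Icc (0 : ℝ) 1, kb t ≤ M
  lo : ∀ s t : ℝ, 0 ≤ s → s ≤ t → t ≤ 1 → ∫ x in s..t, kb x ≤ al t - al s
  hi : ∀ s t : ℝ, 0 ≤ s → s ≤ t → t ≤ 1 → al t - al s ≤ M * (t - s)
  r_mem : ∀ u ∈ Icc (0 : ℝ) 1, r u ∈ Icc (0 : ℝ) 1
  al_r : ∀ u ∈ Icc (0 : ℝ) 1, al (r u) = u
  r_al : ∀ t ∈ Icc (0 : ℝ) 1, r (al t) = t
  ef_meas : Measurable ef
  ef_nn : ∀ t ∈ Icc (0 : ℝ) 1, 0 ≤ ef t
  ef_le : ∃ B : ℝ, ∀ t ∈ Icc (0 : ℝ) 1, ef t ≤ B
  cap_le : ∀ i, Z.cL i ≤ Z.cR i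
  cap_lo : ∀ i, 0 ≤ Z.cL i
  cap_hi : ∀ i, Z.cR i ≤ 1
  cap_disj : Pairwise fun i j => Disjoint (Ioo (Z.cL i) (Z.cR i)) (Ioo (Z.cL j) (Z.cR j))
  /-- `α' = M` on the caps, integrated form -/
  cap_eq : ∀ i s t, Z.cL i ≤ s → s ≤ t → t ≤ Z.cR i → al t - al s = M * (t - s)
  fl_meas : MeasurableSet Z.Fl
  fl_sub : Z.Fl ⊆ Icc 0 1
  /-- `α' = kb` on the floor: the mass measure of the floor is `kb dr` -/
  fl_dens : ∀ F : ℝ → ℝ, Measurable F → (∀ u, 0 ≤ F u) → (∃ B : ℝ, ∀ u, F u ≤ B) → ∀ s t : ℝ, 0 ≤ s → s ≤ t → t ≤ 1 →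
    ∫ u in al '' (Z.Fl ∩ Icc s t), F u ≤ ∫ x in s..t, F (al x) * kb x
  ct_meas : MeasurableSet Z.Ct
  ct_sub : Z.Ct ⊆ Ioc 0 1
  ct_disj : Disjoint Z.Ct Z.caps
  cover : volume (Icc (0 : ℝ) 1 \ (Z.caps ∪ Z.Fl ∪ Z.Ct)) = 0
  /-- contact: `S ≤ r`, `(S - r)² ≤ D²` -/
  ct_le : ∀ x ∈ Z.Ct, X.S (al x) ≤ x
  ct_mis : ∀ x ∈ Z.Ct, (X.S (al x) - x) ^ 2 ≤ X.D (al x) ^ 2
  /-- `S' ≲ (1-p)⁻¹` on contact, two-point form (`BudGeo.contact_pair`) -/
  ct_two : ∀ x1 ∈ Z.Ct, ∀ x2 ∈ Z.Ct, x1 < x2 → x2 ≤ 2 * x1 → X.S (al x2) - X.S (al x1) ≤ 3 * Lp * (x2 - x1)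
  /-- the increase of `S` through the interior of a cap (`BudGeo.cap_dS`) -/
  cap_dS : ∀ i s t, Z.cL i < s → s ≤ t → t < Z.cR i → X.S (al t) - X.S (al s) ≤ 3 * Lp * Z.len i
  cap_Sle : ∀ i, ∀ x ∈ Ioo (Z.cL i) (Z.cR i), X.S (al x) ≤ Z.cR i
  cap_mis : ∀ i, ∀ x ∈ Ioo (Z.cL i) (Z.cR i), |X.S (al x) - x| ≤ X.D (al x) + Z.len i
  /-- (A1) line 2 in the radius coordinate -/
  clock : ∀ s t : ℝ, 0 ≤ s → s ≤ t → t ≤ 1 → cn * ∫ x in s..t, ef x * X.TH (al x) ≤ X.S (al t) - X.S (al s)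

/-- **the group of a mass set `J` above the cutoff `a`**: the contact points in `J` and the complete (nondegenerate) caps meeting `J` with lower end `≥ a` -/
def bosGrp (Z : CmCaps) (al : ℝ → ℝ) (J : Set ℝ) (a : ℝ) : Set ℝ :=
  (J ∩ al '' Z.Ct) ∪ ⋃ i ∈ {i | Z.cL i < Z.cR i ∧ (Z.capM al i ∩ J).Nonempty ∧ a ≤ al (Z.cL i)}, Z.capM al i

/-- the coordinate window `(a,b)` as a probability weight in the mass coordinate -/
def bosWin (al ϖ : ℝ → ℝ) (a b : ℝ) (u : ℝ) : ℝ := if u ∈ Ioo (al a) (al b) then ϖ u / (b - a) else 0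

/-- the right side of the sliding estimate on a `BosGeo` -/
def bosSwR (h R sg cn e0 v0 k0 : ℝ) : ℝ :=
  300000 * (h * (R ^ 2 + sg ^ 2) + sg / (cn * e0 * v0 * k0 * h) + sg / (cn * e0 * v0 ^ 2))

/-- the bound of the slice above `v1/2` of a cap crossing `v1` from below `v1/2`; `T` = unit trace bound, `vb` = bound of the upper end -/
def bosSl (v1 vb ω q4 T : ℝ) : ℝ := 200000 * (vb * (ω ^ 2 + q4) + 8 / v1 ^ 2 * (T * vb))

/-- the contribution of the extra floor `κ 1_{[a,b]}` -/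
def bosKap (κ R sg cn e0 v0 : ℝ) : ℝ :=
  300000 * (2 * Real.sqrt (κ * ((R ^ 2 + sg ^ 2) * sg / (cn * e0 * v0))) + κ * (sg / (cn * e0 * v0 ^ 2)))

/-- the cost of the coordinate window `(a,b)` at the evaluation point `i` -/
def bosSide (X : CmNum) (al : ℝ → ℝ) (k0 i a b : ℝ) : ℝ :=
  1 / (b - a) * (∫ x in a..b, (Real.sqrt (X.TC (al i)) + Real.sqrt (X.TC (al x))) *
      (|X.S (al x) - X.S (al i)| + 3 * (X.D (al i) + X.D (al x))))
    + 1 / (k0 * (b - a) ^ 2) * (∫ x in a..b, X.TW (al x))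
    + 1 / 4 * (1 / (b - a) * ∫ x in a..b, (X.S (al x) - X.S (al i))) ^ 2

/-- the cost of a window for abstract functions of the coordinate -/
def bosSideF (d t s w : ℝ → ℝ) (k0 i a b : ℝ) : ℝ :=
  1 / (b - a) * (∫ x in a..b, (t i + t x) * (|s x - s i| + 3 * (d i + d x)))
    + 1 / (k0 * (b - a) ^ 2) * (∫ x in a..b, w x) + 1 / 4 * (1 / (b - a) * ∫ x in a..b, (s x - s i)) ^ 2

theorem bos_defs_eqns_cite : True := by
  have := @bosGrp.eq_1; have := @bosWin.eq_1; have := @bosSwR.eq_1; have := @bosSl.eq_1; have := @bosKap.eq_1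
  have := @bosSide.eq_1; have := @bosSideF.eq_1
  trivial

/-! ## 1. THE SLIDING WINDOWS on a coordinate -/

section sliding

variable {al ϖ : ℝ → ℝ} {L : ℝ} {X : CmNum}

/-! ### 1a. window weights -/

theorem bos_win_int (hA : BosCo al ϖ L) {a b : ℝ} (ha : 0 ≤ a) (hab : a < b) (hb : b ≤ L)
    (F : ℝ → ℝ) (hF : Measurable F) (hFb : ∃ B : ℝ, ∀ u, |F u| ≤ B) :
    ∫ j, bosWin al ϖ a b j * F j = 1 / (b - a) * ∫ x in a..b, F (al x) := by
  rw [hA.cov F hF hFb a b ha hab.le hb]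
  have e : (fun j => bosWin al ϖ a b j * F j) = (Ioo (al a) (al b)).indicator (fun u => 1 / (b - a) * (F u * ϖ u)) := by
    funext j
    unfold bosWin
    by_cases hj : j ∈ Ioo (al a) (al b)
    · rw [if_pos hj, indicator_of_mem hj]; ring
    · rw [if_neg hj, indicator_of_notMem hj]; ring
  rw [e, integral_indicator measurableSet_Ioo, integral_const_mul]

theorem bos_win_sub (hA : BosCo al ϖ L) {a b : ℝ} (ha : 0 ≤ a) (hab : a < b) (hb : b ≤ L) : Ioo (al a) (al b) ⊆ Icc (0 : ℝ) 1 :=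
  fun _ hu => ⟨(hA.al_mem a ⟨ha, hab.le.trans hb⟩).1.trans hu.1.le, hu.2.le.trans (hA.al_mem b ⟨ha.trans hab.le, hb⟩).2⟩

theorem bos_win_wt (hA : BosCo al ϖ L) {a b : ℝ} (ha : 0 ≤ a) (hab : a < b) (hb : b ≤ L) : CmWt (bosWin al ϖ a b) := by
  have hba : 0 < b - a := sub_pos.2 hab
  obtain ⟨B, hB⟩ := hA.bdd
  refine ⟨Measurable.ite measurableSet_Ioo (hA.meas.div_const _) measurable_const, ?_, ⟨B / (b - a), ?_⟩, ?_, ?_⟩
  · intro j
    unfold bosWin
    split_ifs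
    · exact div_nonneg (hA.nn j) hba.le
    · exact le_rfl
  · intro j
    unfold bosWin
    split_ifs
    · exact div_le_div_of_nonneg_right (hB j) hba.le
    · exact div_nonneg ((hA.nn 0).trans (hB 0)) hba.le
  · intro j hj
    unfold bosWin
    rw [if_neg fun h => hj (bos_win_sub hA ha hab hb h)]
  · have h1 := bos_win_int hA ha hab hb (fun _ => 1) measurable_const ⟨1, fun _ => by simp⟩
    simp only [mul_one, intervalIntegral.integral_const, smul_eq_mul] at h1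
    rw [h1]
    field_simp

/-- the clamp of the masses to `[0,1]` -/
theorem bos_clamp_mem (u : ℝ) : max 0 (min u 1) ∈ Icc (0 : ℝ) 1 := ⟨le_max_left _ _, max_le zero_le_one (min_le_right _ _)⟩

theorem bos_clamp_eq {u : ℝ} (hu : u ∈ Icc (0 : ℝ) 1) : max 0 (min u 1) = u := by
  rw [min_eq_left hu.2, max_eq_right hu.1]

/-- `bos_win_int` for functions which are bounded on `[0,1]` only -/
theorem bos_win_int01 (hA : BosCo al ϖ L) {a b : ℝ} (ha : 0 ≤ a) (hab : a < b) (hb : b ≤ L)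
    (F : ℝ → ℝ) (hF : Measurable F) (hFb : ∃ B : ℝ, ∀ u ∈ Icc (0 : ℝ) 1, |F u| ≤ B) :
    ∫ j, bosWin al ϖ a b j * F j = 1 / (b - a) * ∫ x in a..b, F (al x) := by
  obtain ⟨B, hB⟩ := hFb
  have h1 := bos_win_int hA ha hab hb (fun u => F (max 0 (min u 1))) (hF.comp (by fun_prop)) ⟨B, fun u => hB _ (bos_clamp_mem u)⟩
  have e1 : (fun j => bosWin al ϖ a b j * F j) = fun j => bosWin al ϖ a b j * F (max 0 (min j 1)) := by
    funext j
    by_cases hj : j ∈ Ioo (al a) (al b)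
    · rw [bos_clamp_eq (bos_win_sub hA ha hab hb hj)]
    · unfold bosWin; rw [if_neg hj]; ring
  have e2 : ∫ x in a..b, F (max 0 (min (al x) 1)) = ∫ x in a..b, F (al x) := by
    apply intervalIntegral.integral_congr
    intro x hx
    rw [uIcc_of_le hab.le] at hx
    simp only
    rw [bos_clamp_eq (hA.al_mem x ⟨ha.trans hx.1, hx.2.trans hb⟩)]
  rw [e1, h1, e2]

theorem bos_win_sq (hA : BosCo al ϖ L) {a b k0 : ℝ} (ha : 0 ≤ a) (hab : a < b) (hb : b ≤ L) (hk0 : 0 < k0)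
    (hk : ∀ᵐ u ∂volume, u ∈ Ioo (al a) (al b) → ϖ u ≤ 1 / k0)
    (F : ℝ → ℝ) (hF : Measurable F) (hF0 : ∀ u, 0 ≤ F u) (hFb : ∃ B : ℝ, ∀ u, F u ≤ B) :
    ∫ j, bosWin al ϖ a b j ^ 2 * F j ≤ 1 / (k0 * (b - a) ^ 2) * ∫ x in a..b, F (al x) := by
  have hba : 0 < b - a := sub_pos.2 hab
  obtain ⟨B, hB⟩ := hFb
  obtain ⟨Bw, hBw⟩ := hA.bdd
  have hBw0 : 0 ≤ Bw := (hA.nn 0).trans (hBw 0)
  have hB0 : 0 ≤ B := (hF0 0).trans (hB 0)
  rw [hA.cov F hF ⟨B, fun u => by rw [abs_of_nonneg (hF0 u)]; exact hB u⟩ a b ha hab.le hb]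
  have e : (fun j => bosWin al ϖ a b j ^ 2 * F j) = (Ioo (al a) (al b)).indicator (fun u => (ϖ u / (b - a)) ^ 2 * F u) := by
    funext j
    unfold bosWin
    by_cases hj : j ∈ Ioo (al a) (al b)
    · rw [if_pos hj, indicator_of_mem hj]
    · rw [if_neg hj, indicator_of_notMem hj]; ring
  rw [e, integral_indicator measurableSet_Ioo, ← integral_const_mul]
  have hfin : volume (Ioo (al a) (al b)) ≠ ⊤ := by simp
  have i1 : IntegrableOn (fun u => (ϖ u / (b - a)) ^ 2 * F u) (Ioo (al a) (al b)) volume := by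
    refine Measure.integrableOn_of_bounded (M := (Bw / (b - a)) ^ 2 * B) hfin
      (((hA.meas.div_const _).pow_const 2).mul hF).aestronglyMeasurable (Filter.Eventually.of_forall fun u => ?_)
    rw [Real.norm_eq_abs, abs_of_nonneg (mul_nonneg (sq_nonneg _) (hF0 u))]
    exact mul_le_mul (pow_le_pow_left₀ (div_nonneg (hA.nn u) hba.le) (div_le_div_of_nonneg_right (hBw u) hba.le) 2) (hB u)
      (hF0 u) (sq_nonneg _)
  have i2 : IntegrableOn (fun u => 1 / (k0 * (b - a) ^ 2) * (F u * ϖ u)) (Ioo (al a) (al b)) volume := by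
    refine Measure.integrableOn_of_bounded (M := 1 / (k0 * (b - a) ^ 2) * (B * Bw)) hfin
      ((hF.mul hA.meas).const_mul _).aestronglyMeasurable (Filter.Eventually.of_forall fun u => ?_)
    rw [Real.norm_eq_abs, abs_of_nonneg (mul_nonneg (by positivity) (mul_nonneg (hF0 u) (hA.nn u)))]
    exact mul_le_mul_of_nonneg_left (mul_le_mul (hB u) (hBw u) (hA.nn u) hB0) (by positivity)
  refine integral_mono_ae i1 i2 ?_
  refine (ae_restrict_iff' measurableSet_Ioo).2 ?_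
  filter_upwards [hk] with u hu hmem
  have h1 := hu hmem
  have h2 := hA.nn u
  have h3 := hF0 u
  have e1 : (ϖ u / (b - a)) ^ 2 * F u = (ϖ u * ϖ u) * (F u / (b - a) ^ 2) := by field_simp
  have e2 : 1 / (k0 * (b - a) ^ 2) * (F u * ϖ u) = (1 / k0 * ϖ u) * (F u / (b - a) ^ 2) := by field_simp
  rw [e1, e2]
  exact mul_le_mul_of_nonneg_right (mul_le_mul_of_nonneg_right h1 h2) (by positivity)

/-- `bos_win_sq` for functions which are bounded and nonnegative on `[0,1]` only -/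
theorem bos_win_sq01 (hA : BosCo al ϖ L) {a b k0 : ℝ} (ha : 0 ≤ a) (hab : a < b) (hb : b ≤ L) (hk0 : 0 < k0)
    (hk : ∀ᵐ u ∂volume, u ∈ Ioo (al a) (al b) → ϖ u ≤ 1 / k0)
    (F : ℝ → ℝ) (hF : Measurable F) (hF0 : ∀ u ∈ Icc (0 : ℝ) 1, 0 ≤ F u) (hFb : ∃ B : ℝ, ∀ u ∈ Icc (0 : ℝ) 1, F u ≤ B) :
    ∫ j, bosWin al ϖ a b j ^ 2 * F j ≤ 1 / (k0 * (b - a) ^ 2) * ∫ x in a..b, F (al x) := by
  obtain ⟨B, hB⟩ := hFb
  have h1 := bos_win_sq hA ha hab hb hk0 hk (fun u => F (max 0 (min u 1))) (hF.comp (by fun_prop))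
    (fun u => hF0 _ (bos_clamp_mem u)) ⟨B, fun u => hB _ (bos_clamp_mem u)⟩
  have e1 : (fun j => bosWin al ϖ a b j ^ 2 * F j) = fun j => bosWin al ϖ a b j ^ 2 * F (max 0 (min j 1)) := by
    funext j
    by_cases hj : j ∈ Ioo (al a) (al b)
    · rw [bos_clamp_eq (bos_win_sub hA ha hab hb hj)]
    · unfold bosWin; rw [if_neg hj]; ring
  have e2 : ∫ x in a..b, F (max 0 (min (al x) 1)) = ∫ x in a..b, F (al x) := by
    apply intervalIntegral.integral_congr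
    intro x hx
    rw [uIcc_of_le hab.le] at hx
    simp only
    rw [bos_clamp_eq (hA.al_mem x ⟨ha.trans hx.1, hx.2.trans hb⟩)]
  rw [e1, ← e2]
  exact h1

/-! ### 1b. the master inequality with two ordered windows -/

/-- `X.side (al i) (window) ≤ bosSide`.      NOTE: the functions of `X` are bounded on `[0,1]` only; apply `bos_win_int`, `bos_win_sq` to their truncations `u ↦ F (max 0 (min u 1))`. -/
theorem bos_side_le (hX : X.Ok) (hA : BosCo al ϖ L) {a b k0 i : ℝ} (ha : 0 ≤ a) (hab : a < b) (hb : b ≤ L) (hi : i ∈ Icc (0 : ℝ) L)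
    (hk0 : 0 < k0) (hk : ∀ᵐ u ∂volume, u ∈ Ioo (al a) (al b) → ϖ u ≤ 1 / k0) :
    X.side (al i) (bosWin al ϖ a b) ≤ bosSide X al k0 i a b := by
  have hi01 := hA.al_mem i hi
  have mS := hX.S_meas
  have mD := hX.D_meas
  have mTC := hX.TC_meas
  have t1 := bos_win_int01 hA ha hab hb
    (fun j => (Real.sqrt (X.TC (al i)) + Real.sqrt (X.TC j)) * (|X.S j - X.S (al i)| + 3 * (X.D (al i) + X.D j)))
    ((measurable_const.add mTC.sqrt).mul
      ((continuous_abs.measurable.comp (mS.sub_const _)).add ((measurable_const.add mD).const_mul 3)))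
    ⟨14, fun u hu => by
      have a1 : Real.sqrt (X.TC (al i)) ≤ 1 := Real.sqrt_le_one.2 (hX.TC_le _ hi01) |>.trans le_rfl
      have a2 : Real.sqrt (X.TC u) ≤ 1 := Real.sqrt_le_one.2 (hX.TC_le _ hu) |>.trans le_rfl
      have a3 := Real.sqrt_nonneg (X.TC (al i))
      have a4 := Real.sqrt_nonneg (X.TC u)
      have a5 : |X.S u - X.S (al i)| ≤ 1 :=
        abs_le.2 ⟨by linarith [hX.S_nn u hu, hX.S_le _ hi01], by linarith [hX.S_le u hu, hX.S_nn _ hi01]⟩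
      have a6 := abs_nonneg (X.S u - X.S (al i))
      have a7 := hX.D_nn u hu
      have a8 := hX.D_le u hu
      have a9 := hX.D_nn _ hi01
      have a10 := hX.D_le _ hi01
      rw [abs_of_nonneg (by positivity)]
      calc (Real.sqrt (X.TC (al i)) + Real.sqrt (X.TC u)) * (|X.S u - X.S (al i)| + 3 * (X.D (al i) + X.D u))
          ≤ 2 * 7 := mul_le_mul (by linarith) (by linarith) (by positivity) (by norm_num)
        _ = 14 := by norm_num⟩
  have t2 := bos_win_sq01 hA ha hab hb hk0 hk X.TW hX.TW_meas hX.TW_nn ⟨1, hX.TW_le⟩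
  have t3 := bos_win_int01 hA ha hab hb (fun j => X.S j - X.S (al i)) (mS.sub_const _)
    ⟨1, fun u hu => abs_le.2 ⟨by linarith [hX.S_nn u hu, hX.S_le _ hi01], by linarith [hX.S_le u hu, hX.S_nn _ hi01]⟩⟩
  unfold CmNum.side bosSide
  rw [t1, t3]
  linarith

/-- **master inequality in the coordinate** (`q4 = 0`: both windows are ordered) -/
theorem bos_master_rad (hX : X.Ok) (hA : BosCo al ϖ L) {r1 r2 k0 h i : ℝ} (h1 : 0 ≤ r1) (h2 : r2 ≤ L)
    (hk0 : 0 < k0) (hk : ∀ᵐ u ∂volume, u ∈ Ioo (al r1) (al r2) → ϖ u ≤ 1 / k0) (hh : 0 < h)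
    (hi : i ∈ Icc (r1 + h) (r2 - h)) :
    X.D (al i) ^ 2 ≤ X.TC (al i) + 16 * (bosSide X al k0 i i (i + h) + bosSide X al k0 i (i - h) i) := by
  have hi0 : 0 ≤ i - h := by linarith [hi.1]
  have hiL : i + h ≤ L := by linarith [hi.2]
  have hiI : i ∈ Icc (0 : ℝ) L := ⟨by linarith, by linarith⟩
  have mono : ∀ {p q : ℝ}, 0 ≤ p → p ≤ q → q ≤ L → al p ≤ al q := fun {p q} h0 hpq hq =>
    hA.al_mono.monotoneOn ⟨h0, hpq.trans hq⟩ ⟨h0.trans hpq, hq⟩ hpq
  have hkp : ∀ᵐ u ∂volume, u ∈ Ioo (al i) (al (i + h)) → ϖ u ≤ 1 / k0 := by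
    filter_upwards [hk] with u hu hm
    exact hu ⟨lt_of_le_of_lt (mono h1 (by linarith [hi.1]) hiI.2) hm.1, lt_of_lt_of_le hm.2 (mono (by linarith) (by linarith [hi.2]) h2)⟩
  have hkm : ∀ᵐ u ∂volume, u ∈ Ioo (al (i - h)) (al i) → ϖ u ≤ 1 / k0 := by
    filter_upwards [hk] with u hu hm
    exact hu ⟨lt_of_le_of_lt (mono h1 (by linarith [hi.1]) (by linarith)) hm.1, lt_of_lt_of_le hm.2 (mono hiI.1 (by linarith [hi.2]) h2)⟩
  have hm := hX.master (al i) (hA.al_mem i hiI) (bosWin al ϖ i (i + h)) (bosWin al ϖ (i - h) i)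
    (bos_win_wt hA hiI.1 (by linarith) hiL) (bos_win_wt hA hi0 (by linarith) hiI.2) 0 le_rfl
    (fun j _ hj hlt => by
      exfalso
      apply hj
      unfold bosWin
      rw [if_neg fun hmem => absurd hmem.1 (not_lt.2 hlt.le)])
    (fun j _ hj hlt => by
      exfalso
      apply hj
      unfold bosWin
      rw [if_neg fun hmem => absurd hmem.2 (not_lt.2 hlt.le)])
  have s1 := bos_side_le hX hA (a := i) (b := i + h) (i := i) hiI.1 (by linarith) hiL hiI hk0 hkp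
  have s2 := bos_side_le hX hA (a := i - h) (b := i) (i := i) hi0 (by linarith) hiI.2 hiI hk0 hkm
  linarith

/-! ### 1c. the deterministic integration (no model, no coordinate) -/

/-- a bounded measurable function is interval integrable -/
theorem bosd_ii_bdd {B : ℝ} (φ : ℝ → ℝ) (hφ : Measurable φ) (hB : ∀ x, |φ x| ≤ B) (c d : ℝ) : IntervalIntegrable φ volume c d := by
  rw [intervalIntegrable_iff]
  refine Measure.integrableOn_of_bounded (M := B) ?_ hφ.aestronglyMeasurable (Filter.Eventually.of_forall fun x => by simpa using hB x)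
  rw [uIoc]; exact measure_Ioc_lt_top.ne

/-- integrability on the window square of a bounded jointly measurable function, in the coordinates `(i, τ)`, `x = i + τ` -/
theorem bosd_win_int2 {a b h B : ℝ} (g : ℝ → ℝ → ℝ) (hg : Measurable (Function.uncurry g)) (hB : ∀ i x, |g i x| ≤ B) :
    Integrable (fun z : ℝ × ℝ => g z.1 (z.1 + z.2)) ((volume.restrict (Ioc a b)).prod (volume.restrict (Ioc 0 h))) := by
  refine Integrable.of_bound ?_ B (Filter.Eventually.of_forall fun z => by simpa using hB z.1 (z.1 + z.2))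
  exact (hg.comp (measurable_fst.prodMk (measurable_fst.add measurable_snd))).aestronglyMeasurable

/-- the window integral in the coordinate `τ = x - i` -/
theorem bosd_win_sub {h : ℝ} (hh : 0 < h) (f : ℝ → ℝ) (i : ℝ) :
    ∫ x in i..(i + h), f x = ∫ τ in Ioc 0 h, f (i + τ) := by
  rw [← intervalIntegral.integral_of_le hh.le, intervalIntegral.integral_comp_add_left (fun x => f x) i, add_zero]

/-- the iterated window integral is an integral over the square -/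
theorem bosd_win_link {a b h B : ℝ} (hab : a ≤ b) (hh : 0 < h) (g : ℝ → ℝ → ℝ) (hg : Measurable (Function.uncurry g))
    (hB : ∀ i x, |g i x| ≤ B) :
    ∫ i in a..b, 1 / h * ∫ x in i..(i + h), g i x
      = 1 / h * ∫ z, g z.1 (z.1 + z.2) ∂((volume.restrict (Ioc a b)).prod (volume.restrict (Ioc 0 h))) := by
  rw [integral_prod _ (bosd_win_int2 g hg hB), intervalIntegral.integral_const_mul, intervalIntegral.integral_of_le hab]
  congr 1
  refine integral_congr_ae (Filter.Eventually.of_forall fun i => ?_)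
  exact bosd_win_sub hh (g i) i

/-- the window integral is integrable in the base point -/
theorem bosd_win_intble {a b h B : ℝ} (hab : a ≤ b) (hh : 0 < h) (g : ℝ → ℝ → ℝ) (hg : Measurable (Function.uncurry g))
    (hB : ∀ i x, |g i x| ≤ B) : IntervalIntegrable (fun i => ∫ x in i..(i + h), g i x) volume a b := by
  rw [intervalIntegrable_iff_integrableOn_Ioc_of_le hab]
  have := (bosd_win_int2 (a := a) (b := b) (h := h) g hg hB).integral_prod_left
  refine this.congr (Filter.Eventually.of_forall fun i => ?_)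
  exact (bosd_win_sub hh (g i) i).symm

/-- first marginal of the square -/
theorem bosd_win_fst {a b h B : ℝ} (hab : a ≤ b) (hh : 0 < h) (φ : ℝ → ℝ) (hφ : Measurable φ) (hB : ∀ x, |φ x| ≤ B) :
    ∫ z, φ z.1 ∂((volume.restrict (Ioc a b)).prod (volume.restrict (Ioc 0 h))) = h * ∫ i in a..b, φ i := by
  have h1 := bosd_win_int2 (a := a) (b := b) (h := h) (fun i _ => φ i) (hφ.comp measurable_fst) (fun i _ => hB i)
  rw [integral_prod _ h1, intervalIntegral.integral_of_le hab, ← integral_const_mul]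
  refine integral_congr_ae (Filter.Eventually.of_forall fun i => ?_)
  simp only
  rw [← intervalIntegral.integral_of_le hh.le, intervalIntegral.integral_const]
  simp

/-- second marginal of the square -/
theorem bosd_win_snd {r1 r2 h B : ℝ} (hh : 0 < h) (h12 : r1 + h ≤ r2 - h) (φ : ℝ → ℝ) (hφ : Measurable φ) (h0 : ∀ x, 0 ≤ φ x)
    (hB : ∀ x, φ x ≤ B) :
    ∫ z, φ (z.1 + z.2) ∂((volume.restrict (Ioc (r1 + h) (r2 - h))).prod (volume.restrict (Ioc 0 h))) ≤ h * ∫ x in r1..r2, φ x := by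
  have hB' : ∀ x, |φ x| ≤ B := fun x => by rw [abs_of_nonneg (h0 x)]; exact hB x
  have h1 := bosd_win_int2 (a := r1 + h) (b := r2 - h) (h := h) (fun _ x => φ x) (hφ.comp measurable_snd) (fun _ x => hB' x)
  have hint : ∀ c d : ℝ, IntervalIntegrable φ volume c d := bosd_ii_bdd φ hφ hB'
  rw [integral_prod_symm _ h1]
  have h2 : ∫ τ in Ioc 0 h, ∫ i in Ioc (r1 + h) (r2 - h), φ (i + τ) ≤ ∫ τ in Ioc 0 h, ∫ x in r1..r2, φ x := by
    refine setIntegral_mono_on h1.integral_prod_right (integrable_const _) measurableSet_Ioc fun τ hτ => ?_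
    rw [← intervalIntegral.integral_of_le h12, intervalIntegral.integral_comp_add_right (fun x => φ x) τ]
    refine intervalIntegral.integral_mono_interval (by linarith [hτ.1]) (by linarith) (by linarith [hτ.2])
      (Filter.Eventually.of_forall fun x => h0 x) (hint _ _)
  refine h2.trans (le_of_eq ?_)
  rw [← intervalIntegral.integral_of_le hh.le, intervalIntegral.integral_const]
  simp

/-- a monotone function of bounded oscillation is bounded -/
theorem bosd_mono_bdd {sg : ℝ} (s : ℝ → ℝ) (hsg : ∀ x y, s y - s x ≤ sg) (x : ℝ) : |s x| ≤ |s 0| + sg := by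
  have h1 := hsg 0 x
  have h2 := hsg x 0
  rw [abs_le]
  constructor
  · linarith [neg_abs_le (s 0)]
  · linarith [le_abs_self (s 0)]

/-- the integrated shift of a monotone function -/
theorem bosd_win_osc1 {a b τ sg : ℝ} (hτ : 0 ≤ τ) (s : ℝ → ℝ) (hs : Monotone s) (hsg : ∀ x y, s y - s x ≤ sg) :
    ∫ i in a..b, (s (i + τ) - s i) ≤ τ * sg := by
  have hi : ∀ c d : ℝ, IntervalIntegrable s volume c d := fun c d => hs.intervalIntegrable
  have hi' : IntervalIntegrable (fun i => s (i + τ)) volume a b :=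
    (hs.comp (fun x y hxy => by linarith : Monotone fun i : ℝ => i + τ)).intervalIntegrable
  rw [intervalIntegral.integral_sub hi' (hi _ _), intervalIntegral.integral_comp_add_right (fun x => s x) τ,
    intervalIntegral.integral_interval_sub_interval_comm (hi _ _) (hi _ _) (hi _ _)]
  -- `∫_{a+τ}^{a} s - ∫_{b+τ}^{b} s`
  have h1 : ∫ x in (a + τ)..a, s x = -∫ x in a..(a + τ), s x := intervalIntegral.integral_symm _ _
  have h2 : ∫ x in (b + τ)..b, s x = -∫ x in b..(b + τ), s x := intervalIntegral.integral_symm _ _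
  have h3 : τ * s a ≤ ∫ x in a..(a + τ), s x := by
    have := intervalIntegral.integral_mono_on (a := a) (b := a + τ) (f := fun _ => s a) (g := s) (by linarith)
      intervalIntegrable_const (hi _ _) (fun x hx => hs hx.1)
    simpa using this
  have h4 : ∫ x in b..(b + τ), s x ≤ τ * s (b + τ) := by
    have := intervalIntegral.integral_mono_on (a := b) (b := b + τ) (f := s) (g := fun _ => s (b + τ)) (by linarith)
      (hi _ _) intervalIntegrable_const (fun x hx => hs hx.2)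
    simpa using this
  have h5 := mul_le_mul_of_nonneg_left (hsg a (b + τ)) hτ
  rw [h1, h2]
  nlinarith

/-- the integrated squared shift on the square -/
theorem bosd_win_osc {a b h sg : ℝ} (hab : a ≤ b) (hh : 0 < h) (s : ℝ → ℝ) (hs : Monotone s) (hsg : ∀ x y, s y - s x ≤ sg) :
    ∫ z, (s (z.1 + z.2) - s z.1) ^ 2 ∂((volume.restrict (Ioc a b)).prod (volume.restrict (Ioc 0 h))) ≤ h * (h * sg ^ 2) := by
  have hsg0 : 0 ≤ sg := by have := hsg 0 0; simpa using this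
  have hm := hs.measurable
  have hb := bosd_mono_bdd s hsg
  have hB1 : ∀ i x : ℝ, |s x - s i| ≤ sg := fun i x => by
    rw [abs_le]; constructor
    · linarith [hsg x i]
    · exact hsg i x
  have i1 := bosd_win_int2 (a := a) (b := b) (h := h) (fun i x => s x - s i)
    ((hm.comp measurable_snd).sub (hm.comp measurable_fst)) hB1
  have i2 := bosd_win_int2 (a := a) (b := b) (h := h) (B := sg ^ 2) (fun i x => (s x - s i) ^ 2)
    (((hm.comp measurable_snd).sub (hm.comp measurable_fst)).pow_const 2) (fun i x => by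
      rw [abs_pow]; exact pow_le_pow_left₀ (abs_nonneg _) (hB1 i x) 2)
  have hae : ∀ᵐ z ∂((volume.restrict (Ioc a b)).prod (volume.restrict (Ioc (0 : ℝ) h))), 0 ≤ z.2 := by
    have : ∀ᵐ y ∂(volume.restrict (Ioc (0 : ℝ) h)), 0 ≤ y := by
      filter_upwards [ae_restrict_mem measurableSet_Ioc] with y hy using hy.1.le
    exact Measure.quasiMeasurePreserving_snd.ae this
  have h1 : ∫ z, (s (z.1 + z.2) - s z.1) ^ 2 ∂((volume.restrict (Ioc a b)).prod (volume.restrict (Ioc 0 h)))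
      ≤ ∫ z, sg * (s (z.1 + z.2) - s z.1) ∂((volume.restrict (Ioc a b)).prod (volume.restrict (Ioc 0 h))) := by
    refine integral_mono_ae i2 (i1.const_mul sg) ?_
    filter_upwards [hae] with z hz
    have h0 : 0 ≤ s (z.1 + z.2) - s z.1 := sub_nonneg.2 (hs (by linarith))
    have h2 := hsg z.1 (z.1 + z.2)
    nlinarith
  refine h1.trans ?_
  rw [integral_const_mul, integral_prod_symm _ i1]
  have h2 : ∫ τ in Ioc 0 h, ∫ i in Ioc a b, (s (i + τ) - s i) ≤ ∫ τ in Ioc 0 h, h * sg := by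
    refine setIntegral_mono_on i1.integral_prod_right (integrable_const _) measurableSet_Ioc fun τ hτ => ?_
    rw [← intervalIntegral.integral_of_le hab]
    exact (bosd_win_osc1 hτ.1.le s hs hsg).trans (mul_le_mul_of_nonneg_right hτ.2 hsg0)
  have h3 : ∫ τ in Ioc 0 h, h * sg = h * (h * sg) := by
    rw [← intervalIntegral.integral_of_le hh.le, intervalIntegral.integral_const]; simp
  rw [h3] at h2
  calc sg * ∫ τ in Ioc 0 h, ∫ i in Ioc a b, (s (i + τ) - s i) ≤ sg * (h * (h * sg)) := mul_le_mul_of_nonneg_left h2 hsg0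
    _ = h * (h * sg ^ 2) := by ring

/-- Cauchy-Schwarz for bounded measurable functions on a finite measure space -/
theorem bosd_cs {α : Type*} [MeasurableSpace α] (μ : Measure α) [IsFiniteMeasure μ] {f g : α → ℝ} {Bf Bg : ℝ}
    (hf : Measurable f) (hg : Measurable g) (hf0 : ∀ x, 0 ≤ f x) (hg0 : ∀ x, 0 ≤ g x) (hfB : ∀ x, f x ≤ Bf) (hgB : ∀ x, g x ≤ Bg) :
    ∫ x, f x * g x ∂μ ≤ Real.sqrt (∫ x, f x ^ 2 ∂μ) * Real.sqrt (∫ x, g x ^ 2 ∂μ) := by
  have hfL : MemLp f (ENNReal.ofReal 2) μ :=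
    MemLp.of_bound hf.aestronglyMeasurable Bf (Filter.Eventually.of_forall fun x => by
      rw [Real.norm_eq_abs, abs_of_nonneg (hf0 x)]; exact hfB x)
  have hgL : MemLp g (ENNReal.ofReal 2) μ :=
    MemLp.of_bound hg.aestronglyMeasurable Bg (Filter.Eventually.of_forall fun x => by
      rw [Real.norm_eq_abs, abs_of_nonneg (hg0 x)]; exact hgB x)
  have h1 := integral_mul_le_Lp_mul_Lq_of_nonneg (μ := μ) Real.HolderConjugate.two_two
    (Filter.Eventually.of_forall hf0) (Filter.Eventually.of_forall hg0) hfL hgL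
  simp only [Real.rpow_two] at h1
  rwa [← Real.sqrt_eq_rpow, ← Real.sqrt_eq_rpow] at h1

/-- `bos_win_marg` for a globally bounded nonnegative function -/
theorem bosd_win_marg_g {r1 r2 h B : ℝ} (hh : 0 < h) (F : ℝ → ℝ) (hF : Measurable F) (hF0 : ∀ x, 0 ≤ F x) (hFb : ∀ x, F x ≤ B)
    (h12 : r1 + h ≤ r2 - h) :
    ∫ i in (r1 + h)..(r2 - h), 1 / h * ∫ x in i..(i + h), F x ≤ ∫ x in r1..r2, F x := by
  have hB' : ∀ x, |F x| ≤ B := fun x => by rw [abs_of_nonneg (hF0 x)]; exact hFb x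
  rw [bosd_win_link h12 hh (fun _ x => F x) (hF.comp measurable_snd) (fun _ x => hB' x)]
  have h1 := bosd_win_snd hh h12 F hF hF0 hFb
  calc 1 / h * ∫ z, F (z.1 + z.2) ∂((volume.restrict (Ioc (r1 + h) (r2 - h))).prod (volume.restrict (Ioc 0 h)))
      ≤ 1 / h * (h * ∫ x in r1..r2, F x) := mul_le_mul_of_nonneg_left h1 (by positivity)
    _ = ∫ x in r1..r2, F x := by field_simp

/-- `bos_win_shift` for a globally monotone function of oscillation `≤ sg` -/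
theorem bosd_win_shift_g {r1 r2 h sg : ℝ} (hh : 0 < h) (s : ℝ → ℝ) (hs : Monotone s) (hsg : ∀ x y, s y - s x ≤ sg)
    (h12 : r1 + h ≤ r2 - h) :
    ∫ i in (r1 + h)..(r2 - h), 1 / h * ∫ x in i..(i + h), (s x - s i) ^ 2 ≤ h * sg ^ 2 := by
  have hm := hs.measurable
  have hB1 : ∀ i x : ℝ, |s x - s i| ≤ sg := fun i x => by
    rw [abs_le]; constructor
    · linarith [hsg x i]
    · exact hsg i x
  rw [bosd_win_link (B := sg ^ 2) h12 hh (fun i x => (s x - s i) ^ 2)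
    (((hm.comp measurable_snd).sub (hm.comp measurable_fst)).pow_const 2) (fun i x => by
      rw [abs_pow]; exact pow_le_pow_left₀ (abs_nonneg _) (hB1 i x) 2)]
  have h1 := bosd_win_osc h12 hh s hs hsg
  calc 1 / h * ∫ z, (s (z.1 + z.2) - s z.1) ^ 2 ∂((volume.restrict (Ioc (r1 + h) (r2 - h))).prod (volume.restrict (Ioc 0 h)))
      ≤ 1 / h * (h * (h * sg ^ 2)) := mul_le_mul_of_nonneg_left h1 (by positivity)
    _ = h * sg ^ 2 := by field_simp

/-- `bos_win_noise` for globally bounded functions -/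
theorem bosd_win_noise_g {r1 r2 h sg Bd Bt : ℝ} (hh : 0 < h) (d t s : ℝ → ℝ) (hd : Measurable d) (ht : Measurable t)
    (hd0 : ∀ x, 0 ≤ d x) (hdb : ∀ x, d x ≤ Bd) (ht0 : ∀ x, 0 ≤ t x) (htb : ∀ x, t x ≤ Bt)
    (hs : Monotone s) (hsg : ∀ x y, s y - s x ≤ sg) (h12 : r1 + h ≤ r2 - h) :
    ∫ i in (r1 + h)..(r2 - h), 1 / h * ∫ x in i..(i + h), (t i + t x) * (|s x - s i| + 3 * (d i + d x))
      ≤ Real.sqrt (4 * ∫ x in r1..r2, t x ^ 2) * Real.sqrt (3 * h * sg ^ 2 + 54 * ∫ x in r1..r2, d x ^ 2) := by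
  have hm := hs.measurable
  have hsg0 : 0 ≤ sg := by have := hsg 0 0; simpa using this
  have hBd0 : 0 ≤ Bd := (hd0 0).trans (hdb 0)
  have hBt0 : 0 ≤ Bt := (ht0 0).trans (htb 0)
  have hB1 : ∀ i x : ℝ, |s x - s i| ≤ sg := fun i x => by
    rw [abs_le]; constructor
    · linarith [hsg x i]
    · exact hsg i x
  set P : Measure (ℝ × ℝ) := (volume.restrict (Ioc (r1 + h) (r2 - h))).prod (volume.restrict (Ioc 0 h)) with hP
  have mU : Measurable fun z : ℝ × ℝ => t z.1 + t (z.1 + z.2) :=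
    (ht.comp measurable_fst).add (ht.comp (measurable_fst.add measurable_snd))
  have mV : Measurable fun z : ℝ × ℝ => |s (z.1 + z.2) - s z.1| + 3 * (d z.1 + d (z.1 + z.2)) :=
    (((hm.comp (measurable_fst.add measurable_snd)).sub (hm.comp measurable_fst)).abs).add
      (((hd.comp measurable_fst).add (hd.comp (measurable_fst.add measurable_snd))).const_mul 3)
  have mg : Measurable (Function.uncurry fun i x : ℝ => (t i + t x) * (|s x - s i| + 3 * (d i + d x))) :=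
    ((ht.comp measurable_fst).add (ht.comp measurable_snd)).mul
      ((((hm.comp measurable_snd).sub (hm.comp measurable_fst)).abs).add
        (((hd.comp measurable_fst).add (hd.comp measurable_snd)).const_mul 3))
  have bg : ∀ i x : ℝ, |(t i + t x) * (|s x - s i| + 3 * (d i + d x))| ≤ (Bt + Bt) * (sg + 3 * (Bd + Bd)) := fun i x => by
    rw [abs_of_nonneg (mul_nonneg (add_nonneg (ht0 i) (ht0 x))
      (add_nonneg (abs_nonneg _) (mul_nonneg (by norm_num) (add_nonneg (hd0 i) (hd0 x)))))]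
    exact mul_le_mul (add_le_add (htb i) (htb x)) (add_le_add (hB1 i x) (by linarith [hdb i, hdb x]))
      (add_nonneg (abs_nonneg _) (mul_nonneg (by norm_num) (add_nonneg (hd0 i) (hd0 x)))) (by linarith)
  rw [bosd_win_link h12 hh _ mg bg]
  have hcs := bosd_cs P (Bf := Bt + Bt) (Bg := sg + 3 * (Bd + Bd)) mU mV
    (fun z => add_nonneg (ht0 _) (ht0 _))
    (fun z => add_nonneg (abs_nonneg _) (mul_nonneg (by norm_num) (add_nonneg (hd0 _) (hd0 _))))
    (fun z => add_le_add (htb _) (htb _)) (fun z => add_le_add (hB1 _ _) (by linarith [hdb z.1, hdb (z.1 + z.2)]))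
  -- squares of bounded functions
  have sqm : ∀ {φ : ℝ → ℝ}, Measurable φ → Measurable fun x => φ x ^ 2 := fun hφ => hφ.pow_const 2
  have sqb : ∀ {φ : ℝ → ℝ} {B : ℝ}, (∀ x, 0 ≤ φ x) → (∀ x, φ x ≤ B) → ∀ x, φ x ^ 2 ≤ B ^ 2 :=
    fun h0 hB x => pow_le_pow_left₀ (h0 x) (hB x) 2
  have sqb' : ∀ {φ : ℝ → ℝ} {B : ℝ}, (∀ x, 0 ≤ φ x) → (∀ x, φ x ≤ B) → ∀ x, |φ x ^ 2| ≤ B ^ 2 :=
    fun h0 hB x => by rw [abs_of_nonneg (sq_nonneg _)]; exact sqb h0 hB x
  -- marginals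
  have fstle : ∀ {φ : ℝ → ℝ} {B : ℝ}, Measurable φ → (∀ x, 0 ≤ φ x) → (∀ x, φ x ≤ B) →
      ∫ z, φ z.1 ^ 2 ∂P ≤ h * ∫ x in r1..r2, φ x ^ 2 := fun {φ B} hφ h0 hB => by
    rw [hP, bosd_win_fst h12 hh (fun x => φ x ^ 2) (sqm hφ) (sqb' h0 hB)]
    refine mul_le_mul_of_nonneg_left ?_ hh.le
    exact intervalIntegral.integral_mono_interval (by linarith) h12 (by linarith)
      (Filter.Eventually.of_forall fun x => sq_nonneg _) (bosd_ii_bdd _ (sqm hφ) (sqb' h0 hB) _ _)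
  have sndle : ∀ {φ : ℝ → ℝ} {B : ℝ}, Measurable φ → (∀ x, 0 ≤ φ x) → (∀ x, φ x ≤ B) →
      ∫ z, φ (z.1 + z.2) ^ 2 ∂P ≤ h * ∫ x in r1..r2, φ x ^ 2 := fun {φ B} hφ h0 hB =>
    bosd_win_snd hh h12 (fun x => φ x ^ 2) (sqm hφ) (fun x => sq_nonneg _) (sqb h0 hB)
  have ifst : ∀ {φ : ℝ → ℝ} {B : ℝ}, Measurable φ → (∀ x, 0 ≤ φ x) → (∀ x, φ x ≤ B) →
      Integrable (fun z : ℝ × ℝ => φ z.1 ^ 2) P := fun {φ B} hφ h0 hB =>
    bosd_win_int2 (fun i _ => φ i ^ 2) ((sqm hφ).comp measurable_fst) (fun i _ => sqb' h0 hB i)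
  have isnd : ∀ {φ : ℝ → ℝ} {B : ℝ}, Measurable φ → (∀ x, 0 ≤ φ x) → (∀ x, φ x ≤ B) →
      Integrable (fun z : ℝ × ℝ => φ (z.1 + z.2) ^ 2) P := fun {φ B} hφ h0 hB =>
    bosd_win_int2 (fun _ x => φ x ^ 2) ((sqm hφ).comp measurable_snd) (fun _ x => sqb' h0 hB x)
  have iosc : Integrable (fun z : ℝ × ℝ => (s (z.1 + z.2) - s z.1) ^ 2) P :=
    bosd_win_int2 (B := sg ^ 2) (fun i x => (s x - s i) ^ 2)
      (((hm.comp measurable_snd).sub (hm.comp measurable_fst)).pow_const 2) (fun i x => by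
        rw [abs_pow]; exact pow_le_pow_left₀ (abs_nonneg _) (hB1 i x) 2)
  set T : ℝ := ∫ x in r1..r2, t x ^ 2 with hT
  set DD : ℝ := ∫ x in r1..r2, d x ^ 2 with hDD
  have hU : ∫ z, (t z.1 + t (z.1 + z.2)) ^ 2 ∂P ≤ h * (4 * T) := by
    have h1 : ∫ z, (t z.1 + t (z.1 + z.2)) ^ 2 ∂P ≤ ∫ z, (2 * t z.1 ^ 2 + 2 * t (z.1 + z.2) ^ 2) ∂P := by
      refine integral_mono_of_nonneg (Filter.Eventually.of_forall fun z => sq_nonneg _)
        (((ifst ht ht0 htb).const_mul 2).add ((isnd ht ht0 htb).const_mul 2)) (Filter.Eventually.of_forall fun z => ?_)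
      show (t z.1 + t (z.1 + z.2)) ^ 2 ≤ 2 * t z.1 ^ 2 + 2 * t (z.1 + z.2) ^ 2
      nlinarith [sq_nonneg (t z.1 - t (z.1 + z.2))]
    rw [integral_add ((ifst ht ht0 htb).const_mul 2) ((isnd ht ht0 htb).const_mul 2), integral_const_mul, integral_const_mul] at h1
    have h2 := fstle ht ht0 htb
    have h3 := sndle ht ht0 htb
    linarith
  have hV : ∫ z, (|s (z.1 + z.2) - s z.1| + 3 * (d z.1 + d (z.1 + z.2))) ^ 2 ∂P ≤ h * (3 * h * sg ^ 2 + 54 * DD) := by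
    have h1 : ∫ z, (|s (z.1 + z.2) - s z.1| + 3 * (d z.1 + d (z.1 + z.2))) ^ 2 ∂P
        ≤ ∫ z, (3 * (s (z.1 + z.2) - s z.1) ^ 2 + 27 * d z.1 ^ 2 + 27 * d (z.1 + z.2) ^ 2) ∂P := by
      refine integral_mono_of_nonneg (Filter.Eventually.of_forall fun z => sq_nonneg _)
        (((iosc.const_mul 3).add ((ifst hd hd0 hdb).const_mul 27)).add ((isnd hd hd0 hdb).const_mul 27))
        (Filter.Eventually.of_forall fun z => ?_)
      show (|s (z.1 + z.2) - s z.1| + 3 * (d z.1 + d (z.1 + z.2))) ^ 2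
        ≤ 3 * (s (z.1 + z.2) - s z.1) ^ 2 + 27 * d z.1 ^ 2 + 27 * d (z.1 + z.2) ^ 2
      rw [← sq_abs (s (z.1 + z.2) - s z.1)]
      set A := |s (z.1 + z.2) - s z.1|
      nlinarith [sq_nonneg (A - 3 * d z.1), sq_nonneg (A - 3 * d (z.1 + z.2)), sq_nonneg (d z.1 - d (z.1 + z.2))]
    have i12 : Integrable (fun z : ℝ × ℝ => 3 * (s (z.1 + z.2) - s z.1) ^ 2 + 27 * d z.1 ^ 2) P :=
      (iosc.const_mul 3).add ((ifst hd hd0 hdb).const_mul 27)
    rw [integral_add i12 ((isnd hd hd0 hdb).const_mul 27),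
      integral_add (iosc.const_mul 3) ((ifst hd hd0 hdb).const_mul 27), integral_const_mul, integral_const_mul, integral_const_mul] at h1
    have h2 := fstle hd hd0 hdb
    have h3 := sndle hd hd0 hdb
    have h4 := bosd_win_osc h12 hh s hs hsg
    rw [← hP] at h4
    nlinarith
  have hsq : Real.sqrt (h * (4 * T)) * Real.sqrt (h * (3 * h * sg ^ 2 + 54 * DD))
      = h * (Real.sqrt (4 * T) * Real.sqrt (3 * h * sg ^ 2 + 54 * DD)) := by
    rw [Real.sqrt_mul hh.le, Real.sqrt_mul hh.le]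
    have := Real.mul_self_sqrt hh.le
    calc Real.sqrt h * Real.sqrt (4 * T) * (Real.sqrt h * Real.sqrt (3 * h * sg ^ 2 + 54 * DD))
        = (Real.sqrt h * Real.sqrt h) * (Real.sqrt (4 * T) * Real.sqrt (3 * h * sg ^ 2 + 54 * DD)) := by ring
      _ = _ := by rw [this]
  calc 1 / h * ∫ z, (t z.1 + t (z.1 + z.2)) * (|s (z.1 + z.2) - s z.1| + 3 * (d z.1 + d (z.1 + z.2))) ∂P
      ≤ 1 / h * (Real.sqrt (h * (4 * T)) * Real.sqrt (h * (3 * h * sg ^ 2 + 54 * DD))) := by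
        refine mul_le_mul_of_nonneg_left (hcs.trans ?_) (by positivity)
        exact mul_le_mul (Real.sqrt_le_sqrt hU) (Real.sqrt_le_sqrt hV) (Real.sqrt_nonneg _) (Real.sqrt_nonneg _)
    _ = Real.sqrt (4 * T) * Real.sqrt (3 * h * sg ^ 2 + 54 * DD) := by rw [hsq]; field_simp

/-- reflection: backward windows are forward windows of the reflected functions -/
theorem bosd_win_refl {r1 r2 h : ℝ} (g : ℝ → ℝ → ℝ) :
    ∫ i in (r1 + h)..(r2 - h), 1 / h * ∫ x in (i - h)..i, g i x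
      = ∫ j in (-r2 + h)..(-r1 - h), 1 / h * ∫ y in j..(j + h), g (-j) (-y) := by
  have h1 := intervalIntegral.integral_comp_neg (a := -r2 + h) (b := -r1 - h) (fun i => 1 / h * ∫ x in (i - h)..i, g i x)
  have e1 : -(-r1 - h) = r1 + h := by ring
  have e2 : -(-r2 + h) = r2 - h := by ring
  rw [e1, e2] at h1
  rw [← h1]
  refine intervalIntegral.integral_congr fun j _ => ?_
  congr 1
  have h2 := intervalIntegral.integral_comp_neg (a := j) (b := j + h) (fun x => g (-j) x)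
  have e3 : -(j + h) = -j - h := by ring
  rw [e3] at h2
  exact h2.symm

theorem bosd_win_marg_g' {r1 r2 h B : ℝ} (hh : 0 < h) (F : ℝ → ℝ) (hF : Measurable F) (hF0 : ∀ x, 0 ≤ F x) (hFb : ∀ x, F x ≤ B)
    (h12 : r1 + h ≤ r2 - h) :
    ∫ i in (r1 + h)..(r2 - h), 1 / h * ∫ x in (i - h)..i, F x ≤ ∫ x in r1..r2, F x := by
  rw [bosd_win_refl (fun _ x => F x)]
  have key := bosd_win_marg_g (r1 := -r2) (r2 := -r1) hh (fun y => F (-y)) (hF.comp measurable_neg) (fun x => hF0 _) (fun x => hFb _)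
    (by linarith)
  rw [intervalIntegral.integral_comp_neg, neg_neg, neg_neg] at key
  exact key

theorem bosd_win_shift_g' {r1 r2 h sg : ℝ} (hh : 0 < h) (s : ℝ → ℝ) (hs : Monotone s) (hsg : ∀ x y, s y - s x ≤ sg)
    (h12 : r1 + h ≤ r2 - h) :
    ∫ i in (r1 + h)..(r2 - h), 1 / h * ∫ x in (i - h)..i, (s x - s i) ^ 2 ≤ h * sg ^ 2 := by
  rw [bosd_win_refl (fun i x => (s x - s i) ^ 2)]
  have key := bosd_win_shift_g (r1 := -r2) (r2 := -r1) hh (fun y => -s (-y)) (fun x y hxy => neg_le_neg (hs (neg_le_neg hxy)))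
    (fun x y => by have := hsg (-y) (-x); linarith) (by linarith)
  have e : ∀ j y : ℝ, (s (-y) - s (-j)) ^ 2 = (-s (-y) - -s (-j)) ^ 2 := fun j y => by ring
  simp only [e]
  exact key

theorem bosd_win_noise_g' {r1 r2 h sg Bd Bt : ℝ} (hh : 0 < h) (d t s : ℝ → ℝ) (hd : Measurable d) (ht : Measurable t)
    (hd0 : ∀ x, 0 ≤ d x) (hdb : ∀ x, d x ≤ Bd) (ht0 : ∀ x, 0 ≤ t x) (htb : ∀ x, t x ≤ Bt)
    (hs : Monotone s) (hsg : ∀ x y, s y - s x ≤ sg) (h12 : r1 + h ≤ r2 - h) :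
    ∫ i in (r1 + h)..(r2 - h), 1 / h * ∫ x in (i - h)..i, (t i + t x) * (|s x - s i| + 3 * (d i + d x))
      ≤ Real.sqrt (4 * ∫ x in r1..r2, t x ^ 2) * Real.sqrt (3 * h * sg ^ 2 + 54 * ∫ x in r1..r2, d x ^ 2) := by
  rw [bosd_win_refl (fun i x => (t i + t x) * (|s x - s i| + 3 * (d i + d x)))]
  have key := bosd_win_noise_g (r1 := -r2) (r2 := -r1) hh (fun y => d (-y)) (fun y => t (-y)) (fun y => -s (-y))
    (hd.comp measurable_neg) (ht.comp measurable_neg) (fun x => hd0 _) (fun x => hdb _) (fun x => ht0 _) (fun x => htb _)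
    (fun x y hxy => neg_le_neg (hs (neg_le_neg hxy))) (fun x y => by have := hsg (-y) (-x); linarith) (by linarith)
  rw [intervalIntegral.integral_comp_neg (fun x => t x ^ 2), intervalIntegral.integral_comp_neg (fun x => d x ^ 2),
    neg_neg, neg_neg] at key
  have e : ∀ j y : ℝ, |s (-y) - s (-j)| = |-s (-y) - -s (-j)| := fun j y => by
    rw [← abs_neg]; congr 1; ring
  simp only [e]
  exact key

/-! clamping to `[r1, r2]` -/

theorem bosd_cl_mem {r1 r2 : ℝ} (h : r1 ≤ r2) (x : ℝ) : max r1 (min x r2) ∈ Icc r1 r2 :=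
  ⟨le_max_left _ _, max_le h (min_le_right _ _)⟩

theorem bosd_cl_eq {r1 r2 x : ℝ} (hx : x ∈ Icc r1 r2) : max r1 (min x r2) = x := by
  rw [min_eq_left hx.2, max_eq_right hx.1]

theorem bosd_cl_meas (r1 r2 : ℝ) : Measurable fun x : ℝ => max r1 (min x r2) :=
  measurable_const.max (measurable_id.min measurable_const)

theorem bosd_cl_mono {r1 r2 : ℝ} (h : r1 ≤ r2) {s : ℝ → ℝ} (hs : MonotoneOn s (Icc r1 r2)) :
    Monotone fun x : ℝ => s (max r1 (min x r2)) := fun x y hxy =>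
  hs (bosd_cl_mem h x) (bosd_cl_mem h y) (max_le_max le_rfl (min_le_min hxy le_rfl))

theorem bosd_cl_osc {r1 r2 sg : ℝ} (h : r1 ≤ r2) {s : ℝ → ℝ} (hs : MonotoneOn s (Icc r1 r2)) (hsg : s r2 - s r1 ≤ sg) (x y : ℝ) :
    s (max r1 (min y r2)) - s (max r1 (min x r2)) ≤ sg := by
  have h1 := hs (bosd_cl_mem h y) (right_mem_Icc.2 h) (bosd_cl_mem h y).2
  have h2 := hs (left_mem_Icc.2 h) (bosd_cl_mem h x) (bosd_cl_mem h x).1
  linarith

theorem bosd_win_congr {r1 r2 h : ℝ} (hh : 0 < h) (h12 : r1 + h ≤ r2 - h) (g g' : ℝ → ℝ → ℝ)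
    (H : ∀ i ∈ Icc r1 r2, ∀ x ∈ Icc r1 r2, g i x = g' i x) :
    ∫ i in (r1 + h)..(r2 - h), 1 / h * ∫ x in i..(i + h), g i x = ∫ i in (r1 + h)..(r2 - h), 1 / h * ∫ x in i..(i + h), g' i x := by
  refine intervalIntegral.integral_congr fun i hi => ?_
  rw [uIcc_of_le h12] at hi
  congr 1
  refine intervalIntegral.integral_congr fun x hx => ?_
  rw [uIcc_of_le (by linarith)] at hx
  exact H i ⟨by linarith [hi.1], by linarith [hi.2]⟩ x ⟨by linarith [hi.1, hx.1], by linarith [hi.2, hx.2]⟩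

theorem bosd_win_congr' {r1 r2 h : ℝ} (hh : 0 < h) (h12 : r1 + h ≤ r2 - h) (g g' : ℝ → ℝ → ℝ)
    (H : ∀ i ∈ Icc r1 r2, ∀ x ∈ Icc r1 r2, g i x = g' i x) :
    ∫ i in (r1 + h)..(r2 - h), 1 / h * ∫ x in (i - h)..i, g i x = ∫ i in (r1 + h)..(r2 - h), 1 / h * ∫ x in (i - h)..i, g' i x := by
  refine intervalIntegral.integral_congr fun i hi => ?_
  rw [uIcc_of_le h12] at hi
  congr 1
  refine intervalIntegral.integral_congr fun x hx => ?_
  rw [uIcc_of_le (by linarith)] at hx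
  exact H i ⟨by linarith [hi.1], by linarith [hi.2]⟩ x ⟨by linarith [hi.1, hx.1], by linarith [hi.2, hx.2]⟩

theorem bosd_cl_int {r1 r2 : ℝ} (h : r1 ≤ r2) (F : ℝ → ℝ) : ∫ x in r1..r2, F (max r1 (min x r2)) = ∫ x in r1..r2, F x :=
  intervalIntegral.integral_congr fun x hx => by
    rw [uIcc_of_le h] at hx
    rw [bosd_cl_eq hx]

/-- forward windows have marginal density at most one -/
theorem bos_win_marg {r1 r2 h : ℝ} (hh : 0 < h) (F : ℝ → ℝ) (hF : Measurable F) (hF0 : ∀ x ∈ Icc r1 r2, 0 ≤ F x)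
    (hFb : ∃ B : ℝ, ∀ x ∈ Icc r1 r2, F x ≤ B) (h12 : r1 + h ≤ r2 - h) :
    ∫ i in (r1 + h)..(r2 - h), 1 / h * ∫ x in i..(i + h), F x ≤ ∫ x in r1..r2, F x := by
  obtain ⟨B, hB⟩ := hFb
  have hr : r1 ≤ r2 := by linarith
  have key := bosd_win_marg_g hh (fun x => F (max r1 (min x r2))) (hF.comp (bosd_cl_meas r1 r2)) (fun x => hF0 _ (bosd_cl_mem hr x))
    (fun x => hB _ (bosd_cl_mem hr x)) h12
  rw [bosd_cl_int hr F] at key
  rw [bosd_win_congr hh h12 (fun _ x => F x) (fun _ x => F (max r1 (min x r2))) (fun i _ x hx => by rw [bosd_cl_eq hx])]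
  exact key

/-- backward windows -/
theorem bos_win_marg' {r1 r2 h : ℝ} (hh : 0 < h) (F : ℝ → ℝ) (hF : Measurable F) (hF0 : ∀ x ∈ Icc r1 r2, 0 ≤ F x)
    (hFb : ∃ B : ℝ, ∀ x ∈ Icc r1 r2, F x ≤ B) (h12 : r1 + h ≤ r2 - h) :
    ∫ i in (r1 + h)..(r2 - h), 1 / h * ∫ x in (i - h)..i, F x ≤ ∫ x in r1..r2, F x := by
  obtain ⟨B, hB⟩ := hFb
  have hr : r1 ≤ r2 := by linarith
  have key := bosd_win_marg_g' hh (fun x => F (max r1 (min x r2))) (hF.comp (bosd_cl_meas r1 r2)) (fun x => hF0 _ (bosd_cl_mem hr x))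
    (fun x => hB _ (bosd_cl_mem hr x)) h12
  rw [bosd_cl_int hr F] at key
  rw [bosd_win_congr' hh h12 (fun _ x => F x) (fun _ x => F (max r1 (min x r2))) (fun i _ x hx => by rw [bosd_cl_eq hx])]
  exact key

/-- the integrated squared shift of a monotone function: `(s_x - s_i)² ≤ sg (s_x - s_i)`, `∫ (s(i+τ) - s(i)) di ≤ τ sg` -/
theorem bos_win_shift {r1 r2 h sg : ℝ} (hh : 0 < h) (s : ℝ → ℝ) (hs : MonotoneOn s (Icc r1 r2)) (hsg : s r2 - s r1 ≤ sg)
    (h12 : r1 + h ≤ r2 - h) :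
    ∫ i in (r1 + h)..(r2 - h), 1 / h * ∫ x in i..(i + h), (s x - s i) ^ 2 ≤ h * sg ^ 2 := by
  have hr : r1 ≤ r2 := by linarith
  have key := bosd_win_shift_g hh (fun x => s (max r1 (min x r2))) (bosd_cl_mono hr hs) (bosd_cl_osc hr hs hsg) h12
  rw [bosd_win_congr hh h12 (fun i x => (s x - s i) ^ 2) (fun i x => (s (max r1 (min x r2)) - s (max r1 (min i r2))) ^ 2)
    (fun i hi x hx => by rw [bosd_cl_eq hx, bosd_cl_eq hi])]
  exact key

theorem bos_win_shift' {r1 r2 h sg : ℝ} (hh : 0 < h) (s : ℝ → ℝ) (hs : MonotoneOn s (Icc r1 r2)) (hsg : s r2 - s r1 ≤ sg)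
    (h12 : r1 + h ≤ r2 - h) :
    ∫ i in (r1 + h)..(r2 - h), 1 / h * ∫ x in (i - h)..i, (s x - s i) ^ 2 ≤ h * sg ^ 2 := by
  have hr : r1 ≤ r2 := by linarith
  have key := bosd_win_shift_g' hh (fun x => s (max r1 (min x r2))) (bosd_cl_mono hr hs) (bosd_cl_osc hr hs hsg) h12
  rw [bosd_win_congr' hh h12 (fun i x => (s x - s i) ^ 2) (fun i x => (s (max r1 (min x r2)) - s (max r1 (min i r2))) ^ 2)
    (fun i hi x hx => by rw [bosd_cl_eq hx, bosd_cl_eq hi])]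
  exact key

/-- the integrated noise of the forward windows: Cauchy-Schwarz on `{(i,x) : i ∈ J_h, i < x < i+h}` with the measure `di dx/h` -/
theorem bos_win_noise {r1 r2 h sg : ℝ} (hh : 0 < h) (d t s : ℝ → ℝ) (hd : Measurable d) (ht : Measurable t) (hsm : Measurable s)
    (hd0 : ∀ x ∈ Icc r1 r2, 0 ≤ d x) (hdb : ∃ B : ℝ, ∀ x ∈ Icc r1 r2, d x ≤ B) (ht0 : ∀ x ∈ Icc r1 r2, 0 ≤ t x)
    (htb : ∃ B : ℝ, ∀ x ∈ Icc r1 r2, t x ≤ B) (hs : MonotoneOn s (Icc r1 r2)) (hsg : s r2 - s r1 ≤ sg) (h12 : r1 + h ≤ r2 - h) :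
    ∫ i in (r1 + h)..(r2 - h), 1 / h * ∫ x in i..(i + h), (t i + t x) * (|s x - s i| + 3 * (d i + d x))
      ≤ Real.sqrt (4 * ∫ x in r1..r2, t x ^ 2) * Real.sqrt (3 * h * sg ^ 2 + 54 * ∫ x in r1..r2, d x ^ 2) := by
  obtain ⟨Bd, hBd⟩ := hdb
  obtain ⟨Bt, hBt⟩ := htb
  have hr : r1 ≤ r2 := by linarith
  have key := bosd_win_noise_g hh (fun x => d (max r1 (min x r2))) (fun x => t (max r1 (min x r2))) (fun x => s (max r1 (min x r2)))
    (hd.comp (bosd_cl_meas r1 r2)) (ht.comp (bosd_cl_meas r1 r2)) (fun x => hd0 _ (bosd_cl_mem hr x)) (fun x => hBd _ (bosd_cl_mem hr x))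
    (fun x => ht0 _ (bosd_cl_mem hr x)) (fun x => hBt _ (bosd_cl_mem hr x)) (bosd_cl_mono hr hs) (bosd_cl_osc hr hs hsg) h12
  rw [bosd_cl_int hr (fun x => t x ^ 2), bosd_cl_int hr (fun x => d x ^ 2)] at key
  rw [bosd_win_congr hh h12 (fun i x => (t i + t x) * (|s x - s i| + 3 * (d i + d x)))
    (fun i x => (t (max r1 (min i r2)) + t (max r1 (min x r2))) * (|s (max r1 (min x r2)) - s (max r1 (min i r2))|
      + 3 * (d (max r1 (min i r2)) + d (max r1 (min x r2))))) (fun i hi x hx => by rw [bosd_cl_eq hx, bosd_cl_eq hi])]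
  exact key

theorem bos_win_noise' {r1 r2 h sg : ℝ} (hh : 0 < h) (d t s : ℝ → ℝ) (hd : Measurable d) (ht : Measurable t) (hsm : Measurable s)
    (hd0 : ∀ x ∈ Icc r1 r2, 0 ≤ d x) (hdb : ∃ B : ℝ, ∀ x ∈ Icc r1 r2, d x ≤ B) (ht0 : ∀ x ∈ Icc r1 r2, 0 ≤ t x)
    (htb : ∃ B : ℝ, ∀ x ∈ Icc r1 r2, t x ≤ B) (hs : MonotoneOn s (Icc r1 r2)) (hsg : s r2 - s r1 ≤ sg) (h12 : r1 + h ≤ r2 - h) :
    ∫ i in (r1 + h)..(r2 - h), 1 / h * ∫ x in (i - h)..i, (t i + t x) * (|s x - s i| + 3 * (d i + d x))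
      ≤ Real.sqrt (4 * ∫ x in r1..r2, t x ^ 2) * Real.sqrt (3 * h * sg ^ 2 + 54 * ∫ x in r1..r2, d x ^ 2) := by
  obtain ⟨Bd, hBd⟩ := hdb
  obtain ⟨Bt, hBt⟩ := htb
  have hr : r1 ≤ r2 := by linarith
  have key := bosd_win_noise_g' hh (fun x => d (max r1 (min x r2))) (fun x => t (max r1 (min x r2))) (fun x => s (max r1 (min x r2)))
    (hd.comp (bosd_cl_meas r1 r2)) (ht.comp (bosd_cl_meas r1 r2)) (fun x => hd0 _ (bosd_cl_mem hr x)) (fun x => hBd _ (bosd_cl_mem hr x))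
    (fun x => ht0 _ (bosd_cl_mem hr x)) (fun x => hBt _ (bosd_cl_mem hr x)) (bosd_cl_mono hr hs) (bosd_cl_osc hr hs hsg) h12
  rw [bosd_cl_int hr (fun x => t x ^ 2), bosd_cl_int hr (fun x => d x ^ 2)] at key
  rw [bosd_win_congr' hh h12 (fun i x => (t i + t x) * (|s x - s i| + 3 * (d i + d x)))
    (fun i x => (t (max r1 (min i r2)) + t (max r1 (min x r2))) * (|s (max r1 (min x r2)) - s (max r1 (min i r2))|
      + 3 * (d (max r1 (min i r2)) + d (max r1 (min x r2))))) (fun i hi x hx => by rw [bosd_cl_eq hx, bosd_cl_eq hi])]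
  exact key

/-- the scalar absorption: `𝒟 ≤ a + 64 √T √(c + 54 𝒟)` gives `𝒟 ≤ 2a + c/54 + 221184 T` -/
theorem bos_young {DD a T c : ℝ} (hD : 0 ≤ DD) (hT : 0 ≤ T) (hc : 0 ≤ c)
    (h : DD ≤ a + 32 * (Real.sqrt (4 * T) * Real.sqrt (c + 54 * DD))) : DD ≤ 2 * a + c / 54 + 221184 * T := by
  set u := Real.sqrt (4 * T) with hu
  set v := Real.sqrt (c + 54 * DD) with hv
  have hu2 : u ^ 2 = 4 * T := Real.sq_sqrt (by positivity)
  have hv2 : v ^ 2 = c + 54 * DD := Real.sq_sqrt (by positivity)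
  -- `32 u v ≤ v²/108 + 27648 u²`
  have h1 : 32 * (u * v) ≤ v ^ 2 / 108 + 27648 * u ^ 2 := by
    nlinarith [sq_nonneg (v / 108 - 16 * u * 108 / 108 * 1), sq_nonneg (v - 1728 * u)]
  rw [hu2, hv2] at h1
  linarith

/-- backward window integrals are integrable in the base point -/
theorem bosd_win_intble' {a b h B : ℝ} (hab : a ≤ b) (hh : 0 < h) (g : ℝ → ℝ → ℝ) (hg : Measurable (Function.uncurry g))
    (hB : ∀ i x, |g i x| ≤ B) : IntervalIntegrable (fun i => ∫ x in (i - h)..i, g i x) volume a b := by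
  have h1 := bosd_win_intble (a := a - h) (b := b - h) (by linarith) hh (fun j x => g (j + h) x)
    (hg.comp ((measurable_fst.add_const h).prodMk measurable_snd)) (fun j x => hB _ _)
  have h2 := h1.comp_sub_right h
  simpa using h2

/-- Jensen on a window -/
theorem bosd_jensen {a h B : ℝ} (hh : 0 < h) (f : ℝ → ℝ) (hf : Measurable f) (hB : ∀ x, |f x| ≤ B) :
    (1 / h * ∫ x in a..(a + h), f x) ^ 2 ≤ 1 / h * ∫ x in a..(a + h), f x ^ 2 := by
  set m : ℝ := 1 / h * ∫ x in a..(a + h), f x with hm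
  have i1 : IntervalIntegrable f volume a (a + h) := bosd_ii_bdd f hf hB _ _
  have i2 : IntervalIntegrable (fun x => f x ^ 2) volume a (a + h) :=
    bosd_ii_bdd (B := B ^ 2) _ (hf.pow_const 2) (fun x => by rw [abs_pow]; exact pow_le_pow_left₀ (abs_nonneg _) (hB x) 2) _ _
  have h0 : 0 ≤ ∫ x in a..(a + h), (f x - m) ^ 2 := intervalIntegral.integral_nonneg (by linarith) (fun x _ => sq_nonneg _)
  have e : ∫ x in a..(a + h), (f x - m) ^ 2 = (∫ x in a..(a + h), f x ^ 2) - 2 * m * (∫ x in a..(a + h), f x) + m ^ 2 * h := by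
    have e1 : ∀ x, (f x - m) ^ 2 = f x ^ 2 - 2 * m * f x + m ^ 2 := fun x => by ring
    simp_rw [e1]
    rw [intervalIntegral.integral_add (i2.sub (i1.const_mul _)) intervalIntegrable_const,
      intervalIntegral.integral_sub i2 (i1.const_mul _), intervalIntegral.integral_const_mul, intervalIntegral.integral_const]
    simp
    ring
  have e2 : ∫ x in a..(a + h), f x = m * h := by rw [hm]; field_simp
  rw [e, e2] at h0
  have h3 : m ^ 2 * h ≤ ∫ x in a..(a + h), f x ^ 2 := by nlinarith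
  rw [one_div, inv_mul_eq_div, le_div_iff₀ hh]
  exact h3

theorem bosd_gN_meas {d t s : ℝ → ℝ} (hd : Measurable d) (ht : Measurable t) (hm : Measurable s) :
    Measurable (Function.uncurry fun i x : ℝ => (t i + t x) * (|s x - s i| + 3 * (d i + d x))) :=
  ((ht.comp measurable_fst).add (ht.comp measurable_snd)).mul
    ((((hm.comp measurable_snd).sub (hm.comp measurable_fst)).abs).add
      (((hd.comp measurable_fst).add (hd.comp measurable_snd)).const_mul 3))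

theorem bosd_gN_bdd {d t s : ℝ → ℝ} {sg Bd Bt : ℝ} (hd0 : ∀ x, 0 ≤ d x) (hdb : ∀ x, d x ≤ Bd) (ht0 : ∀ x, 0 ≤ t x) (htb : ∀ x, t x ≤ Bt)
    (hsg : ∀ x y, s y - s x ≤ sg) (i x : ℝ) :
    |(t i + t x) * (|s x - s i| + 3 * (d i + d x))| ≤ (Bt + Bt) * (sg + 3 * (Bd + Bd)) := by
  have hBt0 : 0 ≤ Bt := (ht0 0).trans (htb 0)
  have hB1 : |s x - s i| ≤ sg := by
    rw [abs_le]; constructor
    · linarith [hsg x i]
    · exact hsg i x
  rw [abs_of_nonneg (mul_nonneg (add_nonneg (ht0 i) (ht0 x))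
    (add_nonneg (abs_nonneg _) (mul_nonneg (by norm_num) (add_nonneg (hd0 i) (hd0 x)))))]
  exact mul_le_mul (add_le_add (htb i) (htb x)) (add_le_add hB1 (by linarith [hdb i, hdb x]))
    (add_nonneg (abs_nonneg _) (mul_nonneg (by norm_num) (add_nonneg (hd0 i) (hd0 x)))) (by linarith)

/-- `bos_sw_det` for globally bounded functions -/
theorem bosd_sw_det_g {r1 r2 h k0 R sg Bt Bw : ℝ} (h12 : r1 ≤ r2) (hh : 0 < h) (hk0 : 0 < k0) (d t s w : ℝ → ℝ)
    (hd : Measurable d) (ht : Measurable t) (hw : Measurable w)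
    (hd0 : ∀ x, 0 ≤ d x) (hdR : ∀ x, d x ≤ R) (ht0 : ∀ x, 0 ≤ t x) (htb : ∀ x, t x ≤ Bt)
    (hs : Monotone s) (hsg : ∀ x y, s y - s x ≤ sg) (hw0 : ∀ x, 0 ≤ w x) (hwb : ∀ x, w x ≤ Bw)
    (hpt : ∀ i ∈ Icc (r1 + h) (r2 - h), d i ^ 2 ≤ t i ^ 2 + 16 * (bosSideF d t s w k0 i i (i + h) + bosSideF d t s w k0 i (i - h) i)) :
    ∫ x in r1..r2, d x ^ 2 ≤ 4 * h * R ^ 2 + 17 * h * sg ^ 2 + 64 * (∫ x in r1..r2, w x) / (k0 * h) + 221186 * ∫ x in r1..r2, t x ^ 2 := by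
  have hm := hs.measurable
  have hsg0 : 0 ≤ sg := by have := hsg 0 0; simpa using this
  have hR0 : 0 ≤ R := (hd0 0).trans (hdR 0)
  have hB1 : ∀ i x : ℝ, |s x - s i| ≤ sg := fun i x => by
    rw [abs_le]; constructor
    · linarith [hsg x i]
    · exact hsg i x
  have d2b : ∀ x, |d x ^ 2| ≤ R ^ 2 := fun x => by
    rw [abs_of_nonneg (sq_nonneg _)]; exact pow_le_pow_left₀ (hd0 x) (hdR x) 2
  have t2b : ∀ x, |t x ^ 2| ≤ Bt ^ 2 := fun x => by
    rw [abs_of_nonneg (sq_nonneg _)]; exact pow_le_pow_left₀ (ht0 x) (htb x) 2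
  have wb : ∀ x, |w x| ≤ Bw := fun x => by rw [abs_of_nonneg (hw0 x)]; exact hwb x
  have id2 : ∀ a b : ℝ, IntervalIntegrable (fun x => d x ^ 2) volume a b := bosd_ii_bdd _ (hd.pow_const 2) d2b
  have it2 : ∀ a b : ℝ, IntervalIntegrable (fun x => t x ^ 2) volume a b := bosd_ii_bdd _ (ht.pow_const 2) t2b
  have iw : ∀ a b : ℝ, IntervalIntegrable w volume a b := bosd_ii_bdd _ hw wb
  set DD : ℝ := ∫ x in r1..r2, d x ^ 2 with hDD
  set T : ℝ := ∫ x in r1..r2, t x ^ 2 with hT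
  set Wt : ℝ := ∫ x in r1..r2, w x with hWt
  have hDD0 : 0 ≤ DD := intervalIntegral.integral_nonneg h12 fun x _ => sq_nonneg _
  have hT0 : 0 ≤ T := intervalIntegral.integral_nonneg h12 fun x _ => sq_nonneg _
  have hWt0 : 0 ≤ Wt := intervalIntegral.integral_nonneg h12 fun x _ => hw0 x
  have hWq0 : 0 ≤ Wt / (k0 * h) := div_nonneg hWt0 (by positivity)
  have hseg : ∀ a b : ℝ, a ≤ b → ∫ x in a..b, d x ^ 2 ≤ (b - a) * R ^ 2 := fun a b hab => by
    have := intervalIntegral.integral_mono_on (g := fun _ => R ^ 2) hab (id2 a b) intervalIntegrable_const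
      (fun x _ => pow_le_pow_left₀ (hd0 x) (hdR x) 2)
    simpa using this
  have e64 : 64 * Wt / (k0 * h) = 64 * (Wt / (k0 * h)) := by ring
  rw [e64]
  by_cases hJ : r1 + h ≤ r2 - h
  swap
  · rw [not_le] at hJ
    have h1 := hseg r1 r2 h12
    have h2 : (r2 - r1) * R ^ 2 ≤ 2 * h * R ^ 2 := mul_le_mul_of_nonneg_right (by linarith) (sq_nonneg _)
    have h3 : 0 ≤ h * R ^ 2 := by positivity
    have h4 : 0 ≤ h * sg ^ 2 := by positivity
    nlinarith
  -- the six window functions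
  have mN := bosd_gN_meas hd ht hm
  have bN := bosd_gN_bdd hd0 hdR ht0 htb hsg
  have mW : Measurable (Function.uncurry fun _ x : ℝ => w x) := hw.comp measurable_snd
  have mQ : Measurable (Function.uncurry fun i x : ℝ => (s x - s i) ^ 2) :=
    ((hm.comp measurable_snd).sub (hm.comp measurable_fst)).pow_const 2
  have bQ : ∀ i x : ℝ, |(s x - s i) ^ 2| ≤ sg ^ 2 := fun i x => by
    rw [abs_pow]; exact pow_le_pow_left₀ (abs_nonneg _) (hB1 i x) 2
  have iNf := (bosd_win_intble hJ hh _ mN bN).const_mul (1 / h)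
  have iNb := (bosd_win_intble' hJ hh _ mN bN).const_mul (1 / h)
  have iWf := (bosd_win_intble hJ hh _ mW (fun _ x => wb x)).const_mul (1 / h)
  have iWb := (bosd_win_intble' hJ hh _ mW (fun _ x => wb x)).const_mul (1 / h)
  have iQf := (bosd_win_intble hJ hh _ mQ bQ).const_mul (1 / h)
  have iQb := (bosd_win_intble' hJ hh _ mQ bQ).const_mul (1 / h)
  -- pointwise
  have hpt' : ∀ i ∈ Icc (r1 + h) (r2 - h), d i ^ 2 ≤
      t i ^ 2 + 16 * (1 / h * ∫ x in i..(i + h), (t i + t x) * (|s x - s i| + 3 * (d i + d x)))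
        + 16 * (1 / h * ∫ x in (i - h)..i, (t i + t x) * (|s x - s i| + 3 * (d i + d x)))
        + 16 / (k0 * h) * (1 / h * ∫ x in i..(i + h), w x) + 16 / (k0 * h) * (1 / h * ∫ x in (i - h)..i, w x)
        + 4 * (1 / h * ∫ x in i..(i + h), (s x - s i) ^ 2) + 4 * (1 / h * ∫ x in (i - h)..i, (s x - s i) ^ 2) := fun i hi => by
    have h1 := hpt i hi
    unfold bosSideF at h1
    rw [add_sub_cancel_left, sub_sub_cancel] at h1
    have j1 := bosd_jensen (a := i) hh (fun x => s x - s i) (hm.sub_const _) (fun x => hB1 i x)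
    have j2 := bosd_jensen (a := i - h) hh (fun x => s x - s i) (hm.sub_const _) (fun x => hB1 i x)
    rw [sub_add_cancel] at j2
    have e1 : 1 / (k0 * h ^ 2) * (∫ x in i..(i + h), w x) = 1 / (k0 * h) * (1 / h * ∫ x in i..(i + h), w x) := by
      field_simp
    have e2 : 1 / (k0 * h ^ 2) * (∫ x in (i - h)..i, w x) = 1 / (k0 * h) * (1 / h * ∫ x in (i - h)..i, w x) := by
      field_simp
    rw [e1, e2] at h1
    have e3 : 16 / (k0 * h) = 16 * (1 / (k0 * h)) := by ring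
    rw [e3]
    linarith
  have hint := intervalIntegral.integral_mono_on hJ (id2 _ _)
    (((((((it2 (r1 + h) (r2 - h)).add (iNf.const_mul 16)).add (iNb.const_mul 16)).add (iWf.const_mul (16 / (k0 * h)))).add
      (iWb.const_mul (16 / (k0 * h)))).add (iQf.const_mul 4)).add (iQb.const_mul 4)) hpt'
  rw [intervalIntegral.integral_add ((((((it2 (r1 + h) (r2 - h)).add (iNf.const_mul 16)).add (iNb.const_mul 16)).add
        (iWf.const_mul (16 / (k0 * h)))).add (iWb.const_mul (16 / (k0 * h)))).add (iQf.const_mul 4)) (iQb.const_mul 4),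
    intervalIntegral.integral_add (((((it2 (r1 + h) (r2 - h)).add (iNf.const_mul 16)).add (iNb.const_mul 16)).add
        (iWf.const_mul (16 / (k0 * h)))).add (iWb.const_mul (16 / (k0 * h)))) (iQf.const_mul 4),
    intervalIntegral.integral_add ((((it2 (r1 + h) (r2 - h)).add (iNf.const_mul 16)).add (iNb.const_mul 16)).add
        (iWf.const_mul (16 / (k0 * h)))) (iWb.const_mul (16 / (k0 * h))),
    intervalIntegral.integral_add (((it2 (r1 + h) (r2 - h)).add (iNf.const_mul 16)).add (iNb.const_mul 16))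
        (iWf.const_mul (16 / (k0 * h))),
    intervalIntegral.integral_add ((it2 (r1 + h) (r2 - h)).add (iNf.const_mul 16)) (iNb.const_mul 16),
    intervalIntegral.integral_add (it2 (r1 + h) (r2 - h)) (iNf.const_mul 16)] at hint
  simp only [intervalIntegral.integral_const_mul] at hint
  have bT : ∫ x in (r1 + h)..(r2 - h), t x ^ 2 ≤ T :=
    intervalIntegral.integral_mono_interval (by linarith) hJ (by linarith) (Filter.Eventually.of_forall fun x => sq_nonneg _) (it2 _ _)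
  have bNf := bosd_win_noise_g hh d t s hd ht hd0 hdR ht0 htb hs hsg hJ
  have bNb := bosd_win_noise_g' hh d t s hd ht hd0 hdR ht0 htb hs hsg hJ
  have bWf := bosd_win_marg_g hh w hw hw0 hwb hJ
  have bWb := bosd_win_marg_g' hh w hw hw0 hwb hJ
  have bQf := bosd_win_shift_g hh s hs hsg hJ
  have bQb := bosd_win_shift_g' hh s hs hsg hJ
  rw [← hT, ← hDD] at bNf bNb
  rw [← hWt] at bWf bWb
  have hc0 : 0 ≤ 16 / (k0 * h) := by positivity
  have bWf' := mul_le_mul_of_nonneg_left bWf hc0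
  have bWb' := mul_le_mul_of_nonneg_left bWb hc0
  have eW : 16 / (k0 * h) * Wt = 16 * (Wt / (k0 * h)) := by ring
  rw [eW] at bWf' bWb'
  simp only [intervalIntegral.integral_const_mul] at bNf bNb bWf' bWb' bQf bQb
  -- the three pieces
  have hsplit : DD = (∫ x in r1..(r1 + h), d x ^ 2) + (∫ x in (r1 + h)..(r2 - h), d x ^ 2) + ∫ x in (r2 - h)..r2, d x ^ 2 := by
    rw [hDD, intervalIntegral.integral_add_adjacent_intervals (id2 _ _) (id2 _ _),
      intervalIntegral.integral_add_adjacent_intervals (id2 _ _) (id2 _ _)]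
  have p1 := hseg r1 (r1 + h) (by linarith)
  have p3 := hseg (r2 - h) r2 (by linarith)
  have p1' : ∫ x in r1..(r1 + h), d x ^ 2 ≤ h * R ^ 2 := by
    have e : r1 + h - r1 = h := by ring
    rwa [e] at p1
  have p3' : ∫ x in (r2 - h)..r2, d x ^ 2 ≤ h * R ^ 2 := by
    have e : r2 - (r2 - h) = h := by ring
    rwa [e] at p3
  have hy := bos_young (a := 2 * (h * R ^ 2) + T + 32 * (Wt / (k0 * h)) + 8 * (h * sg ^ 2)) (c := 3 * h * sg ^ 2) hDD0 hT0
    (by positivity) (by linarith)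
  have h4 : 0 ≤ h * sg ^ 2 := by positivity
  linarith

theorem bosd_side_congr {r1 r2 k0 i a b : ℝ} (d t s w : ℝ → ℝ) (hab : a ≤ b) (ha : r1 ≤ a) (hb : b ≤ r2) (hi : i ∈ Icc r1 r2) :
    bosSideF (fun x => d (max r1 (min x r2))) (fun x => t (max r1 (min x r2))) (fun x => s (max r1 (min x r2)))
      (fun x => w (max r1 (min x r2))) k0 i a b = bosSideF d t s w k0 i a b := by
  have hx : ∀ x ∈ uIcc a b, max r1 (min x r2) = x := fun x hx => by
    rw [uIcc_of_le hab] at hx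
    exact bosd_cl_eq ⟨ha.trans hx.1, hx.2.trans hb⟩
  unfold bosSideF
  have e1 : ∫ x in a..b, (t (max r1 (min i r2)) + t (max r1 (min x r2))) * (|s (max r1 (min x r2)) - s (max r1 (min i r2))|
      + 3 * (d (max r1 (min i r2)) + d (max r1 (min x r2)))) = ∫ x in a..b, (t i + t x) * (|s x - s i| + 3 * (d i + d x)) :=
    intervalIntegral.integral_congr fun x h => by rw [hx x h, bosd_cl_eq hi]
  have e2 : ∫ x in a..b, w (max r1 (min x r2)) = ∫ x in a..b, w x :=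
    intervalIntegral.integral_congr fun x h => by rw [hx x h]
  have e3 : ∫ x in a..b, (s (max r1 (min x r2)) - s (max r1 (min i r2))) = ∫ x in a..b, (s x - s i) :=
    intervalIntegral.integral_congr fun x h => by rw [hx x h, bosd_cl_eq hi]
  simp only [e1, e2, e3]

/-- **the deterministic sliding estimate** -/
theorem bos_sw_det {r1 r2 h k0 R sg : ℝ} (h12 : r1 ≤ r2) (hh : 0 < h) (hk0 : 0 < k0) (d t s w : ℝ → ℝ)
    (hd : Measurable d) (ht : Measurable t) (hsm : Measurable s) (hw : Measurable w)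
    (hd0 : ∀ x ∈ Icc r1 r2, 0 ≤ d x) (hdR : ∀ x ∈ Icc r1 r2, d x ≤ R) (ht0 : ∀ x ∈ Icc r1 r2, 0 ≤ t x)
    (htb : ∃ B : ℝ, ∀ x ∈ Icc r1 r2, t x ≤ B) (hs : MonotoneOn s (Icc r1 r2)) (hsg : s r2 - s r1 ≤ sg)
    (hw0 : ∀ x ∈ Icc r1 r2, 0 ≤ w x) (hwb : ∃ B : ℝ, ∀ x ∈ Icc r1 r2, w x ≤ B)
    (hpt : ∀ i ∈ Icc (r1 + h) (r2 - h), d i ^ 2 ≤ t i ^ 2 + 16 * (bosSideF d t s w k0 i i (i + h) + bosSideF d t s w k0 i (i - h) i)) :
    ∫ x in r1..r2, d x ^ 2 ≤ 4 * h * R ^ 2 + 17 * h * sg ^ 2 + 64 * (∫ x in r1..r2, w x) / (k0 * h) + 221186 * ∫ x in r1..r2, t x ^ 2 := by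
  obtain ⟨Bt, hBt⟩ := htb
  obtain ⟨Bw, hBw⟩ := hwb
  have key := bosd_sw_det_g h12 hh hk0 (fun x => d (max r1 (min x r2))) (fun x => t (max r1 (min x r2)))
    (fun x => s (max r1 (min x r2))) (fun x => w (max r1 (min x r2)))
    (hd.comp (bosd_cl_meas r1 r2)) (ht.comp (bosd_cl_meas r1 r2)) (hw.comp (bosd_cl_meas r1 r2))
    (fun x => hd0 _ (bosd_cl_mem h12 x)) (fun x => hdR _ (bosd_cl_mem h12 x)) (fun x => ht0 _ (bosd_cl_mem h12 x))
    (fun x => hBt _ (bosd_cl_mem h12 x)) (bosd_cl_mono h12 hs) (bosd_cl_osc h12 hs hsg) (fun x => hw0 _ (bosd_cl_mem h12 x))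
    (fun x => hBw _ (bosd_cl_mem h12 x)) (fun i hi => by
      have hi' : i ∈ Icc r1 r2 := ⟨by linarith [hi.1], by linarith [hi.2]⟩
      rw [bosd_side_congr d t s w (by linarith) hi'.1 (by linarith [hi.2]) hi',
        bosd_side_congr d t s w (by linarith) (by linarith [hi.1]) hi'.2 hi']
      rw [bosd_cl_eq hi']
      exact hpt i hi)
  rw [bosd_cl_int h12 (fun x => d x ^ 2), bosd_cl_int h12 (fun x => t x ^ 2), bosd_cl_int h12 w] at key
  exact key

/-! ### 1d. the exit -/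

/-- **EXIT: THE SLIDING ESTIMATE on a coordinate** (LL l.362-433; l.481-487; l.1545-1585 in radius AND in the nonfloor coordinate).   TEX[LL:bud:outer-second] -/
theorem bos_sw_gen (hX : X.Ok) (hA : BosCo al ϖ L) {r1 r2 k0 sg R h : ℝ} (h1 : 0 ≤ r1) (h12 : r1 ≤ r2) (h2 : r2 ≤ L)
    (hk0 : 0 < k0) (hk : ∀ᵐ u ∂volume, u ∈ Ioo (al r1) (al r2) → ϖ u ≤ 1 / k0)
    (hsg : X.S (al r2) - X.S (al r1) ≤ sg) (hR : ∀ x ∈ Icc r1 r2, X.D (al x) ≤ R) (hh : 0 < h) :
    ∫ x in r1..r2, X.D (al x) ^ 2 ≤ 4 * h * R ^ 2 + 17 * h * sg ^ 2 + 64 * (∫ x in r1..r2, X.TW (al x)) / (k0 * h)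
      + 221186 * ∫ x in r1..r2, X.TC (al x) := by
  have mem : ∀ x ∈ Icc r1 r2, al x ∈ Icc (0 : ℝ) 1 := fun x hx => hA.al_mem x ⟨h1.trans hx.1, hx.2.trans h2⟩
  have hdet := bos_sw_det (r1 := r1) (r2 := r2) (h := h) (k0 := k0) (R := R) (sg := sg) h12 hh hk0
    (fun x => X.D (al x)) (fun x => Real.sqrt (X.TC (al x))) (fun x => X.S (al x)) (fun x => X.TW (al x))
    (hX.D_meas.comp hA.al_meas) (hX.TC_meas.comp hA.al_meas).sqrt (hX.S_meas.comp hA.al_meas) (hX.TW_meas.comp hA.al_meas)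
    (fun x hx => hX.D_nn _ (mem x hx)) hR (fun x _ => Real.sqrt_nonneg _)
    ⟨1, fun x hx => Real.sqrt_le_one.2 (hX.TC_le _ (mem x hx))⟩
    (fun x hx y hy hxy => hX.S_mono (mem x hx) (mem y hy)
      (hA.al_mono.monotoneOn ⟨h1.trans hx.1, hx.2.trans h2⟩ ⟨h1.trans hy.1, hy.2.trans h2⟩ hxy))
    hsg (fun x hx => hX.TW_nn _ (mem x hx)) ⟨1, fun x hx => hX.TW_le _ (mem x hx)⟩
    (fun i hi => by
      have hm := bos_master_rad hX hA h1 h2 hk0 hk hh hi
      have hiI : i ∈ Icc r1 r2 := ⟨by linarith [hi.1], by linarith [hi.2]⟩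
      rw [Real.sq_sqrt (hX.TC_nn _ (mem i hiI))]
      exact hm)
  have e : ∫ x in r1..r2, Real.sqrt (X.TC (al x)) ^ 2 = ∫ x in r1..r2, X.TC (al x) := by
    apply intervalIntegral.integral_congr
    intro x hx
    rw [uIcc_of_le h12] at hx
    simp only
    rw [Real.sq_sqrt (hX.TC_nn _ (mem x hx))]
  rw [e] at hdet
  exact hdet

/-- the generalised inverse of the primitive of a bounded density on `[0,1]` -/
theorem bos_co_exists_aux {ρ : ℝ → ℝ} (hm : Measurable ρ) (h0 : ∀ u, 0 ≤ ρ u) (hB : ∃ B : ℝ, ∀ u, ρ u ≤ B) :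
    ∃ al : ℝ → ℝ, Monotone al ∧ (∀ x, al x ∈ Icc (0 : ℝ) 1) ∧
      (∀ x ∈ Icc (0 : ℝ) (∫ u in (0 : ℝ)..1, ρ u), ∫ u in (0 : ℝ)..(al x), ρ u = x) ∧
      (∀ x ≤ ∫ u in (0 : ℝ)..1, ρ u, ∀ c ∈ Icc (0 : ℝ) 1, x ≤ ∫ u in (0 : ℝ)..c, ρ u → al x ≤ c) ∧
      ∀ a b : ℝ, IntervalIntegrable ρ volume a b := by
  obtain ⟨B, hB⟩ := hB
  have hloc : LocallyIntegrable ρ volume := by
    refine (locallyIntegrable_const B).mono hm.aestronglyMeasurable (Filter.Eventually.of_forall fun u => ?_)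
    rw [Real.norm_eq_abs, Real.norm_eq_abs, abs_of_nonneg (h0 u)]
    exact (hB u).trans (le_abs_self B)
  have hint : ∀ a b : ℝ, IntervalIntegrable ρ volume a b := fun a b =>
    intervalIntegrable_iff.mpr ((hloc.integrableOn_isCompact isCompact_uIcc).mono_set uIoc_subset_uIcc)
  have hGc : Continuous fun v => ∫ u in (0 : ℝ)..v, ρ u := intervalIntegral.continuous_primitive hint 0
  have hGmono : ∀ v w : ℝ, v ≤ w → ∫ u in (0 : ℝ)..v, ρ u ≤ ∫ u in (0 : ℝ)..w, ρ u := by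
    intro v w hvw
    have h1 := intervalIntegral.integral_interval_sub_left (hint 0 w) (hint 0 v)
    have h2 : 0 ≤ ∫ u in v..w, ρ u := intervalIntegral.integral_nonneg hvw (fun u _ => h0 u)
    linarith
  let S : ℝ → Set ℝ := fun x => Icc (0 : ℝ) 1 ∩ (fun v => ∫ u in (0 : ℝ)..v, ρ u) ⁻¹' Ici (min x (∫ u in (0 : ℝ)..1, ρ u))
  have hScl : ∀ x, IsClosed (S x) := fun x => isClosed_Icc.inter (isClosed_Ici.preimage hGc)
  have hSne : ∀ x, (S x).Nonempty := fun x => ⟨1, ⟨zero_le_one, le_rfl⟩, by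
    rw [mem_preimage, mem_Ici]; exact min_le_right _ _⟩
  have hSbd : ∀ x, BddBelow (S x) := fun x => ⟨0, fun v hv => hv.1.1⟩
  have hSmem : ∀ x, sInf (S x) ∈ S x := fun x => (hScl x).csInf_mem (hSne x) (hSbd x)
  refine ⟨fun x => sInf (S x), ?_, fun x => (hSmem x).1, ?_, ?_, hint⟩
  · intro x y hxy
    refine csInf_le_csInf (hSbd x) (hSne y) (fun v hv => ⟨hv.1, ?_⟩)
    exact (min_le_min_right _ hxy).trans hv.2
  · intro x hx
    have h1 : x ≤ ∫ u in (0 : ℝ)..(sInf (S x)), ρ u := by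
      have := (hSmem x).2
      rwa [mem_preimage, mem_Ici, min_eq_left hx.2] at this
    refine le_antisymm ?_ h1
    have hivt := intermediate_value_Icc (zero_le_one' ℝ) hGc.continuousOn
    have hx' : x ∈ Icc (∫ u in (0 : ℝ)..0, ρ u) (∫ u in (0 : ℝ)..1, ρ u) := by
      rw [intervalIntegral.integral_same]; exact hx
    obtain ⟨v, hv, hvx⟩ := hivt hx'
    have hvS : v ∈ S x := ⟨hv, by rw [mem_preimage, mem_Ici, min_eq_left hx.2]; exact hvx.ge⟩
    exact (hGmono _ _ (csInf_le (hSbd x) hvS)).trans hvx.le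
  · intro x hx c hc hxc
    exact csInf_le (hSbd x) ⟨hc, by rw [mem_preimage, mem_Ici, min_eq_left hx]; exact hxc⟩

/-- **existence of the coordinate of a bounded density** `ρ` on `[0,1]`: `al x = inf {v ∈ [0,1] : x ≤ ∫_0^v ρ}`   (LL l.1573: `ρ = 1_nonfloor`) -/
theorem bos_co_exists {ρ : ℝ → ℝ} (hm : Measurable ρ) (h0 : ∀ u, 0 ≤ ρ u) (hB : ∃ B : ℝ, ∀ u, ρ u ≤ B) :
    ∃ al : ℝ → ℝ, BosCo al ρ (∫ u in (0 : ℝ)..1, ρ u) ∧ ∀ x ∈ Icc (0 : ℝ) (∫ u in (0 : ℝ)..1, ρ u), ∫ u in (0 : ℝ)..(al x), ρ u = x := by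
  obtain ⟨al, hmono, hmem, hGal, hgal, hint⟩ := bos_co_exists_aux hm h0 hB
  have hGmono : ∀ v w : ℝ, v ≤ w → ∫ u in (0 : ℝ)..v, ρ u ≤ ∫ u in (0 : ℝ)..w, ρ u := by
    intro v w hvw
    have h1 := intervalIntegral.integral_interval_sub_left (hint 0 w) (hint 0 v)
    have h2 : 0 ≤ ∫ u in v..w, ρ u := intervalIntegral.integral_nonneg hvw (fun u _ => h0 u)
    linarith
  refine ⟨al, ⟨hmono.measurable, ?_, fun x _ => hmem x, hm, h0, hB, ?_⟩, hGal⟩
  · intro x hx y hy hxy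
    refine lt_of_le_of_ne (hmono hxy.le) (fun he => ?_)
    have h1 := hGal x hx
    have h2 := hGal y hy
    rw [he] at h1
    linarith
  · intro F hF _ a b ha hab hb
    have haL : a ∈ Icc (0 : ℝ) (∫ u in (0 : ℝ)..1, ρ u) := ⟨ha, hab.trans hb⟩
    have hbL : b ∈ Icc (0 : ℝ) (∫ u in (0 : ℝ)..1, ρ u) := ⟨ha.trans hab, hb⟩
    have hmeq : Measure.map al (volume.restrict (Ioc a b))
        = (volume.restrict (Ioc (al a) (al b))).withDensity (fun u => ENNReal.ofReal (ρ u)) := by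
      have : IsFiniteMeasure (Measure.map al (volume.restrict (Ioc a b))) := by
        constructor
        rw [Measure.map_apply hmono.measurable MeasurableSet.univ]
        simp
      refine Measure.ext_of_Iic _ _ (fun c => ?_)
      have hm1 : al a ≤ max (al a) (min (al b) c) := le_max_left _ _
      have hm2 : max (al a) (min (al b) c) ≤ al b := max_le (hmono hab) (min_le_left _ _)
      generalize hmdef : max (al a) (min (al b) c) = mm at hm1 hm2
      have hmm01 : mm ∈ Icc (0 : ℝ) 1 := ⟨(hmem a).1.trans hm1, hm2.trans (hmem b).2⟩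
      have hGmb : ∫ u in (0 : ℝ)..mm, ρ u ≤ b := by
        have := hGmono mm (al b) hm2
        rwa [hGal b hbL] at this
      have hset1 : al ⁻¹' Iic c ∩ Ioc a b = Ioc a (∫ u in (0 : ℝ)..mm, ρ u) := by
        ext x
        constructor
        · rintro ⟨hxc, hxa, hxb⟩
          have hxL : x ∈ Icc (0 : ℝ) (∫ u in (0 : ℝ)..1, ρ u) := ⟨ha.trans hxa.le, hxb.trans hb⟩
          refine ⟨hxa, ?_⟩
          have h1 : al x ≤ mm := by
            rw [← hmdef]
            exact le_max_of_le_right (le_min (hmono hxb) hxc)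
          have := hGmono _ _ h1
          rwa [hGal x hxL] at this
        · rintro ⟨hxa, hxm⟩
          have hxb : x ≤ b := hxm.trans hGmb
          refine ⟨?_, hxa, hxb⟩
          have h1 : al x ≤ mm := hgal x (hxb.trans hb) mm hmm01 hxm
          have h2 : al a < mm := by
            by_contra hcon
            have h3 : mm = al a := le_antisymm (not_lt.1 hcon) hm1
            rw [h3, hGal a haL] at hxm
            exact absurd hxa (not_lt.2 hxm)
          rw [← hmdef] at h1 h2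
          rcases lt_max_iff.1 h2 with h4 | h4
          · exact absurd h4 (lt_irrefl _)
          · have h5 : max (al a) (min (al b) c) = min (al b) c := max_eq_right h4.le
            rw [h5] at h1
            exact h1.trans (min_le_right _ _)
      have hset2 : Iic c ∩ Ioc (al a) (al b) = Ioc (al a) mm := by
        ext u
        constructor
        · rintro ⟨huc, hua, hub⟩
          refine ⟨hua, ?_⟩
          rw [← hmdef]
          exact le_max_of_le_right (le_min hub huc)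
        · rintro ⟨hua, hum⟩
          have h2 : al a < mm := hua.trans_le hum
          rw [← hmdef] at hum h2
          rcases lt_max_iff.1 h2 with h4 | h4
          · exact absurd h4 (lt_irrefl _)
          · have h5 : max (al a) (min (al b) c) = min (al b) c := max_eq_right h4.le
            rw [h5] at hum
            exact ⟨hum.trans (min_le_right _ _), hua, hum.trans (min_le_left _ _)⟩
      rw [Measure.map_apply hmono.measurable measurableSet_Iic, Measure.restrict_apply (hmono.measurable measurableSet_Iic), hset1,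
        withDensity_apply _ measurableSet_Iic, Measure.restrict_restrict measurableSet_Iic, hset2, Real.volume_Ioc,
        ← ofReal_integral_eq_lintegral_ofReal ((intervalIntegrable_iff_integrableOn_Ioc_of_le hm1).1 (hint _ _))
          (Filter.Eventually.of_forall h0), ← intervalIntegral.integral_of_le hm1,
        ← intervalIntegral.integral_interval_sub_left (hint 0 mm) (hint 0 (al a)), hGal a haL]
    rw [intervalIntegral.integral_of_le hab, ← integral_Ioc_eq_integral_Ioo,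
      ← integral_map hmono.measurable.aemeasurable hF.aestronglyMeasurable, hmeq,
      integral_withDensity_eq_integral_toReal_smul hm.ennreal_ofReal (Filter.Eventually.of_forall fun _ => ENNReal.ofReal_lt_top)]
    refine integral_congr_ae (Filter.Eventually.of_forall fun u => ?_)
    simp only [ENNReal.toReal_ofReal (h0 u), smul_eq_mul, mul_comm]

end sliding

variable {al r kb ef : ℝ → ℝ} {M cn Lp : ℝ} {X : CmNum} {Z : CmCaps}

/-! ## 2. The radius coordinate of a `BosGeo` -/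

/-- a measurable function bounded on `[0,1]` is interval integrable on the subintervals of `[0,1]` -/
theorem bos_al_slope_int {F : ℝ → ℝ} (hm : Measurable F) {B : ℝ} (h0 : ∀ u ∈ Icc (0 : ℝ) 1, 0 ≤ F u) (h1 : ∀ u ∈ Icc (0 : ℝ) 1, F u ≤ B)
    {s t : ℝ} (hs : 0 ≤ s) (hst : s ≤ t) (ht : t ≤ 1) : IntervalIntegrable F volume s t := by
  rw [intervalIntegrable_iff_integrableOn_Icc_of_le hst]
  exact cm_g_intOn hm h0 h1 (Icc_subset_Icc hs ht)

theorem bos_al_slope (hG : BosGeo al r kb ef M cn Lp X Z) :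
    ∃ kmin : ℝ, 0 < kmin ∧ ∀ s t : ℝ, 0 ≤ s → s ≤ t → t ≤ 1 → kmin * (t - s) ≤ al t - al s := by
  obtain ⟨kmin, hk0, hk⟩ := hG.kb_pos
  refine ⟨kmin, hk0, fun s t hs hst ht => ?_⟩
  have hsub : Icc s t ⊆ Icc (0 : ℝ) 1 := Icc_subset_Icc hs ht
  have hle := intervalIntegral.integral_mono_on (μ := volume) hst (intervalIntegrable_const (c := kmin))
    (bos_al_slope_int hG.kb_meas (B := M) (fun x hx => hk0.le.trans (hk x hx)) hG.kb_le hs hst ht)
    (fun x hx => hk x (hsub hx))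
  rw [intervalIntegral.integral_const, smul_eq_mul, mul_comm] at hle
  exact hle.trans (hG.lo s t hs hst ht)

theorem bos_al_strictMono (hG : BosGeo al r kb ef M cn Lp X Z) : StrictMonoOn al (Icc 0 1) := by
  obtain ⟨kmin, hk0, hk⟩ := bos_al_slope hG
  intro s hs t ht hst
  have := hk s t hs.1 hst.le ht.2
  have h2 : 0 < kmin * (t - s) := mul_pos hk0 (sub_pos.2 hst)
  linarith

theorem bos_al_cont_lip (hG : BosGeo al r kb ef M cn Lp X Z) : LipschitzOnWith (Real.toNNReal M) al (Icc 0 1) := by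
  have hM0 : 0 ≤ M := by linarith [hG.M1]
  apply LipschitzOnWith.of_dist_le_mul
  intro x hx y hy
  have hm := (bos_al_strictMono hG).monotoneOn
  rw [Real.dist_eq, Real.dist_eq, Real.coe_toNNReal _ hM0]
  rcases le_total x y with hxy | hxy
  · rw [abs_sub_comm, abs_of_nonneg (sub_nonneg.2 (hm hx hy hxy)), abs_sub_comm,
      abs_of_nonneg (sub_nonneg.2 hxy)]
    exact hG.hi x y hx.1 hxy hy.2
  · rw [abs_of_nonneg (sub_nonneg.2 (hm hy hx hxy)), abs_of_nonneg (sub_nonneg.2 hxy)]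
    exact hG.hi y x hy.1 hxy hx.2

theorem bos_al_cont (hG : BosGeo al r kb ef M cn Lp X Z) : ContinuousOn al (Icc 0 1) := by
  exact (bos_al_cont_lip hG).continuousOn

theorem bos_al_mem (hG : BosGeo al r kb ef M cn Lp X Z) {t : ℝ} (ht : t ∈ Icc (0 : ℝ) 1) : al t ∈ Icc (0 : ℝ) 1 := by
  have hm := (bos_al_strictMono hG).monotoneOn
  have h0 := hm (left_mem_Icc.2 zero_le_one) ht ht.1
  have h1 := hm ht (right_mem_Icc.2 zero_le_one) ht.2
  rw [hG.al_zero] at h0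
  rw [hG.al_one] at h1
  exact ⟨h0, h1⟩

theorem bos_r_mono (hG : BosGeo al r kb ef M cn Lp X Z) : StrictMonoOn r (Icc 0 1) := by
  intro u hu v hv huv
  by_contra hcon
  have h := (bos_al_strictMono hG).monotoneOn (hG.r_mem v hv) (hG.r_mem u hu) (not_lt.1 hcon)
  rw [hG.al_r u hu, hG.al_r v hv] at h
  exact absurd huv (not_lt.2 h)

theorem bos_al_image_Icc (hG : BosGeo al r kb ef M cn Lp X Z) {s t : ℝ} (hs : 0 ≤ s) (hst : s ≤ t) (ht : t ≤ 1) :
    al '' Icc s t = Icc (al s) (al t) := by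
  have hs1 : s ∈ Icc (0 : ℝ) 1 := ⟨hs, hst.trans ht⟩
  have ht1 : t ∈ Icc (0 : ℝ) 1 := ⟨hs.trans hst, ht⟩
  have hm := (bos_al_strictMono hG).monotoneOn
  have hrm := (bos_r_mono hG).monotoneOn
  apply Subset.antisymm
  · rintro _ ⟨x, hx, rfl⟩
    have hx1 : x ∈ Icc (0 : ℝ) 1 := ⟨hs.trans hx.1, hx.2.trans ht⟩
    exact ⟨hm hs1 hx1 hx.1, hm hx1 ht1 hx.2⟩
  · intro u hu
    have hu1 : u ∈ Icc (0 : ℝ) 1 := ⟨(bos_al_mem hG hs1).1.trans hu.1, hu.2.trans (bos_al_mem hG ht1).2⟩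
    refine ⟨r u, ⟨?_, ?_⟩, hG.al_r u hu1⟩
    · have := hrm (bos_al_mem hG hs1) hu1 hu.1
      rwa [hG.r_al s hs1] at this
    · have := hrm hu1 (bos_al_mem hG ht1) hu.2
      rwa [hG.r_al t ht1] at this

theorem bos_al_image_Ioo (hG : BosGeo al r kb ef M cn Lp X Z) {s t : ℝ} (hs : 0 ≤ s) (hst : s ≤ t) (ht : t ≤ 1) :
    al '' Ioo s t = Ioo (al s) (al t) := by
  have hs1 : s ∈ Icc (0 : ℝ) 1 := ⟨hs, hst.trans ht⟩
  have ht1 : t ∈ Icc (0 : ℝ) 1 := ⟨hs.trans hst, ht⟩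
  have hm := bos_al_strictMono hG
  have hrm := bos_r_mono hG
  apply Subset.antisymm
  · rintro _ ⟨x, hx, rfl⟩
    have hx1 : x ∈ Icc (0 : ℝ) 1 := ⟨hs.trans hx.1.le, hx.2.le.trans ht⟩
    exact ⟨hm hs1 hx1 hx.1, hm hx1 ht1 hx.2⟩
  · intro u hu
    have hu1 : u ∈ Icc (0 : ℝ) 1 := ⟨(bos_al_mem hG hs1).1.trans hu.1.le, hu.2.le.trans (bos_al_mem hG ht1).2⟩
    refine ⟨r u, ⟨?_, ?_⟩, hG.al_r u hu1⟩
    · have := hrm (bos_al_mem hG hs1) hu1 hu.1
      rwa [hG.r_al s hs1] at this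
    · have := hrm hu1 (bos_al_mem hG ht1) hu.2
      rwa [hG.r_al t ht1] at this

theorem bos_co_of_geo_rlip (hG : BosGeo al r kb ef M cn Lp X Z) : ∃ K : NNReal, LipschitzOnWith K r (Icc 0 1) := by
  obtain ⟨kmin, hk0, hk⟩ := bos_al_slope hG
  refine ⟨Real.toNNReal (1 / kmin), ?_⟩
  have key : ∀ x ∈ Icc (0 : ℝ) 1, ∀ y ∈ Icc (0 : ℝ) 1, x ≤ y → r y - r x ≤ 1 / kmin * (y - x) := by
    intro x hx y hy hxy
    have h := hk (r x) (r y) (hG.r_mem x hx).1 ((bos_r_mono hG).monotoneOn hx hy hxy) (hG.r_mem y hy).2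
    rw [hG.al_r x hx, hG.al_r y hy] at h
    rw [one_div, inv_mul_eq_div, le_div_iff₀ hk0]
    linarith
  apply LipschitzOnWith.of_dist_le_mul
  intro x hx y hy
  have hm := (bos_r_mono hG).monotoneOn
  rw [Real.dist_eq, Real.dist_eq, Real.coe_toNNReal _ (by positivity)]
  rcases le_total x y with hxy | hxy
  · rw [abs_sub_comm, abs_of_nonneg (sub_nonneg.2 (hm hx hy hxy)), abs_sub_comm,
      abs_of_nonneg (sub_nonneg.2 hxy)]
    exact key x hx y hy hxy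
  · rw [abs_of_nonneg (sub_nonneg.2 (hm hy hx hxy)), abs_of_nonneg (sub_nonneg.2 hxy)]
    exact key y hy x hx hxy

/-- **the density of the radius measure in the mass coordinate**, on all measurable sets of radii -/
theorem bos_co_of_geo_dens (hG : BosGeo al r kb ef M cn Lp X Z) :
    ∃ ϖ : ℝ → ℝ, Measurable ϖ ∧ (∀ u, 0 ≤ ϖ u) ∧ (∃ B : ℝ, ∀ u, ϖ u ≤ B) ∧
      ∀ F : ℝ → ℝ, Measurable F → ∀ A : Set ℝ, MeasurableSet A → A ⊆ Icc 0 1 →
        ∫ x in A, F (al x) = ∫ u in al '' A, F u * ϖ u := by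
  obtain ⟨K, hK⟩ := bos_co_of_geo_rlip hG
  let cl : ℝ → ℝ := fun u => max 0 (min u 1)
  have hcl_mem : ∀ u, cl u ∈ Icc (0 : ℝ) 1 := fun u => ⟨le_max_left _ _, max_le zero_le_one (min_le_right _ _)⟩
  have hcl_id : ∀ u ∈ Icc (0 : ℝ) 1, cl u = u := fun u hu => by
    simp only [cl]; rw [min_eq_left hu.2, max_eq_right hu.1]
  have hcl_mono : Monotone cl := fun a b hab => max_le_max le_rfl (min_le_min hab le_rfl)
  have hcl_lip : LipschitzWith 1 cl := (LipschitzWith.id.min_const 1).const_max 0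
  let rt : ℝ → ℝ := fun u => r (cl u)
  have hrm := bos_r_mono hG
  have hrt_mono : Monotone rt := fun a b hab => hrm.monotoneOn (hcl_mem a) (hcl_mem b) (hcl_mono hab)
  have hrt_id : ∀ u ∈ Icc (0 : ℝ) 1, rt u = r u := fun u hu => by simp only [rt, hcl_id u hu]
  have hrt_lip : LipschitzWith (K * 1) rt := by
    rw [← lipschitzOnWith_univ]
    exact hK.comp (lipschitzOnWith_univ.2 hcl_lip) (fun u _ => hcl_mem u)
  have hd0 : ∀ u, 0 ≤ deriv rt u := fun u => hrt_mono.deriv_nonneg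
  have hdb : ∀ u, deriv rt u ≤ ((K * 1 : NNReal) : ℝ) := fun u =>
    (le_abs_self _).trans (by simpa using norm_deriv_le_of_lipschitz (x₀ := u) hrt_lip)
  refine ⟨(Ioo (0 : ℝ) 1).indicator (deriv rt), (measurable_deriv rt).indicator measurableSet_Ioo,
    fun u => indicator_nonneg (fun x _ => hd0 x) u, ⟨((K * 1 : NNReal) : ℝ), fun u => ?_⟩, ?_⟩
  · by_cases hu : u ∈ Ioo (0 : ℝ) 1
    · rw [indicator_of_mem hu]; exact hdb u
    · rw [indicator_of_notMem hu]; exact NNReal.coe_nonneg _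
  · intro F _ A hA hAsub
    have hBm : MeasurableSet (al '' A) :=
      hA.image_of_continuousOn_injOn ((bos_al_cont hG).mono hAsub) ((bos_al_strictMono hG).injOn.mono hAsub)
    have hBsub : al '' A ⊆ Icc (0 : ℝ) 1 := by
      rintro _ ⟨a, ha, rfl⟩; exact bos_al_mem hG (hAsub ha)
    let Dg : Set ℝ := (al '' A ∩ Ioo (0 : ℝ) 1) ∩ {u | DifferentiableAt ℝ rt u}
    have hDgm : MeasurableSet Dg := (hBm.inter measurableSet_Ioo).inter (measurableSet_of_differentiableAt ℝ rt)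
    have hDgB : Dg ⊆ al '' A := fun u hu => hu.1.1
    have hnull : volume (al '' A \ Dg) = 0 := by
      have h1 : al '' A \ Dg ⊆ ({0} ∪ {1}) ∪ {u | ¬ DifferentiableAt ℝ rt u} := by
        rintro u ⟨huB, hun⟩
        by_cases hd : DifferentiableAt ℝ rt u
        · left
          have hu1 := hBsub huB
          by_contra hcon
          simp only [mem_union, mem_singleton_iff, not_or] at hcon
          exact hun ⟨⟨huB, lt_of_le_of_ne hu1.1 (Ne.symm hcon.1), lt_of_le_of_ne hu1.2 hcon.2⟩, hd⟩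
        · right; exact hd
      refine measure_mono_null h1 (measure_union_null (measure_union_null (by simp) (by simp)) ?_)
      exact hrt_mono.ae_differentiableAt
    have hinj : InjOn rt Dg := by
      intro a ha b hb hab
      have ha1 := hBsub (hDgB ha)
      have hb1 := hBsub (hDgB hb)
      rw [hrt_id a ha1, hrt_id b hb1] at hab
      exact hrm.injOn ha1 hb1 hab
    have hcv := integral_image_eq_integral_abs_deriv_smul hDgm (f := rt) (f' := deriv rt)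
      (fun x hx => hx.2.hasDerivAt.hasDerivWithinAt) hinj (fun x => F (al x))
    have hAe : (rt '' Dg : Set ℝ) =ᵐ[volume] A := by
      rw [ae_eq_set]
      constructor
      · have : rt '' Dg \ A = ∅ := by
          rw [sdiff_eq_empty]
          rintro _ ⟨u, hu, rfl⟩
          obtain ⟨a, ha, rfl⟩ := hDgB hu
          rw [hrt_id _ (bos_al_mem hG (hAsub ha)), hG.r_al a (hAsub ha)]
          exact ha
        rw [this]; simp
      · have hsub : A \ rt '' Dg ⊆ r '' (al '' A \ Dg) := by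
          rintro a ⟨ha, hna⟩
          refine ⟨al a, ⟨⟨a, ha, rfl⟩, fun hD => hna ⟨al a, hD, ?_⟩⟩, hG.r_al a (hAsub ha)⟩
          rw [hrt_id _ (bos_al_mem hG (hAsub ha)), hG.r_al a (hAsub ha)]
        exact measure_mono_null hsub (cm_g_lip_null hK (sdiff_subset.trans hBsub) hnull)
    have hBe : (Dg : Set ℝ) =ᵐ[volume] (al '' A : Set ℝ) := by
      rw [ae_eq_set]
      exact ⟨by rw [sdiff_eq_empty.2 hDgB]; simp, hnull⟩
    calc ∫ x in A, F (al x) = ∫ x in rt '' Dg, F (al x) := (setIntegral_congr_set hAe).symm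
      _ = ∫ u in Dg, |deriv rt u| • F (al (rt u)) := hcv
      _ = ∫ u in Dg, F u * (Ioo (0 : ℝ) 1).indicator (deriv rt) u := by
          refine setIntegral_congr_fun hDgm (fun u hu => ?_)
          have hu1 := hBsub (hDgB hu)
          rw [indicator_of_mem hu.1.2, abs_of_nonneg (hd0 u), hrt_id u hu1, hG.al_r u hu1, smul_eq_mul, mul_comm]
      _ = ∫ u in al '' A, F u * (Ioo (0 : ℝ) 1).indicator (deriv rt) u := setIntegral_congr_set hBe

/-- **the radius is a coordinate**: `ϖ = r'(u) = 1/α'(r(u))`   (`r` is Lipschitz with the constant `1/kmin`: `ϖ = deriv r` clamped; or Radon-Nikodym of `volume.map al`; see also `Tool/Box252.lean`) -/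
theorem bos_co_of_geo (hG : BosGeo al r kb ef M cn Lp X Z) : ∃ ϖ : ℝ → ℝ, BosCo al ϖ 1 := by
  obtain ⟨ϖ, hm, h0, hB, hcov⟩ := bos_co_of_geo_dens hG
  refine ⟨ϖ, hG.al_meas, bos_al_strictMono hG, fun x hx => bos_al_mem hG hx, hm, h0, hB, ?_⟩
  intro F hF _ a b ha hab hb
  rw [intervalIntegral.integral_of_le hab, integral_Ioc_eq_integral_Ioo, hcov F hF (Ioo a b) measurableSet_Ioo
    (Ioo_subset_Icc_self.trans (Icc_subset_Icc ha hb)), bos_al_image_Ioo hG ha hab hb]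

/-- local bound: where `α' ≥ k0`, `ϖ ≤ 1/k0` a.e.      (test `cov` with `F = 1`: `b - a = ∫_{α a}^{α b} ϖ`, so `∫_{u1}^{u2} ϖ ≤ (u2-u1)/k0`; Lebesgue differentiation) -/
theorem bos_dens_le (hG : BosGeo al r kb ef M cn Lp X Z) {ϖ : ℝ → ℝ} (hϖ : BosCo al ϖ 1) {k0 s t : ℝ} (hk0 : 0 < k0)
    (hs : 0 ≤ s) (hst : s ≤ t) (ht : t ≤ 1) (hk : ∀ a b : ℝ, s ≤ a → a ≤ b → b ≤ t → k0 * (b - a) ≤ al b - al a) :
    ∀ᵐ u ∂volume, u ∈ Ioo (al s) (al t) → ϖ u ≤ 1 / k0 := by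
  obtain ⟨B, hB⟩ := hϖ.bdd
  have hloc : LocallyIntegrable ϖ volume := by
    refine (locallyIntegrable_const B).mono hϖ.meas.aestronglyMeasurable (Filter.Eventually.of_forall fun u => ?_)
    rw [Real.norm_eq_abs, Real.norm_eq_abs, abs_of_nonneg (hϖ.nn u)]
    exact (hB u).trans (le_abs_self B)
  have hs1 : s ∈ Icc (0 : ℝ) 1 := ⟨hs, hst.trans ht⟩
  have ht1 : t ∈ Icc (0 : ℝ) 1 := ⟨hs.trans hst, ht⟩
  have hrm := (bos_r_mono hG).monotoneOn
  filter_upwards [_root_.LocallyIntegrable.ae_hasDerivAt_integral hloc] with u hu hmem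
  have hd := hu u
  have hu1 : u ∈ Icc (0 : ℝ) 1 := ⟨(bos_al_mem hG hs1).1.trans hmem.1.le, hmem.2.le.trans (bos_al_mem hG ht1).2⟩
  have hsl : Filter.Tendsto (slope (fun x => ∫ t in u..x, ϖ t) u) (nhdsWithin u (Ioi u)) (nhds (ϖ u)) :=
    hd.tendsto_slope.mono_left (nhdsWithin_mono u (fun x (hx : u < x) => ne_of_gt hx))
  refine le_of_tendsto hsl ?_
  have hev : ∀ᶠ v in nhdsWithin u (Ioi u), v < al t := nhdsWithin_le_nhds (Iio_mem_nhds hmem.2)
  filter_upwards [self_mem_nhdsWithin, hev] with v hv hvt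
  have huv : u < v := hv
  have hv1 : v ∈ Icc (0 : ℝ) 1 := ⟨hu1.1.trans huv.le, hvt.le.trans (bos_al_mem hG ht1).2⟩
  have hruv : r u ≤ r v := hrm hu1 hv1 huv.le
  have hsu : s ≤ r u := by
    have := hrm (bos_al_mem hG hs1) hu1 hmem.1.le
    rwa [hG.r_al s hs1] at this
  have hvt' : r v ≤ t := by
    have := hrm hv1 (bos_al_mem hG ht1) hvt.le
    rwa [hG.r_al t ht1] at this
  have hc := hϖ.cov (fun _ => 1) measurable_const ⟨1, fun _ => by simp⟩ (r u) (r v) (hG.r_mem u hu1).1 hruv (hG.r_mem v hv1).2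
  rw [hG.al_r u hu1, hG.al_r v hv1] at hc
  simp only [one_mul, intervalIntegral.integral_const, smul_eq_mul, mul_one] at hc
  have hkk := hk (r u) (r v) hsu hruv hvt'
  rw [hG.al_r u hu1, hG.al_r v hv1] at hkk
  rw [slope_def_field, intervalIntegral.integral_same, sub_zero, intervalIntegral.integral_of_le huv.le,
    integral_Ioc_eq_integral_Ioo, ← hc, div_le_div_iff₀ (sub_pos.2 huv) hk0]
  linarith

/-- the trace integrated in RADIUS over an interval -/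
theorem bos_ut_rad (hX : X.Ok) (hG : BosGeo al r kb ef M cn Lp X Z) {s t eg : ℝ} (hs : 0 ≤ s) (hst : s ≤ t) (ht : t ≤ 1)
    (heg0 : 0 < eg) (heg : ∀ x ∈ Icc s t, eg ≤ ef x) :
    ∫ x in s..t, X.TH (al x) ≤ (X.S (al t) - X.S (al s)) / (cn * eg) := by
  have hcn := hG.cn0
  have hsub : Icc s t ⊆ Icc (0 : ℝ) 1 := Icc_subset_Icc hs ht
  obtain ⟨B, hB⟩ := hG.ef_le
  have hgi : IntervalIntegrable (fun x => X.TH (al x)) volume s t :=
    bos_al_slope_int (hX.TH_meas.comp hG.al_meas) (B := 1) (fun x hx => hX.TH_nn _ (bos_al_mem hG hx))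
      (fun x hx => hX.TH_le _ (bos_al_mem hG hx)) hs hst ht
  have hgi2 : IntervalIntegrable (fun x => ef x * X.TH (al x)) volume s t :=
    bos_al_slope_int (hG.ef_meas.mul (hX.TH_meas.comp hG.al_meas)) (B := B * 1)
      (fun x hx => mul_nonneg (hG.ef_nn x hx) (hX.TH_nn _ (bos_al_mem hG hx)))
      (fun x hx => mul_le_mul (hB x hx) (hX.TH_le _ (bos_al_mem hG hx)) (hX.TH_nn _ (bos_al_mem hG hx))
        ((hG.ef_nn x hx).trans (hB x hx))) hs hst ht
  have h1 := hG.clock s t hs hst ht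
  have h2 : ∫ x in s..t, eg * X.TH (al x) ≤ ∫ x in s..t, ef x * X.TH (al x) := by
    apply intervalIntegral.integral_mono_on hst (hgi.const_mul eg) hgi2
    intro x hx
    exact mul_le_mul_of_nonneg_right (heg x hx) (hX.TH_nn _ (bos_al_mem hG (hsub hx)))
  rw [intervalIntegral.integral_const_mul] at h2
  rw [le_div_iff₀ (by positivity)]
  have h3 : cn * (eg * ∫ x in s..t, X.TH (al x)) ≤ X.S (al t) - X.S (al s) :=
    (mul_le_mul_of_nonneg_left h2 hcn.le).trans h1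
  calc (∫ x in s..t, X.TH (al x)) * (cn * eg) = cn * (eg * ∫ x in s..t, X.TH (al x)) := by ring
    _ ≤ _ := h3

/-- **EXIT: the sliding estimate in radius** (LL l.362-433, first display after "Thus the two-sided sliding estimate is").   TEX[LL:bud:outer-second] -/
theorem bos_sw (hX : X.Ok) (hG : BosGeo al r kb ef M cn Lp X Z) {r1 r2 k0 v0 e0 sg R h : ℝ} (h1 : 0 ≤ r1) (h12 : r1 ≤ r2) (h2 : r2 ≤ 1)
    (hk0 : 0 < k0) (hk : ∀ s t : ℝ, r1 ≤ s → s ≤ t → t ≤ r2 → k0 * (t - s) ≤ al t - al s)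
    (hv0 : 0 < v0) (hv : v0 ≤ al r1) (he0 : 0 < e0) (he : ∀ x ∈ Icc r1 r2, e0 ≤ ef x)
    (hsg : X.S (al r2) - X.S (al r1) ≤ sg) (hR : ∀ x ∈ Icc r1 r2, X.D (al x) ≤ R) (hh : 0 < h) :
    ∫ x in r1..r2, X.D (al x) ^ 2 ≤ bosSwR h R sg cn e0 v0 k0 := by
  obtain ⟨ϖ, hϖ⟩ := bos_co_of_geo hG
  have hmain := bos_sw_gen hX hϖ h1 h12 h2 hk0 (bos_dens_le hG hϖ hk0 h1 h12 h2 hk) hsg hR hh
  have hcn := hG.cn0
  have hsub : Icc r1 r2 ⊆ Icc (0 : ℝ) 1 := Icc_subset_Icc h1 h2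
  have hr1 : r1 ∈ Icc (0 : ℝ) 1 := ⟨h1, h12.trans h2⟩
  have hma := (bos_al_strictMono hG).monotoneOn
  have hT := bos_ut_rad hX hG h1 h12 h2 he0 he
  have hT2 : ∫ x in r1..r2, X.TH (al x) ≤ sg / (cn * e0) :=
    hT.trans (div_le_div_of_nonneg_right hsg (by positivity))
  have hiTH : IntervalIntegrable (fun x => X.TH (al x)) volume r1 r2 :=
    bos_al_slope_int (hX.TH_meas.comp hG.al_meas) (B := 1) (fun x hx => hX.TH_nn _ (bos_al_mem hG hx))
      (fun x hx => hX.TH_le _ (bos_al_mem hG hx)) h1 h12 h2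
  have hiTW : IntervalIntegrable (fun x => X.TW (al x)) volume r1 r2 :=
    bos_al_slope_int (hX.TW_meas.comp hG.al_meas) (B := 1) (fun x hx => hX.TW_nn _ (bos_al_mem hG hx))
      (fun x hx => hX.TW_le _ (bos_al_mem hG hx)) h1 h12 h2
  have hiTC : IntervalIntegrable (fun x => X.TC (al x)) volume r1 r2 :=
    bos_al_slope_int (hX.TC_meas.comp hG.al_meas) (B := 1) (fun x hx => hX.TC_nn _ (bos_al_mem hG hx))
      (fun x hx => hX.TC_le _ (bos_al_mem hG hx)) h1 h12 h2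
  have hW : ∫ x in r1..r2, X.TW (al x) ≤ 1 / v0 * ∫ x in r1..r2, X.TH (al x) := by
    rw [← intervalIntegral.integral_const_mul]
    refine intervalIntegral.integral_mono_on h12 hiTW (hiTH.const_mul _) (fun x hx => ?_)
    have hx1 := bos_al_mem hG (hsub hx)
    have hvx : v0 ≤ al x := hv.trans (hma hr1 (hsub hx) hx.1)
    have h3 := hX.tw_th _ hx1
    have h4 := mul_le_mul_of_nonneg_right hvx (hX.TW_nn _ hx1)
    rw [one_div, inv_mul_eq_div, le_div_iff₀ hv0]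
    linarith
  have hC : ∫ x in r1..r2, X.TC (al x) ≤ 1 / v0 ^ 2 * ∫ x in r1..r2, X.TH (al x) := by
    rw [← intervalIntegral.integral_const_mul]
    refine intervalIntegral.integral_mono_on h12 hiTC (hiTH.const_mul _) (fun x hx => ?_)
    have hx1 := bos_al_mem hG (hsub hx)
    have hvx : v0 ≤ al x := hv.trans (hma hr1 (hsub hx) hx.1)
    have h3 := hX.tc_th _ hx1
    have h5 : v0 ^ 2 ≤ al x ^ 2 := pow_le_pow_left₀ hv0.le hvx 2
    have h4 := mul_le_mul_of_nonneg_right h5 (hX.TC_nn _ hx1)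
    rw [one_div, inv_mul_eq_div, le_div_iff₀ (by positivity)]
    linarith
  have hW2 : ∫ x in r1..r2, X.TW (al x) ≤ sg / (cn * e0 * v0) := by
    refine hW.trans ((mul_le_mul_of_nonneg_left hT2 (by positivity)).trans (le_of_eq ?_))
    field_simp
  have hC2 : ∫ x in r1..r2, X.TC (al x) ≤ sg / (cn * e0 * v0 ^ 2) := by
    refine hC.trans ((mul_le_mul_of_nonneg_left hT2 (by positivity)).trans (le_of_eq ?_))
    field_simp
  have hsg0 : 0 ≤ sg := by
    have := hX.S_mono (bos_al_mem hG hr1) (bos_al_mem hG ⟨h1.trans h12, h2⟩) (hma hr1 ⟨h1.trans h12, h2⟩ h12)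
    linarith
  have hW3 : 64 * (∫ x in r1..r2, X.TW (al x)) / (k0 * h) ≤ 64 * (sg / (cn * e0 * v0 * k0 * h)) := by
    have : 64 * (∫ x in r1..r2, X.TW (al x)) / (k0 * h) ≤ 64 * (sg / (cn * e0 * v0)) / (k0 * h) :=
      div_le_div_of_nonneg_right (by linarith) (by positivity)
    refine this.trans (le_of_eq ?_)
    field_simp
  have a1 : 0 ≤ h * R ^ 2 := by positivity
  have a2 : 0 ≤ h * sg ^ 2 := by positivity
  have a3 : 0 ≤ sg / (cn * e0 * v0 * k0 * h) := by positivity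
  have a4 : 0 ≤ sg / (cn * e0 * v0 ^ 2) := by positivity
  unfold bosSwR
  nlinarith

/-- the optimised form: `h = (sg/(cn e0 v0 k0 (R²+sg²)))^{1/2}` -/
theorem bos_sw_opt (hX : X.Ok) (hG : BosGeo al r kb ef M cn Lp X Z) {r1 r2 k0 v0 e0 sg R : ℝ} (h1 : 0 ≤ r1) (h12 : r1 ≤ r2) (h2 : r2 ≤ 1)
    (hk0 : 0 < k0) (hk : ∀ s t : ℝ, r1 ≤ s → s ≤ t → t ≤ r2 → k0 * (t - s) ≤ al t - al s)
    (hv0 : 0 < v0) (hv : v0 ≤ al r1) (he0 : 0 < e0) (he : ∀ x ∈ Icc r1 r2, e0 ≤ ef x)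
    (hsg : X.S (al r2) - X.S (al r1) ≤ sg) (hR : ∀ x ∈ Icc r1 r2, X.D (al x) ≤ R) (hR0 : 0 < R) :
    ∫ x in r1..r2, X.D (al x) ^ 2
      ≤ 300000 * (2 * Real.sqrt ((R ^ 2 + sg ^ 2) * sg / (cn * e0 * v0 * k0)) + sg / (cn * e0 * v0 ^ 2)) := by
  have hcn := hG.cn0
  have hr1 : r1 ∈ Icc (0 : ℝ) 1 := ⟨h1, h12.trans h2⟩
  have hma := (bos_al_strictMono hG).monotoneOn
  have hsg0 : 0 ≤ sg := by
    have := hX.S_mono (bos_al_mem hG hr1) (bos_al_mem hG ⟨h1.trans h12, h2⟩) (hma hr1 ⟨h1.trans h12, h2⟩ h12)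
    linarith
  have key : ∀ h : ℝ, 0 < h → ∫ x in r1..r2, X.D (al x) ^ 2 ≤ bosSwR h R sg cn e0 v0 k0 :=
    fun h hh => bos_sw hX hG h1 h12 h2 hk0 hk hv0 hv he0 he hsg hR hh
  rcases hsg0.eq_or_lt with h0 | hpos
  · have hsg' : sg = 0 := h0.symm
    rw [hsg'] at key ⊢
    have hz : (300000 : ℝ) * (2 * Real.sqrt ((R ^ 2 + 0 ^ 2) * 0 / (cn * e0 * v0 * k0)) + 0 / (cn * e0 * v0 ^ 2)) = 0 := by simp
    rw [hz]
    refine le_of_forall_pos_le_add fun ε hε => ?_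
    have h3 := key (ε / (300000 * R ^ 2)) (by positivity)
    have e : bosSwR (ε / (300000 * R ^ 2)) R 0 cn e0 v0 k0 = ε := by
      unfold bosSwR
      simp only [zero_div, add_zero]
      field_simp
      ring
    rw [e] at h3
    linarith
  · have hcpos : 0 < cn * e0 * v0 * k0 := by positivity
    have hA : 0 < R ^ 2 + sg ^ 2 := by positivity
    have hs : 0 < Real.sqrt ((R ^ 2 + sg ^ 2) * sg / (cn * e0 * v0 * k0)) := Real.sqrt_pos.2 (by positivity)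
    have hs2 : Real.sqrt ((R ^ 2 + sg ^ 2) * sg / (cn * e0 * v0 * k0)) * Real.sqrt ((R ^ 2 + sg ^ 2) * sg / (cn * e0 * v0 * k0))
        = (R ^ 2 + sg ^ 2) * sg / (cn * e0 * v0 * k0) := Real.mul_self_sqrt (by positivity)
    generalize Real.sqrt ((R ^ 2 + sg ^ 2) * sg / (cn * e0 * v0 * k0)) = s at hs hs2 ⊢
    have h3 := key (s / (R ^ 2 + sg ^ 2)) (by positivity)
    have e : bosSwR (s / (R ^ 2 + sg ^ 2)) R sg cn e0 v0 k0 = 300000 * (2 * s + sg / (cn * e0 * v0 ^ 2)) := by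
      unfold bosSwR
      have e1 : s / (R ^ 2 + sg ^ 2) * (R ^ 2 + sg ^ 2) = s := by field_simp
      have e2 : sg / (cn * e0 * v0 * k0 * (s / (R ^ 2 + sg ^ 2))) = s := by
        rw [eq_comm, eq_div_iff (by positivity)]
        calc s * (cn * e0 * v0 * k0 * (s / (R ^ 2 + sg ^ 2))) = (s * s) * (cn * e0 * v0 * k0) / (R ^ 2 + sg ^ 2) := by ring
          _ = sg := by rw [hs2]; field_simp
      rw [e1, e2]; ring
    rw [e] at h3
    exact h3

/-! ## 3. Units and traces on a `BosGeo`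
LL l.360: "use the whole-cap trace and bracket estimates PE (20)-(21), with cap width `≤ M_j⁻¹`, (C6) giving the same `ΔS` and contact hypotheses".
Mirror of `Cmp/P6Geo.lean` (helper294), sections 1-3.  SAME PROOFS, simpler: the cap density is constant, so a complete cap is always an ordinary unit:
`∫_{cap} TH du = M ∫ TH(α x) dx ≤ M · 3 Lp ℓ/(cn eg) = (3 Lp/(cn eg)) · mass`. -/

/-! ### 3a. transport by `α` -/

/-- `α` maps null sets to null sets (`M`-Lipschitz on `[0,1]`) -/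
theorem bos_al_null (hG : BosGeo al r kb ef M cn Lp X Z) {s : Set ℝ} (hs : s ⊆ Icc 0 1) (h0 : volume s = 0) :
    volume (al '' s) = 0 := by
  exact cm_g_lip_null (bos_al_cont_lip hG) hs h0

/-- `α` maps measurable sets to measurable sets (`al '' s = Icc 0 1 ∩ r ⁻¹' s`) -/
theorem bos_al_meas (hG : BosGeo al r kb ef M cn Lp X Z) {s : Set ℝ} (hs : s ⊆ Icc 0 1) (hm : MeasurableSet s) :
    MeasurableSet (al '' s) := by
  exact hm.image_of_continuousOn_injOn ((bos_al_cont hG).mono hs) ((bos_al_strictMono hG).injOn.mono hs)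

/-- the three kinds of points cover the masses -/
theorem bos_cover_mass (hG : BosGeo al r kb ef M cn Lp X Z) :
    volume (Icc (0 : ℝ) 1 \ ((⋃ i, Z.capM al i) ∪ al '' Z.Fl ∪ al '' Z.Ct)) = 0 := by
  have h0 := bos_al_null hG (s := Icc (0 : ℝ) 1 \ (Z.caps ∪ Z.Fl ∪ Z.Ct)) sdiff_subset hG.cover
  refine measure_mono_null ?_ h0
  rintro u ⟨hu, hn⟩
  refine ⟨r u, ⟨hG.r_mem u hu, ?_⟩, hG.al_r u hu⟩
  rintro ((hcap | hfl) | hct)
  · obtain ⟨i, hi⟩ := mem_iUnion.1 hcap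
    apply hn
    refine Or.inl (Or.inl (mem_iUnion.2 ⟨i, ?_⟩))
    have hm := bos_al_strictMono hG
    have a1 := hm ⟨hG.cap_lo i, (hG.cap_le i).trans (hG.cap_hi i)⟩ (hG.r_mem u hu) hi.1
    have a2 := hm (hG.r_mem u hu) ⟨(hG.cap_lo i).trans (hG.cap_le i), hG.cap_hi i⟩ hi.2
    rw [hG.al_r u hu] at a1 a2
    exact ⟨a1, a2⟩
  · exact hn (Or.inl (Or.inr ⟨r u, hfl, hG.al_r u hu⟩))
  · exact hn (Or.inr ⟨r u, hct, hG.al_r u hu⟩)

theorem bos_floor_mass_set (hG : BosGeo al r kb ef M cn Lp X Z) {u1 u2 : ℝ} (h1 : 0 ≤ u1) (h12 : u1 ≤ u2) (h2 : u2 ≤ 1) :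
    al '' Z.Fl ∩ Icc u1 u2 = al '' (Z.Fl ∩ Icc (r u1) (r u2)) := by
  have hu1 : u1 ∈ Icc (0 : ℝ) 1 := ⟨h1, h12.trans h2⟩
  have hu2 : u2 ∈ Icc (0 : ℝ) 1 := ⟨h1.trans h12, h2⟩
  have hm := (bos_r_mono hG).monotoneOn
  have hma := (bos_al_strictMono hG).monotoneOn
  apply Subset.antisymm
  · rintro _ ⟨⟨a, ha, rfl⟩, hau⟩
    have ha1 := hG.fl_sub ha
    have hal := bos_al_mem hG ha1
    refine ⟨a, ⟨ha, ?_, ?_⟩, rfl⟩
    · have := hm hu1 hal hau.1
      rwa [hG.r_al a ha1] at this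
    · have := hm hal hu2 hau.2
      rwa [hG.r_al a ha1] at this
  · rintro _ ⟨a, ⟨ha, hau⟩, rfl⟩
    have ha1 := hG.fl_sub ha
    refine ⟨⟨a, ha, rfl⟩, ?_, ?_⟩
    · have := hma (hG.r_mem u1 hu1) ha1 hau.1
      rwa [hG.al_r u1 hu1] at this
    · have := hma ha1 (hG.r_mem u2 hu2) hau.2
      rwa [hG.al_r u2 hu2] at this

/-- floor mass in a mass interval -/
theorem bos_floor_mass (hG : BosGeo al r kb ef M cn Lp X Z) {u1 u2 : ℝ} (h1 : 0 ≤ u1) (h12 : u1 ≤ u2) (h2 : u2 ≤ 1) :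
    volume (al '' Z.Fl ∩ Icc u1 u2) ≤ ENNReal.ofReal (∫ x in (r u1)..(r u2), kb x) := by
  rw [bos_floor_mass_set hG h1 h12 h2]
  have hu1 : u1 ∈ Icc (0 : ℝ) 1 := ⟨h1, h12.trans h2⟩
  have hu2 : u2 ∈ Icc (0 : ℝ) 1 := ⟨h1.trans h12, h2⟩
  have h := hG.fl_dens (fun _ => 1) measurable_const (fun _ => zero_le_one) ⟨1, fun _ => le_rfl⟩ (r u1) (r u2) (hG.r_mem u1 hu1).1
    ((bos_r_mono hG).monotoneOn hu1 hu2 h12) (hG.r_mem u2 hu2).2
  have hfin : volume (al '' (Z.Fl ∩ Icc (r u1) (r u2))) ≠ ⊤ := by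
    rw [← bos_floor_mass_set hG h1 h12 h2]
    exact ((measure_mono inter_subset_right).trans_lt (by simp)).ne
  simp only [one_mul] at h
  rw [setIntegral_const, smul_eq_mul, mul_one] at h
  exact (ENNReal.le_ofReal_iff_toReal_le hfin (measureReal_nonneg.trans h)).2 h

/-- an integral over the floor part of a mass interval, in the radius coordinate -/
theorem bos_floor_int (hG : BosGeo al r kb ef M cn Lp X Z) {u1 u2 : ℝ} (h1 : 0 ≤ u1) (h12 : u1 ≤ u2) (h2 : u2 ≤ 1)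
    (F : ℝ → ℝ) (hF : Measurable F) (hF0 : ∀ u, 0 ≤ F u) (hFb : ∃ B : ℝ, ∀ u, F u ≤ B) :
    ∫ u in al '' Z.Fl ∩ Icc u1 u2, F u ≤ ∫ x in (r u1)..(r u2), F (al x) * kb x := by
  rw [bos_floor_mass_set hG h1 h12 h2]
  have hu1 : u1 ∈ Icc (0 : ℝ) 1 := ⟨h1, h12.trans h2⟩
  have hu2 : u2 ∈ Icc (0 : ℝ) 1 := ⟨h1.trans h12, h2⟩
  exact hG.fl_dens F hF hF0 hFb (r u1) (r u2) (hG.r_mem u1 hu1).1 ((bos_r_mono hG).monotoneOn hu1 hu2 h12) (hG.r_mem u2 hu2).2

/-! ### 3b. caps in the mass coordinate, unit labels -/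

theorem bos_cL_mem (hG : BosGeo al r kb ef M cn Lp X Z) (i : ℕ) : Z.cL i ∈ Icc (0 : ℝ) 1 :=
  ⟨hG.cap_lo i, (hG.cap_le i).trans (hG.cap_hi i)⟩

theorem bos_cR_mem (hG : BosGeo al r kb ef M cn Lp X Z) (i : ℕ) : Z.cR i ∈ Icc (0 : ℝ) 1 :=
  ⟨(hG.cap_lo i).trans (hG.cap_le i), hG.cap_hi i⟩

theorem bos_cap_sub (hG : BosGeo al r kb ef M cn Lp X Z) (i : ℕ) : Icc (Z.cL i) (Z.cR i) ⊆ Icc (0 : ℝ) 1 :=
  fun _ ht => ⟨(hG.cap_lo i).trans ht.1, ht.2.trans (hG.cap_hi i)⟩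

theorem bos_capM_sub (hG : BosGeo al r kb ef M cn Lp X Z) (i : ℕ) : Z.capM al i ⊆ Icc 0 1 := by
  intro u hu
  exact ⟨(bos_al_mem hG (bos_cL_mem hG i)).1.trans hu.1.le, hu.2.le.trans (bos_al_mem hG (bos_cR_mem hG i)).2⟩

theorem bos_capM_image (hG : BosGeo al r kb ef M cn Lp X Z) (i : ℕ) : Z.capM al i = al '' Ioo (Z.cL i) (Z.cR i) :=
  (bos_al_image_Ioo hG (hG.cap_lo i) (hG.cap_le i) (hG.cap_hi i)).symm

theorem bos_capM_disj (hG : BosGeo al r kb ef M cn Lp X Z) : Pairwise fun i j => Disjoint (Z.capM al i) (Z.capM al j) := by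
  intro i j hij
  rw [bos_capM_image hG i, bos_capM_image hG j, Set.disjoint_left]
  rintro _ ⟨a, ha, rfl⟩ ⟨b, hb, hab⟩
  have ha1 : a ∈ Icc (0 : ℝ) 1 := bos_cap_sub hG i ⟨ha.1.le, ha.2.le⟩
  have hb1 : b ∈ Icc (0 : ℝ) 1 := bos_cap_sub hG j ⟨hb.1.le, hb.2.le⟩
  have := (bos_al_strictMono hG).injOn hb1 ha1 hab
  subst this
  exact Set.disjoint_left.1 (hG.cap_disj hij) ha hb

theorem bos_capM_ct (hG : BosGeo al r kb ef M cn Lp X Z) (i : ℕ) : Disjoint (Z.capM al i) (al '' Z.Ct) := by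
  rw [bos_capM_image hG i, Set.disjoint_left]
  rintro _ ⟨a, ha, rfl⟩ ⟨b, hb, hab⟩
  have ha1 : a ∈ Icc (0 : ℝ) 1 := bos_cap_sub hG i ⟨ha.1.le, ha.2.le⟩
  have hb1 : b ∈ Icc (0 : ℝ) 1 := ⟨(hG.ct_sub hb).1.le, (hG.ct_sub hb).2⟩
  have := (bos_al_strictMono hG).injOn hb1 ha1 hab
  subst this
  exact Set.disjoint_left.1 hG.ct_disj hb (mem_iUnion.2 ⟨i, ha⟩)

/-- mass of a cap -/
theorem bos_cap_mass (hG : BosGeo al r kb ef M cn Lp X Z) (i : ℕ) : al (Z.cR i) - al (Z.cL i) = M * Z.len i :=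
  hG.cap_eq i _ _ le_rfl (hG.cap_le i) le_rfl

/-- radius width of a cap -/
theorem bos_cap_len (hG : BosGeo al r kb ef M cn Lp X Z) (i : ℕ) : Z.len i ≤ 1 / M := by
  have hM : 0 < M := by linarith [hG.M1]
  rw [le_div_iff₀ hM, mul_comm, ← bos_cap_mass hG i]
  linarith [(bos_al_mem hG (bos_cL_mem hG i)).1, (bos_al_mem hG (bos_cR_mem hG i)).2]

theorem bos_lab_cap (hG : BosGeo al r kb ef M cn Lp X Z) {i : ℕ} {u : ℝ} (hu : u ∈ Z.capM al i) :
    Z.lab al u = (al (Z.cL i) + al (Z.cR i)) / 2 := by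
  have hex : ∃ i, u ∈ Z.capM al i := ⟨i, hu⟩
  have hi : hex.choose = i := by
    by_contra hne
    exact Set.disjoint_left.1 (bos_capM_disj hG hne) hex.choose_spec hu
  unfold CmCaps.lab
  rw [dif_pos hex, hi]

theorem bos_lab_mem (hG : BosGeo al r kb ef M cn Lp X Z) {i : ℕ} {u : ℝ} (hu : u ∈ Z.capM al i) : Z.lab al u ∈ Z.capM al i := by
  rw [bos_lab_cap hG hu]
  have h1 : al (Z.cL i) < al (Z.cR i) := hu.1.trans hu.2
  exact ⟨by linarith, by linarith⟩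

theorem bos_lab_mono (hG : BosGeo al r kb ef M cn Lp X Z) : Monotone (Z.lab al) := by
  intro u v huv
  by_cases hu : ∃ i, u ∈ Z.capM al i
  · obtain ⟨i, hi⟩ := hu
    by_cases hvi : v ∈ Z.capM al i
    · rw [bos_lab_cap hG hi, bos_lab_cap hG hvi]
    · have hvR : al (Z.cR i) ≤ v := by
        by_contra hcon
        push Not at hcon
        exact hvi ⟨lt_of_lt_of_le hi.1 huv, hcon⟩
      have h1 := (bos_lab_mem hG hi).2
      by_cases hv : ∃ j, v ∈ Z.capM al j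
      · obtain ⟨j, hj⟩ := hv
        have hij : i ≠ j := by rintro rfl; exact hvi hj
        have hLR : al (Z.cR i) ≤ al (Z.cL j) := by
          by_contra hcon
          push Not at hcon
          have hd := Set.disjoint_left.1 (bos_capM_disj hG hij)
          have hlt : max (al (Z.cL i)) (al (Z.cL j)) < min (al (Z.cR i)) (al (Z.cR j)) := by
            apply max_lt <;> apply lt_min
            · exact hi.1.trans hi.2
            · exact lt_of_lt_of_le hi.1 (huv.trans hj.2.le)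
            · exact hcon
            · exact hj.1.trans hj.2
          obtain ⟨w, hw1, hw2⟩ := exists_between hlt
          exact hd ⟨(le_max_left _ _).trans_lt hw1, hw2.trans_le (min_le_left _ _)⟩
            ⟨(le_max_right _ _).trans_lt hw1, hw2.trans_le (min_le_right _ _)⟩
        have h2 := (bos_lab_mem hG hj).1
        linarith
      · push Not at hv
        rw [cm_lab_out hv]
        linarith
  · push Not at hu
    rw [cm_lab_out hu]
    by_cases hv : ∃ j, v ∈ Z.capM al j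
    · obtain ⟨j, hj⟩ := hv
      have huL : u ≤ al (Z.cL j) := by
        by_contra hcon
        push Not at hcon
        exact hu j ⟨hcon, lt_of_le_of_lt huv hj.2⟩
      have h2 := (bos_lab_mem hG hj).1
      linarith
    · push Not at hv
      rw [cm_lab_out hv]
      exact huv

theorem bos_lab_meas (hG : BosGeo al r kb ef M cn Lp X Z) : Measurable (Z.lab al) :=
  (bos_lab_mono hG).measurable

/-- equal labels: the same point or the same cap -/
theorem bos_lab_eq (hG : BosGeo al r kb ef M cn Lp X Z) {u v : ℝ} (h : Z.lab al u = Z.lab al v) :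
    u = v ∨ ∃ i, u ∈ Z.capM al i ∧ v ∈ Z.capM al i := by
  by_cases hu : ∃ i, u ∈ Z.capM al i
  · obtain ⟨i, hi⟩ := hu
    have h1 := bos_lab_mem hG hi
    by_cases hv : ∃ j, v ∈ Z.capM al j
    · obtain ⟨j, hj⟩ := hv
      have h2 := bos_lab_mem hG hj
      have hij : i = j := by
        by_contra hne
        rw [h] at h1
        exact Set.disjoint_left.1 (bos_capM_disj hG hne) h1 h2
      subst hij
      exact Or.inr ⟨i, hi, hj⟩
    · push Not at hv
      rw [h, cm_lab_out hv] at h1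
      exact absurd h1 (hv i)
  · push Not at hu
    by_cases hv : ∃ j, v ∈ Z.capM al j
    · obtain ⟨j, hj⟩ := hv
      have h2 := bos_lab_mem hG hj
      rw [← h, cm_lab_out hu] at h2
      exact absurd h2 (hu j)
    · push Not at hv
      rw [cm_lab_out hu, cm_lab_out hv] at h
      exact Or.inl h

/-- oscillation of `S` inside a cap, mass coordinate -/
theorem bos_cap_osc (hX : X.Ok) (hG : BosGeo al r kb ef M cn Lp X Z) {i : ℕ} {u v : ℝ} (hu : u ∈ Z.capM al i) (hv : v ∈ Z.capM al i) :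
    |X.S v - X.S u| ≤ 3 * Lp / M := by
  have hM : 0 < M := by linarith [hG.M1]
  have hLp : 0 ≤ 3 * Lp := by linarith [hG.Lp1]
  have hlen : 3 * Lp * Z.len i ≤ 3 * Lp / M := by
    have := mul_le_mul_of_nonneg_left (bos_cap_len hG i) hLp
    rwa [mul_one_div] at this
  have key : ∀ u v : ℝ, u ∈ Z.capM al i → v ∈ Z.capM al i → u ≤ v → |X.S v - X.S u| ≤ 3 * Lp / M := by
    intro u v hu hv huv
    have hu1 := bos_capM_sub hG i hu
    have hv1 := bos_capM_sub hG i hv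
    rw [abs_of_nonneg (sub_nonneg.2 (hX.S_mono hu1 hv1 huv))]
    rw [bos_capM_image hG i] at hu hv
    obtain ⟨s, hs, rfl⟩ := hu
    obtain ⟨t, ht, rfl⟩ := hv
    have hs1 : s ∈ Icc (0 : ℝ) 1 := bos_cap_sub hG i ⟨hs.1.le, hs.2.le⟩
    have ht1 : t ∈ Icc (0 : ℝ) 1 := bos_cap_sub hG i ⟨ht.1.le, ht.2.le⟩
    have hst : s ≤ t := ((bos_al_strictMono hG).le_iff_le hs1 ht1).1 huv
    exact (hG.cap_dS i s t hs.1 hst ht.2).trans hlen
  rcases le_total u v with huv | huv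
  · exact key u v hu hv huv
  · rw [abs_sub_comm]; exact key v u hv hu huv

/-! ### 3c. traces on units, PE (20) -/

/-- the trace in RADIUS on a piece `[s,t]` of a cap -/
theorem bos_ut_cap_rad (hX : X.Ok) (hG : BosGeo al r kb ef M cn Lp X Z) {i : ℕ} {s t eg : ℝ} (hs : Z.cL i ≤ s) (hst : s < t) (ht : t ≤ Z.cR i)
    (heg0 : 0 < eg) (heg : ∀ x ∈ Ioo s t, eg ≤ ef x) :
    ∫ x in s..t, X.TH (al x) ≤ 3 * Lp * Z.len i / (cn * eg) := by
  have hcn := hG.cn0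
  have hs0 : 0 ≤ s := (hG.cap_lo i).trans hs
  have ht1 : t ≤ 1 := ht.trans (hG.cap_hi i)
  have hI : ∀ a b : ℝ, 0 ≤ a → a ≤ b → b ≤ 1 → IntervalIntegrable (fun x => X.TH (al x)) volume a b := fun a b ha hab hb =>
    bos_al_slope_int (hX.TH_meas.comp hG.al_meas) (B := 1) (fun x hx => hX.TH_nn _ (bos_al_mem hG hx))
      (fun x hx => hX.TH_le _ (bos_al_mem hG hx)) ha hab hb
  have hsmall : ∀ a b : ℝ, 0 ≤ a → a ≤ b → b ≤ 1 → ∫ x in a..b, X.TH (al x) ≤ b - a := by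
    intro a b ha hab hb
    have h1 : ∫ x in a..b, X.TH (al x) ≤ ∫ _x in a..b, (1 : ℝ) := by
      apply intervalIntegral.integral_mono_on hab (hI a b ha hab hb) intervalIntegrable_const
      intro x hx
      exact hX.TH_le _ (bos_al_mem hG ⟨ha.trans hx.1, hx.2.trans hb⟩)
    simpa using h1
  apply le_of_forall_pos_le_add
  intro ε hε
  set e : ℝ := min (ε / 2) ((t - s) / 2) with he
  have he0 : 0 < e := lt_min (by positivity) (by linarith)
  have he1 : e ≤ ε / 2 := min_le_left _ _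
  have he2 : e ≤ (t - s) / 2 := min_le_right _ _
  have h12 : s + e ≤ t - e := by linarith
  have hmid : ∫ x in (s + e)..(t - e), X.TH (al x) ≤ 3 * Lp * Z.len i / (cn * eg) := by
    refine (bos_ut_rad hX hG (by linarith) h12 (by linarith) heg0 (fun x hx => heg x ⟨by linarith [hx.1], by linarith [hx.2]⟩)).trans ?_
    exact div_le_div_of_nonneg_right (hG.cap_dS i _ _ (by linarith) h12 (by linarith)) (by positivity)
  have e1 : ∫ x in s..t, X.TH (al x) = (∫ x in s..(s + e), X.TH (al x)) + (∫ x in (s + e)..(t - e), X.TH (al x)) + ∫ x in (t - e)..t, X.TH (al x) := by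
    rw [intervalIntegral.integral_add_adjacent_intervals (hI _ _ hs0 (by linarith) (by linarith)) (hI _ _ (by linarith) h12 (by linarith)),
      intervalIntegral.integral_add_adjacent_intervals (hI _ _ hs0 (by linarith) (by linarith)) (hI _ _ (by linarith) (by linarith) ht1)]
  have a1 := hsmall s (s + e) hs0 (by linarith) (by linarith)
  have a2 := hsmall (t - e) t (by linarith) (by linarith) ht1
  rw [e1]
  linarith

/-- the trace on a piece `[s,t]` of a cap, in mass (LL l.490-497: "the whole-cap bound on `ΔS` and the constant cap density give the trace estimate on that portion") -/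
theorem bos_ut_cap (hX : X.Ok) (hG : BosGeo al r kb ef M cn Lp X Z) {i : ℕ} {s t eg : ℝ} (hs : Z.cL i ≤ s) (hst : s < t) (ht : t ≤ Z.cR i)
    (heg0 : 0 < eg) (heg : ∀ x ∈ Ioo s t, eg ≤ ef x) :
    ∫ u in Ioo (al s) (al t), X.TH u ≤ 3 * Lp / (cn * eg) * (al (Z.cR i) - al (Z.cL i)) := by
  have hcn := hG.cn0
  have hM : 0 < M := by linarith [hG.M1]
  have haff : ∀ x ∈ Icc s t, al x = M * x + (al s - M * s) := by
    intro x hx
    have := hG.cap_eq i s x hs hx.1 (hx.2.trans ht)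
    linarith
  have hle : al s ≤ al t := by
    have := haff t ⟨hst.le, le_rfl⟩
    nlinarith
  have e1 : ∫ u in Ioo (al s) (al t), X.TH u = ∫ u in (al s)..(al t), X.TH u := by
    rw [intervalIntegral.integral_of_le hle, integral_Ioc_eq_integral_Ioo]
  have e2 : ∫ u in (al s)..(al t), X.TH u = M * ∫ x in s..t, X.TH (M * x + (al s - M * s)) := by
    rw [intervalIntegral.mul_integral_comp_mul_add]
    congr 1
    · ring
    · rw [haff t ⟨hst.le, le_rfl⟩]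
  have e3 : ∫ x in s..t, X.TH (M * x + (al s - M * s)) = ∫ x in s..t, X.TH (al x) := by
    apply intervalIntegral.integral_congr
    intro x hx
    rw [uIcc_of_le hst.le] at hx
    show X.TH (M * x + (al s - M * s)) = X.TH (al x)
    rw [haff x hx]
  rw [e1, e2, e3, bos_cap_mass hG i]
  calc M * ∫ x in s..t, X.TH (al x) ≤ M * (3 * Lp * Z.len i / (cn * eg)) :=
        mul_le_mul_of_nonneg_left (bos_ut_cap_rad hX hG hs hst ht heg0 heg) hM.le
    _ = _ := by ring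

/-- **(20) on a complete cap** -/
theorem bos_ut_unit (hX : X.Ok) (hG : BosGeo al r kb ef M cn Lp X Z) {i : ℕ} {eg : ℝ} (hi : Z.cL i < Z.cR i)
    (heg0 : 0 < eg) (heg : ∀ x ∈ Ioo (Z.cL i) (Z.cR i), eg ≤ ef x) :
    ∫ u in Z.capM al i, X.TH u ≤ 3 * Lp / (cn * eg) * (al (Z.cR i) - al (Z.cL i)) :=
  bos_ut_cap hX hG le_rfl hi le_rfl heg0 heg

/-- **(20) on contact**, radius coordinate (from `clock`, `ct_two`, `cm_density_le`) -/
theorem bos_ut_ct (hX : X.Ok) (hG : BosGeo al r kb ef M cn Lp X Z) :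
    ∀ᵐ x ∂(volume.restrict Z.Ct), ef x * X.TH (al x) ≤ 3 * Lp / cn := by
  have hcn := hG.cn0
  obtain ⟨B, hB⟩ := hG.ef_le
  set f : ℝ → ℝ := fun x => ef x * X.TH (al x) with hf
  have hfI : IntegrableOn f (Icc 0 1) volume := by
    have h3 : IntervalIntegrable f volume 0 1 :=
      bos_al_slope_int (hG.ef_meas.mul (hX.TH_meas.comp hG.al_meas)) (B := B * 1)
        (fun x hx => mul_nonneg (hG.ef_nn x hx) (hX.TH_nn _ (bos_al_mem hG hx)))
        (fun x hx => mul_le_mul (hB x hx) (hX.TH_le _ (bos_al_mem hG hx)) (hX.TH_nn _ (bos_al_mem hG hx))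
          ((hG.ef_nn x hx).trans (hB x hx))) le_rfl zero_le_one le_rfl
    rwa [intervalIntegrable_iff_integrableOn_Icc_of_le zero_le_one] at h3
  set F : ℝ → ℝ := (Icc (0 : ℝ) 1).indicator f with hF
  have hFl : LocallyIntegrable F volume := (hfI.integrable_indicator measurableSet_Icc).locallyIntegrable
  have hct01 : ∀ x ∈ Z.Ct, x ∈ Icc (0 : ℝ) 1 := fun x hx => ⟨(hG.ct_sub hx).1.le, (hG.ct_sub hx).2⟩
  have key := cm_density_le F hFl Z.Ct hG.ct_meas (fun x hx => (hct01 x hx).1) (3 * Lp / cn) (by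
    intro r1 h1 r2 h2 h12 h22
    have m1 := hct01 r1 h1
    have m2 := hct01 r2 h2
    have e1 : ∫ x in r1..r2, F x = ∫ x in r1..r2, f x := by
      apply intervalIntegral.integral_congr
      intro x hx
      rw [uIcc_of_le h12.le] at hx
      have hxm : x ∈ Icc (0 : ℝ) 1 := ⟨m1.1.trans hx.1, hx.2.trans m2.2⟩
      exact indicator_of_mem hxm f
    rw [e1]
    have c1 := hG.clock r1 r2 m1.1 h12.le m2.2
    have c2 := hG.ct_two r1 h1 r2 h2 h12 h22
    have c3 : cn * ∫ x in r1..r2, f x ≤ 3 * Lp * (r2 - r1) := c1.trans c2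
    calc ∫ x in r1..r2, f x = 1 / cn * (cn * ∫ x in r1..r2, f x) := by field_simp
      _ ≤ 1 / cn * (3 * Lp * (r2 - r1)) := mul_le_mul_of_nonneg_left c3 (by positivity)
      _ = _ := by ring)
  rw [ae_restrict_iff' hG.ct_meas] at key ⊢
  filter_upwards [key] with x hx hxC
  have := hx hxC
  rwa [hF, indicator_of_mem (hct01 x hxC)] at this

/-- **(20) on contact**, mass coordinate -/
theorem bos_ut_ct_mass (hX : X.Ok) (hG : BosGeo al r kb ef M cn Lp X Z) :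
    ∀ᵐ u ∂(volume.restrict (al '' Z.Ct)), ef (r u) * X.TH u ≤ 3 * Lp / cn := by
  have hct01 : Z.Ct ⊆ Icc (0 : ℝ) 1 := fun x hx => ⟨(hG.ct_sub hx).1.le, (hG.ct_sub hx).2⟩
  have h1 := bos_ut_ct hX hG
  rw [ae_restrict_iff' hG.ct_meas, ae_iff] at h1
  rw [ae_restrict_iff' (bos_al_meas hG hct01 hG.ct_meas), ae_iff]
  set Nn := {x | ¬(x ∈ Z.Ct → ef x * X.TH (al x) ≤ 3 * Lp / cn)} with hNn
  have hNsub : Nn ⊆ Icc (0 : ℝ) 1 := by
    intro x hx
    rw [hNn, mem_ofPred_eq, Classical.not_imp] at hx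
    exact hct01 hx.1
  have h2 := bos_al_null hG hNsub h1
  refine measure_mono_null ?_ h2
  intro u hu
  rw [mem_ofPred_eq, Classical.not_imp] at hu
  obtain ⟨⟨x, hx, rfl⟩, hu2⟩ := hu
  rw [hG.r_al x (hct01 hx)] at hu2
  refine ⟨x, ?_, rfl⟩
  rw [hNn, mem_ofPred_eq, Classical.not_imp]
  exact ⟨hx, hu2⟩

/-- **unit averages tested against unit-measurable functions**: cap averages + a.e. bound on contact give the hypotheses `hC`, `hW` of `cm_br_abs` -/
theorem bos_group_trace (hG : BosGeo al r kb ef M cn Lp X Z) {G : Set ℝ} (hGr : Z.IsGroup al G) {τ : ℝ} {F : ℝ → ℝ}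
    (hFm : Measurable F) (hF0 : ∀ u ∈ Icc (0 : ℝ) 1, 0 ≤ F u) (hF1 : ∃ B : ℝ, ∀ u ∈ Icc (0 : ℝ) 1, F u ≤ B)
    (hcap : ∀ i, Z.cL i < Z.cR i → Z.capM al i ⊆ G → ∫ u in Z.capM al i, F u ≤ τ * (al (Z.cR i) - al (Z.cL i)))
    (hct : ∀ᵐ u ∂(volume.restrict (G ∩ al '' Z.Ct)), F u ≤ τ)
    (g : ℝ → ℝ) (hgm : Measurable g) (hg0 : ∀ x, 0 ≤ g x) (hgb : ∃ B : ℝ, ∀ x, g x ≤ B) :
    ∫ j in G, g (Z.lab al j) * F j ≤ τ * ∫ j in G, g (Z.lab al j) := by
  obtain ⟨BF, hBF⟩ := hF1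
  obtain ⟨Bg, hBg⟩ := hgb
  have hct01 : Z.Ct ⊆ Icc (0 : ℝ) 1 := fun x hx => ⟨(hG.ct_sub hx).1.le, (hG.ct_sub hx).2⟩
  have hcapm : ∀ i, MeasurableSet (Z.capM al i) := fun i => by unfold CmCaps.capM; exact measurableSet_Ioo
  have hCtm : MeasurableSet (al '' Z.Ct) := bos_al_meas hG hct01 hG.ct_meas
  have hG01 : G ⊆ Icc (0 : ℝ) 1 := by
    intro u hu
    rcases hGr.sub hu with h | h
    · obtain ⟨i, hi⟩ := mem_iUnion.1 h
      exact bos_capM_sub hG i hi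
    · obtain ⟨x, hx, rfl⟩ := h
      exact bos_al_mem hG (hct01 hx)
  have hfinG : volume G < ⊤ := lt_of_le_of_lt (measure_mono hG01) (by simp)
  have : IsFiniteMeasure (volume.restrict G) := ⟨by rw [Measure.restrict_apply_univ]; exact hfinG⟩
  have hlm : Measurable (fun j => g (Z.lab al j)) := hgm.comp (bos_lab_meas hG)
  set h1 : ℝ → ℝ := fun j => g (Z.lab al j) * F j with hh1
  set h2 : ℝ → ℝ := fun j => g (Z.lab al j) with hh2
  have i2 : IntegrableOn h2 G volume := by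
    apply Integrable.mono' (integrable_const Bg) hlm.aestronglyMeasurable
    refine Filter.Eventually.of_forall (fun j => ?_)
    rw [Real.norm_of_nonneg (hg0 _)]
    exact hBg _
  have i1 : IntegrableOn h1 G volume := by
    apply Integrable.mono' (integrable_const (Bg * BF)) (hlm.mul hFm).aestronglyMeasurable
    rw [ae_restrict_iff' hGr.meas]
    refine Filter.Eventually.of_forall (fun j hj => ?_)
    have f0 := hF0 j (hG01 hj)
    show ‖g (Z.lab al j) * F j‖ ≤ Bg * BF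
    rw [Real.norm_of_nonneg (mul_nonneg (hg0 _) f0)]
    exact mul_le_mul (hBg _) (hBF j (hG01 hj)) f0 ((hg0 0).trans (hBg 0))
  set C := G ∩ al '' Z.Ct with hC
  set A : ℕ → Set ℝ := fun i => Z.capM al i ∩ G with hA
  have hAm : ∀ i, MeasurableSet (A i) := fun i => (hcapm i).inter hGr.meas
  have hAd : Pairwise (Function.onFun Disjoint A) := by
    intro i j hij
    exact (bos_capM_disj hG hij).mono inter_subset_left inter_subset_left
  have hGeq : G = C ∪ ⋃ i, A i := by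
    apply Subset.antisymm
    · intro u hu
      rcases hGr.sub hu with h | h
      · obtain ⟨i, hi⟩ := mem_iUnion.1 h
        exact Or.inr (mem_iUnion.2 ⟨i, hi, hu⟩)
      · exact Or.inl ⟨hu, h⟩
    · intro u hu
      rcases hu with h | h
      · exact h.1
      · obtain ⟨i, hi⟩ := mem_iUnion.1 h
        exact hi.2
  have hCA : Disjoint C (⋃ i, A i) := by
    rw [disjoint_iUnion_right]
    intro i
    exact ((bos_capM_ct hG i).mono inter_subset_left inter_subset_right).symm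
  have hUm : MeasurableSet (⋃ i, A i) := MeasurableSet.iUnion hAm
  have hCsub : C ⊆ G := inter_subset_left
  have hUsub : (⋃ i, A i) ⊆ G := iUnion_subset (fun i => inter_subset_right)
  have split : ∀ h : ℝ → ℝ, IntegrableOn h G volume →
      (∫ j in G, h j = (∫ j in C, h j) + ∑' i, ∫ j in A i, h j) ∧ Summable (fun i => ∫ j in A i, h j) := by
    intro h hi
    have hs := hasSum_integral_iUnion hAm hAd (hi.mono_set hUsub)
    refine ⟨?_, hs.summable⟩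
    conv_lhs => rw [hGeq]
    rw [setIntegral_union hCA hUm (hi.mono_set hCsub) (hi.mono_set hUsub), hs.tsum_eq]
  obtain ⟨e1, s1⟩ := split h1 i1
  obtain ⟨e2, s2⟩ := split h2 i2
  rw [e1, e2, mul_add, ← tsum_mul_left]
  have hCle : ∫ j in C, h1 j ≤ τ * ∫ j in C, h2 j := by
    rw [← integral_const_mul]
    apply integral_mono_ae (i1.mono_set hCsub) ((i2.mono_set hCsub).const_mul τ)
    filter_upwards [hct] with u hu
    show g (Z.lab al u) * F u ≤ τ * g (Z.lab al u)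
    rw [mul_comm τ]
    exact mul_le_mul_of_nonneg_left hu (hg0 _)
  have hAle : ∀ i, ∫ j in A i, h1 j ≤ τ * ∫ j in A i, h2 j := by
    intro i
    by_cases hne : (Z.capM al i ∩ G).Nonempty
    · have hsub := hGr.sat i hne
      have hAi : A i = Z.capM al i := inter_eq_left.2 hsub
      rw [hAi]
      obtain ⟨u0, hu0, -⟩ := hne
      have hlt : al (Z.cL i) < al (Z.cR i) := by
        unfold CmCaps.capM at hu0
        exact hu0.1.trans hu0.2
      have hlt' : Z.cL i < Z.cR i := by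
        rcases (hG.cap_le i).eq_or_lt with h | h
        · rw [h] at hlt; exact absurd hlt (lt_irrefl _)
        · exact h
      set m := (al (Z.cL i) + al (Z.cR i)) / 2 with hm
      have c1 : ∫ j in Z.capM al i, h1 j = g m * ∫ j in Z.capM al i, F j := by
        rw [← integral_const_mul]
        apply setIntegral_congr_fun (hcapm i)
        intro j hj
        show g (Z.lab al j) * F j = g m * F j
        rw [bos_lab_cap hG hj]
      have c2 : ∫ j in Z.capM al i, h2 j = g m * (al (Z.cR i) - al (Z.cL i)) := by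
        have : ∫ j in Z.capM al i, h2 j = ∫ _j in Z.capM al i, g m := by
          apply setIntegral_congr_fun (hcapm i)
          intro j hj
          show g (Z.lab al j) = g m
          rw [bos_lab_cap hG hj]
        rw [this, setIntegral_const, smul_eq_mul]
        unfold CmCaps.capM
        rw [Real.volume_real_Ioo_of_le hlt.le]
        ring
      rw [c1, c2]
      calc g m * ∫ j in Z.capM al i, F j ≤ g m * (τ * (al (Z.cR i) - al (Z.cL i))) :=
            mul_le_mul_of_nonneg_left (hcap i hlt' hsub) (hg0 m)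
        _ = _ := by ring
    · have hAi : A i = ∅ := not_nonempty_iff_eq_empty.1 hne
      rw [hAi]; simp
  exact add_le_add hCle (s1.tsum_le_tsum hAle (s2.mul_left τ))

/-! ## 4. The bracket (21), the covering, the band lemma, non-asymptotic (C10) -/

/-- a group lies in `[0,1]` -/
theorem bos_grp_sub01 (hG : BosGeo al r kb ef M cn Lp X Z) {G : Set ℝ} (hGr : Z.IsGroup al G) : G ⊆ Icc (0 : ℝ) 1 := by
  intro u hu
  rcases hGr.sub hu with h | h
  · obtain ⟨i, hi⟩ := mem_iUnion.1 h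
    exact bos_capM_sub hG i hi
  · obtain ⟨x, hx, rfl⟩ := h
    exact bos_al_mem hG (Ioc_subset_Icc_self (hG.ct_sub hx))

/-- **(21) on a group** at masses `≍ v`: `k0` height bins, strips `th`, moment order `2 qq`.
`cm_br_abs` with `c = lab`, `b x = ⌊k0 S(x)/y0⌋₊`, `kb = k0 + 1`, `η = y0/k0 + 2ω`, `ω = 3 Lp/M`; `hC`, `hW` by `bos_group_trace` with `F = TC, TW`, `tc_th`, `tw_th`, `bos_ut_unit`, `bos_ut_ct_mass`;
`hQ` by `bos_lab_eq`, `bos_cap_osc`, `cm6b_Q4_le`. -/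
theorem bos_br_geo (hX : X.Ok) (hG : BosGeo al r kb ef M cn Lp X Z) {G : Set ℝ} (hGr : Z.IsGroup al G) {v Gam y0 eg th Cq : ℝ} {qq k0 : ℕ}
    (hv : 0 < v) (hGam : 1 ≤ Gam) (hy0 : 0 < y0) (heg0 : 0 < eg) (hth : 0 < th) (hCq : 0 ≤ Cq) (hqq : 3 ≤ qq) (hk0 : 1 ≤ k0)
    (hband : G ⊆ Icc (v / Gam) (Gam * v))
    (heg : ∀ u ∈ G, eg ≤ ef (r u)) (hS : ∀ u ∈ G, X.S u ≤ y0) (hNX : ∀ u ∈ G, X.NX qq u ≤ Cq * Real.sqrt y0) :
    ∫ u in G, X.D u ^ 2 ≤ cmBrR (volume G).toReal (y0 / k0 + 2 * (3 * Lp / M)) (cmQ4 (3 * Lp / M) Cq y0 qq)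
      ((Gam / v) ^ 2 * (3 * Lp / (cn * eg))) (Gam / v * (3 * Lp / (cn * eg))) th (k0 + 1) := by
  have hM0 : 0 < M := lt_trans one_pos hG.M1
  have hcn := hG.cn0
  have hLp : 0 < Lp := lt_of_lt_of_le one_pos hG.Lp1
  have hGam0 : 0 < Gam := lt_of_lt_of_le one_pos hGam
  have hG01 : G ⊆ Icc (0 : ℝ) 1 := bos_grp_sub01 hG hGr
  -- caps meeting the group
  have hcapG : ∀ i u, u ∈ G → u ∈ Z.capM al i → Z.cL i < Z.cR i ∧ Z.capM al i ⊆ G := by
    intro i u huG hu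
    refine ⟨lt_of_le_of_ne (hG.cap_le i) (fun h => ?_), hGr.sat i ⟨u, hu, huG⟩⟩
    have hu' : u ∈ Ioo (al (Z.cL i)) (al (Z.cR i)) := hu
    rw [h] at hu'
    exact lt_irrefl _ (hu'.1.trans hu'.2)
  have hlabG : ∀ u ∈ G, Z.lab al u ∈ G := by
    intro u hu
    by_cases h : ∃ i, u ∈ Z.capM al i
    · obtain ⟨i, hi⟩ := h
      exact (hcapG i u hu hi).2 (bos_lab_mem hG hi)
    · push Not at h
      rw [cm_lab_out h]; exact hu
  obtain ⟨ω, hω⟩ : ∃ ω, ω = 3 * Lp / M := ⟨_, rfl⟩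
  have hω0 : 0 ≤ ω := by rw [hω]; positivity
  have hcaposc : ∀ i u w, u ∈ Z.capM al i → w ∈ Z.capM al i → |X.S w - X.S u| ≤ ω := by
    intro i u w hu hw
    rw [hω]
    exact bos_cap_osc hX hG hu hw
  have hosc : ∀ u ∈ G, |X.S (Z.lab al u) - X.S u| ≤ ω := by
    intro u hu
    by_cases h : ∃ i, u ∈ Z.capM al i
    · obtain ⟨i, hi⟩ := h
      exact hcaposc i u _ hi (bos_lab_mem hG hi)
    · push Not at h
      rw [cm_lab_out h]; simpa using hω0
  have hk0r : (0 : ℝ) < (k0 : ℝ) := by exact_mod_cast hk0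
  -- the bins
  let b : ℝ → ℕ := fun x => ⌊(k0 : ℝ) * X.S x / y0⌋₊
  have hb : Measurable b := Nat.measurable_floor.comp ((hX.S_meas.const_mul (k0 : ℝ)).div_const y0)
  have hkb : ∀ i ∈ G, b (Z.lab al i) < k0 + 1 := by
    intro i hi
    refine Nat.lt_succ_of_le (Nat.floor_le_of_le ?_)
    rw [div_le_iff₀ hy0]
    exact mul_le_mul_of_nonneg_left (hS _ (hlabG i hi)) hk0r.le
  have hSb : ∀ i ∈ G, ∀ j ∈ G, b (Z.lab al i) = b (Z.lab al j) → |X.S j - X.S i| ≤ y0 / k0 + 2 * ω := by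
    intro i hi j hj hij
    have hxi : 0 ≤ (k0 : ℝ) * X.S (Z.lab al i) / y0 := by
      have := hX.S_nn _ (hG01 (hlabG i hi)); positivity
    have hxj : 0 ≤ (k0 : ℝ) * X.S (Z.lab al j) / y0 := by
      have := hX.S_nn _ (hG01 (hlabG j hj)); positivity
    have a1 := Nat.floor_le hxi
    have a2 := Nat.lt_floor_add_one ((k0 : ℝ) * X.S (Z.lab al i) / y0)
    have a3 := Nat.floor_le hxj
    have a4 := Nat.lt_floor_add_one ((k0 : ℝ) * X.S (Z.lab al j) / y0)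
    have hij' : (⌊(k0 : ℝ) * X.S (Z.lab al i) / y0⌋₊ : ℝ) = (⌊(k0 : ℝ) * X.S (Z.lab al j) / y0⌋₊ : ℝ) := by
      exact_mod_cast hij
    have hd : |X.S (Z.lab al j) - X.S (Z.lab al i)| ≤ y0 / k0 := by
      have e : X.S (Z.lab al j) - X.S (Z.lab al i)
          = ((k0 : ℝ) * X.S (Z.lab al j) / y0 - (k0 : ℝ) * X.S (Z.lab al i) / y0) * (y0 / k0) := by
        field_simp
      have hpos : 0 < y0 / (k0 : ℝ) := by positivity
      rw [e, abs_mul, abs_of_pos hpos]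
      have : |(k0 : ℝ) * X.S (Z.lab al j) / y0 - (k0 : ℝ) * X.S (Z.lab al i) / y0| ≤ 1 := by
        rw [abs_le]; constructor <;> linarith
      calc _ ≤ 1 * (y0 / (k0 : ℝ)) := mul_le_mul_of_nonneg_right this hpos.le
        _ = y0 / k0 := one_mul _
    have h1 := hosc i hi
    have h2 := hosc j hj
    have e2 : X.S j - X.S i = -(X.S (Z.lab al j) - X.S j) + (X.S (Z.lab al j) - X.S (Z.lab al i)) + (X.S (Z.lab al i) - X.S i) := by ring
    rw [e2]
    refine (abs_add_three _ _ _).trans ?_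
    rw [abs_neg]
    linarith
  have hQ : ∀ i ∈ G, ∀ j ∈ G, Z.lab al i = Z.lab al j → X.Q4 i j ≤ cmQ4 ω Cq y0 qq := by
    intro i hi j hj hij
    refine cm_g_q4 hX hqq (hG01 hi) (hG01 hj) ?_ (hNX i hi) (hNX j hj)
    rcases bos_lab_eq hG hij with h | ⟨m, hm1, hm2⟩
    · rw [h]; simpa using hω0
    · exact hcaposc m i j hm1 hm2
  -- traces
  obtain ⟨T, hT⟩ : ∃ T, T = 3 * Lp / (cn * eg) := ⟨_, rfl⟩
  have hT0 : 0 ≤ T := by rw [hT]; positivity
  have hcapTH : ∀ i, Z.cL i < Z.cR i → Z.capM al i ⊆ G → ∫ u in Z.capM al i, X.TH u ≤ T * (al (Z.cR i) - al (Z.cL i)) := by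
    intro i hi hsub
    rw [hT]
    refine bos_ut_unit hX hG hi heg0 ?_
    intro x hx
    have hx1 : x ∈ Icc (0 : ℝ) 1 := ⟨(hG.cap_lo i).trans hx.1.le, hx.2.le.trans (hG.cap_hi i)⟩
    have hmem : al x ∈ Z.capM al i := by
      rw [bos_capM_image hG i]; exact ⟨x, hx, rfl⟩
    have := heg _ (hsub hmem)
    rwa [hG.r_al x hx1] at this
  have hCtm : MeasurableSet (al '' Z.Ct) := bos_al_meas hG (hG.ct_sub.trans Ioc_subset_Icc_self) hG.ct_meas
  have hctTH : ∀ᵐ u ∂(volume.restrict (G ∩ al '' Z.Ct)), u ∈ G ∧ X.TH u ≤ T := by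
    have h1 := ae_restrict_of_ae_restrict_of_subset (s := G ∩ al '' Z.Ct) inter_subset_right
      (bos_ut_ct_mass hX hG)
    filter_upwards [h1, ae_restrict_mem (hGr.meas.inter hCtm)] with u hu hmem
    refine ⟨hmem.1, ?_⟩
    have h0 := hX.TH_nn u (hG01 hmem.1)
    have h2 : eg * X.TH u ≤ 3 * Lp / cn := (mul_le_mul_of_nonneg_right (heg u hmem.1) h0).trans hu
    rw [hT, le_div_iff₀ (by positivity)]
    rw [le_div_iff₀ hcn] at h2
    linarith
  have key : ∀ (F : ℝ → ℝ) (κ : ℝ), 0 ≤ κ → Measurable F → (∀ u ∈ Icc (0 : ℝ) 1, 0 ≤ F u) → (∀ u ∈ Icc (0 : ℝ) 1, F u ≤ 1) →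
      (∀ u ∈ G, F u ≤ κ * X.TH u) → ∀ g : ℝ → ℝ, Measurable g → (∀ x, 0 ≤ g x) → (∃ B : ℝ, ∀ x, g x ≤ B) →
      ∫ j in G, g (Z.lab al j) * F j ≤ (κ * T) * ∫ j in G, g (Z.lab al j) := by
    intro F κ hκ hFm hF0 hF1 hFT g hgm hg0 hgb
    refine bos_group_trace hG hGr hFm hF0 ⟨1, hF1⟩ ?_ ?_ g hgm hg0 hgb
    · intro i hi hsub
      have hsub01 : Z.capM al i ⊆ Icc (0 : ℝ) 1 := hsub.trans hG01
      have hm : MeasurableSet (Z.capM al i) := by unfold CmCaps.capM; exact measurableSet_Ioo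
      have h1 : ∫ u in Z.capM al i, F u ≤ ∫ u in Z.capM al i, κ * X.TH u :=
        setIntegral_mono_on (cm_g_intOn hFm hF0 hF1 hsub01)
          ((cm_g_intOn hX.TH_meas hX.TH_nn hX.TH_le hsub01).const_mul κ) hm (fun u hu => hFT u (hsub hu))
      rw [integral_const_mul] at h1
      calc _ ≤ κ * ∫ u in Z.capM al i, X.TH u := h1
        _ ≤ κ * (T * (al (Z.cR i) - al (Z.cL i))) := mul_le_mul_of_nonneg_left (hcapTH i hi hsub) hκ
        _ = κ * T * (al (Z.cR i) - al (Z.cL i)) := by ring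
    · filter_upwards [hctTH] with u hu
      exact (hFT u hu.1).trans (mul_le_mul_of_nonneg_left hu.2 hκ)
  have hlow : ∀ u ∈ G, v / Gam ≤ u := fun u hu => (hband hu).1
  have hvG : 0 < v / Gam := by positivity
  have hC := key X.TC ((Gam / v) ^ 2) (by positivity) hX.TC_meas hX.TC_nn hX.TC_le (by
    intro u hu
    have h1 := hX.tc_th u (hG01 hu)
    have h2 : (v / Gam) ^ 2 * X.TC u ≤ u ^ 2 * X.TC u :=
      mul_le_mul_of_nonneg_right (pow_le_pow_left₀ hvG.le (hlow u hu) 2) (hX.TC_nn u (hG01 hu))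
    have h3 : X.TC u = (Gam / v) ^ 2 * ((v / Gam) ^ 2 * X.TC u) := by field_simp
    rw [h3]
    exact mul_le_mul_of_nonneg_left (h2.trans h1) (by positivity))
  have hW := key X.TW (Gam / v) (by positivity) hX.TW_meas hX.TW_nn hX.TW_le (by
    intro u hu
    have h1 := hX.tw_th u (hG01 hu)
    have h2 : (v / Gam) * X.TW u ≤ u * X.TW u :=
      mul_le_mul_of_nonneg_right (hlow u hu) (hX.TW_nn u (hG01 hu))
    have h3 : X.TW u = (Gam / v) * ((v / Gam) * X.TW u) := by field_simp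
    rw [h3]
    exact mul_le_mul_of_nonneg_left (h2.trans h1) (by positivity))
  rw [← hω, ← hT]
  exact cm_br_abs X hX G hGr.meas hG01 (Z.lab al) (bos_lab_meas hG) ((bos_lab_mono hG).monotoneOn G) b hb (k0 + 1) hkb
    (y0 / k0 + 2 * ω) (cmQ4 ω Cq y0 qq) ((Gam / v) ^ 2 * T) (Gam / v * T) th (by positivity) (cm_g_q4_nonneg hω0 hCq qq)
    (by positivity) (by positivity) hth hSb hQ hC hW

/-- **(21) on a slice `(a,b)` of one cap**: `cm_br1` with `ϖ = 1`, `bos_ut_cap` (`s = r a`, `t = r b`), `tc_th`, `tw_th`, `bos_cap_osc`, `cm6b_Q4_le` -/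
theorem bos_br_slice (hX : X.Ok) (hG : BosGeo al r kb ef M cn Lp X Z) {i : ℕ} {a b y0 eg Cq : ℝ} {qq : ℕ}
    (ha : 0 < a) (hab : a < b) (hsub : Ioo a b ⊆ Z.capM al i) (hy0 : 0 < y0) (heg0 : 0 < eg) (hCq : 0 ≤ Cq) (hqq : 3 ≤ qq)
    (heg : ∀ u ∈ Ioo a b, eg ≤ ef (r u)) (hNX : ∀ u ∈ Ioo a b, X.NX qq u ≤ Cq * Real.sqrt y0) :
    ∫ u in Ioo a b, X.D u ^ 2 ≤ 200000 * ((b - a) * ((3 * Lp / M) ^ 2 + cmQ4 (3 * Lp / M) Cq y0 qq)
      + (1 / a ^ 2 + 1 / (a * (b - a))) * (3 * Lp / (cn * eg) * (al (Z.cR i) - al (Z.cL i)))) := by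
  obtain ⟨haL, hbR⟩ := (Ioo_subset_Ioo_iff hab).1 hsub
  have hcL : Z.cL i ∈ Icc (0 : ℝ) 1 := ⟨hG.cap_lo i, (hG.cap_le i).trans (hG.cap_hi i)⟩
  have hcR : Z.cR i ∈ Icc (0 : ℝ) 1 := ⟨(hG.cap_lo i).trans (hG.cap_le i), hG.cap_hi i⟩
  have hLm := bos_al_mem hG hcL
  have hRm := bos_al_mem hG hcR
  have ha1 : a ∈ Icc (0 : ℝ) 1 := ⟨hLm.1.trans haL, (hab.le.trans hbR).trans hRm.2⟩
  have hb1 : b ∈ Icc (0 : ℝ) 1 := ⟨hLm.1.trans (haL.trans hab.le), hbR.trans hRm.2⟩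
  have hrm := bos_r_mono hG
  have ham := bos_al_strictMono hG
  have hs : Z.cL i ≤ r a := by
    have := hrm.monotoneOn hLm ha1 haL
    rwa [hG.r_al _ hcL] at this
  have ht : r b ≤ Z.cR i := by
    have := hrm.monotoneOn hb1 hRm hbR
    rwa [hG.r_al _ hcR] at this
  have hst : r a < r b := hrm ha1 hb1 hab
  have heg' : ∀ x ∈ Ioo (r a) (r b), eg ≤ ef x := by
    intro x hx
    have hx1 : x ∈ Icc (0 : ℝ) 1 := ⟨(hG.r_mem a ha1).1.trans hx.1.le, hx.2.le.trans (hG.r_mem b hb1).2⟩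
    have h1 := ham (hG.r_mem a ha1) hx1 hx.1
    have h2 := ham hx1 (hG.r_mem b hb1) hx.2
    rw [hG.al_r a ha1] at h1
    rw [hG.al_r b hb1] at h2
    have := heg (al x) ⟨h1, h2⟩
    rwa [hG.r_al x hx1] at this
  have hTH := bos_ut_cap hX hG hs hst ht heg0 heg'
  rw [hG.al_r a ha1, hG.al_r b hb1] at hTH
  have hG01 : Ioo a b ⊆ Icc (0 : ℝ) 1 := fun u hu => ⟨ha.le.trans hu.1.le, hu.2.le.trans hb1.2⟩
  obtain ⟨η, hη⟩ : ∃ η, η = 3 * Lp / M := ⟨_, rfl⟩
  obtain ⟨Tb, hTb⟩ : ∃ Tb, Tb = 3 * Lp / (cn * eg) * (al (Z.cR i) - al (Z.cL i)) := ⟨_, rfl⟩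
  rw [← hη, ← hTb]
  rw [← hTb] at hTH
  have hS : ∀ u ∈ Ioo a b, ∀ w ∈ Ioo a b, |X.S w - X.S u| ≤ η := fun u hu w hw => by
    rw [hη]; exact bos_cap_osc hX hG (hsub hu) (hsub hw)
  have hη0 : 0 ≤ η := by
    obtain ⟨w, hw⟩ := nonempty_Ioo.2 hab
    exact (abs_nonneg _).trans (hS w hw w hw)
  have hQ : ∀ u ∈ Ioo a b, ∀ w ∈ Ioo a b, X.Q4 u w ≤ cmQ4 η Cq y0 qq := fun u hu w hw =>
    cm_g_q4 hX hqq (hG01 hu) (hG01 hw) (hS u hu w hw) (hNX u hu) (hNX w hw)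
  have h1int : ∫ _u in Ioo a b, (1 : ℝ) = b - a := by
    simp [Measure.real, Real.volume_Ioo, hab.le]
  have main := cm_br1 X hX (Ioo a b) measurableSet_Ioo hG01 (fun _ => 1) measurable_const (fun _ => zero_le_one)
    ⟨1, fun _ => le_rfl⟩ (by rw [h1int]; linarith) η (cmQ4 η Cq y0 qq) hη0 (cm_g_q4_nonneg hη0 hCq qq) hS hQ
  simp only [one_mul, one_pow] at main
  rw [h1int] at main
  have hTHi : IntegrableOn X.TH (Ioo a b) := cm_g_intOn hX.TH_meas hX.TH_nn hX.TH_le hG01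
  have hTC : ∫ u in Ioo a b, X.TC u ≤ 1 / a ^ 2 * Tb := by
    have h1 : ∫ u in Ioo a b, X.TC u ≤ ∫ u in Ioo a b, 1 / a ^ 2 * X.TH u := by
      refine setIntegral_mono_on (cm_g_intOn hX.TC_meas hX.TC_nn hX.TC_le hG01) (hTHi.const_mul _) measurableSet_Ioo ?_
      intro u hu
      have h2 := hX.tc_th u (hG01 hu)
      have h3 : a ^ 2 * X.TC u ≤ u ^ 2 * X.TC u :=
        mul_le_mul_of_nonneg_right (pow_le_pow_left₀ ha.le hu.1.le 2) (hX.TC_nn u (hG01 hu))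
      rw [one_div, inv_mul_eq_div, le_div_iff₀ (by positivity)]
      linarith
    rw [integral_const_mul] at h1
    exact h1.trans (mul_le_mul_of_nonneg_left hTH (by positivity))
  have hTW : ∫ u in Ioo a b, X.TW u ≤ 1 / a * Tb := by
    have h1 : ∫ u in Ioo a b, X.TW u ≤ ∫ u in Ioo a b, 1 / a * X.TH u := by
      refine setIntegral_mono_on (cm_g_intOn hX.TW_meas hX.TW_nn hX.TW_le hG01) (hTHi.const_mul _) measurableSet_Ioo ?_
      intro u hu
      have h2 := hX.tw_th u (hG01 hu)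
      have h3 : a * X.TW u ≤ u * X.TW u :=
        mul_le_mul_of_nonneg_right hu.1.le (hX.TW_nn u (hG01 hu))
      rw [one_div, inv_mul_eq_div, le_div_iff₀ ha]
      linarith
    rw [integral_const_mul] at h1
    exact h1.trans (mul_le_mul_of_nonneg_left hTH (by positivity))
  refine main.trans (mul_le_mul_of_nonneg_left ?_ (by norm_num))
  have hba : 0 < b - a := sub_pos.2 hab
  have h4 : (∫ u in Ioo a b, X.TW u) / (b - a) ≤ 1 / (a * (b - a)) * Tb := by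
    rw [div_le_iff₀ hba]
    refine hTW.trans (le_of_eq ?_)
    field_simp
  have h5 : (1 / a ^ 2 + 1 / (a * (b - a))) * Tb = 1 / a ^ 2 * Tb + 1 / (a * (b - a)) * Tb := by ring
  rw [h5]
  linarith

/-- a nonempty cap (mass coordinate) is nondegenerate -/
theorem bos_cap_nondeg (hG : BosGeo al r kb ef M cn Lp X Z) {i : ℕ} {u : ℝ} (hu : u ∈ Z.capM al i) : Z.cL i < Z.cR i := by
  refine lt_of_le_of_ne (hG.cap_le i) (fun h => ?_)
  have hu' : u ∈ Ioo (al (Z.cL i)) (al (Z.cR i)) := hu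
  rw [h] at hu'
  exact lt_irrefl _ (hu'.1.trans hu'.2)

theorem bos_grp_isGroup (hG : BosGeo al r kb ef M cn Lp X Z) {J : Set ℝ} (hJ : MeasurableSet J) (a : ℝ) :
    Z.IsGroup al (bosGrp Z al J a) := by
  refine ⟨?_, ?_, ?_⟩
  · exact (hJ.inter (bos_al_meas hG (hG.ct_sub.trans Ioc_subset_Icc_self) hG.ct_meas)).union
      (MeasurableSet.biUnion (Set.to_countable _) (fun i _ => measurableSet_Ioo))
  · rintro u (hu | hu)
    · exact Or.inr hu.2
    · obtain ⟨i, _, hi⟩ := Set.mem_iUnion₂.1 hu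
      exact Or.inl (Set.mem_iUnion.2 ⟨i, hi⟩)
  · rintro i ⟨u, hui, hu⟩
    rcases hu with hu | hu
    · exact absurd hu.2 (Set.disjoint_left.1 (bos_capM_ct hG i) hui)
    · obtain ⟨j, hj, huj⟩ := Set.mem_iUnion₂.1 hu
      have hij : j = i := by
        by_contra hne
        exact Set.disjoint_left.1 (bos_capM_disj hG hne) huj hui
      subst hij
      exact fun w hw => Or.inr (Set.mem_iUnion₂.2 ⟨j, hj, hw⟩)

/-- the group stays in `[a, vb]` when the caps meeting `J` end below `vb` -/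
theorem bos_grp_band (hG : BosGeo al r kb ef M cn Lp X Z) {J : Set ℝ} {a vb : ℝ} (hJ : J ⊆ Icc a vb)
    (hcap : ∀ i, Z.cL i < Z.cR i → (Z.capM al i ∩ J).Nonempty → al (Z.cR i) ≤ vb) : bosGrp Z al J a ⊆ Icc a vb := by
  rintro u (hu | hu)
  · exact hJ hu.1
  · obtain ⟨i, ⟨hi, hmeet, ha⟩, hui⟩ := Set.mem_iUnion₂.1 hu
    exact ⟨ha.trans hui.1.le, hui.2.le.trans (hcap i hi hmeet)⟩

/-- "small radius width": a cap meeting `[v1,v2]` lies within `1/M` (radius) of it -/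
theorem bos_cap_near (hG : BosGeo al r kb ef M cn Lp X Z) {v1 v2 : ℝ} (h1 : 0 ≤ v1) (h12 : v1 ≤ v2) (h2 : v2 ≤ 1) {i : ℕ}
    (hi : (Z.capM al i ∩ Icc v1 v2).Nonempty) : r v1 - 1 / M ≤ Z.cL i ∧ Z.cR i ≤ r v2 + 1 / M := by
  obtain ⟨u, hui, huJ⟩ := hi
  have hlen := bos_cap_len hG i
  have hlen' : Z.cR i - Z.cL i ≤ 1 / M := hlen
  have hu01 : u ∈ Icc (0 : ℝ) 1 := ⟨h1.trans huJ.1, huJ.2.trans h2⟩
  have hv1 : v1 ∈ Icc (0 : ℝ) 1 := ⟨h1, h12.trans h2⟩
  have hv2 : v2 ∈ Icc (0 : ℝ) 1 := ⟨h1.trans h12, h2⟩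
  rw [bos_capM_image hG i] at hui
  obtain ⟨x, hx, rfl⟩ := hui
  have hx1 : x ∈ Icc (0 : ℝ) 1 := ⟨(hG.cap_lo i).trans hx.1.le, hx.2.le.trans (hG.cap_hi i)⟩
  have hrm := (bos_r_mono hG).monotoneOn
  have a1 := hrm hv1 hu01 huJ.1
  have a2 := hrm hu01 hv2 huJ.2
  rw [hG.r_al x hx1] at a1 a2
  exact ⟨by linarith [hx.2], by linarith [hx.1]⟩

/-- a band is covered by the floor, its group above `a` and the caps crossing `a` -/
theorem bos_cover_units (hG : BosGeo al r kb ef M cn Lp X Z) {v1 v2 : ℝ} (h1 : 0 ≤ v1) (h2 : v2 ≤ 1) (a : ℝ) :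
    volume (Icc v1 v2 \ (al '' Z.Fl ∪ bosGrp Z al (Icc v1 v2) a
      ∪ ⋃ i ∈ {i | (Z.capM al i ∩ Icc v1 v2).Nonempty ∧ al (Z.cL i) < a}, Z.capM al i)) = 0 := by
  refine measure_mono_null ?_ (bos_cover_mass hG)
  rintro u ⟨huJ, hun⟩
  refine ⟨⟨h1.trans huJ.1, huJ.2.trans h2⟩, fun h => hun ?_⟩
  rcases h with (h | h) | h
  · obtain ⟨i, hi⟩ := mem_iUnion.1 h
    by_cases ha : a ≤ al (Z.cL i)
    · exact Or.inl (Or.inr (Or.inr (Set.mem_iUnion₂.2 ⟨i, ⟨bos_cap_nondeg hG hi, ⟨u, hi, huJ⟩, ha⟩, hi⟩)))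
    · exact Or.inr (Set.mem_iUnion₂.2 ⟨i, ⟨⟨u, hi, huJ⟩, not_le.1 ha⟩, hi⟩)
  · exact Or.inl (Or.inl h)
  · exact Or.inl (Or.inr (Or.inl ⟨huJ, h⟩))

/-- subadditivity of the integral of a nonnegative function -/
theorem bos_union_le {F : ℝ → ℝ} {T s t : Set ℝ} (hFi : IntegrableOn F T) (hF0 : ∀ u, 0 ≤ F u) (hs : s ⊆ T) (ht : t ⊆ T) :
    ∫ u in s ∪ t, F u ≤ (∫ u in s, F u) + ∫ u in t, F u := by
  have h1 : Integrable F (volume.restrict s) := hFi.mono_set hs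
  have h2 : Integrable F (volume.restrict t) := hFi.mono_set ht
  rw [← integral_add_measure h1 h2]
  exact integral_mono_measure (Measure.restrict_union_le s t) (Filter.Eventually.of_forall hF0) (h1.add_measure h2)

/-- `D²` is integrable on `[0,1]` -/
theorem bos_D2_int (hX : X.Ok) : IntegrableOn (fun u => X.D u ^ 2) (Icc (0 : ℝ) 1) :=
  cm_g_intOn (hX.D_meas.pow_const 2) (fun u _ => sq_nonneg _) (fun u hu => pow_le_one₀ (hX.D_nn u hu) (hX.D_le u hu)) subset_rfl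

/-- **splitting the nonfloor part of a band**: at most ONE cap crosses `v1` from below `v1/2` (all of them contain `3 v1/4`) -/
theorem bos_split_nf (hX : X.Ok) (hG : BosGeo al r kb ef M cn Lp X Z) {v1 v2 Bs : ℝ} (h1 : 0 < v1) (h12 : v1 ≤ v2) (h2 : v2 ≤ 1) (hBs0 : 0 ≤ Bs)
    (hBs : ∀ i, al (Z.cL i) < v1 / 2 → v1 < al (Z.cR i) → ∫ u in Ioo (v1 / 2) (al (Z.cR i)), X.D u ^ 2 ≤ Bs) :
    ∫ u in Icc v1 v2 \ al '' Z.Fl, X.D u ^ 2 ≤ (∫ u in bosGrp Z al (Icc v1 v2) (v1 / 2), X.D u ^ 2) + Bs := by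
  have hnull := bos_cover_units hG h1.le h2 (v1 / 2) (v1 := v1) (v2 := v2)
  have hGr := bos_grp_isGroup hG (J := Icc v1 v2) measurableSet_Icc (v1 / 2)
  have hG01 := bos_grp_sub01 hG hGr
  have iD := bos_D2_int hX
  have hF0 : ∀ u, 0 ≤ X.D u ^ 2 := fun u => sq_nonneg _
  by_cases hI : ∃ i0, (Z.capM al i0 ∩ Icc v1 v2).Nonempty ∧ al (Z.cL i0) < v1 / 2
  · obtain ⟨i0, ⟨w, hw1, hw2⟩, hL⟩ := hI
    have hR : v1 < al (Z.cR i0) := lt_of_le_of_lt hw2.1 hw1.2
    have hW01 : Ioo (v1 / 2) (al (Z.cR i0)) ⊆ Icc (0 : ℝ) 1 :=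
      (Ioo_subset_Ioo_left hL.le).trans (bos_capM_sub hG i0)
    have hae : (Icc v1 v2 \ al '' Z.Fl : Set ℝ) ≤ᵐ[volume] (bosGrp Z al (Icc v1 v2) (v1 / 2) ∪ Ioo (v1 / 2) (al (Z.cR i0)) : Set ℝ) := by
      rw [ae_le_set]
      refine measure_mono_null ?_ hnull
      rintro u ⟨⟨huJ, huF⟩, hun⟩
      refine ⟨huJ, fun h => hun ?_⟩
      rcases h with (h | h) | h
      · exact absurd h huF
      · exact Or.inl h
      · obtain ⟨i, ⟨⟨w', hw1', hw2'⟩, hL'⟩, hui⟩ := Set.mem_iUnion₂.1 h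
        have hii : i = i0 := by
          by_contra hne
          have m1 : 3 * v1 / 4 ∈ Z.capM al i := ⟨by linarith, by linarith [hw1'.2, hw2'.1]⟩
          have m2 : 3 * v1 / 4 ∈ Z.capM al i0 := ⟨by linarith, by linarith⟩
          exact Set.disjoint_left.1 (bos_capM_disj hG hne) m1 m2
        subst hii
        exact Or.inr ⟨by linarith [huJ.1], hui.2⟩
    calc ∫ u in Icc v1 v2 \ al '' Z.Fl, X.D u ^ 2
        ≤ ∫ u in bosGrp Z al (Icc v1 v2) (v1 / 2) ∪ Ioo (v1 / 2) (al (Z.cR i0)), X.D u ^ 2 :=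
          setIntegral_mono_set (iD.mono_set (union_subset hG01 hW01)) (Filter.Eventually.of_forall hF0) hae
      _ ≤ (∫ u in bosGrp Z al (Icc v1 v2) (v1 / 2), X.D u ^ 2) + ∫ u in Ioo (v1 / 2) (al (Z.cR i0)), X.D u ^ 2 :=
          bos_union_le iD hF0 hG01 hW01
      _ ≤ _ := by linarith [hBs i0 hL hR]
  · push Not at hI
    have hae : (Icc v1 v2 \ al '' Z.Fl : Set ℝ) ≤ᵐ[volume] (bosGrp Z al (Icc v1 v2) (v1 / 2) : Set ℝ) := by
      rw [ae_le_set]
      refine measure_mono_null ?_ hnull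
      rintro u ⟨⟨huJ, huF⟩, hun⟩
      refine ⟨huJ, fun h => hun ?_⟩
      rcases h with (h | h) | h
      · exact absurd h huF
      · exact h
      · obtain ⟨i, ⟨hm, hL'⟩, hui⟩ := Set.mem_iUnion₂.1 h
        exact absurd hL' (not_lt.2 (hI i hm))
    have := setIntegral_mono_set (iD.mono_set hG01) (Filter.Eventually.of_forall hF0) hae
    linarith

/-- **the group of a band**: `bos_grp_isGroup`, `bos_grp_band`, `bos_br_geo` (with `v = v1/2`, `Gam = Γ`), `cm_brR_opt` -/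
theorem bos_ord (hX : X.Ok) (hG : BosGeo al r kb ef M cn Lp X Z) {v1 v2 vb Γ y0 eg th Cq : ℝ} {qq : ℕ}
    (h1 : 0 < v1) (h12 : v1 ≤ v2) (h2b : v2 ≤ vb) (hb1 : vb ≤ 1) (hΓ : 2 * vb ≤ Γ * v1)
    (hy0 : 0 < y0) (heg0 : 0 < eg) (hth : 0 < th) (hCq : 0 ≤ Cq) (hqq : 3 ≤ qq)
    (hcap : ∀ i, Z.cL i < Z.cR i → (Z.capM al i ∩ Icc v1 v2).Nonempty → al (Z.cR i) ≤ vb)
    (heg : ∀ u ∈ Icc (v1 / 2) vb, eg ≤ ef (r u)) (hS : ∀ u ∈ Icc (v1 / 2) vb, X.S u ≤ y0)
    (hNX : ∀ u ∈ Icc (v1 / 2) vb, X.NX qq u ≤ Cq * Real.sqrt y0) :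
    ∫ u in bosGrp Z al (Icc v1 v2) (v1 / 2), X.D u ^ 2 ≤
      cm6bOrd Γ (v1 / 2) y0 (3 * Lp / M) (cmQ4 (3 * Lp / M) Cq y0 qq) (3 * Lp / (cn * eg)) th := by
  have hM0 : 0 < M := lt_trans one_pos hG.M1
  have hcn := hG.cn0
  have hLp : 0 < Lp := lt_of_lt_of_le one_pos hG.Lp1
  have hvb : 0 < vb := lt_of_lt_of_le h1 (h12.trans h2b)
  have hΓ2 : 2 ≤ Γ := by
    by_contra h
    push Not at h
    have : Γ * v1 < 2 * v1 := mul_lt_mul_of_pos_right h h1
    linarith [h12.trans h2b]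
  have hΓ1 : 1 ≤ Γ := by linarith
  have hΓ0 : 0 < Γ := by linarith
  have hGr := bos_grp_isGroup hG (J := Icc v1 v2) measurableSet_Icc (v1 / 2)
  have hsub : bosGrp Z al (Icc v1 v2) (v1 / 2) ⊆ Icc (v1 / 2) vb :=
    bos_grp_band hG (Icc_subset_Icc (by linarith) h2b) hcap
  have hv : 0 < v1 / 2 := by positivity
  have hband : bosGrp Z al (Icc v1 v2) (v1 / 2) ⊆ Icc (v1 / 2 / Γ) (Γ * (v1 / 2)) := by
    refine hsub.trans (Icc_subset_Icc ?_ (by linarith))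
    rw [div_le_iff₀ hΓ0]
    nlinarith
  have hω0 : 0 ≤ 3 * Lp / M := by positivity
  have hT0 : 0 < 3 * Lp / (cn * eg) := by positivity
  have hV : (volume (bosGrp Z al (Icc v1 v2) (v1 / 2))).toReal ≤ Γ * (v1 / 2) := by
    apply ENNReal.toReal_le_of_le_ofReal (by positivity)
    refine (measure_mono hsub).trans ?_
    rw [Real.volume_Icc]
    apply ENNReal.ofReal_le_ofReal
    linarith
  obtain ⟨k0, hk0, _, hopt⟩ := cm_brR_opt (V := (volume (bosGrp Z al (Icc v1 v2) (v1 / 2))).toReal) (v := v1 / 2) (Gam := Γ) (y0 := y0)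
    (ω := 3 * Lp / M) (q4 := cmQ4 (3 * Lp / M) Cq y0 qq) (T := 3 * Lp / (cn * eg)) (th := th) ENNReal.toReal_nonneg hV hv hΓ1 hy0 hω0
    (cm_g_q4_nonneg hω0 hCq qq) hT0 hth
  have hbr := bos_br_geo hX hG hGr (v := v1 / 2) (Gam := Γ) (y0 := y0) (eg := eg) (th := th) (Cq := Cq) (qq := qq) (k0 := k0)
    hv hΓ1 hy0 heg0 hth hCq hqq hk0 hband (fun u hu => heg u (hsub hu)) (fun u hu => hS u (hsub hu)) (fun u hu => hNX u (hsub hu))
  exact hbr.trans hopt

/-- **the crossing cap**: `bos_br_slice` on `(v1/2, α(cR))`, of length `≥ v1/2` -/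
theorem bos_cross (hX : X.Ok) (hG : BosGeo al r kb ef M cn Lp X Z) {v1 vb y0 eg Cq : ℝ} {qq : ℕ} {i : ℕ}
    (h1 : 0 < v1) (hb1 : vb ≤ 1) (hy0 : 0 < y0) (heg0 : 0 < eg) (hCq : 0 ≤ Cq) (hqq : 3 ≤ qq)
    (hL : al (Z.cL i) < v1 / 2) (hR : v1 < al (Z.cR i)) (hRb : al (Z.cR i) ≤ vb)
    (heg : ∀ u ∈ Icc (v1 / 2) vb, eg ≤ ef (r u)) (hNX : ∀ u ∈ Icc (v1 / 2) vb, X.NX qq u ≤ Cq * Real.sqrt y0) :
    ∫ u in Ioo (v1 / 2) (al (Z.cR i)), X.D u ^ 2 ≤ bosSl v1 vb (3 * Lp / M) (cmQ4 (3 * Lp / M) Cq y0 qq) (3 * Lp / (cn * eg)) := by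
  have hM0 : 0 < M := lt_trans one_pos hG.M1
  have hcn := hG.cn0
  have hLp : 0 < Lp := lt_of_lt_of_le one_pos hG.Lp1
  have hcL : Z.cL i ∈ Icc (0 : ℝ) 1 := ⟨hG.cap_lo i, (hG.cap_le i).trans (hG.cap_hi i)⟩
  have hL0 := (bos_al_mem hG hcL).1
  have ha : 0 < v1 / 2 := by positivity
  have hab : v1 / 2 < al (Z.cR i) := by linarith
  have hsub : Ioo (v1 / 2) (al (Z.cR i)) ⊆ Z.capM al i := Ioo_subset_Ioo_left hL.le
  have hsub2 : Ioo (v1 / 2) (al (Z.cR i)) ⊆ Icc (v1 / 2) vb := fun u hu => ⟨hu.1.le, hu.2.le.trans hRb⟩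
  have h := bos_br_slice hX hG (i := i) (a := v1 / 2) (b := al (Z.cR i)) (y0 := y0) (eg := eg) (Cq := Cq) (qq := qq) ha hab hsub hy0 heg0 hCq hqq
    (fun u hu => heg u (hsub2 hu)) (fun u hu => hNX u (hsub2 hu))
  refine h.trans ?_
  unfold bosSl
  have hω0 : 0 ≤ 3 * Lp / M := by positivity
  have hq4 := cm_g_q4_nonneg (y0 := y0) hω0 hCq qq
  have hT0 : 0 ≤ 3 * Lp / (cn * eg) := by positivity
  generalize cmQ4 (3 * Lp / M) Cq y0 qq = q4 at hq4 ⊢
  generalize 3 * Lp / (cn * eg) = T at hT0 ⊢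
  generalize 3 * Lp / M = ω at hω0 ⊢
  have hvb : 0 < vb := by linarith
  have t1 : (al (Z.cR i) - v1 / 2) * (ω ^ 2 + q4) ≤ vb * (ω ^ 2 + q4) :=
    mul_le_mul_of_nonneg_right (by linarith) (by positivity)
  have hinv : 1 / (v1 / 2) ^ 2 + 1 / (v1 / 2 * (al (Z.cR i) - v1 / 2)) ≤ 8 / v1 ^ 2 := by
    have e1 : 1 / (v1 / 2) ^ 2 = 4 / v1 ^ 2 := by field_simp; ring
    have e2 : 1 / (v1 / 2 * (al (Z.cR i) - v1 / 2)) ≤ 4 / v1 ^ 2 := by
      rw [div_le_div_iff₀ (mul_pos ha (by linarith)) (by positivity)]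
      have : v1 / 2 * (v1 / 2) ≤ v1 / 2 * (al (Z.cR i) - v1 / 2) := mul_le_mul_of_nonneg_left (by linarith) ha.le
      linarith
    have e3 : 8 / v1 ^ 2 = 4 / v1 ^ 2 + 4 / v1 ^ 2 := by ring
    rw [e1, e3]; linarith
  have t2 : T * (al (Z.cR i) - al (Z.cL i)) ≤ T * vb := mul_le_mul_of_nonneg_left (by linarith) hT0
  have t3 : (1 / (v1 / 2) ^ 2 + 1 / (v1 / 2 * (al (Z.cR i) - v1 / 2))) * (T * (al (Z.cR i) - al (Z.cL i))) ≤ 8 / v1 ^ 2 * (T * vb) :=
    mul_le_mul hinv t2 (mul_nonneg hT0 (by linarith)) (by positivity)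
  linarith

/-- **EXIT: THE NONFLOOR BAND LEMMA** = PE (20)-(21) on the caps and contacts of the mass band `[v1,v2]` (LL l.360, l.489-499, l.1611-1617).   TEX[LL:bud:outer-second] -/
theorem bos_band_nf (hX : X.Ok) (hG : BosGeo al r kb ef M cn Lp X Z) {v1 v2 vb Γ y0 eg th Cq : ℝ} {qq : ℕ}
    (h1 : 0 < v1) (h12 : v1 ≤ v2) (h2b : v2 ≤ vb) (hb1 : vb ≤ 1) (hΓ : 2 * vb ≤ Γ * v1)
    (hy0 : 0 < y0) (heg0 : 0 < eg) (hth : 0 < th) (hCq : 0 ≤ Cq) (hqq : 3 ≤ qq)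
    (hcap : ∀ i, Z.cL i < Z.cR i → (Z.capM al i ∩ Icc v1 v2).Nonempty → al (Z.cR i) ≤ vb)
    (heg : ∀ u ∈ Icc (v1 / 2) vb, eg ≤ ef (r u)) (hS : ∀ u ∈ Icc (v1 / 2) vb, X.S u ≤ y0)
    (hNX : ∀ u ∈ Icc (v1 / 2) vb, X.NX qq u ≤ Cq * Real.sqrt y0) :
    ∫ u in Icc v1 v2 \ al '' Z.Fl, X.D u ^ 2 ≤
      cm6bOrd Γ (v1 / 2) y0 (3 * Lp / M) (cmQ4 (3 * Lp / M) Cq y0 qq) (3 * Lp / (cn * eg)) th
        + bosSl v1 vb (3 * Lp / M) (cmQ4 (3 * Lp / M) Cq y0 qq) (3 * Lp / (cn * eg)) := by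
  have hM0 : 0 < M := lt_trans one_pos hG.M1
  have hcn := hG.cn0
  have hLp : 0 < Lp := lt_of_lt_of_le one_pos hG.Lp1
  have hvb : 0 < vb := lt_of_lt_of_le h1 (h12.trans h2b)
  have hω0 : 0 ≤ 3 * Lp / M := by positivity
  have hq4 := cm_g_q4_nonneg (y0 := y0) hω0 hCq qq
  have hBs0 : 0 ≤ bosSl v1 vb (3 * Lp / M) (cmQ4 (3 * Lp / M) Cq y0 qq) (3 * Lp / (cn * eg)) := by
    unfold bosSl
    positivity
  have hsplit := bos_split_nf hX hG h1 h12 (h2b.trans hb1) hBs0 (fun i hL hR => by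
    have hv1 : v1 ∈ Z.capM al i := ⟨by linarith, hR⟩
    exact bos_cross hX hG h1 hb1 hy0 heg0 hCq hqq hL hR (hcap i (bos_cap_nondeg hG hv1) ⟨v1, hv1, le_rfl, h12⟩) heg hNX)
  have hord := bos_ord hX hG h1 h12 h2b hb1 hΓ hy0 heg0 hth hCq hqq hcap heg hS hNX
  linarith

/-- the floor part of a band, in radius -/
theorem bos_band_fl (hX : X.Ok) (hG : BosGeo al r kb ef M cn Lp X Z) {v1 v2 : ℝ} (h1 : 0 ≤ v1) (h12 : v1 ≤ v2) (h2 : v2 ≤ 1) :
    ∫ u in al '' Z.Fl ∩ Icc v1 v2, X.D u ^ 2 ≤ ∫ x in (r v1)..(r v2), X.D (al x) ^ 2 * kb x := by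
  have hv1 : v1 ∈ Icc (0 : ℝ) 1 := ⟨h1, h12.trans h2⟩
  have hv2 : v2 ∈ Icc (0 : ℝ) 1 := ⟨h1.trans h12, h2⟩
  have hr12 : r v1 ≤ r v2 := (bos_r_mono hG).monotoneOn hv1 hv2 h12
  have key := bos_floor_int hG h1 h12 h2 (fun u => min (X.D u ^ 2) 1) ((hX.D_meas.pow_const 2).min measurable_const)
    (fun u => le_min (sq_nonneg _) zero_le_one) ⟨1, fun u => min_le_right _ _⟩
  have hmin : ∀ u ∈ Icc (0 : ℝ) 1, min (X.D u ^ 2) 1 = X.D u ^ 2 := fun u hu =>
    min_eq_left (pow_le_one₀ (hX.D_nn u hu) (hX.D_le u hu))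
  have hFlm : MeasurableSet (al '' Z.Fl) := bos_al_meas hG hG.fl_sub hG.fl_meas
  have e1 : ∫ u in al '' Z.Fl ∩ Icc v1 v2, min (X.D u ^ 2) 1 = ∫ u in al '' Z.Fl ∩ Icc v1 v2, X.D u ^ 2 :=
    setIntegral_congr_fun (hFlm.inter measurableSet_Icc) (fun u hu => hmin u ⟨h1.trans hu.2.1, hu.2.2.trans h2⟩)
  have e2 : ∫ x in (r v1)..(r v2), min (X.D (al x) ^ 2) 1 * kb x = ∫ x in (r v1)..(r v2), X.D (al x) ^ 2 * kb x := by
    apply intervalIntegral.integral_congr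
    intro x hx
    rw [uIcc_of_le hr12] at hx
    have hx1 : x ∈ Icc (0 : ℝ) 1 := ⟨(hG.r_mem v1 hv1).1.trans hx.1, hx.2.trans (hG.r_mem v2 hv2).2⟩
    simp only
    rw [hmin _ (bos_al_mem hG hx1)]
  rw [e1, e2] at key
  exact key

/-- **EXIT: THE BAND LEMMA** -/
theorem bos_band (hX : X.Ok) (hG : BosGeo al r kb ef M cn Lp X Z) {v1 v2 vb Γ y0 eg th Cq : ℝ} {qq : ℕ}
    (h1 : 0 < v1) (h12 : v1 ≤ v2) (h2b : v2 ≤ vb) (hb1 : vb ≤ 1) (hΓ : 2 * vb ≤ Γ * v1)
    (hy0 : 0 < y0) (heg0 : 0 < eg) (hth : 0 < th) (hCq : 0 ≤ Cq) (hqq : 3 ≤ qq)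
    (hcap : ∀ i, Z.cL i < Z.cR i → (Z.capM al i ∩ Icc v1 v2).Nonempty → al (Z.cR i) ≤ vb)
    (heg : ∀ u ∈ Icc (v1 / 2) vb, eg ≤ ef (r u)) (hS : ∀ u ∈ Icc (v1 / 2) vb, X.S u ≤ y0)
    (hNX : ∀ u ∈ Icc (v1 / 2) vb, X.NX qq u ≤ Cq * Real.sqrt y0) :
    ∫ u in Icc v1 v2, X.D u ^ 2 ≤
      cm6bOrd Γ (v1 / 2) y0 (3 * Lp / M) (cmQ4 (3 * Lp / M) Cq y0 qq) (3 * Lp / (cn * eg)) th
        + bosSl v1 vb (3 * Lp / M) (cmQ4 (3 * Lp / M) Cq y0 qq) (3 * Lp / (cn * eg))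
        + ∫ x in (r v1)..(r v2), X.D (al x) ^ 2 * kb x := by
  have hFlm : MeasurableSet (al '' Z.Fl) := bos_al_meas hG hG.fl_sub hG.fl_meas
  have hJ01 : Icc v1 v2 ⊆ Icc (0 : ℝ) 1 := Icc_subset_Icc h1.le (h2b.trans hb1)
  have iD := (bos_D2_int hX).mono_set hJ01
  have hnf := bos_band_nf hX hG h1 h12 h2b hb1 hΓ hy0 heg0 hth hCq hqq hcap heg hS hNX
  have hfl := bos_band_fl hX hG h1.le h12 (h2b.trans hb1)
  have hsplit : ∫ u in Icc v1 v2, X.D u ^ 2
      = (∫ u in Icc v1 v2 ∩ al '' Z.Fl, X.D u ^ 2) + ∫ u in Icc v1 v2 \ al '' Z.Fl, X.D u ^ 2 :=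
    (integral_inter_add_sdiff hFlm iD).symm
  rw [inter_comm] at hsplit
  linarith

/-- the floor `kb = k + κ 1_{[a,b]}`: the `k`-part uses the raw bound, the `κ`-part the whole patch -/
theorem bos_floor_split (hX : X.Ok) (hG : BosGeo al r kb ef M cn Lp X Z) {k : ℝ → ℝ} {κ a b s t yR : ℝ} (hkm : Measurable k)
    (hk0 : ∀ x ∈ Icc (0 : ℝ) 1, 0 ≤ k x) (hκ : 0 ≤ κ) (hkb : ∀ x ∈ Icc (0 : ℝ) 1, kb x = k x + if x ∈ Icc a b then κ else 0)
    (ha : 0 ≤ a) (hab : a ≤ b) (hb : b ≤ 1) (hs : 0 ≤ s) (hst : s ≤ t) (ht : t ≤ 1) (hyR : ∀ x ∈ Icc s t, X.D (al x) ≤ yR) :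
    ∫ x in s..t, X.D (al x) ^ 2 * kb x ≤ yR ^ 2 * (∫ x in s..t, k x) + if s ≤ b ∧ a ≤ t then κ * ∫ x in a..b, X.D (al x) ^ 2 else 0 := by
  have hM0 : 0 < M := lt_trans one_pos hG.M1
  have hJ01 : Ioc s t ⊆ Icc (0 : ℝ) 1 := fun x hx => ⟨hs.trans hx.1.le, hx.2.trans ht⟩
  have hI01 : Icc a b ⊆ Icc (0 : ℝ) 1 := Icc_subset_Icc ha hb
  have hdm : Measurable fun x => X.D (al x) ^ 2 := (hX.D_meas.comp hG.al_meas).pow_const 2
  have hd0 : ∀ x, 0 ≤ X.D (al x) ^ 2 := fun x => sq_nonneg _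
  have hd1 : ∀ x ∈ Icc (0 : ℝ) 1, X.D (al x) ^ 2 ≤ 1 := fun x hx =>
    pow_le_one₀ (hX.D_nn _ (bos_al_mem hG hx)) (hX.D_le _ (bos_al_mem hG hx))
  have hkM : ∀ x ∈ Icc (0 : ℝ) 1, k x ≤ M := fun x hx => by
    have h1 := hG.kb_le x hx
    rw [hkb x hx] at h1
    have : (0 : ℝ) ≤ if x ∈ Icc a b then κ else 0 := by split_ifs <;> linarith
    linarith
  have ik : IntegrableOn k (Ioc s t) := cm_g_intOn hkm hk0 hkM hJ01
  have id01 : IntegrableOn (fun x => X.D (al x) ^ 2) (Icc (0 : ℝ) 1) := cm_g_intOn hdm (fun x _ => hd0 x) hd1 subset_rfl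
  have iind : IntegrableOn ((Icc a b).indicator fun x => X.D (al x) ^ 2) (Ioc s t) :=
    (id01.mono_set hJ01).indicator measurableSet_Icc
  rw [intervalIntegral.integral_of_le hst, intervalIntegral.integral_of_le hst]
  have step1 : ∫ x in Ioc s t, X.D (al x) ^ 2 * kb x
      ≤ ∫ x in Ioc s t, (yR ^ 2 * k x + κ * (Icc a b).indicator (fun x => X.D (al x) ^ 2) x) := by
    apply integral_mono_of_nonneg _ ((ik.const_mul _).add (iind.const_mul _))
    · filter_upwards [ae_restrict_mem measurableSet_Ioc] with x hx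
      have hx1 := hJ01 hx
      show X.D (al x) ^ 2 * kb x ≤ yR ^ 2 * k x + κ * (Icc a b).indicator (fun x => X.D (al x) ^ 2) x
      rw [hkb x hx1]
      have h1 : X.D (al x) ^ 2 ≤ yR ^ 2 :=
        pow_le_pow_left₀ (hX.D_nn _ (bos_al_mem hG hx1)) (hyR x ⟨hx.1.le, hx.2⟩) 2
      have h2 := mul_le_mul_of_nonneg_right h1 (hk0 x hx1)
      by_cases hxI : x ∈ Icc a b
      · rw [if_pos hxI, indicator_of_mem hxI]
        linarith
      · rw [if_neg hxI, indicator_of_notMem hxI]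
        linarith
    · filter_upwards [ae_restrict_mem measurableSet_Ioc] with x hx
      have hx1 := hJ01 hx
      obtain ⟨kmin, hk1, hk2⟩ := hG.kb_pos
      exact mul_nonneg (hd0 x) (hk1.le.trans (hk2 x hx1))
  refine step1.trans ?_
  rw [integral_add (ik.const_mul _) (iind.const_mul _), integral_const_mul, integral_const_mul,
    setIntegral_indicator measurableSet_Icc]
  have step2 : κ * ∫ x in Ioc s t ∩ Icc a b, X.D (al x) ^ 2 ≤ if s ≤ b ∧ a ≤ t then κ * ∫ x in a..b, X.D (al x) ^ 2 else 0 := by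
    split_ifs with h
    · apply mul_le_mul_of_nonneg_left _ hκ
      rw [intervalIntegral.integral_of_le hab, ← integral_Icc_eq_integral_Ioc]
      exact setIntegral_mono_set (id01.mono_set hI01) (Filter.Eventually.of_forall hd0)
        (Filter.Eventually.of_forall inter_subset_right)
    · have he : Ioc s t ∩ Icc a b = ∅ := by
        ext x
        simp only [mem_inter_iff, mem_Ioc, mem_Icc, mem_empty_iff_false, iff_false]
        rintro ⟨⟨x1, x2⟩, x3, x4⟩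
        exact h ⟨by linarith, by linarith⟩
      rw [he]
      simp
  linarith

/-- the extra floor: `κ ∫_I D² dr ≤ bosKap` (`bos_sw_opt` with `k0 = κ`; trivial if `κ = 0`).      LL l.427-433 -/
theorem bos_patch (hX : X.Ok) (hG : BosGeo al r kb ef M cn Lp X Z) {κ a b v0 e0 sg R : ℝ} (hκ : 0 ≤ κ) (hkb : ∀ x ∈ Icc a b, κ ≤ kb x)
    (ha : 0 ≤ a) (hab : a ≤ b) (hb : b ≤ 1) (hv0 : 0 < v0) (hv : v0 ≤ al a) (he0 : 0 < e0) (he : ∀ x ∈ Icc a b, e0 ≤ ef x)
    (hsg : X.S (al b) - X.S (al a) ≤ sg) (hR : ∀ x ∈ Icc a b, X.D (al x) ≤ R) (hR0 : 0 < R) :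
    κ * ∫ x in a..b, X.D (al x) ^ 2 ≤ bosKap κ R sg cn e0 v0 := by
  rcases hκ.eq_or_lt with h0 | hκ0
  · rw [← h0]
    unfold bosKap
    simp
  have hcn := hG.cn0
  have ha1 : a ∈ Icc (0 : ℝ) 1 := ⟨ha, hab.trans hb⟩
  have hb1 : b ∈ Icc (0 : ℝ) 1 := ⟨ha.trans hab, hb⟩
  have hsg0 : 0 ≤ sg := by
    have h1 := (bos_al_strictMono hG).monotoneOn ha1 hb1 hab
    have h2 := hX.S_mono (bos_al_mem hG ha1) (bos_al_mem hG hb1) h1
    linarith
  obtain ⟨kmin, hk1, hk2⟩ := hG.kb_pos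
  have ikb : IntegrableOn kb (Icc (0 : ℝ) 1) := cm_g_intOn hG.kb_meas (fun x hx => hk1.le.trans (hk2 x hx)) hG.kb_le subset_rfl
  have hk : ∀ s t : ℝ, a ≤ s → s ≤ t → t ≤ b → κ * (t - s) ≤ al t - al s := by
    intro s t hs hst ht
    refine le_trans ?_ (hG.lo s t (ha.trans hs) hst (ht.trans hb))
    have hsub : Icc s t ⊆ Icc (0 : ℝ) 1 := Icc_subset_Icc (ha.trans hs) (ht.trans hb)
    have hi : IntervalIntegrable kb volume s t :=
      (intervalIntegrable_iff_integrableOn_Icc_of_le hst).2 (ikb.mono_set hsub)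
    have := intervalIntegral.integral_mono_on hst (intervalIntegrable_const (c := κ)) hi
      (fun x hx => hkb x ⟨hs.trans hx.1, hx.2.trans ht⟩)
    rw [intervalIntegral.integral_const, smul_eq_mul] at this
    linarith
  have main := bos_sw_opt hX hG ha hab hb hκ0 hk hv0 hv he0 he hsg hR hR0
  have h2 := mul_le_mul_of_nonneg_left main hκ
  refine h2.trans (le_of_eq ?_)
  unfold bosKap
  have e1 : (R ^ 2 + sg ^ 2) * sg / (cn * e0 * v0 * κ) = ((R ^ 2 + sg ^ 2) * sg / (cn * e0 * v0)) / κ := by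
    field_simp
  have e2 : Real.sqrt (κ * ((R ^ 2 + sg ^ 2) * sg / (cn * e0 * v0))) = κ * Real.sqrt (((R ^ 2 + sg ^ 2) * sg / (cn * e0 * v0)) / κ) := by
    have : κ * ((R ^ 2 + sg ^ 2) * sg / (cn * e0 * v0)) = κ ^ 2 * (((R ^ 2 + sg ^ 2) * sg / (cn * e0 * v0)) / κ) := by
      field_simp
    rw [this, Real.sqrt_mul (sq_nonneg κ), Real.sqrt_sq hκ]
  rw [e1, e2]
  ring

/-- **EXIT: (C10), non-asymptotic.**   Band `[v1,v2]`, caps meeting it end below `vb`; floor `k + κ 1_{[a,b]}`.   TEX[LL:bud:outer-second] -/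
theorem bos_c10 (hX : X.Ok) (hG : BosGeo al r kb ef M cn Lp X Z) {k : ℝ → ℝ} {v1 v2 vb Γ y0 eg th Cq yR κ a b v0 e0 sg R : ℝ} {qq : ℕ}
    (h1 : 0 < v1) (h12 : v1 ≤ v2) (h2b : v2 ≤ vb) (hb1 : vb ≤ 1) (hΓ : 2 * vb ≤ Γ * v1)
    (hy0 : 0 < y0) (heg0 : 0 < eg) (hth : 0 < th) (hCq : 0 ≤ Cq) (hqq : 3 ≤ qq)
    (hcap : ∀ i, Z.cL i < Z.cR i → (Z.capM al i ∩ Icc v1 v2).Nonempty → al (Z.cR i) ≤ vb)
    (heg : ∀ u ∈ Icc (v1 / 2) vb, eg ≤ ef (r u)) (hS : ∀ u ∈ Icc (v1 / 2) vb, X.S u ≤ y0)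
    (hNX : ∀ u ∈ Icc (v1 / 2) vb, X.NX qq u ≤ Cq * Real.sqrt y0) (hyR : ∀ u ∈ Icc v1 v2, X.D u ≤ yR)
    (hkm : Measurable k) (hk0 : ∀ x ∈ Icc (0 : ℝ) 1, 0 ≤ k x) (hκ : 0 ≤ κ)
    (hkb : ∀ x ∈ Icc (0 : ℝ) 1, kb x = k x + if x ∈ Icc a b then κ else 0) (ha : 0 ≤ a) (hab : a ≤ b) (hb : b ≤ 1)
    (hv0 : 0 < v0) (hv : v0 ≤ al a) (he0 : 0 < e0) (he : ∀ x ∈ Icc a b, e0 ≤ ef x)
    (hsg : X.S (al b) - X.S (al a) ≤ sg) (hR : ∀ x ∈ Icc a b, X.D (al x) ≤ R) (hR0 : 0 < R) :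
    ∫ u in Icc v1 v2, X.D u ^ 2 ≤
      cm6bOrd Γ (v1 / 2) y0 (3 * Lp / M) (cmQ4 (3 * Lp / M) Cq y0 qq) (3 * Lp / (cn * eg)) th
        + bosSl v1 vb (3 * Lp / M) (cmQ4 (3 * Lp / M) Cq y0 qq) (3 * Lp / (cn * eg))
        + yR ^ 2 * (∫ x in (r v1)..(r v2), k x) + if r v1 ≤ b ∧ a ≤ r v2 then bosKap κ R sg cn e0 v0 else 0 := by
  have hv1 : v1 ∈ Icc (0 : ℝ) 1 := ⟨h1.le, (h12.trans h2b).trans hb1⟩
  have hv2 : v2 ∈ Icc (0 : ℝ) 1 := ⟨h1.le.trans h12, h2b.trans hb1⟩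
  have hr12 : r v1 ≤ r v2 := (bos_r_mono hG).monotoneOn hv1 hv2 h12
  have hband := bos_band hX hG h1 h12 h2b hb1 hΓ hy0 heg0 hth hCq hqq hcap heg hS hNX
  have hfl := bos_floor_split hX hG (k := k) (κ := κ) (a := a) (b := b) (s := r v1) (t := r v2) (yR := yR) hkm hk0 hκ hkb ha hab hb
    (hG.r_mem v1 hv1).1 hr12 (hG.r_mem v2 hv2).2 (fun x hx => by
      have hx1 : x ∈ Icc (0 : ℝ) 1 := ⟨(hG.r_mem v1 hv1).1.trans hx.1, hx.2.trans (hG.r_mem v2 hv2).2⟩
      have ham := (bos_al_strictMono hG).monotoneOn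
      have a1 := ham (hG.r_mem v1 hv1) hx1 hx.1
      have a2 := ham hx1 (hG.r_mem v2 hv2) hx.2
      rw [hG.al_r v1 hv1] at a1
      rw [hG.al_r v2 hv2] at a2
      exact hyR _ ⟨a1, a2⟩)
  have hpatch := bos_patch hX hG (κ := κ) (a := a) (b := b) hκ (fun x hx => by
      rw [hkb x ⟨ha.trans hx.1, hx.2.trans hb⟩, if_pos hx]
      linarith [hk0 x ⟨ha.trans hx.1, hx.2.trans hb⟩]) ha hab hb hv0 hv he0 he hsg hR hR0
  have hif : (if r v1 ≤ b ∧ a ≤ r v2 then κ * ∫ x in a..b, X.D (al x) ^ 2 else 0)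
      ≤ if r v1 ≤ b ∧ a ≤ r v2 then bosKap κ R sg cn e0 v0 else 0 := by
    split_ifs
    · exact hpatch
    · exact le_rfl
  linarith

end

end Claimed.Agent.R286
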