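import Claimed.Agent.R286.Bud.HpFr
import Claimed.Agent.R286.Bud.Sec
import Claimed.Agent.R286.Cmp.DefsSk
import Claimed.Agent.R286.Bud.EnvA
import Claimed.Agent.R286.Bud.SecInst
import Claimed.Agent.R286.Bud.Brg248
import Claimed.Agent.R286.Bud.HubA

/-!
# Row 286, LL sec. 7, node N15 = Lemma `bud:high-primitive`: THE FIRST OPTION `BudHpTr`      (owner helper8; prefix `hp_tr_`, `bud_hp_tr_`)

TEX[LL:bud:high-primitive] l.1691-1695: "For the first bound integrate `E W` using PE (20) on comparable caps and contact, and in radius on the floor.  Complete a partial cap before estimating it.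
This option also holds on the plateau."      ENDS IN `bud_hp_tr : … → BudHpTr X W Fam` (the input of `Bud/HpFr.lean`).

* §1 `hp_tr_band` (ABSTRACT, on 111's `BosGeo` of `Bud/Sec.lean`; PROVED from his leaves `bos_group_trace`, `bos_ut_unit`, `bos_ut_ct_mass`, `bos_floor_int`, `bos_ut_rad`, `bos_cover_units`):
      `∫_{[v1,v2]} E tr H² ≤ (3 Lp vb + S(v2) - S(v1))/(cn eg)` if the caps meeting the band end below `vb`, `ef ≥ eg` on the radii `≤ r(vb)`, floor density `≤ 1` on the band.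
* §2 `BudHpGeo`: every minimiser has a `BosGeo` (FROZEN maps `al r kb`, equal to `Q.al Q.r kbar` on `[0,1]`: `Q.al`, `Q.r` need not be measurable outside) with `ef = C`, `cn = m/Lp`, the numbers `cmkNum` of the extended changed clocks, `Lp ≲ log N`.
      NO LONGER AN INPUT: `bud_hp_geo : BdStd → IsHub → ∃ CLp, BudHpGeo` PROVED in §4 from 111's `bos_geo_inst0`, 109's `bud_n4_geo`, 248's `bdg_base`.
* §5 `bud_hp_in_of : BdStd → BdHpStd → Bd7C7a → Bd7Raw → BudHpRaw → (order of constants) → BudHpIn` = ALL inputs of N15 from the exits of LL 03, N5, N9 (PROVED; called by `bi_hpin`, `Bud/Inst.lean`).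
* §3 frame level: `bud_hp_tr_wc`, `bud_hp_tr_kbar`, `bud_hp_tr_cap`, `bud_hp_tr_eg`, `bud_hp_tr_one` (one dyad, closed form), `bud_hp_tr` (sub-power form).
-/

set_option autoImplicit false

namespace Claimed.Agent.R286

open MeasureTheory Set Filter Topology

noncomputable section

/-! ## 1. The trace of a band (abstract) -/

section abs

variable {al r kb ef : ℝ → ℝ} {M cn Lp : ℝ} {X : CmNum} {Z : CmCaps}

/-- a bounded measurable function is integrable on a subset of `[0,1]` -/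
theorem hp_tr_intOn (hX : X.Ok) {s : Set ℝ} (hs : s ⊆ Icc (0 : ℝ) 1) : IntegrableOn X.TH s :=
  cm_g_intOn hX.TH_meas hX.TH_nn hX.TH_le hs

/-- the group of a band: PE (20) on complete caps and on contact -/
theorem hp_tr_grp (hX : X.Ok) (hG : BosGeo al r kb ef M cn Lp X Z) {v1 v2 vb eg : ℝ} (h1 : 0 ≤ v1) (h12 : v1 ≤ v2) (h2b : v2 ≤ vb)
    (hb1 : vb ≤ 1) (hcap : ∀ i, Z.cL i < Z.cR i → (Z.capM al i ∩ Icc v1 v2).Nonempty → al (Z.cR i) ≤ vb)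
    (heg0 : 0 < eg) (heg : ∀ x ∈ Icc 0 (r vb), eg ≤ ef x) :
    ∫ u in bosGrp Z al (Icc v1 v2) 0, X.TH u ≤ 3 * Lp / (cn * eg) * vb := by
  have hcn := hG.cn0
  have hLp : 0 < Lp := lt_of_lt_of_le one_pos hG.Lp1
  have hvb0 : 0 ≤ vb := (h1.trans h12).trans h2b
  have hvb : vb ∈ Icc (0 : ℝ) 1 := ⟨hvb0, hb1⟩
  have hGr := bos_grp_isGroup hG (J := Icc v1 v2) measurableSet_Icc 0
  have hsub : bosGrp Z al (Icc v1 v2) 0 ⊆ Icc 0 vb :=
    bos_grp_band hG (fun u hu => ⟨h1.trans hu.1, hu.2.trans h2b⟩) hcap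
  have hrm := (bos_r_mono hG).monotoneOn
  have hτ : 0 ≤ 3 * Lp / (cn * eg) := by positivity
  have key := bos_group_trace hG hGr (τ := 3 * Lp / (cn * eg)) hX.TH_meas hX.TH_nn ⟨1, hX.TH_le⟩ ?_ ?_ (fun _ => 1)
    measurable_const (fun _ => zero_le_one) ⟨1, fun _ => le_rfl⟩
  · simp only [one_mul] at key
    refine key.trans (mul_le_mul_of_nonneg_left ?_ hτ)
    rw [setIntegral_const, smul_eq_mul, mul_one]
    have h3 : volume.real (bosGrp Z al (Icc v1 v2) 0) ≤ volume.real (Icc 0 vb) :=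
      measureReal_mono hsub (by simp)
    refine h3.trans (le_of_eq ?_)
    rw [Real.volume_real_Icc_of_le hvb0, sub_zero]
  · intro i hi hiG
    refine bos_ut_unit hX hG hi heg0 fun x hx => heg x ⟨(hG.cap_lo i).trans hx.1.le, ?_⟩
    -- `al (cR i) ≤ vb`
    have hlt : al (Z.cL i) < al (Z.cR i) := bos_al_strictMono hG (bos_cL_mem hG i) (bos_cR_mem hG i) hi
    have hle : al (Z.cR i) ≤ vb := by
      by_contra hcon
      push Not at hcon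
      obtain ⟨y, hy1, hy2⟩ := exists_between (max_lt hlt hcon)
      have hy : y ∈ Z.capM al i := ⟨(le_max_left _ _).trans_lt hy1, hy2⟩
      have := (hsub (hiG hy)).2
      linarith [(le_max_right (al (Z.cL i)) vb).trans_lt hy1]
    have h4 := hrm (bos_al_mem hG (bos_cR_mem hG i)) hvb hle
    rw [hG.r_al _ (bos_cR_mem hG i)] at h4
    exact hx.2.le.trans h4
  · have h5 := bos_ut_ct_mass hX hG
    have hct01 : Z.Ct ⊆ Icc (0 : ℝ) 1 := hG.ct_sub.trans Ioc_subset_Icc_self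
    have hm1 := bos_al_meas hG hct01 hG.ct_meas
    rw [ae_restrict_iff' hm1] at h5
    rw [ae_restrict_iff' (hGr.meas.inter hm1)]
    filter_upwards [h5] with u hu huG
    have h6 := hu huG.2
    have hu0 := hsub huG.1
    have hu1 : u ∈ Icc (0 : ℝ) 1 := ⟨hu0.1, hu0.2.trans hb1⟩
    have h7 := heg (r u) ⟨(hG.r_mem u hu1).1, hrm hu1 hvb hu0.2⟩
    have h8 : eg * X.TH u ≤ 3 * Lp / cn := (mul_le_mul_of_nonneg_right h7 (hX.TH_nn u hu1)).trans h6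
    rw [div_mul_eq_div_div, le_div_iff₀ heg0]
    linarith

/-- the floor part of a band, in radius -/
theorem hp_tr_fl (hX : X.Ok) (hG : BosGeo al r kb ef M cn Lp X Z) {v1 v2 eg : ℝ} (h1 : 0 ≤ v1) (h12 : v1 ≤ v2) (h2 : v2 ≤ 1)
    (heg0 : 0 < eg) (heg : ∀ x ∈ Icc (r v1) (r v2), eg ≤ ef x) (hkb : ∀ x ∈ Icc (r v1) (r v2), kb x ≤ 1) :
    ∫ u in al '' Z.Fl ∩ Icc v1 v2, X.TH u ≤ (X.S v2 - X.S v1) / (cn * eg) := by
  have hv1 : v1 ∈ Icc (0 : ℝ) 1 := ⟨h1, h12.trans h2⟩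
  have hv2 : v2 ∈ Icc (0 : ℝ) 1 := ⟨h1.trans h12, h2⟩
  have hr12 := (bos_r_mono hG).monotoneOn hv1 hv2 h12
  have hr1 := hG.r_mem v1 hv1
  have hr2 := hG.r_mem v2 hv2
  obtain ⟨kmin, hk0, hkm⟩ := hG.kb_pos
  set F : ℝ → ℝ := (Icc (0 : ℝ) 1).indicator X.TH with hF
  have hFm : Measurable F := hX.TH_meas.indicator measurableSet_Icc
  have hF0 : ∀ u, 0 ≤ F u := fun u => indicator_nonneg (fun v hv => hX.TH_nn v hv) u
  have hF1 : ∀ u, F u ≤ 1 := fun u => by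
    by_cases hu : u ∈ Icc (0 : ℝ) 1
    · rw [hF, indicator_of_mem hu]; exact hX.TH_le u hu
    · rw [hF, indicator_of_notMem hu]; exact zero_le_one
  have hFe : ∀ u ∈ Icc (0 : ℝ) 1, F u = X.TH u := fun u hu => indicator_of_mem hu _
  have hms : MeasurableSet (al '' Z.Fl ∩ Icc v1 v2) := (bos_al_meas hG hG.fl_sub hG.fl_meas).inter measurableSet_Icc
  have e1 : ∫ u in al '' Z.Fl ∩ Icc v1 v2, X.TH u = ∫ u in al '' Z.Fl ∩ Icc v1 v2, F u :=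
    setIntegral_congr_fun hms fun u hu => (hFe u ⟨h1.trans hu.2.1, hu.2.2.trans h2⟩).symm
  rw [e1]
  refine (bos_floor_int hG h1 h12 h2 F hFm hF0 ⟨1, hF1⟩).trans ?_
  have h3 := bos_ut_rad hX hG hr1.1 hr12 hr2.2 heg0 heg
  rw [hG.al_r v1 hv1, hG.al_r v2 hv2] at h3
  refine le_trans ?_ h3
  have hi1 : IntervalIntegrable (fun x => F (al x) * kb x) volume (r v1) (r v2) :=
    bos_al_slope_int ((hFm.comp hG.al_meas).mul hG.kb_meas) (B := 1 * M)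
      (fun x hx => mul_nonneg (hF0 _) (hk0.le.trans (hkm x hx)))
      (fun x hx => mul_le_mul (hF1 _) (hG.kb_le x hx) (hk0.le.trans (hkm x hx)) zero_le_one) hr1.1 hr12 hr2.2
  have hi2 : IntervalIntegrable (fun x => X.TH (al x)) volume (r v1) (r v2) :=
    bos_al_slope_int (hX.TH_meas.comp hG.al_meas) (B := 1) (fun x hx => hX.TH_nn _ (bos_al_mem hG hx))
      (fun x hx => hX.TH_le _ (bos_al_mem hG hx)) hr1.1 hr12 hr2.2
  refine intervalIntegral.integral_mono_on hr12 hi1 hi2 fun x hx => ?_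
  have hx1 : x ∈ Icc (0 : ℝ) 1 := ⟨hr1.1.trans hx.1, hx.2.trans hr2.2⟩
  rw [hFe _ (bos_al_mem hG hx1)]
  exact mul_le_of_le_one_right (hX.TH_nn _ (bos_al_mem hG hx1)) (hkb x hx)

/-- **the trace of a band**.      TEX[LL:bud:high-primitive] l.1691-1695, TEX[PE:comp:unit-trace] -/
theorem hp_tr_band (hX : X.Ok) (hG : BosGeo al r kb ef M cn Lp X Z) {v1 v2 vb eg : ℝ} (h1 : 0 ≤ v1) (h12 : v1 ≤ v2) (h2b : v2 ≤ vb)
    (hb1 : vb ≤ 1) (hcap : ∀ i, Z.cL i < Z.cR i → (Z.capM al i ∩ Icc v1 v2).Nonempty → al (Z.cR i) ≤ vb)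
    (heg0 : 0 < eg) (heg : ∀ x ∈ Icc 0 (r vb), eg ≤ ef x) (hkb : ∀ x ∈ Icc (r v1) (r v2), kb x ≤ 1) :
    ∫ u in Icc v1 v2, X.TH u ≤ (3 * Lp * vb + (X.S v2 - X.S v1)) / (cn * eg) := by
  have h2 : v2 ≤ 1 := h2b.trans hb1
  have hv1 : v1 ∈ Icc (0 : ℝ) 1 := ⟨h1, h12.trans h2⟩
  have hv2 : v2 ∈ Icc (0 : ℝ) 1 := ⟨h1.trans h12, h2⟩
  have hvb : vb ∈ Icc (0 : ℝ) 1 := ⟨(h1.trans h12).trans h2b, hb1⟩
  have hrm := (bos_r_mono hG).monotoneOn
  have hg := hp_tr_grp hX hG h1 h12 h2b hb1 hcap heg0 heg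
  have hf := hp_tr_fl hX hG h1 h12 h2 heg0
    (fun x hx => heg x ⟨(hG.r_mem v1 hv1).1.trans hx.1, hx.2.trans (hrm hv2 hvb h2b)⟩) hkb
  have hGr := bos_grp_isGroup hG (J := Icc v1 v2) measurableSet_Icc 0
  have hG01 := bos_grp_sub01 hG hGr
  have hfl01 : al '' Z.Fl ∩ Icc v1 v2 ⊆ Icc (0 : ℝ) 1 := fun u hu => ⟨h1.trans hu.2.1, hu.2.2.trans h2⟩
  have hnull := bos_cover_units hG h1 h2 0 (v1 := v1) (v2 := v2)
  have hae : (Icc v1 v2 : Set ℝ) ≤ᵐ[volume] ((al '' Z.Fl ∩ Icc v1 v2) ∪ bosGrp Z al (Icc v1 v2) 0 : Set ℝ) := by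
    rw [ae_le_set]
    refine measure_mono_null ?_ hnull
    rintro u ⟨hu, hn⟩
    refine ⟨hu, ?_⟩
    rintro ((h | h) | h)
    · exact hn (Or.inl ⟨h, hu⟩)
    · exact hn (Or.inr h)
    · obtain ⟨i, ⟨_, hi⟩, _⟩ := Set.mem_iUnion₂.1 h
      exact absurd hi (not_lt.2 (bos_al_mem hG (bos_cL_mem hG i)).1)
  have hU01 : (al '' Z.Fl ∩ Icc v1 v2) ∪ bosGrp Z al (Icc v1 v2) 0 ⊆ Icc (0 : ℝ) 1 := union_subset hfl01 hG01
  have hI := hp_tr_intOn hX (subset_refl (Icc (0 : ℝ) 1))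
  have s1 : ∫ u in Icc v1 v2, X.TH u ≤ ∫ u in (al '' Z.Fl ∩ Icc v1 v2) ∪ bosGrp Z al (Icc v1 v2) 0, X.TH u := by
    refine setIntegral_mono_set (hI.mono_set hU01) ?_ hae
    rw [Filter.EventuallyLE, ae_restrict_iff' ((((bos_al_meas hG hG.fl_sub hG.fl_meas).inter measurableSet_Icc)).union hGr.meas)]
    exact Eventually.of_forall fun u hu => hX.TH_nn u (hU01 hu)
  have s2 : ∫ u in (al '' Z.Fl ∩ Icc v1 v2) ∪ bosGrp Z al (Icc v1 v2) 0, X.TH u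
      ≤ (∫ u in al '' Z.Fl ∩ Icc v1 v2, X.TH u) + ∫ u in bosGrp Z al (Icc v1 v2) 0, X.TH u := by
    have i1 : Integrable X.TH (volume.restrict (al '' Z.Fl ∩ Icc v1 v2)) := hI.mono_set hfl01
    have i2 : Integrable X.TH (volume.restrict (bosGrp Z al (Icc v1 v2) 0)) := hI.mono_set hG01
    rw [← integral_add_measure i1 i2]
    refine integral_mono_measure (Measure.restrict_union_le _ _) ?_ (i1.add_measure i2)
    rw [Filter.EventuallyLE, ae_add_measure_iff,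
      ae_restrict_iff' ((bos_al_meas hG hG.fl_sub hG.fl_meas).inter measurableSet_Icc), ae_restrict_iff' hGr.meas]
    exact ⟨Eventually.of_forall fun u hu => hX.TH_nn u (hfl01 hu), Eventually.of_forall fun u hu => hX.TH_nn u (hG01 hu)⟩
  have e : (3 * Lp * vb + (X.S v2 - X.S v1)) / (cn * eg) = (X.S v2 - X.S v1) / (cn * eg) + 3 * Lp / (cn * eg) * vb := by ring
  rw [e]
  linarith

end abs

/-! ## 2. The input -/

/-- **the closed geometry of a minimiser** (LL Lemma 7.2 + (A1) line 2 in the radius coordinate) in the vocabulary of `Bud/Sec.lean` (PROVED: `bud_hp_geo`, §4):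
`ef = C`, `cn = m/Lp` (`∂_r(r C(r)) = (1-p) C ≥ C/Lp`), `Lp ≲ log N`; the numbers are `cmkNum` of the EXTENDED changed clocks (`Bud/Mom.lean`); `al r kb` = the maps of the minimiser FROZEN outside `[0,1]`. -/
def BudHpGeo (X : BdFix) (W : BdWorld) (Fam : BdFr → Prop) (CLp : ℝ) : Prop :=
  ∃ N0 : ℕ, ∀ i : BdI X, i.OkS W Fam → N0 ≤ i.F.N → ∃ (Z : CmCaps) (al r kb : ℝ → ℝ) (Lp : ℝ),
    Lp ≤ CLp * Real.log i.F.N ∧ (∀ v ∈ Icc (0 : ℝ) 1, r v = i.Q.r v) ∧ (∀ x ∈ Icc (0 : ℝ) 1, kb x = i.F.kbar X x) ∧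
    (cmkNum i.F.m (i.Q.bE i.g) (i.Q.hE i.g)).Ok ∧
    BosGeo al r kb (i.F.C X) i.F.Mj ((i.F.m : ℝ) / Lp) Lp (cmkNum i.F.m (i.Q.bE i.g) (i.Q.hE i.g)) Z

variable {X : BdFix} {W : BdWorld} {Fam : BdFr → Prop} {K : BdCst}

/-! ## 3. Frame level -/

/-- `y_c ≤ (CU + CU^{3/4}) λ^{0.239}` -/
theorem bud_hp_tr_wc_aux (hX : X.Ok) {F : BdFr} (hF : F.Ok X) :
    F.yc X ≤ (X.CU + X.CU ^ (3 / 4 : ℝ)) * F.lam ^ (0.239 : ℝ) := by
  have hP := bud_env_pos hX hF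
  have hl0 := hP.lam0
  have hCU := hX.CU_pos
  obtain ⟨a, l, w, ha, hl, hw, ha0, hl0', h12, hpS, hbl, hU, hN⟩ := bud_env_logs_aux hX hF
  have hXr := bud_env_agoal_le_one_aux hX hF
  have hz := hX.zeta_pos
  have hp := hX.pS_pos
  have hsS : (0.49 : ℝ) ≤ X.sS := by unfold BdFix.sS; linarith [hX.tau_le]
  -- `x^{-10ζ} ≤ λ^{-0.001}`
  have s1 : F.x ^ (-(10 * X.zeta)) ≤ F.lam ^ (-(0.001 : ℝ)) := by
    rw [ha, hl, ← Real.exp_mul, ← Real.exp_mul, Real.exp_le_exp]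
    have hzp : X.zeta / X.pS ≤ 0.0001 := by
      rw [div_le_iff₀ hp]
      have h1 := hX.zeta_le
      have t0 : X.tau0 ≤ 1 := by linarith [hX.tau0_le, hX.eta_le, hX.tau_le]
      have b0 : X.bl ≤ 1 := by linarith [hX.bl_le, hX.bs_le, hX.eta_le, hX.tau_le]
      have h2 : X.pS * X.tau0 * X.bl ≤ X.pS * 1 * 1 :=
        mul_le_mul (mul_le_mul_of_nonneg_left t0 hp.le) b0 hX.bl_pos.le (by linarith)
      linarith
    have k1 : X.zeta / X.pS * l ≤ X.zeta * a := by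
      have := mul_le_mul_of_nonneg_left hpS (div_pos hz hp).le
      have e : X.zeta / X.pS * (a * X.pS) = X.zeta * a := by field_simp
      rwa [e] at this
    have k2 := mul_nonneg (neg_nonneg.2 hl0'.le) (sub_nonneg.2 hzp)
    linarith
  have s2 : F.Xr * F.Lam ^ (-(1 / 6) : ℝ) ≤ X.CU * F.lam ^ (0.24 : ℝ) := by
    have e1 : F.Lam ^ (-(1 / 6) : ℝ) = F.lam ^ (-(0.005 : ℝ)) := by
      unfold BdFr.Lam
      rw [← Real.rpow_mul hl0.le]; norm_num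
    rw [e1]
    calc F.Xr * F.lam ^ (-(0.005 : ℝ)) ≤ X.CU * F.lam ^ (X.sS / 2) * F.lam ^ (-(0.005 : ℝ)) :=
          mul_le_mul_of_nonneg_right hXr (Real.rpow_pos_of_pos hl0 _).le
      _ = X.CU * F.lam ^ (X.sS / 2 + -(0.005 : ℝ)) := by rw [mul_assoc, ← Real.rpow_add hl0]
      _ ≤ X.CU * F.lam ^ (0.24 : ℝ) :=
          mul_le_mul_of_nonneg_left (Real.rpow_le_rpow_of_exponent_ge hl0 hP.lam1.le (by linarith)) hCU.le
  have s3 : F.Xr ^ (3 / 4 : ℝ) * F.lam ^ (0.12 : ℝ) ≤ X.CU ^ (3 / 4 : ℝ) * F.lam ^ (0.24 : ℝ) := by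
    have h1 : F.Xr ^ (3 / 4 : ℝ) ≤ (X.CU * F.lam ^ (X.sS / 2)) ^ (3 / 4 : ℝ) :=
      Real.rpow_le_rpow hP.Xr0.le hXr (by norm_num)
    rw [Real.mul_rpow hCU.le (Real.rpow_pos_of_pos hl0 _).le, ← Real.rpow_mul hl0.le] at h1
    calc F.Xr ^ (3 / 4 : ℝ) * F.lam ^ (0.12 : ℝ)
        ≤ X.CU ^ (3 / 4 : ℝ) * F.lam ^ (X.sS / 2 * (3 / 4)) * F.lam ^ (0.12 : ℝ) :=
          mul_le_mul_of_nonneg_right h1 (Real.rpow_pos_of_pos hl0 _).le
      _ = X.CU ^ (3 / 4 : ℝ) * F.lam ^ (X.sS / 2 * (3 / 4) + 0.12) := by rw [mul_assoc, ← Real.rpow_add hl0]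
      _ ≤ X.CU ^ (3 / 4 : ℝ) * F.lam ^ (0.24 : ℝ) :=
          mul_le_mul_of_nonneg_left (Real.rpow_le_rpow_of_exponent_ge hl0 hP.lam1.le (by linarith))
            (Real.rpow_pos_of_pos hCU _).le
  unfold BdFr.yc
  have hC34 : 0 < X.CU ^ (3 / 4 : ℝ) := Real.rpow_pos_of_pos hCU _
  calc F.x ^ (-(10 * X.zeta)) * (F.Xr * F.Lam ^ (-(1 / 6) : ℝ) + F.Xr ^ (3 / 4 : ℝ) * F.lam ^ (0.12 : ℝ))
      ≤ F.lam ^ (-(0.001 : ℝ)) * (X.CU * F.lam ^ (0.24 : ℝ) + X.CU ^ (3 / 4 : ℝ) * F.lam ^ (0.24 : ℝ)) := by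
        refine mul_le_mul s1 (add_le_add s2 s3) ?_ (Real.rpow_pos_of_pos hl0 _).le
        have := hP.Xr0
        have := Real.rpow_pos_of_pos hP.Lam0 (-(1 / 6) : ℝ)
        have := Real.rpow_pos_of_pos hP.Xr0 (3 / 4 : ℝ)
        have := Real.rpow_pos_of_pos hl0 (0.12 : ℝ)
        positivity
    _ = (X.CU + X.CU ^ (3 / 4 : ℝ)) * (F.lam ^ (-(0.001 : ℝ)) * F.lam ^ (0.24 : ℝ)) := by ring
    _ = (X.CU + X.CU ^ (3 / 4 : ℝ)) * F.lam ^ (0.239 : ℝ) := by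
        rw [← Real.rpow_add hl0]; norm_num

/-- the calibration scale is below the high masses: `y_c → 0` (`X ≤ CU λ^{s_*/2}`, `x^{-10ζ}` is a negligible power) -/
theorem bud_hp_tr_wc (hX : X.Ok) : ∃ N0 : ℕ, ∀ F : BdFr, F.Ok X → N0 ≤ F.N → F.wc X ≤ X.cH * F.u := by
  have hCU := hX.CU_pos
  have hC34 : 0 < X.CU ^ (3 / 4 : ℝ) := Real.rpow_pos_of_pos hCU _
  have hc : 0 < X.CU + X.CU ^ (3 / 4 : ℝ) := by linarith
  obtain ⟨N0, h0⟩ := bud_env_lam_small hX (c := 0.239) (by norm_num) (div_pos hX.cH_pos hc)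
  refine ⟨N0, fun F hF hN => ?_⟩
  have hP := bud_env_pos hX hF
  unfold BdFr.wc
  refine mul_le_mul_of_nonneg_right ?_ hP.u0.le
  refine (bud_hp_tr_wc_aux hX hF).trans ?_
  calc (X.CU + X.CU ^ (3 / 4 : ℝ)) * F.lam ^ (0.239 : ℝ)
      ≤ (X.CU + X.CU ^ (3 / 4 : ℝ)) * (X.cH / (X.CU + X.CU ^ (3 / 4 : ℝ))) :=
        mul_le_mul_of_nonneg_left (h0 F hF hN) hc.le
    _ = X.cH := mul_div_cancel₀ _ hc.ne'

/-- beyond the extra floor the floor of (C5) is the PE floor, which is `≤ N^{-3δ} ≤ 1` -/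
theorem bud_hp_tr_kbar (hX : X.Ok) {F : BdFr} (hF : F.Ok X) {x : ℝ} (hx : X.cI * F.u ≤ x) : F.kbar X x ≤ 1 := by
  have hP := bud_env_pos hX hF
  obtain ⟨hN, hus⟩ := bud_env_k_pos_aux hX hP
  have hx0 : 0 < x := lt_of_lt_of_le (mul_pos hX.cI_pos hP.u0) hx
  have hnot : x ∉ Icc (F.Ilo * F.u) (F.Ihi * F.u) := by
    intro h
    have := mul_lt_mul_of_pos_right hF.I2 hP.u0
    linarith [h.2]
  unfold BdFr.kbar
  rw [if_neg hnot, add_zero]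
  show (F.call X).N ^ (F.call X).dl * (F.call X).us ^ 2 / (x + (F.call X).N ^ (2 * (F.call X).dl) * (F.call X).us) ^ 2 ≤ 1
  have hN1 : 1 ≤ (F.call X).N := by
    show (1 : ℝ) ≤ (F.m : ℝ)
    have h2 : (2 : ℝ) ≤ F.N := by exact_mod_cast hF.N2
    linarith [hF.m_lo]
  have hdl : 0 ≤ (F.call X).dl := by
    show 0 ≤ X.mPE / 10000
    linarith [hX.mPE_pos]
  obtain ⟨A, hA⟩ : ∃ A, A = (F.call X).N ^ (F.call X).dl := ⟨_, rfl⟩
  have hA1 : 1 ≤ A := by rw [hA]; exact Real.one_le_rpow hN1 hdl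
  have hA2 : (F.call X).N ^ (2 * (F.call X).dl) = A ^ 2 := by
    rw [hA, ← Real.rpow_natCast, ← Real.rpow_mul hN.le]
    congr 1; push_cast; ring
  rw [hA2, ← hA]
  have hA0 : 0 < A := by linarith
  rw [div_le_one (by positivity)]
  have h1 : (A ^ 2 * (F.call X).us) ^ 2 ≤ (x + A ^ 2 * (F.call X).us) ^ 2 :=
    pow_le_pow_left₀ (by positivity) (by linarith) 2
  refine le_trans ?_ h1
  have h2 : A ≤ A ^ 4 := by
    calc A = A ^ 1 := (pow_one A).symm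
      _ ≤ A ^ 4 := pow_le_pow_right₀ hA1 (by norm_num)
  calc A * (F.call X).us ^ 2 ≤ A ^ 4 * (F.call X).us ^ 2 := mul_le_mul_of_nonneg_right h2 (by positivity)
    _ = (A ^ 2 * (F.call X).us) ^ 2 := by ring

/-- **comparable endpoints**: by (C7a) and `len ≤ 1/M_j`, a cap meeting `[w, v2]`, `v2 ≤ 2w`, ends below `3 CL w/cL` -/
theorem bud_hp_tr_cap {F : BdFr} {al r kb ef : ℝ → ℝ} {cn Lp : ℝ} {Xn : CmNum} {Z : CmCaps}
    (hG : BosGeo al r kb ef F.Mj cn Lp Xn Z) {cL CL w v2 : ℝ} (hcL : 0 < cL)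
    (h7 : ∀ v ∈ Icc (F.wc X) 1, cL * v ≤ r v ∧ r v ≤ CL * v) (hwc : F.wc X ≤ w) (hw0 : 0 < w) (hw2 : w ≤ v2) (h2w : v2 ≤ 2 * w) (hv2 : v2 ≤ 1)
    (hM : 1 / F.Mj ≤ CL * w) (i : ℕ) (hi : Z.cL i < Z.cR i) (hm : (Z.capM al i ∩ Icc w v2).Nonempty) :
    al (Z.cR i) ≤ min 1 (3 * CL * w / cL) := by
  have hnear := (bos_cap_near hG hw0.le hw2 hv2 hm).2
  have hR := bos_cR_mem hG i
  have hV := bos_al_mem hG hR
  obtain ⟨y, hy1, hy2⟩ := hm
  have hVw : w ≤ al (Z.cR i) := hy2.1.trans hy1.2.le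
  have h1 := (h7 _ ⟨hwc.trans hVw, hV.2⟩).1
  rw [hG.r_al _ hR] at h1
  have h2 := (h7 v2 ⟨hwc.trans hw2, hv2⟩).2
  have hCL : 0 ≤ CL := by
    have h3 := h7 v2 ⟨hwc.trans hw2, hv2⟩
    have h4 : cL * v2 ≤ CL * v2 := h3.1.trans h3.2
    have hv20 : 0 < v2 := lt_of_lt_of_le hw0 hw2
    have := le_of_mul_le_mul_right h4 hv20
    linarith
  have h3 : CL * v2 ≤ CL * (2 * w) := mul_le_mul_of_nonneg_left h2w hCL
  refine le_min hV.2 ?_
  rw [le_div_iff₀ hcL]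
  linarith

/-- the removal slope on all radii `≤ κ w`: `ef ≥ C/Lp`, `C` antitone, `r C(r)` nondecreasing (`bud_hp_taper` form) -/
theorem bud_hp_tr_eg (hS : BdStd X W Fam K) {F : BdFr} (hF : Fam F) {ef : ℝ → ℝ} {Lp κ w : ℝ} (hLp : 1 ≤ Lp) (hκ : 1 ≤ κ)
    (hef : ∀ x ∈ Icc (0 : ℝ) 1, F.C X x ≤ Lp * ef x) (hw0 : 0 < w) (hw1 : w ≤ 1) :
    ∀ x ∈ Icc (0 : ℝ) (min 1 (κ * w)), F.C X w / (κ * Lp) ≤ ef x := by
  intro x hx
  have hX := hS.fix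
  have hP := bud_env_pos hX (hS.ok F hF)
  have hd := bud_env_dPE_pos hX hP
  have hLp0 : 0 < Lp := by linarith
  have hκ0 : 0 < κ := by linarith
  have h1 := hef x ⟨hx.1, hx.2.trans (min_le_left _ _)⟩
  have h2 : F.C X (κ * w) ≤ F.C X x := cm_e_anti (F.call X) hd hP.C00.le (hx.2.trans (min_le_right _ _))
  have h3 : F.C X w / κ ≤ F.C X (κ * w) := cm_e_scale (F.call X) hd hP.C00.le hκ hw0.le
  rw [div_mul_eq_div_div, div_le_iff₀ hLp0]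
  linarith

/-- the cap is huge: `1/M_j ≤ c u` for large sizes -/
theorem bud_hp_tr_one_aux1 (hX : X.Ok) {c : ℝ} (hc : 0 < c) :
    ∃ N0 : ℕ, ∀ F : BdFr, F.Ok X → N0 ≤ F.N → 1 / F.Mj ≤ c * F.u := by
  have hCU := hX.CU_pos
  obtain ⟨N0, h0⟩ := bud_hp_aux_N_small (1 / 6) (c / X.CU) (by norm_num) (div_pos hc hCU)
  refine ⟨N0, fun F hF hN => ?_⟩
  have hP := bud_env_pos hX hF
  have hx0 := hP.x0
  have hxc : F.x ≤ c / X.CU := h0 F.N hN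
  have hxu : F.x ≤ X.CU * F.u := by
    refine le_trans ?_ hF.u_lo
    unfold BdFr.U
    have hs : 0 ≤ X.sS / 2 := by unfold BdFix.sS; linarith [hX.tau_le]
    exact le_mul_of_one_le_right hx0.le (Real.one_le_rpow_of_pos_of_le_one_of_nonpos hP.lam0 hP.lam1.le (by linarith))
  have h1 : 1 / F.Mj ≤ F.x ^ (100 : ℝ) := by
    unfold BdFr.Mj
    rw [Real.rpow_neg hx0.le, one_div, mul_inv, inv_inv]
    have h2 : ((2 : ℝ) ^ F.st)⁻¹ ≤ 1 := inv_le_one_of_one_le₀ (one_le_pow₀ (by norm_num))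
    exact mul_le_of_le_one_left (Real.rpow_pos_of_pos hx0 _).le h2
  have h2 : F.x ^ (100 : ℝ) ≤ F.x ^ (2 : ℝ) := Real.rpow_le_rpow_of_exponent_ge hx0 hP.x1.le (by norm_num)
  have h3 : F.x ^ (2 : ℝ) = F.x * F.x := by
    rw [← sq, ← Real.rpow_natCast]; norm_num
  calc 1 / F.Mj ≤ F.x * F.x := by rw [← h3]; exact h1.trans h2
    _ ≤ c / X.CU * (X.CU * F.u) := mul_le_mul hxc hxu hx0.le (div_pos hc hCU).le
    _ = c * F.u := by field_simp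

/-- one band of one minimiser -/
theorem bud_hp_tr_one_aux2 (hS : BdStd X W Fam K) {F : BdFr} (hF : Fam F) {al r kb ef : ℝ → ℝ} {cn Lp : ℝ} {Xn : CmNum}
    {Z : CmCaps} (hXn : Xn.Ok) (hG : BosGeo al r kb ef F.Mj cn Lp Xn Z) (hkbe : ∀ x ∈ Icc (0 : ℝ) 1, kb x = F.kbar X x)
    (hef : ∀ x ∈ Icc (0 : ℝ) 1, F.C X x ≤ Lp * ef x) {cL CL CS w : ℝ} (hcL : 0 < cL)
    (h7 : ∀ v ∈ Icc (F.wc X) 1, cL * v ≤ r v ∧ r v ≤ CL * v) (hcI : X.cI ≤ cL * X.cH)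
    (hwc : F.wc X ≤ X.cH * F.u) (hM : 1 / F.Mj ≤ cL * (X.cH * F.u)) (hw : X.cH * F.u ≤ w) (hw1 : w ≤ 1)
    (hCS : 1 ≤ CS) (hSv : Xn.S (min (2 * w) 1) ≤ CS * (2 * w)) :
    ∫ u in Icc w (min (2 * w) 1), Xn.TH u
      ≤ (9 * CL / cL + 2 * CS) * max 1 (3 * CL ^ 2 / cL) * Lp ^ 2 * w / (cn * F.C X w) := by
  have hX := hS.fix
  have hFo := hS.ok F hF
  have hP := bud_env_pos hX hFo
  have hcu : 0 < X.cH * F.u := mul_pos hX.cH_pos hP.u0
  have hw0 : 0 < w := lt_of_lt_of_le hcu hw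
  have hLp := hG.Lp1
  have hLp0 : 0 < Lp := by linarith
  have hcn := hG.cn0
  have hCw : 0 < F.C X w := cm_e_pos (F.call X) hP.C00 w
  obtain ⟨v2, hv2⟩ : ∃ v2, v2 = min (2 * w) 1 := ⟨_, rfl⟩
  rw [← hv2] at hSv ⊢
  have hwv : w ≤ v2 := by rw [hv2]; exact le_min (by linarith) hw1
  have hv21 : v2 ≤ 1 := by rw [hv2]; exact min_le_right _ _
  have hv2w : v2 ≤ 2 * w := by rw [hv2]; exact min_le_left _ _
  have hwcw : F.wc X ≤ w := hwc.trans hw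
  have hcC : cL ≤ CL := by
    have h3 := h7 w ⟨hwcw, hw1⟩
    exact le_of_mul_le_mul_right (h3.1.trans h3.2) hw0
  have hCL0 : 0 < CL := lt_of_lt_of_le hcL hcC
  have hq1 : 1 ≤ CL / cL := (one_le_div hcL).2 hcC
  obtain ⟨vb, hvb⟩ : ∃ vb, vb = min 1 (3 * CL * w / cL) := ⟨_, rfl⟩
  obtain ⟨κ, hκ⟩ : ∃ κ, κ = max 1 (3 * CL ^ 2 / cL) := ⟨_, rfl⟩
  rw [← hκ]
  have hκ1 : 1 ≤ κ := by rw [hκ]; exact le_max_left _ _
  have hκ0 : 0 < κ := by linarith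
  have e3 : 3 * CL * w / cL = 3 * (CL / cL) * w := by ring
  have hv2b : v2 ≤ vb := by
    rw [hvb]
    refine le_min hv21 ?_
    rw [e3]
    nlinarith
  have hvb1 : vb ≤ 1 := by rw [hvb]; exact min_le_left _ _
  have hvb2 : vb ≤ 3 * CL * w / cL := by rw [hvb]; exact min_le_right _ _
  have hvbm : vb ∈ Icc (F.wc X) 1 := ⟨(hwcw.trans hwv).trans hv2b, hvb1⟩
  have hvb01 : vb ∈ Icc (0 : ℝ) 1 := ⟨(hw0.le.trans hwv).trans hv2b, hvb1⟩
  have hMw : 1 / F.Mj ≤ CL * w :=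
    hM.trans ((mul_le_mul_of_nonneg_left hw hcL.le).trans (mul_le_mul_of_nonneg_right hcC hw0.le))
  have hcap : ∀ i, Z.cL i < Z.cR i → (Z.capM al i ∩ Icc w v2).Nonempty → al (Z.cR i) ≤ vb := by
    intro i hi hm
    rw [hvb]
    exact bud_hp_tr_cap hG hcL h7 hwcw hw0 hwv hv2w hv21 hMw i hi hm
  have hrvb : r vb ≤ min 1 (κ * w) := by
    refine le_min (hG.r_mem vb hvb01).2 ?_
    have h1 := (h7 vb hvbm).2
    have h2 : CL * vb ≤ CL * (3 * CL * w / cL) := mul_le_mul_of_nonneg_left hvb2 hCL0.le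
    have h3 : CL * (3 * CL * w / cL) = 3 * CL ^ 2 / cL * w := by ring
    have h4 : 3 * CL ^ 2 / cL * w ≤ κ * w := mul_le_mul_of_nonneg_right (by rw [hκ]; exact le_max_right _ _) hw0.le
    linarith
  have heg0 : 0 < F.C X w / (κ * Lp) := by positivity
  have heg : ∀ x ∈ Icc 0 (r vb), F.C X w / (κ * Lp) ≤ ef x := fun x hx =>
    bud_hp_tr_eg hS hF hLp hκ1 hef hw0 hw1 x ⟨hx.1, hx.2.trans hrvb⟩
  have hkb : ∀ x ∈ Icc (r w) (r v2), kb x ≤ 1 := by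
    intro x hx
    rw [hkbe x ⟨(hG.r_mem w ⟨hw0.le, hw1⟩).1.trans hx.1, hx.2.trans (hG.r_mem v2 ⟨hw0.le.trans hwv, hv21⟩).2⟩]
    refine bud_hp_tr_kbar hX hFo ?_
    have h1 := (h7 w ⟨hwcw, hw1⟩).1
    have h2 : cL * (X.cH * F.u) ≤ cL * w := mul_le_mul_of_nonneg_left hw hcL.le
    have h3 : X.cI * F.u ≤ cL * X.cH * F.u := mul_le_mul_of_nonneg_right hcI hP.u0.le
    linarith [hx.1]
  have key := hp_tr_band hXn hG hw0.le hwv hv2b hvb1 hcap heg0 heg hkb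
  refine key.trans ?_
  have hS0 := hXn.S_nn w ⟨hw0.le, hw1⟩
  have hnum : 3 * Lp * vb + (Xn.S v2 - Xn.S w) ≤ (9 * CL / cL + 2 * CS) * Lp * w := by
    have a1 : 3 * Lp * vb ≤ 3 * Lp * (3 * CL * w / cL) := mul_le_mul_of_nonneg_left hvb2 (by positivity)
    have a2 : CS * (2 * w) ≤ CS * (2 * w) * Lp := le_mul_of_one_le_right (by positivity) hLp
    have a3 : 3 * Lp * (3 * CL * w / cL) + CS * (2 * w) * Lp = (9 * CL / cL + 2 * CS) * Lp * w := by ring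
    linarith
  have e4 : (9 * CL / cL + 2 * CS) * κ * Lp ^ 2 * w / (cn * F.C X w)
      = (9 * CL / cL + 2 * CS) * Lp * w / (cn * (F.C X w / (κ * Lp))) := by
    field_simp
  rw [e4]
  exact div_le_div_of_nonneg_right hnum (by positivity)

/-- the weighted trace of a dyad against the trace of the band -/
theorem bud_hp_tr_one_aux3 {F : BdFr} (Q : BdQ F X) (g : ℝ) (hXn : (cmkNum F.m (Q.bE g) (Q.hE g)).Ok) {w v2 : ℝ} (hw0 : 0 < w)
    (hwv : w ≤ v2) (hv2 : v2 ≤ 1) :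
    Q.hpI g w v2 ≤ 1 / w * ∫ u in Icc w v2, (cmkNum F.m (Q.bE g) (Q.hE g)).TH u := by
  have hcl : ∀ v ∈ Icc w v2, cmkCl v = v := fun v hv => by
    unfold cmkCl
    rw [min_eq_left (hv.2.trans hv2), max_eq_right (hw0.le.trans hv.1)]
  have hT : ∀ v ∈ Icc w v2, Q.hpT g v = (cmkNum F.m (Q.bE g) (Q.hE g)).TH v := fun v hv => by
    show _ = ckH2 F.m 1 (Q.bE g) (Q.hE g) (ghPosA (cmkCl v))
    rw [hcl v hv]; rfl
  have hi : IntervalIntegrable (cmkNum F.m (Q.bE g) (Q.hE g)).TH volume w v2 :=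
    bos_al_slope_int hXn.TH_meas (B := 1) hXn.TH_nn hXn.TH_le hw0.le hwv hv2
  have e1 : Q.hpI g w v2 = ∫ v in w..v2, (cmkNum F.m (Q.bE g) (Q.hE g)).TH v * v⁻¹ := by
    unfold BdQ.hpI
    refine intervalIntegral.integral_congr fun v hv => ?_
    rw [uIcc_of_le hwv] at hv
    show Q.hpT g v / v = _
    rw [hT v hv, div_eq_mul_inv]
  have hi2 : IntervalIntegrable (fun v => (cmkNum F.m (Q.bE g) (Q.hE g)).TH v * v⁻¹) volume w v2 := by
    refine hi.mul_continuousOn (ContinuousOn.inv₀ continuousOn_id fun v hv => ?_)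
    rw [uIcc_of_le hwv] at hv
    exact (lt_of_lt_of_le hw0 hv.1).ne'
  rw [e1, integral_Icc_eq_integral_Ioc, ← intervalIntegral.integral_of_le hwv, ← intervalIntegral.integral_const_mul]
  refine intervalIntegral.integral_mono_on hwv hi2 (hi.const_mul _) fun v hv => ?_
  have hv0 : 0 < v := lt_of_lt_of_le hw0 hv.1
  have h1 : v⁻¹ ≤ 1 / w := by rw [one_div]; exact inv_anti₀ hw0 hv.1
  have h2 := hXn.TH_nn v ⟨hv0.le, hv.2.trans hv2⟩
  calc _ ≤ (cmkNum F.m (Q.bE g) (Q.hE g)).TH v * (1 / w) := mul_le_mul_of_nonneg_left h1 h2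
    _ = _ := mul_comm _ _

/-- **one high dyad**, closed form -/
theorem bud_hp_tr_one (hS : BdStd X W Fam K) (hW : W.IsSk) {CLp CS cL CL : ℝ} (hG : BudHpGeo X W Fam CLp) (hSv : BudHpSv X W Fam CS)
    (hcL : 0 < cL)
    (h7 : BdEv (fun i : BdI X => i.F.N) (fun i => i.OkS W Fam) fun i => ∀ v ∈ Icc (i.F.wc X) 1, cL * v ≤ i.Q.r v ∧ i.Q.r v ≤ CL * v)
    (hcI : X.cI ≤ cL * X.cH) :
    ∃ A : ℝ, ∃ N0 : ℕ, ∀ i : BdI X, i.OkS W Fam → N0 ≤ i.F.N → ∀ w : ℝ, X.cH * i.F.u ≤ w → w ≤ 1 →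
      i.Q.hpI i.g w (min (2 * w) 1) ≤ A * (Real.log i.F.N ^ 3 * (i.F.x ^ 6 / i.F.C X w)) := by
  have hX := hS.fix
  obtain ⟨N1, H1⟩ := hG
  obtain ⟨N2, H2⟩ := bd_ev_iff.1 hSv
  obtain ⟨N3, H3⟩ := bd_ev_iff.1 h7
  obtain ⟨N4, H4⟩ := bud_hp_tr_wc hX
  obtain ⟨N5, H5⟩ := bud_hp_tr_one_aux1 hX (mul_pos hcL hX.cH_pos)
  refine ⟨2 * ((9 * CL / cL + 2 * max CS 1) * max 1 (3 * CL ^ 2 / cL) * CLp ^ 3), max N1 (max N2 (max N3 (max N4 N5))),
    fun i hi hN w hw hw1 => ?_⟩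
  have hN1 : N1 ≤ i.F.N := le_trans (le_max_left _ _) hN
  have hN' := le_trans (le_max_right _ _) hN
  have hN2 : N2 ≤ i.F.N := le_trans (le_max_left _ _) hN'
  have hN'' := le_trans (le_max_right _ _) hN'
  have hN3 : N3 ≤ i.F.N := le_trans (le_max_left _ _) hN''
  have hN''' := le_trans (le_max_right _ _) hN''
  have hN4 : N4 ≤ i.F.N := le_trans (le_max_left _ _) hN'''
  have hN5 : N5 ≤ i.F.N := le_trans (le_max_right _ _) hN'''
  have hF : Fam i.F := hi.1.1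
  have hg := hi.1.2.1
  have hFo := hS.ok _ hF
  have hP := bud_env_pos hX hFo
  obtain ⟨Z, al, r, kb, Lp, hLp, hre, hkbe, hXn, hGeo⟩ := H1 i hi hN1
  have hef : ∀ x ∈ Icc (0 : ℝ) 1, i.F.C X x ≤ Lp * i.F.C X x := fun x _ =>
    le_mul_of_one_le_left (cm_e_pos (i.F.call X) hP.C00 x).le hGeo.Lp1
  have hcu : 0 < X.cH * i.F.u := mul_pos hX.cH_pos hP.u0
  have hw0 : 0 < w := lt_of_lt_of_le hcu hw
  have hCw : 0 < i.F.C X w := cm_e_pos (i.F.call X) hP.C00 w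
  have hwv : w ≤ min (2 * w) 1 := le_min (by linarith) hw1
  have h7i := H3 i hi hN3
  have hwc := H4 i.F hFo hN4
  have hcC : cL ≤ CL := by
    have h3 := h7i w ⟨hwc.trans hw, hw1⟩
    exact le_of_mul_le_mul_right (h3.1.trans h3.2) hw0
  have hCL0 : 0 < CL := lt_of_lt_of_le hcL hcC
  have hM : 1 / i.F.Mj ≤ cL * (X.cH * i.F.u) := by rw [← mul_assoc]; exact H5 i.F hFo hN5
  have hCS1 : 1 ≤ max CS 1 := le_max_right _ _
  -- the value of `S` at the upper end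
  have hSv2 : (cmkNum i.F.m (i.Q.bE i.g) (i.Q.hE i.g)).S (min (2 * w) 1) ≤ max CS 1 * (2 * w) := by
    rcases lt_or_ge (2 * w) 1 with h | h
    · rw [min_eq_left h.le]
      have hv : 2 * w ∈ Ioo (0 : ℝ) 1 := ⟨by linarith, h⟩
      have e1 : (cmkNum i.F.m (i.Q.bE i.g) (i.Q.hE i.g)).S (2 * w) = i.Q.Sq W i.g (2 * w) := by
        rw [← bud_hp_S_eq hS hW hF hg i.Q hv]
        show skCS i.F.m 1 (i.Q.bE i.g) (i.Q.hE i.g) (ghPosA (cmkCl (2 * w))) = skCS i.F.m 1 (i.Q.bE i.g) (i.Q.hE i.g) (ghPosA (2 * w))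
        unfold cmkCl
        rw [min_eq_left h.le, max_eq_right hv.1.le]
      rw [e1]
      refine (H2 i hi hN2 (2 * w) ⟨by linarith, h⟩).trans ?_
      exact mul_le_mul_of_nonneg_right (le_max_left _ _) hv.1.le
    · rw [min_eq_right h]
      have := hXn.S_le 1 ⟨zero_le_one, le_rfl⟩
      nlinarith
  have h7r : ∀ v ∈ Icc (i.F.wc X) 1, cL * v ≤ r v ∧ r v ≤ CL * v := fun v hv => by
    rw [hre v ⟨(BdFr.wc_pos' hX hFo).le.trans hv.1, hv.2⟩]; exact h7i v hv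
  have hb := bud_hp_tr_one_aux2 hS hF hXn hGeo hkbe hef hcL h7r hcI hwc hM hw hw1 hCS1 hSv2
  have ha := bud_hp_tr_one_aux3 i.Q i.g hXn hw0 hwv (min_le_right _ _)
  obtain ⟨B, hB⟩ : ∃ B, B = (9 * CL / cL + 2 * max CS 1) * max 1 (3 * CL ^ 2 / cL) := ⟨_, rfl⟩
  have hB0 : 0 ≤ B := by
    rw [hB]
    have : 0 < max CS 1 := by linarith
    have : (0 : ℝ) < max 1 (3 * CL ^ 2 / cL) := lt_of_lt_of_le one_pos (le_max_left _ _)
    positivity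
  rw [← hB] at hb ⊢
  have hm0 : (0 : ℝ) < i.F.m := hP.m0
  have hLp1 := hGeo.Lp1
  have hLp0 : 0 < Lp := by linarith
  have hLp2 : Lp ^ 3 ≤ CLp ^ 3 * Real.log i.F.N ^ 3 := by
    rw [← mul_pow]
    exact pow_le_pow_left₀ (by linarith) hLp 3
  have hx6 := bud_hp_aux_x6 hFo
  have hminv : 1 / (i.F.m : ℝ) ≤ 2 * i.F.x ^ 6 := by
    rw [div_le_iff₀ hm0]
    have h1 := hFo.m_lo
    have h2 : 0 < i.F.x ^ 6 := pow_pos hP.x0 6
    nlinarith
  calc i.Q.hpI i.g w (min (2 * w) 1)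
      ≤ 1 / w * (B * Lp ^ 2 * w / ((i.F.m : ℝ) / Lp * i.F.C X w)) := ha.trans (mul_le_mul_of_nonneg_left hb (by positivity))
    _ = B * Lp ^ 3 * (1 / (i.F.m : ℝ)) / i.F.C X w := by field_simp
    _ ≤ B * (CLp ^ 3 * Real.log i.F.N ^ 3) * (2 * i.F.x ^ 6) / i.F.C X w := by
        refine div_le_div_of_nonneg_right ?_ hCw.le
        exact mul_le_mul (mul_le_mul_of_nonneg_left hLp2 hB0) hminv (by positivity)
          (mul_nonneg hB0 ((pow_pos hLp0 3).le.trans hLp2))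
    _ = 2 * (B * CLp ^ 3) * (Real.log i.F.N ^ 3 * (i.F.x ^ 6 / i.F.C X w)) := by ring

/-- **THE FIRST OPTION**.      TEX[LL:bud:high-primitive] l.1691-1695 -/
theorem bud_hp_tr (hS : BdStd X W Fam K) (hW : W.IsSk) {CLp CS cL CL : ℝ} (hG : BudHpGeo X W Fam CLp) (hSv : BudHpSv X W Fam CS)
    (hcL : 0 < cL)
    (h7 : BdEv (fun i : BdI X => i.F.N) (fun i => i.OkS W Fam) fun i => ∀ v ∈ Icc (i.F.wc X) 1, cL * v ≤ i.Q.r v ∧ i.Q.r v ≤ CL * v)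
    (hcI : X.cI ≤ cL * X.cH) : BudHpTr X W Fam := by
  have hX := hS.fix
  obtain ⟨A, N0, H⟩ := bud_hp_tr_one hS hW hG hSv hcL h7 hcI
  unfold BudHpTr
  rw [bd_sub_iff]
  · intro ε hε
    refine ⟨max A 0 * (3 / ε + 2) ^ 3, N0, fun i hi hN => ?_⟩
    obtain ⟨hiO, hw, hw1⟩ := hi
    have hFo := hS.ok _ hiO.1.1
    have hP := bud_env_pos hX hFo
    have hCw : 0 < i.1.F.C X i.2 := cm_e_pos (i.1.F.call X) hP.C00 i.2
    have hG0 : 0 ≤ i.1.F.x ^ 6 / i.1.F.C X i.2 := by have := hP.x0; positivity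
    have hN1 : 1 ≤ i.1.F.N := le_trans (by norm_num) hFo.N2
    have hlog : 0 ≤ Real.log i.1.F.N := Real.log_nonneg (by exact_mod_cast hN1)
    have h1 := bud_hp_aux_log_pow ε hε i.1.F.N hN1
    have h2 : Real.log i.1.F.N ^ 3 ≤ (Real.log i.1.F.N + 2) ^ 3 := pow_le_pow_left₀ hlog (by linarith) 3
    calc i.1.Q.hpI i.1.g i.2 (min (2 * i.2) 1)
        ≤ A * (Real.log i.1.F.N ^ 3 * (i.1.F.x ^ 6 / i.1.F.C X i.2)) := H i.1 hiO hN i.2 hw hw1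
      _ ≤ max A 0 * (Real.log i.1.F.N ^ 3 * (i.1.F.x ^ 6 / i.1.F.C X i.2)) :=
          mul_le_mul_of_nonneg_right (le_max_left _ _) (by positivity)
      _ ≤ max A 0 * ((3 / ε + 2) ^ 3 * (i.1.F.N : ℝ) ^ ε * (i.1.F.x ^ 6 / i.1.F.C X i.2)) :=
          mul_le_mul_of_nonneg_left (mul_le_mul_of_nonneg_right (h2.trans h1) hG0) (le_max_right _ _)
      _ = _ := by ring
  · rintro i ⟨hiO, hw, hw1⟩
    have hFo := hS.ok _ hiO.1.1
    have hP := bud_env_pos hX hFo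
    have hw0 : 0 < i.2 := lt_of_lt_of_le (mul_pos hX.cH_pos hP.u0) hw
    have hT := (bud_hp_inst_det (W := W) hS hiO.1.1 hiO.1.2.1 i.1.Q).2.2.2.2.1
    unfold BdQ.hpI
    refine intervalIntegral.integral_nonneg (le_min (by linarith) hw1) fun v hv => ?_
    have hv0 : 0 < v := lt_of_lt_of_le hw0 hv.1
    exact div_nonneg (hT v ⟨hv0.le, hv.2.trans (min_le_right _ _)⟩) hv0.le
  · rintro i ⟨hiO, hw, hw1⟩
    have hFo := hS.ok _ hiO.1.1
    have hP := bud_env_pos hX hFo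
    have hCw : 0 < i.1.F.C X i.2 := cm_e_pos (i.1.F.call X) hP.C00 i.2
    have := hP.x0
    positivity

/-! ## 4. The geometry is available: `BudHpGeo` is a THEOREM -/

/-- the logarithmic factor of 111 is `≲ log N`: `C_0/d³ = 1/(c_d³ u)`, `u ≥ x/CU`, `log(1/x) = log N/6` -/
theorem bud_hp_geo_Lp (hX : X.Ok) : ∃ CLp : ℝ, ∀ F : BdFr, F.Ok X → F.bosLp X ≤ CLp * Real.log F.N := by
  obtain ⟨A, hA⟩ : ∃ A : ℝ, A = X.CU / X.cd ^ 3 := ⟨_, rfl⟩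
  have hA0 : 0 < A := by rw [hA]; exact div_pos hX.CU_pos (pow_pos hX.cd_pos 3)
  have hl2 : 0 < Real.log 2 := Real.log_pos (by norm_num)
  refine ⟨(1 + Real.log (1 + A)) / Real.log 2 + 1 / 6, fun F hF => ?_⟩
  have hx0 := BdFr.bds_x_pos hF
  have hx1 := BdFr.bds_x_lt_one hF
  have hu0 := BdFr.bds_u_pos hF hX
  have hl0 := BdFr.bds_lam_pos hF
  have hl1 := BdFr.bds_lam_lt_one hF hX
  have hC0 := bud_gb_C0_pos hX hF
  have hsS : 0 ≤ X.sS := by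
    have := hX.tau_le; unfold BdFix.sS; linarith
  have hxu : F.x ≤ X.CU * F.u := by
    refine le_trans ?_ hF.u_lo
    unfold BdFr.U
    have : 1 ≤ F.lam ^ (-(X.sS / 2)) := Real.one_le_rpow_of_pos_of_le_one_of_nonpos hl0 hl1.le (by linarith)
    exact le_mul_of_one_le_right hx0.le this
  have harg : F.C0 / F.dPE X ^ 3 ≤ A / F.x := by
    rw [bud_gb_d_cube hF, hA, div_div, div_le_div_iff₀ (by have := hX.cd_pos; positivity) (by have := hX.cd_pos; positivity)]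
    have h3 : 0 < X.cd ^ 3 := pow_pos hX.cd_pos 3
    have : F.C0 * X.cd ^ 3 * F.x ≤ F.C0 * X.cd ^ 3 * (X.CU * F.u) := mul_le_mul_of_nonneg_left hxu (by positivity)
    nlinarith
  have hmax : max 1 (F.C0 / F.dPE X ^ 3) ≤ (1 + A) / F.x := by
    apply max_le
    · rw [le_div_iff₀ hx0]; linarith
    · refine harg.trans ?_
      exact div_le_div_of_nonneg_right (by linarith) hx0.le
  have hm0 : (0 : ℝ) < max 1 (F.C0 / F.dPE X ^ 3) := lt_of_lt_of_le zero_lt_one (le_max_left _ _)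
  have hN2 : (2 : ℝ) ≤ F.N := by exact_mod_cast hF.N2
  have hN0 : (0 : ℝ) < F.N := by linarith
  have hlogN : Real.log 2 ≤ Real.log F.N := Real.log_le_log (by norm_num) hN2
  have hlx : Real.log F.x = -(1 / 6) * Real.log F.N := by
    unfold BdFr.x
    rw [Real.log_rpow hN0]
  have h1 : Real.log (max 1 (F.C0 / F.dPE X ^ 3)) ≤ Real.log (1 + A) + 1 / 6 * Real.log F.N := by
    refine (Real.log_le_log hm0 hmax).trans (le_of_eq ?_)
    rw [Real.log_div (by linarith) hx0.ne', hlx]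
    ring
  have hlA : 0 ≤ Real.log (1 + A) := Real.log_nonneg (by linarith)
  have h2 : 1 + Real.log (1 + A) ≤ (1 + Real.log (1 + A)) / Real.log 2 * Real.log F.N := by
    rw [div_mul_eq_mul_div, le_div_iff₀ hl2]
    exact mul_le_mul_of_nonneg_left hlogN (by linarith)
  unfold BdFr.bosLp
  linarith

/-- **`BudHpGeo` holds** for every standard family: 109's geometry of a minimiser (`bud_n4_geo`, base by 248's `bdg_base`) in 111's closed form (`bos_geo_inst0`) -/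
theorem bud_hp_geo (hS : BdStd X W Fam K) (hW : W.IsHub) : ∃ CLp : ℝ, BudHpGeo X W Fam CLp := by
  have hX := hS.fix
  obtain ⟨CLp, hL⟩ := bud_hp_geo_Lp hX
  obtain ⟨N0, H⟩ := bud_n4_geo X hX
  refine ⟨CLp, N0, fun i hi hN => ?_⟩
  have hF : Fam i.F := hi.1.1
  have hg := hi.1.2.1
  have hFo := hS.ok _ hF
  have hbase := bdg_base hS hF i.Q hg
  obtain ⟨hb, hh⟩ := hS.clk i.F hF i.g hg i.Q
  obtain ⟨c0, hgeo, -⟩ := H i.F hFo hN W i.g hbase i.Q hi.1.2.2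
  obtain ⟨Z, hZ, -⟩ := bos_geo_inst0 hX hW (I := ⟨⟨i.F, i.g, i.Q, 0⟩, c0⟩) hFo hbase hb hh hgeo
  obtain ⟨-, -, h3⟩ := bud_dens_of_bdq X hX i.F hFo i.Q
  have hm : 0 < i.F.m := bud_hp_aux_m_pos hFo
  refine ⟨Z, _, _, _, _, hL i.F hFo, fun v hv => ?_, fun x hx => ?_, bos_num_ok hm hb hh, hZ⟩
  · unfold bosRG
    rw [bud_gb_clamp_eq hv]
    exact h3 v hv
  · unfold budKb
    rw [bud_gb_clamp_eq hx]

/-- **THE FIRST OPTION, final form**: no geometric input left.      TEX[LL:bud:high-primitive] l.1691-1695 -/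
theorem bud_hp_tr_std (hS : BdStd X W Fam K) (hW : W.IsSk) {CS cL CL : ℝ} (hSv : BudHpSv X W Fam CS) (hcL : 0 < cL)
    (h7 : BdEv (fun i : BdI X => i.F.N) (fun i => i.OkS W Fam) fun i => ∀ v ∈ Icc (i.F.wc X) 1, cL * v ≤ i.Q.r v ∧ i.Q.r v ≤ CL * v)
    (hcI : X.cI ≤ cL * X.cH) : BudHpTr X W Fam := by
  obtain ⟨CLp, hG⟩ := bud_hp_geo hS hW
  exact bud_hp_tr hS hW hG hSv hcL h7 hcI

/-! ## 5. ALL the inputs of N15 from the exits of the other nodes -/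

/-- (C7a) of 12 in the form of N15 -/
theorem bud_hp_c7a (hS : BdStd X W Fam K) {cL CL : ℝ} (h7 : Bd7C7a X W Fam cL CL) :
    BdEv (fun i : BdI X => i.F.N) (fun i => i.OkS W Fam) fun i => ∀ v ∈ Icc (i.F.wc X) 1, cL * v ≤ i.Q.r v ∧ i.Q.r v ≤ CL * v := by
  obtain ⟨N0, h⟩ := h7
  exact bd_ev_iff.2 ⟨N0, fun i hi hN v hv => h ⟨i.F, i.g, i.Q, v⟩ ⟨hi.1.1, hS.ok _ hi.1.1, hi.1.2.1, hi.1.2.2⟩ hN hv⟩

/-- **`BudHpSv`** from (C8) (first moment, conditional form of 12/7) and (C7a): `S_v ≤ C'(v + w_c) ≤ 2C' v` above `c_H u ≥ w_c` -/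
theorem bud_hp_sv (hS : BdStd X W Fam K) {cL CL : ℝ} (h7 : Bd7C7a X W Fam cL CL) (hraw : Bd7Raw X W Fam cL CL) :
    ∃ CS : ℝ, BudHpSv X W Fam CS := by
  have hX := hS.fix
  obtain ⟨C', N1, h1⟩ := BudA.raw_wc hS h7 hraw
  obtain ⟨N2, h2⟩ := bud_hp_tr_wc hX
  refine ⟨2 * max C' 0, bd_ev_iff.2 ⟨max N1 N2, fun i hi hN v hv => ?_⟩⟩
  have hFo := hS.ok _ hi.1.1
  have hu := BdFr.bds_u_pos hFo hX
  have hv0 : 0 < v := lt_of_lt_of_le (mul_pos hX.cH_pos hu) hv.1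
  have a1 := (h1 i hi.1 ((le_max_left _ _).trans hN) v ⟨hv0, hv.2⟩).1
  have a2 : i.F.wc X ≤ v := (h2 i.F hFo ((le_max_right _ _).trans hN)).trans hv.1
  have a3 := (BdFr.wc_pos' hX hFo).le
  calc i.Q.Sq W i.g v ≤ C' * (v + i.F.wc X) := a1
    _ ≤ max C' 0 * (v + i.F.wc X) := mul_le_mul_of_nonneg_right (le_max_left _ _) (by linarith)
    _ ≤ max C' 0 * (2 * v) := mul_le_mul_of_nonneg_left (by linarith) (le_max_right _ _)
    _ = 2 * max C' 0 * v := by ring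

/-- **`BudHpIn`** from: the path facts `BdHpStd` (LL 03), (C7a) (N9), (C8) in the two forms `Bd7Raw` (numbers) and `BudHpRaw` (fine chains) (N5), and the order of the constants -/
theorem bud_hp_in_of (hS : BdStd X W Fam K) (hW : W.IsSk) {C : BdHpC} {dm : BdFr → ℝ} (hH : BdHpStd X Fam C dm) {cL CL : ℝ} (hcL : 0 < cL)
    (h7 : Bd7C7a X W Fam cL CL) (hraw : Bd7Raw X W Fam cL CL) (hRaw : BudHpRaw X W Fam) {Cbuf : ℝ} (hC : 0 ≤ Cbuf)
    (hcH : 4 * max (max 4 (2 / C.ptop)) (4 * CL / cL) * max 1 (K.Cb * X.cI + Cbuf) ≤ X.cH) (hcI : X.cI ≤ cL * X.cH) :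
    BudHpIn X W Fam K Cbuf := by
  obtain ⟨CS, hSv⟩ := bud_hp_sv hS h7 hraw
  have h7' := bud_hp_c7a hS h7
  exact ⟨C, dm, CS, cL, CL, hH, hSv, bud_hp_tr_std hS hW hSv hcL h7' hcI, hRaw, hcL, h7', hC, hcH, hcI⟩

theorem bud_hptr_eqns_cite : True := by
  have := @BudHpGeo.eq_1
  trivial

end

end Claimed.Agent.R286
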