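import Claimed.Agent.R286.Bud.L8
import Claimed.Agent.R286.Bud.N11
import Claimed.Agent.R286.Bud.N12
import Claimed.Agent.R286.Bud.GeoBr
import Claimed.Agent.R286.Bud.Brg248
import Claimed.Agent.R286.Bud.RawExit
import Claimed.Agent.R286.Sc.TwoX
import Claimed.Agent.R286.Exit.ScBd7

/-!
# Row 286, LL 07-budgets l.1305-1440: nodes N11, N12 at the FRAME LEVEL      OWNER helper6 (prefix `bnx_`, Props `Bnx*`, path inputs `BdP11`)

`Bud/N11.lean`, `Bud/N12.lean` = ONE instance, deterministic, abstract data.   HERE: the same nodes in the vocabulary of `Bud/Defs`, `Bud/L8Defs` (frames, optimisers, buffered violations),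
UNIFORM closed forms.   The Props `BnxSeed BnxTransport BnxC14 BnxDrift BnxC7a BnxLSmall` are VERBATIM the bodies of `BudB.Seed Transport C14 Drift C7a LSmall` (`Bud/HubB.lean` imports this file and closes its nodes by `exact`).

INPUTS
* `BdStd` (212), `BudC7al` (12), `BnxC7a` (12), `BudC13`, `BudZ` (N10), `BnxLSmall`, `BnxSNear` (= first clause of `BudB.BufGeo`; 248)
* `BdP11 X W Fam c`      **the path inputs** (LL03 (P2)-(P8)): ONE structure, to be embedded in `BdIn` (212); supplier = LL03 instance of the family (253 / 272 / 66)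
* `Bd7P9` (12, `Bud/L07S`)      (P9): `T_m → T`, `b → T_m`
* `BudScReq W.Gam Q0 Cc`      BOX-C: `bnx_screq` (PROVED from `sc2_req` (250) + `sb7_gam` (265))
EXITS
* A `bnx_screq`, `bnx_inv`, `bnx_gam`, `bnx_A`            scalar side
* B `bnx_base bnx_Ks_clock bnx_S_le bnx_Ks_le bnx_diff bnx_q_beta bnx_q_near bnx_dist_q bnx_viol`      facts on one frame
* C `bnx_seed`, `bnx_Dd`, `bnx_tr_ok`, `bnx_trI`, `bnx_transport`      (l.1353-1398)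
* D `bnx_til` (`rt_mono rt_near mt_bd transp`: fields (H1), (H4) of `RigD.Ok`, consumer 41), `bnx_kst`      (l.1347-1365)
* E `bnx_win`, `bnx_c14`, `bnx_drift`      (l.1403-1440, l.2012);  `A_* = 2 √T`
-/

set_option autoImplicit false

namespace Claimed.Agent.R286

open MeasureTheory Set Filter Topology

noncomputable section

/-! ## 0. inputs and Props -/

/-- constants of the path inputs -/
structure BdP11C where
  /-- `K_*(v) ≤ CK v`, `|d(v)| ≤ CK (v + w_c)` -/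
  CK : ℝ
  /-- `b ≤ bmax` -/
  bmax : ℝ

/-- **the path inputs of N11, N12**: what l.1347-1440 use of LL03 on the family of normalised direct paths at `γ_u = 0`.
(P2): `t(v) ≍ v`, `1 - b_∘ Γ_*'(t) = O(λ t²)` with derivative `O(λ t)`, `T_m = ℓ² b_∘ → T`;  (P3): `b ≍ 1`;  (P6), (P7): `h = h_* + d` above the mask, `h_* = K_* - b q`, near the tested band `d` is the logarithmic seed;  (P8). -/
structure BdP11 (X : BdFix) (W : BdWorld) (Fam : BdFr → Prop) (c : BdP11C) : Prop where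
  CK1 : 1 ≤ c.CK
  bmax0 : 0 ≤ c.bmax
  K_clk : ∀ F, Fam F → IsClock 1 F.K
  K_le : ∀ F, Fam F → ∀ v ∈ Ioo (0 : ℝ) 1, F.K v ≤ c.CK * v
  /-- `q = Γ_* ∘ K_*` -/
  q_tie : ∀ F, Fam F → ∀ v ∈ Ioo (0 : ℝ) 1, F.q v = W.Gam F.K (F.K v)
  /-- `h = K_* - b q + d` above the mask -/
  h_dec : ∀ F, Fam F → ∀ g ∈ Icc (X.glo 0) (X.ghi 0), ∀ v ∈ Ico F.xm 1, F.h g v = F.K v - F.b g v * F.q v + F.d v
  b_le : ∀ F, Fam F → ∀ g ∈ Icc (X.glo 0) (X.ghi 0), ∀ v ∈ Ioo (0 : ℝ) 1, F.b g v ≤ c.bmax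
  d_meas : ∀ F, Fam F → Measurable F.d
  /-- l.1374 "the low clock is controlled because `λ₁ U³ log(1/x) ≲ w_c`"; `H_lin ≤ x³ v`; `|H_e| ≤ 2 λ₁` at macroscopic masses; `|d| = h_* ≤ K_*` on the mask -/
  d_le : ∃ N0 : ℕ, ∀ F, Fam F → N0 ≤ F.N → ∀ v ∈ Ioo (0 : ℝ) 1, |F.d v| ≤ c.CK * (v + F.wc X)
  /-- l.1353: near the tested band the defect is the logarithmic seed, `|d| ≲_∘ λ₁ U³` -/
  seed : ∀ c1 C1 : ℝ, 0 < c1 → BdSub (fun i : BdFr × ℝ => i.1.N) (fun i => Fam i.1 ∧ i.2 ∈ Icc (c1 * i.1.u) (C1 * i.1.u))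
    (fun i => |i.1.d i.2|) (fun i => i.1.lam1 X * i.1.U X ^ 3)
  /-- (P8) -/
  p8 : BdSub (fun F : BdFr => F.N) Fam (fun F => ∫ v in (0 : ℝ)..1, F.d v ^ 2 / F.cg v)
    (fun F => F.lam ^ (1 + 2 * X.eta) * F.U X ^ (5 : ℝ) + F.chiE ^ 2 * F.lam ^ (1 + 2 * X.eta) * F.U X ^ (4 : ℝ)
      + F.chiL ^ 2 * F.x ^ (6 : ℝ) / F.lam)
  /-- (P2) + (P9): `Γ_*'(t) = (1 - O(λ t²))/T_m → 1/T` at times `O(u)` -/
  gam1 : ∀ C1 ε : ℝ, 0 < ε → ∃ N0 : ℕ, ∀ F, Fam F → N0 ≤ F.N → ∀ t ∈ Ioc (0 : ℝ) (C1 * F.u), |deriv (W.Gam F.K) t - 1 / X.T| ≤ ε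
  /-- (P2), differentiated: `Γ_*'' = O(λ u)` at times `O(u)` (l.1433, l.2012), integrated form -/
  gam2 : ∀ C1 : ℝ, ∃ C : ℝ, ∃ N0 : ℕ, ∀ F, Fam F → N0 ≤ F.N → ∀ t1 ∈ Ioc (0 : ℝ) (C1 * F.u), ∀ t2 ∈ Ioc (0 : ℝ) (C1 * F.u),
    |deriv (W.Gam F.K) t2 - deriv (W.Gam F.K) t1| ≤ C * (F.lam * F.u) * |t2 - t1|

section Props

variable (X : BdFix) (W : BdWorld) (Fam : BdFr → Prop)

/-- `= BudB.C7a` -/
def BnxC7a : Prop := ∃ cL CL : ℝ, 0 < cL ∧ ∃ N0 : ℕ, ∀ i : BdI X, i.Ok W Fam → N0 ≤ i.F.N →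
  ∀ v ∈ Icc (i.F.wc X) 1, cL * v ≤ i.Q.r v ∧ i.Q.r v ≤ CL * v

/-- `= BudB.OSt` -/
def BnxOSt (n : ℕ) (i : BdI X) : Prop :=
  BdAt X Fam n i.F ∧ i.g ∈ Icc (X.glo n) (X.ghi n) ∧ i.F.GoodG X W i.g ∧ i.Q.IsOpt W i.g

/-- what N11 uses of the majorant: `Z ≥ 1` on the parameter interval of the stage -/
def BnxZ1 (n : ℕ) : Prop := ∃ N0 : ℕ, ∀ F, BdAt X Fam n F → N0 ≤ F.N → ∀ g ∈ Icc (X.glo n) (X.ghi n), 1 ≤ F.Zj X W g

/-- `= BudB.LSmall` -/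
def BnxLSmall (n : ℕ) : Prop := ∀ ε : ℝ, 0 < ε → ∃ N0 : ℕ, ∀ i : BdVI X W, i.Ok Fam n 2 → N0 ≤ i.F.N → i.V.L ≤ ε

/-- the first clause of `BudB.BufGeo` -/
def BnxSNear (n : ℕ) (C s : ℝ) : Prop := ∃ N0 : ℕ, ∀ i : BdVI X W, i.Ok Fam n 2 → N0 ≤ i.F.N →
  ∀ r ∈ i.V.Buf s, |i.V.Q.Sq W i.V.g (i.V.Q.al r) - r| ≤ C * i.V.d0

/-- `Q0` = a common bound of the two scalar clocks -/
def BnxClkBd (Q0 : ℝ) : Prop := ∃ N0 : ℕ, ∀ i : BdI X, i.Ok W Fam → N0 ≤ i.F.N →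
  ∀ v ∈ Ioo (0 : ℝ) 1, i.F.K v ≤ Q0 ∧ i.Q.Ks W i.g v ≤ Q0

/-- `= BudB.Seed` -/
def BnxSeed (n : ℕ) : Prop := ∃ c : ℝ, 0 < c ∧ ∃ N0 : ℕ, ∀ i : BdVI X W, i.Ok Fam n 2 → N0 ≤ i.F.N →
  ∀ r ∈ i.V.Buf 1, |i.F.d (i.V.Q.al r)| ≤ i.F.lam ^ c * (i.F.u ^ 3 * i.V.P1)

/-- the transport estimate for EVERY optimiser of the stage (no violation): `∫ min(u,t)|δα_t| dt = o(u a_goal Z)` -/
def BnxTrI (n : ℕ) (Q0 : ℝ) : Prop := ∀ ε : ℝ, 0 < ε → ∃ N0 : ℕ, ∀ i : BdI X, BnxOSt X W Fam n i → N0 ≤ i.F.N →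
  ∫ t in (0 : ℝ)..Q0, min i.F.u t * |bdDist (i.Q.Ks W i.g) t - bdDist i.F.K t| ≤ ε * (i.F.u * (i.F.agoal X * i.F.Zj X W i.g))

/-- `= BudB.Transport` -/
def BnxTransport (n : ℕ) (Q0 : ℝ) : Prop := ∀ ε : ℝ, 0 < ε → ∃ N0 : ℕ, ∀ i : BdVI X W, i.Ok Fam n 2 → N0 ≤ i.F.N →
  ∫ t in (0 : ℝ)..Q0, min i.F.u t * |i.V.dal t| ≤ ε * i.V.d0

variable {X W}

/-- `r~ = Γ_* ∘ K_s` and `α~` in the buffer shrunk by `s` (l.1347-1365, l.2053, l.2074): unscaled fields `φ_mono, φ_near, mt_bd, transp` of `RigD.Ok` -/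
structure BnxTilAt (i : BdVI X W) (C s δ : ℝ) : Prop where
  rt_mono : MonotoneOn i.V.rtil (Ioo 0 1)
  rt_near : ∀ r ∈ i.V.Buf s, |i.V.rtil (i.V.Q.al r) - i.V.Q.Sq W i.V.g (i.V.Q.al r)| ≤ δ * i.V.d0
  mt_bd : ∀ r ∈ i.V.Buf s, |i.V.altil r - i.F.beta0 r| ≤ C * i.V.d0
  transp : ∀ r ∈ i.V.Buf s, |i.V.altil r - i.V.Q.al r| ≤ ∫ t in (r - C * i.V.d0)..(r + C * i.V.d0),
    (open Classical in if (t ≤ r ∧ r < i.V.rtil (i.V.Q.al t)) ∨ (r < t ∧ i.V.rtil (i.V.Q.al t) ≤ r) then deriv i.V.Q.al t else 0)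

variable (X W)

def BnxTil (n : ℕ) (C s : ℝ) : Prop := ∀ δ : ℝ, 0 < δ → ∃ N0 : ℕ, ∀ i : BdVI X W, i.Ok Fam n 2 → N0 ≤ i.F.N → BnxTilAt i C s δ

/-- `= BudB.C14` (`BudB.Gf` unfolded) -/
def BnxC14 (n : ℕ) (Astar s : ℝ) : Prop := ∀ ε : ℝ, 0 < ε → ∃ N0 : ℕ, ∀ i : BdVI X W, i.Ok Fam n 2 → N0 ≤ i.F.N →
  (∀ r ∈ i.V.Buf s, DifferentiableAt ℝ (fun r => i.V.Q.Gs W i.V.g (i.F.kst W r) - r) r) ∧
    ∀ r1 ∈ i.V.Buf s, ∀ r2 ∈ i.V.Buf s, r1 ≤ r2 →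
      |deriv (fun r => i.V.Q.Gs W i.V.g (i.F.kst W r) - r) r2 - deriv (fun r => i.V.Q.Gs W i.V.g (i.F.kst W r) - r) r1
        + Astar * ∫ r in r1..r2, (i.V.altil r - i.F.beta0 r)| ≤ ε * i.V.d0 * (r2 - r1)

/-- `= BudB.Drift` -/
def BnxDrift (n : ℕ) (s : ℝ) : Prop := ∃ C : ℝ, ∃ N0 : ℕ, ∀ i : BdVI X W, i.Ok Fam n 2 → N0 ≤ i.F.N →
  ∀ r1 ∈ i.V.Buf s, ∀ r2 ∈ i.V.Buf s,
    |deriv (i.V.Q.Gs W i.V.g) (i.V.Q.Ks W i.V.g (i.V.Q.al r2)) - deriv (i.V.Q.Gs W i.V.g) (i.V.Q.Ks W i.V.g (i.V.Q.al r1))|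
      ≤ C * (i.V.d0 + i.F.lam * i.F.u) * |i.V.Q.Ks W i.V.g (i.V.Q.al r2) - i.V.Q.Ks W i.V.g (i.V.Q.al r1)|

end Props

theorem bnx_defs_eqns_cite : True := by
  have := @BnxC7a.eq_1; have := @BnxOSt.eq_1; have := @BnxZ1.eq_1; have := @BnxLSmall.eq_1; have := @BnxSNear.eq_1
  have := @BnxClkBd.eq_1; have := @BnxSeed.eq_1; have := @BnxTrI.eq_1; have := @BnxTransport.eq_1; have := @BnxTil.eq_1
  have := @BnxC14.eq_1; have := @BnxDrift.eq_1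
  trivial

variable {X : BdFix} {W : BdWorld} {Fam : BdFr → Prop} {K : BdCst} {c : BdP11C}

/-! ## A. the scalar side -/

/-- BOX-C meets the request of N12 for the world (`sc2_req` of 250, `sb7_gam` of 265) -/
theorem bnx_screq (hW : W.IsHub) {Q0 : ℝ} (hQ : 0 < Q0) : ∃ Cc : ℝ, 0 < Cc ∧ BudScReq W.Gam Q0 Cc := by
  obtain ⟨Cc, hCc, h⟩ := sc2_req hQ
  refine ⟨Cc, hCc, h W.Gam fun K hK t ht => ?_⟩
  have hclk : IsClock 1 K := ⟨hK.1, fun v hv => (hK.2 v hv).1, ⟨Q0, fun v hv => (hK.2 v hv).2⟩⟩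
  rw [hW.Gam K hclk t ht.1, sb7_gam hclk (fun v hv => (hK.2 v hv).2) ht.1 ht.2 hQ]
  rfl

/-- A1 the generalised inverse of a function which increases at rate `≥ c` on `[0,τ]` (whatever it does after `τ`).
Proof: IVT gives `t0 ∈ (0,τ)` with `φ t0 = r` (`φ 0 = 0 < r < c τ ≤ φ τ`); `t0` is the LEAST element of `{s ≥ 0 | r ≤ φ s}` (`s < t0` gives `φ s ≤ r - c (t0 - s) < r`); uniqueness from `hinc`. -/
theorem bnx_inv {φ : ℝ → ℝ} {τ c : ℝ} (hc : 0 < c) (h0 : φ 0 = 0) (hcont : ContinuousOn φ (Icc 0 τ))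
    (hinc : ∀ s ∈ Icc 0 τ, ∀ t ∈ Icc 0 τ, s ≤ t → c * (t - s) ≤ φ t - φ s) {r : ℝ} (hr : r ∈ Ioo 0 (c * τ)) :
    bdInv φ r ∈ Ioo 0 τ ∧ φ (bdInv φ r) = r ∧ ∀ t ∈ Icc 0 τ, φ t = r → bdInv φ r = t := by
  have hτ : 0 < τ := by
    by_contra hn
    have : c * τ ≤ 0 := mul_nonpos_of_nonneg_of_nonpos hc.le (not_lt.1 hn)
    linarith [hr.1, hr.2]
  have hφτ : c * τ ≤ φ τ := by
    have := hinc 0 ⟨le_rfl, hτ.le⟩ τ ⟨hτ.le, le_rfl⟩ hτ.le
    rw [h0] at this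
    linarith
  obtain ⟨t0, ht0, hφ0⟩ := intermediate_value_Icc hτ.le hcont (show r ∈ Icc (φ 0) (φ τ) from ⟨by rw [h0]; exact hr.1.le, hr.2.le.trans hφτ⟩)
  have ht0pos : 0 < t0 := by
    rcases ht0.1.eq_or_lt with h | h
    · rw [← h, h0] at hφ0
      linarith [hr.1]
    · exact h
  have ht0lt : t0 < τ := by
    rcases ht0.2.eq_or_lt with h | h
    · rw [h] at hφ0
      linarith [hr.2]
    · exact h
  have hleast : IsLeast {s : ℝ | 0 ≤ s ∧ r ≤ φ s} t0 := by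
    refine ⟨⟨ht0.1, hφ0.ge⟩, fun s hs => ?_⟩
    by_contra hn
    have hlt : s < t0 := not_le.1 hn
    have h1 := hinc s ⟨hs.1, hlt.le.trans ht0.2⟩ t0 ht0 hlt.le
    have h2 : 0 < c * (t0 - s) := mul_pos hc (by linarith)
    have h3 : r ≤ φ s := hs.2
    linarith
  have hinv : bdInv φ r = t0 := hleast.csInf_eq
  rw [hinv]
  refine ⟨⟨ht0pos, ht0lt⟩, hφ0, fun t ht hφt => ?_⟩
  rcases le_total t0 t with h | h
  · have h1 := hinc t0 ht0 t ht h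
    rw [hφt, hφ0, sub_self] at h1
    have : t - t0 ≤ 0 := by
      by_contra hn
      have := mul_pos hc (not_le.1 hn)
      linarith
    linarith
  · have h1 := hinc t ht t0 ht0 h
    rw [hφt, hφ0, sub_self] at h1
    have : t0 - t ≤ 0 := by
      by_contra hn
      have := mul_pos hc (not_le.1 hn)
      linarith
    linarith

/-- A2 increments of `Γ` on the horizon.   Proof: `Convex.mul_sub_le_image_sub_of_le_deriv`, `Convex.image_sub_le_mul_sub_of_deriv_le` on `Icc 0 Q0` (`G_cont`, `der`, `G1_ge`, `G1_le`). -/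
theorem bnx_cv_incr {cv : BudCv} {Q0 Cc : ℝ} (hc : cv.Ok Q0 Cc) {s t : ℝ} (hs : s ∈ Icc 0 Q0) (ht : t ∈ Icc 0 Q0)
    (hst : s ≤ t) : 1 / Cc * (t - s) ≤ cv.G t - cv.G s ∧ cv.G t - cv.G s ≤ Cc * (t - s) := by
  have hd : DifferentiableOn ℝ cv.G (interior (Icc 0 Q0)) := by
    rw [interior_Icc]
    exact fun x hx => (hc.der x hx).differentiableAt.differentiableWithinAt
  constructor
  · refine Convex.mul_sub_le_image_sub_of_le_deriv (convex_Icc 0 Q0) hc.G_cont hd (fun x hx => ?_) s hs t ht hst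
    rw [interior_Icc] at hx
    rw [(hc.der x hx).deriv]
    exact hc.G1_ge x (Ioo_subset_Icc_self hx)
  · refine Convex.image_sub_le_mul_sub_of_deriv_le (convex_Icc 0 Q0) hc.G_cont hd (fun x hx => ?_) s hs t ht hst
    rw [interior_Icc] at hx
    rw [(hc.der x hx).deriv]
    exact hc.G1_le x (Ioo_subset_Icc_self hx)

/-- A3 `Γ'` is Lipschitz on the horizon.   Proof: `der2`, `|f2| ≤ Cc Q0`, `|2 α e3| ≤ 2 Cc` (integrability: `bud_n12_int`). -/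
theorem bnx_cv_lip {cv : BudCv} {Q0 Cc : ℝ} (hc : cv.Ok Q0 Cc) {s t : ℝ} (hs : s ∈ Icc 0 Q0) (ht : t ∈ Icc 0 Q0) :
    |cv.G1 t - cv.G1 s| ≤ Cc * (Q0 + 2) * |t - s| := by
  rw [hc.der2 s hs t ht]
  have hCc : 0 ≤ Cc := (abs_nonneg _).trans (hc.e3_le s hs)
  have h := intervalIntegral.norm_integral_le_of_norm_le_const (a := s) (b := t) (C := Cc * (Q0 + 2))
    (f := fun x => cv.f2 x - 2 * cv.al x * cv.e3 x) (fun x hx => ?_)
  · simpa [Real.norm_eq_abs] using h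
  have hx' : x ∈ Icc 0 Q0 := uIcc_subset_Icc hs ht (uIoc_subset_uIcc hx)
  have a1 := hc.f2_le x hx'
  have a2 := hc.e3_le x hx'
  have a3 := hc.al_mem x hx'
  have a4 : Cc * x ≤ Cc * Q0 := mul_le_mul_of_nonneg_left hx'.2 hCc
  have a5 : |2 * cv.al x * cv.e3 x| ≤ 2 * Cc := by
    rw [abs_mul, abs_mul, abs_of_nonneg a3.1, abs_of_pos (by norm_num : (0 : ℝ) < 2)]
    calc 2 * cv.al x * |cv.e3 x| ≤ 2 * 1 * Cc := mul_le_mul (by linarith [a3.2]) a2 (abs_nonneg _) (by norm_num)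
      _ = 2 * Cc := by ring
  rw [Real.norm_eq_abs]
  calc |cv.f2 x - 2 * cv.al x * cv.e3 x| ≤ |cv.f2 x| + |2 * cv.al x * cv.e3 x| := abs_sub _ _
    _ ≤ Cc * Q0 + 2 * Cc := add_le_add (a1.trans a4) a5
    _ = _ := by ring

/-- A4 second order Taylor bound.   Proof: `Γ t - Γ s = ∫_s^t Γ'` (`intervalIntegral.integral_eq_sub_of_hasDerivAt_of_le`-type FTC with `G_cont`, `der`, `bud_n12_curv_cont`), A3. -/
theorem bnx_cv_taylor {cv : BudCv} {Q0 Cc : ℝ} (hc : cv.Ok Q0 Cc) {s t : ℝ} (hs : s ∈ Icc 0 Q0) (ht : t ∈ Icc 0 Q0) :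
    |cv.G t - cv.G s - cv.G1 s * (t - s)| ≤ Cc * (Q0 + 2) * (t - s) ^ 2 := by
  have hCc : 0 ≤ Cc := (abs_nonneg _).trans (hc.e3_le s hs)
  have hQ0 : 0 ≤ Q0 := hs.1.trans hs.2
  have hL : 0 ≤ Cc * (Q0 + 2) := by positivity
  -- the bound on an ordered pair `a ≤ b` containing `s`
  have key : ∀ a b : ℝ, a ∈ Icc 0 Q0 → b ∈ Icc 0 Q0 → a ≤ b → s ∈ Icc a b →
      |(cv.G b - cv.G1 s * b) - (cv.G a - cv.G1 s * a)| ≤ Cc * (Q0 + 2) * (b - a) * (b - a) := by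
    intro a b ha hb hab hsab
    have hsub : Icc a b ⊆ Icc 0 Q0 := Icc_subset_Icc ha.1 hb.2
    have hcont : ContinuousOn (fun x => cv.G x - cv.G1 s * x) (Icc a b) :=
      (hc.G_cont.mono hsub).sub (continuousOn_const.mul continuousOn_id)
    have hder : ∀ x ∈ Ioo a b, HasDerivAt (fun x => cv.G x - cv.G1 s * x) (cv.G1 x - cv.G1 s) x := by
      intro x hx
      have h1 := hc.der x ⟨lt_of_le_of_lt ha.1 hx.1, lt_of_lt_of_le hx.2 hb.2⟩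
      have h2 : HasDerivAt (fun x => cv.G1 s * x) (cv.G1 s) x := by
        simpa using (hasDerivAt_id x).const_mul (cv.G1 s)
      exact h1.sub h2
    have hd : DifferentiableOn ℝ (fun x => cv.G x - cv.G1 s * x) (interior (Icc a b)) := by
      rw [interior_Icc]
      exact fun x hx => (hder x hx).differentiableAt.differentiableWithinAt
    have hbd : ∀ x ∈ Ioo a b, |cv.G1 x - cv.G1 s| ≤ Cc * (Q0 + 2) * (b - a) := by
      intro x hx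
      refine (bnx_cv_lip hc hs (hsub (Ioo_subset_Icc_self hx))).trans (mul_le_mul_of_nonneg_left ?_ hL)
      rw [abs_le]
      constructor <;> linarith [hx.1, hx.2, hsab.1, hsab.2]
    have u1 := Convex.image_sub_le_mul_sub_of_deriv_le (convex_Icc a b) hcont hd (C := Cc * (Q0 + 2) * (b - a)) (fun x hx => by
      rw [interior_Icc] at hx
      rw [(hder x hx).deriv]
      exact (abs_le.1 (hbd x hx)).2) a ⟨le_rfl, hab⟩ b ⟨hab, le_rfl⟩ hab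
    have u2 := Convex.mul_sub_le_image_sub_of_le_deriv (convex_Icc a b) hcont hd (C := -(Cc * (Q0 + 2) * (b - a))) (fun x hx => by
      rw [interior_Icc] at hx
      rw [(hder x hx).deriv]
      exact (abs_le.1 (hbd x hx)).1) a ⟨le_rfl, hab⟩ b ⟨hab, le_rfl⟩ hab
    rw [abs_le]
    constructor <;> linarith
  rcases le_total s t with h | h
  · have := key s t hs ht h ⟨le_rfl, h⟩
    calc |cv.G t - cv.G s - cv.G1 s * (t - s)| = |(cv.G t - cv.G1 s * t) - (cv.G s - cv.G1 s * s)| := by congr 1; ring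
      _ ≤ Cc * (Q0 + 2) * (t - s) * (t - s) := this
      _ = _ := by ring
  · have := key t s ht hs h ⟨h, le_rfl⟩
    calc |cv.G t - cv.G s - cv.G1 s * (t - s)| = |(cv.G s - cv.G1 s * s) - (cv.G t - cv.G1 s * t)| := by
          rw [← abs_neg]; congr 1; ring
      _ ≤ Cc * (Q0 + 2) * (s - t) * (s - t) := this
      _ = _ := by ring

/-- A5 the coefficient of (C14): `A_* = 2 E V_zz³/(Γ_*')² → 2/V_zz(0,0) = 2 √T` as `t → 0`, `Γ_*'(t) → 1/T`.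
Proof: `zero` gives `s ≥ 0`, `G1 0 = s²`, `e3 0 = s³`; for `t ≤ η ≤ 1`: `|G1 t - s²| ≤ 3 Cc η` (`der2`, `f2_le`, `e3_le`, `al_mem`), `|e3 t - s³| ≤ Cc η` (`e3_lip`); so `|s² - 1/T| ≤ (3 Cc + 1) η`;
`s³ = (s²)^{3/2}`; continuity of `(x, y) ↦ 2 y / x²` and of `x ↦ x^{3/2}` at `x = 1/T`; `2 (1/T)^{3/2} T² = 2 √T`. -/
theorem bnx_A {T Cc : ℝ} (hT : 0 < T) (hCc : 0 < Cc) : ∀ ε : ℝ, 0 < ε → ∃ η : ℝ, 0 < η ∧
    ∀ (cv : BudCv) (Q0 t : ℝ), cv.Ok Q0 Cc → t ∈ Icc 0 Q0 → t ≤ η → |cv.G1 t - 1 / T| ≤ η →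
      |2 * cv.e3 t / cv.G1 t ^ 2 - 2 * Real.sqrt T| ≤ ε := by
  intro ε hε
  have hcont : ContinuousAt (fun p : ℝ × ℝ × ℝ => 2 * (p.2.1 * Real.sqrt p.2.1 + p.2.2) / p.1 ^ 2) (1 / T, 1 / T, 0) := by
    have h0 : ((1 / T, 1 / T, (0:ℝ)) : ℝ × ℝ × ℝ).1 ^ 2 ≠ 0 := by positivity
    refine ContinuousAt.div ?_ ?_ h0
    · fun_prop
    · fun_prop
  have hval : 2 * ((1 / T) * Real.sqrt (1 / T) + 0) / (1 / T) ^ 2 = 2 * Real.sqrt T := by
    have h1 := Real.mul_self_sqrt hT.le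
    have h2 : 0 < Real.sqrt T := Real.sqrt_pos.2 hT
    rw [Real.sqrt_div zero_le_one, Real.sqrt_one]
    field_simp
    nlinarith
  obtain ⟨δ, hδ, H⟩ := Metric.continuousAt_iff.1 hcont ε hε
  refine ⟨min 1 (δ / (2 * (3 * Cc + 1))), by positivity, fun cv Q0 t hc ht htη hG => ?_⟩
  set η := min 1 (δ / (2 * (3 * Cc + 1))) with hη
  have hη1 : η ≤ 1 := min_le_left _ _
  have hη0 : 0 < η := by positivity
  have hηδ : (3 * Cc + 1) * η ≤ δ / 2 := by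
    have : η ≤ δ / (2 * (3 * Cc + 1)) := min_le_right _ _
    rw [le_div_iff₀ (by positivity)] at this
    linarith
  obtain ⟨s, hs, hs2, hs3⟩ := hc.zero
  have h0 : (0 : ℝ) ∈ Icc 0 Q0 := ⟨le_rfl, ht.1.trans ht.2⟩
  have e1 : |cv.G1 t - s ^ 2| ≤ 3 * Cc * η := by
    rw [← hs2, hc.der2 0 h0 t ht]
    have h := intervalIntegral.norm_integral_le_of_norm_le_const (a := 0) (b := t) (C := 3 * Cc)
      (f := fun x => cv.f2 x - 2 * cv.al x * cv.e3 x) (fun x hx => ?_)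
    · rw [Real.norm_eq_abs, sub_zero, abs_of_nonneg ht.1] at h
      exact h.trans (mul_le_mul_of_nonneg_left htη (by positivity))
    rw [uIoc_of_le ht.1] at hx
    have hx' : x ∈ Icc 0 Q0 := ⟨hx.1.le, hx.2.trans ht.2⟩
    have a1 := hc.f2_le x hx'
    have a2 := hc.e3_le x hx'
    have a3 := hc.al_mem x hx'
    have a4 : Cc * x ≤ Cc * 1 := mul_le_mul_of_nonneg_left ((hx.2.trans htη).trans hη1) hCc.le
    have a5 : |2 * cv.al x * cv.e3 x| ≤ 2 * Cc := by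
      rw [abs_mul, abs_mul, abs_of_nonneg a3.1, abs_of_pos (by norm_num : (0 : ℝ) < 2)]
      calc 2 * cv.al x * |cv.e3 x| ≤ 2 * 1 * Cc := mul_le_mul (by linarith [a3.2]) a2 (abs_nonneg _) (by norm_num)
        _ = 2 * Cc := by ring
    rw [Real.norm_eq_abs]
    calc |cv.f2 x - 2 * cv.al x * cv.e3 x| ≤ |cv.f2 x| + |2 * cv.al x * cv.e3 x| := abs_sub _ _
      _ ≤ Cc * 1 + 2 * Cc := add_le_add (a1.trans a4) a5
      _ = _ := by ring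
  have e2 : |cv.e3 t - s ^ 3| ≤ Cc * η := by
    rw [← hs3]
    refine (hc.e3_lip t ht 0 h0).trans (mul_le_mul_of_nonneg_left ?_ hCc.le)
    rwa [sub_zero, abs_of_nonneg ht.1]
  have e3 : |s ^ 2 - 1 / T| ≤ (3 * Cc + 1) * η := by
    have : s ^ 2 - 1 / T = -(cv.G1 t - s ^ 2) + (cv.G1 t - 1 / T) := by ring
    rw [this]
    refine (abs_add_le _ _).trans ?_
    rw [abs_neg]
    linarith
  have hd : dist ((cv.G1 t, s ^ 2, cv.e3 t - s ^ 3) : ℝ × ℝ × ℝ) (1 / T, 1 / T, 0) < δ := by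
    rw [Prod.dist_eq, Prod.dist_eq]
    simp only [Real.dist_eq, sub_zero]
    have b1 : η ≤ (3 * Cc + 1) * η := by nlinarith
    have b2 : Cc * η ≤ (3 * Cc + 1) * η := by nlinarith
    refine max_lt (by linarith) (max_lt (by linarith) (by linarith))
  have := H hd
  simp only [Real.dist_eq] at this
  rw [hval, Real.sqrt_sq hs] at this
  have e : s ^ 2 * s + (cv.e3 t - s ^ 3) = cv.e3 t := by ring
  rw [e] at this
  exact this.le

/-- A6 the derivative of the response of the world is the curve `G1` -/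
theorem bnx_cv_deriv {cv : BudCv} {Q0 Cc : ℝ} (hc : cv.Ok Q0 Cc) {Γ : ℝ → ℝ} (hΓ : ∀ t ∈ Icc 0 Q0, cv.G t = Γ t) {t : ℝ}
    (ht : t ∈ Ioo 0 Q0) : HasDerivAt Γ (cv.G1 t) t := by
  refine (hc.der t ht).congr_of_eventuallyEq ?_
  filter_upwards [Ioo_mem_nhds ht.1 ht.2] with y hy
  exact (hΓ y (Ioo_subset_Icc_self hy)).symm

/-! ## B. facts on one frame -/

theorem bnx_Z1_of_Z {n : ℕ} (hZ : BudZ X W Fam n) : BnxZ1 X W Fam n := by
  obtain ⟨C, N0, h⟩ := hZ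
  exact ⟨N0, fun F hF hN g hg => (h F hF hN).1 g hg⟩

/-- B1 admissibility of the bare path with the matrix margin.
Proof of `marg`: `t = min (c_I u) (Q.r v) > 0`, `v' = Q.al t ∈ (0, v]` (`bd7_q_al_strict`, `Q.al_r`), `b v ≥ b v'` (`clk0.1.mono`), `0 ≤ bq v' = b v' - C(t)` (`clk.1.nonneg`, `Q.r_al`), `C t = C0 = C 0` (`Cconst`). -/
theorem bnx_base (hS : BdStd X W Fam K) {F : BdFr} (hF : Fam F) {g : ℝ} (hg : g ∈ Icc (X.glo 0) (X.ghi 0)) (Q : BdQ F X) :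
    F.Base X W g :=
  bdg_base hS hF Q hg

/-- B2 `K_s = h_q + b_q S` is a clock (sum and product of nonnegative nondecreasing bounded functions; `PSys.S_mono, S_nonneg, S_sq_le, B_le`, `hS.a1`, `hS.clk`) -/
theorem bnx_Ks_clock (hS : BdStd X W Fam K) {F : BdFr} (hF : Fam F) {g : ℝ} (hg : g ∈ Icc (X.glo 0) (X.ghi 0)) (Q : BdQ F X) :
    IsClock 1 (Q.Ks W g) := by
  obtain ⟨hb, hh⟩ := hS.clk F hF g hg Q
  have ha := hS.a1 F.m
  have hb' : IsClock (W.ps F.m).a (Q.bq g) := by rw [ha]; exact hb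
  have hh' : IsClock (W.ps F.m).a (Q.hq g) := by rw [ha]; exact hh
  have hSm : MonotoneOn (Q.Sq W g) (Ioo 0 1) := by
    have := (W.ps F.m).S_mono _ _ hb' hh'
    rwa [ha] at this
  have hS0 : ∀ v ∈ Ioo (0:ℝ) 1, 0 ≤ Q.Sq W g v := by
    have := (W.ps F.m).S_nonneg _ _ hb' hh'
    rwa [ha] at this
  have hS1 : ∀ v ∈ Ioo (0:ℝ) 1, Q.Sq W g v ≤ 1 := fun v hv => by
    have h1 := (W.ps F.m).S_sq_le _ _ hb' hh' v (by rw [ha]; exact hv)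
    have h2 := (W.ps F.m).B_le _ _ hb' hh' v (by rw [ha]; exact hv)
    have h3 : Q.Sq W g v ^ 2 ≤ 1 := h1.trans h2
    nlinarith [hS0 v hv]
  obtain ⟨Cb, hCb⟩ := hb.bdd
  obtain ⟨Ch, hCh⟩ := hh.bdd
  refine ⟨fun x hx y hy hxy => ?_, fun v hv => ?_, ⟨Ch + |Cb|, fun v hv => ?_⟩⟩
  · unfold BdQ.Ks
    exact add_le_add (hh.mono hx hy hxy) (mul_le_mul (hb.mono hx hy hxy) (hSm hx hy hxy) (hS0 x hx) (hb.nonneg y hy))
  · unfold BdQ.Ks
    exact add_nonneg (hh.nonneg v hv) (mul_nonneg (hb.nonneg v hv) (hS0 v hv))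
  · unfold BdQ.Ks
    refine add_le_add (hCh v hv) ?_
    calc Q.bq g v * Q.Sq W g v ≤ |Cb| * 1 :=
          mul_le_mul ((hCb v hv).trans (le_abs_self _)) (hS1 v hv) (hS0 v hv) (abs_nonneg _)
      _ = |Cb| := mul_one _

/-- B3 (l.253 "`S = O(v + w)` by looking ahead to a nonfloor point") `S_v, r(v) ≤ C (v + w_c)` for every optimiser.
Proof: `v' = max v w_c`.  If `2 v' > 1`: `S, r ≤ 1`.  Else `r v ≤ r v' ≤ CL v'` and `BudGeo.S_le_of_band` for `budGeoQ` (`bud_n4_geo`, `bnx_base`) on the band `(r v, r (2 v'))`: its mass is `2 v' - v ≥ v'`,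
its floor is `≤ ∫_0^1 k + κ (r(2v') - r v) ≤ v_* + 2 κ CL v' < v'` for large sizes (`bud_n11_kint`; `v_* ≤ w_c/4`: `v_* (u Λ^{1/3}) ≤ (2/c_d) x²`, `w_c ≥ u X Λ^{-1/6}`, `X Λ^{-1/6} → 0`; `bud_gb_kap_le_N`);
so `S_v ≤ r (2 v') + 1/M ≤ 2 CL v' + w_c`. -/
theorem bnx_S_le (hS : BdStd X W Fam K) (h7a : BnxC7a X W Fam) : ∃ C : ℝ, 1 ≤ C ∧ ∃ N0 : ℕ, ∀ i : BdI X, i.Ok W Fam → N0 ≤ i.F.N →
    ∀ v ∈ Ioo (0 : ℝ) 1, i.Q.Sq W i.g v ≤ C * (v + i.F.wc X) ∧ i.Q.r v ≤ C * (v + i.F.wc X) := by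
  have hX := hS.fix
  obtain ⟨cL, CL, hcL, N1, h7⟩ := h7a
  have hC : 1 ≤ max CL 1 := le_max_right _ _
  obtain ⟨N2, hnum⟩ := bud_rx_num hX (max CL 1) 0 hC
  obtain ⟨N3, hgeo⟩ := bud_n4_geo X hX
  obtain ⟨N4, hwc⟩ := bud_rx_wc_le hX (ε := 1 / 2) (by norm_num)
  refine ⟨4 * max CL 1 + 4, by linarith, max (max N1 N2) (max N3 N4), fun i hi hN v hv => ?_⟩
  have n1 : N1 ≤ i.F.N := ((le_max_left _ _).trans (le_max_left _ _)).trans hN
  have n2 : N2 ≤ i.F.N := ((le_max_right _ _).trans (le_max_left _ _)).trans hN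
  have n3 : N3 ≤ i.F.N := ((le_max_left _ _).trans (le_max_right _ _)).trans hN
  have n4 : N4 ≤ i.F.N := ((le_max_right _ _).trans (le_max_right _ _)).trans hN
  obtain ⟨hF, hg, hopt⟩ := hi
  have hFok := hS.ok _ hF
  have hB := bnx_base hS hF hg i.Q
  obtain ⟨c0, hOk, -⟩ := hgeo i.F hFok n3 W i.g hB i.Q hopt
  have hw0 : 0 < i.F.wc X := (bcs_ha_pos hX hFok).2.2.2.2.2.2.2.1
  have hw2 : 2 * i.F.wc X ≤ 1 := by
    have h1 := hwc i.F hFok n4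
    have h2 := BdFr.bds_u_le_one hFok hX
    linarith
  have hH : BudRxH X W i.F i.g i.Q (i.F.wc X) cL (max CL 1) c0 :=
    { ok := hFok
      w_lo := le_rfl
      w_hi := by linarith
      reg := fun y hy1 hy2 => by
        have h := h7 i ⟨hF, hg, hopt⟩ n1 y ⟨by linarith, hy2⟩
        have hy0 : 0 ≤ y := by linarith
        exact ⟨h.1, h.2.trans (mul_le_mul_of_nonneg_right (le_max_left _ _) hy0)⟩
      base := hB
      clkb := (hS.clk _ hF _ hg i.Q).1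
      clkh := (hS.clk _ hF _ hg i.Q).2
      geo := hOk }
  refine ⟨bud_rx_S hX hC (hnum i.F hFok n2) hH hv, ?_⟩
  have h1 := bud_rx_r_le hX hH hw2 (Ioo_subset_Icc_self hv)
  have h2 : 0 ≤ v + i.F.wc X := by linarith [hv.1]
  nlinarith

/-- B4 (l.1371-1375) both scalar clocks are `≤ C (v + w_c)`.
Proof: `K_s = h + C(r) r + (b - C(r)) S ≤ h + C0 r + b S`; `h = 0` on the mask, `h = K - b q + d ≤ K + |d|` above it; `C0 ≤ 1`; B3. -/
theorem bnx_Ks_le (hS : BdStd X W Fam K) (hP : BdP11 X W Fam c) (h7a : BnxC7a X W Fam) : ∃ C : ℝ, 1 ≤ C ∧ c.CK ≤ C ∧ ∃ N0 : ℕ,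
    ∀ i : BdI X, i.Ok W Fam → N0 ≤ i.F.N →
      ∀ v ∈ Ioo (0 : ℝ) 1, i.Q.Ks W i.g v ≤ C * (v + i.F.wc X) ∧ i.F.K v ≤ C * (v + i.F.wc X) := by
  obtain ⟨C3, hC3, N1, h3⟩ := bnx_S_le hS h7a
  obtain ⟨N2, h2⟩ := hP.d_le
  have hCK := hP.CK1
  have hbm := hP.bmax0
  have hC3b : 0 ≤ C3 * (1 + c.bmax) := by positivity
  refine ⟨2 * c.CK + C3 * (1 + c.bmax), by linarith, by linarith, max N1 N2, fun i hi hN v hv => ?_⟩
  have hF : Fam i.F := hi.1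
  have hg : i.g ∈ Icc (X.glo 0) (X.ghi 0) := hi.2.1
  have hok := hS.ok _ hF
  have hwc := (BdFr.wc_pos' hS.fix hok).le
  obtain ⟨s1, s2⟩ := h3 i hi (le_trans (le_max_left _ _) hN) v hv
  have hd := h2 i.F hF (le_trans (le_max_right _ _) hN) v hv
  have hK := hP.K_le i.F hF v hv
  have hv' : v ∈ Icc (0 : ℝ) 1 := ⟨hv.1.le, hv.2.le⟩
  have hvw : 0 ≤ v + i.F.wc X := by linarith [hv.1]
  have hKv : c.CK * v ≤ c.CK * (v + i.F.wc X) := mul_le_mul_of_nonneg_left (by linarith) (by linarith)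
  have hclk := hS.clk i.F hF i.g hg i.Q
  have hS0 : 0 ≤ i.Q.Sq W i.g v := by
    unfold BdQ.Sq
    refine (W.ps i.F.m).S_nonneg _ _ ?_ ?_ v ?_
    · rw [hS.a1]; exact hclk.1
    · rw [hS.a1]; exact hclk.2
    · rw [hS.a1]; exact hv
  have hr0 := (i.Q.r_mem v hv').1
  have hC0 := bd7_ar_C_pos hS.fix hok (i.Q.r v)
  have hC1 := (bd7_ar_C_le hS.fix hok (i.Q.r v)).trans (bd7_ar_C0_le_one hS.fix hok)
  have hb0 := (hS.clk0 i.F hF i.g hg).1.nonneg v hv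
  have hb1 := hP.b_le i.F hF i.g hg v hv
  have hq0 := (hS.q_mem i.F hF v hv').1
  have hh : i.F.h i.g v ≤ 2 * c.CK * (v + i.F.wc X) := by
    by_cases hm : v < i.F.xm
    · rw [hS.h_mask i.F hF i.g v hm]
      positivity
    · rw [hP.h_dec i.F hF i.g hg v ⟨not_lt.1 hm, hv.2⟩]
      have := mul_nonneg hb0 hq0
      have := le_abs_self (i.F.d v)
      linarith
  constructor
  · unfold BdQ.Ks BdQ.hq BdQ.bq
    have t1 : i.F.C X (i.Q.r v) * i.Q.r v ≤ 1 * i.Q.r v := mul_le_mul_of_nonneg_right hC1 hr0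
    have t2 : i.F.b i.g v * i.Q.Sq W i.g v ≤ c.bmax * i.Q.Sq W i.g v := mul_le_mul_of_nonneg_right hb1 hS0
    have t3 : 0 ≤ i.F.C X (i.Q.r v) * i.Q.Sq W i.g v := mul_nonneg hC0.le hS0
    have t4 : c.bmax * i.Q.Sq W i.g v ≤ c.bmax * (C3 * (v + i.F.wc X)) := mul_le_mul_of_nonneg_left s1 hbm
    nlinarith
  · have : 0 ≤ (c.CK + C3 * (1 + c.bmax)) * (v + i.F.wc X) := by positivity
    nlinarith

/-- B5 `K_s - K_* = d + b (S - q) - C(r)(S - r)` above the mask -/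
theorem bnx_diff (hP : BdP11 X W Fam c) {F : BdFr} (hF : Fam F) {g : ℝ} (hg : g ∈ Icc (X.glo 0) (X.ghi 0)) (Q : BdQ F X) {v : ℝ}
    (hv : v ∈ Ico F.xm 1) :
    Q.Ks W g v - F.K v = F.d v + F.b g v * (Q.Sq W g v - F.q v) - F.C X (Q.r v) * (Q.Sq W g v - Q.r v) := by
  unfold BdQ.Ks BdQ.hq BdQ.bq
  rw [hP.h_dec F hF g hg v hv]
  ring

/-- the hypotheses on a quantile function and its generalised inverse (abstract form of `q_mono`, `q_mem`, `beta`, `beta_zero`) -/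
structure BnxQI (q : ℝ → ℝ) (R cb Cb : ℝ) : Prop where
  mono : MonotoneOn q (Icc 0 1)
  nonneg : ∀ v ∈ Icc (0 : ℝ) 1, 0 ≤ q v
  slope : ∀ r1 r2 : ℝ, 0 ≤ r1 → r1 ≤ r2 → r2 ≤ R →
    cb * (r2 - r1) ≤ bdInv q r2 - bdInv q r1 ∧ bdInv q r2 - bdInv q r1 ≤ Cb * (r2 - r1)
  zero : bdInv q 0 = 0
  cb_pos : 0 < cb
  small : Cb * R < 1

namespace BnxQI

variable {q : ℝ → ℝ} {R cb Cb : ℝ}

theorem inv_ge (h : BnxQI q R cb Cb) {r : ℝ} (h0 : 0 ≤ r) (hr : r ≤ R) : cb * r ≤ bdInv q r := by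
  have := (h.slope 0 r le_rfl h0 hr).1
  rw [h.zero] at this
  linarith

theorem inv_le (h : BnxQI q R cb Cb) {r : ℝ} (h0 : 0 ≤ r) (hr : r ≤ R) : bdInv q r ≤ Cb * r := by
  have := (h.slope 0 r le_rfl h0 hr).2
  rw [h.zero] at this
  linarith

theorem cb_le (h : BnxQI q R cb Cb) (hR : 0 < R) : cb ≤ Cb := by
  have h1 := h.inv_ge hR.le le_rfl
  have h2 := h.inv_le hR.le le_rfl
  exact le_of_mul_le_mul_right (h1.trans h2) hR

/-- a point where `q` is below the level is below the inverse -/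
theorem le_inv (h : BnxQI q R cb Cb) {r v : ℝ} (h0 : 0 < r) (hr : r ≤ R) (hv : v ∈ Icc (0 : ℝ) 1) (hq : q v < r) : v ≤ bdInv q r := by
  have hpos : 0 < bdInv q r := lt_of_lt_of_le (mul_pos h.cb_pos h0) (h.inv_ge h0.le hr)
  have hne : {s : ℝ | 0 ≤ s ∧ r ≤ q s}.Nonempty := by
    by_contra hcon
    rw [Set.not_nonempty_iff_eq_empty] at hcon
    unfold bdInv at hpos
    rw [hcon, Real.sInf_empty] at hpos
    exact lt_irrefl _ hpos
  unfold bdInv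
  refine le_csInf hne fun s hs => ?_
  by_contra hcon
  have hsv : s ≤ v := (not_le.1 hcon).le
  have := h.mono ⟨hs.1, hsv.trans hv.2⟩ hv hsv
  linarith [hs.2]

/-- a point where `q` is above the level is above the inverse -/
theorem inv_le_of (_h : BnxQI q R cb Cb) {r v : ℝ} (hv : 0 ≤ v) (hq : r ≤ q v) : bdInv q r ≤ v := by
  unfold bdInv
  exact csInf_le ⟨0, fun s hs => hs.1⟩ ⟨hv, hq⟩

theorem inv_mem (h : BnxQI q R cb Cb) {r : ℝ} (h0 : 0 ≤ r) (hr : r < R) : bdInv q r ∈ Ico (0 : ℝ) 1 := by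
  have hR : 0 < R := lt_of_le_of_lt h0 hr
  have hCb : 0 < Cb := lt_of_lt_of_le h.cb_pos (h.cb_le hR)
  refine ⟨(mul_nonneg h.cb_pos.le h0).trans (h.inv_ge h0 hr.le), ?_⟩
  calc bdInv q r ≤ Cb * r := h.inv_le h0 hr.le
    _ ≤ Cb * R := mul_le_mul_of_nonneg_left hr.le hCb.le
    _ < 1 := h.small

/-- `q ∘ q⁻¹ = id` -/
theorem q_inv (h : BnxQI q R cb Cb) {r : ℝ} (h0 : 0 ≤ r) (hr : r < R) : q (bdInv q r) = r := by
  have hm := h.inv_mem h0 hr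
  have hm' : bdInv q r ∈ Icc (0 : ℝ) 1 := ⟨hm.1, hm.2.le⟩
  have hq0 := h.nonneg _ hm'
  rcases lt_trichotomy (q (bdInv q r)) r with hlt | heq | hgt
  · exfalso
    have h1 : 0 < (q (bdInv q r) + r) / 2 := by linarith
    have h2 := h.le_inv h1 (by linarith) hm' (by linarith)
    have h3 := (h.slope ((q (bdInv q r) + r) / 2) r h1.le (by linarith) hr.le).1
    have h4 : 0 < cb * (r - (q (bdInv q r) + r) / 2) := mul_pos h.cb_pos (by linarith)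
    linarith
  · exact heq
  · exfalso
    have h1 : r < min (q (bdInv q r)) ((r + R) / 2) := lt_min hgt (by linarith)
    have h2 := h.inv_le_of (r := min (q (bdInv q r)) ((r + R) / 2)) hm.1 (min_le_left _ _)
    have h3 := (h.slope r (min (q (bdInv q r)) ((r + R) / 2)) h0 h1.le ((min_le_right _ _).trans (by linarith))).1
    have h4 : 0 < cb * (min (q (bdInv q r)) ((r + R) / 2) - r) := mul_pos h.cb_pos (by linarith)
    linarith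

/-- if `q v ≤ r` then `v ≤ q⁻¹ r` -/
theorem le_inv' (h : BnxQI q R cb Cb) {r v : ℝ} (h0 : 0 ≤ r) (hr : r < R) (hv : v ∈ Icc (0 : ℝ) 1) (hq : q v ≤ r) : v ≤ bdInv q r := by
  have hR : 0 < R := lt_of_le_of_lt h0 hr
  have hCb : 0 < Cb := lt_of_lt_of_le h.cb_pos (h.cb_le hR)
  by_contra hcon
  have hlt : bdInv q r < v := not_le.1 hcon
  obtain ⟨t, ht⟩ : ∃ t, t = min (R - r) ((v - bdInv q r) / (2 * Cb)) := ⟨_, rfl⟩
  have ht0 : 0 < t := by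
    rw [ht]
    exact lt_min (by linarith) (div_pos (by linarith) (by linarith))
  have ht1 : t ≤ R - r := by rw [ht]; exact min_le_left _ _
  have ht2 : Cb * t ≤ (v - bdInv q r) / 2 := by
    have : t ≤ (v - bdInv q r) / (2 * Cb) := by rw [ht]; exact min_le_right _ _
    calc Cb * t ≤ Cb * ((v - bdInv q r) / (2 * Cb)) := mul_le_mul_of_nonneg_left this hCb.le
      _ = (v - bdInv q r) / 2 := by field_simp
  have h1 := h.le_inv (r := r + t) (by linarith) (by linarith) hv (by linarith)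
  have h2 := (h.slope r (r + t) h0 (by linarith) (by linarith)).2
  have e : r + t - r = t := by ring
  rw [e] at h2
  linarith

/-- `q⁻¹ ∘ q = id` -/
theorem inv_q (h : BnxQI q R cb Cb) {v : ℝ} (hv : v ∈ Icc (0 : ℝ) 1) (hq : q v < R) : bdInv q (q v) = v :=
  le_antisymm (h.inv_le_of hv.1 le_rfl) (h.le_inv' (h.nonneg v hv) hq hv le_rfl)

theorem near (h : BnxQI q R cb Cb) {r r' v : ℝ} (hr0 : 0 ≤ r) (hrr : r ≤ r') (hr' : r' < R) (hv : v ∈ Icc (0 : ℝ) 1)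
    (hvr : v ≤ bdInv q r') : |q v - r| ≤ |v - bdInv q r| / cb := by
  have hm := h.inv_mem (hr0.trans hrr) hr'
  have h1 : q v ≤ r' := by
    have := h.mono hv ⟨hm.1, hm.2.le⟩ hvr
    rwa [h.q_inv (hr0.trans hrr) hr'] at this
  have hρ0 := h.nonneg v hv
  have hρ : bdInv q (q v) = v := h.inv_q hv (by linarith)
  rw [le_div_iff₀ h.cb_pos]
  rcases le_total (q v) r with hle | hle
  · have := (h.slope (q v) r hρ0 hle (by linarith)).1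
    rw [hρ] at this
    rw [abs_of_nonpos (by linarith), abs_of_nonpos (by nlinarith [h.cb_pos])]
    linarith
  · have := (h.slope r (q v) hr0 hle (by linarith)).1
    rw [hρ] at this
    rw [abs_of_nonneg (by linarith), abs_of_nonneg (by nlinarith [h.cb_pos])]
    linarith

theorem dist (h : BnxQI q R cb Cb) {r : ℝ} (h0 : 0 ≤ r) (hr : r < R) : bdDist q r = bdInv q r := by
  have hm := h.inv_mem h0 hr
  have e : {v : ℝ | v ∈ Ioo (0 : ℝ) 1 ∧ q v ≤ r} = Ioc 0 (bdInv q r) := by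
    ext v
    constructor
    · rintro ⟨hv, hq⟩
      exact ⟨hv.1, h.le_inv' h0 hr ⟨hv.1.le, hv.2.le⟩ hq⟩
    · rintro ⟨hv0, hv1⟩
      refine ⟨⟨hv0, lt_of_le_of_lt hv1 hm.2⟩, ?_⟩
      have := h.mono ⟨hv0.le, hv1.trans hm.2.le⟩ ⟨hm.1, hm.2.le⟩ hv1
      rwa [h.q_inv h0 hr] at this
  unfold bdDist
  rw [e, Real.volume_Ioc, sub_zero, ENNReal.toReal_ofReal hm.1]

end BnxQI

theorem bnx_qi (hS : BdStd X W Fam K) {F : BdFr} (hF : Fam F) (hu : K.Cb * (X.cI * F.u) < 1) : BnxQI F.q (X.cI * F.u) K.cb K.Cb :=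
  ⟨hS.q_mono F hF, fun v hv => (hS.q_mem F hF v hv).1, hS.beta F hF, hS.beta_zero F hF, hS.cb_pos, hu⟩

/-- B6 `q ∘ β₀ = id` on `[0, c_I u)`.
Proof: `s0 = β₀ r ∈ [0,1)`.  If `q s0 < r`: for `r' ∈ (max (q s0) 0, r)` every `s ≥ 0` with `r' ≤ q s` is `> s0` (monotonicity on `[0,1]`), the set is nonempty (`β₀ r' ≥ cb r' > 0`), so `β₀ r' ≥ β₀ r`: against the slope `cb`.
If `q s0 > r`: for `r' ∈ (r, min (q s0) (c_I u))`, `β₀ r' ≤ s0`: against the slope.      (Companion: `β₀ (q v) = v`, `BudB.c3_beta_q` of 184.) -/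
theorem bnx_q_beta (hS : BdStd X W Fam K) {F : BdFr} (hF : Fam F) (hu : K.Cb * (X.cI * F.u) < 1) {r : ℝ} (hr0 : 0 ≤ r)
    (hr : r < X.cI * F.u) : F.beta0 r ∈ Ico (0 : ℝ) 1 ∧ F.q (F.beta0 r) = r := by
  exact ⟨(bnx_qi hS hF hu).inv_mem hr0 hr, (bnx_qi hS hF hu).q_inv hr0 hr⟩

/-- B7 `|q(v) - r| ≤ |v - β₀(r)|/cb` as long as `v ≤ β₀(r')`, `r ≤ r' < c_I u`.
Proof: `q v ≤ q (β₀ r') = r' < c_I u`; with `ρ = q v`: `β₀ ρ = v` (argument of `BudB.c3_beta_q`: `β₀ (q v) ≤ v` by definition; if `<`, the slope `Cb` at `ρ + t` contradicts `v ≤ β₀ (ρ + t)`); slopes `≥ cb` between `ρ` and `r`. -/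
theorem bnx_q_near (hS : BdStd X W Fam K) {F : BdFr} (hF : Fam F) (hu : K.Cb * (X.cI * F.u) < 1) {r r' v : ℝ} (hr0 : 0 ≤ r)
    (hrr : r ≤ r') (hr' : r' < X.cI * F.u) (hv : v ∈ Icc (0 : ℝ) 1) (hvr : v ≤ F.beta0 r') :
    |F.q v - r| ≤ |v - F.beta0 r| / K.cb := by
  exact (bnx_qi hS hF hu).near hr0 hrr hr' hv hvr

/-- B8 `α^*`: the distribution function of `q` is `β₀` on `[0, c_I u)`.
Proof: `{v ∈ (0,1) | q v ≤ r} = Ioc 0 (β₀ r)`: `v ≤ β₀ r` gives `q v ≤ q (β₀ r) = r` (B6); if `β₀ r < v`, `q v ≤ r`, then `v ≤ β₀ r'` for all `r' ∈ (r, c_I u)`, against `β₀ r' ≤ β₀ r + Cb (r' - r)`. -/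
theorem bnx_dist_q (hS : BdStd X W Fam K) {F : BdFr} (hF : Fam F) (hu : K.Cb * (X.cI * F.u) < 1) {r : ℝ} (hr0 : 0 ≤ r)
    (hr : r < X.cI * F.u) : bdDist F.q r = F.beta0 r := by
  exact (bnx_qi hS hF hu).dist hr0 hr

/-- the elementary facts on a buffered violation of large size -/
structure BnxViolAt (Fam : BdFr → Prop) (K : BdCst) (n : ℕ) (ε : ℝ) (i : BdVI X W) : Prop where
  fok : i.F.Ok X
  iok : (⟨i.F, i.V.g, i.V.Q⟩ : BdI X).Ok W Fam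
  ost : BnxOSt X W Fam n ⟨i.F, i.V.g, i.V.Q⟩
  Z1 : 1 ≤ i.F.Zj X W i.V.g
  L_ge : i.F.agoal X * i.F.Zj X W i.V.g ≤ i.V.L
  L_pos : 0 < i.V.L
  L_le : i.V.L ≤ ε
  d0_le : i.V.d0 ≤ ε * i.V.bbuf
  u_le : i.F.u ≤ ε
  buf_sub : i.V.Buf 1 ⊆ Icc (X.plo n * i.F.u) (X.phi n * i.F.u)
  al_mem : ∀ r ∈ i.V.Buf 1, i.V.Q.al r ∈ Icc (K.cb * X.plo n / 2 * i.F.u) ((K.Cb * X.phi n + 1) * i.F.u)

/-- B9.   Proof: `bds_big_ev`, `bds_astage_ge` (`a_goal ≤ a_j`), `V.Ok.big`, `BnxZ1`; `BnxLSmall` at `min ε (min (ε²) (min (cb plo/4) (1/2)))`: `u L ≤ ε u √L`;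
`u ≤ λ^{bl} → 0`; `V.Ok.r0_mem`; `|α - β₀| ≤ 2 u L` (`V.Ok.buf`), `cb r ≤ β₀ r ≤ Cb r` (`hS.beta`, `beta_zero`). -/
theorem bnx_viol (hS : BdStd X W Fam K) {n : ℕ} (hn1 : 1 ≤ n) (hn : n ≤ X.J + 1) (hZ : BnxZ1 X W Fam n) (hL : BnxLSmall X W Fam n) :
    ∀ ε : ℝ, 0 < ε → ∃ N0 : ℕ, ∀ i : BdVI X W, i.Ok Fam n 2 → N0 ≤ i.F.N → BnxViolAt Fam K n ε i := by
  intro ε hε
  obtain ⟨hplo, -, -, -, hphi⟩ := hS.fix.pat n hn
  have hcb := hS.cb_pos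
  obtain ⟨N1, hZ⟩ := hZ
  obtain ⟨N2, hB⟩ := bds_big_ev X hS.fix
  obtain ⟨N3, hL⟩ := hL (min ε (min (ε ^ 2) (min (K.cb * X.plo n / 4) (1 / 2))))
    (lt_min hε (lt_min (by positivity) (lt_min (by positivity) (by norm_num))))
  obtain ⟨N4, hU⟩ := BudB.ev_u hS.fix hε
  refine ⟨max (max N1 N2) (max N3 N4), fun i hi hN => ?_⟩
  have hN1 : N1 ≤ i.F.N := ((le_max_left _ _).trans (le_max_left _ _)).trans hN
  have hN2 : N2 ≤ i.F.N := ((le_max_right _ _).trans (le_max_left _ _)).trans hN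
  have hN3 : N3 ≤ i.F.N := ((le_max_left _ _).trans (le_max_right _ _)).trans hN
  have hN4 : N4 ≤ i.F.N := ((le_max_right _ _).trans (le_max_right _ _)).trans hN
  have hv : BudB.VSt X W Fam n i := hi
  have hF := BudB.vst_ok hS hv
  have hu := BudB.vst_u_pos hS hv
  have hz := hZ i.F (BudB.vst_at hv) hN1 i.V.g (BudB.vst_g hv)
  have ha := BdFr.bds_astage_ge hF hS.fix (hB i.F hF hN2) i.F.st
  have hg := BdFr.bds_agoal_pos hF hS.fix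
  have hLge : i.F.agoal X * i.F.Zj X W i.V.g ≤ i.V.L :=
    (mul_le_mul_of_nonneg_right ha (zero_le_one.trans hz)).trans (BudB.vst_V hv).big
  have hLpos : 0 < i.V.L := lt_of_lt_of_le (mul_pos hg (lt_of_lt_of_le one_pos hz)) hLge
  have hLs := hL i hi hN3
  have hL1 : i.V.L ≤ ε := hLs.trans (min_le_left _ _)
  have hL2 : i.V.L ≤ ε ^ 2 := hLs.trans ((min_le_right _ _).trans (min_le_left _ _))
  have hL3 : i.V.L ≤ K.cb * X.plo n / 4 := hLs.trans ((min_le_right _ _).trans ((min_le_right _ _).trans (min_le_left _ _)))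
  have hL4 : i.V.L ≤ 1 / 2 := hLs.trans ((min_le_right _ _).trans ((min_le_right _ _).trans (min_le_right _ _)))
  have hsq : Real.sqrt i.V.L ≤ ε := by
    rw [← Real.sqrt_sq hε.le]
    exact Real.sqrt_le_sqrt hL2
  have hLsq : i.V.L ≤ ε * Real.sqrt i.V.L := by
    calc i.V.L = Real.sqrt i.V.L * Real.sqrt i.V.L := (Real.mul_self_sqrt hLpos.le).symm
      _ ≤ ε * Real.sqrt i.V.L := mul_le_mul_of_nonneg_right hsq (Real.sqrt_nonneg _)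
  have hlr : 0 ≤ i.F.lam ^ X.rho := Real.rpow_nonneg (BudB.vst_lam_pos hS hv).le _
  refine ⟨hF, BudB.vst_I hS hn hv, BudB.vst_O hv, hz, hLge, hLpos, hL1, ?_, hU i.F hF hN4, BudB.vst_buf_sub hS hv le_rfl, fun r hr => ?_⟩
  · unfold BdViol.d0 BdViol.bbuf
    calc i.F.u * i.V.L ≤ i.F.u * (ε * (Real.sqrt i.V.L + i.F.lam ^ X.rho)) :=
          mul_le_mul_of_nonneg_left (hLsq.trans (by nlinarith)) hu.le
      _ = _ := by ring
  · have h1 := BudB.vst_buf_al hS hv le_rfl hr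
    have h2 := BudB.vst_buf_cI hS hn hv le_rfl hr
    have h3 := BudB.fam_beta hS hv.1 h2.1.le h2.2.le
    have h4 := BudB.vst_buf_sub hS hv le_rfl hr
    have hCb : 0 ≤ K.Cb := by
      have := h3.1.trans h3.2
      by_contra hneg
      have h5 : K.Cb * r < 0 := mul_neg_of_neg_of_pos (not_le.1 hneg) h2.1
      have h6 : 0 < K.cb * r := mul_pos hcb h2.1
      linarith
    rw [abs_le] at h1
    have e0 : i.V.d0 = i.F.u * i.V.L := rfl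
    have h7 : K.cb * (X.plo n * i.F.u) ≤ K.cb * r := mul_le_mul_of_nonneg_left h4.1 hcb.le
    have h8 : K.Cb * r ≤ K.Cb * (X.phi n * i.F.u) := mul_le_mul_of_nonneg_left h4.2 hCb
    have h9 : i.F.u * i.V.L ≤ i.F.u * (K.cb * X.plo n / 4) := mul_le_mul_of_nonneg_left hL3 hu.le
    have h10 : i.F.u * i.V.L ≤ i.F.u * (1 / 2) := mul_le_mul_of_nonneg_left hL4 hu.le
    constructor
    · nlinarith
    · nlinarith

/-! ## C. the seed and the transport estimate -/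

/-- a power of the size is absorbed by a negative power of `λ` -/
theorem bnx_N_le {F : BdFr} (hF : F.Ok X) {e : ℝ} (he : 0 ≤ e) : (F.N : ℝ) ^ (X.pS * e / 6) ≤ F.lam ^ (-e) := by
  have hNpos : (0:ℝ) < F.N := by
    have := hF.N2
    positivity
  have h1 : (F.N : ℝ) ^ (X.pS * e / 6) = (F.x ^ X.pS) ^ (-e) := by
    unfold BdFr.x
    rw [← Real.rpow_mul hNpos.le, ← Real.rpow_mul hNpos.le]
    congr 1
    ring
  rw [h1]
  exact Real.rpow_le_rpow_of_nonpos (BdFr.bds_lam_pos hF) hF.lam_hi (by linarith)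

/-- **C1 = `BudB.seed`** (l.1353-1362).
Proof: B9 (`α r ∈ [c1 u, C1 u]` on `Buf 1`), `hP.seed` at `ε = p_*/120` in closed form (`bd_sub_iff`): `|d| ≤ C N^ε λ₁ U³`;  `λ₁ U³ = u³ λ^{1+η} (X λ^{-s_*/2})³` (`U = u X λ^{-s_*/2}`);
`bud_n11_pow_seed` (`a_goal ≤ L ≤ 1`): `≤ λ^{0.2} u³ P₁`;  `C N^ε λ^{0.1} ≤ 1` for large sizes (`λ ≤ x^{p_*} = N^{-p_*/6}`).   Exponent `c = 0.1`. -/
theorem bnx_seed (hS : BdStd X W Fam K) (hP : BdP11 X W Fam c) {n : ℕ} (hn1 : 1 ≤ n) (hn : n ≤ X.J + 1) (hZ : BnxZ1 X W Fam n)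
    (hL : BnxLSmall X W Fam n) : BnxSeed X W Fam n := by
  obtain ⟨hplo, -, -, -, hphi⟩ := hS.fix.pat n hn
  have hX := hS.fix
  have hc1 : 0 < K.cb * X.plo n / 2 := by have := hS.cb_pos; positivity
  have hsd := hP.seed (K.cb * X.plo n / 2) (K.Cb * X.phi n + 1) hc1
  have hsd := (bd_sub_iff (fun i _ => abs_nonneg _) (fun i hi => by
    unfold BdFr.lam1
    exact mul_nonneg (Real.rpow_nonneg (BdFr.bds_lam_pos (hS.ok _ hi.1)).le _) (pow_nonneg (BdFr.bds_U_pos (hS.ok _ hi.1)).le _))).1 hsd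
  obtain ⟨C, N1, h1⟩ := hsd (X.pS * (1 / 20) / 6) (by have := hX.pS_pos; positivity)
  obtain ⟨N2, h2⟩ := bnx_viol hS hn1 hn hZ hL 1 one_pos
  have hC' : 0 < max C 1 := lt_of_lt_of_le one_pos (le_max_right _ _)
  obtain ⟨N3, h3⟩ := BudB.ev_lam hX (e := 0.05) (ε := 1 / max C 1) (by norm_num) (by positivity)
  refine ⟨0.1, by norm_num, max N1 (max N2 N3), fun i hi hN r hr => ?_⟩
  have hN1 : N1 ≤ i.F.N := (le_max_left _ _).trans hN
  have hN2 : N2 ≤ i.F.N := ((le_max_left _ _).trans (le_max_right _ _)).trans hN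
  have hN3 : N3 ≤ i.F.N := ((le_max_right _ _).trans (le_max_right _ _)).trans hN
  have hv := h2 i hi hN2
  have hF := hv.fok
  have hl := BdFr.bds_lam_pos hF
  have hu := BdFr.bds_u_pos hF hX
  have hXr := BdFr.bds_Xr_pos hF hX
  have hd := h1 (i.F, i.V.Q.al r) ⟨hi.1, hv.al_mem r hr⟩ hN1
  simp only at hd
  have hag : i.F.Xr ^ 2 * i.F.lam ^ (-X.s0) ≤ i.V.L := by
    have h4 : i.F.agoal X * 1 ≤ i.F.agoal X * i.F.Zj X W i.V.g :=
      mul_le_mul_of_nonneg_left hv.Z1 (BdFr.bds_agoal_pos hF hX).le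
    rw [mul_one] at h4
    exact h4.trans hv.L_ge
  have hps := bud_n11_pow_seed hX hl (BdFr.bds_lam_lt_one hF hX).le hXr hag hi.2.2.2.2
  have eU : i.F.lam1 X * i.F.U X ^ 3 = i.F.u ^ 3 * (i.F.lam ^ (1 + X.eta) * (i.F.Xr * i.F.lam ^ (-(X.sS / 2))) ^ 3) := by
    unfold BdFr.lam1 BdFr.U BdFr.Xr
    field_simp
  have eP : i.V.P1 = i.V.L * min (max (i.V.L ^ 2) i.F.lam) (i.F.lam ^ (0.03 : ℝ)) := rfl
  have hP0 : 0 ≤ i.V.P1 := by
    rw [eP]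
    exact mul_nonneg hv.L_pos.le (le_min (le_max_of_le_right hl.le) (Real.rpow_nonneg hl.le _))
  have hG0 : 0 ≤ i.F.lam1 X * i.F.U X ^ 3 :=
    mul_nonneg (Real.rpow_nonneg hl.le _) (pow_nonneg (BdFr.bds_U_pos hF).le _)
  have hNn : 0 ≤ (i.F.N : ℝ) ^ (X.pS * (1 / 20) / 6) := Real.rpow_nonneg (Nat.cast_nonneg _) _
  have hu3 : 0 ≤ i.F.u ^ 3 := by positivity
  have e1 : i.F.lam ^ (-(1 / 20) : ℝ) * i.F.lam ^ (0.2 : ℝ) = i.F.lam ^ (0.05 : ℝ) * i.F.lam ^ (0.1 : ℝ) := by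
    rw [← Real.rpow_add hl, ← Real.rpow_add hl]; norm_num
  have h5 : max C 1 * i.F.lam ^ (0.05 : ℝ) ≤ 1 := by
    have := mul_le_mul_of_nonneg_left (h3 i.F hF hN3) hC'.le
    rwa [mul_one_div_cancel hC'.ne'] at this
  have hl01 : 0 ≤ i.F.lam ^ (0.1 : ℝ) := Real.rpow_nonneg hl.le _
  calc |i.F.d (i.V.Q.al r)| ≤ C * ((i.F.N : ℝ) ^ (X.pS * (1 / 20) / 6) * (i.F.lam1 X * i.F.U X ^ 3)) := hd
    _ ≤ max C 1 * ((i.F.N : ℝ) ^ (X.pS * (1 / 20) / 6) * (i.F.lam1 X * i.F.U X ^ 3)) :=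
        mul_le_mul_of_nonneg_right (le_max_left _ _) (mul_nonneg hNn hG0)
    _ ≤ max C 1 * (i.F.lam ^ (-(1 / 20) : ℝ) * (i.F.u ^ 3 * (i.F.lam ^ (0.2 : ℝ) * i.V.P1))) := by
        refine mul_le_mul_of_nonneg_left ?_ hC'.le
        refine mul_le_mul (bnx_N_le hF (by norm_num)) ?_ hG0 (Real.rpow_nonneg hl.le _)
        rw [eU, eP]
        exact mul_le_mul_of_nonneg_left hps hu3
    _ = (max C 1 * i.F.lam ^ (0.05 : ℝ)) * (i.F.lam ^ (0.1 : ℝ) * (i.F.u ^ 3 * i.V.P1)) := by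
        calc _ = max C 1 * (i.F.lam ^ (-(1 / 20) : ℝ) * i.F.lam ^ (0.2 : ℝ)) * (i.F.u ^ 3 * i.V.P1) := by ring
          _ = _ := by rw [e1]; ring
    _ ≤ 1 * (i.F.lam ^ (0.1 : ℝ) * (i.F.u ^ 3 * i.V.P1)) :=
        mul_le_mul_of_nonneg_right h5 (mul_nonneg hl01 (mul_nonneg hu3 hP0))
    _ = _ := one_mul _

/-- the powers of C2: `λ ×` the budget of (P8) is `≤ (CU + 2) λ^{1/6} a_goal²` -/
theorem bnx_Dd_pow {F : BdFr} (hX : X.Ok) (hF : F.Ok X) :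
    F.lam * (F.lam ^ (1 + 2 * X.eta) * F.U X ^ (5 : ℝ) + F.chiE ^ 2 * F.lam ^ (1 + 2 * X.eta) * F.U X ^ (4 : ℝ)
      + F.chiL ^ 2 * F.x ^ (6 : ℝ) / F.lam) ≤ (X.CU + 2) * (F.lam ^ (1 / 6 : ℝ) * F.agoal X ^ 2) := by
  have hl := BdFr.bds_lam_pos hF
  have hl1 := (BdFr.bds_lam_lt_one hF hX).le
  have hx := BdFr.bds_x_pos hF
  have hu := BdFr.bds_u_pos hF hX
  have hu1 := BdFr.bds_u_le_one hF hX
  have hU := BdFr.bds_U_pos hF
  have hs0 := BdFr.bds_s0_ge hX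
  -- lower bound of the goal
  have ha0 : F.x ^ 2 * F.lam ^ (-X.s0) ≤ F.agoal X := by
    unfold BdFr.agoal BdFr.Xr
    refine mul_le_mul_of_nonneg_right ?_ (Real.rpow_nonneg hl.le _)
    refine pow_le_pow_left₀ hx.le ?_ 2
    rw [le_div_iff₀ hu]
    nlinarith
  have ha2 : F.x ^ 4 * F.lam ^ (-(2 * X.s0)) ≤ F.agoal X ^ 2 := by
    have h1 := pow_le_pow_left₀ (mul_nonneg (by positivity) (Real.rpow_nonneg hl.le _)) ha0 2
    have e : (F.x ^ 2 * F.lam ^ (-X.s0)) ^ 2 = F.x ^ 4 * F.lam ^ (-(2 * X.s0)) := by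
      rw [mul_pow, ← pow_mul, ← Real.rpow_natCast (F.lam ^ (-X.s0)) 2, ← Real.rpow_mul hl.le]
      congr 2
      push_cast; ring
    rwa [e] at h1
  set T : ℝ := F.lam ^ (1 / 6 : ℝ) * F.agoal X ^ 2 with hT
  have hT0 : 0 ≤ T := mul_nonneg (Real.rpow_nonneg hl.le _) (sq_nonneg _)
  have hx4 : 0 ≤ F.x ^ 4 := by positivity
  -- `U⁴`
  have eU4 : F.U X ^ (4 : ℝ) = F.x ^ 4 * F.lam ^ (-(2 * X.sS)) := by
    unfold BdFr.U
    rw [Real.mul_rpow hx.le (Real.rpow_nonneg hl.le _), ← Real.rpow_mul hl.le, show (4 : ℝ) = ((4 : ℕ) : ℝ) by norm_num,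
      Real.rpow_natCast]
    congr 2
    push_cast; ring
  have h4 : F.lam * (F.lam ^ (1 + 2 * X.eta) * F.U X ^ (4 : ℝ)) ≤ T := by
    rw [eU4, hT]
    calc F.lam * (F.lam ^ (1 + 2 * X.eta) * (F.x ^ 4 * F.lam ^ (-(2 * X.sS))))
        = F.x ^ 4 * (F.lam ^ (1 : ℝ) * F.lam ^ (1 + 2 * X.eta) * F.lam ^ (-(2 * X.sS))) := by rw [Real.rpow_one]; ring
      _ = F.x ^ 4 * F.lam ^ (1 + (1 + 2 * X.eta) + -(2 * X.sS)) := by rw [← Real.rpow_add hl, ← Real.rpow_add hl]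
      _ ≤ F.x ^ 4 * F.lam ^ (1 / 6 + -(2 * X.s0)) := by
          refine mul_le_mul_of_nonneg_left (Real.rpow_le_rpow_of_exponent_ge hl hl1 ?_) hx4
          have := hX.tau0_le; have := hX.tau0_pos
          unfold BdFix.s0
          linarith
      _ = F.lam ^ (1 / 6 : ℝ) * (F.x ^ 4 * F.lam ^ (-(2 * X.s0))) := by rw [Real.rpow_add hl]; ring
      _ ≤ _ := mul_le_mul_of_nonneg_left ha2 (Real.rpow_nonneg hl.le _)
  have hUle : F.U X ≤ X.CU := hF.u_lo.trans (by nlinarith [hX.CU_pos])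
  have eU5 : F.U X ^ (5 : ℝ) = F.U X * F.U X ^ (4 : ℝ) := by
    rw [show (5 : ℝ) = 1 + 4 by norm_num, Real.rpow_add hU, Real.rpow_one]
  have hA4 : 0 ≤ F.lam * (F.lam ^ (1 + 2 * X.eta) * F.U X ^ (4 : ℝ)) :=
    mul_nonneg hl.le (mul_nonneg (Real.rpow_nonneg hl.le _) (Real.rpow_nonneg hU.le _))
  have h5 : F.lam * (F.lam ^ (1 + 2 * X.eta) * F.U X ^ (5 : ℝ)) ≤ X.CU * T := by
    rw [eU5]
    calc F.lam * (F.lam ^ (1 + 2 * X.eta) * (F.U X * F.U X ^ (4 : ℝ)))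
        = F.U X * (F.lam * (F.lam ^ (1 + 2 * X.eta) * F.U X ^ (4 : ℝ))) := by ring
      _ ≤ X.CU * T := mul_le_mul hUle h4 hA4 hX.CU_pos.le
  have h6 : F.x ^ (6 : ℝ) ≤ T := by
    have e6 : F.x ^ (6 : ℝ) = F.x ^ 4 * F.x ^ 2 := by
      rw [show (6 : ℝ) = ((6 : ℕ) : ℝ) by norm_num, Real.rpow_natCast]; ring
    have hx2 : F.x ^ 2 ≤ F.lam ^ (1 / 6 : ℝ) := by
      calc F.x ^ 2 = (F.x ^ (12 : ℝ)) ^ (1 / 6 : ℝ) := by
            rw [← Real.rpow_mul hx.le, show (12 : ℝ) * (1 / 6) = ((2 : ℕ) : ℝ) by norm_num, Real.rpow_natCast]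
        _ ≤ _ := Real.rpow_le_rpow (Real.rpow_nonneg hx.le _) hF.lam_lo (by norm_num)
    have hone : 1 ≤ F.lam ^ (-(2 * X.s0)) := Real.one_le_rpow_of_pos_of_le_one_of_nonpos hl hl1 (by linarith)
    rw [e6, hT]
    calc F.x ^ 4 * F.x ^ 2 ≤ F.x ^ 4 * F.lam ^ (1 / 6 : ℝ) := mul_le_mul_of_nonneg_left hx2 hx4
      _ = F.lam ^ (1 / 6 : ℝ) * (F.x ^ 4 * 1) := by ring
      _ ≤ F.lam ^ (1 / 6 : ℝ) * (F.x ^ 4 * F.lam ^ (-(2 * X.s0))) :=
          mul_le_mul_of_nonneg_left (mul_le_mul_of_nonneg_left hone hx4) (Real.rpow_nonneg hl.le _)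
      _ ≤ _ := mul_le_mul_of_nonneg_left ha2 (Real.rpow_nonneg hl.le _)
  have hE : F.chiE ^ 2 ≤ 1 := pow_le_one₀ hF.chiE.1 hF.chiE.2
  have hLc : F.chiL ^ 2 ≤ 1 := pow_le_one₀ hF.chiL.1 hF.chiL.2
  have hx6 : 0 ≤ F.x ^ (6 : ℝ) := Real.rpow_nonneg hx.le _
  calc F.lam * (F.lam ^ (1 + 2 * X.eta) * F.U X ^ (5 : ℝ) + F.chiE ^ 2 * F.lam ^ (1 + 2 * X.eta) * F.U X ^ (4 : ℝ)
        + F.chiL ^ 2 * F.x ^ (6 : ℝ) / F.lam)
      = F.lam * (F.lam ^ (1 + 2 * X.eta) * F.U X ^ (5 : ℝ)) + F.chiE ^ 2 * (F.lam * (F.lam ^ (1 + 2 * X.eta) * F.U X ^ (4 : ℝ)))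
        + F.chiL ^ 2 * F.x ^ (6 : ℝ) := by field_simp
    _ ≤ X.CU * T + 1 * T + 1 * T :=
        add_le_add (add_le_add h5 (mul_le_mul hE h4 hA4 zero_le_one)) (mul_le_mul hLc h6 hx6 zero_le_one)
    _ = _ := by ring

/-- C2 (l.1378 "by (P8)")  `∫ min(u,v) |d| dv = o(u a_goal)`.
Proof: Cauchy-Schwarz with the weight `c_g`: `∫ min(u,v)|d| ≤ (∫ min(u,v)² c_g)^{1/2} (∫ d²/c_g)^{1/2} ≤ u (Cg λ)^{1/2} (∫ d²/c_g)^{1/2}` (`d²/c_g` is bounded measurable: `d_le, d_meas, cg_lo, cg_meas`);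
`hP.p8` in closed form at a small `ε`: `≤ C N^{ε/2} u (λ^{1+η} U² (1 + CU)^{1/2}.. + x³)`;  `u λ^{1+η} U² = u a_goal · u² λ^{1+η-τ₀}`,  `u x³ = u a_goal · u² x λ^{s₀}`;  `λ ≤ N^{-p_*/6}`, `x = N^{-1/6}`. -/
theorem bnx_Dd (hS : BdStd X W Fam K) (hP : BdP11 X W Fam c) : ∀ ε : ℝ, 0 < ε → ∃ N0 : ℕ, ∀ F, Fam F → N0 ≤ F.N →
    ∫ v in (0 : ℝ)..1, min F.u v * |F.d v| ≤ ε * (F.u * F.agoal X) := by
  intro ε hε
  have hX := hS.fix
  have hcg : ∀ F, Fam F → ∀ v ∈ Ioo (0 : ℝ) 1, 4 * X.cN * F.lam * F.U X ^ 2 ≤ F.cg v ∧ 0 < 4 * X.cN * F.lam * F.U X ^ 2 := fun F hF v hv => by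
    have hO := hS.ok F hF
    have h0 := hS.cg_lo F hF v hv
    have h1 := hX.cN_pos
    have h2 := BdFr.bds_lam_pos hO
    have h3 := BdFr.bds_U_pos hO
    have h4 : 0 ≤ 4 * X.cN * F.lam * v ^ 2 := by positivity
    exact ⟨by nlinarith, by positivity⟩
  have eI : ∀ F : BdFr, ∫ v in (0 : ℝ)..1, F.d v ^ 2 / F.cg v = ∫ v in Ioo (0 : ℝ) 1, F.d v ^ 2 / F.cg v := fun F => by
    rw [intervalIntegral.integral_of_le zero_le_one, integral_Ioc_eq_integral_Ioo]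
  have hI0 : ∀ F, Fam F → 0 ≤ ∫ v in (0 : ℝ)..1, F.d v ^ 2 / F.cg v := fun F hF => by
    rw [eI]
    exact setIntegral_nonneg measurableSet_Ioo fun v hv =>
      div_nonneg (sq_nonneg _) ((hcg F hF v hv).2.le.trans (hcg F hF v hv).1)
  have hB0 : ∀ F, Fam F → 0 ≤ F.lam ^ (1 + 2 * X.eta) * F.U X ^ (5 : ℝ) + F.chiE ^ 2 * F.lam ^ (1 + 2 * X.eta) * F.U X ^ (4 : ℝ)
      + F.chiL ^ 2 * F.x ^ (6 : ℝ) / F.lam := fun F hF => by
    have hO := hS.ok F hF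
    have h2 := BdFr.bds_lam_pos hO
    have h3 := BdFr.bds_U_pos hO
    have h4 := BdFr.bds_x_pos hO
    positivity
  have hp8 := (bd_sub_iff hI0 hB0).1 hP.p8
  obtain ⟨C, N1, h1⟩ := hp8 (X.pS * (1 / 12) / 6) (by have := hX.pS_pos; positivity)
  obtain ⟨N2, h2⟩ := hP.d_le
  obtain ⟨Cg, hCg⟩ : ∃ Cg : ℝ, Cg = max K.Cg 1 := ⟨_, rfl⟩
  obtain ⟨C', hC'⟩ : ∃ C' : ℝ, C' = max C 1 := ⟨_, rfl⟩
  have hCg0 : 0 < Cg := by rw [hCg]; exact lt_of_lt_of_le one_pos (le_max_right _ _)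
  have hC'0 : 0 < C' := by rw [hC']; exact lt_of_lt_of_le one_pos (le_max_right _ _)
  have hCU := hX.CU_pos
  obtain ⟨N3, h3⟩ := BudB.ev_lam hX (e := 1 / 12) (ε := ε ^ 2 / (Cg * C' * (X.CU + 2))) (by norm_num) (by positivity)
  refine ⟨max N1 (max N2 N3), fun F hF hN => ?_⟩
  have hN1 : N1 ≤ F.N := (le_max_left _ _).trans hN
  have hN2 : N2 ≤ F.N := ((le_max_left _ _).trans (le_max_right _ _)).trans hN
  have hN3 : N3 ≤ F.N := ((le_max_right _ _).trans (le_max_right _ _)).trans hN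
  have hO := hS.ok F hF
  have hl := BdFr.bds_lam_pos hO
  have hu := BdFr.bds_u_pos hO hX
  have hag := BdFr.bds_agoal_pos hO hX
  obtain ⟨I, hIdef⟩ : ∃ I : ℝ, I = ∫ v in Ioo (0 : ℝ) 1, F.d v ^ 2 / F.cg v := ⟨_, rfl⟩
  have hI0' : 0 ≤ I := by rw [hIdef, ← eI]; exact hI0 F hF
  -- the size of `I`
  have hI : Cg * (F.lam * I) ≤ ε ^ 2 * F.agoal X ^ 2 := by
    have a1 := h1 F hF hN1
    rw [eI, ← hIdef] at a1
    have a2 := bnx_Dd_pow hX hO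
    have a3 := bnx_N_le hO (e := 1 / 12) (by norm_num)
    have a4 := h3 F hO hN3
    have hNn : 0 ≤ (F.N : ℝ) ^ (X.pS * (1 / 12) / 6) := Real.rpow_nonneg (Nat.cast_nonneg _) _
    have hT0 : 0 ≤ F.lam ^ (1 / 6 : ℝ) * F.agoal X ^ 2 := mul_nonneg (Real.rpow_nonneg hl.le _) (sq_nonneg _)
    have e1 : F.lam ^ (-(1 / 12) : ℝ) * F.lam ^ (1 / 6 : ℝ) = F.lam ^ (1 / 12 : ℝ) := by
      rw [← Real.rpow_add hl]; norm_num
    calc Cg * (F.lam * I)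
        ≤ Cg * (F.lam * (C' * ((F.N : ℝ) ^ (X.pS * (1 / 12) / 6) * (F.lam ^ (1 + 2 * X.eta) * F.U X ^ (5 : ℝ)
            + F.chiE ^ 2 * F.lam ^ (1 + 2 * X.eta) * F.U X ^ (4 : ℝ) + F.chiL ^ 2 * F.x ^ (6 : ℝ) / F.lam)))) := by
          refine mul_le_mul_of_nonneg_left (mul_le_mul_of_nonneg_left (a1.trans ?_) hl.le) hCg0.le
          exact mul_le_mul_of_nonneg_right (by rw [hC']; exact le_max_left _ _) (mul_nonneg hNn (hB0 F hF))
      _ = Cg * C' * ((F.N : ℝ) ^ (X.pS * (1 / 12) / 6) * (F.lam * (F.lam ^ (1 + 2 * X.eta) * F.U X ^ (5 : ℝ)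
            + F.chiE ^ 2 * F.lam ^ (1 + 2 * X.eta) * F.U X ^ (4 : ℝ) + F.chiL ^ 2 * F.x ^ (6 : ℝ) / F.lam))) := by ring
      _ ≤ Cg * C' * (F.lam ^ (-(1 / 12) : ℝ) * ((X.CU + 2) * (F.lam ^ (1 / 6 : ℝ) * F.agoal X ^ 2))) := by
          refine mul_le_mul_of_nonneg_left ?_ (by positivity)
          exact mul_le_mul a3 a2 (mul_nonneg hl.le (hB0 F hF)) (Real.rpow_nonneg hl.le _)
      _ = Cg * C' * (X.CU + 2) * (F.lam ^ (-(1 / 12) : ℝ) * F.lam ^ (1 / 6 : ℝ)) * F.agoal X ^ 2 := by ring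
      _ ≤ Cg * C' * (X.CU + 2) * (ε ^ 2 / (Cg * C' * (X.CU + 2))) * F.agoal X ^ 2 := by
          rw [e1]
          exact mul_le_mul_of_nonneg_right (mul_le_mul_of_nonneg_left a4 (by positivity)) (sq_nonneg _)
      _ = _ := by field_simp
  -- integrability
  have hint : IntegrableOn (fun v => F.d v ^ 2 / F.cg v) (Ioo (0 : ℝ) 1) := by
    refine Measure.integrableOn_of_bounded (M := (c.CK * (1 + F.wc X)) ^ 2 / (4 * X.cN * F.lam * F.U X ^ 2)) (by simp)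
      (((hP.d_meas F hF).pow_const 2).div (hS.cg_meas F hF)).aestronglyMeasurable ?_
    refine (ae_restrict_iff' measurableSet_Ioo).2 (ae_of_all _ fun v hv => ?_)
    obtain ⟨b1, b2⟩ := hcg F hF v hv
    rw [Real.norm_eq_abs, abs_of_nonneg (div_nonneg (sq_nonneg _) (b2.le.trans b1))]
    refine div_le_div₀ (sq_nonneg _) ?_ b2 b1
    rw [← sq_abs (F.d v)]
    refine pow_le_pow_left₀ (abs_nonneg _) ((h2 F hF hN2 v hv).trans ?_) 2
    exact mul_le_mul_of_nonneg_left (by linarith [hv.2]) (zero_le_one.trans hP.CK1)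
  -- Young's inequality with the weight `c_g`
  obtain ⟨t, ht⟩ : ∃ t : ℝ, t = ε * F.agoal X / (F.u * Cg * F.lam) := ⟨_, rfl⟩
  have ht0 : 0 < t := by rw [ht]; positivity
  have hpt : ∀ v ∈ Ioo (0 : ℝ) 1, min F.u v * |F.d v| ≤ t / 2 * (F.u ^ 2 * (Cg * F.lam)) + 1 / (2 * t) * (F.d v ^ 2 / F.cg v) := by
    intro v hv
    obtain ⟨b1, b2⟩ := hcg F hF v hv
    have hg : 0 < F.cg v := lt_of_lt_of_le b2 b1
    have hm0 : 0 ≤ min F.u v := le_min hu.le hv.1.le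
    have k1 : 0 ≤ (t * F.cg v * min F.u v - |F.d v|) ^ 2 / (2 * t * F.cg v) := by positivity
    have k2 : (t * F.cg v * min F.u v - |F.d v|) ^ 2 / (2 * t * F.cg v)
        = t / 2 * (min F.u v ^ 2 * F.cg v) + 1 / (2 * t) * (|F.d v| ^ 2 / F.cg v) - min F.u v * |F.d v| := by
      field_simp
      ring
    rw [sq_abs] at k2
    have k3 : min F.u v ^ 2 * F.cg v ≤ F.u ^ 2 * (Cg * F.lam) := by
      refine mul_le_mul (pow_le_pow_left₀ hm0 (min_le_left _ _) 2) ((hS.cg_hi F hF v hv).trans ?_) hg.le (by positivity)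
      exact mul_le_mul_of_nonneg_right (by rw [hCg]; exact le_max_left _ _) hl.le
    have k4 : t / 2 * (min F.u v ^ 2 * F.cg v) ≤ t / 2 * (F.u ^ 2 * (Cg * F.lam)) :=
      mul_le_mul_of_nonneg_left k3 (by positivity)
    linarith
  rw [intervalIntegral.integral_of_le zero_le_one, integral_Ioc_eq_integral_Ioo]
  have hstep : ∫ v in Ioo (0 : ℝ) 1, min F.u v * |F.d v|
      ≤ ∫ v in Ioo (0 : ℝ) 1, (t / 2 * (F.u ^ 2 * (Cg * F.lam)) + 1 / (2 * t) * (F.d v ^ 2 / F.cg v)) := by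
    refine integral_mono_of_nonneg ((ae_restrict_iff' measurableSet_Ioo).2 (ae_of_all _ fun v hv =>
      mul_nonneg (le_min hu.le hv.1.le) (abs_nonneg _))) ((integrable_const _).add (hint.const_mul _)) ?_
    exact (ae_restrict_iff' measurableSet_Ioo).2 (ae_of_all _ hpt)
  have hval : ∫ v in Ioo (0 : ℝ) 1, (t / 2 * (F.u ^ 2 * (Cg * F.lam)) + 1 / (2 * t) * (F.d v ^ 2 / F.cg v))
      = t / 2 * (F.u ^ 2 * (Cg * F.lam)) + 1 / (2 * t) * I := by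
    rw [integral_add (integrable_const _) (hint.const_mul _), integral_const_mul (1 / (2 * t)), ← hIdef]
    simp
  rw [hval] at hstep
  refine hstep.trans ?_
  have m1 : t / 2 * (F.u ^ 2 * (Cg * F.lam)) = ε * (F.u * F.agoal X) / 2 := by
    rw [ht]; field_simp
  have m2 : 1 / (2 * t) * I = F.u / (2 * ε * F.agoal X) * (Cg * (F.lam * I)) := by
    rw [ht]; field_simp
  have m3 : F.u / (2 * ε * F.agoal X) * (Cg * (F.lam * I)) ≤ F.u / (2 * ε * F.agoal X) * (ε ^ 2 * F.agoal X ^ 2) :=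
    mul_le_mul_of_nonneg_left hI (by positivity)
  have m4 : F.u / (2 * ε * F.agoal X) * (ε ^ 2 * F.agoal X ^ 2) = ε * (F.u * F.agoal X) / 2 := by
    field_simp
  rw [m1, m2]
  linarith

/-- the datum of the transport estimate of an optimiser -/
def bnxTr (i : BdI X) (W : BdWorld) (c0 : ℝ) : BudTr where
  g := budGeoQ i.Q W i.g c0
  q := i.F.q
  d := i.F.d
  Ks := i.Q.Ks W i.g
  Kst := i.F.K
  β := i.F.beta0
  k0 := i.F.k X
  kap := i.F.kap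
  Ilo := i.F.Ilo * i.F.u
  Ihi := i.F.Ihi * i.F.u
  u := i.F.u
  wc := i.F.wc X
  vlow := i.F.wc X

theorem bnx_tr_eqns_cite : True := by
  have := @bnxTr.eq_1
  trivial

/-- `w_c ≤ u` for large sizes -/
theorem bnx_wc_le (hX : X.Ok) : ∃ N0 : ℕ, ∀ F : BdFr, F.Ok X → N0 ≤ F.N → F.wc X ≤ F.u := by
  have hC : 0 < X.CU + X.CU ^ (3 / 4 : ℝ) := by have := hX.CU_pos; positivity
  obtain ⟨N0, h0⟩ := bd7_ar_x_small X (a := X.pS / 10) (ε := 1 / (X.CU + X.CU ^ (3 / 4 : ℝ)))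
    (by have := hX.pS_pos; positivity) (by positivity)
  refine ⟨N0, fun F hF hN => ?_⟩
  have h1 : F.yc X ≤ 1 := by
    refine (ff_yc_le hX hF).trans ?_
    have := mul_le_mul_of_nonneg_left (h0 F hF hN) hC.le
    rwa [mul_one_div_cancel hC.ne'] at this
  unfold BdFr.wc
  have := BdFr.bds_u_pos hF hX
  nlinarith

/-- the quantile of an interior mass is an interior radius -/
theorem bnx_r_mem {F : BdFr} (Q : BdQ F X) {v : ℝ} (hv : v ∈ Ioo (0 : ℝ) 1) : Q.r v ∈ Ioo (0 : ℝ) 1 := by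
  have h1 := Q.r_mem v (Ioo_subset_Icc_self hv)
  have h2 := Q.al_r v (Ioo_subset_Icc_self hv)
  refine ⟨lt_of_le_of_ne h1.1 fun h => ?_, lt_of_le_of_ne h1.2 fun h => ?_⟩
  · rw [← h, Q.al_zero] at h2
    exact hv.1.ne h2
  · rw [h, Q.al_one] at h2
    exact hv.2.ne h2.symm

/-- C3 the hypotheses of `bud_n11_transport` hold for every optimiser of the stage.   `CK` = the constant of B4, `Q0 = 2 CK`.
Field by field: `ok` `bud_n4_geo` + B1; `box` `bud_gb_box`; `C_le` `bd7_ar_C_le`; `kb_eq` `bud_gb_Kb_eq` + `BdFr.kbar`; `I0 I1 I2` `F.Ok`, `c_I u < 1`; `absb` `bud_gb_kap_le_N`; `Ks_mono ..` B2, B4, `hP.K_clk`;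
`diff` B5 (`x_m ≤ x ≤ w_c`: `bd7_ar_x_le_wc`; `D.Sm v = Sq v`, `D.r v = Q.r v`: `bud_n4_S`, `bud_dens_of_bdq`; `0 ≤ b ≤ bmax`); `β_mono β_mem` `hS.beta`; `qβ` B6; `al_ge` `BudC7al` at `ε = cb plo/2`; `q_lip` B7 (`r' = (φ_n + c_I) u/2`, `BudC7al`). -/
theorem bnx_tr_ok (hS : BdStd X W Fam K) (hP : BdP11 X W Fam c) (h7 : BudC7al X W Fam) {CK : ℝ} (hCK : 1 ≤ CK)
    (hK : ∃ N0 : ℕ, ∀ i : BdI X, i.Ok W Fam → N0 ≤ i.F.N →
      ∀ v ∈ Ioo (0 : ℝ) 1, i.Q.Ks W i.g v ≤ CK * (v + i.F.wc X) ∧ i.F.K v ≤ CK * (v + i.F.wc X))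
    {n : ℕ} (hn1 : 1 ≤ n) (hn : n ≤ X.J + 1) : ∃ N0 : ℕ, ∀ i : BdI X, BnxOSt X W Fam n i → N0 ≤ i.F.N →
      ∃ c0 : ℝ, (bnxTr i W c0).Ok CK c.bmax (1 / K.cb) (K.cb * X.plo n / 2) i.F.C0 (2 * CK) (i.F.k X 1) (2 * c.CK) := by
  have hX := hS.fix
  have hcb := hS.cb_pos
  obtain ⟨hplo, -, -, -, hphi⟩ := hX.pat n hn
  obtain ⟨np1, np2, ng1, ng2⟩ := BudB.fix_nest hX n hn
  have hcI := hX.cI_pos
  obtain ⟨Na, ha⟩ := bud_n4_geo X hX
  obtain ⟨Nb, hb⟩ := hK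
  obtain ⟨Nc, hc⟩ := bnx_wc_le hX
  obtain ⟨Cb', hCb'⟩ : ∃ Cb' : ℝ, Cb' = max K.Cb 1 := ⟨_, rfl⟩
  have hCb'0 : 0 < Cb' := by rw [hCb']; exact lt_of_lt_of_le one_pos (le_max_right _ _)
  have hCb'1 : 1 ≤ Cb' := by rw [hCb']; exact le_max_right _ _
  have hCb'K : K.Cb ≤ Cb' := by rw [hCb']; exact le_max_left _ _
  obtain ⟨Nd, hd⟩ := BudB.ev_u hX (ε := 1 / (2 * Cb' * X.cI)) (by positivity)
  obtain ⟨Ne, he⟩ := BudB.ev_lam hX (e := 9 / 10) (ε := K.cb / 2) (by norm_num) (by positivity)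
  obtain ⟨e7, he7⟩ : ∃ e7 : ℝ, e7 = min (K.cb * X.plo n / 2) (K.cb * (X.cI - X.phi n) / 2) := ⟨_, rfl⟩
  have he70 : 0 < e7 := by
    rw [he7]
    exact lt_min (by positivity) (by have : 0 < X.cI - X.phi n := by linarith
                                     positivity)
  obtain ⟨Nf, hf⟩ := (bd_o_iff (fun i _ => abs_nonneg _)
    (fun i hi => (BdFr.bds_u_pos (hS.ok _ hi.1.1) hX).le)).1 h7 e7 he70
  obtain ⟨Ng, hg⟩ := hP.d_le
  refine ⟨Na + Nb + Nc + Nd + Ne + Nf + Ng, fun i hi hN => ?_⟩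
  obtain ⟨⟨hFam, hAt, hst⟩, hgn, -, hopt⟩ := hi
  have hO := hS.ok _ hFam
  have hg0 : i.g ∈ Icc (X.glo 0) (X.ghi 0) := ⟨ng1.trans hgn.1, hgn.2.trans ng2⟩
  have hiok : i.Ok W Fam := ⟨hFam, hg0, hopt⟩
  have hB := bnx_base hS hFam hg0 i.Q
  obtain ⟨c0, hgeo, -⟩ := ha i.F hO (by omega) W i.g hB i.Q hopt
  have hu := BdFr.bds_u_pos hO hX
  have hu1 := BdFr.bds_u_le_one hO hX
  have hx := BdFr.bds_x_pos hO
  have hxw := bd7_ar_x_le_wc hX hO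
  have hwc0 : 0 ≤ i.F.wc X := hx.le.trans hxw
  have hwc1 : i.F.wc X ≤ 1 := (hc i.F hO (by omega)).trans hu1
  have hus := hd i.F hO (by omega)
  have hcu : Cb' * (X.cI * i.F.u) ≤ 1 / 2 := by
    calc Cb' * (X.cI * i.F.u) ≤ Cb' * (X.cI * (1 / (2 * Cb' * X.cI))) :=
          mul_le_mul_of_nonneg_left (mul_le_mul_of_nonneg_left hus hcI.le) hCb'0.le
      _ = 1 / 2 := by field_simp
  have hcIu0 : 0 < X.cI * i.F.u := mul_pos hcI hu
  have hcIu : X.cI * i.F.u ≤ 1 / 2 := le_trans (by nlinarith) hcu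
  have hCbu : K.Cb * (X.cI * i.F.u) < 1 := by
    have : K.Cb * (X.cI * i.F.u) ≤ Cb' * (X.cI * i.F.u) := mul_le_mul_of_nonneg_right hCb'K hcIu0.le
    linarith
  have eIlo : i.F.Ilo = X.plo n := by rw [hAt.2.1, hst]
  have eIhi : i.F.Ihi = X.phi n := by rw [hAt.2.2, hst]
  have hKs := bnx_Ks_clock hS hFam hg0 i.Q (W := W)
  have hKst := hP.K_clk _ hFam
  have hKle := hb i hiok (by omega)
  obtain ⟨-, hal, hrq⟩ := bud_dens_of_bdq X hX i.F hO i.Q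
  -- the patch
  have hpat : ∀ r ∈ Icc (i.F.Ilo * i.F.u) (i.F.Ihi * i.F.u), 0 < r ∧ r < X.cI * i.F.u ∧ r ∈ Icc (0 : ℝ) 1 ∧
      r ∈ Icc (X.plo 0 * i.F.u) (X.phi 0 * i.F.u) ∧ X.plo n * i.F.u ≤ r ∧ r ≤ X.phi n * i.F.u := by
    intro r hr
    rw [eIlo, eIhi] at hr
    have h1 : 0 < r := lt_of_lt_of_le (mul_pos hplo hu) hr.1
    have h2 : r < X.cI * i.F.u := lt_of_le_of_lt hr.2 (mul_lt_mul_of_pos_right hphi hu)
    exact ⟨h1, h2, ⟨h1.le, by linarith⟩, ⟨(mul_le_mul_of_nonneg_right np1 hu.le).trans hr.1,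
      hr.2.trans (mul_le_mul_of_nonneg_right np2 hu.le)⟩, hr.1, hr.2⟩
  have h7r : ∀ r ∈ Icc (i.F.Ilo * i.F.u) (i.F.Ihi * i.F.u), |i.Q.al r - i.F.beta0 r| ≤ e7 * i.F.u := fun r hr =>
    hf (i, r) ⟨hiok, (hpat r hr).2.2.2.1⟩ (by show Nf ≤ i.F.N; omega)
  have hgal : ∀ r ∈ Icc (0 : ℝ) 1, (bnxTr i W c0).g.al r = i.Q.al r := fun r hr => hal r hr
  refine ⟨c0, ?_⟩
  exact
    { ok := hgeo
      box := bud_gb_box hX hO
      u0 := hu
      u1 := hu1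
      CK1 := hCK
      bmax0 := hP.bmax0
      cb0 := by positivity
      wc0 := hwc0
      vlow0 := le_rfl
      vlow1 := hwc1
      C_le := fun r _ => bd7_ar_C_le hX hO r
      k0m := bud_gb_k_meas (i.F.call X)
      k00 := fun r => by
        show 0 ≤ (i.F.call X).k r
        unfold CmCall.k
        have : 0 ≤ (i.F.call X).N := by unfold CmCall.N; positivity
        have := Real.rpow_nonneg this (i.F.call X).dl
        positivity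
      kap0 := hO.kap0
      kb_eq := fun r hr => bud_gb_Kb_eq i.F X hr
      I0 := mul_pos hO.I0 hu
      I1 := mul_le_mul_of_nonneg_right hO.I1 hu.le
      I2 := by
        show i.F.Ihi * i.F.u < 1
        have := mul_lt_mul_of_pos_right hO.I2 hu
        linarith
      absb := by
        show i.F.kap * (1 / K.cb) ≤ 1 / 2
        have h1 : i.F.kap ≤ K.cb / 2 := (bud_gb_kap_le hX hO).trans (he i.F hO (by omega))
        calc i.F.kap * (1 / K.cb) ≤ K.cb / 2 * (1 / K.cb) := mul_le_mul_of_nonneg_right h1 (by positivity)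
          _ = 1 / 2 := by field_simp
      Ks_mono := hKs.mono
      Kst_mono := hKst.mono
      Ks_mem := fun v hv => ⟨hKs.nonneg v hv, (hKle v hv).1.trans (by nlinarith [hv.2])⟩
      Kst_mem := fun v hv => ⟨hKst.nonneg v hv, (hKle v hv).2.trans (by nlinarith [hv.2])⟩
      Ks_le := fun v hv => (hKle v hv).1
      Kst_le := fun v hv => (hKle v hv).2
      diff := fun v hv => by
        have hv0 : v ∈ Ioo (0 : ℝ) 1 := ⟨lt_of_le_of_lt hwc0 hv.1, hv.2⟩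
        have hxm : i.F.xm ≤ v := by
          have : i.F.xm ≤ i.F.x := div_le_self hx.le hO.ell1
          exact (this.trans hxw).trans hv.1.le
        have er : (bnxTr i W c0).r v = i.Q.r v := hrq v (Ioo_subset_Icc_self hv0)
        have eS : (bnxTr i W c0).Sm v = i.Q.Sq W i.g v := by
          show (budGeoQ i.Q W i.g c0).S ((bnxTr i W c0).r v) = _
          rw [er, bud_n4_S X hX i.F hO i.Q W i.g c0 hB (bnx_r_mem i.Q hv0), i.Q.al_r v (Ioo_subset_Icc_self hv0)]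
        rw [eS, er]
        show |i.Q.Ks W i.g v - i.F.K v| ≤ c.bmax * |i.Q.Sq W i.g v - i.F.q v| + |i.F.d v|
          + i.F.C X (i.Q.r v) * |i.Q.Sq W i.g v - i.Q.r v|
        rw [bnx_diff hP hFam hg0 i.Q ⟨hxm, hv.2⟩]
        have hb0 : 0 ≤ i.F.b i.g v := (hS.clk0 _ hFam i.g hg0).1.nonneg v hv0
        have hb1 := hP.b_le _ hFam i.g hg0 v hv0
        have hC0 := (bd7_ar_C_pos hX hO (i.Q.r v)).le
        calc |i.F.d v + i.F.b i.g v * (i.Q.Sq W i.g v - i.F.q v) - i.F.C X (i.Q.r v) * (i.Q.Sq W i.g v - i.Q.r v)|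
            ≤ |i.F.d v + i.F.b i.g v * (i.Q.Sq W i.g v - i.F.q v)| + |i.F.C X (i.Q.r v) * (i.Q.Sq W i.g v - i.Q.r v)| := abs_sub _ _
          _ ≤ |i.F.d v| + |i.F.b i.g v * (i.Q.Sq W i.g v - i.F.q v)| + |i.F.C X (i.Q.r v) * (i.Q.Sq W i.g v - i.Q.r v)| :=
              add_le_add (abs_add_le _ _) le_rfl
          _ = |i.F.d v| + i.F.b i.g v * |i.Q.Sq W i.g v - i.F.q v| + i.F.C X (i.Q.r v) * |i.Q.Sq W i.g v - i.Q.r v| := by
              rw [abs_mul, abs_mul, abs_of_nonneg hb0, abs_of_nonneg hC0]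
          _ ≤ _ := by
              have := mul_le_mul_of_nonneg_right hb1 (abs_nonneg (i.Q.Sq W i.g v - i.F.q v))
              linarith
      q_mono := (hS.q_mono _ hFam).mono Ioo_subset_Icc_self
      q_mem := fun v hv => hS.q_mem _ hFam v (Ioo_subset_Icc_self hv)
      dm := hP.d_meas _ hFam
      d_le := fun v hv => (hg _ hFam (by omega) v hv).trans (by
        have := zero_le_one.trans hP.CK1
        nlinarith [hv.2])
      β_mono := fun r1 h1 r2 h2 h12 => by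
        have := (hS.beta _ hFam r1 r2 (hpat r1 h1).1.le h12 (hpat r2 h2).2.1.le).1
        have h3 : 0 ≤ K.cb * (r2 - r1) := mul_nonneg hcb.le (by linarith)
        show i.F.beta0 r1 ≤ i.F.beta0 r2
        linarith
      β_mem := fun r hr => by
        obtain ⟨p1, p2, -, -, p5, -⟩ := hpat r hr
        have h1 := BudB.fam_beta hS hFam p1.le p2.le
        have h2 := (bnx_q_beta hS hFam hCbu p1.le p2).1
        refine ⟨?_, h2.2⟩
        show K.cb * X.plo n / 2 * i.F.u ≤ i.F.beta0 r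
        have h3 : K.cb * (X.plo n * i.F.u) ≤ K.cb * r := mul_le_mul_of_nonneg_left p5 hcb.le
        have h4 : 0 ≤ K.cb * (X.plo n * i.F.u) := by positivity
        linarith [h1.1]
      qβ := fun r hr => (bnx_q_beta hS hFam hCbu (hpat r hr).1.le (hpat r hr).2.1).2
      al_ge := by
        have hmem : i.F.Ilo * i.F.u ∈ Icc (i.F.Ilo * i.F.u) (i.F.Ihi * i.F.u) :=
          ⟨le_rfl, mul_le_mul_of_nonneg_right hO.I1 hu.le⟩
        obtain ⟨p1, p2, p3, -, p5, -⟩ := hpat _ hmem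
        show K.cb * X.plo n / 2 * i.F.u ≤ (bnxTr i W c0).g.al (i.F.Ilo * i.F.u)
        rw [hgal _ p3]
        have h1 := (BudB.fam_beta hS hFam p1.le p2.le).1
        have h2 := (abs_le.1 (h7r _ hmem)).1
        have h3 : e7 * i.F.u ≤ K.cb * X.plo n / 2 * i.F.u :=
          mul_le_mul_of_nonneg_right (by rw [he7]; exact min_le_left _ _) hu.le
        have h4 : K.cb * (X.plo n * i.F.u) ≤ K.cb * (i.F.Ilo * i.F.u) := mul_le_mul_of_nonneg_left p5 hcb.le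
        linarith
      q_lip := fun r hr => by
        obtain ⟨p1, p2, p3, -, -, p6⟩ := hpat r hr
        rw [hgal r p3]
        show |i.F.q (i.Q.al r) - r| ≤ 1 / K.cb * |i.Q.al r - i.F.beta0 r|
        have hr' : (X.phi n + X.cI) / 2 * i.F.u < X.cI * i.F.u := mul_lt_mul_of_pos_right (by linarith) hu
        have hrr : r ≤ (X.phi n + X.cI) / 2 * i.F.u := p6.trans (mul_le_mul_of_nonneg_right (by linarith) hu.le)
        have h1 := (hS.beta _ hFam r _ p1.le hrr hr'.le).1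
        have h2 := (abs_le.1 (h7r r hr)).2
        have h3 : e7 * i.F.u ≤ K.cb * (X.cI - X.phi n) / 2 * i.F.u :=
          mul_le_mul_of_nonneg_right (by rw [he7]; exact min_le_right _ _) hu.le
        have h4 : K.cb * ((X.phi n + X.cI) / 2 * i.F.u - X.phi n * i.F.u) ≤ K.cb * ((X.phi n + X.cI) / 2 * i.F.u - r) :=
          mul_le_mul_of_nonneg_left (by linarith) hcb.le
        have h5 := bnx_q_near hS hFam hCbu p1.le hrr hr' (bd7_q_al_mem i.Q hO p3) (by nlinarith)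
        rw [one_div, inv_mul_eq_div]
        exact h5 }

/-- C4 `∫ v² [D² + (S - q)²] ≤ 𝓝²`.   Proof: dictionary (`bud_n4_S`, `bud_n4_B`, `bud_dens_of_bdq`: `Q.al (Q.r v) = v`), `v² ≤ v² + U²`, both integrands are bounded and a.e. measurable (`S, B, q` monotone on `(0,1)`). -/
theorem bnx_N2_le (hS : BdStd X W Fam K) {i : BdI X} (hi : i.Ok W Fam) (c0 : ℝ) : (bnxTr i W c0).N2 ≤ i.Q.Nn2 W i.g := by
  have hX := hS.fix
  have hF := hi.1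
  have hg := hi.2.1
  have hFo := hS.ok i.F hF
  have hB := bnx_base hS hF hg i.Q
  obtain ⟨-, h2, h3⟩ := bud_dens_of_bdq X hX i.F hFo i.Q
  have hr : ∀ v ∈ Ioo (0 : ℝ) 1, i.Q.r v ∈ Ioo (0 : ℝ) 1 := by
    intro v hv
    have hvI := Ioo_subset_Icc_self hv
    have h1 := i.Q.r_mem v hvI
    have h4 := i.Q.al_r v hvI
    refine ⟨lt_of_le_of_ne h1.1 fun e => ?_, lt_of_le_of_ne h1.2 fun e => ?_⟩
    · rw [← e, i.Q.al_zero] at h4
      exact hv.1.ne h4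
    · rw [e, i.Q.al_one] at h4
      exact hv.2.ne h4.symm
  have hSm : ∀ v ∈ Ioo (0 : ℝ) 1, (bnxTr i W c0).Sm v = i.Q.Sq W i.g v := by
    intro v hv
    have hvI := Ioo_subset_Icc_self hv
    show (budGeoQ i.Q W i.g c0).S (budQ (deriv i.Q.al) v) = _
    rw [h3 v hvI, bud_n4_S X hX i.F hFo i.Q W i.g c0 hB (hr v hv), i.Q.al_r v hvI]
  have hDm : ∀ v ∈ Ioo (0 : ℝ) 1, (bnxTr i W c0).D2m v = i.Q.Dq2 W i.g v := by
    intro v hv
    have hvI := Ioo_subset_Icc_self hv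
    show (budGeoQ i.Q W i.g c0).B (budQ (deriv i.Q.al) v) - (budGeoQ i.Q W i.g c0).S (budQ (deriv i.Q.al) v) ^ 2 = _
    rw [h3 v hvI, bud_n4_S X hX i.F hFo i.Q W i.g c0 hB (hr v hv), bud_n4_B X hX i.F hFo i.Q W i.g c0 hB (hr v hv), i.Q.al_r v hvI]
    rfl
  obtain ⟨hm, hb⟩ := bud_env_norm_le_aux hS hF hg i.Q
  have hint : ∀ a : ℝ, 0 ≤ a → IntegrableOn (fun v => (v ^ 2 + a) * (i.Q.Dq2 W i.g v + (i.Q.Sq W i.g v - i.F.q v) ^ 2)) (Ioo 0 1) := by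
    intro a ha
    refine Integrable.of_bound (μ := volume.restrict (Ioo (0 : ℝ) 1)) ?_ ((1 + a) * 2) ?_
    · exact ((continuous_id.pow 2).add continuous_const).aestronglyMeasurable.mul hm
    · refine (ae_restrict_iff' measurableSet_Ioo).2 (Eventually.of_forall fun v hv => ?_)
      obtain ⟨b1, b2⟩ := hb v hv
      have b5 : v ^ 2 ≤ 1 := pow_le_one₀ hv.1.le hv.2.le
      rw [Real.norm_eq_abs, abs_of_nonneg (by positivity)]
      exact mul_le_mul (by linarith) b2 b1 (by positivity)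
  unfold BudTr.N2 BdQ.Nn2
  rw [intervalIntegral.integral_of_le zero_le_one, integral_Ioc_eq_integral_Ioo, intervalIntegral.integral_of_le zero_le_one,
    integral_Ioc_eq_integral_Ioo]
  calc ∫ v in Ioo (0 : ℝ) 1, v ^ 2 * ((bnxTr i W c0).D2m v + ((bnxTr i W c0).Sm v - (bnxTr i W c0).q v) ^ 2)
      = ∫ v in Ioo (0 : ℝ) 1, (v ^ 2 + 0) * (i.Q.Dq2 W i.g v + (i.Q.Sq W i.g v - i.F.q v) ^ 2) := by
        refine setIntegral_congr_fun measurableSet_Ioo fun v hv => ?_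
        show v ^ 2 * ((bnxTr i W c0).D2m v + ((bnxTr i W c0).Sm v - i.F.q v) ^ 2) = _
        rw [hSm v hv, hDm v hv, add_zero]
    _ ≤ ∫ v in Ioo (0 : ℝ) 1, (v ^ 2 + i.F.U X ^ 2) * (i.Q.Dq2 W i.g v + (i.Q.Sq W i.g v - i.F.q v) ^ 2) := by
        refine setIntegral_mono_on (hint 0 le_rfl) (hint _ (sq_nonneg _)) measurableSet_Ioo fun v hv => ?_
        exact mul_le_mul_of_nonneg_right (by linarith [sq_nonneg (i.F.U X)]) (hb v hv).1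

/-- the arithmetic of C5 on ONE optimiser: `bud_n11_transport` for `bnxTr`, every term against `d = u a_goal Z` -/
theorem bnx_trI_at (hX : X.Ok) {i : BdI X} (hF : i.F.Ok X) {c0 CK bmax Cq cb' kmin dmax ε' η : ℝ}
    (h : (bnxTr i W c0).Ok CK bmax Cq cb' i.F.C0 (2 * CK) kmin dmax)
    (hN2 : (bnxTr i W c0).N2 ≤ i.Q.Nn2 W i.g)
    (h13 : i.Q.Nn2 W i.g ≤ (i.F.x ^ (2 : ℝ) * i.F.lam ^ (-X.s0) * i.F.Zj X W i.g) ^ 2)
    (hZ : 1 ≤ i.F.Zj X W i.g) (hdint : IntervalIntegrable i.F.d volume 0 1)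
    (hD : ∫ v in (0 : ℝ)..1, min i.F.u v * |i.F.d v| ≤ ε' * (i.F.u * i.F.agoal X)) (hε' : 0 ≤ ε')
    (hu : i.F.u ≤ η) (hl : i.F.lam ^ (0.4 : ℝ) ≤ η) :
    ∫ t in (0 : ℝ)..(2 * CK), min i.F.u t * |bdDist (i.Q.Ks W i.g) t - bdDist i.F.K t|
      ≤ ((32 * CK ^ 2 * max 1 X.CU + 2 * CK * (bmax * Real.sqrt 2 + (Real.sqrt 2 + 4 / Real.sqrt cb') + (4 / X.cd + 2))) * η
          + 2 * CK * ε') * (i.F.u * (i.F.agoal X * i.F.Zj X W i.g)) := by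
  have T : ∫ t in (0 : ℝ)..(2 * CK), min i.F.u t * |bdDist (i.Q.Ks W i.g) t - bdDist i.F.K t|
      ≤ CK ^ 2 * (i.F.wc X + i.F.wc X) ^ 2 * i.F.wc X
        + 2 * CK * (bmax * (Real.sqrt (2 * i.F.u) * Real.sqrt (bnxTr i W c0).N2) + (bnxTr i W c0).Dd
          + i.F.C0 * ((Real.sqrt 2 + 4 / Real.sqrt cb') * (Real.sqrt i.F.u * Real.sqrt (bnxTr i W c0).N2) + 2 * i.F.u / i.F.Mj
            + 2 * i.F.u * (bnxTr i W c0).kint)) := bud_n11_transport (bnxTr i W c0) h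
  refine T.trans ?_
  obtain ⟨Z, hZdef⟩ : ∃ Z, Z = i.F.Zj X W i.g := ⟨_, rfl⟩
  obtain ⟨L, hLdef⟩ : ∃ L, L = i.F.agoal X * Z := ⟨_, rfl⟩
  obtain ⟨d, hddef⟩ : ∃ d, d = i.F.u * L := ⟨_, rfl⟩
  rw [← hZdef] at hZ h13 ⊢
  rw [← hLdef, ← hddef]
  have hx := BdFr.bds_x_pos hF
  have hx1 := (BdFr.bds_x_lt_one hF).le
  have hl0 := BdFr.bds_lam_pos hF
  have hu0 := BdFr.bds_u_pos hF hX
  have hu1 := BdFr.bds_u_le_one hF hX
  have hag := BdFr.bds_agoal_pos hF hX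
  have hcd := hX.cd_pos
  have hLge : i.F.agoal X ≤ L := by
    rw [hLdef]
    calc i.F.agoal X = i.F.agoal X * 1 := (mul_one _).symm
      _ ≤ _ := mul_le_mul_of_nonneg_left hZ hag.le
  have hd0 : 0 < d := by rw [hddef]; exact mul_pos hu0 (lt_of_lt_of_le hag hLge)
  have hCK0 : 0 < CK := lt_of_lt_of_le one_pos h.CK1
  have hη0 : 0 < η := lt_of_lt_of_le hu0 hu
  have hm0 : 0 < max 1 X.CU := lt_of_lt_of_le one_pos (le_max_left _ _)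
  have hbm := h.bmax0
  -- low masses
  have t1 : i.F.wc X ^ 3 ≤ 8 * max 1 X.CU * i.F.lam ^ (0.4 : ℝ) * d := by
    rw [hddef]
    exact bud_n11_pow_wc hX hx hx1 hl0 hF.lam_hi hu0 hF.u_hi hF.u_lo hLge
  have A1 : CK ^ 2 * (i.F.wc X + i.F.wc X) ^ 2 * i.F.wc X ≤ 32 * CK ^ 2 * max 1 X.CU * η * d := by
    calc CK ^ 2 * (i.F.wc X + i.F.wc X) ^ 2 * i.F.wc X = 4 * CK ^ 2 * i.F.wc X ^ 3 := by ring
      _ ≤ 4 * CK ^ 2 * (8 * max 1 X.CU * i.F.lam ^ (0.4 : ℝ) * d) := mul_le_mul_of_nonneg_left t1 (by positivity)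
      _ ≤ 4 * CK ^ 2 * (8 * max 1 X.CU * η * d) := by
          refine mul_le_mul_of_nonneg_left (mul_le_mul_of_nonneg_right (mul_le_mul_of_nonneg_left hl ?_) hd0.le) ?_ <;> positivity
      _ = _ := by ring
  -- the norm
  have hZ0 : 0 ≤ Z := zero_le_one.trans hZ
  have hB0 : 0 ≤ i.F.x ^ (2 : ℝ) * i.F.lam ^ (-X.s0) * Z := by positivity
  have s1 : Real.sqrt (bnxTr i W c0).N2 ≤ i.F.x ^ (2 : ℝ) * i.F.lam ^ (-X.s0) * Z :=
    calc Real.sqrt (bnxTr i W c0).N2 ≤ Real.sqrt ((i.F.x ^ (2 : ℝ) * i.F.lam ^ (-X.s0) * Z) ^ 2) := Real.sqrt_le_sqrt (hN2.trans h13)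
      _ = _ := Real.sqrt_sq hB0
  obtain ⟨P, hPdef⟩ : ∃ P, P = Real.sqrt i.F.u * Real.sqrt (bnxTr i W c0).N2 := ⟨_, rfl⟩
  have hP0 : 0 ≤ P := by rw [hPdef]; positivity
  have s2 : P ≤ η * d := by
    have a1 : Real.sqrt i.F.u * (i.F.x ^ 2 * i.F.lam ^ (-X.s0) * Z) ≤ i.F.u ^ (3 / 2 : ℝ) * (i.F.u * L) :=
      bud_n11_pow_norm hx hu0 hl0 (le_of_eq (by rw [hLdef]; rfl))
    have a2 : i.F.u ^ (3 / 2 : ℝ) ≤ η :=
      calc i.F.u ^ (3 / 2 : ℝ) ≤ i.F.u ^ (1 : ℝ) := Real.rpow_le_rpow_of_exponent_ge hu0 hu1 (by norm_num)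
        _ = i.F.u := Real.rpow_one _
        _ ≤ η := hu
    rw [Real.rpow_two] at s1
    calc P = Real.sqrt i.F.u * Real.sqrt (bnxTr i W c0).N2 := hPdef
      _ ≤ Real.sqrt i.F.u * (i.F.x ^ 2 * i.F.lam ^ (-X.s0) * Z) := mul_le_mul_of_nonneg_left s1 (Real.sqrt_nonneg _)
      _ ≤ i.F.u ^ (3 / 2 : ℝ) * (i.F.u * L) := a1
      _ = i.F.u ^ (3 / 2 : ℝ) * d := by rw [hddef]
      _ ≤ η * d := mul_le_mul_of_nonneg_right a2 hd0.le
  -- the defect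
  have s3 : (bnxTr i W c0).Dd ≤ ε' * d := by
    have e : (bnxTr i W c0).Dd = ∫ v in (i.F.wc X)..1, min i.F.u v * |i.F.d v| := rfl
    rw [e]
    have hint : IntervalIntegrable (fun v => min i.F.u v * |i.F.d v|) volume 0 1 :=
      hdint.abs.continuousOn_mul (by fun_prop)
    have hmono : ∫ v in (i.F.wc X)..1, min i.F.u v * |i.F.d v| ≤ ∫ v in (0 : ℝ)..1, min i.F.u v * |i.F.d v| :=
      intervalIntegral.integral_mono_interval h.wc0 h.vlow1 le_rfl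
        ((ae_restrict_iff' measurableSet_Ioc).2 (ae_of_all _ fun v hv => mul_nonneg (le_min hu0.le hv.1.le) (abs_nonneg _))) hint
    refine hmono.trans (hD.trans (mul_le_mul_of_nonneg_left ?_ hε'))
    rw [hddef]
    exact mul_le_mul_of_nonneg_left hLge hu0.le
  -- floor and cap
  have hC0 : 0 < i.F.C0 := bud_gb_C0_pos hX hF
  have hC01 : i.F.C0 ≤ 1 := by
    have b1 : i.F.u ^ 2 ≤ 1 := pow_le_one₀ hu0.le hu1
    have b2 : i.F.Lam ≤ 1 := BdFr.bds_lam_rpow_le_one hF hX (by norm_num)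
    have b3 : 0 ≤ i.F.Lam := (bud_gb_Lam_pos hF).le
    unfold BdFr.C0
    calc i.F.u ^ 2 * i.F.Lam ≤ 1 * 1 := mul_le_mul b1 b2 b3 zero_le_one
      _ = 1 := one_mul 1
  have s4 : i.F.C0 * (2 * i.F.u / i.F.Mj + 2 * i.F.u * (bnxTr i W c0).kint) ≤ (4 / X.cd + 2) * η * d := by
    have k1 : (bnxTr i W c0).kint ≤ i.F.vs X := bud_n11_kint hX hF
    have k2 := bud_n11_pow_floor hX hF hLge
    have k3 : i.F.u ^ 3 ≤ η := (pow_le_of_le_one hu0.le hu1 (by norm_num)).trans hu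
    calc i.F.C0 * (2 * i.F.u / i.F.Mj + 2 * i.F.u * (bnxTr i W c0).kint)
          = i.F.C0 * i.F.u * (2 / i.F.Mj + 2 * (bnxTr i W c0).kint) := by ring
      _ ≤ i.F.C0 * i.F.u * (2 / i.F.Mj + 2 * i.F.vs X) :=
          mul_le_mul_of_nonneg_left (by linarith) (mul_pos hC0 hu0).le
      _ ≤ (4 / X.cd + 2) * i.F.u ^ 3 * (i.F.u * L) := k2
      _ = (4 / X.cd + 2) * i.F.u ^ 3 * d := by rw [hddef]
      _ ≤ (4 / X.cd + 2) * η * d :=
          mul_le_mul_of_nonneg_right (mul_le_mul_of_nonneg_left k3 (by positivity)) hd0.le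
  have hc' : 0 ≤ Real.sqrt 2 + 4 / Real.sqrt cb' := by positivity
  have s5 : i.F.C0 * ((Real.sqrt 2 + 4 / Real.sqrt cb') * P) ≤ (Real.sqrt 2 + 4 / Real.sqrt cb') * η * d := by
    calc i.F.C0 * ((Real.sqrt 2 + 4 / Real.sqrt cb') * P) ≤ 1 * ((Real.sqrt 2 + 4 / Real.sqrt cb') * (η * d)) :=
          mul_le_mul hC01 (mul_le_mul_of_nonneg_left s2 hc') (mul_nonneg hc' hP0) zero_le_one
      _ = _ := by ring
  have s6 : bmax * (Real.sqrt (2 * i.F.u) * Real.sqrt (bnxTr i W c0).N2) ≤ bmax * Real.sqrt 2 * η * d := by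
    rw [Real.sqrt_mul (by norm_num : (0 : ℝ) ≤ 2), mul_assoc, ← hPdef]
    calc bmax * (Real.sqrt 2 * P) ≤ bmax * (Real.sqrt 2 * (η * d)) :=
          mul_le_mul_of_nonneg_left (mul_le_mul_of_nonneg_left s2 (Real.sqrt_nonneg _)) hbm
      _ = _ := by ring
  rw [← hPdef]
  have A2 : bmax * (Real.sqrt (2 * i.F.u) * Real.sqrt (bnxTr i W c0).N2) + (bnxTr i W c0).Dd
      + i.F.C0 * ((Real.sqrt 2 + 4 / Real.sqrt cb') * P + 2 * i.F.u / i.F.Mj + 2 * i.F.u * (bnxTr i W c0).kint)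
      ≤ bmax * Real.sqrt 2 * η * d + ε' * d + ((Real.sqrt 2 + 4 / Real.sqrt cb') * η * d + (4 / X.cd + 2) * η * d) := by
    have e : i.F.C0 * ((Real.sqrt 2 + 4 / Real.sqrt cb') * P + 2 * i.F.u / i.F.Mj + 2 * i.F.u * (bnxTr i W c0).kint)
        = i.F.C0 * ((Real.sqrt 2 + 4 / Real.sqrt cb') * P) + i.F.C0 * (2 * i.F.u / i.F.Mj + 2 * i.F.u * (bnxTr i W c0).kint) := by ring
    rw [e]
    exact add_le_add (add_le_add s6 s3) (add_le_add s5 s4)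
  calc _ ≤ 32 * CK ^ 2 * max 1 X.CU * η * d + 2 * CK * (bmax * Real.sqrt 2 * η * d + ε' * d
        + ((Real.sqrt 2 + 4 / Real.sqrt cb') * η * d + (4 / X.cd + 2) * η * d)) :=
        add_le_add A1 (mul_le_mul_of_nonneg_left A2 (by positivity))
    _ = _ := by ring

/-- **C5 the transport estimate for every optimiser** (l.1367-1398).
Proof: `bud_n11_transport` for `bnxTr` (C3).  With `L = a_goal Z ≥ a_goal`, `d = u L`:  `CK² (2 w_c)² w_c ≤ 32 CK² max(1,CU) λ^{0.4} d` (`bud_n11_pow_wc`);  `√N2 ≤ x² λ^{-s₀} Z` (C4, `BudC13`), `√u √N2 ≤ u^{3/2} d` (`bud_n11_pow_norm`);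
`Dd ≤ ∫_0^1 ≤ ε d` (C2, `Z ≥ 1`);  `C0 (2u/M + 2u ∫k) ≤ (4/c_d + 2) u³ d` (`bud_n11_kint`, `bud_n11_pow_floor`), `C0 ≤ 1`;  `u, λ → 0`. -/
theorem bnx_trI (hS : BdStd X W Fam K) (hP : BdP11 X W Fam c) (h7a : BnxC7a X W Fam) (h7 : BudC7al X W Fam) :
    ∃ Q0 : ℝ, 0 < Q0 ∧ c.CK ≤ Q0 ∧ BnxClkBd X W Fam Q0 ∧
      ∀ n, 1 ≤ n → n ≤ X.J + 1 → BnxZ1 X W Fam n → BudC13 X W Fam n → BnxTrI X W Fam n Q0 := by
  obtain ⟨CK, hCK1, hcCK, N1, hK⟩ := bnx_Ks_le hS hP h7a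
  have hX := hS.fix
  obtain ⟨N2, hsc⟩ := ff_sc_ev X hX ((|(1 : ℝ)| + 1) / 1)
  have hwc1 : ∀ F : BdFr, F.Ok X → N2 ≤ F.N → F.wc X ≤ 1 := fun F hF hN => by
    have := ff_sc_wc (K := 1) (c := 1) one_pos (hsc F hF hN)
    have hu1 := BdFr.bds_u_le_one hF hX
    linarith
  refine ⟨2 * CK, by linarith, by linarith, ⟨max N1 N2, fun i hi hN v hv => ?_⟩, fun n hn1 hn hZ h13 ε hε => ?_⟩
  · have h1 := hK i hi (le_trans (le_max_left _ _) hN) v hv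
    have h2 := hwc1 i.F (hS.ok _ hi.1) (le_trans (le_max_right _ _) hN)
    have h3 : CK * (v + i.F.wc X) ≤ CK * 2 := mul_le_mul_of_nonneg_left (by linarith [hv.2]) (by linarith)
    exact ⟨by linarith [h1.2], by linarith [h1.1]⟩
  · obtain ⟨N3, hok⟩ := bnx_tr_ok hS hP h7 hCK1 ⟨N1, hK⟩ hn1 hn
    obtain ⟨N4, hZ⟩ := hZ
    obtain ⟨N5, h13⟩ := bd_ev_iff.1 h13
    have hCK0 : 0 < CK := lt_of_lt_of_le one_pos hCK1
    obtain ⟨A, hA⟩ : ∃ A, A = 32 * CK ^ 2 * max 1 X.CU + 2 * CK * (c.bmax * Real.sqrt 2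
      + (Real.sqrt 2 + 4 / Real.sqrt (K.cb * X.plo n / 2)) + (4 / X.cd + 2)) := ⟨_, rfl⟩
    have hA0 : 0 ≤ A := by
      have := hP.bmax0
      have := hX.cd_pos
      have : 0 < max 1 X.CU := lt_of_lt_of_le one_pos (le_max_left _ _)
      rw [hA]
      positivity
    obtain ⟨N6, hD⟩ := bnx_Dd hS hP (ε / (4 * CK)) (by positivity)
    obtain ⟨N7, hu⟩ := BudB.ev_u hX (ε := ε / (2 * (A + 1))) (by positivity)
    obtain ⟨N8, hl⟩ := BudB.ev_lam hX (e := 0.4) (ε := ε / (2 * (A + 1))) (by norm_num) (by positivity)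
    refine ⟨max N3 (max N4 (max N5 (max N6 (max N7 N8)))), fun i hi hN => ?_⟩
    have hN3 : N3 ≤ i.F.N := le_trans (le_max_left _ _) hN
    have hN' := le_trans (le_max_right _ _) hN
    have hN4 : N4 ≤ i.F.N := le_trans (le_max_left _ _) hN'
    have hN'' := le_trans (le_max_right _ _) hN'
    have hN5 : N5 ≤ i.F.N := le_trans (le_max_left _ _) hN''
    have hN''' := le_trans (le_max_right _ _) hN''
    have hN6 : N6 ≤ i.F.N := le_trans (le_max_left _ _) hN'''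
    have hN'''' := le_trans (le_max_right _ _) hN'''
    have hN7 : N7 ≤ i.F.N := le_trans (le_max_left _ _) hN''''
    have hN8 : N8 ≤ i.F.N := le_trans (le_max_right _ _) hN''''
    have hFam : Fam i.F := hi.1.1
    have hF := hS.ok _ hFam
    obtain ⟨-, -, hg1, hg2⟩ := BudB.fix_nest hX n hn
    have hiOk : i.Ok W Fam := ⟨hFam, ⟨hg1.trans hi.2.1.1, hi.2.1.2.trans hg2⟩, hi.2.2.2⟩
    obtain ⟨c0, hc0⟩ := hok i hi hN3
    have key := bnx_trI_at hX hF hc0 (bnx_N2_le hS hiOk c0) (h13 i hi hN5).1 (hZ i.F hi.1 hN4 i.g hi.2.1) (hS.d_int _ hFam)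
      (hD i.F hFam hN6) (by positivity) (hu i.F hF hN7) (hl i.F hF hN8)
    refine key.trans (mul_le_mul_of_nonneg_right ?_ ?_)
    · rw [← hA]
      have e1 : A * (ε / (2 * (A + 1))) ≤ ε / 2 := by
        rw [mul_div_assoc', div_le_div_iff₀ (by positivity) (by norm_num)]
        nlinarith
      have e2 : 2 * CK * (ε / (4 * CK)) = ε / 2 := by field_simp; ring
      linarith
    · have h1 := BdFr.bds_u_pos hF hX
      have h2 := BdFr.bds_agoal_pos hF hX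
      have h3 := hZ i.F hi.1 hN4 i.g hi.2.1
      have : 0 ≤ i.F.Zj X W i.g := zero_le_one.trans h3
      positivity

/-- **C6 = `BudB.transport`** -/
theorem bnx_transport (hS : BdStd X W Fam K) {n : ℕ} (hn1 : 1 ≤ n) (hn : n ≤ X.J + 1) (hZ : BnxZ1 X W Fam n)
    (hL : BnxLSmall X W Fam n) {Q0 : ℝ} (hT : BnxTrI X W Fam n Q0) : BnxTransport X W Fam n Q0 := by
  intro ε hε
  obtain ⟨N1, h1⟩ := hT ε hε
  obtain ⟨N2, h2⟩ := bnx_viol hS hn1 hn hZ hL 1 one_pos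
  refine ⟨max N1 N2, fun i hi hN => ?_⟩
  have hv := h2 i hi (le_trans (le_max_right _ _) hN)
  have h := h1 ⟨i.F, i.V.g, i.V.Q⟩ hv.ost (le_trans (le_max_left _ _) hN)
  refine le_trans h ?_
  have hu : 0 < i.F.u := BdFr.bds_u_pos hv.fok hS.fix
  exact mul_le_mul_of_nonneg_left (mul_le_mul_of_nonneg_left hv.L_ge hu.le) hε.le

/-! ## D. `r~`, `α~`, `k_*` in the buffer -/

/-- D1 `k_* = Γ_*⁻¹` on `(0, c_I u)`.   Proof: `cv F.K` of `hSc` (`BudClk`: `hP.K_clk`, `K ≤ CK v ≤ Q0`), A1 with `c = 1/Cc` (A2, `G_zero`, `G_cont`), `c_I u < Q0/Cc` for large sizes; bounds from A2 between `0` and `k_* r`. -/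
theorem bnx_kst (hS : BdStd X W Fam K) (hP : BdP11 X W Fam c) {Q0 Cc : ℝ} (hQ0 : 0 < Q0) (hCK : c.CK ≤ Q0) (hCc : 0 < Cc)
    (hSc : BudScReq W.Gam Q0 Cc) : ∃ N0 : ℕ, ∀ F, Fam F → N0 ≤ F.N → ∀ r ∈ Ioo (0 : ℝ) (X.cI * F.u),
      F.kst W r ∈ Ioo 0 Q0 ∧ W.Gam F.K (F.kst W r) = r ∧ r / Cc ≤ F.kst W r ∧ F.kst W r ≤ Cc * r ∧
        ∀ t ∈ Icc 0 Q0, W.Gam F.K t = r → F.kst W r = t := by
  have hX := hS.fix
  obtain ⟨cv, h1, -⟩ := hSc
  have hcI := hX.cI_pos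
  obtain ⟨N0, hN0⟩ := bdg_lam_small hX hX.bl_pos (show 0 < Q0 / Cc / X.cI by positivity)
  refine ⟨N0, fun F hF hN r hr => ?_⟩
  have hFo := hS.ok F hF
  have hu : F.u ≤ Q0 / Cc / X.cI := hFo.u_hi.trans (hN0 F hFo hN)
  have hCK1 := hP.CK1
  have hclk : BudClk Q0 F.K := by
    refine ⟨(hP.K_clk F hF).mono, fun v hv => ⟨(hP.K_clk F hF).nonneg v hv, ?_⟩⟩
    have h2 := hP.K_le F hF v hv
    have h3 : c.CK * v ≤ c.CK * 1 := mul_le_mul_of_nonneg_left hv.2.le (by linarith)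
    linarith
  obtain ⟨hok, hG, -⟩ := h1 F.K hclk
  have hQ : (0 : ℝ) ∈ Icc 0 Q0 := ⟨le_rfl, hQ0.le⟩
  have hφ0 : W.Gam F.K 0 = 0 := by rw [← hG 0 hQ]; exact hok.G_zero
  have hr' : r ∈ Ioo 0 (1 / Cc * Q0) := by
    refine ⟨hr.1, hr.2.trans_le ?_⟩
    rw [le_div_iff₀ hcI] at hu
    calc X.cI * F.u = F.u * X.cI := mul_comm _ _
      _ ≤ Q0 / Cc := hu
      _ = 1 / Cc * Q0 := by ring
  obtain ⟨a1, a2, a3⟩ := bnx_inv (φ := W.Gam F.K) (τ := Q0) (c := 1 / Cc) (by positivity) hφ0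
    (hok.G_cont.congr fun t ht => (hG t ht).symm)
    (fun s hs t ht hst => by rw [← hG s hs, ← hG t ht]; exact (bnx_cv_incr hok hs ht hst).1) hr'
  have hk : F.kst W r = bdInv (W.Gam F.K) r := rfl
  rw [hk]
  have hb := bnx_cv_incr hok hQ (Ioo_subset_Icc_self a1) a1.1.le
  rw [hG _ (Ioo_subset_Icc_self a1), hG 0 hQ, a2, hφ0, sub_zero, sub_zero] at hb
  refine ⟨a1, a2, ?_, ?_, a3⟩
  · rw [div_le_iff₀ hCc]
    linarith [hb.2]
  · have h4 := hb.1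
    rw [one_div, inv_mul_le_iff₀ hCc] at h4
    exact h4

/-- the arithmetic of D2 -/
theorem bnx_rt_arith {G S q r b Γ1 Cf dd Ks Kk c2 d0 ε T bmax Cg cb Cc : ℝ}
    (hmain : |G - S + (1 - b * Γ1) * (S - q) + Γ1 * Cf * (S - r) - Γ1 * dd| ≤ c2 * (Ks - Kk) ^ 2)
    (hKs : Ks - Kk = dd + b * (S - q) - Cf * (S - r))
    (hSr : |S - r| ≤ Cg * d0) (hqr : |q - r| ≤ 2 / cb * d0)
    (hΓ : |Γ1 - 1 / T| ≤ ε) (hΓ0 : 0 ≤ Γ1) (hΓ1 : Γ1 ≤ Cc) (hT : 0 < T)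
    (hb : |b - T| ≤ 2 * ε) (hb0 : 0 ≤ b) (hb1 : b ≤ bmax)
    (hC0 : 0 ≤ Cf) (hC1 : Cf ≤ ε) (hd : |dd| ≤ ε * d0) (hd0 : 0 ≤ d0) (hd1 : d0 ≤ ε) (hε1 : ε ≤ 1) (hc2 : 0 ≤ c2)
    (hCg : 0 ≤ Cg) (hcb : 0 < cb) :
    |G - S| ≤ ε * ((T + 2 * Cc) * (Cg + 2 / cb) + Cc * Cg + Cc + c2 * (1 + bmax * (Cg + 2 / cb) + Cg) ^ 2) * d0 := by
  have hε0 : 0 ≤ ε := hd0.trans hd1
  obtain ⟨a, ha⟩ : ∃ a, a = Cg + 2 / cb := ⟨_, rfl⟩
  rw [← ha]
  have ha0 : 0 ≤ a := by rw [ha]; positivity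
  have hSq : |S - q| ≤ a * d0 := by
    have : S - q = (S - r) - (q - r) := by ring
    rw [this]
    calc |(S - r) - (q - r)| ≤ |S - r| + |q - r| := abs_sub _ _
      _ ≤ Cg * d0 + 2 / cb * d0 := add_le_add hSr hqr
      _ = a * d0 := by rw [ha]; ring
  have hCc0 : 0 ≤ Cc := hΓ0.trans hΓ1
  have h1b : |1 - b * Γ1| ≤ ε * (T + 2 * Cc) := by
    have : 1 - b * Γ1 = -(T * (Γ1 - 1 / T)) - (b - T) * Γ1 := by field_simp; ring
    rw [this]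
    calc |-(T * (Γ1 - 1 / T)) - (b - T) * Γ1| ≤ |-(T * (Γ1 - 1 / T))| + |(b - T) * Γ1| := abs_sub _ _
      _ = T * |Γ1 - 1 / T| + |b - T| * Γ1 := by rw [abs_neg, abs_mul, abs_mul, abs_of_pos hT, abs_of_nonneg hΓ0]
      _ ≤ T * ε + 2 * ε * Cc := add_le_add (mul_le_mul_of_nonneg_left hΓ hT.le) (mul_le_mul hb hΓ1 hΓ0 (by positivity))
      _ = _ := by ring
  obtain ⟨k, hk⟩ : ∃ k, k = 1 + bmax * a + Cg := ⟨_, rfl⟩
  rw [← hk]
  have hbm0 : 0 ≤ bmax := hb0.trans hb1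
  have hk0 : 0 ≤ k := by rw [hk]; positivity
  have hKK : |Ks - Kk| ≤ k * d0 := by
    rw [hKs]
    calc |dd + b * (S - q) - Cf * (S - r)| ≤ |dd| + |b * (S - q)| + |Cf * (S - r)| :=
          (abs_sub _ _).trans (add_le_add (abs_add_le _ _) le_rfl)
      _ = |dd| + b * |S - q| + Cf * |S - r| := by rw [abs_mul, abs_mul, abs_of_nonneg hb0, abs_of_nonneg hC0]
      _ ≤ 1 * d0 + bmax * (a * d0) + 1 * (Cg * d0) :=
          add_le_add (add_le_add (hd.trans (mul_le_mul_of_nonneg_right hε1 hd0)) (mul_le_mul hb1 hSq (abs_nonneg _) hbm0))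
            (mul_le_mul (hC1.trans hε1) hSr (abs_nonneg _) zero_le_one)
      _ = k * d0 := by rw [hk]; ring
  have hsq : (Ks - Kk) ^ 2 ≤ k ^ 2 * (ε * d0) := by
    calc (Ks - Kk) ^ 2 = |Ks - Kk| ^ 2 := (sq_abs _).symm
      _ ≤ (k * d0) ^ 2 := pow_le_pow_left₀ (abs_nonneg _) hKK 2
      _ = k ^ 2 * (d0 * d0) := by ring
      _ ≤ k ^ 2 * (ε * d0) := mul_le_mul_of_nonneg_left (mul_le_mul_of_nonneg_right hd1 hd0) (by positivity)
  obtain ⟨E, hE⟩ : ∃ E, E = G - S + (1 - b * Γ1) * (S - q) + Γ1 * Cf * (S - r) - Γ1 * dd := ⟨_, rfl⟩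
  rw [← hE] at hmain
  have e : G - S = E - (1 - b * Γ1) * (S - q) - Γ1 * Cf * (S - r) + Γ1 * dd := by rw [hE]; ring
  rw [e]
  have b1 : |(1 - b * Γ1) * (S - q)| ≤ ε * (T + 2 * Cc) * (a * d0) := by
    rw [abs_mul]
    exact mul_le_mul h1b hSq (abs_nonneg _) (by positivity)
  have b2 : |Γ1 * Cf * (S - r)| ≤ Cc * ε * (Cg * d0) := by
    rw [abs_mul, abs_mul, abs_of_nonneg hΓ0, abs_of_nonneg hC0]
    exact mul_le_mul (mul_le_mul hΓ1 hC1 hC0 hCc0) hSr (abs_nonneg _) (by positivity)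
  have b3 : |Γ1 * dd| ≤ Cc * (ε * d0) := by
    rw [abs_mul, abs_of_nonneg hΓ0]
    exact mul_le_mul hΓ1 hd (abs_nonneg _) hCc0
  have b4 : |E| ≤ c2 * (k ^ 2 * (ε * d0)) := hmain.trans (mul_le_mul_of_nonneg_left hsq hc2)
  calc |E - (1 - b * Γ1) * (S - q) - Γ1 * Cf * (S - r) + Γ1 * dd|
        ≤ |E| + |(1 - b * Γ1) * (S - q)| + |Γ1 * Cf * (S - r)| + |Γ1 * dd| :=
          (abs_add_le _ _).trans (add_le_add ((abs_sub _ _).trans (add_le_add (abs_sub _ _) le_rfl)) le_rfl)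
    _ ≤ c2 * (k ^ 2 * (ε * d0)) + ε * (T + 2 * Cc) * (a * d0) + Cc * ε * (Cg * d0) + Cc * (ε * d0) :=
          add_le_add (add_le_add (add_le_add b4 b1) b2) b3
    _ = _ := by ring


/-- D2 (l.1364, l.2053) `r~(α(r)) - S = o(d₀)` in the buffer.
Proof: `bud_n11_rtil` with `Γ = W.Gam F.K`, `Γ1 = Γ_*'(K_*(v))`, `v = α(r)`, `q = Γ(K_* v)` (`q_tie`), B5, `C(r) = C0` (`Cconst`), Taylor A4 (`K_* v, K_s v ∈ [0,Q0]`):
`|Γ(K_s) - S| ≤ |1 - b Γ1| |S - q| + Γ1 C0 |S - r| + Γ1 |d| + c2 (K_s - K_*)²`;  `|S - r| ≤ C0' d₀` (`hG`), `|S - q| ≤ (C0' + 2/cb) d₀` (B7, `V.Ok.buf`);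
`|1 - b Γ1| ≤ |1 - T Γ1| + |b - T| Γ1 → 0` (`hP.gam1` at `t = K_* v ≤ CK C1 u`, positive as `q v > 0`; `Bd7P9`);  `C0 = u² Λ → 0`;  `|d| ≤ λ^c u³ P₁ ≤ λ^c d₀` (`hSeed`);  `|K_s - K_*| ≤ C d₀`, `d₀ ≤ u → 0`. -/
theorem bnx_rt_near (hS : BdStd X W Fam K) (hP : BdP11 X W Fam c) (h9 : Bd7P9 X Fam) {Q0 Cc : ℝ} (hQ0 : 0 < Q0)
    (hQ : BnxClkBd X W Fam Q0) (hCc : 0 < Cc) (hSc : BudScReq W.Gam Q0 Cc) {n : ℕ} (hn1 : 1 ≤ n) (hn : n ≤ X.J + 1)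
    (hZ : BnxZ1 X W Fam n) (hL : BnxLSmall X W Fam n) (hSeed : BnxSeed X W Fam n) {C0 s0 : ℝ} (hs0 : 0 < s0) (hs01 : s0 ≤ 1)
    (hG : BnxSNear X W Fam n C0 s0) : ∀ δ : ℝ, 0 < δ → ∃ N0 : ℕ, ∀ i : BdVI X W, i.Ok Fam n 2 → N0 ≤ i.F.N →
      ∀ r ∈ i.V.Buf s0, |i.V.rtil (i.V.Q.al r) - i.V.Q.Sq W i.V.g (i.V.Q.al r)| ≤ δ * i.V.d0 := by
  intro δ hδ
  have hX := hS.fix
  obtain ⟨hplo, -, -, -, hphi⟩ := hX.pat n hn
  have hcb := hS.cb_pos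
  have hT : 0 < X.T := lt_trans one_pos hX.T1
  have hcI := hX.cI_pos
  have hCK1 := hP.CK1
  have hbm := hP.bmax0
  obtain ⟨M, hM⟩ : ∃ M, M = (X.T + 2 * Cc) * (|C0| + 2 / K.cb) + Cc * |C0| + Cc
      + Cc * (Q0 + 2) * (1 + c.bmax * (|C0| + 2 / K.cb) + |C0|) ^ 2 := ⟨_, rfl⟩
  have hM0 : 0 < M := by rw [hM]; positivity
  obtain ⟨C1, hC1⟩ : ∃ C1, C1 = c.CK * (K.Cb * X.phi n + 1) := ⟨_, rfl⟩
  obtain ⟨ε, hεdef⟩ : ∃ ε, ε = min (δ / M) 1 := ⟨_, rfl⟩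
  have hε : 0 < ε := by rw [hεdef]; exact lt_min (by positivity) one_pos
  have hε1 : ε ≤ 1 := by rw [hεdef]; exact min_le_right _ _
  have hεM : ε * M ≤ δ := by
    have : ε ≤ δ / M := by rw [hεdef]; exact min_le_left _ _
    rwa [le_div_iff₀ hM0] at this
  -- the threshold of B9
  obtain ⟨ε0, hε0def⟩ : ∃ ε0, ε0 = min ε (min (1 / (2 * (|K.Cb * X.phi n + 1| + 1))) (min (Q0 / (2 * (|C1| + 1)))
      (min (1 / (2 * (|K.Cb * X.cI| + 1))) (min (1 / X.cI) (min (K.cb * (X.cI - X.phi n) / 4) (K.cb * X.plo n / 4)))))) := ⟨_, rfl⟩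
  have hε0 : 0 < ε0 := by
    rw [hε0def]
    have : 0 < X.cI - X.phi n := by linarith
    refine lt_min hε (lt_min (by positivity) (lt_min (by positivity) (lt_min (by positivity) (lt_min (by positivity)
      (lt_min (by positivity) (by positivity))))))
  have m1 : ε0 ≤ ε := by rw [hε0def]; exact min_le_left _ _
  have m2 : ε0 ≤ 1 / (2 * (|K.Cb * X.phi n + 1| + 1)) := by rw [hε0def]; exact (min_le_right _ _).trans (min_le_left _ _)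
  have m3 : ε0 ≤ Q0 / (2 * (|C1| + 1)) := by
    rw [hε0def]; exact (min_le_right _ _).trans ((min_le_right _ _).trans (min_le_left _ _))
  have m4 : ε0 ≤ 1 / (2 * (|K.Cb * X.cI| + 1)) := by
    rw [hε0def]; exact (min_le_right _ _).trans ((min_le_right _ _).trans ((min_le_right _ _).trans (min_le_left _ _)))
  have m5 : ε0 ≤ 1 / X.cI := by
    rw [hε0def]
    exact (min_le_right _ _).trans ((min_le_right _ _).trans ((min_le_right _ _).trans ((min_le_right _ _).trans (min_le_left _ _))))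
  have m6 : ε0 ≤ K.cb * (X.cI - X.phi n) / 4 := by
    rw [hε0def]
    exact (min_le_right _ _).trans ((min_le_right _ _).trans ((min_le_right _ _).trans ((min_le_right _ _).trans
      ((min_le_right _ _).trans (min_le_left _ _)))))
  have m7 : ε0 ≤ K.cb * X.plo n / 4 := by
    rw [hε0def]
    exact (min_le_right _ _).trans ((min_le_right _ _).trans ((min_le_right _ _).trans ((min_le_right _ _).trans
      ((min_le_right _ _).trans (min_le_right _ _)))))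
  obtain ⟨N1, hviol⟩ := bnx_viol hS hn1 hn hZ hL ε0 hε0
  obtain ⟨N2, hQ⟩ := hQ
  obtain ⟨N3, hG⟩ := hG
  obtain ⟨cs, hcs, N4, hSeed⟩ := hSeed
  obtain ⟨N5, hlam⟩ := BudB.ev_lam hX hcs hε
  obtain ⟨N6, hXr⟩ := BudB.ev_Xr hX (ε := K.cb * X.plo n / 2) (by positivity)
  obtain ⟨N7, hgam⟩ := hP.gam1 C1 ε hε
  obtain ⟨N8, h9⟩ := h9 1 ε one_pos hε
  obtain ⟨cv, hcv, -⟩ := hSc
  refine ⟨N1 + N2 + N3 + N4 + N5 + N6 + N7 + N8, fun i hi hN r hr => ?_⟩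
  have v := hviol i hi (by omega)
  have hF := v.fok
  have hFam : Fam i.F := v.iok.1
  have hg0 : i.V.g ∈ Icc (X.glo 0) (X.ghi 0) := v.iok.2.1
  have hQ := hQ ⟨i.F, i.V.g, i.V.Q⟩ v.iok (show N2 ≤ i.F.N by omega)
  have hG := hG i hi (by omega) r hr
  have hu := BdFr.bds_u_pos hF hX
  have hu1 := BdFr.bds_u_le_one hF hX
  have hl0 := BdFr.bds_lam_pos hF
  have hx0 := BdFr.bds_x_pos hF
  have hd0 : 0 < i.V.d0 := mul_pos hu v.L_pos
  have hb0 : 0 ≤ i.V.bbuf := by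
    unfold BdViol.bbuf
    have := Real.sqrt_nonneg i.V.L
    have := Real.rpow_nonneg hl0.le X.rho
    positivity
  have hr1 : r ∈ i.V.Buf 1 := by
    have : s0 * i.V.bbuf ≤ 1 * i.V.bbuf := mul_le_mul_of_nonneg_right hs01 hb0
    exact ⟨by linarith [hr.1], by linarith [hr.2]⟩
  have hL1 : i.V.L ≤ 1 := hi.2.2.2.2
  have hd0u : i.V.d0 ≤ i.F.u := by
    unfold BdViol.d0
    calc i.F.u * i.V.L ≤ i.F.u * 1 := mul_le_mul_of_nonneg_left hL1 hu.le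
      _ = i.F.u := mul_one _
  have hd0ε : i.V.d0 ≤ ε := hd0u.trans (v.u_le.trans m1)
  obtain ⟨vv, hvv⟩ : ∃ vv, vv = i.V.Q.al r := ⟨_, rfl⟩
  have hal := v.al_mem r hr1
  have hrI := v.buf_sub hr1
  rw [← hvv] at hal hG ⊢
  have hr0 : 0 < r := lt_of_lt_of_le (mul_pos hplo hu) hrI.1
  have hrcI : r < X.cI * i.F.u := lt_of_le_of_lt hrI.2 (mul_lt_mul_of_pos_right hphi hu)
  have hcIu : X.cI * i.F.u ≤ 1 := by
    calc X.cI * i.F.u ≤ X.cI * (1 / X.cI) := mul_le_mul_of_nonneg_left (v.u_le.trans m5) hcI.le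
      _ = 1 := by field_simp
  have hr01 : r ∈ Icc (0 : ℝ) 1 := ⟨hr0.le, hrcI.le.trans hcIu⟩
  have hvv0 : 0 < vv := lt_of_lt_of_le (by positivity) hal.1
  have hvv1 : vv < 1 := by
    have h2 : 0 < |K.Cb * X.phi n + 1| + 1 := by positivity
    calc vv ≤ (K.Cb * X.phi n + 1) * i.F.u := hal.2
      _ ≤ |K.Cb * X.phi n + 1| * i.F.u := mul_le_mul_of_nonneg_right (le_abs_self _) hu.le
      _ ≤ (|K.Cb * X.phi n + 1| + 1) * (1 / (2 * (|K.Cb * X.phi n + 1| + 1))) :=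
          mul_le_mul (by linarith) (v.u_le.trans m2) hu.le h2.le
      _ = 1 / 2 := by field_simp
      _ < 1 := by norm_num
  have hvI : vv ∈ Ioo (0 : ℝ) 1 := ⟨hvv0, hvv1⟩
  -- the mask
  have hxv : i.F.x ≤ vv := by
    have h1 := hXr i.F hF (by omega)
    have h2 : i.F.x = i.F.Xr * i.F.u := by unfold BdFr.Xr; field_simp
    calc i.F.x = i.F.Xr * i.F.u := h2
      _ ≤ K.cb * X.plo n / 2 * i.F.u := mul_le_mul_of_nonneg_right h1 hu.le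
      _ ≤ vv := hal.1
  have hxm : i.F.xm ≤ vv := by
    refine le_trans ?_ hxv
    unfold BdFr.xm
    exact div_le_self hx0.le hF.ell1
  -- B5
  have hdiff := bnx_diff (W := W) hP hFam hg0 i.V.Q (v := vv) ⟨hxm, hvv1⟩
  have hrv : i.V.Q.r vv = r := by rw [hvv]; exact i.V.Q.r_al r hr01
  rw [hrv, hS.Cconst i.F hFam r ⟨hr0.le, hrcI.le⟩] at hdiff
  -- the curve
  have hKclk := hP.K_clk i.F hFam
  have hclk : BudClk Q0 i.F.K := ⟨hKclk.mono, fun w hw => ⟨hKclk.nonneg w hw, (hQ w hw).1⟩⟩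
  obtain ⟨hok, hGeq, -⟩ := hcv i.F.K hclk
  have hKmem : i.F.K vv ∈ Icc 0 Q0 := hclk.2 vv hvI
  have hKsmem : i.V.Q.Ks W i.V.g vv ∈ Icc 0 Q0 := ⟨(bnx_Ks_clock hS hFam hg0 i.V.Q).nonneg vv hvI, (hQ vv hvI).2⟩
  have htay := bnx_cv_taylor hok hKmem hKsmem
  rw [hGeq _ hKmem, hGeq _ hKsmem] at htay
  have hq : i.F.q vv = W.Gam i.F.K (i.F.K vv) := hP.q_tie i.F hFam vv hvI
  have hmain := bud_n11_rtil (Γ := W.Gam i.F.K) hq hdiff htay
  -- `q` near `r`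
  have hCbu : K.Cb * (X.cI * i.F.u) < 1 := by
    have h2 : 0 < |K.Cb * X.cI| + 1 := by positivity
    calc K.Cb * (X.cI * i.F.u) = (K.Cb * X.cI) * i.F.u := by ring
      _ ≤ |K.Cb * X.cI| * i.F.u := mul_le_mul_of_nonneg_right (le_abs_self _) hu.le
      _ ≤ (|K.Cb * X.cI| + 1) * (1 / (2 * (|K.Cb * X.cI| + 1))) := mul_le_mul (by linarith) (v.u_le.trans m4) hu.le h2.le
      _ = 1 / 2 := by field_simp
      _ < 1 := by norm_num
  have hab : |vv - i.F.beta0 r| ≤ 2 * i.V.d0 := by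
    rw [hvv]; exact BudB.vst_buf_al hS hi hs01 hr
  have hd0L : i.V.d0 = i.F.u * i.V.L := rfl
  have hr' : r + 2 * i.V.d0 / K.cb < X.cI * i.F.u := by
    have h1 : 2 * i.V.d0 / K.cb ≤ (X.cI - X.phi n) / 2 * i.F.u := by
      rw [div_le_iff₀ hcb, hd0L]
      have := mul_le_mul_of_nonneg_left (v.L_le.trans m6) hu.le
      calc 2 * (i.F.u * i.V.L) ≤ 2 * (i.F.u * (K.cb * (X.cI - X.phi n) / 4)) := by linarith
        _ = (X.cI - X.phi n) / 2 * i.F.u * K.cb := by ring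
    have h2 : 0 < (X.cI - X.phi n) / 2 * i.F.u := by
      have : 0 < X.cI - X.phi n := by linarith
      positivity
    have := hrI.2
    linarith
  have hrr' : r ≤ r + 2 * i.V.d0 / K.cb := by
    have : 0 ≤ 2 * i.V.d0 / K.cb := by positivity
    linarith
  have hvr : vv ≤ i.F.beta0 (r + 2 * i.V.d0 / K.cb) := by
    have h1 := (hS.beta i.F hFam r (r + 2 * i.V.d0 / K.cb) hr0.le hrr' hr'.le).1
    have h2 : K.cb * (r + 2 * i.V.d0 / K.cb - r) = 2 * i.V.d0 := by field_simp; ring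
    rw [h2] at h1
    have := (abs_le.1 hab).2
    linarith
  have hqr : |i.F.q vv - r| ≤ 2 / K.cb * i.V.d0 := by
    refine (bnx_q_near hS hFam hCbu hr0.le hrr' hr' ⟨hvv0.le, hvv1.le⟩ hvr).trans ?_
    rw [div_le_iff₀ hcb]
    calc |vv - i.F.beta0 r| ≤ 2 * i.V.d0 := hab
      _ = 2 / K.cb * i.V.d0 * K.cb := by field_simp
  -- the time `K_* v`
  have hKpos : 0 < i.F.K vv := by
    rcases hKmem.1.eq_or_lt with h | h
    · exfalso
      rw [← h, ← hGeq 0 ⟨le_rfl, hQ0.le⟩, hok.G_zero] at hq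
      rw [hq, zero_sub, abs_neg, abs_of_pos hr0] at hqr
      have h1 : 2 / K.cb * i.V.d0 ≤ X.plo n / 2 * i.F.u := by
        rw [div_mul_eq_mul_div, div_le_iff₀ hcb, hd0L]
        have := mul_le_mul_of_nonneg_left (v.L_le.trans m7) hu.le
        calc 2 * (i.F.u * i.V.L) ≤ 2 * (i.F.u * (K.cb * X.plo n / 4)) := by linarith
          _ = X.plo n / 2 * i.F.u * K.cb := by ring
      have h2 : 0 < X.plo n / 2 * i.F.u := by positivity
      have := hrI.1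
      linarith
    · exact h
  have hKle : i.F.K vv ≤ C1 * i.F.u := by
    calc i.F.K vv ≤ c.CK * vv := hP.K_le i.F hFam vv hvI
      _ ≤ c.CK * ((K.Cb * X.phi n + 1) * i.F.u) := mul_le_mul_of_nonneg_left hal.2 (by linarith)
      _ = C1 * i.F.u := by rw [hC1]; ring
  have hKlt : i.F.K vv < Q0 := by
    have h2 : 0 < |C1| + 1 := by positivity
    calc i.F.K vv ≤ C1 * i.F.u := hKle
      _ ≤ |C1| * i.F.u := mul_le_mul_of_nonneg_right (le_abs_self _) hu.le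
      _ ≤ (|C1| + 1) * (Q0 / (2 * (|C1| + 1))) := mul_le_mul (by linarith) (v.u_le.trans m3) hu.le h2.le
      _ = Q0 / 2 := by field_simp
      _ < Q0 := by linarith
  have hder : deriv (W.Gam i.F.K) (i.F.K vv) = (cv i.F.K).G1 (i.F.K vv) := (bnx_cv_deriv hok hGeq ⟨hKpos, hKlt⟩).deriv
  have hΓ := hgam i.F hFam (by omega) (i.F.K vv) ⟨hKpos, hKle⟩
  rw [hder] at hΓ
  -- the matrix clock
  obtain ⟨hTm, h9b⟩ := h9 i.F hFam hF (by omega)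
  have hbT : |i.F.b i.V.g vv - X.T| ≤ 2 * ε := by
    have h1 := (h9b i.V.g hg0 vv ⟨by rw [one_mul]; exact hxv, hvv1⟩).1
    have h2 : ε * vv ^ 2 ≤ ε * 1 := mul_le_mul_of_nonneg_left (pow_le_one₀ hvv0.le hvv1.le) hε.le
    have : i.F.b i.V.g vv - X.T = (i.F.b i.V.g vv - i.F.Tm) + (i.F.Tm - X.T) := by ring
    rw [this]
    refine (abs_add_le _ _).trans ?_
    linarith
  have hbn : 0 ≤ i.F.b i.V.g vv := (hS.clk0 i.F hFam i.V.g hg0).1.nonneg vv hvI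
  have hbm' : i.F.b i.V.g vv ≤ c.bmax := hP.b_le i.F hFam i.V.g hg0 vv hvI
  -- removal
  have hLam1 : i.F.Lam ≤ 1 := BdFr.bds_lam_rpow_le_one hF hX (by norm_num)
  have hLam0 : 0 < i.F.Lam := bud_gb_Lam_pos hF
  have hC0n : 0 ≤ i.F.C0 := (bud_gb_C0_pos hX hF).le
  have hC0ε : i.F.C0 ≤ ε := by
    unfold BdFr.C0
    calc i.F.u ^ 2 * i.F.Lam ≤ i.F.u * 1 := by
          refine mul_le_mul ?_ hLam1 hLam0.le hu.le
          calc i.F.u ^ 2 = i.F.u * i.F.u := sq _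
            _ ≤ i.F.u * 1 := mul_le_mul_of_nonneg_left hu1 hu.le
            _ = i.F.u := mul_one _
      _ = i.F.u := mul_one _
      _ ≤ ε := v.u_le.trans m1
  -- seed
  have hdd : |i.F.d vv| ≤ ε * i.V.d0 := by
    have h1 := hSeed i hi (by omega) r hr1
    rw [← hvv] at h1
    have hG1a : i.V.G1 ≤ 1 := (min_le_right _ _).trans hLam1
    have hG1b : 0 ≤ i.V.G1 := le_min (le_max_of_le_right hl0.le) hLam0.le
    have h2 : i.F.u ^ 3 * i.V.P1 ≤ i.V.d0 := by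
      unfold BdViol.P1
      rw [hd0L]
      have a1 : i.F.u ^ 3 ≤ i.F.u := pow_le_of_le_one hu.le hu1 (by norm_num)
      have a2 : i.V.L * i.V.G1 ≤ i.V.L * 1 := mul_le_mul_of_nonneg_left hG1a v.L_pos.le
      calc i.F.u ^ 3 * (i.V.L * i.V.G1) ≤ i.F.u * (i.V.L * 1) := mul_le_mul a1 a2 (mul_nonneg v.L_pos.le hG1b) hu.le
        _ = i.F.u * i.V.L := by ring
    have h3 : 0 ≤ i.F.u ^ 3 * i.V.P1 := by
      unfold BdViol.P1
      have := v.L_pos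
      positivity
    calc |i.F.d vv| ≤ i.F.lam ^ cs * (i.F.u ^ 3 * i.V.P1) := h1
      _ ≤ ε * i.V.d0 := mul_le_mul (hlam i.F hF (by omega)) h2 h3 hε.le
  have hSr : |i.V.Q.Sq W i.V.g vv - r| ≤ |C0| * i.V.d0 := hG.trans (mul_le_mul_of_nonneg_right (le_abs_self _) hd0.le)
  have key := bnx_rt_arith hmain hdiff hSr hqr hΓ (hok.G1_nonneg _ hKmem) (hok.G1_le _ hKmem) hT hbT hbn hbm' hC0n hC0ε hdd hd0.le hd0ε hε1
    (by positivity) (abs_nonneg _) hcb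
  rw [← hM] at key
  exact key.trans (mul_le_mul_of_nonneg_right hεM hd0.le)

/-- `0 < b_buf ≤ 2 u` -/
theorem bnx_bbuf_le (hS : BdStd X W Fam K) {n : ℕ} (i : BdVI X W) (hi : i.Ok Fam n 2) : 0 < i.V.bbuf ∧ i.V.bbuf ≤ 2 * i.F.u := by
  have hF := hS.ok _ hi.1
  have hu := BdFr.bds_u_pos hF hS.fix
  have hl := BdFr.bds_lam_pos hF
  have hl1 := (BdFr.bds_lam_lt_one hF hS.fix).le
  have h1 : Real.sqrt i.V.L ≤ 1 := Real.sqrt_le_one.2 hi.2.2.2.2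
  have h2 : i.F.lam ^ X.rho ≤ 1 := Real.rpow_le_one hl.le hl1 hS.fix.rho_pos.le
  have h3 : 0 < i.F.lam ^ X.rho := Real.rpow_pos_of_pos hl _
  have h4 := Real.sqrt_nonneg i.V.L
  unfold BdViol.bbuf
  refine ⟨by positivity, ?_⟩
  rw [mul_comm 2]
  exact mul_le_mul_of_nonneg_left (by linarith) hu.le

/-- the response of a clock of the horizon is nondecreasing on the horizon -/
theorem bnx_gam_mono {Q0 Cc : ℝ} (hCc : 0 < Cc) (hSc : BudScReq W.Gam Q0 Cc) {κ : ℝ → ℝ} (hκ : BudClk Q0 κ) :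
    StrictMonoOn (W.Gam κ) (Icc 0 Q0) := by
  obtain ⟨cv, hcv, -⟩ := hSc
  obtain ⟨hok, hG, -⟩ := hcv κ hκ
  intro s hs t ht hst
  have h := (bnx_cv_incr hok hs ht hst.le).1
  rw [hG s hs, hG t ht] at h
  have : 0 < 1 / Cc * (t - s) := mul_pos (by positivity) (sub_pos.2 hst)
  linarith

/-- the two scalar clocks of an optimiser are clocks of the horizon -/
theorem bnx_budclk (hS : BdStd X W Fam K) (hP : BdP11 X W Fam c) {Q0 : ℝ} {i : BdI X} (hi : i.Ok W Fam)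
    (hQ : ∀ v ∈ Ioo (0 : ℝ) 1, i.F.K v ≤ Q0 ∧ i.Q.Ks W i.g v ≤ Q0) : BudClk Q0 i.F.K ∧ BudClk Q0 (i.Q.Ks W i.g) := by
  have h1 := hP.K_clk i.F hi.1
  have h2 := bnx_Ks_clock hS hi.1 hi.2.1 i.Q
  exact ⟨⟨h1.mono, fun v hv => ⟨h1.nonneg v hv, (hQ v hv).1⟩⟩, ⟨h2.mono, fun v hv => ⟨h2.nonneg v hv, (hQ v hv).2⟩⟩⟩

/-- **D3** (l.1347-1365, l.2074): the four facts on `r~`, `α~`.
Proof: `rt_mono`: `Γ_*` is nondecreasing on `[0,Q0]` (A2), `K_s` is a clock (B2) with values in `[0,Q0]`.  `rt_near`: D2.  With `e = (C0 + 1) d₀`, `e' = (C0 + 2) d₀ ≤ (s0/2) b_buf` (B9):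
`mt_bd`: `bud_n11_dist_bracket` (`ψ = r~`, `al = Q.al`) gives `α(r - e') ≤ α~(r) ≤ α(r + e')`, then `|α - β₀| ≤ 2 d₀`, slope `Cb`: `C = 2 + Cb (C0 + 2)`.
`transp`: `bud_n11_cross` for `budGeoQ` (`g.ρ = deriv Q.al`, `g.al = Q.al` on `[0,1]`), window `w = e'` enlarged to `C d₀` (the integrand is `≥ 0` a.e. and integrable). -/
theorem bnx_til (hS : BdStd X W Fam K) (hP : BdP11 X W Fam c) (h9 : Bd7P9 X Fam) {Q0 Cc : ℝ} (hQ0 : 0 < Q0)
    (hQ : BnxClkBd X W Fam Q0) (hCc : 0 < Cc) (hSc : BudScReq W.Gam Q0 Cc) {n : ℕ} (hn1 : 1 ≤ n) (hn : n ≤ X.J + 1)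
    (hZ : BnxZ1 X W Fam n) (hL : BnxLSmall X W Fam n) (hSeed : BnxSeed X W Fam n) {C0 s0 : ℝ} (hs0 : 0 < s0) (hs01 : s0 ≤ 1)
    (hG : BnxSNear X W Fam n C0 s0) : ∃ C : ℝ, 0 < C ∧ BnxTil X W Fam n C (s0 / 2) := by
  set C : ℝ := 2 + |K.Cb| * (|C0| + 2) + (|C0| + 2) with hC
  have hCpos : 0 < C := by positivity
  refine ⟨C, hCpos, fun δ hδ => ?_⟩
  obtain ⟨hplo, -, -, -, hphi⟩ := hS.fix.pat n hn
  obtain ⟨N1, hrt⟩ := bnx_rt_near hS hP h9 hQ0 hQ hCc hSc hn1 hn hZ hL hSeed hs0 hs01 hG (min δ 1) (lt_min hδ one_pos)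
  obtain ⟨N2, hG⟩ := hG
  obtain ⟨N3, hv⟩ := bnx_viol hS hn1 hn hZ hL (min (s0 / (2 * C)) (min (1 / (2 * (|K.Cb * X.phi n + 1| + 1))) (1 / X.cI)))
    (by have := hS.fix.cI_pos; positivity)
  obtain ⟨N4, hQ⟩ := hQ
  obtain ⟨N5, hgeo⟩ := bud_n4_geo X hS.fix
  refine ⟨max (max (max N1 N2) (max N3 N4)) N5, fun i hi hN => ?_⟩
  have hrt := hrt i hi (le_trans (le_trans (le_trans (le_max_left _ _) (le_max_left _ _)) (le_max_left _ _)) hN)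
  have hG := hG i hi (le_trans (le_trans (le_trans (le_max_right _ _) (le_max_left _ _)) (le_max_left _ _)) hN)
  have v := hv i hi (le_trans (le_trans (le_trans (le_max_left _ _) (le_max_right _ _)) (le_max_left _ _)) hN)
  have hQ := hQ ⟨i.F, i.V.g, i.V.Q⟩ v.iok (le_trans (le_trans (le_trans (le_max_right _ _) (le_max_right _ _)) (le_max_left _ _)) hN)
  obtain ⟨c0, hg, -⟩ := hgeo i.F v.fok (le_trans (le_max_right _ _) hN) W i.V.g (bnx_base hS v.iok.1 v.iok.2.1 i.V.Q) i.V.Q v.iok.2.2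
  have hu := BdFr.bds_u_pos v.fok hS.fix
  have hd0 : 0 < i.V.d0 := mul_pos hu v.L_pos
  have hb0 : 0 ≤ i.V.bbuf := (bnx_bbuf_le hS i hi).1.le
  obtain ⟨hk1, hk2⟩ := bnx_budclk hS hP v.iok hQ
  have hΓ := (bnx_gam_mono hCc hSc hk1).monotoneOn
  -- `C d₀ ≤ (s0/2) b_buf`
  have hCd : C * i.V.d0 ≤ s0 / 2 * i.V.bbuf := by
    have h1 := v.d0_le.trans (mul_le_mul_of_nonneg_right (min_le_left _ _) hb0)
    calc C * i.V.d0 ≤ C * (s0 / (2 * C) * i.V.bbuf) := mul_le_mul_of_nonneg_left h1 hCpos.le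
      _ = s0 / 2 * i.V.bbuf := by field_simp
  have hu1 : (K.Cb * X.phi n + 1) * i.F.u < 1 := by
    have h1 := v.u_le.trans ((min_le_right _ _).trans (min_le_left _ _))
    have h2 : 0 < |K.Cb * X.phi n + 1| + 1 := by positivity
    calc (K.Cb * X.phi n + 1) * i.F.u ≤ |K.Cb * X.phi n + 1| * i.F.u := mul_le_mul_of_nonneg_right (le_abs_self _) hu.le
      _ ≤ (|K.Cb * X.phi n + 1| + 1) * (1 / (2 * (|K.Cb * X.phi n + 1| + 1))) :=
          mul_le_mul (by linarith) h1 hu.le h2.le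
      _ = 1 / 2 := by field_simp
      _ < 1 := by norm_num
  have hBs : ∀ s ≤ (1 : ℝ), i.V.Buf s ⊆ i.V.Buf 1 := by
    intro s hs r hr
    have := mul_le_mul_of_nonneg_right hs hb0
    exact ⟨by linarith [hr.1], by linarith [hr.2]⟩
  have hal : ∀ r ∈ i.V.Buf 1, i.V.Q.al r ∈ Ioo (0 : ℝ) 1 := by
    intro r hr
    have := v.al_mem r hr
    have hp : 0 < K.cb * X.plo n / 2 * i.F.u := by
      have := hS.cb_pos
      positivity
    exact ⟨hp.trans_le this.1, this.2.trans_lt hu1⟩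
  have h01 : ∀ r ∈ i.V.Buf 1, r ∈ Icc (0 : ℝ) 1 ∧ 0 ≤ r ∧ r ≤ X.cI * i.F.u := by
    intro r hr
    have h := v.buf_sub hr
    have h1 : 0 ≤ X.plo n * i.F.u := by positivity
    have h2 : X.phi n * i.F.u ≤ X.cI * i.F.u := mul_le_mul_of_nonneg_right hphi.le hu.le
    have h3 : X.cI * i.F.u ≤ 1 := by
      have h4 := v.u_le.trans ((min_le_right _ _).trans (min_le_right _ _))
      rw [le_div_iff₀ hS.fix.cI_pos] at h4
      linarith
    exact ⟨⟨h1.trans h.1, (h.2.trans h2).trans h3⟩, h1.trans h.1, h.2.trans h2⟩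
  have rt_mono : MonotoneOn i.V.rtil (Ioo 0 1) := by
    intro a ha b hb hab
    exact hΓ (hk2.2 a ha) (hk2.2 b hb) (hk2.1 ha hb hab)
  set e : ℝ := (|C0| + 1) * i.V.d0 with he
  have he0 : 0 ≤ e := by positivity
  have hnear : ∀ r ∈ Icc (i.V.r0 - s0 * i.V.bbuf) (i.V.r0 + s0 * i.V.bbuf), |i.V.rtil (i.V.Q.al r) - r| ≤ e := by
    intro r hr
    have a1 := (hrt r hr).trans (mul_le_mul_of_nonneg_right (min_le_right _ _) hd0.le)
    have a2 := (hG r hr).trans (mul_le_mul_of_nonneg_right (le_abs_self _) hd0.le)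
    have a3 := abs_add_le (i.V.rtil (i.V.Q.al r) - i.V.Q.Sq W i.V.g (i.V.Q.al r)) (i.V.Q.Sq W i.V.g (i.V.Q.al r) - r)
    rw [sub_add_sub_cancel] at a3
    rw [he]
    linarith
  have hal' : ∀ r ∈ Icc (i.V.r0 - s0 * i.V.bbuf) (i.V.r0 + s0 * i.V.bbuf), i.V.Q.al r ∈ Ioo (0 : ℝ) 1 :=
    fun r hr => hal r (hBs s0 hs01 hr)
  refine ⟨rt_mono, fun r hr => ?_, fun r hr => ?_, fun r hr => ?_⟩
  · have hr' : r ∈ i.V.Buf s0 := by
      have := mul_le_mul_of_nonneg_right (by linarith : s0 / 2 ≤ s0) hb0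
      exact ⟨by linarith [hr.1], by linarith [hr.2]⟩
    exact (hrt r hr').trans (mul_le_mul_of_nonneg_right (min_le_left _ _) hd0.le)
  · -- `mt_bd`
    set e' : ℝ := (|C0| + 2) * i.V.d0 with he'
    have hee : e < e' := by rw [he, he']; linarith
    have he'C : e' ≤ C * i.V.d0 := by
      rw [he', hC]
      refine mul_le_mul_of_nonneg_right ?_ hd0.le
      have : 0 ≤ |K.Cb| * (|C0| + 2) := by positivity
      linarith
    have hrm : r ∈ Icc (i.V.r0 - s0 * i.V.bbuf + e') (i.V.r0 + s0 * i.V.bbuf - e') :=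
      ⟨by linarith [hr.1], by linarith [hr.2]⟩
    obtain ⟨b1, b2⟩ := bud_n11_dist_bracket rt_mono hal' hnear he0 hee hrm
    have he'0 : 0 ≤ e' := by positivity
    have m1 : r - e' ∈ i.V.Buf 1 := hBs s0 hs01 ⟨by linarith [hrm.1], by linarith [hrm.2]⟩
    have m2 : r + e' ∈ i.V.Buf 1 := hBs s0 hs01 ⟨by linarith [hrm.1], by linarith [hrm.2]⟩
    have m0 : r ∈ i.V.Buf 1 := hBs s0 hs01 ⟨by linarith [hrm.1], by linarith [hrm.2]⟩
    have hbuf : ∀ r ∈ i.V.Buf 1, |i.V.Q.al r - i.F.beta0 r| ≤ 2 * i.V.d0 := by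
      intro r hr
      refine hi.2.2.2.1.buf r ?_
      rw [abs_le]
      exact ⟨by linarith [hr.1], by linarith [hr.2]⟩
    have c1 := abs_le.1 (hbuf _ m1)
    have c2 := abs_le.1 (hbuf _ m2)
    have s1 := (hS.beta i.F hi.1 (r - e') r (h01 _ m1).2.1 (by linarith) (h01 _ m0).2.2).2
    have s2 := (hS.beta i.F hi.1 r (r + e') (h01 _ m0).2.1 (by linarith) (h01 _ m2).2.2).2
    have s3 : K.Cb * e' ≤ |K.Cb| * e' := mul_le_mul_of_nonneg_right (le_abs_self _) he'0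
    have s4 : (2 + |K.Cb| * (|C0| + 2)) * i.V.d0 ≤ C * i.V.d0 := by
      refine mul_le_mul_of_nonneg_right ?_ hd0.le
      rw [hC]
      have := abs_nonneg C0
      linarith
    have s5 : (2 + |K.Cb| * (|C0| + 2)) * i.V.d0 = 2 * i.V.d0 + |K.Cb| * e' := by rw [he']; ring
    have e1 : r - (r - e') = e' := by ring
    have e2 : r + e' - r = e' := by ring
    rw [e1] at s1
    rw [e2] at s2
    unfold BdViol.altil
    rw [abs_le]
    constructor <;> linarith [c1.1, c1.2, c2.1, c2.2]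
  · -- `transp`
    have hew : e < C * i.V.d0 := by
      rw [he, hC]
      refine mul_lt_mul_of_pos_right ?_ hd0
      have : 0 ≤ |K.Cb| * (|C0| + 2) := by positivity
      linarith
    have hrm : r ∈ Icc (i.V.r0 - s0 * i.V.bbuf + C * i.V.d0) (i.V.r0 + s0 * i.V.bbuf - C * i.V.d0) :=
      ⟨by linarith [hr.1], by linarith [hr.2]⟩
    have hlo : i.V.r0 - s0 * i.V.bbuf ∈ i.V.Buf 1 := hBs s0 hs01 ⟨le_rfl, by linarith [mul_nonneg hs0.le hb0]⟩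
    have hhi : i.V.r0 + s0 * i.V.bbuf ∈ i.V.Buf 1 := hBs s0 hs01 ⟨by linarith [mul_nonneg hs0.le hb0], le_rfl⟩
    have hgal : ∀ r ∈ Icc (i.V.r0 - s0 * i.V.bbuf) (i.V.r0 + s0 * i.V.bbuf), (budGeoQ i.V.Q W i.V.g c0).al r = i.V.Q.al r :=
      fun r hr => bud_n4_al X hS.fix i.F v.fok i.V.Q W i.V.g c0 (h01 r (hBs s0 hs01 hr)).1
    have key := bud_n11_cross hg (ψ := i.V.rtil) (lo := i.V.r0 - s0 * i.V.bbuf) (hi := i.V.r0 + s0 * i.V.bbuf) (e := e)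
      (w := C * i.V.d0) (r := r) (h01 _ hlo).1.1 (h01 _ hhi).1.2 rt_mono (fun s hs => by rw [hgal s hs]; exact hal' s hs)
      (fun s hs => by rw [hgal s hs]; exact hnear s hs) he0 hew hrm
    have hCd0 : 0 ≤ C * i.V.d0 := by positivity
    rw [hgal r ⟨by linarith [hrm.1], by linarith [hrm.2]⟩] at key
    unfold BdViol.altil
    refine key.trans (le_of_eq ?_)
    refine intervalIntegral.integral_congr fun t ht => ?_
    rw [uIcc_of_le (by linarith)] at ht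
    have ht' : t ∈ Icc (i.V.r0 - s0 * i.V.bbuf) (i.V.r0 + s0 * i.V.bbuf) := ⟨by linarith [hrm.1, ht.1], by linarith [hrm.2, ht.2]⟩
    simp only [hgal t ht']
    rfl

/-! ## E. (C14) and the drift bound -/

/-- the window of (C14) for one buffered violation: radii `(r₀ - s b_buf, r₀ + s b_buf)`, times `[ta, tb] = k_*` of its closure -/
structure BnxWinAt (i : BdVI X W) (cs cr : BudCv) (Q0 Cc c1 C1 C s ta tb : ℝ) : Prop where
  c14 : BudC14 cs cr (i.F.kst W) Q0 Cc (1 / Cc) ta tb (i.V.r0 - s * i.V.bbuf) (i.V.r0 + s * i.V.bbuf)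
  cmp : BudCmp cs cr Q0 Cc
  Gs_eq : ∀ t ∈ Icc 0 Q0, cs.G t = i.V.Q.Gs W i.V.g t
  G_eq : ∀ t ∈ Icc 0 Q0, cr.G t = W.Gam i.F.K t
  als_eq : ∀ t ∈ Icc 0 Q0, cs.al t = bdDist (i.V.Q.Ks W i.V.g) t
  al_eq : ∀ t ∈ Icc 0 Q0, cr.al t = bdDist i.F.K t
  ta_ge : c1 * i.F.u ≤ ta
  tb_le : tb ≤ C1 * i.F.u
  len : tb - ta ≤ C * i.V.bbuf
  mass : ∀ t ∈ Icc ta tb, cs.al t ≤ C1 * i.F.u ∧ cr.al t ≤ C1 * i.F.u ∧ |cs.al t - cr.al t| ≤ C * i.V.d0
  ident : ∀ r ∈ Ioo (i.V.r0 - s * i.V.bbuf) (i.V.r0 + s * i.V.bbuf),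
    cs.al (i.F.kst W r) = i.V.altil r ∧ cr.al (i.F.kst W r) = i.F.beta0 r
  Ks_mem : ∀ r ∈ i.V.Buf (s / 2), i.V.Q.Ks W i.V.g (i.V.Q.al r) ∈ Icc ta tb

theorem bnx_small {a u : ℝ} (hu : 0 ≤ u) (h : u ≤ 1 / (2 * (|a| + 1))) : a * u < 1 := by
  have h2 : 0 < |a| + 1 := by positivity
  calc a * u ≤ |a| * u := mul_le_mul_of_nonneg_right (le_abs_self _) hu
    _ ≤ (|a| + 1) * (1 / (2 * (|a| + 1))) := mul_le_mul (by linarith) h hu h2.le
    _ = 1 / 2 := by field_simp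
    _ < 1 := by norm_num

/-- E1 the window exists.
Proof: `cv` of `hSc`, `cs = cv K_s`, `cr = cv K_*` (`BudClk`: B2, `hP.K_clk`, `hQ`).  `ra, rb = r₀ ∓ s b_buf ∈ [plo u, phi u]` (B9), `ta = k_* ra`, `tb = k_* rb` (D1): `ra/Cc ≤ ta`, `tb ≤ Cc rb`, `tb - ta ≤ Cc (rb - ra)` (A2);
`c1 = min 1 (plo/Cc)`, `C1 = max 1 (max (Cc phi) (Cb phi + Ct))`.  `k_mem`: `k_*` is strictly increasing (A2 + `k_inv`).
`ident`: `bud_n12_ident_s` (twice: `K_s`, and `K_*` with `Γ_* ∘ K_* = q` a.e. on `(0,1)`: `q_tie`) + B8.  `mass`: `t ∈ [ta,tb]` is `k_* r` with `r = Γ_* t ∈ Buf s` (D1, last clause), `ident` (also at the end points), `mt_bd`, `β₀ r ≤ Cb r`.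
`Ks_mem`: `Γ_*(K_s(α r)) = r~(α r) ∈ r ± (C0 + 1) d₀ ⊆ [ra, rb]` (`rt_near`, `hG`, B9), monotonicity of `Γ_*`. -/
theorem bnx_win (hS : BdStd X W Fam K) (hP : BdP11 X W Fam c) {Q0 Cc : ℝ} (hQ0 : 0 < Q0) (hCK : c.CK ≤ Q0)
    (hQ : BnxClkBd X W Fam Q0) (hCc : 0 < Cc) (hSc : BudScReq W.Gam Q0 Cc) {n : ℕ} (hn1 : 1 ≤ n) (hn : n ≤ X.J + 1)
    (hZ : BnxZ1 X W Fam n) (hL : BnxLSmall X W Fam n) {C0 Ct s : ℝ} (hs0 : 0 < s) (hs1 : s ≤ 1)
    (hG : BnxSNear X W Fam n C0 s) (hTil : BnxTil X W Fam n Ct s) :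
    ∃ c1 C1 C : ℝ, 0 < c1 ∧ c1 ≤ 1 ∧ 1 ≤ C1 ∧ 0 < C ∧ ∃ N0 : ℕ, ∀ i : BdVI X W, i.Ok Fam n 2 → N0 ≤ i.F.N →
      ∃ (cs cr : BudCv) (ta tb : ℝ), BnxWinAt i cs cr Q0 Cc c1 C1 C s ta tb := by
  obtain ⟨hplo, -, -, -, hphi⟩ := hS.fix.pat n hn
  have hcI := hS.fix.cI_pos
  have hphi0 : 0 < X.phi n := by
    obtain ⟨a1, a2, a3, a4, -⟩ := hS.fix.pat n hn
    linarith
  refine ⟨min 1 (X.plo n / Cc), max 1 (max (Cc * X.phi n) (|K.Cb| * X.phi n + |Ct|)), 2 * Cc + |Ct| + 1,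
    lt_min one_pos (by positivity), min_le_left _ _, le_max_left _ _, by positivity, ?_⟩
  obtain ⟨N1, hkst⟩ := bnx_kst hS hP hQ0 hCK hCc hSc
  obtain ⟨N2, hG⟩ := hG
  obtain ⟨N3, hv⟩ := bnx_viol hS hn1 hn hZ hL
    (min (s / (2 * (|C0| + 1))) (min (1 / (2 * (|K.Cb * X.phi n + 1| + 1))) (min (1 / X.cI) (1 / (2 * (|K.Cb * X.cI| + 1))))))
    (by positivity)
  obtain ⟨N4, hQ⟩ := hQ
  obtain ⟨N5, htil⟩ := hTil 1 one_pos
  refine ⟨max (max (max N1 N2) (max N3 N4)) N5, fun i hi hN => ?_⟩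
  have hkst := hkst i.F hi.1 (le_trans (le_trans (le_trans (le_max_left _ _) (le_max_left _ _)) (le_max_left _ _)) hN)
  have hG := hG i hi (le_trans (le_trans (le_trans (le_max_right _ _) (le_max_left _ _)) (le_max_left _ _)) hN)
  have v := hv i hi (le_trans (le_trans (le_trans (le_max_left _ _) (le_max_right _ _)) (le_max_left _ _)) hN)
  have hQ := hQ ⟨i.F, i.V.g, i.V.Q⟩ v.iok (le_trans (le_trans (le_trans (le_max_right _ _) (le_max_right _ _)) (le_max_left _ _)) hN)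
  have til := htil i hi (le_trans (le_max_right _ _) hN)
  have hu := BdFr.bds_u_pos v.fok hS.fix
  have hd0 : 0 < i.V.d0 := mul_pos hu v.L_pos
  obtain ⟨hb0, -⟩ := bnx_bbuf_le hS i hi
  obtain ⟨hk1, hk2⟩ := bnx_budclk hS hP v.iok hQ
  have hΓ := bnx_gam_mono hCc hSc hk1
  obtain ⟨cv, hcv, hcmp⟩ := hSc
  obtain ⟨okr, Gr, alr⟩ := hcv _ hk1
  obtain ⟨oks, Gs, als⟩ := hcv _ hk2
  -- smallness
  have hu1 : (K.Cb * X.phi n + 1) * i.F.u < 1 :=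
    bnx_small hu.le (v.u_le.trans ((min_le_right _ _).trans (min_le_left _ _)))
  have hu2 : X.cI * i.F.u ≤ 1 := by
    have h4 := v.u_le.trans ((min_le_right _ _).trans ((min_le_right _ _).trans (min_le_left _ _)))
    rw [le_div_iff₀ hcI] at h4
    linarith
  have hu3 : K.Cb * (X.cI * i.F.u) < 1 := by
    rw [← mul_assoc]
    exact bnx_small hu.le (v.u_le.trans ((min_le_right _ _).trans ((min_le_right _ _).trans (min_le_right _ _))))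
  have hCd : (|C0| + 1) * i.V.d0 ≤ s / 2 * i.V.bbuf := by
    have h1 := v.d0_le.trans (mul_le_mul_of_nonneg_right (min_le_left _ _) hb0.le)
    have h2 : 0 < |C0| + 1 := by positivity
    calc (|C0| + 1) * i.V.d0 ≤ (|C0| + 1) * (s / (2 * (|C0| + 1)) * i.V.bbuf) := mul_le_mul_of_nonneg_left h1 h2.le
      _ = s / 2 * i.V.bbuf := by field_simp
  have hBs : i.V.Buf s ⊆ i.V.Buf 1 := by
    intro r hr
    have := mul_le_mul_of_nonneg_right hs1 hb0.le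
    exact ⟨by linarith [hr.1], by linarith [hr.2]⟩
  have hal : ∀ r ∈ i.V.Buf 1, i.V.Q.al r ∈ Ioo (0 : ℝ) 1 := by
    intro r hr
    have := v.al_mem r hr
    have hp : 0 < K.cb * X.plo n / 2 * i.F.u := by
      have := hS.cb_pos
      positivity
    exact ⟨hp.trans_le this.1, this.2.trans_lt hu1⟩
  have hI : ∀ r ∈ i.V.Buf s, r ∈ Ioo (0 : ℝ) (X.cI * i.F.u) ∧ X.plo n * i.F.u ≤ r ∧ r ≤ X.phi n * i.F.u := by
    intro r hr
    have h := v.buf_sub (hBs hr)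
    have h1 : 0 < X.plo n * i.F.u := by positivity
    have h2 : X.phi n * i.F.u < X.cI * i.F.u := mul_lt_mul_of_pos_right hphi hu
    exact ⟨⟨h1.trans_le h.1, h.2.trans_lt h2⟩, h.1, h.2⟩
  set ra : ℝ := i.V.r0 - s * i.V.bbuf with hra
  set rb : ℝ := i.V.r0 + s * i.V.bbuf with hrb
  have hsb : 0 < s * i.V.bbuf := mul_pos hs0 hb0
  have hram : ra ∈ i.V.Buf s := ⟨le_rfl, by linarith⟩
  have hrbm : rb ∈ i.V.Buf s := ⟨by linarith, le_rfl⟩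
  -- `k_*` on the closed window
  have kk : ∀ r ∈ i.V.Buf s, i.F.kst W r ∈ Icc 0 Q0 ∧ W.Gam i.F.K (i.F.kst W r) = r :=
    fun r hr => ⟨Ioo_subset_Icc_self (hkst r (hI r hr).1).1, (hkst r (hI r hr).1).2.1⟩
  set ta : ℝ := i.F.kst W ra with hta
  set tb : ℝ := i.F.kst W rb with htb
  have kle : ∀ r1 ∈ i.V.Buf s, ∀ r2 ∈ i.V.Buf s, r1 ≤ r2 → i.F.kst W r1 ≤ i.F.kst W r2 := by
    intro r1 h1 r2 h2 h12
    rw [← hΓ.le_iff_le (kk r1 h1).1 (kk r2 h2).1, (kk r1 h1).2, (kk r2 h2).2]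
    exact h12
  have klt : ∀ r1 ∈ i.V.Buf s, ∀ r2 ∈ i.V.Buf s, r1 < r2 → i.F.kst W r1 < i.F.kst W r2 := by
    intro r1 h1 r2 h2 h12
    rw [← hΓ.lt_iff_lt (kk r1 h1).1 (kk r2 h2).1, (kk r1 h1).2, (kk r2 h2).2]
    exact h12
  have hWin : Icc ta tb ⊆ Icc 0 Q0 := Icc_subset_Icc (kk ra hram).1.1 (kk rb hrbm).1.2
  -- identification of the masses on the closed window
  have ident : ∀ r ∈ i.V.Buf s, (cv (i.V.Q.Ks W i.V.g)).al (i.F.kst W r) = i.V.altil r ∧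
      (cv i.F.K).al (i.F.kst W r) = i.F.beta0 r := by
    intro r hr
    constructor
    · rw [als _ (kk r hr).1, bud_n12_ident_s hΓ hk2.2 (kk r hr).1 (kk r hr).2]
      rfl
    · rw [alr _ (kk r hr).1, bud_n12_ident_s hΓ hk1.2 (kk r hr).1 (kk r hr).2,
        ← bnx_dist_q hS hi.1 hu3 (hI r hr).1.1.le (hI r hr).1.2]
      unfold bdDist
      congr 2
      ext x
      simp only [mem_ofPred_eq]
      refine and_congr_right fun hx => ?_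
      rw [hP.q_tie i.F hi.1 x hx]
  -- every time of the window is `k_*` of a radius of the window
  have back : ∀ t ∈ Icc ta tb, W.Gam i.F.K t ∈ i.V.Buf s ∧ i.F.kst W (W.Gam i.F.K t) = t := by
    intro t ht
    have h1 : W.Gam i.F.K t ∈ i.V.Buf s := by
      constructor
      · rw [← hra, ← (kk ra hram).2]
        exact hΓ.monotoneOn (kk ra hram).1 (hWin ht) ht.1
      · rw [← hrb, ← (kk rb hrbm).2]
        exact hΓ.monotoneOn (hWin ht) (kk rb hrbm).1 ht.2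
    exact ⟨h1, (hkst _ (hI _ h1).1).2.2.2.2 t (hWin ht) rfl⟩
  have hL1 : i.V.d0 ≤ i.F.u := by
    have := mul_le_mul_of_nonneg_left hi.2.2.2.2 hu.le
    rw [mul_one] at this
    exact this
  refine ⟨cv (i.V.Q.Ks W i.V.g), cv i.F.K, ta, tb, ⟨⟨oks, okr, (hkst ra (hI ra hram).1).1.1, kle ra hram rb hrbm (by linarith),
    (hkst rb (hI rb hrbm).1).1.2, by positivity, fun t ht => okr.G1_ge t (hWin ht), fun r hr => ?_, fun r hr => ?_⟩,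
    hcmp _ _ hk2 hk1, fun t ht => Gs t ht, Gr, als, alr, ?_, ?_, ?_, fun t ht => ?_, fun r hr => ident r (Ioo_subset_Icc_self hr),
    fun r hr => ?_⟩⟩
  · exact ⟨klt ra hram r (Ioo_subset_Icc_self hr) hr.1, klt r (Ioo_subset_Icc_self hr) rb hrbm hr.2⟩
  · rw [Gr _ (kk r (Ioo_subset_Icc_self hr)).1]
    exact (kk r (Ioo_subset_Icc_self hr)).2
  · -- `ta_ge`
    have h1 := (hkst ra (hI ra hram).1).2.2.1
    have h2 : X.plo n * i.F.u / Cc ≤ ra / Cc := div_le_div_of_nonneg_right (hI ra hram).2.1 hCc.le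
    calc min 1 (X.plo n / Cc) * i.F.u ≤ X.plo n / Cc * i.F.u := mul_le_mul_of_nonneg_right (min_le_right _ _) hu.le
      _ = X.plo n * i.F.u / Cc := by ring
      _ ≤ ta := h2.trans h1
  · -- `tb_le`
    have h1 := (hkst rb (hI rb hrbm).1).2.2.2.1
    calc tb ≤ Cc * rb := h1
      _ ≤ Cc * (X.phi n * i.F.u) := mul_le_mul_of_nonneg_left (hI rb hrbm).2.2 hCc.le
      _ = Cc * X.phi n * i.F.u := by ring
      _ ≤ _ := mul_le_mul_of_nonneg_right ((le_max_left _ _).trans (le_max_right _ _)) hu.le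
  · -- `len`
    have h1 := (bnx_cv_incr okr (kk ra hram).1 (kk rb hrbm).1 (kle ra hram rb hrbm (by linarith))).1
    rw [Gr _ (kk ra hram).1, Gr _ (kk rb hrbm).1, (kk ra hram).2, (kk rb hrbm).2] at h1
    have h2 : rb - ra = 2 * (s * i.V.bbuf) := by rw [hra, hrb]; ring
    have h3 : tb - ta ≤ Cc * (rb - ra) := by
      have : tb - ta = Cc * (1 / Cc * (tb - ta)) := by field_simp
      rw [this]
      exact mul_le_mul_of_nonneg_left h1 hCc.le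
    have h4 : s * i.V.bbuf ≤ i.V.bbuf := by
      have := mul_le_mul_of_nonneg_right hs1 hb0.le
      linarith
    calc tb - ta ≤ Cc * (2 * (s * i.V.bbuf)) := by rw [← h2]; exact h3
      _ ≤ Cc * (2 * i.V.bbuf) := mul_le_mul_of_nonneg_left (by linarith) hCc.le
      _ = 2 * Cc * i.V.bbuf := by ring
      _ ≤ (2 * Cc + |Ct| + 1) * i.V.bbuf := mul_le_mul_of_nonneg_right (by linarith [abs_nonneg Ct]) hb0.le
  · -- `mass`
    obtain ⟨h1, h2⟩ := back t ht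
    obtain ⟨i1, i2⟩ := ident _ h1
    rw [h2] at i1 i2
    rw [i1, i2]
    set r := W.Gam i.F.K t with hr
    have m1 := (til.mt_bd r h1).trans (mul_le_mul_of_nonneg_right (le_abs_self Ct) hd0.le)
    have m2 := (hS.beta i.F hi.1 0 r le_rfl (hI r h1).1.1.le (hI r h1).1.2.le).2
    rw [hS.beta_zero i.F hi.1, sub_zero, sub_zero] at m2
    have m3 : i.F.beta0 r ≤ |K.Cb| * X.phi n * i.F.u := by
      calc i.F.beta0 r ≤ K.Cb * r := m2
        _ ≤ |K.Cb| * r := mul_le_mul_of_nonneg_right (le_abs_self _) (hI r h1).1.1.le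
        _ ≤ |K.Cb| * (X.phi n * i.F.u) := mul_le_mul_of_nonneg_left (hI r h1).2.2 (abs_nonneg _)
        _ = |K.Cb| * X.phi n * i.F.u := by ring
    have m4 : |Ct| * i.V.d0 ≤ |Ct| * i.F.u := mul_le_mul_of_nonneg_left hL1 (abs_nonneg _)
    have m5 : (|K.Cb| * X.phi n + |Ct|) * i.F.u ≤ max 1 (max (Cc * X.phi n) (|K.Cb| * X.phi n + |Ct|)) * i.F.u :=
      mul_le_mul_of_nonneg_right ((le_max_right _ _).trans (le_max_right _ _)) hu.le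
    have m6 := abs_le.1 m1
    have m7 : 0 ≤ |Ct| * i.F.u := by positivity
    refine ⟨?_, ?_, ?_⟩
    · refine le_trans ?_ m5
      rw [add_mul]
      linarith [m6.2]
    · refine le_trans ?_ m5
      rw [add_mul]
      linarith
    · refine m1.trans (mul_le_mul_of_nonneg_right ?_ hd0.le)
      linarith
  · -- `Ks_mem`
    have hr' : r ∈ i.V.Buf s := by
      have := mul_le_mul_of_nonneg_right (by linarith : s / 2 ≤ s) hb0.le
      exact ⟨by linarith [hr.1], by linarith [hr.2]⟩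
    have hm := hk2.2 _ (hal r (hBs hr'))
    have a1 := til.rt_near r hr'
    have a2 := (hG r hr').trans (mul_le_mul_of_nonneg_right (le_abs_self _) hd0.le)
    have a3 := abs_add_le (i.V.rtil (i.V.Q.al r) - i.V.Q.Sq W i.V.g (i.V.Q.al r)) (i.V.Q.Sq W i.V.g (i.V.Q.al r) - r)
    rw [sub_add_sub_cancel] at a3
    have a4 : |i.V.rtil (i.V.Q.al r) - r| ≤ s / 2 * i.V.bbuf := by
      refine le_trans ?_ hCd
      rw [add_mul]
      linarith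
    have a5 := abs_le.1 a4
    have e : i.V.rtil (i.V.Q.al r) = W.Gam i.F.K (i.V.Q.Ks W i.V.g (i.V.Q.al r)) := rfl
    rw [e] at a5
    constructor
    · rw [← hΓ.le_iff_le (kk ra hram).1 hm, (kk ra hram).2]
      linarith [hr.1, a5.1]
    · rw [← hΓ.le_iff_le hm (kk rb hrbm).1, (kk rb hrbm).2]
      linarith [hr.2, a5.2]

/-- the transport integral of the window is the transport integral of the violation -/
theorem bnx_win_tr {i : BdVI X W} {cs cr : BudCv} {Q0 Cc c1 C1 C s ta tb : ℝ} (w : BnxWinAt i cs cr Q0 Cc c1 C1 C s ta tb) :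
    ∫ t in (0 : ℝ)..Q0, min i.F.u t * |cs.al t - cr.al t| = ∫ t in (0 : ℝ)..Q0, min i.F.u t * |i.V.dal t| := by
  have hQ : 0 ≤ Q0 := (w.c14.ta0.le.trans w.c14.tab).trans w.c14.tbQ.le
  refine intervalIntegral.integral_congr fun t ht => ?_
  rw [uIcc_of_le hQ] at ht
  simp only [BdViol.dal]
  rw [w.als_eq t ht, w.al_eq t ht]

/-- one instance of the drift bound, ordered times -/
theorem bnx_drift_at {i : BdVI X W} {cs cr : BudCv} {Q0 Cc c1 C1 C s ta tb Cg : ℝ} (w : BnxWinAt i cs cr Q0 Cc c1 C1 C s ta tb)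
    (hCc : 0 < Cc) (hc1 : 0 < c1) (hc11 : c1 ≤ 1) (hC1 : 1 ≤ C1) (hC : 0 < C) (hu : 0 < i.F.u) (hu1 : i.F.u ≤ 1) (hd0 : 0 ≤ i.V.d0)
    (hlam : 0 ≤ i.F.lam)
    (hTr : ∫ t in (0 : ℝ)..Q0, min i.F.u t * |i.V.dal t| ≤ 1 * i.V.d0)
    (hg2 : ∀ t1 ∈ Ioc (0 : ℝ) (C1 * i.F.u), ∀ t2 ∈ Ioc (0 : ℝ) (C1 * i.F.u),
      |deriv (W.Gam i.F.K) t2 - deriv (W.Gam i.F.K) t1| ≤ Cg * (i.F.lam * i.F.u) * |t2 - t1|)
    {t1 t2 : ℝ} (h1 : t1 ∈ Icc ta tb) (h2 : t2 ∈ Icc ta tb) (h12 : t1 ≤ t2) :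
    |deriv (i.V.Q.Gs W i.V.g) t2 - deriv (i.V.Q.Gs W i.V.g) t1|
      ≤ (Cc * (3 * C1 / c1 + (1 + 2 * C1) * (C1 + C1 ^ 2 / 2)) + 2 * Cc * C + |Cg|) * (i.V.d0 + i.F.lam * i.F.u) * (t2 - t1) := by
  have hsub := bud_n12_sub w.c14
  have hta : 0 ≤ ta := w.c14.ta0.le
  have htb : tb ≤ Q0 := w.c14.tbQ.le
  have hQ : 0 ≤ Q0 := (hta.trans w.c14.tab).trans htb
  have hW : Icc ta tb ⊆ Icc 0 Q0 := Icc_subset_Icc hta htb
  have hC10 : 0 < C1 := zero_lt_one.trans_le hC1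
  set u := i.F.u with hudef
  set da : ℝ → ℝ := fun s => cs.al s - cr.al s with hda
  have ida : IntervalIntegrable da volume 0 Q0 :=
    (bud_n12_int w.c14.cs_ok ⟨le_rfl, hQ⟩ ⟨hQ, le_rfl⟩).1.sub (bud_n12_int w.c14.c_ok ⟨le_rfl, hQ⟩ ⟨hQ, le_rfl⟩).1
  set Tr : ℝ := ∫ s in (0:ℝ)..Q0, min u s * |da s| with hTrdef
  have hTr0 : 0 ≤ Tr := intervalIntegral.integral_nonneg hQ fun s hs =>
    mul_nonneg (le_min hu.le hs.1) (abs_nonneg _)
  have hTrd : Tr ≤ i.V.d0 := by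
    have := bnx_win_tr w
    rw [hTrdef, this]
    linarith
  have hIJ : ∀ t ∈ Icc ta tb, budI da Q0 t ≤ Tr / (c1 * u) ∧ t * budI da Q0 t ≤ C1 / c1 * Tr ∧
      budJ da Q0 t ≤ (C1 + C1 ^ 2 * u / 2) * Tr := fun t ht =>
    bud_n12_IJ ida hu hc1 hc11 hC1 ⟨w.ta_ge.trans ht.1, ht.2.trans w.tb_le⟩ (ht.2.trans htb)
  set η1 : ℝ := Cc * (Tr / (c1 * u) + (C1 + C1 ^ 2 * u / 2) * Tr) with hη1
  set η2 : ℝ := Cc * (C1 / c1 * Tr + (C1 + C1 ^ 2 * u / 2) * Tr) with hη2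
  have b2 : ∀ t ∈ Icc ta tb, |cs.e3 t - cr.e3 t| ≤ η1 := fun t ht =>
    (w.cmp.ce3 t (hW ht)).trans (mul_le_mul_of_nonneg_left (add_le_add (hIJ t ht).1 (hIJ t ht).2.2) hCc.le)
  have b3 : ∀ t ∈ Icc ta tb, |cs.f2 t - cr.f2 t| ≤ η2 := fun t ht =>
    (w.cmp.cf2 t (hW ht)).trans (mul_le_mul_of_nonneg_left (add_le_add (hIJ t ht).2.1 (hIJ t ht).2.2) hCc.le)
  have key := bud_n12_G2 w.c14.cs_ok w.c14.c_ok hta htb b2 b3 (fun t ht => (w.mass t ht).1) (fun t ht => (w.mass t ht).2.2)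
    h1 h2 h12
  have d1 : ∀ t ∈ Icc ta tb, deriv (i.V.Q.Gs W i.V.g) t = cs.G1 t := fun t ht =>
    (bnx_cv_deriv w.c14.cs_ok w.Gs_eq (hsub ht)).deriv
  have d2 : ∀ t ∈ Icc ta tb, deriv (W.Gam i.F.K) t = cr.G1 t := fun t ht =>
    (bnx_cv_deriv w.c14.c_ok w.G_eq (hsub ht)).deriv
  have m : ∀ t ∈ Icc ta tb, t ∈ Ioc (0 : ℝ) (C1 * u) := fun t ht => ⟨w.c14.ta0.trans_le ht.1, ht.2.trans w.tb_le⟩
  have g2 := hg2 t1 (m t1 h1) t2 (m t2 h2)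
  rw [d2 t1 h1, d2 t2 h2, abs_of_nonneg (sub_nonneg.2 h12)] at g2
  rw [d1 t1 h1, d1 t2 h2]
  have hδ : 0 ≤ t2 - t1 := sub_nonneg.2 h12
  -- `η2 + 2 (C1 u) η1 ≤ Cc M Tr`
  have e1 : η2 + 2 * (C1 * u) * η1 ≤ Cc * (3 * C1 / c1 + (1 + 2 * C1) * (C1 + C1 ^ 2 / 2)) * Tr := by
    have e0 : η2 + 2 * (C1 * u) * η1 = Cc * (3 * C1 / c1 + (1 + 2 * (C1 * u)) * (C1 + C1 ^ 2 * u / 2)) * Tr := by
      rw [hη1, hη2]; field_simp; ring
    rw [e0]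
    refine mul_le_mul_of_nonneg_right (mul_le_mul_of_nonneg_left ?_ hCc.le) hTr0
    have a1 : C1 * u ≤ C1 := by nlinarith
    have a2 : C1 ^ 2 * u / 2 ≤ C1 ^ 2 / 2 := by nlinarith [sq_nonneg C1]
    have a3 : (1 + 2 * (C1 * u)) * (C1 + C1 ^ 2 * u / 2) ≤ (1 + 2 * C1) * (C1 + C1 ^ 2 / 2) :=
      mul_le_mul (by linarith) (by linarith) (by positivity) (by positivity)
    linarith
  set M : ℝ := Cc * (3 * C1 / c1 + (1 + 2 * C1) * (C1 + C1 ^ 2 / 2)) with hM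
  have hM0 : 0 ≤ M := by positivity
  have hlu : 0 ≤ i.F.lam * u := mul_nonneg hlam hu.le
  have t3 : |cs.G1 t2 - cs.G1 t1| ≤ |(cs.G1 t2 - cs.G1 t1) - (cr.G1 t2 - cr.G1 t1)| + |cr.G1 t2 - cr.G1 t1| := by
    have := abs_add_le ((cs.G1 t2 - cs.G1 t1) - (cr.G1 t2 - cr.G1 t1)) (cr.G1 t2 - cr.G1 t1)
    simpa using this
  have t4 : η2 + 2 * (C1 * u) * η1 + 2 * Cc * (C * i.V.d0) ≤ (M + 2 * Cc * C) * i.V.d0 := by
    have h5 : M * Tr ≤ M * i.V.d0 := mul_le_mul_of_nonneg_left hTrd hM0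
    have h6 : (M + 2 * Cc * C) * i.V.d0 = M * i.V.d0 + 2 * Cc * (C * i.V.d0) := by ring
    rw [h6]
    linarith
  have t5 : Cg * (i.F.lam * u) ≤ |Cg| * (i.F.lam * u) := mul_le_mul_of_nonneg_right (le_abs_self _) hlu
  calc |cs.G1 t2 - cs.G1 t1| ≤ (η2 + 2 * (C1 * u) * η1 + 2 * Cc * (C * i.V.d0)) * (t2 - t1) + Cg * (i.F.lam * u) * (t2 - t1) := by
        linarith
    _ ≤ ((M + 2 * Cc * C) * i.V.d0 + |Cg| * (i.F.lam * u)) * (t2 - t1) := by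
        rw [← add_mul]
        exact mul_le_mul_of_nonneg_right (by linarith) hδ
    _ ≤ (M + 2 * Cc * C + |Cg|) * (i.V.d0 + i.F.lam * u) * (t2 - t1) := by
        refine mul_le_mul_of_nonneg_right ?_ hδ
        have q1 : 0 ≤ |Cg| * i.V.d0 := mul_nonneg (abs_nonneg _) hd0
        have q2 : 0 ≤ (M + 2 * Cc * C) * (i.F.lam * u) := by positivity
        have q3 : (M + 2 * Cc * C + |Cg|) * (i.V.d0 + i.F.lam * u)
            = (M + 2 * Cc * C) * i.V.d0 + |Cg| * (i.F.lam * u) + |Cg| * i.V.d0 + (M + 2 * Cc * C) * (i.F.lam * u) := by ring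
        rw [q3]
        linarith

theorem bnx_third {a ε : ℝ} (ha : 0 ≤ a) (hε : 0 < ε) : a * (ε / (3 * (a + 1))) ≤ ε / 3 := by
  rw [mul_div_assoc', div_le_div_iff₀ (by positivity) (by norm_num)]
  have : ε * (3 * (a + 1)) = a * ε * 3 + 3 * ε := by ring
  rw [this]
  linarith

/-- the function of (C14) has the derivative `budPhi1` in the window -/
theorem bnx_c14_deriv {i : BdVI X W} {cs cr : BudCv} {Q0 Cc c1 C1 C s ta tb : ℝ} (w : BnxWinAt i cs cr Q0 Cc c1 C1 C s ta tb)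
    {r : ℝ} (hr : r ∈ Ioo (i.V.r0 - s * i.V.bbuf) (i.V.r0 + s * i.V.bbuf)) :
    HasDerivAt (fun r => i.V.Q.Gs W i.V.g (i.F.kst W r) - r) (budPhi1 cs cr (i.F.kst W) r) r := by
  refine (bud_n12_deriv w.c14 hr).congr_of_eventuallyEq ?_
  filter_upwards [Ioo_mem_nhds hr.1 hr.2] with y hy
  unfold budPhi
  rw [w.Gs_eq _ (Ioo_subset_Icc_self (bud_n12_sub w.c14 (Ioo_subset_Icc_self (w.c14.k_mem y hy))))]

/-- **E2 = `BudB.C14`** with `A_* = 2 √T` (l.1403-1440).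
Proof: E1; `bud_n12_deriv` + `Gs_eq` (the two functions agree near `r`: `k_*` maps `(ra,rb)` into `(ta,tb) ⊆ [0,Q0]`) give `deriv = budPhi1`;  `bud_n12_curv_tr` at `t0 = ta`:
error `C ((∫ min(u,s)|δα_s|) + (tb - ta) C d₀) ≤ C (ε' + C² b_buf) d₀` (`hT`; `als_eq, al_eq`: the integrand is `min u s * |V.dal s|`; `b_buf ≤ u (√L + λ^ρ) → 0`);  `ident` under the integral;
`|2 e3(ta)/G1(ta)² - 2 √T| ≤ ε'` (A5, A6, `hP.gam1`), `|∫ (α~ - β₀)| ≤ Ct d₀ (r₂ - r₁)` (`mt_bd`). -/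
theorem bnx_c14 (hS : BdStd X W Fam K) (hP : BdP11 X W Fam c) {Q0 Cc : ℝ} (hQ0 : 0 < Q0) (hCK : c.CK ≤ Q0)
    (hQ : BnxClkBd X W Fam Q0) (hCc : 0 < Cc) (hSc : BudScReq W.Gam Q0 Cc) {n : ℕ} (hn1 : 1 ≤ n) (hn : n ≤ X.J + 1)
    (hZ : BnxZ1 X W Fam n) (hL : BnxLSmall X W Fam n) {C0 Ct s : ℝ} (hs0 : 0 < s) (hs1 : s ≤ 1)
    (hG : BnxSNear X W Fam n C0 s) (hTil : BnxTil X W Fam n Ct s) (hT : BnxTransport X W Fam n Q0) :
    BnxC14 X W Fam n (2 * Real.sqrt X.T) (s / 2) := by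
  intro ε hε
  obtain ⟨c1, C1, C, hc1, hc11, hC1, hC, N1, hwin⟩ := bnx_win hS hP hQ0 hCK hQ hCc hSc hn1 hn hZ hL hs0 hs1 hG hTil
  obtain ⟨Ccv, hCcv, hcurv⟩ := bud_n12_curv_tr Cc (1 / Cc) c1 C1 hCc (by positivity) hc1 hc11 hC1
  have hC10 : 0 < C1 := zero_lt_one.trans_le hC1
  have hT0 : 0 < X.T := zero_lt_one.trans hS.fix.T1
  set ε1 : ℝ := ε / (3 * (Ccv + 1)) with hε1
  set εA : ℝ := ε / (3 * (|Ct| + 1)) with hεA
  set ε2 : ℝ := ε / (3 * (2 * Ccv * C ^ 2 + 1)) with hε2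
  have hε1p : 0 < ε1 := by positivity
  have hεAp : 0 < εA := by positivity
  have hε2p : 0 < ε2 := by positivity
  obtain ⟨η, hη, hA⟩ := bnx_A hT0 hCc εA hεAp
  obtain ⟨N2, hv⟩ := bnx_viol hS hn1 hn hZ hL (min (min ε2 (η / C1)) (1 / C1)) (by positivity)
  obtain ⟨N3, hTr⟩ := hT ε1 hε1p
  obtain ⟨N4, hg1⟩ := hP.gam1 C1 η hη
  obtain ⟨N5, htil⟩ := hTil 1 one_pos
  refine ⟨max (max (max N1 N2) (max N3 N4)) N5, fun i hi hN => ?_⟩
  obtain ⟨cs, cr, ta, tb, w⟩ := hwin i hi (le_trans (le_trans (le_trans (le_max_left _ _) (le_max_left _ _)) (le_max_left _ _)) hN)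
  have v := hv i hi (le_trans (le_trans (le_trans (le_max_right _ _) (le_max_left _ _)) (le_max_left _ _)) hN)
  have hTr' := hTr i hi (le_trans (le_trans (le_trans (le_max_left _ _) (le_max_right _ _)) (le_max_left _ _)) hN)
  have hg1' := hg1 i.F hi.1 (le_trans (le_trans (le_trans (le_max_right _ _) (le_max_right _ _)) (le_max_left _ _)) hN)
  have til := htil i hi (le_trans (le_max_right _ _) hN)
  have hu := BdFr.bds_u_pos v.fok hS.fix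
  have hd0 : 0 ≤ i.V.d0 := mul_nonneg hu.le v.L_pos.le
  obtain ⟨hb0, hb2⟩ := bnx_bbuf_le hS i hi
  have hu2 : i.F.u ≤ ε2 := v.u_le.trans ((min_le_left _ _).trans (min_le_left _ _))
  have huη : C1 * i.F.u ≤ η := by
    have := v.u_le.trans ((min_le_left _ _).trans (min_le_right _ _))
    rw [le_div_iff₀ hC10] at this
    linarith
  have hu1 : C1 * i.F.u ≤ 1 := by
    have := v.u_le.trans (min_le_right _ _)
    rw [le_div_iff₀ hC10] at this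
    linarith
  have hsubB : i.V.Buf (s / 2) ⊆ Ioo (i.V.r0 - s * i.V.bbuf) (i.V.r0 + s * i.V.bbuf) := by
    intro r hr
    have : s / 2 * i.V.bbuf < s * i.V.bbuf := mul_lt_mul_of_pos_right (by linarith) hb0
    exact ⟨by linarith [hr.1], by linarith [hr.2]⟩
  have hsubB' : Ioo (i.V.r0 - s * i.V.bbuf) (i.V.r0 + s * i.V.bbuf) ⊆ i.V.Buf s := Ioo_subset_Icc_self
  refine ⟨fun r hr => (bnx_c14_deriv w (hsubB hr)).differentiableAt, fun r1 hr1 r2 hr2 h12 => ?_⟩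
  rw [(bnx_c14_deriv w (hsubB hr1)).deriv, (bnx_c14_deriv w (hsubB hr2)).deriv]
  have hta_mem : ta ∈ Icc ta tb := ⟨le_rfl, w.c14.tab⟩
  have key := hcurv cs cr (i.F.kst W) Q0 ta tb _ _ ta i.F.u (C * i.V.d0) w.c14 w.cmp hta_mem hu hu1 w.ta_ge w.tb_le
    (fun t ht => (w.mass t ht).1) (fun t ht => (w.mass t ht).2.1) (fun t ht => (w.mass t ht).2.2)
    r1 (hsubB hr1) r2 (hsubB hr2) h12
  have hIcc : ∀ r ∈ uIcc r1 r2, r ∈ Ioo (i.V.r0 - s * i.V.bbuf) (i.V.r0 + s * i.V.bbuf) := by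
    intro r hr
    rw [uIcc_of_le h12] at hr
    exact ⟨(hsubB hr1).1.trans_le hr.1, hr.2.trans_lt (hsubB hr2).2⟩
  have eI : ∫ r in r1..r2, (cs.al (i.F.kst W r) - cr.al (i.F.kst W r)) = ∫ r in r1..r2, (i.V.altil r - i.F.beta0 r) := by
    refine intervalIntegral.integral_congr fun r hr => ?_
    show cs.al (i.F.kst W r) - cr.al (i.F.kst W r) = i.V.altil r - i.F.beta0 r
    rw [(w.ident r (hIcc r hr)).1, (w.ident r (hIcc r hr)).2]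
  rw [eI, bnx_win_tr w] at key
  set I : ℝ := ∫ r in r1..r2, (i.V.altil r - i.F.beta0 r) with hI
  have hδ : 0 ≤ r2 - r1 := sub_nonneg.2 h12
  have hIle : |I| ≤ |Ct| * i.V.d0 * (r2 - r1) := by
    rw [← Real.norm_eq_abs]
    have hb := intervalIntegral.norm_integral_le_of_norm_le_const (a := r1) (b := r2) (C := |Ct| * i.V.d0)
      (f := fun r => i.V.altil r - i.F.beta0 r) (fun r hr => ?_)
    · rwa [abs_of_nonneg hδ] at hb
    · rw [Real.norm_eq_abs]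
      exact (til.mt_bd r (hsubB' (hIcc r (uIoc_subset_uIcc hr)))).trans (mul_le_mul_of_nonneg_right (le_abs_self _) hd0)
  have hsub := bud_n12_sub w.c14
  have hA' : |2 * cr.e3 ta / cr.G1 ta ^ 2 - 2 * Real.sqrt X.T| ≤ εA := by
    refine hA cr Q0 ta w.c14.c_ok (Ioo_subset_Icc_self (hsub hta_mem)) ((w.c14.tab.trans w.tb_le).trans huη) ?_
    rw [← (bnx_cv_deriv w.c14.c_ok w.G_eq (hsub hta_mem)).deriv]
    exact hg1' ta ⟨w.c14.ta0, w.c14.tab.trans w.tb_le⟩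
  set A0 : ℝ := 2 * cr.e3 ta / cr.G1 ta ^ 2 with hA0
  set D : ℝ := budPhi1 cs cr (i.F.kst W) r2 - budPhi1 cs cr (i.F.kst W) r1 with hD
  have e1 : D + 2 * Real.sqrt X.T * I = (D + A0 * I) - (A0 - 2 * Real.sqrt X.T) * I := by ring
  rw [e1]
  refine (abs_sub _ _).trans ?_
  rw [abs_mul]
  have f1 : |A0 - 2 * Real.sqrt X.T| * |I| ≤ εA * (|Ct| * i.V.d0 * (r2 - r1)) :=
    mul_le_mul hA' hIle (abs_nonneg _) hεAp.le
  have f2 : (tb - ta) * (C * i.V.d0) ≤ 2 * C ^ 2 * ε2 * i.V.d0 := by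
    have g1 : tb - ta ≤ C * (2 * ε2) := w.len.trans (mul_le_mul_of_nonneg_left (hb2.trans (by linarith)) hC.le)
    calc (tb - ta) * (C * i.V.d0) ≤ C * (2 * ε2) * (C * i.V.d0) := mul_le_mul_of_nonneg_right g1 (by positivity)
      _ = 2 * C ^ 2 * ε2 * i.V.d0 := by ring
  have f3 : Ccv * ((∫ t in (0 : ℝ)..Q0, min i.F.u t * |i.V.dal t|) + (tb - ta) * (C * i.V.d0)) * (r2 - r1)
      ≤ Ccv * (ε1 * i.V.d0 + 2 * C ^ 2 * ε2 * i.V.d0) * (r2 - r1) :=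
    mul_le_mul_of_nonneg_right (mul_le_mul_of_nonneg_left (add_le_add hTr' f2) hCcv.le) hδ
  have g1 : Ccv * ε1 ≤ ε / 3 := bnx_third hCcv.le hε
  have g2 : Ccv * (2 * C ^ 2 * ε2) ≤ ε / 3 := by
    have := bnx_third (a := 2 * Ccv * C ^ 2) (by positivity) hε
    rw [← hε2] at this
    linarith
  have g3 : εA * |Ct| ≤ ε / 3 := by
    have := bnx_third (abs_nonneg Ct) hε
    rw [← hεA] at this
    linarith
  have hdd : 0 ≤ i.V.d0 * (r2 - r1) := mul_nonneg hd0 hδ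
  calc |D + A0 * I| + |A0 - 2 * Real.sqrt X.T| * |I|
      ≤ Ccv * (ε1 * i.V.d0 + 2 * C ^ 2 * ε2 * i.V.d0) * (r2 - r1) + εA * (|Ct| * i.V.d0 * (r2 - r1)) := by linarith
    _ = (Ccv * ε1 + Ccv * (2 * C ^ 2 * ε2) + εA * |Ct|) * (i.V.d0 * (r2 - r1)) := by ring
    _ ≤ ε * (i.V.d0 * (r2 - r1)) := mul_le_mul_of_nonneg_right (by linarith) hdd
    _ = ε * i.V.d0 * (r2 - r1) := by ring

/-- **E3 = `BudB.Drift`** (l.2012).
Proof: E1; `t_j = K_s(α r_j) ∈ [ta,tb]` (`Ks_mem`), `deriv Γ_s = cs.G1`, `deriv Γ_* = cr.G1` (A6);  `bud_n12_G2` with `η1 = Cc (I + J)`, `η2 = Cc (t I + J)` (`cmp`), `bud_n12_IJ`: `η2 + 2 amax η1 ≤ C Tr ≤ C d₀` (`hT` at `ε = 1`), `dmax = C d₀`;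
`|cr.G1 t₂ - cr.G1 t₁| ≤ C λ u |t₂ - t₁|` (`hP.gam2`).   (WLOG `t₁ ≤ t₂`.) -/
theorem bnx_drift (hS : BdStd X W Fam K) (hP : BdP11 X W Fam c) {Q0 Cc : ℝ} (hQ0 : 0 < Q0) (hCK : c.CK ≤ Q0)
    (hQ : BnxClkBd X W Fam Q0) (hCc : 0 < Cc) (hSc : BudScReq W.Gam Q0 Cc) {n : ℕ} (hn1 : 1 ≤ n) (hn : n ≤ X.J + 1)
    (hZ : BnxZ1 X W Fam n) (hL : BnxLSmall X W Fam n) {C0 Ct s : ℝ} (hs0 : 0 < s) (hs1 : s ≤ 1)
    (hG : BnxSNear X W Fam n C0 s) (hTil : BnxTil X W Fam n Ct s) (hT : BnxTransport X W Fam n Q0) :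
    BnxDrift X W Fam n (s / 2) := by
  obtain ⟨c1, C1, C, hc1, hc11, hC1, hC, N1, hwin⟩ := bnx_win hS hP hQ0 hCK hQ hCc hSc hn1 hn hZ hL hs0 hs1 hG hTil
  obtain ⟨N2, hv⟩ := bnx_viol hS hn1 hn hZ hL 1 one_pos
  obtain ⟨N3, hTr⟩ := hT 1 one_pos
  obtain ⟨Cg, N4, hg2⟩ := hP.gam2 C1
  refine ⟨Cc * (3 * C1 / c1 + (1 + 2 * C1) * (C1 + C1 ^ 2 / 2)) + 2 * Cc * C + |Cg|, max (max N1 N2) (max N3 N4),
    fun i hi hN r1 hr1 r2 hr2 => ?_⟩
  obtain ⟨cs, cr, ta, tb, w⟩ := hwin i hi (le_trans (le_trans (le_max_left _ _) (le_max_left _ _)) hN)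
  have v := hv i hi (le_trans (le_trans (le_max_right _ _) (le_max_left _ _)) hN)
  have hu := BdFr.bds_u_pos v.fok hS.fix
  have hd0 : 0 ≤ i.V.d0 := mul_nonneg hu.le v.L_pos.le
  have hlam := (BdFr.bds_lam_pos v.fok).le
  have hTr' := hTr i hi (le_trans (le_trans (le_max_left _ _) (le_max_right _ _)) hN)
  have hg2' := hg2 i.F hi.1 (le_trans (le_trans (le_max_right _ _) (le_max_right _ _)) hN)
  have m1 := w.Ks_mem r1 hr1
  have m2 := w.Ks_mem r2 hr2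
  rcases le_total (i.V.Q.Ks W i.V.g (i.V.Q.al r1)) (i.V.Q.Ks W i.V.g (i.V.Q.al r2)) with h | h
  · rw [abs_of_nonneg (sub_nonneg.2 h)]
    exact bnx_drift_at w hCc hc1 hc11 hC1 hC hu v.u_le hd0 hlam hTr' hg2' m1 m2 h
  · rw [abs_sub_comm, abs_sub_comm (i.V.Q.Ks W i.V.g (i.V.Q.al r2)), abs_of_nonneg (sub_nonneg.2 h)]
    exact bnx_drift_at w hCc hc1 hc11 hC1 hC hu v.u_le hd0 hlam hTr' hg2' m2 m1 h

theorem bnx_SNear_mono {n : ℕ} {C s s' : ℝ} (h : BnxSNear X W Fam n C s) (hs : s' ≤ s)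
    (hb : ∀ i : BdVI X W, i.Ok Fam n 2 → 0 ≤ i.V.bbuf) : BnxSNear X W Fam n C s' := by
  obtain ⟨N0, h⟩ := h
  refine ⟨N0, fun i hi hN r hr => h i hi hN r ?_⟩
  have := mul_le_mul_of_nonneg_right hs (hb i hi)
  exact ⟨by linarith [hr.1], by linarith [hr.2]⟩

/-- `b_buf ≥ 0` -/
theorem bnx_bbuf_nonneg (hS : BdStd X W Fam K) {n : ℕ} (i : BdVI X W) (hi : i.Ok Fam n 2) : 0 ≤ i.V.bbuf := by
  have hF := hS.ok _ hi.1
  have hu := BdFr.bds_u_pos hF hS.fix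
  have hl := BdFr.bds_lam_pos hF
  unfold BdViol.bbuf
  have := Real.sqrt_nonneg i.V.L
  have := Real.rpow_nonneg hl.le X.rho
  positivity

/-- **the exit of N12 + the facts on `r~`, `α~`** in one call (for `BudB.curv` and for N18a) -/
theorem bnx_curv (hS : BdStd X W Fam K) (hW : W.IsHub) (hP : BdP11 X W Fam c) (h9 : Bd7P9 X Fam) {Q0 : ℝ} (hQ0 : 0 < Q0)
    (hCK : c.CK ≤ Q0) (hQ : BnxClkBd X W Fam Q0) {n : ℕ} (hn1 : 1 ≤ n) (hn : n ≤ X.J + 1) (hZ : BnxZ1 X W Fam n)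
    (hL : BnxLSmall X W Fam n) {C0 s0 : ℝ} (hs0 : 0 < s0) (hs01 : s0 ≤ 1) (hG : BnxSNear X W Fam n C0 s0)
    (hT : BnxTransport X W Fam n Q0) :
    ∃ s : ℝ, 0 < s ∧ s ≤ 1 ∧ BnxC14 X W Fam n (2 * Real.sqrt X.T) s ∧ BnxDrift X W Fam n s ∧
      ∃ C : ℝ, 0 < C ∧ BnxTil X W Fam n C (2 * s) := by
  obtain ⟨Cc, hCc, hSc⟩ := bnx_screq hW hQ0
  have hSeed := bnx_seed hS hP hn1 hn hZ hL
  obtain ⟨Ct, hCt, hTil⟩ := bnx_til hS hP h9 hQ0 hQ hCc hSc hn1 hn hZ hL hSeed hs0 hs01 hG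
  have hG' : BnxSNear X W Fam n C0 (s0 / 2) := bnx_SNear_mono hG (by linarith) (bnx_bbuf_nonneg hS)
  have h1 : 0 < s0 / 2 := by linarith
  have h2 : s0 / 2 ≤ 1 := by linarith
  refine ⟨s0 / 2 / 2, by linarith, by linarith, bnx_c14 hS hP hQ0 hCK hQ hCc hSc hn1 hn hZ hL h1 h2 hG' hTil hT,
    bnx_drift hS hP hQ0 hCK hQ hCc hSc hn1 hn hZ hL h1 h2 hG' hTil hT, Ct, hCt, ?_⟩
  have e : 2 * (s0 / 2 / 2) = s0 / 2 := by ring
  rw [e]
  exact hTil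

/-! ## F. the bridge to `Bud/HubBDefs` (157): `BudB.PathStd + BdP11X ⟹ BdP11`, exits in the form of `Bud/HubB` -/

/-- **what `BudB.PathStd` lacks for N11, N12** (all of it is in LL03).      PRODUCER `bi_p11x` (`Bud/Inst`, helper79)
`d_mask`: on the mask `d = -h_*`, (P4);   `p8`: (P8) INCLUDING the mask (LL03 l.446-453; `LlP8` is over all masses);
`gam1`: (P2) + `ℓ² b_∘ → T`;   `gam2`: the estimate `Γ̂'' = -2 λ P E χ̂³ + O(ξ ρ₁)` in the proof of Lemma paths:lift (LL03 l.160-168). -/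
structure BdP11X (X : BdFix) (W : BdWorld) (Fam : BdFr → Prop) (Cm : ℝ) : Prop where
  d_mask : ∀ F, Fam F → ∀ v ∈ Ioo (0 : ℝ) F.xm, |F.d v| ≤ Cm * v
  p8 : BdSub (fun F : BdFr => F.N) Fam (fun F => ∫ v in (0 : ℝ)..1, F.d v ^ 2 / F.cg v) (BudB.p8B X)
  gam1 : ∀ C1 ε : ℝ, 0 < ε → ∃ N0 : ℕ, ∀ F, Fam F → N0 ≤ F.N → ∀ t ∈ Ioc (0 : ℝ) (C1 * F.u), |deriv (W.Gam F.K) t - 1 / X.T| ≤ ε
  gam2 : ∀ C1 : ℝ, ∃ C : ℝ, ∃ N0 : ℕ, ∀ F, Fam F → N0 ≤ F.N → ∀ t1 ∈ Ioc (0 : ℝ) (C1 * F.u), ∀ t2 ∈ Ioc (0 : ℝ) (C1 * F.u),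
    |deriv (W.Gam F.K) t2 - deriv (W.Gam F.K) t1| ≤ C * (F.lam * F.u) * |t2 - t1|

/-- `λ₁ U³ ≤ x³` -/
theorem bnx_lamU_le (hX : X.Ok) {F : BdFr} (hF : F.Ok X) : F.lam1 X * F.U X ^ 3 ≤ F.x ^ 3 := by
  have hl := BdFr.bds_lam_pos hF
  have hl1 := (BdFr.bds_lam_lt_one hF hX).le
  have hx := BdFr.bds_x_pos hF
  have e : F.lam1 X * F.U X ^ 3 = F.x ^ 3 * F.lam ^ (1 + X.eta + 3 * (-(X.sS / 2))) := by
    have h3 : (F.lam ^ (-(X.sS / 2))) ^ 3 = F.lam ^ (3 * (-(X.sS / 2))) := by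
      rw [← Real.rpow_natCast, ← Real.rpow_mul hl.le]
      congr 1
      push_cast
      ring
    unfold BdFr.lam1 BdFr.U
    rw [mul_pow, h3, Real.rpow_add hl (1 + X.eta)]
    ring
  rw [e]
  have h1 : F.lam ^ (1 + X.eta + 3 * (-(X.sS / 2))) ≤ 1 := by
    apply Real.rpow_le_one hl.le hl1
    have := hX.tau0_pos; have := hX.tau0_le; have := hX.eta_le
    unfold BdFix.sS
    nlinarith
  calc F.x ^ 3 * F.lam ^ (1 + X.eta + 3 * (-(X.sS / 2))) ≤ F.x ^ 3 * 1 := mul_le_mul_of_nonneg_left h1 (by positivity)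
    _ = F.x ^ 3 := mul_one _

/-- (l.1374) "the low clock is controlled because `λ₁ U³ log(1/x) ≲ w_c`" -/
theorem bnx_sd_wc (hX : X.Ok) (C : ℝ) : ∃ N0 : ℕ, ∀ F : BdFr, F.Ok X → N0 ≤ F.N → C * BudB.sd X F ≤ F.wc X := by
  obtain ⟨N0, h0⟩ := ff_x_small X (a := 1) (ε := 1 / (|C| + 1)) one_pos (by positivity)
  refine ⟨N0, fun F hF hN => ?_⟩
  have hx := BdFr.bds_x_pos hF
  have hx1 := h0 F hF hN
  rw [Real.rpow_one] at hx1
  have hC : 0 < |C| + 1 := by positivity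
  have hlog0 : 0 ≤ Real.log (1 / F.x) := by
    apply Real.log_nonneg
    rw [le_div_iff₀ hx]
    linarith [BdFr.bds_x_lt_one hF]
  have hlog : Real.log (1 / F.x) ≤ 1 / F.x := (Real.log_le_sub_one_of_pos (by positivity)).trans (by linarith)
  have hA0 : 0 ≤ F.lam1 X * F.U X ^ 3 := by
    have := BdFr.bds_lam_pos hF
    have := BdFr.bds_U_pos hF
    unfold BdFr.lam1
    positivity
  have hsd : BudB.sd X F ≤ F.x ^ 2 := by
    unfold BudB.sd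
    calc F.lam1 X * F.U X ^ 3 * Real.log (1 / F.x) ≤ F.x ^ 3 * (1 / F.x) :=
          mul_le_mul (bnx_lamU_le hX hF) hlog hlog0 (by positivity)
      _ = F.x ^ 2 := by field_simp
  have hsd0 : 0 ≤ BudB.sd X F := by unfold BudB.sd; exact mul_nonneg hA0 hlog0
  calc C * BudB.sd X F ≤ (|C| + 1) * F.x ^ 2 :=
        mul_le_mul (by linarith [le_abs_self C]) hsd hsd0 hC.le
    _ = ((|C| + 1) * F.x) * F.x := by ring
    _ ≤ 1 * F.x := by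
        refine mul_le_mul_of_nonneg_right ?_ hx.le
        calc (|C| + 1) * F.x ≤ (|C| + 1) * (1 / (|C| + 1)) := mul_le_mul_of_nonneg_left hx1 hC.le
          _ = 1 := by field_simp
    _ = F.x := one_mul _
    _ ≤ F.wc X := bd7_ar_x_le_wc hX hF

/-- the field `seed` of `BdP11` from `PathStd.d_seed` -/
theorem bnx_p11_seed (hS : BdStd X W Fam K) {P : BudB.PCst} (hP : BudB.PathStd X W Fam P) (c1 C1 : ℝ) (hc1 : 0 < c1) :
    BdSub (fun i : BdFr × ℝ => i.1.N) (fun i => Fam i.1 ∧ i.2 ∈ Icc (c1 * i.1.u) (C1 * i.1.u))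
      (fun i => |i.1.d i.2|) (fun i => i.1.lam1 X * i.1.U X ^ 3) := by
  have hX := hS.fix
  have hA0 : ∀ F, Fam F → 0 ≤ F.lam1 X * F.U X ^ 3 := fun F hF => by
    have := BdFr.bds_lam_pos (hS.ok F hF)
    have := BdFr.bds_U_pos (hS.ok F hF)
    unfold BdFr.lam1
    positivity
  refine (bd_sub_iff (fun i _ => abs_nonneg _) (fun i hi => hA0 i.1 hi.1)).2 fun ε hε => ?_
  obtain ⟨N1, h1⟩ := BudB.ev_Xr hX hc1
  obtain ⟨N2, h2⟩ := BudB.ev_u hX (ε := P.vS / (|C1| + 1)) (div_pos hP.vS_pos (by positivity))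
  refine ⟨P.Cd / (6 * ε), max N1 N2, fun i hi hN => ?_⟩
  obtain ⟨hF, hv⟩ := hi
  have hO := hS.ok _ hF
  have hu := BdFr.bds_u_pos hO hX
  have hx := BdFr.bds_x_pos hO
  have hNpos : (0 : ℝ) < i.1.N := by
    have := hO.N2
    positivity
  have a1 : i.1.xm ≤ i.2 := by
    have e : i.1.x = i.1.Xr * i.1.u := by unfold BdFr.Xr; field_simp
    calc i.1.xm ≤ i.1.x := by unfold BdFr.xm; exact div_le_self hx.le hO.ell1
      _ = i.1.Xr * i.1.u := e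
      _ ≤ c1 * i.1.u := mul_le_mul_of_nonneg_right (h1 _ hO (le_trans (le_max_left _ _) hN)) hu.le
      _ ≤ i.2 := hv.1
  have a2 : i.2 ≤ P.vS := by
    have hC : 0 < |C1| + 1 := by positivity
    calc i.2 ≤ C1 * i.1.u := hv.2
      _ ≤ (|C1| + 1) * i.1.u := mul_le_mul_of_nonneg_right (by linarith [le_abs_self C1]) hu.le
      _ ≤ (|C1| + 1) * (P.vS / (|C1| + 1)) := mul_le_mul_of_nonneg_left (h2 _ hO (le_trans (le_max_right _ _) hN)) hC.le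
      _ = P.vS := by field_simp
  have a3 := hP.d_seed _ hF _ ⟨a1, a2⟩
  have a4 : Real.log (1 / i.1.x) ≤ (i.1.N : ℝ) ^ ε / (6 * ε) := by
    have e : Real.log (1 / i.1.x) = 1 / 6 * Real.log i.1.N := by
      unfold BdFr.x
      rw [one_div, Real.log_inv, Real.log_rpow hNpos]
      ring
    rw [e]
    have := Real.log_le_rpow_div hNpos.le hε
    calc 1 / 6 * Real.log i.1.N ≤ 1 / 6 * ((i.1.N : ℝ) ^ ε / ε) := mul_le_mul_of_nonneg_left this (by norm_num)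
      _ = _ := by field_simp
  calc |i.1.d i.2| ≤ P.Cd * BudB.sd X i.1 := a3
    _ = P.Cd * (i.1.lam1 X * i.1.U X ^ 3) * Real.log (1 / i.1.x) := by unfold BudB.sd; ring
    _ ≤ P.Cd * (i.1.lam1 X * i.1.U X ^ 3) * ((i.1.N : ℝ) ^ ε / (6 * ε)) :=
        mul_le_mul_of_nonneg_left a4 (mul_nonneg hP.Cd_pos.le (hA0 _ hF))
    _ = _ := by field_simp

/-- **`PathStd + BdP11X ⟹ BdP11`** -/
theorem bnx_p11 (hS : BdStd X W Fam K) {P : BudB.PCst} (hP : BudB.PathStd X W Fam P) {Cm : ℝ} (hR : BdP11X X W Fam Cm) :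
    BdP11 X W Fam ⟨P.CK + |Cm| + 1 + |P.dmax| / P.vS, max P.bmax 0⟩ := by
  have hvS := hP.vS_pos
  have hq : 0 ≤ |P.dmax| / P.vS := by positivity
  have hCK := hP.CK1
  have hCm := abs_nonneg Cm
  refine ⟨by show 1 ≤ P.CK + |Cm| + 1 + |P.dmax| / P.vS; linarith, le_max_right _ _, hP.K_clk, fun F hF v hv => ?_, hP.q_eq,
    fun F hF g hg v hv => ?_, fun F hF g hg v hv => (hP.b_le F hF g hg v hv).trans (le_max_left _ _), hP.d_meas, ?_,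
    bnx_p11_seed hS hP, hR.p8, hR.gam1, hR.gam2⟩
  · show F.K v ≤ (P.CK + |Cm| + 1 + |P.dmax| / P.vS) * v
    have := (hP.K_le F hF v hv).1
    have : 0 ≤ (|Cm| + 1 + |P.dmax| / P.vS) * v := mul_nonneg (by linarith) hv.1.le
    nlinarith
  · rw [hP.K_eq F hF g hg v hv]; ring
  · obtain ⟨N0, h0⟩ := bnx_sd_wc hS.fix P.Cd
    refine ⟨N0, fun F hF hN v hv => ?_⟩
    show |F.d v| ≤ (P.CK + |Cm| + 1 + |P.dmax| / P.vS) * (v + F.wc X)
    have hO := hS.ok F hF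
    have hwc := (BdFr.wc_pos' hS.fix hO).le
    have hv0 := hv.1.le
    have t1 : 0 ≤ P.CK * (v + F.wc X) := mul_nonneg (by linarith) (by linarith)
    have t2 : 0 ≤ |Cm| * (v + F.wc X) := mul_nonneg hCm (by linarith)
    have t3 : 0 ≤ |P.dmax| / P.vS * (v + F.wc X) := mul_nonneg hq (by linarith)
    rcases lt_or_ge v F.xm with h1 | h1
    · have := hR.d_mask F hF v ⟨hv.1, h1⟩
      have : Cm * v ≤ |Cm| * (v + F.wc X) :=
        (mul_le_mul_of_nonneg_right (le_abs_self _) hv0).trans (mul_le_mul_of_nonneg_left (by linarith) hCm)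
      nlinarith
    · rcases le_or_gt v P.vS with h2 | h2
      · have := hP.d_seed F hF v ⟨h1, h2⟩
        have := h0 F hO hN
        nlinarith
      · have a := hP.d_le F hF v hv
        have b : |P.dmax| ≤ |P.dmax| / P.vS * (v + F.wc X) := by
          rw [div_mul_eq_mul_div, le_div_iff₀ hvS]
          exact mul_le_mul_of_nonneg_left (by linarith) (abs_nonneg _)
        have := le_abs_self P.dmax
        nlinarith

/-- the first clause of `BudB.BufGeo` does not see the potential -/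
theorem bnx_snear_of_geo (hS : BdStd X W Fam K) (hpot : BudB.PotEx X W Fam) {n : ℕ} (hn : n ≤ X.J + 1) (hG : BudB.BufGeo X W Fam n) :
    ∃ C s : ℝ, 0 < s ∧ s ≤ 1 ∧ BnxSNear X W Fam n C s := by
  obtain ⟨C, s, hs0, hs1, N1, h1⟩ := hG
  obtain ⟨N2, h2⟩ := hpot
  refine ⟨C, s, hs0, hs1, max N1 N2, fun i hi hN => ?_⟩
  obtain ⟨H, _, hH⟩ := h2 ⟨i.F, i.V.g, i.V.Q⟩ (BudB.vst_I hS hn hi) (le_trans (le_max_right _ _) hN)
  exact (h1 i hi (le_trans (le_max_left _ _) hN) H hH).1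

/-- **`BudB.transport`** -/
theorem bnx_hub_tr (hS : BdStd X W Fam K) (hP : BdP11 X W Fam c) (h7a : BudB.C7a X W Fam) (h7 : BudC7al X W Fam) :
    ∃ Q0 : ℝ, 0 < Q0 ∧ c.CK ≤ Q0 ∧ BnxClkBd X W Fam Q0 ∧
      ∀ n, 1 ≤ n → n ≤ X.J + 1 → BudZ X W Fam n → BudB.LSmall X W Fam n → BudC13 X W Fam n → BudB.Transport X W Fam n Q0 := by
  obtain ⟨Q0, h0, h1, h2, h⟩ := bnx_trI hS hP h7a h7
  exact ⟨Q0, h0, h1, h2, fun n hn1 hn hZ hL h13 =>
    bnx_transport hS hn1 hn (bnx_Z1_of_Z hZ) hL (h n hn1 hn (bnx_Z1_of_Z hZ) h13)⟩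

/-- **`BudB.curv`** -/
theorem bnx_hub_curv (hS : BdStd X W Fam K) (hW : W.IsHub) (hP : BdP11 X W Fam c) (h9 : Bd7P9 X Fam) {Q0 : ℝ} (hQ0 : 0 < Q0)
    (hCK : c.CK ≤ Q0) (hQ : BnxClkBd X W Fam Q0) {n : ℕ} (hn1 : 1 ≤ n) (hn : n ≤ X.J + 1) (hZ : BudZ X W Fam n)
    (hL : BudB.LSmall X W Fam n) (hpot : BudB.PotEx X W Fam) (hG : BudB.BufGeo X W Fam n) (hT : BudB.Transport X W Fam n Q0) :
    ∃ s : ℝ, 0 < s ∧ s ≤ 1 ∧ BudB.C14 X W Fam n (2 * Real.sqrt X.T) s ∧ BudB.Drift X W Fam n s ∧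
      ∃ C : ℝ, 0 < C ∧ BnxTil X W Fam n C (2 * s) := by
  obtain ⟨C0, s0, hs0, hs01, hG'⟩ := bnx_snear_of_geo hS hpot hn hG
  exact bnx_curv hS hW hP h9 hQ0 hCK hQ hn1 hn (bnx_Z1_of_Z hZ) hL hs0 hs01 hG' hT

end

end Claimed.Agent.R286
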