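import Claimed.Agent.R286.Bud.HubBDefs
import Claimed.Agent.R286.Bud.N11
import Claimed.Agent.R286.Bud.RigInst
import Claimed.Agent.R286.Bud.PowFr
import Claimed.Agent.R286.Tool.Pot106
import Claimed.Agent.R286.Tool.Box252b

/-!
# Row 286, LL sec. 7, node N18a (LL `07-budgets.tex` l.2027-2070): THE CUT of `BudB.righyp`      OWNER helper143 (prefix `bd_rh_`, types `BdRh*`, `BdViol.Rh*`)

GOAL  `bd_rh_righyp : … → BudB.RigHyp X W Fam n`  = "the rescaled record of every buffered violation of large size is `RigD.Ok`".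
`Bud/RigInst.lean` (0 sorry) reduces `RigD.Ok` to the UNRESCALED inputs `BdViol.RigPre` + `BdViol.C20In` on the radius window `|r - r0| ≤ Wd h1`.
HERE: the fields of these two records are grouped by supplier (`BdViol.Rh*`), ONE leaf theorem per group (sorried, with its proof sketch), and the glue is PROVED.

* `BdRhP X W Fam c`     **THE REQUEST TO LL 03** ((P2)-(P6) near the origin): the only facts on the reference path that N18a uses and `BdStd` lacks.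
* `BudB.EvH n P`        "for every buffered violation `i` of large size and every continuous potential `H` of its optimiser, `P i H`".
* `BudB.aux i H`        the auxiliary data: `ρ = deriv α`, floor set `{0 < H}`, `β₀' = deriv β₀`, `G1 = deriv Gf + 1`, `Γ_*' = deriv Γ_*`.
* leaves (all uniform; constants before `δ, Wd`):

| leaf          | fields                                              | from                                   |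
| `bd_rh_win`   | `Win Wd ⊆ Buf s`                                    | `LSmall`, `λ → 0`        PROVED        |
| `bd_rh_sc`    | `u_pos L_pos lam_pos`                               | `F.Ok`, `BudZ`           PROVED        |
| `bd_rh_rng`   | `α(Win) ⊆ [c u, v_I - c u]`, `Win ⊆ [plo u, phi u]` | `V.Ok`, `BdStd.beta`                   |
| `bd_rh_buf`   | `m_bd Y_bd disc S_mono`                             | `V.Ok`, `BufGeo` 1, `PSys.S_mono`      |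
| `bd_rh_den`   | `rho_int al_eq rho_nonneg Fl_meas rho_floor H_sign` | `BdQ.lo/hi`, `IsPot.cap/floor` (block A of helper41, `Bud/RigHypA`) |
| `bd_rh_bet`   | `bet_int be_eq bet_near be_int`                     | `BdRhP.beta_*`                         |
| `bd_rh_off`   | `Y_off H_lb H_off`                                  | `BufGeo` 4, 5 + `M_j ≥ x^{-100}`       |
| `bd_rh_pot`   | `H_eq`                                              | `IsPot.int`, `BdStd.Cconst`            |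
| `bd_rh_ca`    | `r_in C_const h_eq kst_rt taylor seed q_lin G_lb`   | `BdRhP`, `Seed`, `BufGeo` 1            |
| `bd_rh_rt`    | `rt_mono rt_near`                                   | `bd_rh_ca` + `bd_ri_inc`, `BdStd.clk`  |
| `bd_rh_tp`    | `mt_bd at_int transp`                               | `bd_rh_rt` + block B of helper41       |
| `bd_rh_cv`    | `g_der g1_eq`                                       | `C14`                                  |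
| `bd_rh_p`     | `G_pos G_near D_nonneg D_le D_near D_R link`        | `BdRhP`                                |
| `bd_rh_ms`    | `e_int er_int`                                      | monotone / continuous pieces           |
| `bd_rh_cb`    | `c19_int c19`                                       | `C19` + change of variables `dv = ρ dr`|
-/

set_option autoImplicit false

namespace Claimed.Agent.R286

open MeasureTheory Set Filter Topology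

noncomputable section

/-! ## 0. The request to LL 03 -/

/-- constants of the request to LL 03 (fixed before the size limit) -/
structure BdRhCst where
  N0 : ℕ
  /-- `c_β = lim β₀'` (`= κ_T`, LL 03 l.60) -/
  cβ : ℝ
  /-- `cG ≤ Γ_*' ≤ CG` -/
  cG : ℝ
  CG : ℝ
  /-- `|Γ_*''| ≤ CL λ u` -/
  CL : ℝ
  /-- slopes of `K_*` -/
  cK : ℝ
  CK : ℝ
  /-- `b ≤ CB`, `|b'| ≤ Cb λ u` -/
  CB : ℝ
  Cb : ℝ
  /-- `cD λ v² ≤ 1 - b Γ_*' ≤ CD λ u²` -/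
  cD : ℝ
  CD : ℝ

namespace BdFr

variable (F : BdFr) (X : BdFix)

/-- the mass at which `q` reaches `c_I u` -/
def vI : ℝ := F.beta0 (X.cI * F.u)
/-- the scalar time at which `Γ_*` reaches `c_I u` -/
def tI : ℝ := F.K (F.vI X)

end BdFr

/-- **THE REQUEST TO LL 03**: the reference path on the masses `(0, v_I)`, the radii `(0, c_I u)`, the scalar times `(0, t_I)`  (`v_I ≍ t_I ≍ u → 0`).
Sources: `q = Γ∘K`, `h_* = K - b q` LL 03 l.28, l.383; (P2) + its proof (`Γ^'' = -2λP E χ³ + O(ξρ₁)`, `P(ξ) = ξ` near `0`) l.146-165; (P3) (`0 ≤ b' ≤ C c_b λ v`, `b ≍ 1`) l.379;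
(P4)/(P5) (`1 - bΓ' ≍ λ(v² + U²)`, `U ≲ u`) l.386-403; `A_0(ξ) ∼ κ_T ξ/T`, `A_0` smooth on the active side l.60-75.      OWNER of the instance: LL 03 / 212 (`BdIn`). -/
structure BdRhP (X : BdFix) (W : BdWorld) (Fam : BdFr → Prop) (c : BdRhCst) : Prop where
  cβ_pos : 0 < c.cβ
  cG_pos : 0 < c.cG
  cK_pos : 0 < c.cK
  cD_pos : 0 < c.cD
  /-- `q = Γ_* ∘ K_*` -/
  q_eq : ∀ F, Fam F → c.N0 ≤ F.N → ∀ v ∈ Icc (0 : ℝ) (F.vI X), F.q v = W.Gam F.K (F.K v)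
  /-- `h = h_* + d`, `h_* = K_* - b q`, above the mask -/
  h_eq : ∀ F, Fam F → c.N0 ≤ F.N → ∀ g : ℝ, ∀ v ∈ Icc F.xm 1, F.h g v = F.K v - F.b g v * F.q v + F.d v
  /-- `β₀` is a right inverse of `q` -/
  q_beta : ∀ F, Fam F → c.N0 ≤ F.N → ∀ r ∈ Icc (0 : ℝ) (X.cI * F.u), F.q (F.beta0 r) = r
  beta_diff : ∀ F, Fam F → c.N0 ≤ F.N → ∀ r ∈ Ioo (0 : ℝ) (X.cI * F.u), DifferentiableAt ℝ F.beta0 r
  /-- `β₀' → c_β` uniformly on `(0, c_I u)` -/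
  beta_lim : ∀ ε : ℝ, 0 < ε → ∃ N1 : ℕ, ∀ F, Fam F → N1 ≤ F.N → ∀ r ∈ Ioo (0 : ℝ) (X.cI * F.u), |deriv F.beta0 r - c.cβ| ≤ ε
  K_zero : ∀ F, Fam F → c.N0 ≤ F.N → 0 ≤ F.K 0
  K_slope : ∀ F, Fam F → c.N0 ≤ F.N → ∀ v₁ v₂ : ℝ, 0 ≤ v₁ → v₁ ≤ v₂ → v₂ ≤ F.vI X →
    c.cK * (v₂ - v₁) ≤ F.K v₂ - F.K v₁ ∧ F.K v₂ - F.K v₁ ≤ c.CK * (v₂ - v₁)
  /-- `Γ_*` is nondecreasing on all times -/
  G_mono : ∀ F, Fam F → c.N0 ≤ F.N → MonotoneOn (W.Gam F.K) (Ici 0)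
  G_diff : ∀ F, Fam F → c.N0 ≤ F.N → ∀ t ∈ Ioo (0 : ℝ) (F.tI X), DifferentiableAt ℝ (W.Gam F.K) t
  G_slope : ∀ F, Fam F → c.N0 ≤ F.N → ∀ t ∈ Ioo (0 : ℝ) (F.tI X), c.cG ≤ deriv (W.Gam F.K) t ∧ deriv (W.Gam F.K) t ≤ c.CG
  /-- `Γ_*'' = O(λ u)` -/
  G_lip : ∀ F, Fam F → c.N0 ≤ F.N → ∀ t₁ ∈ Ioo (0 : ℝ) (F.tI X), ∀ t₂ ∈ Ioo (0 : ℝ) (F.tI X),
    |deriv (W.Gam F.K) t₂ - deriv (W.Gam F.K) t₁| ≤ c.CL * F.lam * F.u * |t₂ - t₁|
  b_bd : ∀ F, Fam F → c.N0 ≤ F.N → ∀ g ∈ Icc (X.glo 0) (X.ghi 0), ∀ v ∈ Ioo (0 : ℝ) (F.vI X), 0 ≤ F.b g v ∧ F.b g v ≤ c.CB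
  /-- `b' = O(λ u)` -/
  b_lip : ∀ F, Fam F → c.N0 ≤ F.N → ∀ g ∈ Icc (X.glo 0) (X.ghi 0), ∀ v₁ ∈ Ioo (0 : ℝ) (F.vI X), ∀ v₂ ∈ Ioo (0 : ℝ) (F.vI X),
    |F.b g v₂ - F.b g v₁| ≤ c.Cb * F.lam * F.u * |v₂ - v₁|
  /-- the scalar gap -/
  D_lo : ∀ F, Fam F → c.N0 ≤ F.N → ∀ g ∈ Icc (X.glo 0) (X.ghi 0), ∀ v ∈ Ioo (0 : ℝ) (F.vI X),
    c.cD * F.lam * v ^ 2 ≤ 1 - F.b g v * deriv (W.Gam F.K) (F.K v)
  D_hi : ∀ F, Fam F → c.N0 ≤ F.N → ∀ g ∈ Icc (X.glo 0) (X.ghi 0), ∀ v ∈ Ioo (0 : ℝ) (F.vI X),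
    1 - F.b g v * deriv (W.Gam F.K) (F.K v) ≤ c.CD * F.lam * F.u ^ 2

/-! ## 1. "eventually, for every violation and every potential"; the auxiliary data -/

namespace BudB

section Defs

variable (X : BdFix) (W : BdWorld) (Fam : BdFr → Prop)

/-- for every buffered violation `i` of large size and every continuous potential `H` of its optimiser, `P i H` -/
def EvH (n : ℕ) (P : BdVI X W → (ℝ → ℝ) → Prop) : Prop :=
  ∃ N0 : ℕ, ∀ i : BdVI X W, VSt X W Fam n i → N0 ≤ i.F.N → ∀ H : ℝ → ℝ, Continuous H → i.V.Q.IsPot W i.V.g H → P i H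

/-- the auxiliary data of the record -/
def aux (i : BdVI X W) (H : ℝ → ℝ) : BdRigAux where
  H := H
  rho := deriv i.V.Q.al
  Fl := {r | 0 < H r}
  bet := deriv i.F.beta0
  G1 := fun r => deriv (Gf X W i) r + 1
  Gp := deriv (W.Gam i.F.K)

end Defs

variable {X : BdFix} {W : BdWorld} {Fam : BdFr → Prop} {n : ℕ}

theorem EvH.and {P Q : BdVI X W → (ℝ → ℝ) → Prop} (hP : EvH X W Fam n P) (hQ : EvH X W Fam n Q) :
    EvH X W Fam n fun i H => P i H ∧ Q i H := by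
  obtain ⟨N1, h1⟩ := hP
  obtain ⟨N2, h2⟩ := hQ
  exact ⟨max N1 N2, fun i hi hN H hc hH =>
    ⟨h1 i hi (le_trans (le_max_left _ _) hN) H hc hH, h2 i hi (le_trans (le_max_right _ _) hN) H hc hH⟩⟩

theorem EvH.mono {P Q : BdVI X W → (ℝ → ℝ) → Prop} (hP : EvH X W Fam n P) (h : ∀ i H, P i H → Q i H) :
    EvH X W Fam n Q := by
  obtain ⟨N1, h1⟩ := hP
  exact ⟨N1, fun i hi hN H hc hH => h i H (h1 i hi hN H hc hH)⟩

theorem EvH.of_ev {P : BdVI X W → Prop} (hP : ∃ N0 : ℕ, ∀ i : BdVI X W, VSt X W Fam n i → N0 ≤ i.F.N → P i) :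
    EvH X W Fam n fun i _ => P i := by
  obtain ⟨N1, h1⟩ := hP
  exact ⟨N1, fun i hi hN _ _ _ => h1 i hi hN⟩

end BudB

/-! ## 2. The groups of fields -/

namespace BdViol

variable {F : BdFr} {X : BdFix} {W : BdWorld} (V : BdViol F X W) (a : BdRigAux)

/-- scales -/
structure RhSc : Prop where
  u_pos : 0 < F.u
  L_pos : 0 < V.L
  lam_pos : 0 < F.lam

/-- where the window lives: radii in the patch, masses in `(0, v_I)` with room `c u` -/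
structure RhRng (c Wd : ℝ) : Prop where
  r_lo : ∀ r ∈ V.Win Wd, X.plo F.st * F.u ≤ r
  r_hi : ∀ r ∈ V.Win Wd, r ≤ X.phi F.st * F.u
  v_lo : ∀ r ∈ V.Win Wd, c * F.u ≤ V.Q.al r
  v_hi : ∀ r ∈ V.Win Wd, V.Q.al r ≤ F.vI X - c * F.u
  v_mask : ∀ r ∈ V.Win Wd, F.xm ≤ V.Q.al r
  vI_le : F.vI X ≤ 1

structure RhBuf (C Wd : ℝ) : Prop where
  m_bd : ∀ r ∈ V.Win Wd, |V.Q.al r - F.beta0 r| ≤ C * V.d0
  Y_bd : ∀ r ∈ V.Win Wd, |V.Sr r - r| ≤ C * V.d0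
  disc : |V.Q.al V.r0 - F.beta0 V.r0| = V.d0
  S_mono : MonotoneOn V.Sr (V.Win Wd)

structure RhDen (δ Wd : ℝ) : Prop where
  rho_int : IntervalIntegrable a.rho volume (V.r0 - Wd * V.h1) (V.r0 + Wd * V.h1)
  al_eq : ∀ r₁ ∈ V.Win Wd, ∀ r₂ ∈ V.Win Wd, V.Q.al r₂ - V.Q.al r₁ = ∫ r in r₁..r₂, a.rho r
  rho_nonneg : ∀ r ∈ V.Win Wd, 0 ≤ a.rho r
  Fl_meas : MeasurableSet a.Fl
  rho_floor : ∀ r ∈ V.Win Wd, r ∈ a.Fl → a.rho r ≤ δ
  H_sign : ∀ᵐ r ∂(volume : Measure ℝ), r ∈ V.Win Wd → a.H r * (a.rho r - a.bet r) ≤ 0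

structure RhBet (cβ δ Wd : ℝ) : Prop where
  bet_int : IntervalIntegrable a.bet volume (V.r0 - Wd * V.h1) (V.r0 + Wd * V.h1)
  be_eq : ∀ r₁ ∈ V.Win Wd, ∀ r₂ ∈ V.Win Wd, F.beta0 r₂ - F.beta0 r₁ = ∫ r in r₁..r₂, a.bet r
  bet_near : ∀ r ∈ V.Win Wd, |a.bet r - cβ| ≤ δ
  be_int : IntervalIntegrable F.beta0 volume (V.r0 - Wd * V.h1) (V.r0 + Wd * V.h1)

structure RhOff (δ Wd : ℝ) : Prop where
  Y_off : ∀ r ∈ V.Win Wd, r ∉ a.Fl → max 1 (V.R0 a) * |V.Sr r - r| ≤ δ * V.d0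
  H_lb : ∀ r ∈ V.Win Wd, -(δ * (2 * F.C0 * V.d0 ^ 2)) ≤ max 1 (V.R0 a) * a.H r
  H_off : ∀ r ∈ V.Win Wd, r ∉ a.Fl → a.H r ≤ 0

structure RhPot (Wd : ℝ) : Prop where
  H_eq : ∀ r₁ ∈ V.Win Wd, ∀ r₂ ∈ V.Win Wd, a.H r₂ - a.H r₁ = ∫ r in r₁..r₂, 2 * F.C0 * (r - V.Sr r)

structure RhRt (δ Wd : ℝ) : Prop where
  rt_mono : MonotoneOn V.rtr (V.Win Wd)
  rt_near : ∀ r ∈ V.Win Wd, |V.rtr r - V.Sr r| ≤ δ * V.d0

structure RhTp (C Wd : ℝ) : Prop where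
  mt_bd : ∀ r ∈ V.Win Wd, |V.altil r - F.beta0 r| ≤ C * V.d0
  at_int : IntervalIntegrable V.altil volume (V.r0 - Wd * V.h1) (V.r0 + Wd * V.h1)
  transp : ∀ r ∈ V.Win (Wd - (C + 2)),
    |V.altil r - V.Q.al r| ≤ ∫ r' in (r - (C + 2) * V.h1)..(r + (C + 2) * V.h1), V.crossU a r r'

structure RhCv (A δ Wd : ℝ) : Prop where
  g_der : ∀ r ∈ V.Win Wd, HasDerivAt (fun r => V.Q.Gs W V.g (F.kst W r)) (a.G1 r) r
  g1_eq : ∀ r₁ ∈ V.Win Wd, ∀ r₂ ∈ V.Win Wd, r₁ ≤ r₂ →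
    |a.G1 r₂ - a.G1 r₁ + A * ∫ r in r₁..r₂, (V.altil r - F.beta0 r)| ≤ δ * V.d0 * (r₂ - r₁)

structure RhP (C cD δ Wd : ℝ) : Prop where
  G_pos : 0 < V.Gpr a V.r0
  G_near : ∀ r ∈ V.Win Wd, |V.Gpr a r - V.Gpr a V.r0| ≤ δ * V.Gpr a V.r0
  D_nonneg : ∀ r ∈ V.Win Wd, 0 ≤ V.Dr a r
  D_le : ∀ r ∈ V.Win Wd, V.Dr a r ≤ C * V.h1 ^ 2
  D_near : ∀ r ∈ V.Win Wd, |V.Dr a r - V.Dr a V.r0| ≤ δ * V.h1 ^ 2
  D_R : ∀ r ∈ V.Win Wd, V.Dr a r ≤ δ * (V.Gpr a V.r0 * F.C0)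
  link : V.d0 < V.h1 → cD * V.h1 ^ 2 ≤ V.Dr a V.r0 ∧ V.h1 ^ 2 ≤ δ * (V.Gpr a V.r0 * F.C0)

structure RhMs (cβ Wd : ℝ) : Prop where
  e_int : IntervalIntegrable (V.eU a cβ) volume (V.r0 - Wd * V.h1) (V.r0 + Wd * V.h1)
  er_int : IntervalIntegrable (fun r => V.eU a cβ r * a.rho r) volume (V.r0 - Wd * V.h1) (V.r0 + Wd * V.h1)

structure RhCa (cβ cG η Wd : ℝ) : Prop where
  r_in : ∀ r ∈ V.Win Wd, r ∈ Icc (0 : ℝ) 1
  C_const : ∀ r ∈ V.Win Wd, F.C X r = F.C0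
  h_eq : ∀ r ∈ V.Win Wd, F.h V.g (V.Q.al r) = F.K (V.Q.al r) - F.b V.g (V.Q.al r) * F.q (V.Q.al r) + F.d (V.Q.al r)
  kst_rt : ∀ r ∈ V.Win Wd, F.kst W (V.rtr r) = V.Ksr r
  taylor : ∀ r ∈ V.Win Wd, |V.tay a r| ≤ η * (F.u ^ 3 * V.P1)
  seed : ∀ r ∈ V.Win Wd, |V.Gpr a r * F.d (V.Q.al r)| ≤ η * (F.u ^ 3 * V.P1)
  q_lin : ∀ r ∈ V.Win Wd, |r - F.q (V.Q.al r) + (V.Q.al r - F.beta0 r) / cβ| ≤ η * V.d0
  G_lb : cG ≤ V.Gpr a V.r0

structure RhCb (η Wd : ℝ) : Prop where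
  c19_int : IntervalIntegrable (fun r => V.c19r r * (1 + a.rho r)) volume (V.r0 - Wd * V.h1) (V.r0 + Wd * V.h1)
  c19 : ∀ p, V.r0 - Wd * V.h1 ≤ p → p + V.d0 ≤ V.r0 + Wd * V.h1 →
    ∫ r in p..(p + V.d0), V.c19r r * (1 + a.rho r) ≤ η * V.d0 * (F.u ^ 3 * V.P1)

end BdViol

section Glue1

variable {F : BdFr} {X : BdFix} {W : BdWorld} {V : BdViol F X W} {a : BdRigAux} {C cβ cG A cD δ η Wd : ℝ}

/-- the groups give `RigPre` -/
theorem bd_rh_pre_of (h0 : V.RhSc) (h1 : V.RhBuf C Wd) (h2 : V.RhDen a δ Wd) (h3 : V.RhBet a cβ δ Wd) (h4 : V.RhOff a δ Wd)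
    (h5 : V.RhPot a Wd) (h6 : V.RhRt δ Wd) (h7 : V.RhTp a C Wd) (h8 : V.RhCv a A δ Wd) (h9 : V.RhP a C cD δ Wd)
    (h10 : V.RhMs a cβ Wd) : V.RigPre a C cβ A cD δ Wd :=
  { u_pos := h0.u_pos, L_pos := h0.L_pos, lam_pos := h0.lam_pos
    m_bd := h1.m_bd, mt_bd := h7.mt_bd, Y_bd := h1.Y_bd, disc := h1.disc
    rho_int := h2.rho_int, bet_int := h3.bet_int, al_eq := h2.al_eq, be_eq := h3.be_eq, rho_nonneg := h2.rho_nonneg
    bet_near := h3.bet_near, Fl_meas := h2.Fl_meas, rho_floor := h2.rho_floor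
    S_mono := h1.S_mono, Y_off := h4.Y_off
    rt_mono := h6.rt_mono, rt_near := h6.rt_near, at_int := h7.at_int, be_int := h3.be_int, transp := h7.transp
    g_der := h8.g_der, g1_eq := h8.g1_eq
    G_pos := h9.G_pos, G_near := h9.G_near, D_nonneg := h9.D_nonneg, D_le := h9.D_le, D_near := h9.D_near, D_R := h9.D_R, link := h9.link
    e_int := h10.e_int, er_int := h10.er_int
    H_eq := h5.H_eq, H_lb := h4.H_lb, H_off := h4.H_off, H_sign := h2.H_sign }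

/-- the groups give `C20In` -/
theorem bd_rh_c20_of (h1 : V.RhCa a cβ cG η Wd) (h2 : V.RhCb a η Wd) : V.C20In a cβ cG η Wd :=
  { r_in := h1.r_in, C_const := h1.C_const, h_eq := h1.h_eq, kst_rt := h1.kst_rt, taylor := h1.taylor, seed := h1.seed
    q_lin := h1.q_lin, G_lb := h1.G_lb, c19_int := h2.c19_int, c19 := h2.c19 }

end Glue1

/-! ## 3. Tools (proved) -/

section Tools

variable {X : BdFix} {W : BdWorld} {Fam : BdFr → Prop} {K : BdCst} {c : BdRhCst} {n : ℕ}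

open BudB

/-- the parameter intervals are nested -/
theorem bd_rh_gnest (hX : X.Ok) : ∀ st ≤ X.J + 1, X.glo 0 ≤ X.glo st ∧ X.ghi st ≤ X.ghi 0 := by
  intro st
  induction st with
  | zero => intro _; exact ⟨le_rfl, le_rfl⟩
  | succ k ih =>
    intro hk
    obtain ⟨h1, h2⟩ := ih (by omega)
    obtain ⟨h3, h4⟩ := hX.gnest k (by omega)
    exact ⟨h1.trans h3.le, h4.le.trans h2⟩

/-- the parameter of a buffered violation lies in the widest interval -/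
theorem bd_rh_g_mem (hS : BdStd X W Fam K) {i : BdVI X W} (hi : VSt X W Fam n i) : i.V.g ∈ Icc (X.glo 0) (X.ghi 0) := by
  obtain ⟨hF, _, _, hV, _⟩ := hi
  obtain ⟨h1, h2⟩ := bd_rh_gnest hS.fix i.F.st (hS.ok _ hF).st_le
  exact ⟨h1.trans hV.g_mem.1, hV.g_mem.2.trans h2⟩

/-- `α` is nondecreasing on `[0,1]` (`k̄ ≥ 0`) -/
theorem bd_rh_al_mono {F : BdFr} (Q : BdQ F X) (hF : F.Ok X) : MonotoneOn Q.al (Icc 0 1) := by
  intro r1 h1 r2 h2 h12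
  have := Q.lo r1 r2 h1.1 h12 h2.2
  have h0 : 0 ≤ ∫ t in r1..r2, F.kbar X t := by
    refine intervalIntegral.integral_nonneg h12 fun t _ => ?_
    unfold BdFr.kbar BdFr.k CmCall.k
    have a1 : 0 ≤ (F.call X).N ^ (F.call X).dl * (F.call X).us ^ 2 / (t + (F.call X).N ^ (2 * (F.call X).dl) * (F.call X).us) ^ 2 := by
      have : 0 ≤ (F.call X).N ^ (F.call X).dl := Real.rpow_nonneg (by unfold CmCall.N; positivity) _
      positivity
    have a2 : 0 ≤ (if t ∈ Icc (F.Ilo * F.u) (F.Ihi * F.u) then F.kap else 0) := by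
      split_ifs
      · exact hF.kap0
      · exact le_rfl
    linarith
  linarith

/-- **every positive power of `λ` is eventually small**, uniformly over the frames -/
theorem bd_rh_lam_small (hX : X.Ok) {e ε : ℝ} (he : 0 < e) (hε : 0 < ε) :
    ∃ N0 : ℕ, ∀ F : BdFr, F.Ok X → N0 ≤ F.N → F.lam ^ e ≤ ε := by
  set a : ℝ := e * X.pS / 6 with ha
  have ha0 : 0 < a := by have := hX.pS_pos; positivity
  refine ⟨⌈ε ^ (-(1 / a))⌉₊ + 2, fun F h hN => ?_⟩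
  have hNpos : (0 : ℝ) < F.N := by
    have := h.N2
    positivity
  have hN' : ε ^ (-(1 / a)) ≤ F.N := by
    calc ε ^ (-(1 / a)) ≤ (⌈ε ^ (-(1 / a))⌉₊ : ℝ) := Nat.le_ceil _
      _ ≤ F.N := by exact_mod_cast (by omega : ⌈ε ^ (-(1 / a))⌉₊ ≤ F.N)
  refine (BdFr.bpf_lam_le_N h he.le).trans ?_
  rw [← ha]
  have h1 : (F.N : ℝ) ^ (-a) ≤ (ε ^ (-(1 / a))) ^ (-a) :=
    Real.rpow_le_rpow_of_nonpos (Real.rpow_pos_of_pos hε _) hN' (by linarith)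
  have h2 : (ε ^ (-(1 / a))) ^ (-a) = ε := by
    rw [← Real.rpow_mul hε.le]
    have : -(1 / a) * -a = 1 := by field_simp
    rw [this, Real.rpow_one]
  linarith

/-- scales -/
theorem bd_rh_sc (hS : BdStd X W Fam K) (hZ : BudZ X W Fam n) :
    ∃ N0 : ℕ, ∀ i : BdVI X W, VSt X W Fam n i → N0 ≤ i.F.N → i.V.RhSc := by
  obtain ⟨C, N0, h⟩ := hZ
  refine ⟨N0, fun i hi hN => ?_⟩
  obtain ⟨hF, hA, hst, hV, hL1⟩ := hi
  have hok := hS.ok _ hF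
  have hz := (h i.F ⟨hF, hA, hst⟩ hN).1 i.V.g (by have hg := hV.g_mem; rwa [hst] at hg)
  have ha : 0 < i.F.aj X := BdFr.bds_astage_pos hok hS.fix _
  refine ⟨BdFr.bds_u_pos hok hS.fix, ?_, BdFr.bds_lam_pos hok⟩
  have := hV.big
  nlinarith

/-- **the window lies in every shrunk buffer**: `Wd h1 ≤ s b_buf` since `L → 0`, `λ → 0`  (`h1 = u max(L,√λ)`, `b_buf = u(√L + λ^ρ)`) -/
theorem bd_rh_win (hS : BdStd X W Fam K) (hL : LSmall X W Fam n) {s Wd : ℝ} (hs : 0 < s) (hWd : 0 < Wd) :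
    ∃ N0 : ℕ, ∀ i : BdVI X W, VSt X W Fam n i → N0 ≤ i.F.N → i.V.Win Wd ⊆ i.V.Buf s := by
  set ε : ℝ := s / Wd with hε
  have hε0 : 0 < ε := div_pos hs hWd
  obtain ⟨N1, h1⟩ := hL (ε ^ 2) (by positivity)
  obtain ⟨N2, h2⟩ := bd_rh_lam_small (X := X) hS.fix (e := 1 / 4) (ε := ε) (by norm_num) hε0
  refine ⟨max N1 N2, fun i hi hN => ?_⟩
  have hLs := h1 i hi (le_trans (le_max_left _ _) hN)
  have hok := hS.ok _ hi.1
  have hl4 := h2 i.F hok (le_trans (le_max_right _ _) hN)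
  have hu := BdFr.bds_u_pos hok hS.fix
  have hlam := BdFr.bds_lam_pos hok
  have hlam1 := (BdFr.bds_lam_lt_one hok hS.fix).le
  have hrho : X.rho ≤ 1 / 4 := by
    have := hS.fix.rho_le; have := hS.fix.tau0_le; have := hS.fix.eta_le; have := hS.fix.tau_le
    linarith
  -- `L ≤ ε √L`
  have hA : i.V.L ≤ ε * Real.sqrt i.V.L := by
    rcases le_or_gt i.V.L 0 with h0 | h0
    · exact h0.trans (mul_nonneg hε0.le (Real.sqrt_nonneg _))
    · have hsq : Real.sqrt i.V.L ≤ ε := by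
        rw [show ε = Real.sqrt (ε ^ 2) from (Real.sqrt_sq hε0.le).symm]
        exact Real.sqrt_le_sqrt hLs
      calc i.V.L = Real.sqrt i.V.L * Real.sqrt i.V.L := (Real.mul_self_sqrt h0.le).symm
        _ ≤ ε * Real.sqrt i.V.L := mul_le_mul_of_nonneg_right hsq (Real.sqrt_nonneg _)
  -- `√λ ≤ ε λ^ρ`
  have hB : Real.sqrt i.F.lam ≤ ε * i.F.lam ^ X.rho := by
    have e1 : Real.sqrt i.F.lam = i.F.lam ^ (1 / 4 : ℝ) * i.F.lam ^ (1 / 4 : ℝ) := by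
      rw [Real.sqrt_eq_rpow, ← Real.rpow_add hlam]; norm_num
    have e2 : i.F.lam ^ (1 / 4 : ℝ) ≤ i.F.lam ^ X.rho := Real.rpow_le_rpow_of_exponent_ge hlam hlam1 hrho
    rw [e1]
    exact mul_le_mul hl4 e2 (Real.rpow_nonneg hlam.le _) hε0.le
  have hmax : max i.V.L (Real.sqrt i.F.lam) ≤ ε * (Real.sqrt i.V.L + i.F.lam ^ X.rho) := by
    have p1 : 0 ≤ ε * Real.sqrt i.V.L := mul_nonneg hε0.le (Real.sqrt_nonneg _)
    have p2 : 0 ≤ ε * i.F.lam ^ X.rho := mul_nonneg hε0.le (Real.rpow_nonneg hlam.le _)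
    refine max_le ?_ ?_ <;> nlinarith
  have hkey : Wd * i.V.h1 ≤ s * i.V.bbuf := by
    have e3 : Wd * ε = s := by rw [hε]; field_simp
    calc Wd * i.V.h1 = Wd * (i.F.u * max i.V.L (Real.sqrt i.F.lam)) := rfl
      _ ≤ Wd * (i.F.u * (ε * (Real.sqrt i.V.L + i.F.lam ^ X.rho))) :=
          mul_le_mul_of_nonneg_left (mul_le_mul_of_nonneg_left hmax hu.le) hWd.le
      _ = (Wd * ε) * (i.F.u * (Real.sqrt i.V.L + i.F.lam ^ X.rho)) := by ring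
      _ = s * i.V.bbuf := by rw [e3]; rfl
  exact Icc_subset_Icc (by linarith) (by linarith)

end Tools

/-! ## 4. The leaves -/

section Leaves

variable {X : BdFix} {W : BdWorld} {Fam : BdFr → Prop} {K : BdCst} {c : BdRhCst} {n : ℕ}

open BudB

/-- **LEAF rng.**  `Win Wd ⊆ Buf 1 ⊆ [plo u, phi u]` (`bd_rh_win`, `V.Ok.r0_mem`).   Masses: `|α - β₀| ≤ 2 d0 = 2 u L` (`V.Ok.buf`), `β₀(r) ≥ cb r ≥ cb plo u`,
`v_I - β₀(r) ≥ cb (c_I - phi) u` (`BdStd.beta`, `X.Ok.pat`), `L → 0`: take `c0 = cb min(plo n, c_I - phi n)/2`.   `x_m = x/ℓ ≤ x ≤ c0 u` since `u ≥ U/CU = x λ^{-s_*/2}/CU` (`F.Ok.u_lo`, `bd_rh_lam_small`).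
`v_I ≤ Cb c_I u ≤ 1` since `u ≤ λ^{bl} → 0`. -/
theorem bd_rh_rng (hS : BdStd X W Fam K) (hL : LSmall X W Fam n) (hn : n ≤ X.J + 1) :
    ∃ c0 : ℝ, 0 < c0 ∧ ∀ Wd : ℝ, 0 < Wd → ∃ N0 : ℕ, ∀ i : BdVI X W, VSt X W Fam n i → N0 ≤ i.F.N → i.V.RhRng c0 Wd := by
  have hX := hS.fix
  obtain ⟨p0, p1, p2, p3, p4⟩ := hX.pat n hn
  have hcb := hS.cb_pos
  have hCU := hX.CU_pos
  have hcI := hX.cI_pos
  set c0 : ℝ := K.cb * min (X.plo n) (X.cI - X.phi n) / 2 with hc0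
  have hmin : 0 < min (X.plo n) (X.cI - X.phi n) := lt_min p0 (by linarith)
  have hc0pos : 0 < c0 := by rw [hc0]; positivity
  refine ⟨c0, hc0pos, fun Wd hWd => ?_⟩
  obtain ⟨N1, h1⟩ := bd_rh_win hS hL (s := 1) one_pos hWd
  obtain ⟨N2, h2⟩ := hL (c0 / 2) (by positivity)
  have hsS : 0 < X.sS / 2 := by
    have := hX.tau_le
    unfold BdFix.sS
    linarith
  obtain ⟨N3, h3⟩ := bd_rh_lam_small (X := X) hX (e := X.sS / 2) (ε := c0 / X.CU) hsS (by positivity)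
  obtain ⟨N4, h4⟩ := bd_rh_lam_small (X := X) hX (e := X.bl) (ε := 1 / ((|K.Cb| + 1) * X.cI)) hX.bl_pos (by positivity)
  refine ⟨max (max N1 N2) (max N3 N4), fun i hi hN => ?_⟩
  have hN1 : N1 ≤ i.F.N := (le_max_left _ _).trans ((le_max_left _ _).trans hN)
  have hN2 : N2 ≤ i.F.N := (le_max_right _ _).trans ((le_max_left _ _).trans hN)
  have hN3 : N3 ≤ i.F.N := (le_max_left _ _).trans ((le_max_right _ _).trans hN)
  have hN4 : N4 ≤ i.F.N := (le_max_right _ _).trans ((le_max_right _ _).trans hN)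
  have hwin := h1 i hi hN1
  have hLs := h2 i hi hN2
  obtain ⟨hF, hA, hst, hV, hL1⟩ := hi
  have hok := hS.ok _ hF
  have hu := BdFr.bds_u_pos hok hX
  have hl3 := h3 i.F hok hN3
  have hl4 := h4 i.F hok hN4
  have hr : ∀ r ∈ i.V.Win Wd, X.plo n * i.F.u ≤ r ∧ r ≤ X.phi n * i.F.u ∧ |r - i.V.r0| ≤ i.V.bbuf := by
    intro r hr
    have hb := hwin hr
    have e1 := hV.r0_mem.1.1
    have e2 := hV.r0_mem.2.2
    rw [hst] at e1 e2
    have hb1 : i.V.r0 - 1 * i.V.bbuf ≤ r := hb.1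
    have hb2 : r ≤ i.V.r0 + 1 * i.V.bbuf := hb.2
    refine ⟨by linarith, by linarith, abs_le.2 ⟨by linarith, by linarith⟩⟩
  have hd0 : 2 * i.V.d0 ≤ c0 * i.F.u := by
    have : i.V.d0 = i.F.u * i.V.L := rfl
    rw [this]
    nlinarith
  have hal : ∀ r ∈ i.V.Win Wd, c0 * i.F.u ≤ i.V.Q.al r ∧ i.V.Q.al r ≤ i.F.vI X - c0 * i.F.u := by
    intro r hr'
    obtain ⟨a1, a2, a3⟩ := hr r hr'
    have hb := abs_le.1 (hV.buf r a3)
    have hr0 : 0 ≤ r := (mul_nonneg p0.le hu.le).trans a1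
    have hrI : r ≤ X.cI * i.F.u := a2.trans (mul_le_mul_of_nonneg_right p4.le hu.le)
    have b1 := (hS.beta _ hF 0 r le_rfl hr0 hrI).1
    have b2 := (hS.beta _ hF r (X.cI * i.F.u) hr0 hrI le_rfl).1
    rw [hS.beta_zero _ hF] at b1
    have m1 : 2 * c0 ≤ K.cb * X.plo n := by
      rw [hc0]
      have := mul_le_mul_of_nonneg_left (min_le_left (X.plo n) (X.cI - X.phi n)) hcb.le
      linarith
    have m2 : 2 * c0 ≤ K.cb * (X.cI - X.phi n) := by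
      rw [hc0]
      have := mul_le_mul_of_nonneg_left (min_le_right (X.plo n) (X.cI - X.phi n)) hcb.le
      linarith
    have k1 : 2 * c0 * i.F.u ≤ K.cb * (r - 0) := by
      calc 2 * c0 * i.F.u ≤ K.cb * X.plo n * i.F.u := mul_le_mul_of_nonneg_right m1 hu.le
        _ = K.cb * (X.plo n * i.F.u) := by ring
        _ ≤ K.cb * (r - 0) := by rw [sub_zero]; exact mul_le_mul_of_nonneg_left a1 hcb.le
    have k2 : 2 * c0 * i.F.u ≤ K.cb * (X.cI * i.F.u - r) := by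
      calc 2 * c0 * i.F.u ≤ K.cb * (X.cI - X.phi n) * i.F.u := mul_le_mul_of_nonneg_right m2 hu.le
        _ = K.cb * (X.cI * i.F.u - X.phi n * i.F.u) := by ring
        _ ≤ K.cb * (X.cI * i.F.u - r) := mul_le_mul_of_nonneg_left (by linarith) hcb.le
    have hvI : i.F.vI X = i.F.beta0 (X.cI * i.F.u) := rfl
    rw [hvI]
    constructor <;> linarith
  have hx : i.F.xm ≤ c0 * i.F.u := by
    have hxp := BdFr.bds_x_pos hok
    have e1 : i.F.xm ≤ i.F.x := by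
      have : i.F.xm = i.F.x / i.F.ell := rfl
      rw [this]
      exact div_le_self hxp.le hok.ell1
    have e2 := BdFr.bds_Xr_le hok hX
    have e3 : i.F.x = i.F.Xr * i.F.u := by
      have : i.F.Xr = i.F.x / i.F.u := rfl
      rw [this]; field_simp
    have e4 : X.CU * i.F.lam ^ (X.sS / 2) ≤ c0 := by
      calc X.CU * i.F.lam ^ (X.sS / 2) ≤ X.CU * (c0 / X.CU) := mul_le_mul_of_nonneg_left hl3 hCU.le
        _ = c0 := by field_simp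
    calc i.F.xm ≤ i.F.x := e1
      _ = i.F.Xr * i.F.u := e3
      _ ≤ c0 * i.F.u := mul_le_mul_of_nonneg_right (e2.trans e4) hu.le
  refine ⟨fun r hr' => ?_, fun r hr' => ?_, fun r hr' => (hal r hr').1, fun r hr' => (hal r hr').2,
    fun r hr' => hx.trans (hal r hr').1, ?_⟩
  · rw [hst]; exact (hr r hr').1
  · rw [hst]; exact (hr r hr').2.1
  · have b1 := (hS.beta _ hF 0 (X.cI * i.F.u) le_rfl (by positivity) le_rfl).2
    rw [hS.beta_zero _ hF] at b1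
    have hvI : i.F.vI X = i.F.beta0 (X.cI * i.F.u) := rfl
    have hCb : K.Cb ≤ |K.Cb| + 1 := by linarith [le_abs_self K.Cb]
    have hu4 : i.F.u ≤ 1 / ((|K.Cb| + 1) * X.cI) := hok.u_hi.trans hl4
    have hpos : 0 < (|K.Cb| + 1) * X.cI := by positivity
    have e5 : (|K.Cb| + 1) * X.cI * i.F.u ≤ 1 := by
      calc (|K.Cb| + 1) * X.cI * i.F.u ≤ (|K.Cb| + 1) * X.cI * (1 / ((|K.Cb| + 1) * X.cI)) :=
            mul_le_mul_of_nonneg_left hu4 hpos.le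
        _ = 1 := by field_simp
    have e6 : K.Cb * (X.cI * i.F.u - 0) ≤ (|K.Cb| + 1) * X.cI * i.F.u := by
      have : 0 ≤ X.cI * i.F.u := by positivity
      nlinarith
    rw [hvI]
    linarith

/-- the elementary facts on the window -/
theorem bd_rh_rng_in (hS : BdStd X W Fam K) (hL : LSmall X W Fam n) (hn : n ≤ X.J + 1) {Wd : ℝ} (hWd : 0 < Wd) :
    ∃ N0 : ℕ, ∀ i : BdVI X W, VSt X W Fam n i → N0 ≤ i.F.N →
      0 < i.V.h1 ∧ X.cI * i.F.u ≤ 1 ∧ (∀ r ∈ i.V.Win Wd, r ∈ Ioo (0 : ℝ) (X.cI * i.F.u)) ∧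
        (∀ r ∈ i.V.Win Wd, i.V.Q.al r ∈ Ioo (0 : ℝ) (i.F.vI X)) ∧ i.F.vI X ≤ 1 := by
  have hX := hS.fix
  obtain ⟨p0, p1, p2, p3, p4⟩ := hX.pat n hn
  have hcI := hX.cI_pos
  obtain ⟨c0, hc0, h⟩ := bd_rh_rng hS hL hn
  obtain ⟨N1, h1⟩ := h Wd hWd
  obtain ⟨N2, h2⟩ := bd_rh_lam_small (X := X) hX (e := X.bl) (ε := 1 / X.cI) hX.bl_pos (by positivity)
  refine ⟨max N1 N2, fun i hi hN => ?_⟩
  have hrng := h1 i hi ((le_max_left _ _).trans hN)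
  obtain ⟨hF, hA, hst, hV, hL1⟩ := hi
  have hok := hS.ok _ hF
  have hu := BdFr.bds_u_pos hok hX
  have hlam := BdFr.bds_lam_pos hok
  have hl2 := h2 i.F hok ((le_max_right _ _).trans hN)
  have hc0u : 0 < c0 * i.F.u := mul_pos hc0 hu
  refine ⟨mul_pos hu (lt_max_of_lt_right (Real.sqrt_pos.2 hlam)), ?_, fun r hr => ⟨?_, ?_⟩,
    fun r hr => ⟨hc0u.trans_le (hrng.v_lo r hr), by linarith [hrng.v_hi r hr]⟩, hrng.vI_le⟩
  · calc X.cI * i.F.u ≤ X.cI * (1 / X.cI) := mul_le_mul_of_nonneg_left (hok.u_hi.trans hl2) hcI.le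
      _ = 1 := by field_simp
  · have := hrng.r_lo r hr
    rw [hst] at this
    exact (mul_pos p0 hu).trans_le this
  · have := hrng.r_hi r hr
    rw [hst] at this
    exact this.trans_lt (mul_lt_mul_of_pos_right p4 hu)

/-- **LEAF buf.**  `m_bd`: `V.Ok.buf` (constant `2`) on `Win ⊆ Buf 1`.  `Y_bd`: clause 1 of `BufGeo` on `Win ⊆ Buf s`.  `disc`: `V.Ok.disc`.
`S_mono`: `α` is nondecreasing on `[0,1]` (`BdQ.lo`, `kbar ≥ 0`), maps the window into `(0,1)` (`bd_rh_rng`); `PSys.S_mono` with `BdStd.clk`, `BdStd.a1`, `bd_rh_g_mem`. -/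
theorem bd_rh_buf (hS : BdStd X W Fam K) (hL : LSmall X W Fam n) (hG : BufGeo X W Fam n) (hn : n ≤ X.J + 1) :
    ∃ C0 : ℝ, ∀ C : ℝ, C0 ≤ C → ∀ Wd : ℝ, 0 < Wd → EvH X W Fam n fun i _ => i.V.RhBuf C Wd := by
  obtain ⟨Cg, s, hs0, hs1, N1, hgeo⟩ := hG
  refine ⟨max 2 Cg, fun C hC Wd hWd => ?_⟩
  obtain ⟨N2, h2⟩ := bd_rh_win hS hL (s := s) hs0 hWd
  obtain ⟨N3, h3⟩ := bd_rh_win hS hL (s := 1) one_pos hWd
  obtain ⟨N4, h4⟩ := bd_rh_rng_in hS hL hn hWd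
  refine ⟨max (max N1 N2) (max N3 N4), fun i hi hN H _ hH => ?_⟩
  have hN1 : N1 ≤ i.F.N := (le_max_left _ _).trans ((le_max_left _ _).trans hN)
  have hN2 : N2 ≤ i.F.N := (le_max_right _ _).trans ((le_max_left _ _).trans hN)
  have hN3 : N3 ≤ i.F.N := (le_max_left _ _).trans ((le_max_right _ _).trans hN)
  have hN4 : N4 ≤ i.F.N := (le_max_right _ _).trans ((le_max_right _ _).trans hN)
  have hw2 := h2 i hi hN2
  have hw3 := h3 i hi hN3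
  obtain ⟨hh1, hcI, hr, hv, hvI⟩ := h4 i hi hN4
  have hg := bd_rh_g_mem hS hi
  have hgeo1 := (hgeo i hi hN1 H hH).1
  obtain ⟨hF, hA, hst, hV, hL1⟩ := hi
  have hok := hS.ok _ hF
  have hd0 : 0 ≤ i.V.d0 := by rw [← hV.disc]; exact abs_nonneg _
  refine ⟨fun r hr' => ?_, fun r hr' => ?_, hV.disc, ?_⟩
  · have hb := hw3 hr'
    have hb1 : i.V.r0 - 1 * i.V.bbuf ≤ r := hb.1
    have hb2 : r ≤ i.V.r0 + 1 * i.V.bbuf := hb.2
    have hb3 : |r - i.V.r0| ≤ i.V.bbuf := abs_le.2 ⟨by linarith, by linarith⟩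
    exact (hV.buf r hb3).trans (mul_le_mul_of_nonneg_right ((le_max_left _ _).trans hC) hd0)
  · exact (hgeo1 r (hw2 hr')).trans (mul_le_mul_of_nonneg_right ((le_max_right _ _).trans hC) hd0)
  · intro r1 hr1 r2 hr2 h12
    have hclk := hS.clk _ hF _ hg i.V.Q
    have hmono := (W.ps i.F.m).S_mono (i.V.Q.bq i.V.g) (i.V.Q.hq i.V.g) (by rw [hS.a1]; exact hclk.1) (by rw [hS.a1]; exact hclk.2)
    rw [hS.a1] at hmono
    have m1 : r1 ∈ Icc (0 : ℝ) 1 := ⟨(hr r1 hr1).1.le, (hr r1 hr1).2.le.trans hcI⟩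
    have m2 : r2 ∈ Icc (0 : ℝ) 1 := ⟨(hr r2 hr2).1.le, (hr r2 hr2).2.le.trans hcI⟩
    exact hmono ⟨(hv r1 hr1).1, (hv r1 hr1).2.trans_le hvI⟩ ⟨(hv r2 hr2).1, (hv r2 hr2).2.trans_le hvI⟩
      (bd_rh_al_mono i.V.Q hok m1 m2 h12)

/-! ### block A (helper41): the density of `α`, the bang-bang rule -/

theorem bd_rh_box {F : BdFr} (Q : BdQ F X) : TlBox (F.kbar X) (fun _ => F.Mj) 0 1 0 1 Q.al := by
  refine ⟨Q.al_zero, Q.al_one, Q.lo, fun s t hs hst ht => ?_⟩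
  rw [intervalIntegral.integral_const, smul_eq_mul, mul_comm]
  exact Q.hi s t hs hst ht

theorem bd_rh_boxok (hX : X.Ok) {F : BdFr} (hF : F.Ok X) : TlOk (F.kbar X) (fun _ => F.Mj) 0 1 0 1 (F.k X 1) F.Mj := by
  have hb := bud_gb_box hX hF
  refine ⟨zero_le_one, hb.kmin0, ?_, fun r hr => ?_, continuousOn_const, fun _ _ => le_rfl⟩
  · have h1 : IntervalIntegrable (budKb F X) volume 0 1 := by
      rw [intervalIntegrable_iff]
      refine Measure.integrableOn_of_bounded (M := F.Mj) (by simp [uIoc]) hb.kbm.aestronglyMeasurable ?_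
      refine Eventually.of_forall fun r => ?_
      rw [Real.norm_eq_abs, abs_of_nonneg (hb.kmin0.le.trans (hb.kb_ge r))]
      exact hb.kb_le r
    refine h1.congr ?_
    intro r hr
    rw [uIoc_of_le zero_le_one] at hr
    exact bud_gb_Kb_eq F X ⟨hr.1.le, hr.2⟩
  · rw [← bud_gb_Kb_eq F X hr]; exact hb.kb_ge r

/-- `α' ≥ 0` at every interior point -/
theorem bd_rh_rho_nonneg (hX : X.Ok) {F : BdFr} (hF : F.Ok X) (Q : BdQ F X) {r : ℝ} (hr : r ∈ Ioo (0 : ℝ) 1) :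
    0 ≤ deriv Q.al r := by
  by_cases hd : DifferentiableAt ℝ Q.al r
  · exact tl_252_deriv_nonneg ((bd_rh_box Q).monoOn (bd_rh_boxok hX hF)) hr hd.hasDerivAt
  · rw [deriv_zero_of_not_differentiableAt hd]

/-- FTC for `α`, any order of the end points -/
theorem bd_rh_al_eq (hX : X.Ok) {F : BdFr} (hF : F.Ok X) (Q : BdQ F X) {r₁ r₂ : ℝ} (h₁ : r₁ ∈ Icc (0 : ℝ) 1)
    (h₂ : r₂ ∈ Icc (0 : ℝ) 1) : Q.al r₂ - Q.al r₁ = ∫ r in r₁..r₂, deriv Q.al r := by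
  rcases le_total r₁ r₂ with h | h
  · exact ((bd_rh_box Q).integral_deriv (bd_rh_boxok hX hF) h₁.1 h h₂.2).symm
  · rw [intervalIntegral.integral_symm, (bd_rh_box Q).integral_deriv (bd_rh_boxok hX hF) h₂.1 h h₁.2]
    ring

theorem bd_rh_rho_int (hX : X.Ok) {F : BdFr} (hF : F.Ok X) (Q : BdQ F X) {r₁ r₂ : ℝ} (h₁ : 0 ≤ r₁) (h : r₁ ≤ r₂)
    (h₂ : r₂ ≤ 1) : IntervalIntegrable (deriv Q.al) volume r₁ r₂ :=
  (bd_rh_box Q).deriv_int (bd_rh_boxok hX hF) h₁ h h₂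

/-- a neighbourhood inside `(0,1)` on which a continuous function keeps a strict sign -/
theorem bd_rh_nbhd {H : ℝ → ℝ} (hc : Continuous H) {P : Set ℝ} (hP : IsOpen P) {r : ℝ} (hr : r ∈ Ioo (0 : ℝ) 1)
    (hH : H r ∈ P) : ∃ ε, 0 < ε ∧ 0 ≤ r - ε ∧ r + ε ≤ 1 ∧ ∀ t ∈ Icc (r - ε) (r + ε), H t ∈ P := by
  have h1 : H ⁻¹' P ∩ Ioo 0 1 ∈ 𝓝 r := ((hP.preimage hc).inter isOpen_Ioo).mem_nhds ⟨hH, hr⟩
  obtain ⟨ε, hε, hb⟩ := Metric.mem_nhds_iff.1 h1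
  have hin : ∀ t ∈ Icc (r - ε / 2) (r + ε / 2), t ∈ H ⁻¹' P ∩ Ioo 0 1 := by
    intro t ht
    apply hb
    rw [Metric.mem_ball, Real.dist_eq, abs_lt]
    constructor <;> linarith [ht.1, ht.2]
  refine ⟨ε / 2, by positivity, ?_, ?_, fun t ht => (hin t ht).1⟩
  · exact (hin (r - ε / 2) ⟨le_rfl, by linarith⟩).2.1.le
  · exact (hin (r + ε / 2) ⟨by linarith, le_rfl⟩).2.2.le

/-- on the floor the density is at most the supremum of the floor -/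
theorem bd_rh_floor {F : BdFr} {g : ℝ} (Q : BdQ F X) {H : ℝ → ℝ} (hc : Continuous H) (hp : Q.IsPot W g H) {κ : ℝ}
    (hκ0 : 0 ≤ κ) (hki : IntervalIntegrable (F.kbar X) volume 0 1)
    (hκ : ∀ r ∈ Icc (0 : ℝ) 1, F.kbar X r ≤ κ) {r : ℝ} (hr : r ∈ Ioo (0 : ℝ) 1)
    (hH : 0 < H r) : deriv Q.al r ≤ κ := by
  by_cases hd : DifferentiableAt ℝ Q.al r
  swap
  · rw [deriv_zero_of_not_differentiableAt hd]; exact hκ0
  obtain ⟨ε, hε, h0, h1, hpos⟩ := bd_rh_nbhd hc isOpen_Ioi hr (show H r ∈ Ioi (0 : ℝ) from hH)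
  have hmono : MonotoneOn (fun t => κ * t - Q.al t) (Icc (r - ε) (r + ε)) := by
    intro s hs t ht hst
    have e := hp.floor s t (h0.trans hs.1) hst (ht.2.trans h1)
      (fun y hy => hpos y ⟨hs.1.trans hy.1.le, hy.2.le.trans ht.2⟩)
    have hle : ∫ y in s..t, F.kbar X y ≤ ∫ _y in s..t, κ := by
      refine intervalIntegral.integral_mono_on hst ?_ intervalIntegrable_const fun y hy => ?_
      · refine hki.mono_set ?_
        rw [uIcc_of_le hst, uIcc_of_le zero_le_one]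
        exact Icc_subset_Icc (h0.trans hs.1) (ht.2.trans h1)
      · exact hκ y ⟨h0.trans (hs.1.trans hy.1), hy.2.trans (ht.2.trans h1)⟩
    rw [intervalIntegral.integral_const, smul_eq_mul] at hle
    simp only
    nlinarith
  have hder : HasDerivAt (fun t => κ * t - Q.al t) (κ * 1 - deriv Q.al r) r :=
    ((hasDerivAt_id r).const_mul κ).sub hd.hasDerivAt
  have := tl_252_deriv_nonneg hmono ⟨by linarith, by linarith⟩ hder
  linarith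

/-- on a cap the density is the cap -/
theorem bd_rh_cap {F : BdFr} {g : ℝ} (Q : BdQ F X) {H : ℝ → ℝ} (hc : Continuous H) (hp : Q.IsPot W g H) {r : ℝ}
    (hr : r ∈ Ioo (0 : ℝ) 1) (hH : H r < 0) : deriv Q.al r = F.Mj := by
  obtain ⟨ε, hε, h0, h1, hneg⟩ := bd_rh_nbhd hc isOpen_Iio hr (show H r ∈ Iio (0 : ℝ) from hH)
  have heq : Q.al =ᶠ[𝓝 r] fun t => Q.al r + F.Mj * (t - r) := by
    filter_upwards [Icc_mem_nhds (show r - ε < r by linarith) (show r < r + ε by linarith)] with t ht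
    rcases le_total r t with h | h
    · have := hp.cap r t (h0.trans (by linarith)) h (ht.2.trans h1)
        (fun y hy => hneg y ⟨by linarith [hy.1], hy.2.le.trans ht.2⟩)
      linarith
    · have := hp.cap t r (h0.trans ht.1) h (by linarith)
        (fun y hy => hneg y ⟨ht.1.trans hy.1.le, by linarith [hy.2]⟩)
      linarith
  rw [heq.deriv_eq]
  have : HasDerivAt (fun t => Q.al r + F.Mj * (t - r)) (F.Mj * 1) r :=
    (((hasDerivAt_id r).sub_const r).const_mul F.Mj).const_add _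
  rw [this.deriv, mul_one]

/-- `sup k̄ → 0`:  `k ≤ m^{-3δ}`, `κ ≤ λ^{9/10}` -/
theorem bd_rh_kbar_small (hX : X.Ok) {ε : ℝ} (hε : 0 < ε) :
    ∃ N0 : ℕ, ∀ F : BdFr, F.Ok X → N0 ≤ F.N → ∀ r : ℝ, 0 ≤ r → F.kbar X r ≤ ε := by
  obtain ⟨N1, h1⟩ := bd_rh_lam_small (X := X) hX (e := 9 / 10) (ε := ε / 2) (by norm_num) (by positivity)
  set e : ℝ := 3 * (X.mPE / 10000) with he
  have he0 : 0 < e := by have := hX.mPE_pos; positivity
  refine ⟨max N1 (2 * ⌈(ε / 2) ^ (-(1 / e))⌉₊ + 2), fun F hF hN r hr => ?_⟩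
  have hN1 : N1 ≤ F.N := (le_max_left _ _).trans hN
  have hN2 : 2 * ⌈(ε / 2) ^ (-(1 / e))⌉₊ + 2 ≤ F.N := (le_max_right _ _).trans hN
  have hkap : F.kap ≤ ε / 2 := (bud_gb_kap_le hX hF).trans (h1 F hF hN1)
  have hk : F.k X r ≤ ε / 2 := by
    refine (bud_gb_k_le (F.call X) (bud_gb_N_pos hF) (bud_gb_us_pos hX hF) hr).trans ?_
    have e1 : (F.call X).N = (F.m : ℝ) := rfl
    have e2 : -(3 * (F.call X).dl) = -e := rfl
    rw [e1, e2]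
    have hm : (ε / 2) ^ (-(1 / e)) ≤ (F.m : ℝ) := by
      have a1 : ((2 * ⌈(ε / 2) ^ (-(1 / e))⌉₊ + 2 : ℕ) : ℝ) ≤ F.N := by exact_mod_cast hN2
      push_cast at a1
      have a2 := Nat.le_ceil ((ε / 2) ^ (-(1 / e)))
      have a3 := hF.m_lo
      linarith
    have h2 : (F.m : ℝ) ^ (-e) ≤ ((ε / 2) ^ (-(1 / e))) ^ (-e) :=
      Real.rpow_le_rpow_of_nonpos (Real.rpow_pos_of_pos (by positivity) _) hm (by linarith)
    have h3 : ((ε / 2) ^ (-(1 / e))) ^ (-e) = ε / 2 := by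
      rw [← Real.rpow_mul (by positivity)]
      have : -(1 / e) * -e = 1 := by field_simp
      rw [this, Real.rpow_one]
    linarith
  unfold BdFr.kbar
  split_ifs
  · linarith
  · linarith

/-- `M_j ≥ N` -/
theorem bd_rh_Mj_ge {F : BdFr} (hF : F.Ok X) : (F.N : ℝ) ≤ F.Mj := by
  have hN2 : (2:ℝ) ≤ F.N := by exact_mod_cast hF.N2
  have hN0 : (0:ℝ) < F.N := by linarith
  have h1 : (F.N : ℝ) ≤ F.x ^ (-(100 : ℝ)) := by
    unfold BdFr.x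
    rw [← Real.rpow_mul hN0.le]
    calc (F.N : ℝ) = (F.N : ℝ) ^ (1:ℝ) := (Real.rpow_one _).symm
      _ ≤ _ := Real.rpow_le_rpow_of_exponent_le (by linarith) (by norm_num)
  have h2 : (1:ℝ) ≤ 2 ^ F.st := one_le_pow₀ (by norm_num)
  unfold BdFr.Mj
  nlinarith

/-- **LEAF den** (bridge to block A of helper41, `Bud/RigHypA.lean`).   `ρ = deriv α`.  `α` is `M_j`-Lipschitz and nondecreasing on `[0,1]`: FTC for Lipschitz functions
(`bud_dens_of_slopes`, `Bud/GeoQ`), `deriv ≥ 0`.   On the open set `{H > 0}`: `α(r₂) - α(r₁) = ∫ kbar` (`IsPot.floor`), so `deriv α r ≤ sup kbar ≤ δ` (or `deriv α r = 0` if `α` is not differentiable at `r`);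
`kbar = k + κ_j`, `κ_j ≤ λ^{0.96}` (`bds_kstage_small`), `k(r) ≤ N^δ v_*²/r²` with `r ≥ plo u`, `v_* ≍ x^ζ u A`.    On the open set `{H < 0}`: slope `M_j` (`IsPot.cap`), `deriv α = M_j ≥ Cb ≥ β₀'`.
`H_sign` holds at EVERY point of the window (`β₀' ≥ c_β/2 > δ'` by `BdRhP.beta_lim`). -/
theorem bd_rh_den (hS : BdStd X W Fam K) (hP : BdRhP X W Fam c) (hL : LSmall X W Fam n) (hn : n ≤ X.J + 1) :
    ∀ δ Wd : ℝ, 0 < δ → 0 < Wd → EvH X W Fam n fun i H => i.V.RhDen (aux X W i H) δ Wd := by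
  intro δ Wd hδ hWd
  have hX := hS.fix
  have hcβ := hP.cβ_pos
  obtain ⟨N1, h1⟩ := bd_rh_rng_in hS hL hn hWd
  obtain ⟨N2, h2⟩ := hP.beta_lim (c.cβ / 2) (by positivity)
  obtain ⟨N3, h3⟩ := bd_rh_kbar_small (X := X) hX (ε := min δ (c.cβ / 2)) (lt_min hδ (by positivity))
  refine ⟨max (max N1 N2) (max N3 ⌈2 * c.cβ⌉₊), fun i hi hN H hc hH => ?_⟩
  have hN1 : N1 ≤ i.F.N := (le_max_left _ _).trans ((le_max_left _ _).trans hN)
  have hN2 : N2 ≤ i.F.N := (le_max_right _ _).trans ((le_max_left _ _).trans hN)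
  have hN3 : N3 ≤ i.F.N := (le_max_left _ _).trans ((le_max_right _ _).trans hN)
  have hN4 : ⌈2 * c.cβ⌉₊ ≤ i.F.N := (le_max_right _ _).trans ((le_max_right _ _).trans hN)
  obtain ⟨hh1, hcI, hr, hv, hvI⟩ := h1 i hi hN1
  have hF := hi.1
  have hok := hS.ok _ hF
  have hk := h3 i.F hok hN3
  have hM : 2 * c.cβ ≤ i.F.Mj := by
    refine le_trans ?_ (bd_rh_Mj_ge hok)
    exact (Nat.le_ceil _).trans (by exact_mod_cast hN4)
  have hIoo : ∀ r ∈ i.V.Win Wd, r ∈ Ioo (0 : ℝ) 1 := fun r hr' => ⟨(hr r hr').1, (hr r hr').2.trans_le hcI⟩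
  have hIcc : ∀ r ∈ i.V.Win Wd, r ∈ Icc (0 : ℝ) 1 := fun r hr' => Ioo_subset_Icc_self (hIoo r hr')
  have hle : i.V.r0 - Wd * i.V.h1 ≤ i.V.r0 + Wd * i.V.h1 := by
    have := mul_pos hWd hh1
    linarith
  have hlo : i.V.r0 - Wd * i.V.h1 ∈ i.V.Win Wd := ⟨le_rfl, hle⟩
  have hhi : i.V.r0 + Wd * i.V.h1 ∈ i.V.Win Wd := ⟨hle, le_rfl⟩
  have hki : IntervalIntegrable (i.F.kbar X) volume 0 1 := (bd_rh_boxok hX hok).kint
  have hfl : ∀ r ∈ i.V.Win Wd, 0 < H r → deriv i.V.Q.al r ≤ min δ (c.cβ / 2) := fun r hr' hH' =>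
    bd_rh_floor i.V.Q hc hH (lt_min hδ (by positivity)).le hki (fun t ht => hk t ht.1) (hIoo r hr') hH'
  refine ⟨bd_rh_rho_int hX hok i.V.Q (hIcc _ hlo).1 hle (hIcc _ hhi).2,
    fun r1 hr1 r2 hr2 => bd_rh_al_eq hX hok i.V.Q (hIcc r1 hr1) (hIcc r2 hr2),
    fun r hr' => bd_rh_rho_nonneg hX hok i.V.Q (hIoo r hr'),
    (isOpen_lt continuous_const hc).measurableSet,
    fun r hr' hfl' => (hfl r hr' hfl').trans (min_le_left _ _), ?_⟩
  refine Eventually.of_forall fun r hr' => ?_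
  have hb := abs_le.1 (h2 _ hF hN2 r (hr r hr'))
  show H r * (deriv i.V.Q.al r - deriv i.F.beta0 r) ≤ 0
  rcases lt_trichotomy (H r) 0 with h | h | h
  · rw [bd_rh_cap i.V.Q hc hH (hIoo r hr') h]
    exact mul_nonpos_of_nonpos_of_nonneg h.le (by linarith)
  · rw [h, zero_mul]
  · have := (hfl r hr' h).trans (min_le_right _ _)
    exact mul_nonpos_of_nonneg_of_nonpos h.le (by linarith)

/-- **LEAF bet.**  `Win ⊆ (0, c_I u)` (`bd_rh_rng`, `X.Ok.pat`); `β₀` differentiable there with `|β₀' - c_β| ≤ δ` (`BdRhP.beta_diff, beta_lim`); `deriv β₀` is measurable and bounded: integrable;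
`intervalIntegral.integral_eq_sub_of_hasDerivAt`.  `β₀` is continuous on the window: integrable. -/
theorem bd_rh_bet (hS : BdStd X W Fam K) (hP : BdRhP X W Fam c) (hL : LSmall X W Fam n) (hn : n ≤ X.J + 1) :
    ∀ δ Wd : ℝ, 0 < δ → 0 < Wd → EvH X W Fam n fun i H => i.V.RhBet (aux X W i H) c.cβ δ Wd := by
  intro δ Wd hδ hWd
  obtain ⟨N1, h1⟩ := bd_rh_rng_in hS hL hn hWd
  obtain ⟨N2, h2⟩ := hP.beta_lim δ hδ
  refine ⟨max (max N1 N2) c.N0, fun i hi hN H _ _ => ?_⟩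
  have hN1 : N1 ≤ i.F.N := (le_max_left _ _).trans ((le_max_left _ _).trans hN)
  have hN2 : N2 ≤ i.F.N := (le_max_right _ _).trans ((le_max_left _ _).trans hN)
  have hN0 : c.N0 ≤ i.F.N := (le_max_right _ _).trans hN
  obtain ⟨hh1, hcI, hr, hv, hvI⟩ := h1 i hi hN1
  have hF := hi.1
  have hdiff : ∀ r ∈ i.V.Win Wd, HasDerivAt i.F.beta0 (deriv i.F.beta0 r) r :=
    fun r hr' => (hP.beta_diff _ hF hN0 r (hr r hr')).hasDerivAt
  have hnear : ∀ r ∈ i.V.Win Wd, |deriv i.F.beta0 r - c.cβ| ≤ δ := fun r hr' => h2 _ hF hN2 r (hr r hr')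
  have hle : i.V.r0 - Wd * i.V.h1 ≤ i.V.r0 + Wd * i.V.h1 := by
    have := mul_pos hWd hh1
    linarith
  have hint : IntervalIntegrable (deriv i.F.beta0) volume (i.V.r0 - Wd * i.V.h1) (i.V.r0 + Wd * i.V.h1) := by
    rw [intervalIntegrable_iff_integrableOn_Icc_of_le hle]
    refine Integrable.of_bound (measurable_deriv _).aestronglyMeasurable (δ + |c.cβ|) ?_
    rw [ae_restrict_iff' measurableSet_Icc]
    refine Filter.Eventually.of_forall fun r hr' => ?_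
    have h3 := hnear r hr'
    rw [Real.norm_eq_abs]
    calc |deriv i.F.beta0 r| = |(deriv i.F.beta0 r - c.cβ) + c.cβ| := by rw [sub_add_cancel]
      _ ≤ |deriv i.F.beta0 r - c.cβ| + |c.cβ| := abs_add_le _ _
      _ ≤ δ + |c.cβ| := by linarith
  refine ⟨hint, ?_, hnear, ?_⟩
  · intro r1 hr1 r2 hr2
    have hsub : uIcc r1 r2 ⊆ i.V.Win Wd := ordConnected_Icc.uIcc_subset hr1 hr2
    have hsub' : uIcc r1 r2 ⊆ uIcc (i.V.r0 - Wd * i.V.h1) (i.V.r0 + Wd * i.V.h1) := by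
      rw [uIcc_of_le hle]; exact hsub
    exact (intervalIntegral.integral_eq_sub_of_hasDerivAt (fun x hx => hdiff x (hsub hx)) (hint.mono_set hsub')).symm
  · apply ContinuousOn.intervalIntegrable
    rw [uIcc_of_le hle]
    exact fun r hr' => (hdiff r hr').continuousAt.continuousWithinAt

/-- **LEAF pot.**  `IsPot.int` on the window; there `F.C X r = C0` (`BdStd.Cconst`), hence `cmF (C0 r/d³) = 1`, hence `C0 r/d³ ≤ 1` (`(1 + log t)/t < 1` for `t > 1`) and `F.pC X r = cmP .. = 0`;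
`cmBr 0 r S B = 2 r - 2 S`. -/
theorem bd_rh_pot (hS : BdStd X W Fam K) (hL : LSmall X W Fam n) (hn : n ≤ X.J + 1) :
    ∀ Wd : ℝ, 0 < Wd → EvH X W Fam n fun i H => i.V.RhPot (aux X W i H) Wd := by
  intro Wd hWd
  obtain ⟨N1, h1⟩ := bd_rh_rng_in hS hL hn hWd
  refine ⟨N1, fun i hi hN H _ hH => ?_⟩
  obtain ⟨hh1, hcI, hr, hv, hvI⟩ := h1 i hi hN
  have hF := hi.1
  have hok := hS.ok _ hF
  have hu := BdFr.bds_u_pos hok hS.fix
  have hlam := BdFr.bds_lam_pos hok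
  have hC0 : 0 < i.F.C0 := mul_pos (pow_pos hu 2) (Real.rpow_pos_of_pos hlam _)
  constructor
  intro r1 hr1 r2 hr2
  have m1 : r1 ∈ Icc (0 : ℝ) 1 := ⟨(hr r1 hr1).1.le, (hr r1 hr1).2.le.trans hcI⟩
  have m2 : r2 ∈ Icc (0 : ℝ) 1 := ⟨(hr r2 hr2).1.le, (hr r2 hr2).2.le.trans hcI⟩
  have hsub : uIcc r1 r2 ⊆ i.V.Win Wd := ordConnected_Icc.uIcc_subset hr1 hr2
  refine (hH.int r1 m1 r2 m2).trans (intervalIntegral.integral_congr fun r hr' => ?_)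
  have hrw := hr r (hsub hr')
  have hC := hS.Cconst _ hF r ⟨hrw.1.le, hrw.2.le⟩
  have hp : i.F.pC X r = 0 := by
    have e1 : i.F.C X r = i.F.C0 * cmF (i.F.C0 * r / (i.F.call X).d ^ 3) := rfl
    have e2 : i.F.pC X r = cmP (i.F.C0 * r / (i.F.call X).d ^ 3) := rfl
    rw [e1] at hC
    rw [e2]
    generalize i.F.C0 * r / (i.F.call X).d ^ 3 = t at hC ⊢
    have hf : cmF t = 1 := by
      have := mul_left_cancel₀ hC0.ne' (hC.trans (mul_one _).symm)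
      exact this
    unfold cmP
    by_cases ht : t ≤ 1
    · rw [if_pos ht]
    · exfalso
      have ht1 : 1 < t := not_le.1 ht
      unfold cmF at hf
      rw [if_neg ht, div_eq_one_iff_eq (by linarith)] at hf
      have := Real.log_lt_sub_one_of_pos (by linarith : 0 < t) ht1.ne'
      linarith
  have e3 : i.V.Sr r = i.V.Q.Sq W i.V.g (i.V.Q.al r) := rfl
  rw [hC, hp, e3]
  unfold cmBr
  ring

/-! ### helpers of `ca`, `rt` (helper45): `bd_rh_pt`, `bd_rh_t_*`, `bd_rh_inc` -/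

/-- pointwise facts on the window, common to the leaves `p`, `ca`, `rt` (helper45) -/
structure BdViol.RhPt {F : BdFr} {X : BdFix} {W : BdWorld} (V : BdViol F X W) (K : BdCst) (c : BdRhCst) (c0 Wd : ℝ) : Prop where
  u_pos : 0 < F.u
  u_le : F.u ≤ 1
  lam_pos : 0 < F.lam
  lam_le : F.lam ≤ 1
  d0_nonneg : 0 ≤ V.d0
  d0_le : V.d0 ≤ V.h1
  h1_pos : 0 < V.h1
  h1_le : V.h1 ≤ F.u
  h1_ge : F.u * Real.sqrt F.lam ≤ V.h1
  r0_mem : V.r0 ∈ V.Win Wd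
  g_mem : V.g ∈ Icc (X.glo 0) (X.ghi 0)
  r_mem : ∀ r ∈ V.Win Wd, r ∈ Ioo (0 : ℝ) (X.cI * F.u)
  v_lo : ∀ r ∈ V.Win Wd, c0 * F.u ≤ V.Q.al r
  v_hi : ∀ r ∈ V.Win Wd, V.Q.al r ≤ F.vI X - c0 * F.u
  v_mem : ∀ r ∈ V.Win Wd, V.Q.al r ∈ Ioo (0 : ℝ) (F.vI X)
  t_lo : ∀ r ∈ V.Win Wd, c.cK * (c0 * F.u) ≤ F.K (V.Q.al r)
  t_hi : ∀ r ∈ V.Win Wd, F.K (V.Q.al r) ≤ F.tI X - c.cK * (c0 * F.u)
  t_mem : ∀ r ∈ V.Win Wd, F.K (V.Q.al r) ∈ Ioo (0 : ℝ) (F.tI X)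
  m_bd : ∀ r ∈ V.Win Wd, |V.Q.al r - F.beta0 r| ≤ 2 * V.d0
  al_var : ∀ r₁ ∈ V.Win Wd, ∀ r₂ ∈ V.Win Wd, |V.Q.al r₂ - V.Q.al r₁| ≤ (|K.Cb| * (2 * Wd) + 4) * V.h1
  K_var : ∀ r₁ ∈ V.Win Wd, ∀ r₂ ∈ V.Win Wd, |F.K (V.Q.al r₂) - F.K (V.Q.al r₁)| ≤ |c.CK| * |V.Q.al r₂ - V.Q.al r₁|

theorem bd_rh_pt (hS : BdStd X W Fam K) (hP : BdRhP X W Fam c) (hL : LSmall X W Fam n) (hn : n ≤ X.J + 1) :
    ∃ c0 : ℝ, 0 < c0 ∧ ∀ Wd : ℝ, 0 < Wd → ∃ N0 : ℕ, ∀ i : BdVI X W, VSt X W Fam n i → N0 ≤ i.F.N → i.V.RhPt K c c0 Wd := by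
  have hX := hS.fix
  obtain ⟨c0, hc0, hrng⟩ := bd_rh_rng hS hL hn
  refine ⟨c0, hc0, fun Wd hWd => ?_⟩
  obtain ⟨N1, h1⟩ := hrng Wd hWd
  obtain ⟨N2, h2⟩ := bd_rh_win hS hL (s := 1) one_pos hWd
  obtain ⟨N3, h3⟩ := bd_rh_rng_in hS hL hn hWd
  refine ⟨max (max N1 N2) (max N3 c.N0), fun i hi hN => ?_⟩
  have hN1 : N1 ≤ i.F.N := (le_max_left _ _).trans ((le_max_left _ _).trans hN)
  have hN2 : N2 ≤ i.F.N := (le_max_right _ _).trans ((le_max_left _ _).trans hN)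
  have hN3 : N3 ≤ i.F.N := (le_max_left _ _).trans ((le_max_right _ _).trans hN)
  have hN0 : c.N0 ≤ i.F.N := (le_max_right _ _).trans ((le_max_right _ _).trans hN)
  have hR := h1 i hi hN1
  have hw := h2 i hi hN2
  obtain ⟨hh1, hcI, hr, hv, hvI⟩ := h3 i hi hN3
  have hg := bd_rh_g_mem hS hi
  obtain ⟨hF, hA, hst, hV, hL1⟩ := hi
  have hok := hS.ok _ hF
  have hu := BdFr.bds_u_pos hok hX
  have hu1 := BdFr.bds_u_le_one hok hX
  have hlam := BdFr.bds_lam_pos hok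
  have hlam1 := (BdFr.bds_lam_lt_one hok hX).le
  have hcK := hP.cK_pos
  have hd0 : 0 ≤ i.V.d0 := by rw [← hV.disc]; exact abs_nonneg _
  have hsq1 : Real.sqrt i.F.lam ≤ 1 := Real.sqrt_le_one.2 hlam1
  have hd0h : i.V.d0 ≤ i.V.h1 := mul_le_mul_of_nonneg_left (le_max_left _ _) hu.le
  have hh1u : i.V.h1 ≤ i.F.u := by
    calc i.V.h1 = i.F.u * max i.V.L (Real.sqrt i.F.lam) := rfl
      _ ≤ i.F.u * 1 := mul_le_mul_of_nonneg_left (max_le hL1 hsq1) hu.le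
      _ = i.F.u := mul_one _
  have hWh : 0 ≤ Wd * i.V.h1 := (mul_pos hWd hh1).le
  have hm : ∀ r ∈ i.V.Win Wd, |i.V.Q.al r - i.F.beta0 r| ≤ 2 * i.V.d0 := by
    intro r hr'
    have hb := hw hr'
    have hb1 : i.V.r0 - 1 * i.V.bbuf ≤ r := hb.1
    have hb2 : r ≤ i.V.r0 + 1 * i.V.bbuf := hb.2
    exact hV.buf r (abs_le.2 ⟨by linarith, by linarith⟩)
  have hvI0 : 0 ≤ i.F.vI X := by
    have := hv i.V.r0 ⟨by linarith, by linarith⟩
    exact (this.1.trans this.2).le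
  have htl : ∀ r ∈ i.V.Win Wd, c.cK * (c0 * i.F.u) ≤ i.F.K (i.V.Q.al r) := by
    intro r hr'
    have a1 := (hP.K_slope _ hF hN0 0 (i.V.Q.al r) le_rfl (hv r hr').1.le (hv r hr').2.le).1
    have a2 := hP.K_zero _ hF hN0
    have a3 := mul_le_mul_of_nonneg_left (hR.v_lo r hr') hcK.le
    linarith
  have hth : ∀ r ∈ i.V.Win Wd, i.F.K (i.V.Q.al r) ≤ i.F.tI X - c.cK * (c0 * i.F.u) := by
    intro r hr'
    have a1 := (hP.K_slope _ hF hN0 (i.V.Q.al r) (i.F.vI X) (hv r hr').1.le (hv r hr').2.le le_rfl).1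
    have a3 := mul_le_mul_of_nonneg_left (hR.v_hi r hr') hcK.le
    have e : i.F.tI X = i.F.K (i.F.vI X) := rfl
    rw [e]
    linarith
  have hpos : 0 < c.cK * (c0 * i.F.u) := by positivity
  refine
    { u_pos := hu, u_le := hu1, lam_pos := hlam, lam_le := hlam1, d0_nonneg := hd0, d0_le := hd0h, h1_pos := hh1, h1_le := hh1u
      h1_ge := mul_le_mul_of_nonneg_left (le_max_right _ _) hu.le
      r0_mem := ⟨by linarith, by linarith⟩, g_mem := hg, r_mem := hr, v_lo := hR.v_lo, v_hi := hR.v_hi, v_mem := hv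
      t_lo := htl, t_hi := hth, t_mem := fun r hr' => ⟨hpos.trans_le (htl r hr'), by linarith [hth r hr']⟩
      m_bd := hm, al_var := ?_, K_var := ?_ }
  · intro r1 hr1 r2 hr2
    have b1 := abs_le.1 (hm r1 hr1)
    have b2 := abs_le.1 (hm r2 hr2)
    have hbe : |i.F.beta0 r2 - i.F.beta0 r1| ≤ |K.Cb| * (2 * Wd) * i.V.h1 := by
      have hdist : |r2 - r1| ≤ 2 * Wd * i.V.h1 := by
        rw [abs_le]; constructor <;> linarith [hr1.1, hr1.2, hr2.1, hr2.2]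
      have key : ∀ s t : ℝ, s ∈ i.V.Win Wd → t ∈ i.V.Win Wd → s ≤ t → |i.F.beta0 t - i.F.beta0 s| ≤ |K.Cb| * |t - s| := by
        intro s t hs ht hst'
        obtain ⟨e1, e2⟩ := hS.beta _ hF s t (hr s hs).1.le hst' (hr t ht).2.le
        have e0 : 0 ≤ t - s := by linarith
        have e3 : 0 ≤ i.F.beta0 t - i.F.beta0 s := (mul_nonneg hS.cb_pos.le e0).trans e1
        rw [abs_of_nonneg e3, abs_of_nonneg e0]
        exact e2.trans (mul_le_mul_of_nonneg_right (le_abs_self _) e0)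
      have : |i.F.beta0 r2 - i.F.beta0 r1| ≤ |K.Cb| * |r2 - r1| := by
        rcases le_total r1 r2 with h | h
        · exact key r1 r2 hr1 hr2 h
        · rw [abs_sub_comm, abs_sub_comm r2 r1]; exact key r2 r1 hr2 hr1 h
      calc _ ≤ |K.Cb| * |r2 - r1| := this
        _ ≤ |K.Cb| * (2 * Wd * i.V.h1) := mul_le_mul_of_nonneg_left hdist (abs_nonneg _)
        _ = _ := by ring
    have b3 := abs_le.1 hbe
    rw [abs_le]
    constructor <;> nlinarith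
  · intro r1 hr1 r2 hr2
    have key : ∀ s t : ℝ, s ∈ Ioo (0 : ℝ) (i.F.vI X) → t ∈ Ioo (0 : ℝ) (i.F.vI X) → s ≤ t → |i.F.K t - i.F.K s| ≤ |c.CK| * |t - s| := by
      intro s t hs ht hst'
      obtain ⟨e1, e2⟩ := hP.K_slope _ hF hN0 s t hs.1.le hst' ht.2.le
      have e0 : 0 ≤ t - s := by linarith
      have e3 : 0 ≤ i.F.K t - i.F.K s := (mul_nonneg hcK.le e0).trans e1
      rw [abs_of_nonneg e3, abs_of_nonneg e0]
      exact e2.trans (mul_le_mul_of_nonneg_right (le_abs_self _) e0)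
    rcases le_total (i.V.Q.al r1) (i.V.Q.al r2) with h | h
    · exact key _ _ (hv r1 hr1) (hv r2 hr2) h
    · rw [abs_sub_comm, abs_sub_comm (i.V.Q.al r2)]; exact key _ _ (hv r2 hr2) (hv r1 hr1) h


/-! analytic tools (helper45) -/

theorem bd_rh_t_inv {φ : ℝ → ℝ} {T t : ℝ} (hm : MonotoneOn φ (Ici 0)) (hs : StrictMonoOn φ (Ioo 0 T)) (ht : t ∈ Ioo (0 : ℝ) T) :
    bdInv φ (φ t) = t := by
  unfold bdInv
  refine IsLeast.csInf_eq ⟨⟨ht.1.le, le_rfl⟩, fun s hs' => ?_⟩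
  by_contra h
  have hst : s < t := not_le.1 h
  have h0 : 0 ≤ s := hs'.1
  have hm1 : (s + t) / 2 ∈ Ioo (0 : ℝ) T := ⟨by linarith [ht.1], by linarith [ht.2]⟩
  have a1 : φ s ≤ φ ((s + t) / 2) := hm (mem_Ici.2 h0) (mem_Ici.2 hm1.1.le) (by linarith)
  have a2 : φ ((s + t) / 2) < φ t := hs hm1 ht (by linarith)
  linarith [hs'.2]

theorem bd_rh_t_strict {φ : ℝ → ℝ} {T cG : ℝ} (hcG : 0 < cG) (hd : ∀ t ∈ Ioo (0 : ℝ) T, DifferentiableAt ℝ φ t)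
    (hs : ∀ t ∈ Ioo (0 : ℝ) T, cG ≤ deriv φ t) : StrictMonoOn φ (Ioo 0 T) := by
  refine strictMonoOn_of_deriv_pos (convex_Ioo 0 T) (fun t ht => (hd t ht).continuousAt.continuousWithinAt) fun t ht => ?_
  rw [interior_Ioo] at ht
  exact hcG.trans_le (hs t ht)

theorem bd_rh_t_lin {φ : ℝ → ℝ} {T cβ ε : ℝ} (hd : ∀ t ∈ Ioo (0 : ℝ) T, DifferentiableAt ℝ φ t)
    (hn : ∀ t ∈ Ioo (0 : ℝ) T, |deriv φ t - cβ| ≤ ε) {t₁ t₂ : ℝ} (h1 : t₁ ∈ Ioo (0 : ℝ) T) (h2 : t₂ ∈ Ioo (0 : ℝ) T) :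
    |φ t₂ - φ t₁ - cβ * (t₂ - t₁)| ≤ ε * |t₂ - t₁| := by
  have h := Convex.norm_image_sub_le_of_norm_hasDerivWithin_le (f := fun t => φ t - cβ * t) (f' := fun t => deriv φ t - cβ)
    (C := ε) (s := Ioo (0 : ℝ) T) (x := t₁) (y := t₂)
    (fun t ht => (((hd t ht).hasDerivAt).sub ((hasDerivAt_id t).const_mul cβ)).hasDerivWithinAt.congr_deriv (by simp))
    (fun t ht => by rw [Real.norm_eq_abs]; exact hn t ht) (convex_Ioo 0 T) h1 h2
  rw [Real.norm_eq_abs, Real.norm_eq_abs] at h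
  have e : φ t₂ - cβ * t₂ - (φ t₁ - cβ * t₁) = φ t₂ - φ t₁ - cβ * (t₂ - t₁) := by ring
  rwa [e] at h

theorem bd_rh_t_taylor {φ : ℝ → ℝ} {T Lp : ℝ} (hd : ∀ t ∈ Ioo (0 : ℝ) T, DifferentiableAt ℝ φ t)
    (hl : ∀ t₁ ∈ Ioo (0 : ℝ) T, ∀ t₂ ∈ Ioo (0 : ℝ) T, |deriv φ t₂ - deriv φ t₁| ≤ Lp * |t₂ - t₁|) {t₁ t₂ : ℝ}
    (h1 : t₁ ∈ Ioo (0 : ℝ) T) (h2 : t₂ ∈ Ioo (0 : ℝ) T) :
    |φ t₂ - φ t₁ - deriv φ t₁ * (t₂ - t₁)| ≤ Lp * |t₂ - t₁| ^ 2 := by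
  by_cases h12 : t₁ = t₂
  · subst h12; simp
  have hpos : 0 < |t₂ - t₁| := abs_pos.2 (sub_ne_zero.2 (Ne.symm h12))
  have hLp : 0 ≤ Lp := by
    have := (abs_nonneg _).trans (hl t₁ h1 t₂ h2)
    exact nonneg_of_mul_nonneg_left this hpos
  have hsub : uIcc t₁ t₂ ⊆ Ioo (0 : ℝ) T := (ordConnected_Ioo).uIcc_subset h1 h2
  have h := Convex.norm_image_sub_le_of_norm_hasDerivWithin_le (f := fun t => φ t - deriv φ t₁ * t)
    (f' := fun t => deriv φ t - deriv φ t₁) (C := Lp * |t₂ - t₁|) (s := uIcc t₁ t₂) (x := t₁) (y := t₂)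
    (fun t ht => (((hd t (hsub ht)).hasDerivAt).sub ((hasDerivAt_id t).const_mul (deriv φ t₁))).hasDerivWithinAt.congr_deriv
      (by simp))
    (fun t ht => by
      rw [Real.norm_eq_abs]
      refine (hl t₁ h1 t (hsub ht)).trans (mul_le_mul_of_nonneg_left ?_ hLp)
      exact abs_sub_left_of_mem_uIcc ht) (convex_uIcc t₁ t₂) left_mem_uIcc right_mem_uIcc
  rw [Real.norm_eq_abs, Real.norm_eq_abs] at h
  have e : φ t₂ - deriv φ t₁ * t₂ - (φ t₁ - deriv φ t₁ * t₁) = φ t₂ - φ t₁ - deriv φ t₁ * (t₂ - t₁) := by ring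
  rw [e] at h
  calc _ ≤ Lp * |t₂ - t₁| * |t₂ - t₁| := h
    _ = _ := by ring


/-- the increment `K_s - K_*` on the window, common to the leaves `ca`, `rt` (helper45) -/
structure BdViol.RhInc {F : BdFr} {X : BdFix} {W : BdWorld} (V : BdViol F X W) (K : BdCst) (Cg cs M Wd : ℝ) : Prop where
  L_nonneg : 0 ≤ V.L
  G1_nonneg : 0 ≤ V.G1
  G1_ge : F.lam ≤ V.G1
  P1_nonneg : 0 ≤ F.u ^ 3 * V.P1
  P1_le : F.u ^ 3 * V.P1 ≤ V.d0
  C0_nonneg : 0 ≤ F.C0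
  C0_le : F.C0 ≤ F.Lam
  r_in : ∀ r ∈ V.Win Wd, r ∈ Icc (0 : ℝ) 1
  C_const : ∀ r ∈ V.Win Wd, F.C X r = F.C0
  h_eq : ∀ r ∈ V.Win Wd, F.h V.g (V.Q.al r) = F.K (V.Q.al r) - F.b V.g (V.Q.al r) * F.q (V.Q.al r) + F.d (V.Q.al r)
  q_mem : ∀ r ∈ V.Win Wd, F.q (V.Q.al r) ∈ Ioo (0 : ℝ) (X.cI * F.u)
  q_inv : ∀ r ∈ V.Win Wd, F.beta0 (F.q (V.Q.al r)) = V.Q.al r
  q_near : ∀ r ∈ V.Win Wd, |F.q (V.Q.al r) - r| ≤ 2 / K.cb * V.d0
  Y_bd : ∀ r ∈ V.Win Wd, |V.Sr r - r| ≤ Cg * V.d0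
  d_bd : ∀ r ∈ V.Win Wd, |F.d (V.Q.al r)| ≤ F.lam ^ cs * (F.u ^ 3 * V.P1)
  inc : ∀ r ∈ V.Win Wd, V.Ksr r - F.K (V.Q.al r)
    = F.b V.g (V.Q.al r) * (V.Sr r - F.q (V.Q.al r)) - F.C0 * (V.Sr r - r) + F.d (V.Q.al r)
  inc_bd : ∀ r ∈ V.Win Wd, |V.Ksr r - F.K (V.Q.al r)| ≤ M * V.d0
  Ks_mem : ∀ r ∈ V.Win Wd, V.Ksr r ∈ Ioo (0 : ℝ) (F.tI X)

theorem bd_rh_inc (hS : BdStd X W Fam K) (hP : BdRhP X W Fam c) (hL : LSmall X W Fam n) (hG : BufGeo X W Fam n)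
    (hd : Seed X W Fam n) (hn : n ≤ X.J + 1) :
    ∃ Cg cs M : ℝ, 0 ≤ Cg ∧ 0 < cs ∧ 0 < M ∧ ∀ Wd : ℝ, 0 < Wd → EvH X W Fam n fun i _ => i.V.RhInc K Cg cs M Wd := by
  have hX := hS.fix
  have hcb := hS.cb_pos
  have hcK := hP.cK_pos
  obtain ⟨c0, hc0, hpt⟩ := bd_rh_pt hS hP hL hn
  obtain ⟨c0', hc0', hrng⟩ := bd_rh_rng hS hL hn
  obtain ⟨Cg, s, hs0, hs1, N1, hgeo⟩ := hG
  obtain ⟨cs, hcs, N2, hseed⟩ := hd
  set M : ℝ := |c.CB| * (|Cg| + 2 / K.cb) + |Cg| + 1 with hM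
  have hM0 : 0 < M := by positivity
  refine ⟨|Cg|, cs, M, abs_nonneg _, hcs, hM0, fun Wd hWd => ?_⟩
  obtain ⟨N3, h3⟩ := hpt Wd hWd
  obtain ⟨N4, h4⟩ := bd_rh_win hS hL (s := s) hs0 hWd
  obtain ⟨N5, h5⟩ := bd_rh_win hS hL (s := 1) one_pos hWd
  obtain ⟨N6, h6⟩ := hL (c.cK * c0 / (2 * M)) (by positivity)
  obtain ⟨N7, h7⟩ := hrng Wd hWd
  obtain ⟨N8, h8⟩ := bd_rh_rng_in hS hL hn hWd
  refine ⟨max (max (max N1 N2) (max N3 N4)) (max (max N5 N6) (max (max N7 N8) c.N0)), fun i hi hN H _ hH => ?_⟩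
  have hN1 : N1 ≤ i.F.N := (le_max_left _ _).trans ((le_max_left _ _).trans ((le_max_left _ _).trans hN))
  have hN2 : N2 ≤ i.F.N := (le_max_right _ _).trans ((le_max_left _ _).trans ((le_max_left _ _).trans hN))
  have hN3 : N3 ≤ i.F.N := (le_max_left _ _).trans ((le_max_right _ _).trans ((le_max_left _ _).trans hN))
  have hN4 : N4 ≤ i.F.N := (le_max_right _ _).trans ((le_max_right _ _).trans ((le_max_left _ _).trans hN))
  have hN5 : N5 ≤ i.F.N := (le_max_left _ _).trans ((le_max_left _ _).trans ((le_max_right _ _).trans hN))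
  have hN6 : N6 ≤ i.F.N := (le_max_right _ _).trans ((le_max_left _ _).trans ((le_max_right _ _).trans hN))
  have hN7 : N7 ≤ i.F.N :=
    (le_max_left _ _).trans ((le_max_left _ _).trans ((le_max_right _ _).trans ((le_max_right _ _).trans hN)))
  have hN8 : N8 ≤ i.F.N :=
    (le_max_right _ _).trans ((le_max_left _ _).trans ((le_max_right _ _).trans ((le_max_right _ _).trans hN)))
  have hN0 : c.N0 ≤ i.F.N := (le_max_right _ _).trans ((le_max_right _ _).trans ((le_max_right _ _).trans hN))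
  have pt := h3 i hi hN3
  have hws := h4 i hi hN4
  have hw1 := h5 i hi hN5
  have hLs := h6 i hi hN6
  have hR := h7 i hi hN7
  obtain ⟨-, hcI, -, -, hvI⟩ := h8 i hi hN8
  have hY := (hgeo i hi hN1 H hH).1
  have hsd := hseed i hi hN2
  have hF := hi.1
  have hok := hS.ok _ hF
  have hu := pt.u_pos
  have hlam := pt.lam_pos
  have hL0 : 0 ≤ i.V.L := by
    have h := pt.d0_nonneg
    have e : i.V.d0 = i.F.u * i.V.L := rfl
    rw [e] at h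
    exact nonneg_of_mul_nonneg_right h hu
  have hLam0 : 0 < i.F.Lam := Real.rpow_pos_of_pos hlam _
  have hLam1 : i.F.Lam ≤ 1 := Real.rpow_le_one hlam.le pt.lam_le (by norm_num)
  have hLamge : i.F.lam ≤ i.F.Lam := by
    have : i.F.lam ^ (1 : ℝ) ≤ i.F.lam ^ (0.03 : ℝ) := Real.rpow_le_rpow_of_exponent_ge hlam pt.lam_le (by norm_num)
    rwa [Real.rpow_one] at this
  have hG1ge : i.F.lam ≤ i.V.G1 := le_min (le_max_right _ _) hLamge
  have hG10 : 0 ≤ i.V.G1 := hlam.le.trans hG1ge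
  have hG11 : i.V.G1 ≤ 1 := (min_le_right _ _).trans hLam1
  have hP10 : 0 ≤ i.F.u ^ 3 * i.V.P1 := mul_nonneg (pow_nonneg hu.le 3) (mul_nonneg hL0 hG10)
  have hP1le : i.F.u ^ 3 * i.V.P1 ≤ i.V.d0 := by
    have e1 : i.F.u ^ 3 * i.V.P1 = (i.F.u * i.V.L) * (i.F.u ^ 2 * i.V.G1) := by
      simp only [BdViol.P1]; ring
    have e2 : i.F.u ^ 2 * i.V.G1 ≤ 1 := by
      have : i.F.u ^ 2 ≤ 1 := pow_le_one₀ hu.le pt.u_le
      calc i.F.u ^ 2 * i.V.G1 ≤ 1 * 1 := mul_le_mul this hG11 hG10 zero_le_one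
        _ = 1 := one_mul 1
    rw [e1]
    calc (i.F.u * i.V.L) * (i.F.u ^ 2 * i.V.G1) ≤ (i.F.u * i.V.L) * 1 :=
          mul_le_mul_of_nonneg_left e2 (mul_nonneg hu.le hL0)
      _ = i.V.d0 := by rw [mul_one]; rfl
  have hC00 : 0 ≤ i.F.C0 := mul_nonneg (pow_nonneg hu.le 2) hLam0.le
  have hC0le : i.F.C0 ≤ i.F.Lam := by
    have : i.F.u ^ 2 ≤ 1 := pow_le_one₀ hu.le pt.u_le
    calc i.F.C0 = i.F.u ^ 2 * i.F.Lam := rfl
      _ ≤ 1 * i.F.Lam := mul_le_mul_of_nonneg_right this hLam0.le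
      _ = i.F.Lam := one_mul _
  have hrin : ∀ r ∈ i.V.Win Wd, r ∈ Icc (0 : ℝ) 1 := fun r hr => ⟨(pt.r_mem r hr).1.le, (pt.r_mem r hr).2.le.trans hcI⟩
  have hCc : ∀ r ∈ i.V.Win Wd, i.F.C X r = i.F.C0 := fun r hr => hS.Cconst _ hF r ⟨(pt.r_mem r hr).1.le, (pt.r_mem r hr).2.le⟩
  have hheq : ∀ r ∈ i.V.Win Wd, i.F.h i.V.g (i.V.Q.al r)
      = i.F.K (i.V.Q.al r) - i.F.b i.V.g (i.V.Q.al r) * i.F.q (i.V.Q.al r) + i.F.d (i.V.Q.al r) := fun r hr =>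
    hP.h_eq _ hF hN0 _ _ ⟨hR.v_mask r hr, (pt.v_mem r hr).2.le.trans hvI⟩
  -- the inverse of `β₀`
  have hcIu : 0 ≤ X.cI * i.F.u := mul_nonneg hX.cI_pos.le hu.le
  have hbc : ContinuousOn i.F.beta0 (Icc 0 (X.cI * i.F.u)) := by
    have hl : LipschitzOnWith (Real.toNNReal |K.Cb|) i.F.beta0 (Icc 0 (X.cI * i.F.u)) := by
      refine LipschitzOnWith.of_dist_le_mul fun x hx y hy => ?_
      rw [Real.dist_eq, Real.dist_eq, Real.coe_toNNReal _ (abs_nonneg _)]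
      have key : ∀ s t : ℝ, s ∈ Icc (0 : ℝ) (X.cI * i.F.u) → t ∈ Icc (0 : ℝ) (X.cI * i.F.u) → s ≤ t →
          |i.F.beta0 t - i.F.beta0 s| ≤ |K.Cb| * |t - s| := by
        intro s t hs ht hst'
        obtain ⟨e1, e2⟩ := hS.beta _ hF s t hs.1 hst' ht.2
        have e0 : 0 ≤ t - s := by linarith
        have e3 : 0 ≤ i.F.beta0 t - i.F.beta0 s := (mul_nonneg hcb.le e0).trans e1
        rw [abs_of_nonneg e3, abs_of_nonneg e0]
        exact e2.trans (mul_le_mul_of_nonneg_right (le_abs_self _) e0)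
      rcases le_total x y with h | h
      · rw [abs_sub_comm, abs_sub_comm x y]; exact key x y hx hy h
      · exact key y x hy hx h
    exact hl.continuousOn
  have hqi : ∀ r ∈ i.V.Win Wd, i.F.q (i.V.Q.al r) ∈ Ioo (0 : ℝ) (X.cI * i.F.u) ∧ i.F.beta0 (i.F.q (i.V.Q.al r)) = i.V.Q.al r := by
    intro r hr
    have hv := pt.v_mem r hr
    have hmem : i.V.Q.al r ∈ Icc (i.F.beta0 0) (i.F.beta0 (X.cI * i.F.u)) := by
      rw [hS.beta_zero _ hF]; exact ⟨hv.1.le, hv.2.le⟩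
    obtain ⟨r', hr', he⟩ := intermediate_value_Icc hcIu hbc hmem
    have hq : i.F.q (i.V.Q.al r) = r' := by rw [← he]; exact hP.q_beta _ hF hN0 r' hr'
    rw [hq]
    refine ⟨⟨lt_of_le_of_ne hr'.1 fun h0 => ?_, lt_of_le_of_ne hr'.2 fun h1 => ?_⟩, he⟩
    · rw [← h0, hS.beta_zero _ hF] at he
      exact hv.1.ne he
    · rw [h1] at he
      exact hv.2.ne he.symm
  have hqn : ∀ r ∈ i.V.Win Wd, |i.F.q (i.V.Q.al r) - r| ≤ 2 / K.cb * i.V.d0 := by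
    intro r hr
    obtain ⟨hq1, hq2⟩ := hqi r hr
    have hm := pt.m_bd r hr
    rw [← hq2] at hm
    have hr' := pt.r_mem r hr
    have key : K.cb * |i.F.q (i.V.Q.al r) - r| ≤ |i.F.beta0 (i.F.q (i.V.Q.al r)) - i.F.beta0 r| := by
      rcases le_total r (i.F.q (i.V.Q.al r)) with h | h
      · have e1 := (hS.beta _ hF r _ hr'.1.le h hq1.2.le).1
        have e0 : 0 ≤ i.F.q (i.V.Q.al r) - r := by linarith
        rw [abs_of_nonneg e0, abs_of_nonneg ((mul_nonneg hcb.le e0).trans e1)]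
        exact e1
      · have e1 := (hS.beta _ hF _ r hq1.1.le h hr'.2.le).1
        have e0 : 0 ≤ r - i.F.q (i.V.Q.al r) := by linarith
        rw [abs_sub_comm, abs_sub_comm (i.F.beta0 _), abs_of_nonneg e0, abs_of_nonneg ((mul_nonneg hcb.le e0).trans e1)]
        exact e1
    rw [div_mul_eq_mul_div, le_div_iff₀ hcb]
    linarith
  have hYb : ∀ r ∈ i.V.Win Wd, |i.V.Sr r - r| ≤ |Cg| * i.V.d0 := fun r hr =>
    (hY r (hws hr)).trans (mul_le_mul_of_nonneg_right (le_abs_self _) pt.d0_nonneg)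
  have hdb : ∀ r ∈ i.V.Win Wd, |i.F.d (i.V.Q.al r)| ≤ i.F.lam ^ cs * (i.F.u ^ 3 * i.V.P1) := fun r hr => hsd r (hw1 hr)
  have hinc : ∀ r ∈ i.V.Win Wd, i.V.Ksr r - i.F.K (i.V.Q.al r)
      = i.F.b i.V.g (i.V.Q.al r) * (i.V.Sr r - i.F.q (i.V.Q.al r)) - i.F.C0 * (i.V.Sr r - r) + i.F.d (i.V.Q.al r) := by
    intro r hr
    have h1 := i.V.Q.r_al r (hrin r hr)
    simp only [BdViol.Ksr, BdQ.Ks, BdQ.hq, BdQ.bq, BdViol.Sr, h1, hCc r hr, hheq r hr]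
    ring
  have hincb : ∀ r ∈ i.V.Win Wd, |i.V.Ksr r - i.F.K (i.V.Q.al r)| ≤ M * i.V.d0 := by
    intro r hr
    rw [hinc r hr]
    obtain ⟨hb0, hb1⟩ := hP.b_bd _ hF hN0 _ pt.g_mem _ (pt.v_mem r hr)
    have t1 : |i.F.b i.V.g (i.V.Q.al r) * (i.V.Sr r - i.F.q (i.V.Q.al r))| ≤ |c.CB| * ((|Cg| + 2 / K.cb) * i.V.d0) := by
      rw [abs_mul]
      refine mul_le_mul ?_ ?_ (abs_nonneg _) (abs_nonneg _)
      · rw [abs_of_nonneg hb0]; exact hb1.trans (le_abs_self _)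
      · have e : i.V.Sr r - i.F.q (i.V.Q.al r) = (i.V.Sr r - r) - (i.F.q (i.V.Q.al r) - r) := by ring
        rw [e]
        calc _ ≤ |i.V.Sr r - r| + |i.F.q (i.V.Q.al r) - r| := abs_sub _ _
          _ ≤ |Cg| * i.V.d0 + 2 / K.cb * i.V.d0 := add_le_add (hYb r hr) (hqn r hr)
          _ = _ := by ring
    have t2 : |i.F.C0 * (i.V.Sr r - r)| ≤ |Cg| * i.V.d0 := by
      rw [abs_mul, abs_of_nonneg hC00]
      calc i.F.C0 * |i.V.Sr r - r| ≤ 1 * |i.V.Sr r - r| := mul_le_mul_of_nonneg_right (hC0le.trans hLam1) (abs_nonneg _)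
        _ ≤ _ := by rw [one_mul]; exact hYb r hr
    have t3 : |i.F.d (i.V.Q.al r)| ≤ i.V.d0 := by
      refine (hdb r hr).trans ?_
      calc i.F.lam ^ cs * (i.F.u ^ 3 * i.V.P1) ≤ 1 * (i.F.u ^ 3 * i.V.P1) :=
            mul_le_mul_of_nonneg_right (Real.rpow_le_one hlam.le pt.lam_le hcs.le) hP10
        _ ≤ i.V.d0 := by rw [one_mul]; exact hP1le
    calc _ ≤ |i.F.b i.V.g (i.V.Q.al r) * (i.V.Sr r - i.F.q (i.V.Q.al r)) - i.F.C0 * (i.V.Sr r - r)| + |i.F.d (i.V.Q.al r)| :=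
          abs_add_le _ _
      _ ≤ |i.F.b i.V.g (i.V.Q.al r) * (i.V.Sr r - i.F.q (i.V.Q.al r))| + |i.F.C0 * (i.V.Sr r - r)| + |i.F.d (i.V.Q.al r)| :=
          add_le_add_left (abs_sub _ _) _
      _ ≤ |c.CB| * ((|Cg| + 2 / K.cb) * i.V.d0) + |Cg| * i.V.d0 + i.V.d0 := add_le_add (add_le_add t1 t2) t3
      _ = M * i.V.d0 := by rw [hM]; ring
  have hMd : M * i.V.d0 < c.cK * (c0 * i.F.u) := by
    have e : i.V.d0 = i.F.u * i.V.L := rfl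
    have h1 : M * i.V.L ≤ c.cK * c0 / 2 := by
      calc M * i.V.L ≤ M * (c.cK * c0 / (2 * M)) := mul_le_mul_of_nonneg_left hLs hM0.le
        _ = c.cK * c0 / 2 := by field_simp
    have h2 : 0 < c.cK * c0 := mul_pos hcK hc0
    rw [e]
    calc M * (i.F.u * i.V.L) = (M * i.V.L) * i.F.u := by ring
      _ ≤ (c.cK * c0 / 2) * i.F.u := mul_le_mul_of_nonneg_right h1 hu.le
      _ < (c.cK * c0) * i.F.u := mul_lt_mul_of_pos_right (by linarith) hu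
      _ = _ := by ring
  exact
    { L_nonneg := hL0, G1_nonneg := hG10, G1_ge := hG1ge, P1_nonneg := hP10, P1_le := hP1le, C0_nonneg := hC00, C0_le := hC0le
      r_in := hrin, C_const := hCc, h_eq := hheq, q_mem := fun r hr => (hqi r hr).1, q_inv := fun r hr => (hqi r hr).2
      q_near := hqn, Y_bd := hYb, d_bd := hdb, inc := hinc, inc_bd := hincb
      Ks_mem := fun r hr => by
        have a := abs_le.1 (hincb r hr)
        have b1 := pt.t_lo r hr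
        have b2 := pt.t_hi r hr
        exact ⟨by linarith [a.1], by linarith [a.2]⟩ }


/-- **LEAF ca** (the pointwise inputs of (C20), l.2054-2058).   Put `v = α(r)`, `r' = q(v)`.  By `bd_rh_rng` and the IVT for `β₀` (continuous, slopes `≥ cb`): `v = β₀(r')` with `|r' - r| ≤ 2 d0/cb`, `r' ∈ (0, c_I u)`.
* `r_in, C_const, h_eq`: `bd_rh_rng`, `BdStd.Cconst`, `BdRhP.h_eq`.
* `q_lin`: `α - β₀ = β₀(r') - β₀(r) = ∫_r^{r'} β₀' = (c_β + O(ε))(r' - r)`, so `|r - r' + (α - β₀)/c_β| ≤ ε |r' - r|/c_β`.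
* increment (`bd_ri_inc`): `K_s - K_* = b (S - q) - C0 (S - r) + d = O(d0)` (`Y_bd`, `|q(v) - r| ≤ 2 d0/cb`, `b ≤ CB`, `C0 ≤ 1`, `Seed`).   `K_*(v) ∈ [cK c0 u, t_I - cK c0 u]` (`K_slope`, `K_zero`), so `K_s(v) ∈ (0, t_I)` as `L → 0`.
* `kst_rt`: `Γ_*` is strictly increasing on `(0, t_I)` (`G_slope`) and nondecreasing on `[0,∞)`: `sInf {s ≥ 0 | Γ_*(t) ≤ Γ_*(s)} = t` for `t ∈ (0, t_I)`.
* `taylor`: `q(v) = Γ_*(K_*(v))` (`q_eq`); mean value + `G_lip`: `|tay| ≤ CL λ u (K_s - K_*)² ≤ C λ u d0² = C λ L · u³ L ≤ η u³ P1` since `G1 ≥ λ` and `L → 0`.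
* `seed`: `Seed` (`|d| ≤ λ^c u³P1`) times `Γ_*' ≤ CG`.      * `G_lb`: `G_slope`. -/
theorem bd_rh_ca (hS : BdStd X W Fam K) (hP : BdRhP X W Fam c) (hL : LSmall X W Fam n) (hG : BufGeo X W Fam n)
    (hd : Seed X W Fam n) (hZ : BudZ X W Fam n) (hn : n ≤ X.J + 1) :
    ∀ η Wd : ℝ, 0 < η → 0 < Wd → EvH X W Fam n fun i H => i.V.RhCa (aux X W i H) c.cβ c.cG η Wd := by
  intro η Wd hη hWd
  have hX := hS.fix
  have hcb := hS.cb_pos
  have hcβ := hP.cβ_pos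
  obtain ⟨c0, hc0, hpt⟩ := bd_rh_pt hS hP hL hn
  obtain ⟨Cg, cs, M, hCg, hcs, hM, hinc⟩ := bd_rh_inc hS hP hL hG hd hn
  obtain ⟨N1, h1⟩ := hpt Wd hWd
  obtain ⟨N2, h2⟩ := hinc Wd hWd
  obtain ⟨N3, h3⟩ := hP.beta_lim (η * K.cb * c.cβ / 2) (by positivity)
  obtain ⟨N4, h4⟩ := hL (η / (|c.CL| * M ^ 2 + 1)) (by positivity)
  obtain ⟨N5, h5⟩ := bd_rh_lam_small (X := X) hX (e := cs) (ε := η / (|c.CG| + 1)) hcs (by positivity)
  refine ⟨max (max (max N1 N2) (max N3 N4)) (max N5 c.N0), fun i hi hN H hHc hH => ?_⟩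
  have hN1 : N1 ≤ i.F.N := (le_max_left _ _).trans ((le_max_left _ _).trans ((le_max_left _ _).trans hN))
  have hN2 : N2 ≤ i.F.N := (le_max_right _ _).trans ((le_max_left _ _).trans ((le_max_left _ _).trans hN))
  have hN3 : N3 ≤ i.F.N := (le_max_left _ _).trans ((le_max_right _ _).trans ((le_max_left _ _).trans hN))
  have hN4 : N4 ≤ i.F.N := (le_max_right _ _).trans ((le_max_right _ _).trans ((le_max_left _ _).trans hN))
  have hN5 : N5 ≤ i.F.N := (le_max_left _ _).trans ((le_max_right _ _).trans hN)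
  have hN0 : c.N0 ≤ i.F.N := (le_max_right _ _).trans ((le_max_right _ _).trans hN)
  have pt := h1 i hi hN1
  have ic := h2 i hi hN2 H hHc hH
  have hF := hi.1
  have hok := hS.ok _ hF
  have hbl := h3 _ hF hN3
  have hLs := h4 i hi hN4
  have hl5 := h5 i.F hok hN5
  have hu := pt.u_pos
  have hlam := pt.lam_pos
  have hGd := hP.G_diff _ hF hN0
  have hGs := hP.G_slope _ hF hN0
  have hstrict : StrictMonoOn (W.Gam i.F.K) (Ioo 0 (i.F.tI X)) := bd_rh_t_strict hP.cG_pos hGd fun t ht => (hGs t ht).1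
  have eG : ∀ r, i.V.Gpr (aux X W i H) r = deriv (W.Gam i.F.K) (i.F.K (i.V.Q.al r)) := fun _ => rfl
  refine
    { r_in := ic.r_in, C_const := ic.C_const, h_eq := ic.h_eq, kst_rt := fun r hr => ?_, taylor := fun r hr => ?_
      seed := fun r hr => ?_, q_lin := fun r hr => ?_, G_lb := (hGs _ (pt.t_mem _ pt.r0_mem)).1 }
  · exact bd_rh_t_inv (hP.G_mono _ hF hN0) hstrict (ic.Ks_mem r hr)
  · have hq : i.F.q (i.V.Q.al r) = W.Gam i.F.K (i.F.K (i.V.Q.al r)) :=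
      hP.q_eq _ hF hN0 _ ⟨(pt.v_mem r hr).1.le, (pt.v_mem r hr).2.le⟩
    have ht := bd_rh_t_taylor (φ := W.Gam i.F.K) (Lp := c.CL * i.F.lam * i.F.u) hGd (hP.G_lip _ hF hN0) (pt.t_mem r hr)
      (ic.Ks_mem r hr)
    have e : i.V.tay (aux X W i H) r = W.Gam i.F.K (i.V.Ksr r) - W.Gam i.F.K (i.F.K (i.V.Q.al r))
        - deriv (W.Gam i.F.K) (i.F.K (i.V.Q.al r)) * (i.V.Ksr r - i.F.K (i.V.Q.al r)) := by
      simp only [BdViol.tay, hq, eG]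
      rfl
    rw [e]
    refine ht.trans ?_
    have hb := ic.inc_bd r hr
    have hsq : |i.V.Ksr r - i.F.K (i.V.Q.al r)| ^ 2 ≤ (M * i.V.d0) ^ 2 := pow_le_pow_left₀ (abs_nonneg _) hb 2
    have hlu : 0 ≤ i.F.lam * i.F.u := mul_nonneg hlam.le hu.le
    have hk : |c.CL| * M ^ 2 * i.V.L ≤ η := by
      have hpos : 0 < |c.CL| * M ^ 2 + 1 := by positivity
      calc |c.CL| * M ^ 2 * i.V.L ≤ (|c.CL| * M ^ 2 + 1) * i.V.L := mul_le_mul_of_nonneg_right (by linarith) ic.L_nonneg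
        _ ≤ (|c.CL| * M ^ 2 + 1) * (η / (|c.CL| * M ^ 2 + 1)) := mul_le_mul_of_nonneg_left hLs hpos.le
        _ = η := by field_simp
    have hu3L : 0 ≤ i.F.u ^ 3 * i.V.L := mul_nonneg (pow_nonneg hu.le 3) ic.L_nonneg
    calc c.CL * i.F.lam * i.F.u * |i.V.Ksr r - i.F.K (i.V.Q.al r)| ^ 2
        ≤ |c.CL| * i.F.lam * i.F.u * (M * i.V.d0) ^ 2 := by
          have a1 : c.CL * i.F.lam * i.F.u ≤ |c.CL| * i.F.lam * i.F.u := by
            rw [mul_assoc, mul_assoc]; exact mul_le_mul_of_nonneg_right (le_abs_self _) hlu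
          have a2 : 0 ≤ |c.CL| * i.F.lam * i.F.u := by rw [mul_assoc]; exact mul_nonneg (abs_nonneg _) hlu
          exact mul_le_mul a1 hsq (by positivity) a2
      _ = (|c.CL| * M ^ 2 * i.V.L) * (i.F.u ^ 3 * i.V.L * i.F.lam) := by simp only [BdViol.d0]; ring
      _ ≤ η * (i.F.u ^ 3 * i.V.L * i.V.G1) :=
          mul_le_mul hk (mul_le_mul_of_nonneg_left ic.G1_ge hu3L) (mul_nonneg hu3L hlam.le) hη.le
      _ = η * (i.F.u ^ 3 * i.V.P1) := by simp only [BdViol.P1]; ring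
  · rw [abs_mul, eG]
    obtain ⟨g1, g2⟩ := hGs _ (pt.t_mem r hr)
    have hg : |deriv (W.Gam i.F.K) (i.F.K (i.V.Q.al r))| ≤ |c.CG| := by
      rw [abs_of_nonneg (hP.cG_pos.le.trans g1)]; exact g2.trans (le_abs_self _)
    have hk : |c.CG| * i.F.lam ^ cs ≤ η := by
      have hpos : 0 < |c.CG| + 1 := by positivity
      calc |c.CG| * i.F.lam ^ cs ≤ (|c.CG| + 1) * i.F.lam ^ cs :=
            mul_le_mul_of_nonneg_right (by linarith) (Real.rpow_nonneg hlam.le _)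
        _ ≤ (|c.CG| + 1) * (η / (|c.CG| + 1)) := mul_le_mul_of_nonneg_left hl5 hpos.le
        _ = η := by field_simp
    calc _ ≤ |c.CG| * (i.F.lam ^ cs * (i.F.u ^ 3 * i.V.P1)) := mul_le_mul hg (ic.d_bd r hr) (abs_nonneg _) (abs_nonneg _)
      _ = (|c.CG| * i.F.lam ^ cs) * (i.F.u ^ 3 * i.V.P1) := by ring
      _ ≤ η * (i.F.u ^ 3 * i.V.P1) := mul_le_mul_of_nonneg_right hk ic.P1_nonneg
  · have hlin := bd_rh_t_lin (φ := i.F.beta0) (cβ := c.cβ) (ε := η * K.cb * c.cβ / 2) (hP.beta_diff _ hF hN0) hbl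
      (pt.r_mem r hr) (ic.q_mem r hr)
    rw [ic.q_inv r hr] at hlin
    have e : r - i.F.q (i.V.Q.al r) + (i.V.Q.al r - i.F.beta0 r) / c.cβ
        = (i.V.Q.al r - i.F.beta0 r - c.cβ * (i.F.q (i.V.Q.al r) - r)) / c.cβ := by field_simp; ring
    rw [e, abs_div, abs_of_pos hcβ, div_le_iff₀ hcβ]
    refine hlin.trans ?_
    calc η * K.cb * c.cβ / 2 * |i.F.q (i.V.Q.al r) - r| ≤ η * K.cb * c.cβ / 2 * (2 / K.cb * i.V.d0) :=
          mul_le_mul_of_nonneg_left (ic.q_near r hr) (by positivity)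
      _ = η * i.V.d0 * c.cβ := by field_simp

/-- **LEAF rt** (l.2052-2058).   `rt_mono`: `K_s = hq + bq S` is nondecreasing and `≥ 0` on `(0,1)` (`BdStd.clk`, `PSys.S_mono, S_nonneg`), `Γ_*` nondecreasing on `[0,∞)`, `α` nondecreasing.
`rt_near`: by `bd_ri_inc` and the definition of `tay`:  `r~ - S = -(1 - bΓ_*')(S - q) - Γ_*' C0 (S - r) + Γ_*' d + tay`;  `1 - bΓ_*' ≤ CD λ u² → 0`, `C0 = u²Λ → 0`, `|S - q|, |S - r| = O(d0)`,
the last two are `≤ η u³ P1 ≤ η d0`. -/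
theorem bd_rh_rt (hS : BdStd X W Fam K) (hP : BdRhP X W Fam c) (hL : LSmall X W Fam n) (hG : BufGeo X W Fam n)
    (hd : Seed X W Fam n) (hZ : BudZ X W Fam n) (hn : n ≤ X.J + 1) :
    ∀ δ Wd : ℝ, 0 < δ → 0 < Wd → EvH X W Fam n fun i _ => i.V.RhRt δ Wd := by
  intro δ Wd hδ hWd
  have hX := hS.fix
  have hcb := hS.cb_pos
  obtain ⟨c0, hc0, hpt⟩ := bd_rh_pt hS hP hL hn
  obtain ⟨Cg, cs, M, hCg, hcs, hM, hinc⟩ := bd_rh_inc hS hP hL hG hd hn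
  obtain ⟨N1, h1⟩ := hpt Wd hWd
  obtain ⟨N2, h2⟩ := hinc Wd hWd
  obtain ⟨N3, h3⟩ := bd_rh_ca hS hP hL hG hd hZ hn (δ / 6) Wd (by positivity) hWd
  obtain ⟨N4, h4⟩ := bd_rh_lam_small (X := X) hX (e := 1) (ε := δ / (3 * (|c.CD| * (Cg + 2 / K.cb) + 1))) one_pos (by positivity)
  obtain ⟨N5, h5⟩ := bd_rh_lam_small (X := X) hX (e := 0.03) (ε := δ / (3 * (|c.CG| * Cg + 1))) (by norm_num) (by positivity)
  obtain ⟨N6, h6⟩ := bd_rh_rng_in hS hL hn hWd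
  refine ⟨max (max (max N1 N2) (max N3 N4)) (max (max N5 N6) c.N0), fun i hi hN H hHc hH => ?_⟩
  have hN1 : N1 ≤ i.F.N := (le_max_left _ _).trans ((le_max_left _ _).trans ((le_max_left _ _).trans hN))
  have hN2 : N2 ≤ i.F.N := (le_max_right _ _).trans ((le_max_left _ _).trans ((le_max_left _ _).trans hN))
  have hN3 : N3 ≤ i.F.N := (le_max_left _ _).trans ((le_max_right _ _).trans ((le_max_left _ _).trans hN))
  have hN4 : N4 ≤ i.F.N := (le_max_right _ _).trans ((le_max_right _ _).trans ((le_max_left _ _).trans hN))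
  have hN5 : N5 ≤ i.F.N := (le_max_left _ _).trans ((le_max_left _ _).trans ((le_max_right _ _).trans hN))
  have hN6 : N6 ≤ i.F.N := (le_max_right _ _).trans ((le_max_left _ _).trans ((le_max_right _ _).trans hN))
  have hN0 : c.N0 ≤ i.F.N := (le_max_right _ _).trans ((le_max_right _ _).trans hN)
  have pt := h1 i hi hN1
  have ic := h2 i hi hN2 H hHc hH
  have ca := h3 i hi hN3 H hHc hH
  obtain ⟨-, -, -, -, hvI⟩ := h6 i hi hN6
  have hF := hi.1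
  have hok := hS.ok _ hF
  have hl4 := h4 i.F hok hN4
  have hl5 := h5 i.F hok hN5
  rw [Real.rpow_one] at hl4
  have hu := pt.u_pos
  have hlam := pt.lam_pos
  have hd0 := pt.d0_nonneg
  have hGs := hP.G_slope _ hF hN0
  have eG : ∀ r, i.V.Gpr (aux X W i H) r = deriv (W.Gam i.F.K) (i.F.K (i.V.Q.al r)) := fun _ => rfl
  refine ⟨fun r1 hr1 r2 hr2 h12 => ?_, fun r hr => ?_⟩
  · -- monotonicity
    have hclk := hS.clk _ hF _ pt.g_mem i.V.Q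
    have hSm := (W.ps i.F.m).S_mono (i.V.Q.bq i.V.g) (i.V.Q.hq i.V.g) (by rw [hS.a1]; exact hclk.1) (by rw [hS.a1]; exact hclk.2)
    have hSn := (W.ps i.F.m).S_nonneg (i.V.Q.bq i.V.g) (i.V.Q.hq i.V.g) (by rw [hS.a1]; exact hclk.1) (by rw [hS.a1]; exact hclk.2)
    rw [hS.a1] at hSm hSn
    have m1 : i.V.Q.al r1 ∈ Ioo (0 : ℝ) 1 := ⟨(pt.v_mem r1 hr1).1, (pt.v_mem r1 hr1).2.trans_le hvI⟩
    have m2 : i.V.Q.al r2 ∈ Ioo (0 : ℝ) 1 := ⟨(pt.v_mem r2 hr2).1, (pt.v_mem r2 hr2).2.trans_le hvI⟩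
    have hal : i.V.Q.al r1 ≤ i.V.Q.al r2 := bd_rh_al_mono i.V.Q hok (ic.r_in r1 hr1) (ic.r_in r2 hr2) h12
    have hK : i.V.Ksr r1 ≤ i.V.Ksr r2 := by
      show i.V.Q.hq i.V.g (i.V.Q.al r1) + i.V.Q.bq i.V.g (i.V.Q.al r1) * i.V.Q.Sq W i.V.g (i.V.Q.al r1)
        ≤ i.V.Q.hq i.V.g (i.V.Q.al r2) + i.V.Q.bq i.V.g (i.V.Q.al r2) * i.V.Q.Sq W i.V.g (i.V.Q.al r2)
      exact add_le_add (hclk.2.mono m1 m2 hal)
        (mul_le_mul (hclk.1.mono m1 m2 hal) (hSm m1 m2 hal) (hSn _ m1) (hclk.1.nonneg _ m2))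
    exact hP.G_mono _ hF hN0 (mem_Ici.2 (ic.Ks_mem r1 hr1).1.le) (mem_Ici.2 (ic.Ks_mem r2 hr2).1.le) hK
  · set G := deriv (W.Gam i.F.K) (i.F.K (i.V.Q.al r)) with hGdef
    set b := i.F.b i.V.g (i.V.Q.al r) with hb
    have htay : i.V.tay (aux X W i H) r = i.V.rtr r - i.F.q (i.V.Q.al r) - G * (i.V.Ksr r - i.F.K (i.V.Q.al r)) := rfl
    have e : i.V.rtr r - i.V.Sr r = -((1 - b * G) * (i.V.Sr r - i.F.q (i.V.Q.al r))) - G * i.F.C0 * (i.V.Sr r - r)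
        + G * i.F.d (i.V.Q.al r) + i.V.tay (aux X W i H) r := by
      rw [htay, ic.inc r hr]; ring
    obtain ⟨g1, g2⟩ := hGs _ (pt.t_mem r hr)
    have hG0 : 0 ≤ G := hP.cG_pos.le.trans g1
    have hGle : G ≤ |c.CG| := g2.trans (le_abs_self _)
    have hD0 : 0 ≤ 1 - b * G := by
      have := hP.D_lo _ hF hN0 _ pt.g_mem _ (pt.v_mem r hr)
      have h0 : 0 ≤ c.cD * i.F.lam * i.V.Q.al r ^ 2 := by have := hP.cD_pos; positivity
      exact h0.trans this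
    have hD1 : 1 - b * G ≤ |c.CD| * i.F.lam := by
      have h1' := hP.D_hi _ hF hN0 _ pt.g_mem _ (pt.v_mem r hr)
      have hu2 : i.F.u ^ 2 ≤ 1 := pow_le_one₀ hu.le pt.u_le
      calc 1 - b * G ≤ c.CD * i.F.lam * i.F.u ^ 2 := h1'
        _ ≤ |c.CD| * i.F.lam * i.F.u ^ 2 := by
            have : 0 ≤ i.F.lam * i.F.u ^ 2 := by positivity
            rw [mul_assoc, mul_assoc]; exact mul_le_mul_of_nonneg_right (le_abs_self _) this
        _ ≤ |c.CD| * i.F.lam * 1 := mul_le_mul_of_nonneg_left hu2 (by positivity)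
        _ = _ := mul_one _
    have hSq : |i.V.Sr r - i.F.q (i.V.Q.al r)| ≤ (Cg + 2 / K.cb) * i.V.d0 := by
      have e' : i.V.Sr r - i.F.q (i.V.Q.al r) = (i.V.Sr r - r) - (i.F.q (i.V.Q.al r) - r) := by ring
      rw [e']
      calc _ ≤ |i.V.Sr r - r| + |i.F.q (i.V.Q.al r) - r| := abs_sub _ _
        _ ≤ Cg * i.V.d0 + 2 / K.cb * i.V.d0 := add_le_add (ic.Y_bd r hr) (ic.q_near r hr)
        _ = _ := by ring
    have hA0 : 0 ≤ Cg + 2 / K.cb := by positivity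
    have t1 : |(1 - b * G) * (i.V.Sr r - i.F.q (i.V.Q.al r))| ≤ δ / 3 * i.V.d0 := by
      rw [abs_mul, abs_of_nonneg hD0]
      have hk : |c.CD| * i.F.lam * (Cg + 2 / K.cb) ≤ δ / 3 := by
        have hpos : 0 < |c.CD| * (Cg + 2 / K.cb) + 1 := by positivity
        calc |c.CD| * i.F.lam * (Cg + 2 / K.cb) = (|c.CD| * (Cg + 2 / K.cb)) * i.F.lam := by ring
          _ ≤ (|c.CD| * (Cg + 2 / K.cb) + 1) * i.F.lam := mul_le_mul_of_nonneg_right (by linarith) hlam.le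
          _ ≤ (|c.CD| * (Cg + 2 / K.cb) + 1) * (δ / (3 * (|c.CD| * (Cg + 2 / K.cb) + 1))) :=
              mul_le_mul_of_nonneg_left hl4 hpos.le
          _ = δ / 3 := by field_simp
      calc (1 - b * G) * |i.V.Sr r - i.F.q (i.V.Q.al r)| ≤ (|c.CD| * i.F.lam) * ((Cg + 2 / K.cb) * i.V.d0) :=
            mul_le_mul hD1 hSq (abs_nonneg _) (by positivity)
        _ = (|c.CD| * i.F.lam * (Cg + 2 / K.cb)) * i.V.d0 := by ring
        _ ≤ δ / 3 * i.V.d0 := mul_le_mul_of_nonneg_right hk hd0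
    have t2 : |G * i.F.C0 * (i.V.Sr r - r)| ≤ δ / 3 * i.V.d0 := by
      rw [abs_mul, abs_of_nonneg (mul_nonneg hG0 ic.C0_nonneg)]
      have hLam0 : 0 ≤ i.F.Lam := ic.C0_nonneg.trans ic.C0_le
      have hk : |c.CG| * i.F.Lam * Cg ≤ δ / 3 := by
        have hpos : 0 < |c.CG| * Cg + 1 := by positivity
        calc |c.CG| * i.F.Lam * Cg = (|c.CG| * Cg) * i.F.Lam := by ring
          _ ≤ (|c.CG| * Cg + 1) * i.F.Lam := mul_le_mul_of_nonneg_right (by linarith) hLam0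
          _ ≤ (|c.CG| * Cg + 1) * (δ / (3 * (|c.CG| * Cg + 1))) := mul_le_mul_of_nonneg_left hl5 hpos.le
          _ = δ / 3 := by field_simp
      calc G * i.F.C0 * |i.V.Sr r - r| ≤ (|c.CG| * i.F.Lam) * (Cg * i.V.d0) :=
            mul_le_mul (mul_le_mul hGle ic.C0_le ic.C0_nonneg (abs_nonneg _)) (ic.Y_bd r hr) (abs_nonneg _) (by positivity)
        _ = (|c.CG| * i.F.Lam * Cg) * i.V.d0 := by ring
        _ ≤ δ / 3 * i.V.d0 := mul_le_mul_of_nonneg_right hk hd0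
    have hη : δ / 6 * (i.F.u ^ 3 * i.V.P1) ≤ δ / 6 * i.V.d0 := mul_le_mul_of_nonneg_left ic.P1_le (by positivity)
    have t3 : |G * i.F.d (i.V.Q.al r)| ≤ δ / 6 * i.V.d0 := (ca.seed r hr).trans hη
    have t4 : |i.V.tay (aux X W i H) r| ≤ δ / 6 * i.V.d0 := (ca.taylor r hr).trans hη
    rw [e]
    have a1 := abs_le.1 t1
    have a2 := abs_le.1 t2
    have a3 := abs_le.1 t3
    have a4 := abs_le.1 t4
    rw [abs_le]
    constructor <;> linarith [a1.1, a1.2, a2.1, a2.2, a3.1, a3.2, a4.1, a4.2]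

/-! ### block B (helper41): the transported quantile `r~` and its distribution `α~` -/

/-- `K_s = hq + bq S` is nonnegative and nondecreasing on `(0,1)` -/
theorem bd_rh_Ks_mono (hS : BdStd X W Fam K) {i : BdVI X W} (hi : VSt X W Fam n i) :
    MonotoneOn (i.V.Q.Ks W i.V.g) (Ioo 0 1) ∧ ∀ v ∈ Ioo (0 : ℝ) 1, 0 ≤ i.V.Q.Ks W i.V.g v := by
  have hg := bd_rh_g_mem hS hi
  have hclk := hS.clk _ hi.1 _ hg i.V.Q
  have hmono := (W.ps i.F.m).S_mono (i.V.Q.bq i.V.g) (i.V.Q.hq i.V.g) (by rw [hS.a1]; exact hclk.1) (by rw [hS.a1]; exact hclk.2)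
  have hnn := (W.ps i.F.m).S_nonneg (i.V.Q.bq i.V.g) (i.V.Q.hq i.V.g) (by rw [hS.a1]; exact hclk.1) (by rw [hS.a1]; exact hclk.2)
  rw [hS.a1] at hmono hnn
  refine ⟨fun v1 h1 v2 h2 h12 => ?_, fun v hv => ?_⟩
  · exact add_le_add (hclk.2.mono h1 h2 h12)
      (mul_le_mul (hclk.1.mono h1 h2 h12) (hmono h1 h2 h12) (hnn v1 h1) (hclk.1.nonneg v2 h2))
  · exact add_nonneg (hclk.2.nonneg v hv) (mul_nonneg (hclk.1.nonneg v hv) (hnn v hv))

/-- `r~ = Γ_*(K_s)` is nondecreasing on `(0,1)` -/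
theorem bd_rh_rtil_mono (hS : BdStd X W Fam K) (hP : BdRhP X W Fam c) {i : BdVI X W} (hi : VSt X W Fam n i)
    (hN : c.N0 ≤ i.F.N) : MonotoneOn i.V.rtil (Ioo 0 1) := by
  obtain ⟨h1, h2⟩ := bd_rh_Ks_mono hS hi
  exact fun v1 m1 v2 m2 h12 => hP.G_mono _ hi.1 hN (mem_Ici.2 (h2 v1 m1)) (mem_Ici.2 (h2 v2 m2)) (h1 m1 m2 h12)

/-- a distribution function is nondecreasing -/
theorem bd_rh_dist_mono (ψ : ℝ → ℝ) : Monotone (bdDist ψ) := by
  intro r1 r2 h12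
  have hfin : volume {v : ℝ | v ∈ Ioo (0 : ℝ) 1 ∧ ψ v ≤ r2} ≠ ⊤ :=
    ne_top_of_le_ne_top (by simp) (measure_mono (t := Ioo (0:ℝ) 1) (fun v hv => hv.1))
  exact ENNReal.toReal_mono hfin (measure_mono fun v hv => ⟨hv.1, hv.2.trans h12⟩)

/-- a geometry datum with the density of `α` and the zero potential (only the density matters for `bud_n11_cross`) -/
theorem bd_rh_geo (hX : X.Ok) {F : BdFr} (hF : F.Ok X) (Q : BdQ F X) :
    ∃ g : BudGeo, g.Ok ∧ g.ρ = deriv Q.al ∧ ∀ r ∈ Icc (0 : ℝ) 1, g.al r = Q.al r := by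
  obtain ⟨hd, hal, _⟩ := bud_dens_of_bdq X hX F hF Q
  have hb := bud_gb_box hX hF
  refine ⟨⟨budKb F X, F.Mj, deriv Q.al, fun _ => 1, fun _ => 0, fun r => r, fun r => r ^ 2, 0⟩, ?_, rfl, hal⟩
  have hG : ∀ r, BudGeo.G ⟨budKb F X, F.Mj, deriv Q.al, fun _ => 1, fun _ => 0, fun r => r, fun r => r ^ 2, 0⟩ r = 0 := by
    intro r
    simp only [BudGeo.G, budBr]
    ring
  have hH : ∀ r, BudGeo.H ⟨budKb F X, F.Mj, deriv Q.al, fun _ => 1, fun _ => 0, fun r => r, fun r => r ^ 2, 0⟩ r = 0 := by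
    intro r
    simp only [BudGeo.H, hG, intervalIntegral.integral_zero, sub_zero]
  exact
    { M1 := by have := bud_gb_Mj_ge hF; show (1 : ℝ) < F.Mj; linarith
      kbm := hb.kbm
      kb0 := fun r => hb.kmin0.le.trans (hb.kb_ge r)
      dens := hd
      Cm := measurable_const
      Cpos := fun _ _ => one_pos
      Cbd := ⟨1, fun _ _ => le_rfl⟩
      pm := measurable_const
      Sm := measurable_id
      Bm := measurable_id.pow_const 2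
      pmono := fun _ _ _ _ _ => le_rfl
      p0 := fun _ _ => le_rfl
      p1 := fun _ _ => one_pos
      pz := ⟨1, one_pos, fun _ _ => rfl⟩
      Smono := fun _ _ _ _ h => h
      Bmono := fun r1 h1 r2 _ h => pow_le_pow_left₀ h1.1 h 2
      S0 := fun _ h => h.1
      SB := fun _ _ => le_rfl
      B1 := fun r h => pow_le_one₀ h.1 h.2
      cap := Eventually.of_forall fun r _ h => by rw [hH] at h; exact absurd h (lt_irrefl _)
      floor := Eventually.of_forall fun r _ h => by rw [hH] at h; exact absurd h (lt_irrefl _) }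

/-- **LEAF tp** (bridge to block B of helper41).   `r~` is nondecreasing on `(0,1)`, `|r~(α(r')) - r'| ≤ C₁ d0` on `Win (Wd + C + 2)` (`bd_rh_rt`, `Y_bd` on the larger window).   Hence
`α(r - C₁ d0) ≤ α~(r) ≤ α(r + (C₁+1) d0)`, `α(r ± C d0) = β₀(r) + O(d0)`: `mt_bd`.   `α~` is nondecreasing: `at_int`.
`transp`: `α~(r) - α(r) = |{v > α(r) : r~(v) ≤ r}| - |{v ≤ α(r) : r~(v) > r}|`; the crossing masses are `v = α(r')` with `|r' - r| ≤ (C₁+1) d0 ≤ (C+2) h1`; `|α(E)| = ∫_E ρ` (`Tl106Cov.volume_image`). -/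
theorem bd_rh_tp (hS : BdStd X W Fam K) (hP : BdRhP X W Fam c) (hL : LSmall X W Fam n) (hG : BufGeo X W Fam n)
    (hd : Seed X W Fam n) (hZ : BudZ X W Fam n) (hn : n ≤ X.J + 1) :
    ∃ C0 : ℝ, ∀ C : ℝ, C0 ≤ C → ∀ Wd : ℝ, 0 < Wd → EvH X W Fam n fun i H => i.V.RhTp (aux X W i H) C Wd := by
  have hX := hS.fix
  obtain ⟨C1, hbuf⟩ := bd_rh_buf hS hL hG hn
  set Cy : ℝ := max C1 0 with hCy
  have hCy0 : 0 ≤ Cy := le_max_right _ _
  refine ⟨Cy + |K.Cb| * (Cy + 2), fun C hC Wd hWd => ?_⟩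
  have hCCy : Cy ≤ C := by
    have : 0 ≤ |K.Cb| * (Cy + 2) := by positivity
    linarith
  set Wb : ℝ := Wd + (Cy + 2) with hWb
  have hWb0 : 0 < Wb := by positivity
  have hall := (hbuf Cy (le_max_left _ _) Wb hWb0).and (bd_rh_rt hS hP hL hG hd hZ hn 1 Wb one_pos hWb0)
  replace hall := hall.and (EvH.of_ev (bd_rh_rng_in hS hL hn hWb0))
  replace hall := hall.and (EvH.of_ev (bd_rh_sc hS hZ))
  obtain ⟨N1, h1⟩ := hall
  refine ⟨max N1 c.N0, fun i hi hN H hc hH => ?_⟩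
  obtain ⟨⟨⟨hb, hrt⟩, hh1, hcI, hr, hv, hvI⟩, hsc⟩ := h1 i hi ((le_max_left _ _).trans hN) H hc hH
  have hN0 : c.N0 ≤ i.F.N := (le_max_right _ _).trans hN
  have hF := hi.1
  have hok := hS.ok _ hF
  have hψ := bd_rh_rtil_mono hS hP hi hN0
  have hd0 : 0 < i.V.d0 := mul_pos hsc.u_pos hsc.L_pos
  have hd0h : i.V.d0 ≤ i.V.h1 := mul_le_mul_of_nonneg_left (le_max_left _ _) hsc.u_pos.le
  have hal : ∀ s ∈ i.V.Win Wb, i.V.Q.al s ∈ Ioo (0 : ℝ) 1 := fun s hs => ⟨(hv s hs).1, (hv s hs).2.trans_le hvI⟩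
  have hnear : ∀ s ∈ i.V.Win Wb, |i.V.rtil (i.V.Q.al s) - s| ≤ (Cy + 1) * i.V.d0 := by
    intro s hs
    have a1 := abs_le.1 (hrt.rt_near s hs)
    have a2 := abs_le.1 (hb.Y_bd s hs)
    have e : i.V.rtr s = i.V.rtil (i.V.Q.al s) := rfl
    rw [e] at a1
    rw [abs_le]
    constructor <;> linarith
  have he0 : 0 ≤ (Cy + 1) * i.V.d0 := by positivity
  have hsub : i.V.Win Wd ⊆ i.V.Win Wb := by
    have : 0 ≤ (Cy + 2) * i.V.h1 := by positivity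
    refine Icc_subset_Icc ?_ ?_ <;> rw [hWb] <;> nlinarith
  refine ⟨fun r hr' => ?_, (bd_rh_dist_mono _).intervalIntegrable, fun r hr' => ?_⟩
  · -- `mt_bd`
    have hee : (Cy + 1) * i.V.d0 < (Cy + 2) * i.V.d0 := by nlinarith
    have hle : (Cy + 2) * i.V.d0 ≤ (Cy + 2) * i.V.h1 := mul_le_mul_of_nonneg_left hd0h (by positivity)
    have hr1 : i.V.r0 - Wd * i.V.h1 ≤ r := hr'.1
    have hr2 : r ≤ i.V.r0 + Wd * i.V.h1 := hr'.2
    have hm : r ∈ Icc (i.V.r0 - Wb * i.V.h1 + (Cy + 2) * i.V.d0) (i.V.r0 + Wb * i.V.h1 - (Cy + 2) * i.V.d0) := by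
      constructor <;> rw [hWb] <;> nlinarith
    obtain ⟨b1, b2⟩ := bud_n11_dist_bracket (al := i.V.Q.al) hψ hal hnear he0 hee hm
    have m1 : r - (Cy + 2) * i.V.d0 ∈ i.V.Win Wb := ⟨by linarith [hm.1], by linarith [hm.2, hd0]⟩
    have m2 : r + (Cy + 2) * i.V.d0 ∈ i.V.Win Wb := ⟨by linarith [hm.1, hd0], by linarith [hm.2]⟩
    have m0 := hsub hr'
    have k1 := abs_le.1 (hb.m_bd _ m1)
    have k2 := abs_le.1 (hb.m_bd _ m2)
    have s1 := (hS.beta _ hF _ _ (hr _ m1).1.le (by linarith : r - (Cy + 2) * i.V.d0 ≤ r) (hr _ m0).2.le).2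
    have s2 := (hS.beta _ hF _ _ (hr _ m0).1.le (by linarith : r ≤ r + (Cy + 2) * i.V.d0) (hr _ m2).2.le).2
    have hKb : K.Cb * ((Cy + 2) * i.V.d0) ≤ |K.Cb| * ((Cy + 2) * i.V.d0) :=
      mul_le_mul_of_nonneg_right (le_abs_self _) (by positivity)
    have e1 : r - (r - (Cy + 2) * i.V.d0) = (Cy + 2) * i.V.d0 := by ring
    have e2 : r + (Cy + 2) * i.V.d0 - r = (Cy + 2) * i.V.d0 := by ring
    rw [e1] at s1
    rw [e2] at s2
    have hCd : (Cy + |K.Cb| * (Cy + 2)) * i.V.d0 ≤ C * i.V.d0 := mul_le_mul_of_nonneg_right hC hd0.le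
    have e3 : i.V.altil r = bdDist i.V.rtil r := rfl
    rw [e3, abs_le]
    constructor <;> nlinarith
  · -- `transp`
    obtain ⟨g, hg, hρ, hgal⟩ := bd_rh_geo hX hok i.V.Q
    have hIcc : ∀ s ∈ i.V.Win Wd, s ∈ Icc (0 : ℝ) 1 := fun s hs =>
      ⟨(hr s (hsub hs)).1.le, (hr s (hsub hs)).2.le.trans hcI⟩
    have hle : i.V.r0 - Wd * i.V.h1 ≤ i.V.r0 + Wd * i.V.h1 := by
      have := mul_pos hWd hh1
      linarith
    have hew : (Cy + 1) * i.V.d0 < (C + 2) * i.V.h1 := by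
      calc (Cy + 1) * i.V.d0 ≤ (Cy + 1) * i.V.h1 := mul_le_mul_of_nonneg_left hd0h (by positivity)
        _ < (C + 2) * i.V.h1 := mul_lt_mul_of_pos_right (by linarith) hh1
    have hm : r ∈ Icc (i.V.r0 - Wd * i.V.h1 + (C + 2) * i.V.h1) (i.V.r0 + Wd * i.V.h1 - (C + 2) * i.V.h1) := by
      have a1 : i.V.r0 - (Wd - (C + 2)) * i.V.h1 ≤ r := hr'.1
      have a2 : r ≤ i.V.r0 + (Wd - (C + 2)) * i.V.h1 := hr'.2
      constructor <;> linarith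
    have hw0 : 0 < (C + 2) * i.V.h1 := lt_of_le_of_lt he0 hew
    have hrW : r ∈ i.V.Win Wd := ⟨by linarith [hm.1], by linarith [hm.2]⟩
    have key := bud_n11_cross hg (ψ := i.V.rtil) (lo := i.V.r0 - Wd * i.V.h1) (hi := i.V.r0 + Wd * i.V.h1)
      (hIcc _ ⟨le_rfl, hle⟩).1 (hIcc _ ⟨hle, le_rfl⟩).2 hψ
      (fun s hs => by rw [hgal s (hIcc s hs)]; exact hal s (hsub hs))
      (fun s hs => by rw [hgal s (hIcc s hs)]; exact hnear s (hsub hs)) he0 hew hm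
    rw [hgal r (hIcc r hrW)] at key
    refine key.trans (le_of_eq (intervalIntegral.integral_congr fun s hs => ?_))
    rw [uIcc_of_le (by linarith)] at hs
    have hsW : s ∈ i.V.Win Wd := ⟨by linarith [hm.1, hs.1], by linarith [hm.2, hs.2]⟩
    simp only [hgal s (hIcc s hsW), hρ, BdViol.crossU, BdViol.rtr]
    rfl

/-- **LEAF cv.**  `Win ⊆ Buf s14`; `Γ_s(k_*(r)) = Gf r + r`, `G1 = deriv Gf + 1`; `C14` with `ε = δ`. -/
theorem bd_rh_cv (hS : BdStd X W Fam K) (hL : LSmall X W Fam n) {Astar s14 : ℝ} (hs14 : 0 < s14) (h14 : C14 X W Fam n Astar s14) :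
    ∀ δ Wd : ℝ, 0 < δ → 0 < Wd → EvH X W Fam n fun i H => i.V.RhCv (aux X W i H) Astar δ Wd := by
  intro δ Wd hδ hWd
  obtain ⟨N1, h1⟩ := bd_rh_win hS hL hs14 hWd
  obtain ⟨N2, h2⟩ := h14 δ hδ
  refine ⟨max N1 N2, fun i hi hN H _ _ => ?_⟩
  have hw := h1 i hi ((le_max_left _ _).trans hN)
  obtain ⟨hd, he⟩ := h2 i hi ((le_max_right _ _).trans hN)
  refine ⟨fun r hr => ?_, fun r1 hr1 r2 hr2 h12 => ?_⟩
  · have h3 := (hd r (hw hr)).hasDerivAt.add (hasDerivAt_id r)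
    refine h3.congr_of_eventuallyEq (Filter.Eventually.of_forall fun x => ?_)
    have e : Gf X W i x = i.V.Q.Gs W i.V.g (i.F.kst W x) - x := rfl
    simp only [Pi.add_apply, id, e, sub_add_cancel]
  · have h3 := he r1 (hw hr1) r2 (hw hr2) h12
    have e : (aux X W i H).G1 r2 - (aux X W i H).G1 r1 = deriv (Gf X W i) r2 - deriv (Gf X W i) r1 := by
      have e1 : ∀ r, (aux X W i H).G1 r = deriv (Gf X W i) r + 1 := fun _ => rfl
      rw [e1, e1]; ring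
    rw [e]
    exact h3

/-- `K_*` is Lipschitz on `[0, v_I]` -/
theorem bd_rh_p_K (hP : BdRhP X W Fam c) {F : BdFr} (hF : Fam F) (hN : c.N0 ≤ F.N) {v₁ v₂ : ℝ} (h1 : v₁ ∈ Icc (0 : ℝ) (F.vI X))
    (h2 : v₂ ∈ Icc (0 : ℝ) (F.vI X)) : |F.K v₂ - F.K v₁| ≤ |c.CK| * |v₂ - v₁| := by
  have hcK := hP.cK_pos
  rcases le_total v₁ v₂ with h | h
  · obtain ⟨a1, a2⟩ := hP.K_slope F hF hN v₁ v₂ h1.1 h h2.2
    have h0 : 0 ≤ v₂ - v₁ := sub_nonneg.2 h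
    rw [abs_of_nonneg ((mul_nonneg hcK.le h0).trans a1), abs_of_nonneg h0]
    exact a2.trans (mul_le_mul_of_nonneg_right (le_abs_self _) h0)
  · obtain ⟨a1, a2⟩ := hP.K_slope F hF hN v₂ v₁ h2.1 h h1.2
    have h0 : 0 ≤ v₁ - v₂ := sub_nonneg.2 h
    rw [abs_sub_comm, abs_sub_comm v₂, abs_of_nonneg ((mul_nonneg hcK.le h0).trans a1), abs_of_nonneg h0]
    exact a2.trans (mul_le_mul_of_nonneg_right (le_abs_self _) h0)

/-- `d0 < h1` forces `h1 = u √λ` -/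
theorem bd_rh_p_link {F : BdFr} {V : BdViol F X W} (hu : 0 < F.u) (h : V.d0 < V.h1) : V.h1 = F.u * Real.sqrt F.lam := by
  have e1 : V.d0 = F.u * V.L := rfl
  have e2 : V.h1 = F.u * max V.L (Real.sqrt F.lam) := rfl
  rw [e1, e2] at h
  have h3 : V.L < max V.L (Real.sqrt F.lam) := lt_of_mul_lt_mul_left h hu.le
  rw [e2, max_eq_right]
  rcases lt_max_iff.1 h3 with h4 | h4
  · exact absurd h4 (lt_irrefl _)
  · exact h4.le

/-- the window, second list of elementary facts -/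
theorem bd_rh_p_win (hS : BdStd X W Fam K) (hP : BdRhP X W Fam c) (hL : LSmall X W Fam n) (hZ : BudZ X W Fam n) (hn : n ≤ X.J + 1)
    {Wd : ℝ} (hWd : 0 < Wd) :
    ∃ N0 : ℕ, ∀ i : BdVI X W, VSt X W Fam n i → N0 ≤ i.F.N →
      i.V.r0 ∈ i.V.Win Wd ∧ 0 < i.V.L ∧ i.V.d0 ≤ i.V.h1 ∧ i.V.h1 ≤ 1 ∧ (∀ r ∈ i.V.Win Wd, |i.V.Q.al r - i.F.beta0 r| ≤ 2 * i.V.d0) ∧
      (∀ r ∈ i.V.Win Wd, |i.V.Q.al r - i.V.Q.al i.V.r0| ≤ (|K.Cb| * Wd + 4) * i.V.h1) ∧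
      (∀ r ∈ i.V.Win Wd, i.F.K (i.V.Q.al r) ∈ Ioo (0 : ℝ) (i.F.tI X)) := by
  obtain ⟨N1, h1⟩ := bd_rh_rng_in hS hL hn hWd
  obtain ⟨N2, h2⟩ := bd_rh_win hS hL (s := 1) one_pos hWd
  obtain ⟨N3, h3⟩ := bd_rh_sc hS hZ
  refine ⟨max (max N1 N2) (max N3 c.N0), fun i hi hN => ?_⟩
  have hN1 : N1 ≤ i.F.N := (le_max_left _ _).trans ((le_max_left _ _).trans hN)
  have hN2 : N2 ≤ i.F.N := (le_max_right _ _).trans ((le_max_left _ _).trans hN)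
  have hN3 : N3 ≤ i.F.N := (le_max_left _ _).trans ((le_max_right _ _).trans hN)
  have hN0 : c.N0 ≤ i.F.N := (le_max_right _ _).trans ((le_max_right _ _).trans hN)
  obtain ⟨hh1, hcI, hr, hv, hvI⟩ := h1 i hi hN1
  have hw := h2 i hi hN2
  have hsc := h3 i hi hN3
  obtain ⟨hF, hA, hst, hV, hL1⟩ := hi
  have hok := hS.ok _ hF
  have hu := hsc.u_pos
  have hlam := hsc.lam_pos
  have hWh := mul_pos hWd hh1
  have hr0 : i.V.r0 ∈ i.V.Win Wd := ⟨by linarith, by linarith⟩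
  have hd0h1 : i.V.d0 ≤ i.V.h1 := mul_le_mul_of_nonneg_left (le_max_left _ _) hu.le
  have hh1le : i.V.h1 ≤ 1 := by
    have e1 : max i.V.L (Real.sqrt i.F.lam) ≤ 1 := by
      refine max_le hL1 ?_
      exact Real.sqrt_le_one.2 (BdFr.bds_lam_lt_one hok hS.fix).le
    calc i.V.h1 = i.F.u * max i.V.L (Real.sqrt i.F.lam) := rfl
      _ ≤ 1 * 1 := mul_le_mul (BdFr.bds_u_le_one hok hS.fix) e1 (le_max_of_le_right (Real.sqrt_nonneg _)) zero_le_one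
      _ = 1 := one_mul 1
  have hm : ∀ r ∈ i.V.Win Wd, |i.V.Q.al r - i.F.beta0 r| ≤ 2 * i.V.d0 := by
    intro r hr'
    have hb := hw hr'
    have hb1 : i.V.r0 - 1 * i.V.bbuf ≤ r := hb.1
    have hb2 : r ≤ i.V.r0 + 1 * i.V.bbuf := hb.2
    exact hV.buf r (abs_le.2 ⟨by linarith, by linarith⟩)
  have hβ : ∀ r ∈ i.V.Win Wd, |i.F.beta0 r - i.F.beta0 i.V.r0| ≤ |K.Cb| * (Wd * i.V.h1) := by
    intro r hr'
    have a1 := hr r hr'
    have a0 := hr _ hr0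
    have hcb := hS.cb_pos
    rcases le_total i.V.r0 r with h | h
    · obtain ⟨b1, b2⟩ := hS.beta _ hF i.V.r0 r a0.1.le h a1.2.le
      have h0 : 0 ≤ r - i.V.r0 := sub_nonneg.2 h
      rw [abs_of_nonneg ((mul_nonneg hcb.le h0).trans b1)]
      refine b2.trans ((mul_le_mul_of_nonneg_right (le_abs_self _) h0).trans (mul_le_mul_of_nonneg_left ?_ (abs_nonneg _)))
      linarith [hr'.2]
    · obtain ⟨b1, b2⟩ := hS.beta _ hF r i.V.r0 a1.1.le h a0.2.le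
      have h0 : 0 ≤ i.V.r0 - r := sub_nonneg.2 h
      rw [abs_sub_comm, abs_of_nonneg ((mul_nonneg hcb.le h0).trans b1)]
      refine b2.trans ((mul_le_mul_of_nonneg_right (le_abs_self _) h0).trans (mul_le_mul_of_nonneg_left ?_ (abs_nonneg _)))
      linarith [hr'.1]
  refine ⟨hr0, hsc.L_pos, hd0h1, hh1le, hm, fun r hr' => ?_, fun r hr' => ?_⟩
  · have e1 := abs_le.1 (hm r hr')
    have e2 := abs_le.1 (hm _ hr0)
    have e3 := abs_le.1 (hβ r hr')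
    rw [abs_le]
    constructor <;> nlinarith
  · have a1 := hv r hr'
    have hcK := hP.cK_pos
    obtain ⟨b1, _⟩ := hP.K_slope _ hF hN0 0 _ le_rfl a1.1.le a1.2.le
    obtain ⟨b2, _⟩ := hP.K_slope _ hF hN0 _ (i.F.vI X) a1.1.le a1.2.le le_rfl
    have b3 := hP.K_zero _ hF hN0
    have e1 : 0 < c.cK * (i.V.Q.al r - 0) := mul_pos hcK (by linarith [a1.1])
    have e2 : 0 < c.cK * (i.F.vI X - i.V.Q.al r) := mul_pos hcK (by linarith [a1.2])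
    have e3 : i.F.tI X = i.F.K (i.F.vI X) := rfl
    rw [e3]
    exact ⟨by linarith, by linarith⟩

/-- **LEAF p** (l.2064-2066).   `v = α(r) ∈ [c0 u, v_I - c0 u]`, `|α(r) - α(r0)| ≤ Cb Wd h1 + 4 d0 ≤ (Cb Wd + 4) h1`.
`G_pos, G_near`: `G_slope`, `G_lip`, `K_slope`: variation `≤ CL λ u CK (Cb Wd + 4) h1 → 0`.     `D_nonneg, D_le`: `D_lo`, `D_hi`, `h1² ≥ λ u²`  (`C0 = CD`).
`D_near`: `|D(v₂) - D(v₁)| ≤ (Cb CG + CB CL CK) λ u |v₂ - v₁| ≤ C λ u h1 ≤ δ h1²` since `λ u ≤ √λ h1`.     `D_R`: `CD λ u² ≤ δ cG u² λ^{0.03}`.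
`link`: `d0 < h1` forces `L < √λ`, `h1² = λ u²`; `D(r0) ≥ cD λ (c0 u)²`: `cD' = cD c0²`; `λ u² ≤ δ cG u² λ^{0.03}`. -/
theorem bd_rh_p (hS : BdStd X W Fam K) (hP : BdRhP X W Fam c) (hL : LSmall X W Fam n) (hZ : BudZ X W Fam n) (hn : n ≤ X.J + 1) :
    ∃ C0 cD : ℝ, 0 < cD ∧ ∀ C : ℝ, C0 ≤ C → ∀ δ Wd : ℝ, 0 < δ → 0 < Wd → EvH X W Fam n fun i H => i.V.RhP (aux X W i H) C cD δ Wd := by
  obtain ⟨c0, hc0, hrng⟩ := bd_rh_rng hS hL hn
  have hcD := hP.cD_pos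
  have hcG := hP.cG_pos
  refine ⟨|c.CD|, c.cD * c0 ^ 2, by positivity, fun C hC δ Wd hδ hWd => ?_⟩
  obtain ⟨B, hB⟩ : ∃ B : ℝ, B = |K.Cb| * Wd + 4 := ⟨_, rfl⟩
  have hB0 : 0 < B := by rw [hB]; positivity
  obtain ⟨A1, hA1⟩ : ∃ A1 : ℝ, A1 = |c.CL| * |c.CK| * B := ⟨_, rfl⟩
  have hA10 : 0 ≤ A1 := by rw [hA1]; positivity
  obtain ⟨A2, hA2⟩ : ∃ A2 : ℝ, A2 = |c.Cb| * B * |c.CG| + |c.CB| * A1 := ⟨_, rfl⟩
  have hA20 : 0 ≤ A2 := by rw [hA2]; positivity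
  obtain ⟨N1, h1⟩ := bd_rh_p_win hS hP hL hZ hn hWd
  obtain ⟨N2, h2⟩ := hrng Wd hWd
  obtain ⟨N3, h3⟩ := bd_rh_lam_small (X := X) hS.fix (e := 1) (ε := δ * c.cG / (A1 + 1)) one_pos (by positivity)
  obtain ⟨N4, h4⟩ := bd_rh_lam_small (X := X) hS.fix (e := 1 / 2) (ε := δ / (A2 + 1)) (by norm_num) (by positivity)
  obtain ⟨N5, h5⟩ := bd_rh_lam_small (X := X) hS.fix (e := 0.97) (ε := δ * c.cG / (|c.CD| + 1)) (by norm_num) (by positivity)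
  obtain ⟨N6, h6⟩ := bd_rh_rng_in hS hL hn hWd
  refine ⟨max (max (max N1 N2) (max N3 N4)) (max (max N5 N6) c.N0), fun i hi hN H _ _ => ?_⟩
  have hN1 : N1 ≤ i.F.N := (le_max_left _ _).trans ((le_max_left _ _).trans ((le_max_left _ _).trans hN))
  have hN2 : N2 ≤ i.F.N := (le_max_right _ _).trans ((le_max_left _ _).trans ((le_max_left _ _).trans hN))
  have hN3 : N3 ≤ i.F.N := (le_max_left _ _).trans ((le_max_right _ _).trans ((le_max_left _ _).trans hN))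
  have hN4 : N4 ≤ i.F.N := (le_max_right _ _).trans ((le_max_right _ _).trans ((le_max_left _ _).trans hN))
  have hN5 : N5 ≤ i.F.N := (le_max_left _ _).trans ((le_max_left _ _).trans ((le_max_right _ _).trans hN))
  have hN6 : N6 ≤ i.F.N := (le_max_right _ _).trans ((le_max_left _ _).trans ((le_max_right _ _).trans hN))
  have hN0 : c.N0 ≤ i.F.N := (le_max_right _ _).trans ((le_max_right _ _).trans hN)
  obtain ⟨hr0, hLpos, hd0h1, hh1le, hm, hdv, hKm⟩ := h1 i hi hN1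
  have hrg := h2 i hi hN2
  obtain ⟨hh1, hcI, hr, hv, hvI⟩ := h6 i hi hN6
  have hg := bd_rh_g_mem hS hi
  have hF := hi.1
  have hok := hS.ok _ hF
  have hu := BdFr.bds_u_pos hok hS.fix
  have hu1 := BdFr.bds_u_le_one hok hS.fix
  have hlam := BdFr.bds_lam_pos hok
  have hl3 := h3 i.F hok hN3
  have hl4 := h4 i.F hok hN4
  have hl5 := h5 i.F hok hN5
  rw [Real.rpow_one] at hl3
  rw [← Real.sqrt_eq_rpow] at hl4
  -- notation
  have eG : ∀ r, i.V.Gpr (aux X W i H) r = deriv (W.Gam i.F.K) (i.F.K (i.V.Q.al r)) := fun _ => rfl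
  have eD : ∀ r, i.V.Dr (aux X W i H) r = 1 - i.F.b i.V.g (i.V.Q.al r) * deriv (W.Gam i.F.K) (i.F.K (i.V.Q.al r)) := fun _ => rfl
  have hGs : ∀ r ∈ i.V.Win Wd, c.cG ≤ deriv (W.Gam i.F.K) (i.F.K (i.V.Q.al r)) ∧ deriv (W.Gam i.F.K) (i.F.K (i.V.Q.al r)) ≤ c.CG :=
    fun r hr' => hP.G_slope _ hF hN0 _ (hKm r hr')
  have hG0 := hGs _ hr0
  have hsq : Real.sqrt i.F.lam * Real.sqrt i.F.lam = i.F.lam := Real.mul_self_sqrt hlam.le
  have hsq0 : 0 < Real.sqrt i.F.lam := Real.sqrt_pos.2 hlam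
  have hh1lo : i.F.u * Real.sqrt i.F.lam ≤ i.V.h1 := mul_le_mul_of_nonneg_left (le_max_right _ _) hu.le
  have hh1sq : i.F.lam * i.F.u ^ 2 ≤ i.V.h1 ^ 2 := by
    calc i.F.lam * i.F.u ^ 2 = (i.F.u * Real.sqrt i.F.lam) ^ 2 := by rw [mul_pow, Real.sq_sqrt hlam.le]; ring
      _ ≤ i.V.h1 ^ 2 := pow_le_pow_left₀ (by positivity) hh1lo 2
  have hC0 : i.F.C0 = i.F.u ^ 2 * i.F.lam ^ (0.03 : ℝ) := rfl
  have hl97 : i.F.lam = i.F.lam ^ (0.97 : ℝ) * i.F.lam ^ (0.03 : ℝ) := by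
    rw [← Real.rpow_add hlam]; norm_num
  have hl03 : 0 < i.F.lam ^ (0.03 : ℝ) := Real.rpow_pos_of_pos hlam _
  -- `(|CD| + 1) λ u² ≤ δ Γ' C0`
  have hDR : (|c.CD| + 1) * (i.F.lam * i.F.u ^ 2) ≤ δ * (deriv (W.Gam i.F.K) (i.F.K (i.V.Q.al i.V.r0)) * i.F.C0) := by
    have e1 : (|c.CD| + 1) * i.F.lam ^ (0.97 : ℝ) ≤ δ * c.cG := by
      calc (|c.CD| + 1) * i.F.lam ^ (0.97 : ℝ) ≤ (|c.CD| + 1) * (δ * c.cG / (|c.CD| + 1)) :=
            mul_le_mul_of_nonneg_left hl5 (by positivity)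
        _ = δ * c.cG := by field_simp
    calc (|c.CD| + 1) * (i.F.lam * i.F.u ^ 2)
        = ((|c.CD| + 1) * i.F.lam ^ (0.97 : ℝ)) * i.F.C0 := by rw [hC0]; nth_rewrite 1 [hl97]; ring
      _ ≤ (δ * c.cG) * i.F.C0 := mul_le_mul_of_nonneg_right e1 (by rw [hC0]; positivity)
      _ ≤ (δ * deriv (W.Gam i.F.K) (i.F.K (i.V.Q.al i.V.r0))) * i.F.C0 :=
          mul_le_mul_of_nonneg_right (mul_le_mul_of_nonneg_left hG0.1 hδ.le) (by rw [hC0]; positivity)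
      _ = _ := by ring
  -- variation of `Γ'`
  have hGv : ∀ r ∈ i.V.Win Wd, |deriv (W.Gam i.F.K) (i.F.K (i.V.Q.al r)) - deriv (W.Gam i.F.K) (i.F.K (i.V.Q.al i.V.r0))|
      ≤ A1 * (i.F.lam * i.F.u * i.V.h1) := by
    intro r hr'
    have e1 := hP.G_lip _ hF hN0 _ (hKm _ hr0) _ (hKm r hr')
    have e2 := bd_rh_p_K hP hF hN0 ⟨(hv _ hr0).1.le, (hv _ hr0).2.le⟩ ⟨(hv r hr').1.le, (hv r hr').2.le⟩
    have e3 := hdv r hr'
    rw [← hB] at e3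
    have hlu : 0 ≤ i.F.lam * i.F.u := by positivity
    calc _ ≤ c.CL * i.F.lam * i.F.u * |i.F.K (i.V.Q.al r) - i.F.K (i.V.Q.al i.V.r0)| := e1
      _ = c.CL * (i.F.lam * i.F.u * |i.F.K (i.V.Q.al r) - i.F.K (i.V.Q.al i.V.r0)|) := by ring
      _ ≤ |c.CL| * (i.F.lam * i.F.u * |i.F.K (i.V.Q.al r) - i.F.K (i.V.Q.al i.V.r0)|) :=
          mul_le_mul_of_nonneg_right (le_abs_self _) (by positivity)
      _ ≤ |c.CL| * (i.F.lam * i.F.u * (|c.CK| * (B * i.V.h1))) := by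
          refine mul_le_mul_of_nonneg_left (mul_le_mul_of_nonneg_left ?_ hlu) (abs_nonneg _)
          exact e2.trans (mul_le_mul_of_nonneg_left e3 (abs_nonneg _))
      _ = A1 * (i.F.lam * i.F.u * i.V.h1) := by rw [hA1]; ring
  have huh : i.F.u * i.V.h1 ≤ 1 := by
    calc i.F.u * i.V.h1 ≤ 1 * 1 := mul_le_mul hu1 hh1le hh1.le zero_le_one
      _ = 1 := one_mul 1
  refine ⟨?_, fun r hr' => ?_, fun r hr' => ?_, fun r hr' => ?_, fun r hr' => ?_, fun r hr' => ?_, fun hlt => ⟨?_, ?_⟩⟩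
  · rw [eG]; exact hcG.trans_le hG0.1
  · rw [eG, eG]
    refine (hGv r hr').trans ?_
    have e1 : A1 * i.F.lam ≤ δ * c.cG := by
      calc A1 * i.F.lam ≤ (A1 + 1) * (δ * c.cG / (A1 + 1)) :=
            mul_le_mul (by linarith) hl3 hlam.le (by positivity)
        _ = δ * c.cG := by field_simp
    calc A1 * (i.F.lam * i.F.u * i.V.h1) = (A1 * i.F.lam) * (i.F.u * i.V.h1) := by ring
      _ ≤ (A1 * i.F.lam) * 1 := mul_le_mul_of_nonneg_left huh (by positivity)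
      _ ≤ δ * c.cG := by rw [mul_one]; exact e1
      _ ≤ _ := mul_le_mul_of_nonneg_left hG0.1 hδ.le
  · rw [eD]
    have := hP.D_lo _ hF hN0 _ hg _ (hv r hr')
    have h0 : 0 ≤ c.cD * i.F.lam * i.V.Q.al r ^ 2 := by positivity
    linarith
  · rw [eD]
    have e1 := hP.D_hi _ hF hN0 _ hg _ (hv r hr')
    calc _ ≤ c.CD * i.F.lam * i.F.u ^ 2 := e1
      _ = c.CD * (i.F.lam * i.F.u ^ 2) := by ring
      _ ≤ C * (i.F.lam * i.F.u ^ 2) := mul_le_mul_of_nonneg_right ((le_abs_self _).trans hC) (by positivity)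
      _ ≤ C * i.V.h1 ^ 2 := mul_le_mul_of_nonneg_left hh1sq ((abs_nonneg _).trans hC)
  · rw [eD, eD]
    have e1 := hGv r hr'
    have e2 := hP.b_lip _ hF hN0 _ hg _ (hv _ hr0) _ (hv r hr')
    have e3 := hdv r hr'
    rw [← hB] at e3
    have e4 := hP.b_bd _ hF hN0 _ hg _ (hv _ hr0)
    have e5 := hGs r hr'
    have hlu : 0 ≤ i.F.lam * i.F.u := by positivity
    have e6 : |i.F.b i.V.g (i.V.Q.al r) - i.F.b i.V.g (i.V.Q.al i.V.r0)| ≤ |c.Cb| * B * (i.F.lam * i.F.u * i.V.h1) := by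
      calc _ ≤ c.Cb * i.F.lam * i.F.u * |i.V.Q.al r - i.V.Q.al i.V.r0| := e2
        _ = c.Cb * (i.F.lam * i.F.u * |i.V.Q.al r - i.V.Q.al i.V.r0|) := by ring
        _ ≤ |c.Cb| * (i.F.lam * i.F.u * |i.V.Q.al r - i.V.Q.al i.V.r0|) :=
            mul_le_mul_of_nonneg_right (le_abs_self _) (by positivity)
        _ ≤ |c.Cb| * (i.F.lam * i.F.u * (B * i.V.h1)) :=
            mul_le_mul_of_nonneg_left (mul_le_mul_of_nonneg_left e3 hlu) (abs_nonneg _)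
        _ = _ := by ring
    have e7 : |deriv (W.Gam i.F.K) (i.F.K (i.V.Q.al r))| ≤ |c.CG| := by
      rw [abs_of_nonneg (hcG.le.trans e5.1)]; exact e5.2.trans (le_abs_self _)
    have e8 : |i.F.b i.V.g (i.V.Q.al i.V.r0)| ≤ |c.CB| := by
      rw [abs_of_nonneg e4.1]; exact e4.2.trans (le_abs_self _)
    have hT0 : 0 ≤ i.F.lam * i.F.u * i.V.h1 := by positivity
    have e9 : |(1 - i.F.b i.V.g (i.V.Q.al r) * deriv (W.Gam i.F.K) (i.F.K (i.V.Q.al r)))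
        - (1 - i.F.b i.V.g (i.V.Q.al i.V.r0) * deriv (W.Gam i.F.K) (i.F.K (i.V.Q.al i.V.r0)))| ≤ A2 * (i.F.lam * i.F.u * i.V.h1) := by
      have : (1 - i.F.b i.V.g (i.V.Q.al r) * deriv (W.Gam i.F.K) (i.F.K (i.V.Q.al r)))
          - (1 - i.F.b i.V.g (i.V.Q.al i.V.r0) * deriv (W.Gam i.F.K) (i.F.K (i.V.Q.al i.V.r0)))
          = -((i.F.b i.V.g (i.V.Q.al r) - i.F.b i.V.g (i.V.Q.al i.V.r0)) * deriv (W.Gam i.F.K) (i.F.K (i.V.Q.al r)))
            - i.F.b i.V.g (i.V.Q.al i.V.r0) * (deriv (W.Gam i.F.K) (i.F.K (i.V.Q.al r)) - deriv (W.Gam i.F.K) (i.F.K (i.V.Q.al i.V.r0))) := by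
        ring
      rw [this]
      refine (abs_sub _ _).trans ?_
      rw [abs_neg, abs_mul, abs_mul, hA2]
      have f1 := mul_le_mul e6 e7 (abs_nonneg _) (by positivity)
      have f2 := mul_le_mul e8 e1 (abs_nonneg _) (abs_nonneg _)
      refine (add_le_add f1 f2).trans (le_of_eq ?_)
      ring
    refine e9.trans ?_
    have e10 : i.F.lam * i.F.u ≤ Real.sqrt i.F.lam * i.V.h1 := by
      calc i.F.lam * i.F.u = (Real.sqrt i.F.lam * Real.sqrt i.F.lam) * i.F.u := by rw [hsq]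
        _ = Real.sqrt i.F.lam * (i.F.u * Real.sqrt i.F.lam) := by ring
        _ ≤ Real.sqrt i.F.lam * i.V.h1 := mul_le_mul_of_nonneg_left hh1lo hsq0.le
    have e11 : A2 * Real.sqrt i.F.lam ≤ δ := by
      calc A2 * Real.sqrt i.F.lam ≤ (A2 + 1) * (δ / (A2 + 1)) := mul_le_mul (by linarith) hl4 hsq0.le (by positivity)
        _ = δ := by field_simp
    calc A2 * (i.F.lam * i.F.u * i.V.h1) ≤ A2 * (Real.sqrt i.F.lam * i.V.h1 * i.V.h1) :=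
          mul_le_mul_of_nonneg_left (mul_le_mul_of_nonneg_right e10 hh1.le) hA20
      _ = (A2 * Real.sqrt i.F.lam) * i.V.h1 ^ 2 := by ring
      _ ≤ δ * i.V.h1 ^ 2 := mul_le_mul_of_nonneg_right e11 (by positivity)
  · rw [eD, eG]
    have e1 := hP.D_hi _ hF hN0 _ hg _ (hv r hr')
    refine le_trans ?_ hDR
    calc _ ≤ c.CD * i.F.lam * i.F.u ^ 2 := e1
      _ = c.CD * (i.F.lam * i.F.u ^ 2) := by ring
      _ ≤ (|c.CD| + 1) * (i.F.lam * i.F.u ^ 2) :=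
          mul_le_mul_of_nonneg_right (by linarith [le_abs_self c.CD]) (by positivity)
  · rw [eD]
    have e0 := bd_rh_p_link hu hlt
    have e1 := hP.D_lo _ hF hN0 _ hg _ (hv _ hr0)
    have e2 := hrg.v_lo _ hr0
    have e3 : (c0 * i.F.u) ^ 2 ≤ i.V.Q.al i.V.r0 ^ 2 := pow_le_pow_left₀ (by positivity) e2 2
    rw [e0]
    calc c.cD * c0 ^ 2 * (i.F.u * Real.sqrt i.F.lam) ^ 2 = c.cD * i.F.lam * (c0 * i.F.u) ^ 2 := by
          rw [mul_pow, Real.sq_sqrt hlam.le]; ring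
      _ ≤ c.cD * i.F.lam * i.V.Q.al i.V.r0 ^ 2 := mul_le_mul_of_nonneg_left e3 (by positivity)
      _ ≤ _ := e1
  · rw [eG]
    have e0 := bd_rh_p_link hu hlt
    refine le_trans ?_ hDR
    rw [e0, mul_pow, Real.sq_sqrt hlam.le]
    have : 0 ≤ i.F.lam * i.F.u ^ 2 := by positivity
    have h9 : 0 ≤ |c.CD| := abs_nonneg _
    nlinarith

/-- arithmetic of `bd_rh_off`: `M λ ≤ A`, `x¹² ≤ λ`, `1/M_j ≤ x¹⁰⁰`, `x² ≤ d0` -/
theorem bd_rh_off_ar {x lam M A Mi d0 : ℝ} (hx0 : 0 < x) (hx1 : x ≤ 1) (hl : x ^ 12 ≤ lam) (hM0 : 0 ≤ M) (hM : M * lam ≤ A)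
    (hMi0 : 0 ≤ Mi) (hMi : Mi ≤ x ^ 100) (hd : x ^ 2 ≤ d0) :
    M * Mi ≤ A * lam * d0 ∧ M * Mi ^ 2 ≤ A * lam * d0 ^ 2 := by
  have hA0 : 0 ≤ A := (mul_nonneg hM0 ((pow_pos hx0 12).le.trans hl)).trans hM
  have hl0 : 0 ≤ lam := (pow_pos hx0 12).le.trans hl
  have h12 : M * x ^ 12 ≤ A := (mul_le_mul_of_nonneg_left hl hM0).trans hM
  have hp : ∀ k : ℕ, x ^ k ≤ 1 := fun k => pow_le_one₀ hx0.le hx1
  have hq : ∀ k : ℕ, 0 < x ^ k := fun k => pow_pos hx0 k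
  constructor
  · calc M * Mi ≤ M * x ^ 100 := mul_le_mul_of_nonneg_left hMi hM0
      _ = (M * x ^ 12) * (x ^ 12 * x ^ 74 * x ^ 2) := by ring
      _ ≤ A * (lam * 1 * d0) := by
          refine mul_le_mul h12 ?_ (by positivity) hA0
          exact mul_le_mul (mul_le_mul hl (hp 74) (hq 74).le hl0) hd (hq 2).le (by positivity)
      _ = A * lam * d0 := by ring
  · have hd2 : x ^ 4 ≤ d0 ^ 2 := by
      calc x ^ 4 = (x ^ 2) ^ 2 := by ring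
        _ ≤ d0 ^ 2 := pow_le_pow_left₀ (hq 2).le hd 2
    calc M * Mi ^ 2 ≤ M * (x ^ 100) ^ 2 := mul_le_mul_of_nonneg_left (pow_le_pow_left₀ hMi0 hMi 2) hM0
      _ = (M * x ^ 12) * (x ^ 12 * x ^ 172 * x ^ 4) := by ring
      _ ≤ A * (lam * 1 * d0 ^ 2) := by
          refine mul_le_mul h12 ?_ (by positivity) hA0
          exact mul_le_mul (mul_le_mul hl (hp 172) (hq 172).le hl0) hd2 (hq 4).le (by positivity)
      _ = A * lam * d0 ^ 2 := by ring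

/-- **LEAF off.**  `r ∉ Fl` means `H r ≤ 0`, i.e. `r ∈ bdNonfloor H`: `H_off` is trivial, clause 4 of `BufGeo` gives `|S - r| ≤ 1/M_j` (or `C/M_j`), clause 5 `H ≥ -C C0/M_j²`.
Arithmetic: `R0 = Γ_*' C0/h1² ≤ CG Λ/λ ≤ CG λ^{-1} ≤ CG x^{-12}`, `d0 = u L ≥ u a_goal ≥ x²/u ≥ x²` (`V.Ok.big`, `Z ≥ 1`, `bds_astage_ge`), `M_j ≥ x^{-100}`:
`max(1,R0)/M_j ≤ C x^{88} ≤ δ x² ≤ δ d0` and `max(1,R0) C/M_j² ≤ 2 δ d0²` for large `N`. -/
theorem bd_rh_off (hS : BdStd X W Fam K) (hP : BdRhP X W Fam c) (hL : LSmall X W Fam n) (hG : BufGeo X W Fam n)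
    (hZ : BudZ X W Fam n) (hn : n ≤ X.J + 1) :
    ∀ δ Wd : ℝ, 0 < δ → 0 < Wd → EvH X W Fam n fun i H => i.V.RhOff (aux X W i H) δ Wd := by
  intro δ Wd hδ hWd
  obtain ⟨Cg, s, hs0, hs1, N1, hgeo⟩ := hG
  obtain ⟨A, hA⟩ : ∃ A : ℝ, A = 1 + |c.CG| := ⟨_, rfl⟩
  have hA0 : 0 < A := by rw [hA]; positivity
  obtain ⟨N2, h2⟩ := bd_rh_win hS hL (s := s) hs0 hWd
  obtain ⟨N3, h3⟩ := bd_rh_p_win hS hP hL hZ hn hWd
  obtain ⟨N4, h4⟩ := bd_rh_rng_in hS hL hn hWd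
  obtain ⟨N5, h5⟩ := vst_L_ge hS hZ
  obtain ⟨N6, h6⟩ := bd_rh_lam_small (X := X) hS.fix (e := 1) (ε := δ / (2 * A * (1 + |Cg|))) one_pos (by positivity)
  refine ⟨max (max (max N1 N2) (max N3 N4)) (max (max N5 N6) c.N0), fun i hi hN H _ hH => ?_⟩
  have hN1 : N1 ≤ i.F.N := (le_max_left _ _).trans ((le_max_left _ _).trans ((le_max_left _ _).trans hN))
  have hN2 : N2 ≤ i.F.N := (le_max_right _ _).trans ((le_max_left _ _).trans ((le_max_left _ _).trans hN))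
  have hN3 : N3 ≤ i.F.N := (le_max_left _ _).trans ((le_max_right _ _).trans ((le_max_left _ _).trans hN))
  have hN4 : N4 ≤ i.F.N := (le_max_right _ _).trans ((le_max_right _ _).trans ((le_max_left _ _).trans hN))
  have hN5 : N5 ≤ i.F.N := (le_max_left _ _).trans ((le_max_left _ _).trans ((le_max_right _ _).trans hN))
  have hN6 : N6 ≤ i.F.N := (le_max_right _ _).trans ((le_max_left _ _).trans ((le_max_right _ _).trans hN))
  have hN0 : c.N0 ≤ i.F.N := (le_max_right _ _).trans ((le_max_right _ _).trans hN)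
  obtain ⟨_, _, _, hg4, hg5⟩ := hgeo i hi hN1 H hH
  have hw := h2 i hi hN2
  obtain ⟨hr0, hLpos, hd0h1, hh1le, hm, hdv, hKm⟩ := h3 i hi hN3
  obtain ⟨hh1, hcI, hr, hv, hvI⟩ := h4 i hi hN4
  obtain ⟨hag, _⟩ := h5 i hi hN5
  have hF := hi.1
  have hok := hS.ok _ hF
  have hl6 := h6 i.F hok hN6
  rw [Real.rpow_one] at hl6
  have hu := BdFr.bds_u_pos hok hS.fix
  have hu1 := BdFr.bds_u_le_one hok hS.fix
  have hlam := BdFr.bds_lam_pos hok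
  have hlam1 := (BdFr.bds_lam_lt_one hok hS.fix).le
  have hx := BdFr.bds_x_pos hok
  have hx1 := (BdFr.bds_x_lt_one hok).le
  have hG0 := hP.G_slope _ hF hN0 _ (hKm _ hr0)
  have hcG := hP.cG_pos
  -- `x¹² ≤ λ`
  have hl12 : i.F.x ^ 12 ≤ i.F.lam := by
    have := hok.lam_lo
    rwa [show (12 : ℝ) = ((12 : ℕ) : ℝ) by norm_num, Real.rpow_natCast] at this
  -- `1/M_j ≤ x¹⁰⁰`
  have hMj : i.F.Mj = 2 ^ i.F.st * (i.F.x ^ 100)⁻¹ := by
    have : i.F.Mj = 2 ^ i.F.st * i.F.x ^ (-(100 : ℝ)) := rfl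
    rw [this, Real.rpow_neg hx.le, show (100 : ℝ) = ((100 : ℕ) : ℝ) by norm_num, Real.rpow_natCast]
  have hMjpos : 0 < i.F.Mj := by rw [hMj]; positivity
  have hMi : 1 / i.F.Mj ≤ i.F.x ^ 100 := by
    rw [hMj, one_div, mul_inv, inv_inv]
    have : ((2 : ℝ) ^ i.F.st)⁻¹ ≤ 1 := inv_le_one_of_one_le₀ (one_le_pow₀ (by norm_num))
    calc ((2 : ℝ) ^ i.F.st)⁻¹ * i.F.x ^ 100 ≤ 1 * i.F.x ^ 100 := mul_le_mul_of_nonneg_right this (by positivity)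
      _ = _ := one_mul _
  -- `x² ≤ d0`
  have hd0 : i.F.x ^ 2 ≤ i.V.d0 := by
    have e1 : i.F.agoal X = (i.F.x / i.F.u) ^ 2 * i.F.lam ^ (-X.s0) := rfl
    have e2 : 1 ≤ i.F.lam ^ (-X.s0) :=
      Real.one_le_rpow_of_pos_of_le_one_of_nonpos hlam hlam1 (by linarith [BdFr.bds_s0_ge hS.fix])
    have e3 : (i.F.x / i.F.u) ^ 2 ≤ i.V.L := by
      calc (i.F.x / i.F.u) ^ 2 = (i.F.x / i.F.u) ^ 2 * 1 := (mul_one _).symm
        _ ≤ (i.F.x / i.F.u) ^ 2 * i.F.lam ^ (-X.s0) := mul_le_mul_of_nonneg_left e2 (by positivity)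
        _ ≤ i.V.L := by rw [← e1]; exact hag
    calc i.F.x ^ 2 ≤ i.F.x ^ 2 / i.F.u := by
          rw [le_div_iff₀ hu]
          calc i.F.x ^ 2 * i.F.u ≤ i.F.x ^ 2 * 1 := mul_le_mul_of_nonneg_left hu1 (by positivity)
            _ = _ := mul_one _
      _ = i.F.u * (i.F.x / i.F.u) ^ 2 := by field_simp
      _ ≤ i.F.u * i.V.L := mul_le_mul_of_nonneg_left e3 hu.le
  have hd0pos : 0 < i.V.d0 := (pow_pos hx 2).trans_le hd0
  -- `max 1 R0 · λ ≤ A`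
  obtain ⟨M, hMdef⟩ : ∃ M : ℝ, M = max 1 (i.V.R0 (aux X W i H)) := ⟨_, rfl⟩
  have hM0 : 0 ≤ M := by rw [hMdef]; exact zero_le_one.trans (le_max_left _ _)
  have hC0 : i.F.C0 = i.F.u ^ 2 * i.F.lam ^ (0.03 : ℝ) := rfl
  have hC0pos : 0 < i.F.C0 := by rw [hC0]; exact mul_pos (pow_pos hu 2) (Real.rpow_pos_of_pos hlam _)
  have hh1sq : i.F.lam * i.F.u ^ 2 ≤ i.V.h1 ^ 2 := by
    have hh1lo : i.F.u * Real.sqrt i.F.lam ≤ i.V.h1 := mul_le_mul_of_nonneg_left (le_max_right _ _) hu.le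
    calc i.F.lam * i.F.u ^ 2 = (i.F.u * Real.sqrt i.F.lam) ^ 2 := by rw [mul_pow, Real.sq_sqrt hlam.le]; ring
      _ ≤ i.V.h1 ^ 2 := pow_le_pow_left₀ (by positivity) hh1lo 2
  have hM : M * i.F.lam ≤ A := by
    have e1 : i.V.R0 (aux X W i H) = deriv (W.Gam i.F.K) (i.F.K (i.V.Q.al i.V.r0)) * i.F.C0 / i.V.h1 ^ 2 := rfl
    have e2 : i.F.C0 * i.F.lam ≤ i.V.h1 ^ 2 := by
      have : i.F.lam ^ (0.03 : ℝ) ≤ 1 := Real.rpow_le_one hlam.le hlam1 (by norm_num)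
      calc i.F.C0 * i.F.lam = (i.F.lam * i.F.u ^ 2) * i.F.lam ^ (0.03 : ℝ) := by rw [hC0]; ring
        _ ≤ (i.F.lam * i.F.u ^ 2) * 1 := mul_le_mul_of_nonneg_left this (by positivity)
        _ ≤ i.V.h1 ^ 2 := by rw [mul_one]; exact hh1sq
    have e3 : i.V.R0 (aux X W i H) * i.F.lam ≤ |c.CG| := by
      rw [e1, div_mul_eq_mul_div, div_le_iff₀ (pow_pos hh1 2)]
      calc deriv (W.Gam i.F.K) (i.F.K (i.V.Q.al i.V.r0)) * i.F.C0 * i.F.lam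
          = deriv (W.Gam i.F.K) (i.F.K (i.V.Q.al i.V.r0)) * (i.F.C0 * i.F.lam) := by ring
        _ ≤ |c.CG| * i.V.h1 ^ 2 :=
            mul_le_mul (hG0.2.trans (le_abs_self _)) e2 (by positivity) (abs_nonneg _)
    rw [hMdef, hA]
    rcases max_cases 1 (i.V.R0 (aux X W i H)) with ⟨e, _⟩ | ⟨e, _⟩
    · rw [e]; linarith [abs_nonneg c.CG]
    · rw [e]; linarith
  obtain ⟨a1, a2⟩ := bd_rh_off_ar hx hx1 hl12 hM0 hM (by positivity) hMi hd0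
  have hAl : 2 * A * (1 + |Cg|) * i.F.lam ≤ δ := by
    calc 2 * A * (1 + |Cg|) * i.F.lam ≤ 2 * A * (1 + |Cg|) * (δ / (2 * A * (1 + |Cg|))) :=
          mul_le_mul_of_nonneg_left hl6 (by positivity)
      _ = δ := by field_simp
  have hAl1 : 2 * (A * i.F.lam) ≤ δ := by
    have : 0 ≤ 2 * A * i.F.lam * |Cg| := by positivity
    nlinarith
  have hAl2 : |Cg| * (A * i.F.lam) ≤ δ := by
    have : 0 ≤ A * i.F.lam * |Cg| := by positivity
    have : 0 ≤ A * i.F.lam := by positivity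
    nlinarith
  have hin : ∀ r ∈ i.V.Win Wd, r ∈ Icc (0 : ℝ) 1 := fun r hr' => ⟨(hr r hr').1.le, (hr r hr').2.le.trans hcI⟩
  refine ⟨fun r hr' hfl => ?_, fun r hr' => ?_, fun r hr' hfl => ?_⟩
  · have hH0 : H r ≤ 0 := not_lt.1 hfl
    have e1 := hg4 r (hw hr') ⟨hin r hr', hH0⟩
    have e2 : i.V.Sr r = i.V.Q.Sq W i.V.g (i.V.Q.al r) := rfl
    rw [← hMdef, e2]
    calc M * |i.V.Q.Sq W i.V.g (i.V.Q.al r) - r| ≤ M * (2 / i.F.Mj) := mul_le_mul_of_nonneg_left e1 hM0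
      _ = 2 * (M * (1 / i.F.Mj)) := by ring
      _ ≤ 2 * (A * i.F.lam * i.V.d0) := by linarith
      _ = (2 * (A * i.F.lam)) * i.V.d0 := by ring
      _ ≤ δ * i.V.d0 := mul_le_mul_of_nonneg_right hAl1 hd0pos.le
  · rw [← hMdef]
    have eH : (aux X W i H).H r = H r := rfl
    rw [eH]
    have e1 := hg5 r (hw hr')
    have e3 : Cg * i.F.C0 / i.F.Mj ^ 2 ≤ |Cg| * i.F.C0 * (1 / i.F.Mj) ^ 2 := by
      have : Cg * i.F.C0 / i.F.Mj ^ 2 = Cg * (i.F.C0 * (1 / i.F.Mj) ^ 2) := by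
        rw [one_div, inv_pow]; ring
      rw [this, mul_assoc]
      exact mul_le_mul_of_nonneg_right (le_abs_self _) (by positivity)
    have e4 : M * (|Cg| * i.F.C0 * (1 / i.F.Mj) ^ 2) ≤ δ * (2 * i.F.C0 * i.V.d0 ^ 2) := by
      calc M * (|Cg| * i.F.C0 * (1 / i.F.Mj) ^ 2) = (|Cg| * i.F.C0) * (M * (1 / i.F.Mj) ^ 2) := by ring
        _ ≤ (|Cg| * i.F.C0) * (A * i.F.lam * i.V.d0 ^ 2) := mul_le_mul_of_nonneg_left a2 (by positivity)
        _ = (|Cg| * (A * i.F.lam)) * (i.F.C0 * i.V.d0 ^ 2) := by ring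
        _ ≤ δ * (i.F.C0 * i.V.d0 ^ 2) := mul_le_mul_of_nonneg_right hAl2 (by positivity)
        _ ≤ δ * (2 * i.F.C0 * i.V.d0 ^ 2) := by
            refine mul_le_mul_of_nonneg_left ?_ hδ.le
            have : 0 ≤ i.F.C0 * i.V.d0 ^ 2 := by positivity
            linarith
    have e5 : M * (-(|Cg| * i.F.C0 * (1 / i.F.Mj) ^ 2)) ≤ M * H r :=
      mul_le_mul_of_nonneg_left (by linarith) hM0
    linarith
  · exact not_lt.1 hfl

/-- bounded and a.e. measurable on `[a,b]` -/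
def BdRhBM (f : ℝ → ℝ) (a b : ℝ) : Prop :=
  AEStronglyMeasurable f (volume.restrict (Icc a b)) ∧ ∃ C : ℝ, ∀ r ∈ Icc a b, |f r| ≤ C

theorem bd_rh_bm_const (c a b : ℝ) : BdRhBM (fun _ => c) a b :=
  ⟨aestronglyMeasurable_const, |c|, fun _ _ => le_rfl⟩

theorem bd_rh_bm_id (a b : ℝ) : BdRhBM (fun r => r) a b :=
  ⟨measurable_id.aestronglyMeasurable, max |a| |b|, fun _ hr => abs_le_max_abs_abs hr.1 hr.2⟩

theorem BdRhBM.add {f g : ℝ → ℝ} {a b : ℝ} (hf : BdRhBM f a b) (hg : BdRhBM g a b) : BdRhBM (fun r => f r + g r) a b := by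
  obtain ⟨f1, C, f2⟩ := hf
  obtain ⟨g1, D, g2⟩ := hg
  exact ⟨f1.add g1, C + D, fun r hr => (abs_add_le _ _).trans (add_le_add (f2 r hr) (g2 r hr))⟩

theorem BdRhBM.sub {f g : ℝ → ℝ} {a b : ℝ} (hf : BdRhBM f a b) (hg : BdRhBM g a b) : BdRhBM (fun r => f r - g r) a b := by
  obtain ⟨f1, C, f2⟩ := hf
  obtain ⟨g1, D, g2⟩ := hg
  exact ⟨f1.sub g1, C + D, fun r hr => (abs_sub _ _).trans (add_le_add (f2 r hr) (g2 r hr))⟩

theorem BdRhBM.mul {f g : ℝ → ℝ} {a b : ℝ} (hf : BdRhBM f a b) (hg : BdRhBM g a b) : BdRhBM (fun r => f r * g r) a b := by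
  obtain ⟨f1, C, f2⟩ := hf
  obtain ⟨g1, D, g2⟩ := hg
  refine ⟨f1.mul g1, C * D, fun r hr => ?_⟩
  rw [abs_mul]
  exact mul_le_mul (f2 r hr) (g2 r hr) (abs_nonneg _) ((abs_nonneg _).trans (f2 r hr))

theorem BdRhBM.abs {f : ℝ → ℝ} {a b : ℝ} (hf : BdRhBM f a b) : BdRhBM (fun r => |f r|) a b := by
  obtain ⟨f1, C, f2⟩ := hf
  exact ⟨f1.norm, C, fun r hr => by rw [abs_abs]; exact f2 r hr⟩

theorem BdRhBM.congr {f g : ℝ → ℝ} {a b : ℝ} (hf : BdRhBM f a b) (h : ∀ r ∈ Icc a b, g r = f r) : BdRhBM g a b := by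
  obtain ⟨f1, C, f2⟩ := hf
  refine ⟨f1.congr ?_, C, fun r hr => by rw [h r hr]; exact f2 r hr⟩
  rw [EventuallyEq, ae_restrict_iff' measurableSet_Icc]
  exact Eventually.of_forall fun r hr => (h r hr).symm

theorem bd_rh_bm_mono {f : ℝ → ℝ} {a b : ℝ} (hf : MonotoneOn f (Icc a b)) : BdRhBM f a b := by
  refine ⟨(aemeasurable_restrict_of_monotoneOn measurableSet_Icc hf).aestronglyMeasurable, max |f a| |f b|, fun r hr => ?_⟩
  have hab : a ≤ b := hr.1.trans hr.2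
  exact abs_le_max_abs_abs (hf ⟨le_rfl, hab⟩ hr hr.1) (hf hr ⟨hab, le_rfl⟩ hr.2)

/-- a function continuous on `[c,d]` after a bounded measurable function with values in `[c,d]` -/
theorem BdRhBM.comp_cont {g φ : ℝ → ℝ} {a b c d : ℝ} (hφ : BdRhBM φ a b) (hg : ContinuousOn g (Icc c d))
    (hm : ∀ r ∈ Icc a b, φ r ∈ Icc c d) : BdRhBM (fun r => g (φ r)) a b := by
  rcases (Icc a b).eq_empty_or_nonempty with he | ⟨r0, hr0⟩
  · refine ⟨?_, 0, fun r hr => by rw [he] at hr; exact absurd hr (notMem_empty _)⟩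
    rw [he, Measure.restrict_empty]
    exact aestronglyMeasurable_zero_measure _
  have hcd : c ≤ d := (hm r0 hr0).1.trans (hm r0 hr0).2
  have hc : Continuous (IccExtend hcd (domRestrict (Icc c d) g)) := (continuousOn_iff_continuous_domRestrict.1 hg).Icc_extend'
  have he : ∀ y ∈ Icc c d, IccExtend hcd (domRestrict (Icc c d) g) y = g y := fun y hy => by
    rw [IccExtend_of_mem _ _ hy]; rfl
  obtain ⟨C, hC⟩ := isCompact_Icc.exists_bound_of_continuousOn hg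
  refine ⟨?_, C, fun r hr => hC _ (hm r hr)⟩
  refine (hc.comp_aestronglyMeasurable hφ.1).congr ?_
  rw [EventuallyEq, ae_restrict_iff' measurableSet_Icc]
  exact Eventually.of_forall fun r hr => he _ (hm r hr)

/-- a Borel function after a bounded measurable function, with an explicit bound -/
theorem BdRhBM.comp_meas {g φ : ℝ → ℝ} {a b C : ℝ} (hφ : BdRhBM φ a b) (hg : Measurable g)
    (hb : ∀ r ∈ Icc a b, |g (φ r)| ≤ C) : BdRhBM (fun r => g (φ r)) a b :=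
  ⟨(hg.comp_aemeasurable hφ.1.aemeasurable).aestronglyMeasurable, C, hb⟩

theorem BdRhBM.intervalIntegrable {f : ℝ → ℝ} {a b : ℝ} (hf : BdRhBM f a b) (hab : a ≤ b) : IntervalIntegrable f volume a b := by
  obtain ⟨f1, C, f2⟩ := hf
  rw [intervalIntegrable_iff_integrableOn_Icc_of_le hab]
  refine Integrable.of_bound f1 C ?_
  rw [ae_restrict_iff' measurableSet_Icc]
  exact Eventually.of_forall fun r hr => by rw [Real.norm_eq_abs]; exact f2 r hr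

theorem BdRhBM.mul_integrable {f ρ : ℝ → ℝ} {a b : ℝ} (hf : BdRhBM f a b) (hab : a ≤ b) (hρ : IntervalIntegrable ρ volume a b) :
    IntervalIntegrable (fun r => f r * ρ r) volume a b := by
  obtain ⟨f1, C, f2⟩ := hf
  rw [intervalIntegrable_iff_integrableOn_Icc_of_le hab] at hρ ⊢
  refine Integrable.bdd_mul (c := C) hρ f1 ?_
  rw [ae_restrict_iff' measurableSet_Icc]
  exact Eventually.of_forall fun r hr => by rw [Real.norm_eq_abs]; exact f2 r hr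

theorem BdRhBM.mono_set {f : ℝ → ℝ} {a b a' b' : ℝ} (hf : BdRhBM f a b) (ha : a ≤ a') (hb : b' ≤ b) : BdRhBM f a' b' := by
  obtain ⟨f1, C, f2⟩ := hf
  exact ⟨f1.mono_measure (Measure.restrict_mono (Icc_subset_Icc ha hb) le_rfl), C, fun r hr => f2 r (Icc_subset_Icc ha hb hr)⟩

theorem BdRhBM.div_const {f : ℝ → ℝ} {a b : ℝ} (hf : BdRhBM f a b) (c : ℝ) : BdRhBM (fun r => f r / c) a b :=
  (hf.mul (bd_rh_bm_const c⁻¹ a b)).congr fun _ _ => div_eq_mul_inv _ _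

/-- forces the equation lemma of `BdRhBM` to be generated HERE -/
theorem bd_rh_bm_eqns_cite : True := by
  have := @BdRhBM.eq_1
  trivial

/-- the pieces of `eU`, `c19r` on the window: bounded, measurable -/
structure BdViol.RhPc {F : BdFr} {X : BdFix} {W : BdWorld} (V : BdViol F X W) (a : BdRigAux) (s14 Wd : ℝ) : Prop where
  le : V.r0 - Wd * V.h1 ≤ V.r0 + Wd * V.h1
  win01 : ∀ r ∈ V.Win Wd, r ∈ Icc (0 : ℝ) 1
  al01 : ∀ r ∈ V.Win Wd, V.Q.al r ∈ Ioo (0 : ℝ) 1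
  al_mono : MonotoneOn V.Q.al (Icc 0 1)
  S_mono : MonotoneOn (V.Q.Sq W V.g) (Ioo 0 1)
  rt_mono : MonotoneOn V.rtr (V.Win Wd)
  rt_buf : ∀ r ∈ V.Win Wd, V.rtr r ∈ V.Buf s14
  g_cont : ContinuousOn (fun y => V.Q.Gs W V.g (F.kst W y)) (V.Buf s14)
  rt : BdRhBM V.rtr (V.r0 - Wd * V.h1) (V.r0 + Wd * V.h1)
  gk : BdRhBM (fun r => V.Q.Gs W V.g (F.kst W (V.rtr r))) (V.r0 - Wd * V.h1) (V.r0 + Wd * V.h1)
  gp : BdRhBM (V.Gpr a) (V.r0 - Wd * V.h1) (V.r0 + Wd * V.h1)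
  sr : BdRhBM V.Sr (V.r0 - Wd * V.h1) (V.r0 + Wd * V.h1)
  al : BdRhBM V.Q.al (V.r0 - Wd * V.h1) (V.r0 + Wd * V.h1)
  be : BdRhBM F.beta0 (V.r0 - Wd * V.h1) (V.r0 + Wd * V.h1)
  b : BdRhBM (fun r => F.b V.g (V.Q.al r)) (V.r0 - Wd * V.h1) (V.r0 + Wd * V.h1)

/-- all pieces are bounded and measurable on the window -/
theorem bd_rh_pc (hS : BdStd X W Fam K) (hP : BdRhP X W Fam c) (hL : LSmall X W Fam n) (hG : BufGeo X W Fam n)
    (hd : Seed X W Fam n) (hZ : BudZ X W Fam n) (hn : n ≤ X.J + 1) {Astar s14 : ℝ} (hs14 : 0 < s14) (h14 : C14 X W Fam n Astar s14) :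
    ∀ Wd : ℝ, 0 < Wd → EvH X W Fam n fun i H => i.V.RhPc (aux X W i H) s14 Wd := by
  intro Wd hWd
  obtain ⟨C0, hbuf⟩ := bd_rh_buf hS hL hG hn
  obtain ⟨C, hC⟩ : ∃ C : ℝ, C = max C0 0 := ⟨_, rfl⟩
  have hC0 : C0 ≤ C := by rw [hC]; exact le_max_left _ _
  have hCnn : 0 ≤ C := by rw [hC]; exact le_max_right _ _
  obtain ⟨N1, h1⟩ := hbuf C hC0 Wd hWd
  obtain ⟨N2, h2⟩ := bd_rh_rt hS hP hL hG hd hZ hn 1 Wd one_pos hWd
  obtain ⟨N3, h3⟩ := bd_rh_win hS hL hs14 (Wd := Wd + C + 1) (by positivity)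
  obtain ⟨N4, h4⟩ := h14 1 one_pos
  obtain ⟨N5, h5⟩ := bd_rh_p_win hS hP hL hZ hn hWd
  obtain ⟨N6, h6⟩ := bd_rh_rng_in hS hL hn hWd
  refine ⟨max (max (max N1 N2) (max N3 N4)) (max (max N5 N6) c.N0), fun i hi hN H hHc hH => ?_⟩
  have hN1 : N1 ≤ i.F.N := (le_max_left _ _).trans ((le_max_left _ _).trans ((le_max_left _ _).trans hN))
  have hN2 : N2 ≤ i.F.N := (le_max_right _ _).trans ((le_max_left _ _).trans ((le_max_left _ _).trans hN))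
  have hN3 : N3 ≤ i.F.N := (le_max_left _ _).trans ((le_max_right _ _).trans ((le_max_left _ _).trans hN))
  have hN4 : N4 ≤ i.F.N := (le_max_right _ _).trans ((le_max_right _ _).trans ((le_max_left _ _).trans hN))
  have hN5 : N5 ≤ i.F.N := (le_max_left _ _).trans ((le_max_left _ _).trans ((le_max_right _ _).trans hN))
  have hN6 : N6 ≤ i.F.N := (le_max_right _ _).trans ((le_max_left _ _).trans ((le_max_right _ _).trans hN))
  have hN0 : c.N0 ≤ i.F.N := (le_max_right _ _).trans ((le_max_right _ _).trans hN)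
  have hb := h1 i hi hN1 H hHc hH
  have hrt := h2 i hi hN2 H hHc hH
  have hw := h3 i hi hN3
  obtain ⟨hdiff, _⟩ := h4 i hi hN4
  obtain ⟨hr0, hLpos, hd0h1, hh1le, hm, hdv, hKm⟩ := h5 i hi hN5
  obtain ⟨hh1, hcI, hr, hv, hvI⟩ := h6 i hi hN6
  have hg := bd_rh_g_mem hS hi
  have hF := hi.1
  have hok := hS.ok _ hF
  have hle : i.V.r0 - Wd * i.V.h1 ≤ i.V.r0 + Wd * i.V.h1 := by
    have := mul_pos hWd hh1
    linarith
  have hin : ∀ r ∈ i.V.Win Wd, r ∈ Icc (0 : ℝ) 1 := fun r hr' => ⟨(hr r hr').1.le, (hr r hr').2.le.trans hcI⟩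
  have hal01 : ∀ r ∈ i.V.Win Wd, i.V.Q.al r ∈ Ioo (0 : ℝ) 1 := fun r hr' => ⟨(hv r hr').1, (hv r hr').2.trans_le hvI⟩
  have halm : MonotoneOn i.V.Q.al (i.V.Win Wd) := fun r1 e1 r2 e2 h12 => bd_rh_al_mono i.V.Q hok (hin _ e1) (hin _ e2) h12
  have hrtb : ∀ r ∈ i.V.Win Wd, i.V.rtr r ∈ i.V.Buf s14 := by
    intro r hr'
    apply hw
    have e1 := abs_le.1 (hrt.rt_near r hr')
    have e2 := abs_le.1 (hb.Y_bd r hr')
    have e3 : C * i.V.d0 ≤ C * i.V.h1 := mul_le_mul_of_nonneg_left hd0h1 hCnn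
    have e4 : i.V.r0 - Wd * i.V.h1 ≤ r := hr'.1
    have e5 : r ≤ i.V.r0 + Wd * i.V.h1 := hr'.2
    constructor
    · have : (Wd + C + 1) * i.V.h1 = Wd * i.V.h1 + C * i.V.h1 + i.V.h1 := by ring
      linarith [e1.1, e2.1]
    · have : (Wd + C + 1) * i.V.h1 = Wd * i.V.h1 + C * i.V.h1 + i.V.h1 := by ring
      linarith [e1.2, e2.2]
  have hgc : ContinuousOn (fun y => i.V.Q.Gs W i.V.g (i.F.kst W y)) (i.V.Buf s14) := by
    intro y hy
    have h3 := (hdiff y hy).continuousAt.add (continuousAt_id (x := y))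
    refine (h3.congr (Filter.Eventually.of_forall fun x => ?_)).continuousWithinAt
    have e : Gf X W i x = i.V.Q.Gs W i.V.g (i.F.kst W x) - x := rfl
    simp only [Pi.add_apply, id, e, sub_add_cancel]
  have hclk := hS.clk _ hF _ hg i.V.Q
  have hSm := (W.ps i.F.m).S_mono (i.V.Q.bq i.V.g) (i.V.Q.hq i.V.g) (by rw [hS.a1]; exact hclk.1) (by rw [hS.a1]; exact hclk.2)
  rw [hS.a1] at hSm
  have hrtBM : BdRhBM i.V.rtr (i.V.r0 - Wd * i.V.h1) (i.V.r0 + Wd * i.V.h1) := bd_rh_bm_mono hrt.rt_mono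
  have hKal : BdRhBM (fun r => i.F.K (i.V.Q.al r)) (i.V.r0 - Wd * i.V.h1) (i.V.r0 + Wd * i.V.h1) := by
    refine bd_rh_bm_mono fun r1 e1 r2 e2 h12 => ?_
    have a1 := hv r1 e1
    have a2 := hv r2 e2
    have a3 := halm e1 e2 h12
    obtain ⟨b1, _⟩ := hP.K_slope _ hF hN0 _ _ a1.1.le a3 a2.2.le
    have : 0 ≤ c.cK * (i.V.Q.al r2 - i.V.Q.al r1) := mul_nonneg hP.cK_pos.le (sub_nonneg.2 a3)
    show i.F.K (i.V.Q.al r1) ≤ i.F.K (i.V.Q.al r2)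
    linarith
  refine ⟨hle, hin, hal01, bd_rh_al_mono i.V.Q hok, hSm, hrt.rt_mono, hrtb, hgc, hrtBM, hrtBM.comp_cont hgc hrtb, ?_,
    bd_rh_bm_mono hb.S_mono, bd_rh_bm_mono halm, ?_, ?_⟩
  · refine hKal.comp_meas (g := deriv (W.Gam i.F.K)) (C := |c.CG|) (measurable_deriv _) fun r hr' => ?_
    obtain ⟨e1, e2⟩ := hP.G_slope _ hF hN0 _ (hKm r hr')
    rw [abs_of_nonneg (hP.cG_pos.le.trans e1)]
    exact e2.trans (le_abs_self _)
  · refine bd_rh_bm_mono fun r1 e1 r2 e2 h12 => ?_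
    obtain ⟨b1, _⟩ := hS.beta _ hF r1 r2 (hr r1 e1).1.le h12 (hr r2 e2).2.le
    have : 0 ≤ K.cb * (r2 - r1) := mul_nonneg hS.cb_pos.le (sub_nonneg.2 h12)
    linarith
  · exact bd_rh_bm_mono fun r1 e1 r2 e2 h12 => (hS.clk0 _ hF _ hg).1.mono (hal01 r1 e1) (hal01 r2 e2) (halm e1 e2 h12)

/-- **LEAF ms.**  All pieces of `eU` are bounded and measurable on the window: `r~∘α`, `S∘α`, `α`, `β₀`, `b∘α`, `K_*∘α` are monotone; `Γ_*'` is continuous on `(0,t_I)` (`G_lip`);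
`r ↦ Γ_s(k_*(r)) = Gf r + r` is continuous on `Buf s14` (`C14`: differentiable) and is composed with the monotone `r~∘α`, whose values lie in `Buf s14` (`rt_near`, `Y_bd`, larger window).
`ρ = deriv α` is measurable (`measurable_deriv`) and bounded by `M_j`. -/
theorem bd_rh_ms (hS : BdStd X W Fam K) (hP : BdRhP X W Fam c) (hL : LSmall X W Fam n) (hG : BufGeo X W Fam n)
    (hd : Seed X W Fam n) (hZ : BudZ X W Fam n) (hn : n ≤ X.J + 1) {Astar s14 : ℝ} (hs14 : 0 < s14) (h14 : C14 X W Fam n Astar s14) :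
    ∀ Wd : ℝ, 0 < Wd → EvH X W Fam n fun i H => i.V.RhMs (aux X W i H) c.cβ Wd := by
  intro Wd hWd
  refine ((bd_rh_pc hS hP hL hG hd hZ hn hs14 h14 Wd hWd).and (bd_rh_den hS hP hL hn 1 Wd one_pos hWd)).mono fun i H h => ?_
  obtain ⟨hpc, hden⟩ := h
  have hY := hpc.sr.sub (bd_rh_bm_id _ _)
  have hD := (bd_rh_bm_const 1 _ _).sub (hpc.b.mul hpc.gp)
  have hE : BdRhBM (i.V.eU (aux X W i H) c.cβ) (i.V.r0 - Wd * i.V.h1) (i.V.r0 + Wd * i.V.h1) :=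
    ((hpc.gk.sub hpc.rt).sub ((hpc.gp.mul (bd_rh_bm_const i.F.C0 _ _)).mul hY)).sub
      (hD.mul (hY.sub ((hpc.al.sub hpc.be).div_const c.cβ)))
  exact ⟨hE.intervalIntegrable hpc.le, hE.mul_integrable hpc.le hden.rho_int⟩

/-- the quantile of a feasible distribution: monotone inverse -/
theorem bd_rh_cb_inv {F : BdFr} (Q : BdQ F X) (hm : MonotoneOn Q.al (Icc 0 1)) {p p' : ℝ} (hp : p ∈ Icc (0 : ℝ) 1) (hp' : p' ∈ Icc (0 : ℝ) 1)
    {v : ℝ} (hv : v ∈ Icc (Q.al p) (Q.al p')) : v ∈ Icc (0 : ℝ) 1 ∧ Q.r v ∈ Icc p p' := by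
  have h0 : (0 : ℝ) ∈ Icc (0 : ℝ) 1 := ⟨le_rfl, zero_le_one⟩
  have h1 : (1 : ℝ) ∈ Icc (0 : ℝ) 1 := ⟨zero_le_one, le_rfl⟩
  have a0 : 0 ≤ Q.al p := by rw [← Q.al_zero]; exact hm h0 hp hp.1
  have a1 : Q.al p' ≤ 1 := by rw [← Q.al_one]; exact hm hp' h1 hp'.2
  have hv01 : v ∈ Icc (0 : ℝ) 1 := ⟨a0.trans hv.1, hv.2.trans a1⟩
  have hr := Q.r_mem v hv01
  have har := Q.al_r v hv01
  refine ⟨hv01, ?_, ?_⟩
  · by_contra hcon
    have hlt : Q.r v < p := not_le.1 hcon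
    have e1 := hm hr hp hlt.le
    rw [har] at e1
    have e2 : v = Q.al p := le_antisymm e1 hv.1
    have e3 := Q.r_al p hp
    rw [← e2] at e3
    exact absurd e3 hlt.ne
  · by_contra hcon
    have hlt : p' < Q.r v := not_le.1 hcon
    have e1 := hm hp' hr hlt.le
    rw [har] at e1
    have e2 : v = Q.al p' := le_antisymm hv.2 e1
    have e3 := Q.r_al p' hp'
    rw [← e2] at e3
    exact absurd e3 hlt.ne'

theorem bd_rh_cb_rmono {F : BdFr} (Q : BdQ F X) (hm : MonotoneOn Q.al (Icc 0 1)) : MonotoneOn Q.r (Icc 0 1) := by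
  intro v1 h1 v2 h2 h12
  by_contra hcon
  have hlt : Q.r v2 < Q.r v1 := not_le.1 hcon
  have e1 := hm (Q.r_mem v2 h2) (Q.r_mem v1 h1) hlt.le
  rw [Q.al_r v1 h1, Q.al_r v2 h2] at e1
  have e2 : v1 = v2 := le_antisymm h12 e1
  rw [e2] at hlt
  exact lt_irrefl _ hlt

theorem bd_rh_cb_smono {F : BdFr} (Q : BdQ F X) (hm : MonotoneOn Q.al (Icc 0 1)) : StrictMonoOn Q.al (Icc 0 1) := by
  intro r1 h1 r2 h2 h12
  refine lt_of_le_of_ne (hm h1 h2 h12.le) fun e => ?_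
  have e1 := Q.r_al r1 h1
  rw [e, Q.r_al r2 h2] at e1
  exact absurd e1 h12.ne'

/-- **LEAF cb.**  `c19r r = clo i (α r)`.  Box `[p, p + d0]` (`IsBox s19 (1/2) 2`, `Win ⊆ Buf s19`): `C19` gives `avgR + avgV ≤ η u³P1`, i.e. `∫_p^{p+d0} clo(α r) dr + ∫_{α p}^{α(p+d0)} clo v dv ≤ η d0 u³P1`;
`∫_{α p}^{α(p+d0)} clo v dv = ∫_p^{p+d0} clo(α r) ρ(r) dr` (`Tl106Cov.integral_cov`, `Tool/Pot106`; `α` strictly increasing since `kbar > 0`).
Measurability of `clo` on `[α p, α(p + d0)]` and `c19_int`: `S` monotone; `Γ_s(K_s(v)) = (Gf + id)(r~(v))` by `kst_rt`, as in `bd_rh_ms`. -/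
theorem bd_rh_cb (hS : BdStd X W Fam K) (hP : BdRhP X W Fam c) (hL : LSmall X W Fam n) (hG : BufGeo X W Fam n)
    (hd : Seed X W Fam n) (hZ : BudZ X W Fam n) (hn : n ≤ X.J + 1) {Astar s14 s19 : ℝ} (hs14 : 0 < s14) (h14 : C14 X W Fam n Astar s14)
    (hs19 : 0 < s19) (h19 : C19 X W Fam n s19) :
    ∀ η Wd : ℝ, 0 < η → 0 < Wd → EvH X W Fam n fun i H => i.V.RhCb (aux X W i H) η Wd := by
  intro η Wd hη hWd
  obtain ⟨N1, h1⟩ := bd_rh_pc hS hP hL hG hd hZ hn hs14 h14 Wd hWd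
  obtain ⟨N2, h2⟩ := bd_rh_den hS hP hL hn 1 Wd one_pos hWd
  obtain ⟨N3, h3⟩ := bd_rh_ca hS hP hL hG hd hZ hn 1 Wd one_pos hWd
  obtain ⟨N4, h4⟩ := bd_rh_win hS hL hs19 hWd
  obtain ⟨N5, h5⟩ := h19 (1 / 2) 2 η (by norm_num) (by norm_num) hη
  obtain ⟨N6, h6⟩ := bd_rh_sc hS hZ
  refine ⟨max (max (max N1 N2) (max N3 N4)) (max N5 N6), fun i hi hN H hHc hH => ?_⟩
  have hN1 : N1 ≤ i.F.N := (le_max_left _ _).trans ((le_max_left _ _).trans ((le_max_left _ _).trans hN))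
  have hN2 : N2 ≤ i.F.N := (le_max_right _ _).trans ((le_max_left _ _).trans ((le_max_left _ _).trans hN))
  have hN3 : N3 ≤ i.F.N := (le_max_left _ _).trans ((le_max_right _ _).trans ((le_max_left _ _).trans hN))
  have hN4 : N4 ≤ i.F.N := (le_max_right _ _).trans ((le_max_right _ _).trans ((le_max_left _ _).trans hN))
  have hN5 : N5 ≤ i.F.N := (le_max_left _ _).trans ((le_max_right _ _).trans hN)
  have hN6 : N6 ≤ i.F.N := (le_max_right _ _).trans ((le_max_right _ _).trans hN)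
  have hpc := h1 i hi hN1 H hHc hH
  have hden := h2 i hi hN2 H hHc hH
  have hca := h3 i hi hN3 H hHc hH
  have hw := h4 i hi hN4
  have hbox := h5 i hi hN5
  have hsc := h6 i hi hN6
  have hd0 : 0 < i.V.d0 := mul_pos hsc.u_pos hsc.L_pos
  have hc19 : BdRhBM i.V.c19r (i.V.r0 - Wd * i.V.h1) (i.V.r0 + Wd * i.V.h1) := by
    refine ((hpc.sr.sub hpc.gk).abs).congr fun r hr' => ?_
    have e : i.V.c19r r = |i.V.Sr r - i.V.Q.Gs W i.V.g (i.V.Ksr r)| := rfl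
    rw [e, hca.kst_rt r hr']
  have hone : IntervalIntegrable (fun r => 1 + (aux X W i H).rho r) volume (i.V.r0 - Wd * i.V.h1) (i.V.r0 + Wd * i.V.h1) :=
    intervalIntegrable_const.add hden.rho_int
  refine ⟨hc19.mul_integrable hpc.le hone, fun p hp1 hp2 => ?_⟩
  have hpW : p ∈ i.V.Win Wd := ⟨hp1, by linarith⟩
  have hpW' : p + i.V.d0 ∈ i.V.Win Wd := ⟨by linarith, hp2⟩
  have hpp : p ≤ p + i.V.d0 := by linarith
  have hsubW : Icc p (p + i.V.d0) ⊆ i.V.Win Wd := Icc_subset_Icc hp1 hp2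
  have hb := hbox p (p + i.V.d0) ⟨hw hpW, hw hpW', by linarith, by linarith⟩
  have hsm := bd_rh_cb_smono i.V.Q hpc.al_mono
  have hsub' : uIcc p (p + i.V.d0) ⊆ uIcc (i.V.r0 - Wd * i.V.h1) (i.V.r0 + Wd * i.V.h1) := by
    rw [uIcc_of_le hpp, uIcc_of_le hpc.le]; exact hsubW
  have hcov : Tl106Cov i.V.Q.al (aux X W i H).rho p (p + i.V.d0) :=
    { le := hpp
      int := hden.rho_int.mono_set hsub'
      nn := Filter.Eventually.of_forall fun x hx => hden.rho_nonneg x (hsubW hx)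
      prim := fun s t hs hst ht => hden.al_eq s (hsubW ⟨hs, hst.trans ht⟩) t (hsubW ⟨hs.trans hst, ht⟩)
      mono := hsm.mono fun x hx => hpc.win01 x (hsubW hx) }
  -- measurability of `clo` in the mass
  have hinv : ∀ v ∈ Icc (i.V.Q.al p) (i.V.Q.al (p + i.V.d0)), v ∈ Icc (0 : ℝ) 1 ∧ i.V.Q.r v ∈ Icc p (p + i.V.d0) :=
    fun v hv => bd_rh_cb_inv i.V.Q hpc.al_mono (hpc.win01 p hpW) (hpc.win01 _ hpW') hv
  have hrm := bd_rh_cb_rmono i.V.Q hpc.al_mono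
  have hv01 : ∀ v ∈ Icc (i.V.Q.al p) (i.V.Q.al (p + i.V.d0)), v ∈ Ioo (0 : ℝ) 1 := fun v hv =>
    ⟨(hpc.al01 p hpW).1.trans_le hv.1, hv.2.trans_lt (hpc.al01 _ hpW').2⟩
  have hrtil : ∀ v ∈ Icc (i.V.Q.al p) (i.V.Q.al (p + i.V.d0)), i.V.rtil v = i.V.rtr (i.V.Q.r v) := fun v hv => by
    have e : i.V.rtr (i.V.Q.r v) = i.V.rtil (i.V.Q.al (i.V.Q.r v)) := rfl
    rw [e, i.V.Q.al_r v (hinv v hv).1]
  have hrtBM : BdRhBM i.V.rtil (i.V.Q.al p) (i.V.Q.al (p + i.V.d0)) := by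
    refine bd_rh_bm_mono fun v1 e1 v2 e2 h12 => ?_
    rw [hrtil v1 e1, hrtil v2 e2]
    exact hpc.rt_mono (hsubW (hinv v1 e1).2) (hsubW (hinv v2 e2).2) (hrm (hinv v1 e1).1 (hinv v2 e2).1 h12)
  have hSBM : BdRhBM (i.V.Q.Sq W i.V.g) (i.V.Q.al p) (i.V.Q.al (p + i.V.d0)) :=
    bd_rh_bm_mono fun v1 e1 v2 e2 h12 => hpc.S_mono (hv01 v1 e1) (hv01 v2 e2) h12
  have hclo : BdRhBM (clo X W i) (i.V.Q.al p) (i.V.Q.al (p + i.V.d0)) := by
    have hg := hrtBM.comp_cont hpc.g_cont fun v hv => by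
      rw [hrtil v hv]; exact hpc.rt_buf _ (hsubW (hinv v hv).2)
    refine ((hSBM.sub hg).abs).congr fun v hv => ?_
    have e : clo X W i v = |i.V.Q.Sq W i.V.g v - i.V.Q.Gs W i.V.g (i.V.Q.Ks W i.V.g v)| := rfl
    have e2 := hca.kst_rt _ (hsubW (hinv v hv).2)
    have e3 : i.V.Ksr (i.V.Q.r v) = i.V.Q.Ks W i.V.g (i.V.Q.al (i.V.Q.r v)) := rfl
    rw [e3, i.V.Q.al_r v (hinv v hv).1, ← hrtil v hv] at e2
    rw [e, e2]
  have e1 := hcov.integral_cov hclo.1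
  have hc19' := hc19.mono_set hp1 hp2
  have i1 : IntervalIntegrable i.V.c19r volume p (p + i.V.d0) := hc19'.intervalIntegrable hpp
  have i2 : IntervalIntegrable (fun r => i.V.c19r r * (aux X W i H).rho r) volume p (p + i.V.d0) :=
    hc19'.mul_integrable hpp hcov.int
  have e2 : ∫ r in p..(p + i.V.d0), i.V.c19r r * (1 + (aux X W i H).rho r)
      = (∫ r in p..(p + i.V.d0), i.V.c19r r) + ∫ r in p..(p + i.V.d0), i.V.c19r r * (aux X W i H).rho r := by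
    rw [← intervalIntegral.integral_add i1 i2]
    exact intervalIntegral.integral_congr fun r _ => by ring
  have e3 : i.V.avgR p (p + i.V.d0) (clo X W i) = i.V.d0⁻¹ * ∫ r in p..(p + i.V.d0), i.V.c19r r := rfl
  have e4 : i.V.avgV p (p + i.V.d0) (clo X W i) = i.V.d0⁻¹ * ∫ r in p..(p + i.V.d0), i.V.c19r r * (aux X W i H).rho r := by
    have : i.V.avgV p (p + i.V.d0) (clo X W i) = i.V.d0⁻¹ * ∫ v in (i.V.Q.al p)..(i.V.Q.al (p + i.V.d0)), clo X W i v := rfl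
    rw [this, e1]
    rfl
  rw [e3, e4, ← mul_add, ← e2, inv_mul_le_iff₀ hd0] at hb
  calc _ ≤ i.V.d0 * (η * (i.F.u ^ 3 * i.V.P1)) := hb
    _ = η * i.V.d0 * (i.F.u ^ 3 * i.V.P1) := by ring

end Leaves

/-! ## 5. The glue (proved) -/

section Glue2

variable {X : BdFix} {W : BdWorld} {Fam : BdFr → Prop} {K : BdCst} {c : BdRhCst} {n : ℕ}

open BudB

/-- **N18a, `aux` form**: constants first, then for every `δ, Wd` the record of every large buffered violation is `Ok`, for EVERY continuous potential -/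
theorem bd_rh_ok (hS : BdStd X W Fam K) (hP : BdRhP X W Fam c) (hn : n ≤ X.J + 1) {Astar s14 s19 : ℝ}
    (hs14 : 0 < s14) (hs19 : 0 < s19) (hZ : BudZ X W Fam n) (hL : LSmall X W Fam n) (hG : BufGeo X W Fam n)
    (hd : Seed X W Fam n) (h14 : C14 X W Fam n Astar s14) (h19 : C19 X W Fam n s19) :
    ∃ C cD : ℝ, 0 < C ∧ 0 < cD ∧ ∀ δ Wd : ℝ, 0 < δ → 0 < Wd →
      EvH X W Fam n fun i H => (i.V.rig (aux X W i H)).Ok C c.cβ Astar cD δ Wd := by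
  obtain ⟨C1, hbuf⟩ := bd_rh_buf hS hL hG hn
  obtain ⟨C2, htp⟩ := bd_rh_tp hS hP hL hG hd hZ hn
  obtain ⟨C3, cD, hcD, hp⟩ := bd_rh_p hS hP hL hZ hn
  set C : ℝ := max 1 (max C1 (max C2 C3)) with hC
  have hC1 : C1 ≤ C := le_trans (le_max_left _ _) (le_max_right _ _)
  have hC2 : C2 ≤ C := le_trans (le_trans (le_max_left _ _) (le_max_right _ _)) (le_max_right _ _)
  have hC3 : C3 ≤ C := le_trans (le_trans (le_max_right _ _) (le_max_right _ _)) (le_max_right _ _)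
  have hC0 : 0 < C := lt_of_lt_of_le one_pos (le_max_left _ _)
  refine ⟨C, cD, hC0, hcD, fun δ Wd hδ hWd => ?_⟩
  set δ' : ℝ := min δ 1 with hδ'
  have hδ'0 : 0 < δ' := lt_min hδ one_pos
  have hK0 : 0 < bdRiK C c.cβ c.cG := by
    have h1 : (0 : ℝ) < max 1 (1 / c.cG) := lt_of_lt_of_le one_pos (le_max_left _ _)
    have h2 : (0 : ℝ) < max C 1 := lt_of_lt_of_le one_pos (le_max_right _ _)
    have := hP.cβ_pos
    unfold bdRiK
    positivity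
  set η : ℝ := δ' / bdRiK C c.cβ c.cG with hη
  have hη0 : 0 < η := div_pos hδ'0 hK0
  have hηK : η * bdRiK C c.cβ c.cG ≤ δ' := by rw [hη]; field_simp; exact le_rfl
  have hall := (EvH.of_ev (bd_rh_sc hS hZ)).and (hbuf C hC1 Wd hWd)
  replace hall := hall.and (bd_rh_den hS hP hL hn δ' Wd hδ'0 hWd)
  replace hall := hall.and (bd_rh_bet hS hP hL hn δ' Wd hδ'0 hWd)
  replace hall := hall.and (bd_rh_off hS hP hL hG hZ hn δ' Wd hδ'0 hWd)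
  replace hall := hall.and (bd_rh_pot hS hL hn Wd hWd)
  replace hall := hall.and (bd_rh_rt hS hP hL hG hd hZ hn δ' Wd hδ'0 hWd)
  replace hall := hall.and (htp C hC2 Wd hWd)
  replace hall := hall.and (bd_rh_cv hS hL hs14 h14 δ' Wd hδ'0 hWd)
  replace hall := hall.and (hp C hC3 δ' Wd hδ'0 hWd)
  replace hall := hall.and (bd_rh_ms hS hP hL hG hd hZ hn hs14 h14 Wd hWd)
  replace hall := hall.and (bd_rh_ca hS hP hL hG hd hZ hn η Wd hη0 hWd)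
  replace hall := hall.and (bd_rh_cb hS hP hL hG hd hZ hn hs14 h14 hs19 h19 η Wd hη0 hWd)
  refine hall.mono fun i H h => ?_
  obtain ⟨⟨⟨⟨⟨⟨⟨⟨⟨⟨⟨⟨h0, h1⟩, h2⟩, h3⟩, h4⟩, h5⟩, h6⟩, h7⟩, h8⟩, h9⟩, h10⟩, h11⟩, h12⟩ := h
  have hpre := bd_rh_pre_of h0 h1 h2 h3 h4 h5 h6 h7 h8 h9 h10
  have hin := bd_ri_in_of hpre (bd_rh_c20_of h11 h12) hP.cG_pos hη0.le (min_le_right _ _) hηK
  exact (bd_ri_ok hin).mono (min_le_left _ _) hWd.le le_rfl

/-- **N18a** = `BudB.righyp` (two more hypotheses than the sorried node of `Bud/HubB`: `BudZ n` and the request `BdRhP` to LL 03) -/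
theorem bd_rh_righyp (hS : BdStd X W Fam K) (hP : BdRhP X W Fam c) (hpot : PotEx X W Fam) (hn : n ≤ X.J + 1) {Astar s14 s19 : ℝ}
    (hA : 0 < Astar) (hs14 : 0 < s14) (hs19 : 0 < s19) (hZ : BudZ X W Fam n) (hL : LSmall X W Fam n) (hG : BufGeo X W Fam n)
    (hd : Seed X W Fam n) (h14 : C14 X W Fam n Astar s14) (h19 : C19 X W Fam n s19) : RigHyp X W Fam n := by
  obtain ⟨C, cD, hC, hcD, h⟩ := bd_rh_ok hS hP hn hs14 hs19 hZ hL hG hd h14 h19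
  obtain ⟨N1, hpot⟩ := hpot
  refine ⟨C, c.cβ, Astar, cD, hC, hP.cβ_pos, hA, hcD, fun δ Wd hδ hWd => ?_⟩
  obtain ⟨N2, h2⟩ := h δ Wd hδ hWd
  refine ⟨max N1 N2, fun i hi hN => ?_⟩
  obtain ⟨H, hc, hH⟩ := hpot ⟨i.F, i.V.g, i.V.Q⟩ ⟨hi.1, bd_rh_g_mem hS hi, hi.2.2.2.1.opt⟩ (le_trans (le_max_left _ _) hN)
  exact ⟨aux X W i H, h2 i hi (le_trans (le_max_right _ _) hN) H hc hH⟩

end Glue2

/-- forces the equation lemmas of the definitions to be generated HERE -/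
theorem bd_rh_eqns_cite : True := by
  have := @BdFr.vI.eq_1; have := @BdFr.tI.eq_1; have := @BudB.EvH.eq_1; have := @BudB.aux.eq_1
  trivial

end

end Claimed.Agent.R286
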