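import Claimed.Agent.R286.Bud.L8
import Claimed.Agent.R286.Bud.HubBDefs
import Claimed.Agent.R286.Bud.N11
import Claimed.Agent.R286.Bud.Brg248
import Claimed.Agent.R286.Bud.N11X
import Claimed.Agent.R286.Bud.C19Fin
import Claimed.Agent.R286.Bud.C19Path
import Claimed.Agent.R286.Bud.C19In
import Claimed.Agent.R286.Bud.RigHyp

/-!
# Row 286, LL sec. 7, PART B (l.1151-2253): THE CHAIN  (C7) ⟹ (C12) at all stages ⟹ (C3)        (helper157, DAG of LL07; namespace `BudB`)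

STATEMENTS: N10, N13-N15 = 212's `Bud/L8Defs` (`BudC12 BudZ BudCost BudStep BudC13 BudC15a-c BudC16a-c BudC17a-b`); the other nodes of part B, the standing hypotheses `PathStd`, `CuStd`
and the kit = `Bud/HubBDefs.lean`.   HERE: ONE theorem per node with its OWNER (a prover works in his own file importing `Bud/HubBDefs`, this file then imports it and calls it), and the PROVED glue.

| node | Prop                                              | theorem (sorried, owner)            | TeX |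
| N4   | `PotEx`                                           | `potex` PROVED from `bud_n4_geo` (109/86) + `bdg_base` (248) | l.162-215 |
| N9   | `C7a`; `BudC7al` (212's form)                     | input (12)                          | l.225, 892-1150 |
| N11  | `BufSel`, `LSmall`, `BufGeo`, `Seed`, `Transport` | `bufsel lsmall bufgeo` (helper248, PROVED), `seed` (157, PROVED), `transport` (helper6, `Bud/N11X`) | l.1305-1400 |
| N12  | `C14`, `Drift`                                    | `curv` (helper6, `Bud/N11X`)        | l.1403-1440 |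
| N15  | `BudHpIn` (`Bud/HpFr`: ALL inputs of (C17) in one Prop) | input until its producers close (helper8) | l.1643-1768 |
| N17  | `C19`                                             | `c19` PROVED GLUE (180): `bcl_c19` (61) + `bcp_cloMI`, `bcp_cloX4` (`Bud/C19Path`) + `bci_*` (198) | l.1852-2010 |
| N18a | `RigHyp` ((C20) + all fields of 143's `BdViol.RigIn`) | `righyp` PROVED (`Bud/RigHyp.lean`) from `BdRhP` (instance `bi_rhp`, 143) | l.2027-2070 |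
| N18  | `BudRig` (`Bud/RigDefs`)                          | hypothesis `hrig` until `Bud/Rig*` closes | l.2070-2215 |
| N19  | `C3`, `CuStd` (facts on `c_u`, `J`)               | `c3` (helper184, PROVED)            | l.2217-2222 |
PROVED: `c12_of_rig` (`BufSel + RigHyp + BudRig ⟹ BudC12`, constant `1`), `c12_zero`, `c12_all` (stage induction: `BudC12 n ∧ BudZ n ∧ BudCost n n` for all `n ≤ J+1`), `exit_all`.
RULE: an owner who needs one more predecessor/hypothesis adds it to his theorem AND to the call in `c12_all` (everything proved earlier in the induction is available there); facts on the paths go to `BdStd` (212) / `BudB.PathStd` (157), facts on the world to `BdWorld.IsHub`.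
-/

set_option autoImplicit false

namespace Claimed.Agent.R286

open MeasureTheory Set Filter Topology Asymptotics

noncomputable section

namespace BudB

variable {X : BdFix} {W : BdWorld} {Fam : BdFr → Prop} {K : BdCst}

/-! ## the nodes (ONE owner each) -/

/-- `Z_j ≥ 1` on the parameter interval of the stage (part of `BudZ`) -/
theorem zj_ge {n : ℕ} (hZ : BudZ X W Fam n) :
    ∃ N0 : ℕ, ∀ F, BdAt X Fam n F → N0 ≤ F.N → ∀ g ∈ Icc (X.glo n) (X.ghi n), 1 ≤ F.Zj X W g := by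
  obtain ⟨_, N0, h⟩ := hZ
  exact ⟨N0, fun F hF hN g hg => (h F hF hN).1 g hg⟩

/-- N11 (l.1305-1330), doubling argument.      helper248, PROVED (`Bud/Brg248`) -/
theorem bufsel (hS : BdStd X W Fam K) (h7 : BudC7al X W Fam) {n : ℕ} (hn : n ≤ X.J + 1) (hZ : BudZ X W Fam n) : BufSel X W Fam n :=
  bdg_bufsel hS h7 hn (zj_ge hZ)

/-- helper248, PROVED -/
theorem lsmall (hS : BdStd X W Fam K) (h7 : BudC7al X W Fam) {n : ℕ} (hn : n ≤ X.J + 1) : LSmall X W Fam n :=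
  bdg_lsmall hS h7 hn

/-- N11 (l.1335-1347).      helper248, PROVED -/
theorem bufgeo (hS : BdStd X W Fam K) {n : ℕ} (hn : n ≤ X.J + 1) (hL : LSmall X W Fam n) (hZ : BudZ X W Fam n) : BufGeo X W Fam n :=
  bdg_bufgeo hS hn hL (zj_ge hZ)

/-- N4 for the family: the potential of the geometry datum of `Bud/GeoBr`, frozen outside `[0,1]` -/
theorem potex (hS : BdStd X W Fam K) : PotEx X W Fam := by
  obtain ⟨N0, h⟩ := bud_n4_geo X hS.fix
  refine ⟨N0, fun i hi hN => ?_⟩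
  obtain ⟨c0, hOk, hpot⟩ := h i.F (hS.ok _ hi.1) hN W i.g (bdg_base hS hi.1 i.Q hi.2.1) i.Q hi.2.2
  set H := (budGeoQ i.Q W i.g c0).H with hH
  have hcl : ∀ r ∈ Icc (0 : ℝ) 1, max 0 (min r 1) = r := fun r hr => by rw [min_eq_left hr.2, max_eq_right hr.1]
  have hmem : ∀ r : ℝ, max 0 (min r 1) ∈ Icc (0 : ℝ) 1 := fun r => ⟨le_max_left _ _, max_le zero_le_one (min_le_right _ _)⟩
  refine ⟨fun r => H (max 0 (min r 1)), (BudGeo.H_cont hOk).comp_continuous (by fun_prop) hmem, ?_, ?_, ?_⟩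
  · intro r1 hr1 r2 hr2
    simp only [hcl r1 hr1, hcl r2 hr2]
    exact hpot.int r1 hr1 r2 hr2
  · intro r1 r2 h0 h12 h21 hneg
    refine hpot.cap r1 r2 h0 h12 h21 fun r hr => ?_
    have := hneg r hr
    rwa [hcl r ⟨h0.trans hr.1.le, hr.2.le.trans h21⟩] at this
  · intro r1 r2 h0 h12 h21 hpos
    refine hpot.floor r1 r2 h0 h12 h21 fun r hr => ?_
    have := hpos r hr
    rwa [hcl r ⟨h0.trans hr.1.le, hr.2.le.trans h21⟩] at this

/-- the masses of the buffer: `α(r) ∈ [x_m, v_S]`, `α(r) ≍ u` -/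
theorem buf_mass (hS : BdStd X W Fam K) {n : ℕ} (hn : n ≤ X.J + 1) (hL : LSmall X W Fam n) {vS : ℝ} (hvS : 0 < vS) :
    ∃ N0 : ℕ, ∀ i : BdVI X W, VSt X W Fam n i → N0 ≤ i.F.N → ∀ r ∈ i.V.Buf 1,
      K.cb * X.plo n / 2 * i.F.u ≤ i.V.Q.al r ∧ i.V.Q.al r ≤ (|K.Cb| * X.cI + 2) * i.F.u ∧ i.F.xm ≤ i.V.Q.al r ∧ i.V.Q.al r ≤ vS := by
  have hX := hS.fix
  obtain ⟨hplo, _, _, _, _⟩ := hX.pat n hn
  have hc : 0 < K.cb * X.plo n := mul_pos hS.cb_pos hplo
  have hC : 0 < |K.Cb| * X.cI + 2 := by have := mul_nonneg (abs_nonneg K.Cb) hX.cI_pos.le; linarith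
  obtain ⟨N2, h2⟩ := hL (K.cb * X.plo n / 4) (by positivity)
  obtain ⟨N3, h3⟩ := ev_Xr hX (ε := K.cb * X.plo n / 2) (by positivity)
  obtain ⟨N4, h4⟩ := ev_u hX (ε := vS / (|K.Cb| * X.cI + 2)) (by positivity)
  refine ⟨max N2 (max N3 N4), fun i hi hN r hr => ?_⟩
  have hF := vst_ok hS hi
  have hu := vst_u_pos hS hi
  have hL2 := h2 i hi (le_trans (le_max_left _ _) hN)
  have hX3 := h3 i.F hF (le_trans (le_trans (le_max_left _ _) (le_max_right _ _)) hN)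
  have hu4 := h4 i.F hF (le_trans (le_trans (le_max_right _ _) (le_max_right _ _)) hN)
  obtain ⟨hr0, hr1⟩ := vst_buf_cI hS hn hi le_rfl hr
  have hrp := (vst_buf_sub hS hi le_rfl hr).1
  obtain ⟨hb1, hb2⟩ := fam_beta hS (vst_fam hi) hr0.le hr1.le
  have hd := abs_le.1 (vst_buf_al hS hi le_rfl hr)
  have hd0 : i.V.d0 = i.F.u * i.V.L := rfl
  have hdL : i.V.d0 ≤ i.F.u * (K.cb * X.plo n / 4) := mul_le_mul_of_nonneg_left hL2 hu.le
  have hd1 : i.V.d0 ≤ i.F.u := by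
    calc i.V.d0 ≤ i.F.u * 1 := mul_le_mul_of_nonneg_left (vst_L1 hi) hu.le
      _ = i.F.u := mul_one _
  have lo : K.cb * X.plo n / 2 * i.F.u ≤ i.V.Q.al r := by
    have : K.cb * (X.plo n * i.F.u) ≤ K.cb * r := mul_le_mul_of_nonneg_left hrp hS.cb_pos.le
    nlinarith [hd.1]
  have hi' : i.V.Q.al r ≤ (|K.Cb| * X.cI + 2) * i.F.u := by
    have : K.Cb * r ≤ |K.Cb| * (X.cI * i.F.u) :=
      (mul_le_mul_of_nonneg_right (le_abs_self _) hr0.le).trans (mul_le_mul_of_nonneg_left hr1.le (abs_nonneg _))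
    nlinarith [hd.2]
  refine ⟨lo, hi', ?_, ?_⟩
  · have hx : i.F.x = i.F.Xr * i.F.u := by unfold BdFr.Xr; field_simp
    have hxp := BdFr.bds_x_pos hF
    have : i.F.xm ≤ i.F.x := by
      unfold BdFr.xm
      exact div_le_self hxp.le hF.ell1
    calc i.F.xm ≤ i.F.Xr * i.F.u := by rw [← hx]; exact this
      _ ≤ K.cb * X.plo n / 2 * i.F.u := mul_le_mul_of_nonneg_right hX3 hu.le
      _ ≤ _ := lo
  · calc i.V.Q.al r ≤ (|K.Cb| * X.cI + 2) * i.F.u := hi'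
      _ ≤ (|K.Cb| * X.cI + 2) * (vS / (|K.Cb| * X.cI + 2)) := mul_le_mul_of_nonneg_left hu4 hC.le
      _ = vS := by field_simp

/-- the logarithmic seed against `u³ P₁` (l.1353-1362) -/
theorem sd_le (hS : BdStd X W Fam K) {n : ℕ} (hZ : BudZ X W Fam n) {C : ℝ} (hC : 0 < C) :
    ∃ N0 : ℕ, ∀ i : BdVI X W, VSt X W Fam n i → N0 ≤ i.F.N → C * sd X i.F ≤ i.F.lam ^ (0.1 : ℝ) * (i.F.u ^ 3 * i.V.P1) := by
  have hX := hS.fix
  obtain ⟨N1, h1⟩ := vst_L_ge hS hZ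
  obtain ⟨N5, h5⟩ := ev_log hX (e := 0.05) (by norm_num)
  obtain ⟨N6, h6⟩ := ev_lam hX (e := 0.05) (ε := 1 / C) (by norm_num) (by positivity)
  refine ⟨max N1 (max N5 N6), fun i hi hN => ?_⟩
  have hF := vst_ok hS hi
  have hu := vst_u_pos hS hi
  have hl := vst_lam_pos hS hi
  obtain ⟨hLg, hL0⟩ := h1 i hi (le_trans (le_max_left _ _) hN)
  have hlog := h5 i.F hF (le_trans (le_trans (le_max_left _ _) (le_max_right _ _)) hN)
  have hCl := h6 i.F hF (le_trans (le_trans (le_max_right _ _) (le_max_right _ _)) hN)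
  have hpow := bud_n11_pow_seed hX hl (BdFr.bds_lam_lt_one hF hX).le (BdFr.bds_Xr_pos hF hX) hLg (vst_L1 hi)
  have hP1 : i.V.P1 = i.V.L * min (max (i.V.L ^ 2) i.F.lam) (i.F.lam ^ (0.03 : ℝ)) := rfl
  have hU : i.F.lam1 X * i.F.U X ^ 3 = i.F.u ^ 3 * (i.F.lam ^ (1 + X.eta) * (i.F.Xr * i.F.lam ^ (-(X.sS / 2))) ^ 3) := by
    unfold BdFr.lam1 BdFr.U BdFr.Xr
    field_simp
  have hP1n : 0 ≤ i.V.P1 := by
    rw [hP1]
    exact mul_nonneg hL0.le (le_min (le_max_of_le_right hl.le) (Real.rpow_nonneg hl.le _))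
  have hC' : C ≤ i.F.lam ^ (-(0.05 : ℝ)) := by
    rw [Real.rpow_neg hl.le]
    have := one_div_le_one_div_of_le (Real.rpow_pos_of_pos hl _) hCl
    simpa using this
  have hlogn : 0 ≤ Real.log (1 / i.F.x) := by
    apply Real.log_nonneg
    rw [le_div_iff₀ (BdFr.bds_x_pos hF)]
    linarith [BdFr.bds_x_lt_one hF]
  have hA : 0 ≤ i.F.lam1 X * i.F.U X ^ 3 := by
    rw [hU]; have := BdFr.bds_Xr_pos hF hX; positivity
  calc C * sd X i.F = C * Real.log (1 / i.F.x) * (i.F.lam1 X * i.F.U X ^ 3) := by unfold sd; ring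
    _ ≤ i.F.lam ^ (-(0.05 : ℝ)) * i.F.lam ^ (-(0.05 : ℝ)) * (i.F.lam1 X * i.F.U X ^ 3) :=
        mul_le_mul_of_nonneg_right (mul_le_mul hC' hlog hlogn (Real.rpow_nonneg hl.le _)) hA
    _ ≤ i.F.lam ^ (-(0.05 : ℝ)) * i.F.lam ^ (-(0.05 : ℝ)) * (i.F.u ^ 3 * (i.F.lam ^ (0.2 : ℝ) * i.V.P1)) := by
        rw [hU, hP1]
        exact mul_le_mul_of_nonneg_left (mul_le_mul_of_nonneg_left hpow (by positivity)) (by positivity)
    _ = (i.F.lam ^ (-(0.05 : ℝ)) * i.F.lam ^ (-(0.05 : ℝ)) * i.F.lam ^ (0.2 : ℝ)) * (i.F.u ^ 3 * i.V.P1) := by ring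
    _ = i.F.lam ^ (0.1 : ℝ) * (i.F.u ^ 3 * i.V.P1) := by
        rw [← Real.rpow_add hl, ← Real.rpow_add hl]; norm_num

/-- N11 (l.1353-1362): near the tested band the defect is only the logarithmic seed.      helper157, PROVED -/
theorem seed (hS : BdStd X W Fam K) {P : PCst} (hP : PathStd X W Fam P) {n : ℕ} (hn : n ≤ X.J + 1) (hZ : BudZ X W Fam n)
    (hL : LSmall X W Fam n) : Seed X W Fam n := by
  obtain ⟨N1, h1⟩ := buf_mass hS hn hL hP.vS_pos
  obtain ⟨N2, h2⟩ := sd_le hS hZ hP.Cd_pos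
  refine ⟨0.1, by norm_num, max N1 N2, fun i hi hN r hr => ?_⟩
  obtain ⟨_, _, a, b⟩ := h1 i hi (le_trans (le_max_left _ _) hN) r hr
  exact (hP.d_seed _ (vst_fam hi) _ ⟨a, b⟩).trans (h2 i hi (le_trans (le_max_right _ _) hN))

/-- N11 (l.1368-1400): `Q0` = a common bound of the two scalar clocks.      OWNER helper6 (`Bud/N11X`: `bnx_trI`, `bnx_transport`) -/
theorem transport (hS : BdStd X W Fam K) {c : BdP11C} (hP : BdP11 X W Fam c) (h7a : C7a X W Fam) (h7 : BudC7al X W Fam) :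
    ∃ Q0 : ℝ, 0 < Q0 ∧ c.CK ≤ Q0 ∧ BnxClkBd X W Fam Q0 ∧
      ∀ n, 1 ≤ n → n ≤ X.J + 1 → BudZ X W Fam n → LSmall X W Fam n → BudC13 X W Fam n → Transport X W Fam n Q0 :=
  bnx_hub_tr hS hP h7a h7

/-- N12 = Lemma bud:curvature + S1-drift, `A_* = 2 √T`; last clause: the facts on `r~`, `α~` for N18a.      OWNER helper6 (`Bud/N11X`: `bnx_curv`) -/
theorem curv (hS : BdStd X W Fam K) (hW : W.IsSk) {c : BdP11C} (hP : BdP11 X W Fam c) (h9 : Bd7P9 X Fam)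
    {Q0 : ℝ} (hQ0 : 0 < Q0) (hCK : c.CK ≤ Q0) (hQ : BnxClkBd X W Fam Q0) {n : ℕ} (hn1 : 1 ≤ n) (hn : n ≤ X.J + 1)
    (hZ : BudZ X W Fam n) (hL : LSmall X W Fam n) (hG : BufGeo X W Fam n) (hT : Transport X W Fam n Q0) :
    ∃ s : ℝ, 0 < s ∧ s ≤ 1 ∧ C14 X W Fam n (2 * Real.sqrt X.T) s ∧ Drift X W Fam n s ∧ ∃ C : ℝ, 0 < C ∧ BnxTil X W Fam n C (2 * s) :=
  bnx_hub_curv hS hW hP h9 hQ0 hCK hQ hn1 hn hZ hL (potex hS) hG hT

/-- the choice of `c_H` of `BudHpIn` (l.1603) in the form read by `bcl_c19` -/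
theorem c19_cH (hS : BdStd X W Fam K) (hHp : BudHpIn X W Fam K 2) {F : BdFr} (hF : Fam F) : 4 * (|K.Cb| * X.cI + 2) ≤ X.cH := by
  obtain ⟨C, dm, CS, cL, CL, -, -, -, -, -, -, -, hcH, -⟩ := hHp
  have hu := BdFr.bds_u_pos (hS.ok _ hF) hS.fix
  have hcI := hS.fix.cI_pos
  have hb := hS.beta _ hF 0 (X.cI * F.u) le_rfl (by positivity) le_rfl
  have hCb : 0 ≤ K.Cb := by
    have h1 : K.cb * (X.cI * F.u - 0) ≤ K.Cb * (X.cI * F.u - 0) := hb.1.trans hb.2
    have h2 : K.cb ≤ K.Cb := le_of_mul_le_mul_right h1 (by rw [sub_zero]; positivity)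
    exact hS.cb_pos.le.trans h2
  rw [abs_of_nonneg hCb]
  have h1 : (1 : ℝ) ≤ max (max 4 (2 / C.ptop)) (4 * CL / cL) :=
    le_trans (by norm_num) ((le_max_left (4 : ℝ) _).trans (le_max_left _ _))
  have h2 : K.Cb * X.cI + 2 ≤ max 1 (K.Cb * X.cI + 2) := le_max_right _ _
  have h3 : (0 : ℝ) ≤ max 1 (K.Cb * X.cI + 2) := zero_le_one.trans (le_max_left _ _)
  have h4 : 4 * max 1 (K.Cb * X.cI + 2) ≤ 4 * max (max 4 (2 / C.ptop)) (4 * CL / cL) * max 1 (K.Cb * X.cI + 2) := by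
    nlinarith
  linarith

/-- N17 = Prop. bud:closure.      PROVED GLUE (helper180): floor 3 = `bcl_c19` (61, `Bud/C19Fin`), floor 2 = `bcp_cloMI`, `bcp_cloX4` (`Bud/C19Path`), floor 1 = `b19_master_c` (`Bud/C19Ctr`),
frame predecessors = `bci_*` (198, `Bud/C19In`) -/
theorem c19 (hS : BdStd X W Fam K) (hW : W.IsSk) {P : PCst} (hP : PathStd X W Fam P) (h7a : C7a X W Fam) (hHp : BudHpIn X W Fam K 2)
    {n : ℕ} (hn : n ≤ X.J + 1) (hZ : BudZ X W Fam n) {s15 s14 : ℝ}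
    (h15a : BudC15a X W Fam n 2 s15) (h15bc : ∀ c C : ℝ, 0 < c → BudC15b X W Fam n 2 s15 c C ∧ BudC15c X W Fam n 2 s15 c C)
    (h16 : BudC16a X W Fam ∧ BudC16b X W Fam ∧ BudC16c X W Fam) (h17a : BudC17a X W Fam n 2 1) (h17b : BudC17b X W Fam n 2)
    (hdr : Drift X W Fam n s14) (hs15 : 0 < s15) (hs14 : 0 < s14) : ∃ s : ℝ, 0 < s ∧ s ≤ 1 ∧ C19 X W Fam n s := by
  by_cases hne : ∃ F, Fam F
  · obtain ⟨F, hF⟩ := hne
    exact bcl_c19 hS hn hZ hs15 hs14 (c19_cH hS hHp hF) (bcp_cloMI hW (bciQ0 X P)) (bcp_cloX4 hW) (bci_c8low hS hW h7a hn)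
      (bci_clobd hS hP hn) (bci_cloks hS hP h7a hn) (bci_clozw hS.fix) h15a h15bc h16 h17a h17b hdr
  · exact ⟨1, one_pos, le_rfl, fun c C ε _ _ _ => ⟨0, fun i hi _ => absurd ⟨_, vst_fam hi⟩ hne⟩⟩

/-- N18a: (C20) and the translation.      PROVED: `bd_rh_righyp` of `Bud/RigHyp.lean` (143, 41, 45, 106, 259); `hRh` = the request `BdRhP` to LL 03 (instance: `bi_rhp`, 143) -/
theorem righyp (hS : BdStd X W Fam K) {cR : BdRhCst} (hRh : BdRhP X W Fam cR) (hpot : PotEx X W Fam) {n : ℕ} (hn : n ≤ X.J + 1)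
    {Astar s14 s19 : ℝ} (hA : 0 < Astar) (hs14 : 0 < s14) (hs19 : 0 < s19) (hZ : BudZ X W Fam n) (hL : LSmall X W Fam n)
    (hG : BufGeo X W Fam n) (hd : Seed X W Fam n) (h14 : C14 X W Fam n Astar s14) (h19 : C19 X W Fam n s19) : RigHyp X W Fam n :=
  bd_rh_righyp hS hRh hpot hn hA hs14 hs19 hZ hL hG hd h14 h19

/-! ### N19 (helper184, proved) -/

theorem c3_lam_small (hX : X.Ok) {e ε : ℝ} (he : 0 < e) (hε : 0 < ε) :
    ∃ N0 : ℕ, ∀ F : BdFr, F.Ok X → N0 ≤ F.N → F.lam ^ e ≤ ε := by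
  obtain ⟨c, hc⟩ : ∃ c : ℝ, c = X.pS * e / 6 := ⟨_, rfl⟩
  have hc0 : 0 < c := by rw [hc]; have := hX.pS_pos; positivity
  refine ⟨⌈ε ^ (-(1 / c))⌉₊ + 2, fun F h hN => ?_⟩
  have hNpos : (0:ℝ) < F.N := by
    have := h.N2
    positivity
  have hb : 0 < ε ^ (-(1 / c)) := Real.rpow_pos_of_pos hε _
  have hN' : ε ^ (-(1 / c)) ≤ F.N := by
    calc ε ^ (-(1 / c)) ≤ (⌈ε ^ (-(1 / c))⌉₊ : ℝ) := Nat.le_ceil _
      _ ≤ F.N := by exact_mod_cast (by omega : ⌈ε ^ (-(1 / c))⌉₊ ≤ F.N)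
  have hl := BdFr.bds_lam_pos h
  calc F.lam ^ e ≤ (F.x ^ X.pS) ^ e := Real.rpow_le_rpow hl.le h.lam_hi he.le
    _ = (F.N : ℝ) ^ (-c) := by
        unfold BdFr.x
        rw [← Real.rpow_mul hNpos.le, ← Real.rpow_mul hNpos.le]
        congr 1
        rw [hc]; ring
    _ ≤ (ε ^ (-(1 / c))) ^ (-c) := Real.rpow_le_rpow_of_nonpos hb hN' (by linarith)
    _ = ε := by
        rw [← Real.rpow_mul hε.le]
        have : -(1 / c) * -c = 1 := by field_simp
        rw [this, Real.rpow_one]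

theorem c3_beta_q (hS : BdStd X W Fam K) {F : BdFr} (hF : Fam F) {v : ℝ} (hv : v ∈ Icc (0 : ℝ) 1)
    (h0 : 0 ≤ F.q v) (h1 : F.q v < X.cI * F.u) : F.beta0 (F.q v) = v := by
  have hnn : ∀ y, 0 ≤ F.beta0 y := fun y => Real.sInf_nonneg fun s hs => hs.1
  apply le_antisymm
  · exact csInf_le ⟨0, fun s hs => hs.1⟩ ⟨hv.1, le_rfl⟩
  · by_contra hlt
    have hlt : F.beta0 (F.q v) < v := not_le.1 hlt
    obtain ⟨Δ, hΔ⟩ : ∃ Δ : ℝ, Δ = v - F.beta0 (F.q v) := ⟨_, rfl⟩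
    have hΔ0 : 0 < Δ := by rw [hΔ]; linarith
    obtain ⟨t, ht⟩ : ∃ t : ℝ, t = min (X.cI * F.u - F.q v) (Δ / (2 * (|K.Cb| + 1))) := ⟨_, rfl⟩
    have hCb : 0 < |K.Cb| + 1 := by positivity
    have ht0 : 0 < t := by rw [ht]; exact lt_min (by linarith) (by positivity)
    have ht1 : t ≤ X.cI * F.u - F.q v := by rw [ht]; exact min_le_left _ _
    have ht2 : (|K.Cb| + 1) * t ≤ Δ / 2 := by
      have : t ≤ Δ / (2 * (|K.Cb| + 1)) := by rw [ht]; exact min_le_right _ _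
      calc (|K.Cb| + 1) * t ≤ (|K.Cb| + 1) * (Δ / (2 * (|K.Cb| + 1))) := mul_le_mul_of_nonneg_left this hCb.le
        _ = Δ / 2 := by field_simp
    obtain ⟨s1, s2⟩ := hS.beta F hF (F.q v) (F.q v + t) h0 (by linarith) (by linarith)
    have hpos : 0 < F.beta0 (F.q v + t) := by
      have := hnn (F.q v)
      have := mul_pos hS.cb_pos ht0
      nlinarith
    have hne : {s : ℝ | 0 ≤ s ∧ F.q v + t ≤ F.q s}.Nonempty := by
      by_contra he
      rw [Set.not_nonempty_iff_eq_empty] at he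
      have : F.beta0 (F.q v + t) = 0 := by
        unfold BdFr.beta0 bdInv
        rw [he, Real.sInf_empty]
      linarith
    have hge : v ≤ F.beta0 (F.q v + t) := by
      refine le_csInf hne fun s hs => ?_
      by_contra hsv
      have hsv : s < v := not_le.1 hsv
      have := hS.q_mono F hF ⟨hs.1, by linarith [hv.2]⟩ hv hsv.le
      linarith [hs.2]
    have : K.Cb * (F.q v + t - F.q v) ≤ (|K.Cb| + 1) * t := by
      have : K.Cb ≤ |K.Cb| + 1 := by linarith [le_abs_self K.Cb]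
      calc K.Cb * (F.q v + t - F.q v) = K.Cb * t := by ring
        _ ≤ (|K.Cb| + 1) * t := mul_le_mul_of_nonneg_right this ht0.le
    linarith

theorem c3_kbar_nonneg {F : BdFr} (hF : F.Ok X) (r : ℝ) : 0 ≤ F.kbar X r := by
  unfold BdFr.kbar BdFr.k CmCall.k
  have h1 : 0 ≤ (F.call X).N ^ (F.call X).dl * (F.call X).us ^ 2 / (r + (F.call X).N ^ (2 * (F.call X).dl) * (F.call X).us) ^ 2 := by
    have : 0 ≤ (F.call X).N ^ (F.call X).dl := Real.rpow_nonneg (by unfold CmCall.N; positivity) _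
    positivity
  have h2 : 0 ≤ (if r ∈ Icc (F.Ilo * F.u) (F.Ihi * F.u) then F.kap else 0) := by
    split_ifs
    · exact hF.kap0
    · exact le_rfl
  linarith

theorem c3_al_mono {F : BdFr} (Q : BdQ F X) (hF : F.Ok X) : MonotoneOn Q.al (Icc 0 1) := by
  intro r1 h1 r2 h2 h12
  have := Q.lo r1 r2 h1.1 h12 h2.2
  have h0 : 0 ≤ ∫ t in r1..r2, F.kbar X t :=
    intervalIntegral.integral_nonneg h12 fun t _ => c3_kbar_nonneg hF t
  linarith

/-- nesting of the fixed data -/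
theorem c3_nest (hX : X.Ok) : ∀ n ≤ X.J + 1, X.plo 0 ≤ X.plo n ∧ X.phi n ≤ X.phi 0 ∧ X.glo 0 ≤ X.glo n ∧ X.ghi n ≤ X.ghi 0 := by
  intro n
  induction n with
  | zero => intro _; exact ⟨le_rfl, le_rfl, le_rfl, le_rfl⟩
  | succ n ih =>
    intro hn
    obtain ⟨a1, a2, a3, a4⟩ := ih (by omega)
    obtain ⟨b1, b2⟩ := hX.nest n (by omega)
    obtain ⟨c1, c2⟩ := hX.gnest n (by omega)
    obtain ⟨_, d1, _, d2, _⟩ := hX.pat n (by omega)
    exact ⟨by linarith, by linarith, by linarith, by linarith⟩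

theorem c3_Zj_nonneg (F : BdFr) (g : ℝ) : 0 ≤ F.Zj X W g := by
  unfold BdFr.Zj
  split_ifs
  · exact zero_le_one
  · exact Real.sqrt_nonneg _
  · exact zero_le_one

/-- N19, first sentence: the radius assertion at the last stage converts by (C7) to (C3).      OWNER helper184 (PROVED) -/
theorem c3 (hS : BdStd X W Fam K) {sg Cu : ℝ} (hcu : CuStd X Fam sg Cu) (h7 : BudC7al X W Fam)
    (h12 : BudC12 X W Fam (X.J + 1)) : C3 X W Fam := by
  have hX := hS.fix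
  obtain ⟨p0, p1, p2, p3, p4⟩ := hX.pat (X.J + 1) le_rfl
  obtain ⟨n1, n2, n3, n4⟩ := c3_nest hX (X.J + 1) le_rfl
  have hsg := hcu.sg_pos
  have hcb := hS.cb_pos
  have hcI := hX.cI_pos
  obtain ⟨C12, h12'⟩ := isBigO_iff.1 h12
  obtain ⟨N1, h12''⟩ := bd_ev_iff.1 h12'
  have hε : 0 < K.cb * sg / 2 := by positivity
  obtain ⟨N2, h7'⟩ := bd_ev_iff.1 ((isLittleO_iff.1 h7) hε)
  obtain ⟨N3, hB⟩ := bds_big_ev X hX
  obtain ⟨N4, hus⟩ := c3_lam_small hX hX.bl_pos (ε := 1 / X.cI) (by positivity)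
  obtain ⟨N5, hls⟩ := c3_lam_small hX (e := 0.97) (by norm_num) (ε := 1 / (2 * (|Cu| + 1))) (by positivity)
  refine ⟨|C12| / K.cb, max N1 (max N2 (max N3 (max N4 N5))), fun i hi hN v hv hcv => ?_⟩
  have hN1 : N1 ≤ i.F.N := le_trans (le_max_left _ _) hN
  have hNa := le_trans (le_max_right _ _) hN
  have hN2 : N2 ≤ i.F.N := le_trans (le_max_left _ _) hNa
  have hNb := le_trans (le_max_right _ _) hNa
  have hN3 : N3 ≤ i.F.N := le_trans (le_max_left _ _) hNb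
  have hNc := le_trans (le_max_right _ _) hNb
  have hN4 : N4 ≤ i.F.N := le_trans (le_max_left _ _) hNc
  have hN5 : N5 ≤ i.F.N := le_trans (le_max_right _ _) hNc
  obtain ⟨hA, hg, hgood, hopt⟩ := hi
  have hFam := hA.1
  have hF := hS.ok _ hFam
  have hu0 : 0 < i.F.u := BdFr.bds_u_pos hF hX
  have hl0 := BdFr.bds_lam_pos hF
  obtain ⟨y1, y2⟩ := hcu.supp _ hFam v hv hcv
  have hcIu : X.cI * i.F.u ≤ 1 := by
    have h1 : i.F.u ≤ 1 / X.cI := hF.u_hi.trans (hus _ hF hN4)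
    calc X.cI * i.F.u ≤ X.cI * (1 / X.cI) := mul_le_mul_of_nonneg_left h1 hcI.le
      _ = 1 := by field_simp
  obtain ⟨y, hy⟩ : ∃ y : ℝ, y = i.F.q v := ⟨_, rfl⟩
  rw [← hy] at y1 y2
  obtain ⟨rl, hrl⟩ : ∃ rl : ℝ, rl = X.qlo (X.J + 1) * i.F.u := ⟨_, rfl⟩
  obtain ⟨rh, hrh⟩ : ∃ rh : ℝ, rh = X.qhi (X.J + 1) * i.F.u := ⟨_, rfl⟩
  have e1 : rl + sg * i.F.u ≤ y := by rw [hrl]; linarith
  have e2 : y + sg * i.F.u ≤ rh := by rw [hrh]; linarith
  have hsu : 0 < sg * i.F.u := by positivity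
  have hrl0 : 0 < rl := by rw [hrl]; exact mul_pos (by linarith) hu0
  have hrhc : rh < X.cI * i.F.u := by rw [hrh]; exact mul_lt_mul_of_pos_right (by linarith) hu0
  have hβ : i.F.beta0 y = v := by rw [hy]; exact c3_beta_q hS hFam hv (by rw [← hy]; linarith) (by rw [← hy]; linarith)
  obtain ⟨ρ, hρd⟩ : ∃ ρ : ℝ, ρ = i.Q.r v := ⟨_, rfl⟩
  have hρ : ρ ∈ Icc (0 : ℝ) 1 := by rw [hρd]; exact i.Q.r_mem v hv
  have hαρ : i.Q.al ρ = v := by rw [hρd]; exact i.Q.al_r v hv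
  have hgw : i.g ∈ Icc (X.glo 0) (X.ghi 0) := ⟨n3.trans hg.1, hg.2.trans n4⟩
  have hmono := c3_al_mono i.Q hF
  have h7r : ∀ r, rl ≤ r → r ≤ rh → |i.Q.al r - i.F.beta0 r| ≤ K.cb * sg / 2 * i.F.u := by
    intro r h1 h2
    have hm : r ∈ Icc (X.plo 0 * i.F.u) (X.phi 0 * i.F.u) := by
      constructor
      · refine le_trans (mul_le_mul_of_nonneg_right ?_ hu0.le) (hrl ▸ h1)
        linarith
      · refine le_trans (hrh ▸ h2) (mul_le_mul_of_nonneg_right ?_ hu0.le)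
        linarith
    have := h7' (i, r) ⟨⟨hFam, hgw, hopt⟩, hm⟩ hN2
    simpa [Real.norm_eq_abs, abs_abs, abs_of_pos hu0] using this
  -- location of `ρ`
  have hlo : rl ≤ ρ := by
    by_contra hlt
    have hlt : ρ < rl := not_le.1 hlt
    have a1 := hmono hρ ⟨hrl0.le, by linarith⟩ hlt.le
    have a2 := abs_le.1 (h7r rl le_rfl (by linarith))
    have a3 := (hS.beta _ hFam rl y hrl0.le (by linarith) (by linarith)).1
    have a4 : K.cb * (sg * i.F.u) ≤ K.cb * (y - rl) := mul_le_mul_of_nonneg_left (by linarith) hcb.le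
    have a5 : 0 < K.cb * (sg * i.F.u) := by positivity
    nlinarith [a2.2]
  have hhi : ρ ≤ rh := by
    by_contra hlt
    have hlt : rh < ρ := not_le.1 hlt
    have a1 := hmono ⟨by linarith, by linarith⟩ hρ hlt.le
    have a2 := abs_le.1 (h7r rh (by linarith) le_rfl)
    have a3 := (hS.beta _ hFam y rh (by linarith) (by linarith) hrhc.le).1
    have a4 : K.cb * (sg * i.F.u) ≤ K.cb * (rh - y) := mul_le_mul_of_nonneg_left (by linarith) hcb.le
    have a5 : 0 < K.cb * (sg * i.F.u) := by positivity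
    nlinarith [a2.1]
  have haj : i.F.aj X = i.F.agoal X := by
    rw [BdFr.aj, hA.2.2]
    exact BdFr.bds_astage_last hF hX (hB _ hF hN3) hcu.J_big
  have hag := BdFr.bds_agoal_pos hF hX
  have hZ := c3_Zj_nonneg (X := X) (W := W) i.F i.g
  have hT0 : 0 ≤ i.F.u * i.F.agoal X * i.F.Zj X W i.g := by positivity
  constructor
  · have b1 := h12'' (i, ρ) ⟨hA, hg, hgood, hopt, ⟨hrl ▸ hlo, hrh ▸ hhi⟩⟩ hN1
    simp only [Real.norm_eq_abs, abs_abs] at b1
    rw [haj, abs_of_nonneg hT0, hαρ] at b1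
    have b2 : |v - i.F.beta0 ρ| ≤ |C12| * (i.F.u * i.F.agoal X * i.F.Zj X W i.g) :=
      b1.trans (mul_le_mul_of_nonneg_right (le_abs_self _) hT0)
    have b3 : K.cb * |ρ - y| ≤ |v - i.F.beta0 ρ| := by
      rcases le_total ρ y with h | h
      · have := (hS.beta _ hFam ρ y hρ.1 h (by linarith)).1
        rw [hβ] at this
        rw [abs_of_nonpos (by linarith : ρ - y ≤ 0)]
        exact le_trans (by linarith) (le_abs_self _)
      · have := (hS.beta _ hFam y ρ (by linarith) h (by linarith)).1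
        rw [hβ] at this
        rw [abs_of_nonneg (by linarith : 0 ≤ ρ - y)]
        exact le_trans (by linarith) (neg_le_abs _)
    rw [← hρd, ← hy, div_mul_eq_mul_div, le_div_iff₀ hcb]
    linarith
  · rw [← hρd, hS.Cconst _ hFam ρ ⟨hρ.1, by linarith⟩]
    have c1 := hcu.hi _ hFam v hv
    have c2 := hls _ hF hN5
    have hCu : 0 < |Cu| + 1 := by positivity
    have c3 : i.F.lam ^ (0.03 : ℝ) * i.F.lam ^ (0.97 : ℝ) = i.F.lam := by
      rw [← Real.rpow_add hl0]; norm_num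
    have c4 : 0 < i.F.lam ^ (0.03 : ℝ) := Real.rpow_pos_of_pos hl0 _
    have c5 : 2 * (|Cu| + 1) * i.F.lam ^ (0.97 : ℝ) ≤ 1 := by
      calc 2 * (|Cu| + 1) * i.F.lam ^ (0.97 : ℝ) ≤ 2 * (|Cu| + 1) * (1 / (2 * (|Cu| + 1))) :=
            mul_le_mul_of_nonneg_left c2 (by positivity)
        _ = 1 := by field_simp
    have c6 : Cu * i.F.lam * i.F.u ^ 2 ≤ (|Cu| + 1) * i.F.lam * i.F.u ^ 2 := by
      have : Cu ≤ |Cu| + 1 := by linarith [le_abs_self Cu]
      gcongr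
    unfold BdFr.C0 BdFr.Lam
    calc 2 * i.F.cu v ≤ 2 * ((|Cu| + 1) * i.F.lam * i.F.u ^ 2) := by linarith
      _ = 2 * ((|Cu| + 1) * (i.F.lam ^ (0.03 : ℝ) * i.F.lam ^ (0.97 : ℝ)) * i.F.u ^ 2) := by rw [c3]
      _ = (2 * (|Cu| + 1) * i.F.lam ^ (0.97 : ℝ)) * (i.F.u ^ 2 * i.F.lam ^ (0.03 : ℝ)) := by ring
      _ ≤ 1 * (i.F.u ^ 2 * i.F.lam ^ (0.03 : ℝ)) := mul_le_mul_of_nonneg_right c5 (by positivity)
      _ = i.F.u ^ 2 * i.F.lam ^ (0.03 : ℝ) := one_mul _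

/-! ## the glue (proved) -/

/-- (C12) at a stage from buffer selection, the translation N18a and rigidity: the constant is `1` -/
theorem c12_of_rig {n : ℕ} (hsel : BufSel X W Fam n) (hhyp : RigHyp X W Fam n) (hrig : BudRig) : BudC12 X W Fam n := by
  obtain ⟨N1, hsel⟩ := hsel
  obtain ⟨C, cβ, A, cD, hC, hcβ, hA, hcD, hhyp⟩ := hhyp
  obtain ⟨δ, Wd, hδ, hWd, hno⟩ := hrig C cβ A cD hC hcβ hA hcD
  obtain ⟨N2, hhyp⟩ := hhyp δ Wd hδ hWd
  refine IsBigO.of_bound 1 (bd_ev_iff.2 ⟨max N1 N2, fun i hi hN => ?_⟩)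
  obtain ⟨h1, h2, h3, h4, hr⟩ := hi
  rw [Real.norm_eq_abs, Real.norm_eq_abs, abs_abs, one_mul]
  refine le_trans ?_ (le_abs_self _)
  by_contra hlt
  obtain ⟨V, hV⟩ := hsel i.1 ⟨h1, h2, h3, h4⟩ (le_trans (le_max_left _ _) hN) i.2 hr (not_le.1 hlt)
  obtain ⟨H, hH⟩ := hhyp ⟨i.1.F, V⟩ hV (le_trans (le_max_right _ _) hN)
  exact hno _ hH

/-- (C12) at the stage `-1` is (C7) with `Z = 1` -/
theorem c12_zero (hS : BdStd X W Fam K) (h7 : BudC7al X W Fam) : BudC12 X W Fam 0 := by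
  obtain ⟨h0, h1, h2, h3, _⟩ := hS.fix.pat 0 (Nat.zero_le _)
  have h7' := (isLittleO_iff.1 h7) one_pos
  obtain ⟨N0, h⟩ := bd_ev_iff.1 h7'
  refine IsBigO.of_bound 1 (bd_ev_iff.2 ⟨N0, fun i hi hN => ?_⟩)
  obtain ⟨hA, hg, _, hopt, hr⟩ := hi
  have hu : 0 < i.1.F.u := BdFr.bds_u_pos (hS.ok _ hA.1) hS.fix
  have hst : i.1.F.st = 0 := hA.2.2
  have ha : i.1.F.aj X = 1 := by rw [BdFr.aj, hst, BdFr.astage]
  have hz : i.1.F.Zj X W i.1.g = 1 := by rw [BdFr.Zj, if_pos hst]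
  have := h i ⟨⟨hA.1, hg, hopt⟩, ⟨le_trans (mul_le_mul_of_nonneg_right h1.le hu.le) hr.1,
    le_trans hr.2 (mul_le_mul_of_nonneg_right h3.le hu.le)⟩⟩ hN
  simpa [ha, hz] using this

/-- **Lemma bud:strengthening + Lemma bud:envelope at all stages** -/
theorem c12_all (hS : BdStd X W Fam K) (hW : W.IsSk) (hrig : BudRig) (hEx : BudOptEx X W Fam) (h0 : BudExc0 X W Fam)
    (hR : BudR0 X W Fam K.cG) {P : PCst} (hP : PathStd X W Fam P) {Cm : ℝ} (hPx : BdP11X X W Fam Cm) (h9 : Bd7P9 X Fam)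
    (h7a : C7a X W Fam) (h7 : BudC7al X W Fam) (hHp : BudHpIn X W Fam K 2)
    (hff : BudFfIn X W Fam) {cR : BdRhCst} (hRh : BdRhP X W Fam cR) :
    ∀ n ≤ X.J + 1, BudC12 X W Fam n ∧ BudZ X W Fam n ∧ BudCost X W Fam n n := by
  intro n
  induction n with
  | zero => exact fun _ => ⟨c12_zero hS h7, bud_Z_zero hS, bud_cost_zero hS hEx h0⟩
  | succ n ih =>
    intro hn
    have hn' : n ≤ X.J := by omega
    have hn1 : 1 ≤ n + 1 := by omega
    obtain ⟨h12, hZ, hc⟩ := ih (by omega)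
    -- N10
    have hst := bud_step hS hEx h7 hn' h12
    have hc1 := bud_cost_succ hS hEx hn' hc hZ hst
    obtain ⟨hZ', h13⟩ := bud_env hS hEx hR hn' hc1
    have hc2 := bud_cost_restrict hS hn' hc1
    -- N11, N12
    have hL := lsmall hS h7 hn
    have hG := bufgeo hS hn hL hZ'
    have hP11 := bnx_p11 hS hP hPx
    obtain ⟨Q0, hQ0, hCK, hQ, htr⟩ := transport hS hP11 h7a h7
    have hT := htr (n + 1) hn1 hn hZ' hL h13
    have hA : 0 < 2 * Real.sqrt X.T := by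
      have := Real.sqrt_pos.2 (lt_trans one_pos hS.fix.T1)
      linarith
    obtain ⟨s14, hs14, _, h14, hdr, _⟩ := curv hS hW hP11 h9 hQ0 hCK hQ hn1 hn hZ' hL hG hT
    -- N13-N15
    obtain ⟨s15, hs15, _, h15a, h15bc⟩ := bud_c15 hS hW hn1 hn ⟨hZ', hL, hG, potex hS, h7a, h7, hHp⟩
    have h16 : BudC16a X W Fam ∧ BudC16b X W Fam ∧ BudC16c X W Fam := by
      obtain ⟨cL, CL, hcL, N7, h7c⟩ := h7a
      exact bud_c16 hS hW hff hcL ⟨N7, fun i hi hN v h1 h2 => h7c i hi.1 hN v ⟨h1, h2⟩⟩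
    have h17a := bud_c17a hS hW hn1 hn 2 hHp
    have h17b := bud_c17b hS hW hn1 hn 2 hHp hZ' h13
    -- N17, N18a, N18
    obtain ⟨s19, hs19, _, h19⟩ := c19 hS hW hP h7a hHp hn hZ' h15a h15bc h16 h17a h17b hdr hs15 hs14
    have hRH := righyp hS hRh (potex hS) hn hA hs14 hs19 hZ' hL hG (seed hS hP hn hZ' hL) h14 h19
    exact ⟨c12_of_rig (bufsel hS h7 hn hZ') hRH hrig, hZ', hc2⟩

/-- **the exit of part B**: (C3) in majorant form, the majorant and the averaged excess at the last stage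
(= assertions (i), (ii) of l.88-100, which give (C1) by N2 + N19) -/
theorem exit_all (hS : BdStd X W Fam K) (hW : W.IsSk) (hrig : BudRig) (hEx : BudOptEx X W Fam) (h0 : BudExc0 X W Fam)
    (hR : BudR0 X W Fam K.cG) {P : PCst} (hP : PathStd X W Fam P) {Cm : ℝ} (hPx : BdP11X X W Fam Cm) (h9 : Bd7P9 X Fam)
    (h7a : C7a X W Fam) (h7 : BudC7al X W Fam) (hHp : BudHpIn X W Fam K 2)
    (hff : BudFfIn X W Fam) {cR : BdRhCst} (hRh : BdRhP X W Fam cR) {sg Cu : ℝ} (hcu : CuStd X Fam sg Cu) :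
    C3 X W Fam ∧ BudZ X W Fam (X.J + 1) ∧ BudCost X W Fam (X.J + 1) (X.J + 1) := by
  obtain ⟨h12, hZ, hc⟩ := c12_all hS hW hrig hEx h0 hR hP hPx h9 h7a h7 hHp hff hRh (X.J + 1) le_rfl
  exact ⟨c3 hS hcu h7 h12, hZ, hc⟩

end BudB

end

end Claimed.Agent.R286
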