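import Claimed.Agent.R286.Bud.L8Defs
import Claimed.Agent.R286.Bud.TopDefs
import Claimed.Agent.R286.Bud.GeoBr

/-!
# Row 286 (S0533), LL sec. 7: KIT FOR THE INSTANCE `Bud/Inst.lean`      OWNER helper131      prefix `bik_`, types `Bik*`

Facts on the local frames `btFr 𝔹 F p hd ..` (`Bud/TopDefs`, helper66) of the direct LL paths, abstract in the base `𝔹 : LlBase`, FROM the pointwise P-list
(`LlPt.Ref` = (P2), `BikAdm` = the part of `LlAdm` at one point) and the explicit formulas (P3), (P6) of the clocks.     TEX[LL:bud:targets] l.130-160.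

* `BikOf 𝔹 F p hd Fr`   the path data of `Fr` are those of the point `p` at the dyad `2^-hd`  (`bik_of`, `bik_of_eq`: equivalent to `Fr = btFr ..`).
* (P3), (P6): `BikOf.b_aff h_aff h_mask cg cg_lo cg_hi cg_meas`;  admissibility: `BikOf.clk0 base q_mono q_mem d_int`;  `β_0 = q⁻¹`: `BikOf.beta beta_zero`
  (`bik_q_incr`, `bik_qn_slopes`: `q` is bi-Lipschitz on the initial interval);  `c_u`: `BikOf.cu_supp cu_hi`.
-/

set_option autoImplicit false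

namespace Claimed.Agent.R286

open MeasureTheory Set Filter Topology

noncomputable section

/-! ## 1. Elementary facts on the points of the LL paths -/

section Pt

variable (𝔹 : LlBase) (F : LlFix) (p : LlPt) (hd : ℕ)

theorem bik_loc_ok {F : LlFix} {p : LlPt} (hp : p.Ok F) (hd : ℕ) {g : ℝ} (hg : g ∈ Icc (-4 : ℝ) 4) : (p.loc hd g 0).Ok F where
  N2 := hp.N2
  ell1 := hp.ell1
  ell2 := hp.ell2
  lam_lo := hp.lam_lo
  lam_hi := hp.lam_hi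
  g0 := hg
  gu := by
    intro h
    show Function.update p.gu hd 0 h ∈ Icc (-4 : ℝ) 4
    by_cases e : h = hd
    · subst e; rw [Function.update_self]; constructor <;> norm_num
    · rw [Function.update_of_ne e]; exact hp.gu h
  chiL := hp.chiL
  chiE := hp.chiE
  sm_fin := hp.sm_fin

theorem bik_loc_K (g t : ℝ) : (p.loc hd g t).K F 𝔹 = p.K F 𝔹 := rfl
theorem bik_loc_q (g t : ℝ) : (p.loc hd g t).q F 𝔹 = p.q F 𝔹 := rfl
theorem bik_loc_b0 (g t : ℝ) : (p.loc hd g t).b0 F 𝔹 = p.b0 F 𝔹 := rfl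
theorem bik_loc_a (g t : ℝ) : (p.loc hd g t).a = p.a := rfl

/-- (P3): the matrix clock is affine in `γ_0` -/
theorem bik_loc_b (g : ℝ) (v : ℝ) : (p.loc hd g 0).b F 𝔹 v = (p.loc hd 0 0).b F 𝔹 v - g * p.cg F v := by
  show p.b0 F 𝔹 + F.cb * p.lam * (p.G F v - p.U F ^ 2 - F.c1 * g * (p.G F v + p.U F ^ 2) - F.c1 * (p.loc hd 0 0).dySum F v)
    = p.b0 F 𝔹 + F.cb * p.lam * (p.G F v - p.U F ^ 2 - F.c1 * 0 * (p.G F v + p.U F ^ 2) - F.c1 * (p.loc hd 0 0).dySum F v)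
      - g * (F.cb * p.lam * F.c1 * (p.G F v + p.U F ^ 2))
  ring

/-- (P6), (P10): above the mask `∂_γ h = c_g q` -/
theorem bik_loc_h (g : ℝ) {v : ℝ} (hv : p.x ≤ v) :
    (p.loc hd g 0).h F 𝔹 v = (p.loc hd 0 0).h F 𝔹 v + g * (p.cg F v * p.q F 𝔹 v) := by
  have e : ∀ g : ℝ, (p.loc hd g 0).h F 𝔹 v
      = (p.K F 𝔹 v - (p.loc hd g 0).b F 𝔹 v * p.q F 𝔹 v) + p.Hlo F v + p.chiL * p.Hlin F v + p.chiE * p.He F 𝔹 v := by
    intro g
    show (if v < p.x then 0 else _) = _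
    rw [if_neg (not_lt.2 hv)]
    rfl
  rw [e g, e 0, bik_loc_b]
  ring

theorem bik_loc_h_mask (g : ℝ) {v : ℝ} (hv : v < p.x) : (p.loc hd g 0).h F 𝔹 v = 0 := by
  show (if v < p.x then 0 else _) = _
  rw [if_pos hv]


theorem bik_ell_le_two {F : LlFix} {p : LlPt} (hp : p.Ok F) : p.ell ≤ 2 := by
  refine hp.ell2.trans ?_
  calc (2 : ℝ) ^ (1 / 6 : ℝ) ≤ (2 : ℝ) ^ (1 : ℝ) := Real.rpow_le_rpow_of_exponent_le (by norm_num) (by norm_num)
    _ = 2 := Real.rpow_one 2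

theorem bik_x_pos {F : LlFix} {p : LlPt} (hp : p.Ok F) : 0 < p.x := by
  unfold LlPt.x
  have : (0 : ℝ) < p.N := by have := hp.N2; positivity
  positivity

theorem bik_x_le_one {F : LlFix} {p : LlPt} (hp : p.Ok F) : p.x ≤ 1 := by
  unfold LlPt.x
  have : (1 : ℝ) ≤ p.N := by have := hp.N2; exact_mod_cast (by omega : 1 ≤ p.N)
  exact Real.rpow_le_one_of_one_le_of_nonpos this (by norm_num)

theorem bik_lam_pos {F : LlFix} {p : LlPt} (hp : p.Ok F) : 0 < p.lam :=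
  lt_of_lt_of_le (Real.rpow_pos_of_pos (bik_x_pos hp) _) hp.lam_lo

theorem bik_G0_nonneg {F : LlFix} (hF : F.Ok) (w : ℝ) : 0 ≤ F.G0 w := by
  rw [← hF.G0_zero (min w 1) (min_le_right _ _)]
  exact hF.G0_mono (min_le_left _ _)

theorem bik_G_nonneg {F : LlFix} (hF : F.Ok) (p : LlPt) (y : ℝ) : 0 ≤ p.G F y := by
  unfold LlPt.G
  split_ifs with h
  · exact mul_nonneg (sq_nonneg _) (bik_G0_nonneg hF _)
  · have h1 : (1 : ℝ) ≤ y / F.vb := by rw [le_div_iff₀ hF.vb0]; linarith [not_le.1 h]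
    have h2 := hF.G1_mono (show (1 : ℝ) ∈ Ici 0 by simp) (show y / F.vb ∈ Ici (0 : ℝ) from le_trans zero_le_one h1) h1
    rw [hF.G1_sq 1 (by constructor <;> norm_num)] at h2
    exact mul_nonneg (sq_nonneg _) (by linarith)

/-- `c_g ≳ λ (v² + U²)` -/
theorem bik_G_lower {F : LlFix} (hF : F.Ok) {p : LlPt} (hx : 0 < p.x) {y Uq : ℝ} (hy : 0 ≤ y) (hy2 : y ≤ 2) (hU : p.x ^ 2 ≤ Uq) :
    min (1 / 65) (F.vb ^ 2 / 4) * (y ^ 2 + Uq) ≤ p.G F y + Uq := by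
  have hUq : 0 ≤ Uq := le_trans (sq_nonneg _) hU
  have hk1 : min (1 / 65 : ℝ) (F.vb ^ 2 / 4) ≤ 1 / 65 := min_le_left _ _
  have hk2 : min (1 / 65 : ℝ) (F.vb ^ 2 / 4) ≤ F.vb ^ 2 / 4 := min_le_right _ _
  have hk0 : 0 ≤ min (1 / 65 : ℝ) (F.vb ^ 2 / 4) := le_min (by norm_num) (by positivity)
  unfold LlPt.G
  split_ifs with h
  · rcases le_or_gt 8 (y / p.x) with h8 | h8
    · rw [hF.G0_sq _ h8]
      have : p.x ^ 2 * (y / p.x) ^ 2 = y ^ 2 := by field_simp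
      rw [this]
      nlinarith [sq_nonneg y]
    · have h1 : y < 8 * p.x := by rwa [div_lt_iff₀ hx] at h8
      have h2 : y ^ 2 ≤ 64 * Uq := by nlinarith
      have h3 := mul_nonneg (sq_nonneg p.x) (bik_G0_nonneg hF (y / p.x))
      nlinarith
  · have h1 : (1 : ℝ) ≤ y / F.vb := by rw [le_div_iff₀ hF.vb0]; linarith [not_le.1 h]
    have h2 := hF.G1_mono (show (1 : ℝ) ∈ Ici 0 by simp) (show y / F.vb ∈ Ici (0 : ℝ) from le_trans zero_le_one h1) h1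
    rw [hF.G1_sq 1 (by constructor <;> norm_num)] at h2
    have h3 : F.vb ^ 2 ≤ F.vb ^ 2 * F.G1 (y / F.vb) := by nlinarith [sq_nonneg F.vb]
    have h4 : y ^ 2 ≤ 4 := by nlinarith
    nlinarith [sq_nonneg F.vb, sq_nonneg y]

theorem bik_G_upper {F : LlFix} (hF : F.Ok) {p : LlPt} (hx : 0 < p.x) (hx1 : p.x ≤ 1) {y : ℝ} (hy : 0 ≤ y) :
    p.G F y ≤ 64 + F.vb ^ 2 + F.vb ^ 2 * F.G1 2 := by
  have hG2 : 0 ≤ F.G1 2 := by
    have h2 := hF.G1_mono (show (1 : ℝ) ∈ Ici 0 by simp) (show (2 : ℝ) ∈ Ici (0 : ℝ) by simp) (by norm_num)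
    rw [hF.G1_sq 1 (by constructor <;> norm_num)] at h2
    linarith
  have hv := mul_nonneg (sq_nonneg F.vb) hG2
  unfold LlPt.G
  split_ifs with h
  · rcases le_or_gt 8 (y / p.x) with h8 | h8
    · rw [hF.G0_sq _ h8]
      have : p.x ^ 2 * (y / p.x) ^ 2 = y ^ 2 := by field_simp
      rw [this]
      nlinarith
    · have h1 := hF.G0_mono h8.le
      rw [hF.G0_sq 8 le_rfl] at h1
      have h2 : p.x ^ 2 ≤ 1 := by nlinarith
      have h3 := bik_G0_nonneg hF (y / p.x)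
      nlinarith [sq_nonneg F.vb]
  · have h0 : 0 ≤ y / F.vb := div_nonneg hy hF.vb0.le
    have h1 : F.G1 (y / F.vb) ≤ F.G1 2 := by
      rcases le_or_gt 2 (y / F.vb) with h2 | h2
      · rw [hF.G1_const _ h2]
      · exact hF.G1_mono h0 (show (2 : ℝ) ∈ Ici (0 : ℝ) by simp) h2.le
    nlinarith [sq_nonneg F.vb]

theorem bik_cg_meas {F : LlFix} (hF : F.Ok) (p : LlPt) : Measurable (p.cg F) := by
  unfold LlPt.cg LlPt.G
  refine measurable_const.mul (Measurable.add ?_ measurable_const)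
  refine Measurable.ite measurableSet_Iic ?_ ?_
  · exact measurable_const.mul (hF.G0_sm.continuous.measurable.comp (measurable_id.div_const _))
  · exact measurable_const.mul (hF.G1_sm.continuous.measurable.comp (measurable_id.div_const _))

theorem bik_phi_bdd {F : LlFix} (hF : F.Ok) : ∃ M : ℝ, 0 ≤ M ∧ ∀ w, F.phi w ≤ M := by
  obtain ⟨M, hM⟩ := (isCompact_Icc (a := (1 / 2 : ℝ)) (b := 4)).exists_bound_of_continuousOn hF.phi_sm.continuous.continuousOn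
  refine ⟨max M 0, le_max_right _ _, fun w => ?_⟩
  by_cases hw : w ∈ Icc (1 / 2 : ℝ) 4
  · exact le_trans (le_trans (le_abs_self _) (hM w hw)) (le_max_left _ _)
  · rw [hF.phi_supp w hw]; exact le_max_right _ _

/-! ### the reference `q` -/

theorem bik_K_zero {F : LlFix} (hF : F.Ok) {p : LlPt} (hl : 0 ≤ p.lam) (hsm : p.sm = false) : p.K F 𝔹 0 = 0 := by
  have h : p.xi F 𝔹 0 = 0 := by
    unfold LlPt.xi llInv
    rw [zero_div]
    apply IsLeast.csInf_eq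
    refine ⟨⟨le_rfl, ?_⟩, fun ξ hξ => hξ.1⟩
    unfold LlPt.Aprof
    rw [hsm]
    simp only [Bool.false_eq_true, if_false]
    unfold LlPt.Adir LlBase.A0
    exact add_nonneg ENNReal.toReal_nonneg (mul_nonneg hl (hF.P_nn 0 le_rfl).1)
  unfold LlPt.K
  rw [h, mul_zero]

theorem bik_q_zero {F : LlFix} (hF : F.Ok) {p : LlPt} (hl : 0 ≤ p.lam) (hsm : p.sm = false) {c C v0 : ℝ}
    (h : p.Ref F 𝔹 c C v0) : p.q F 𝔹 0 = 0 := by
  unfold LlPt.q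
  rw [bik_K_zero 𝔹 hF hl hsm, h.gam_zero]

theorem bik_Gam1_eq {F : LlFix} {p : LlPt} {c C v0 : ℝ} (h : p.Ref F 𝔹 c C v0) (hc : 0 < c) (t : ℝ) :
    p.Gam1 F 𝔹 t = (1 - p.gap F 𝔹 t) / p.b0 F 𝔹 := by
  have hb : 0 < p.b0 F 𝔹 := lt_of_lt_of_le hc h.b0_lo
  unfold LlPt.gap
  field_simp
  ring

/-- `q` is bi-Lipschitz on the initial interval -/
theorem bik_q_incr {F : LlFix} {p : LlPt} {c C v0 : ℝ} (h : p.Ref F 𝔹 c C v0) (hc : 0 < c) (hsm : p.sm = false) (hl0 : 0 ≤ p.lam)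
    (hlam : C * p.lam * (C * v0) ^ 2 ≤ 1 / 2) {v v' : ℝ} (hv : 0 < v) (hvv : v ≤ v') (hv0 : v' ≤ v0) (hva : v' < p.a) :
    c / (2 * C) * (v' - v) ≤ p.q F 𝔹 v' - p.q F 𝔹 v ∧ p.q F 𝔹 v' - p.q F 𝔹 v ≤ C / c * (v' - v) := by
  have hb : 0 < p.b0 F 𝔹 := lt_of_lt_of_le hc h.b0_lo
  have hC : 0 < C := lt_of_lt_of_le hb h.b0_hi
  have hv' : 0 < v' := lt_of_lt_of_le hv hvv
  have hK0 : 0 ≤ p.K F 𝔹 v := (mul_nonneg hc.le hv.le).trans (h.K_lo0 v hv (hvv.trans hv0))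
  have hKlo := h.K_lo v v' hv hvv hv0
  have hKhi := h.K_hi v v' hv hvv hv0
  have hKK : p.K F 𝔹 v ≤ p.K F 𝔹 v' := by
    have := mul_nonneg hc.le (sub_nonneg.2 hvv)
    linarith
  have e : p.q F 𝔹 v' - p.q F 𝔹 v = ∫ s in (p.K F 𝔹 v)..(p.K F 𝔹 v'), p.Gam1 F 𝔹 s := h.gam_ftc _ _ hK0 hKK
  have hint : IntervalIntegrable (p.Gam1 F 𝔹) volume (p.K F 𝔹 v) (p.K F 𝔹 v') :=
    (h.g1_cont.mono (fun s hs => le_trans hK0 hs.1)).intervalIntegrable_of_Icc hKK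
  have hbd : ∀ s ∈ Icc (p.K F 𝔹 v) (p.K F 𝔹 v'), 1 / (2 * C) ≤ p.Gam1 F 𝔹 s ∧ p.Gam1 F 𝔹 s ≤ 1 / c := by
    intro s hs
    have hs0 : 0 ≤ s := le_trans hK0 hs.1
    have hsC : s ≤ C * v0 := hs.2.trans ((h.K_hi0 v' hv' hv0).trans (mul_le_mul_of_nonneg_left hv0 hC.le))
    have htop : p.ell ^ 2 * s ≤ 𝔹.xiS F.T := by
      have := h.K_top v' ⟨hv', hva⟩
      rw [hsm] at this
      simp only [Bool.false_eq_true, if_false] at this
      exact le_trans (mul_le_mul_of_nonneg_left hs.2 (sq_nonneg _)) this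
    have g1 := h.gap_lo s hs0
    have g2 := h.gap_hi s hs0 htop
    have g0 : 0 ≤ p.gap F 𝔹 s := le_trans (mul_nonneg (mul_nonneg hc.le hl0) (le_min (sq_nonneg _) zero_le_one)) g1
    have g3 : p.gap F 𝔹 s ≤ 1 / 2 := by
      refine g2.trans (le_trans ?_ hlam)
      exact mul_le_mul_of_nonneg_left (pow_le_pow_left₀ hs0 hsC 2) (mul_nonneg hC.le hl0)
    rw [bik_Gam1_eq 𝔹 h hc]
    constructor
    · rw [div_le_div_iff₀ (by positivity) hb]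
      nlinarith [h.b0_hi]
    · rw [div_le_div_iff₀ hb hc]
      nlinarith [h.b0_lo]
  have i1 : ∫ _s in (p.K F 𝔹 v)..(p.K F 𝔹 v'), (1 / (2 * C)) ≤ ∫ s in (p.K F 𝔹 v)..(p.K F 𝔹 v'), p.Gam1 F 𝔹 s :=
    intervalIntegral.integral_mono_on hKK intervalIntegrable_const hint fun s hs => (hbd s hs).1
  have i2 : ∫ s in (p.K F 𝔹 v)..(p.K F 𝔹 v'), p.Gam1 F 𝔹 s ≤ ∫ _s in (p.K F 𝔹 v)..(p.K F 𝔹 v'), (1 / c) :=
    intervalIntegral.integral_mono_on hKK hint intervalIntegrable_const fun s hs => (hbd s hs).2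
  rw [intervalIntegral.integral_const, smul_eq_mul] at i1 i2
  rw [e]
  constructor
  · refine le_trans ?_ i1
    have : c / (2 * C) * (v' - v) = c * (v' - v) * (1 / (2 * C)) := by ring
    rw [this]
    exact mul_le_mul_of_nonneg_right hKlo (by positivity)
  · refine le_trans i2 ?_
    have : C / c * (v' - v) = C * (v' - v) * (1 / c) := by ring
    rw [this]
    exact mul_le_mul_of_nonneg_right hKhi (by positivity)

theorem bik_q_mem {F : LlFix} {p : LlPt} {c C v0 : ℝ} (h : p.Ref F 𝔹 c C v0) {v : ℝ} (hK : 0 ≤ p.K F 𝔹 v) :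
    p.q F 𝔹 v ∈ Icc (0 : ℝ) 1 := by
  refine ⟨?_, h.gam_le _ hK⟩
  have e := h.gam_ftc 0 _ le_rfl hK
  rw [h.gam_zero, sub_zero] at e
  show 0 ≤ p.Gam F 𝔹 (p.K F 𝔹 v)
  rw [e]
  exact intervalIntegral.integral_nonneg hK fun s hs => (h.g1_pos s hs.1).le

end Pt

/-! ## 2. The inverse of a bi-Lipschitz function -/

theorem bik_inv_self {φ : ℝ → ℝ} {s0 m : ℝ} (hm : 0 < m)
    (hlo : ∀ s s', 0 ≤ s → s ≤ s' → s' ≤ s0 → m * (s' - s) ≤ φ s' - φ s) {s : ℝ} (hs : s ∈ Icc 0 s0) :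
    bdInv φ (φ s) = s := by
  unfold bdInv
  apply IsLeast.csInf_eq
  refine ⟨⟨hs.1, le_rfl⟩, fun s' hs' => ?_⟩
  by_contra hlt
  have hlt' : s' < s := not_le.1 hlt
  have := hlo s' s hs'.1 hlt'.le hs.2
  have h2 := mul_pos hm (sub_pos.2 hlt')
  linarith [hs'.2]

theorem bik_inv_slopes {φ : ℝ → ℝ} {s0 m M : ℝ} (hm : 0 < m) (hM : 0 < M) (h0 : φ 0 = 0) (hs0 : 0 ≤ s0)
    (hlo : ∀ s s', 0 ≤ s → s ≤ s' → s' ≤ s0 → m * (s' - s) ≤ φ s' - φ s)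
    (hhi : ∀ s s', 0 ≤ s → s ≤ s' → s' ≤ s0 → φ s' - φ s ≤ M * (s' - s))
    {r1 r2 : ℝ} (h1 : 0 ≤ r1) (h12 : r1 ≤ r2) (h2 : r2 ≤ φ s0) :
    1 / M * (r2 - r1) ≤ bdInv φ r2 - bdInv φ r1 ∧ bdInv φ r2 - bdInv φ r1 ≤ 1 / m * (r2 - r1) := by
  have hcont : ContinuousOn φ (Icc 0 s0) := by
    have hL : LipschitzOnWith (Real.toNNReal M) φ (Icc 0 s0) := by
      apply LipschitzOnWith.of_dist_le_mul
      intro x hx y hy
      rw [Real.dist_eq, Real.dist_eq, Real.coe_toNNReal _ hM.le]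
      rcases le_total x y with hxy | hxy
      · have a1 := hlo x y hx.1 hxy hy.2
        have a2 := hhi x y hx.1 hxy hy.2
        have a3 := mul_nonneg hm.le (sub_nonneg.2 hxy)
        rw [abs_sub_comm, abs_of_nonneg (by linarith), abs_sub_comm, abs_of_nonneg (sub_nonneg.2 hxy)]
        exact a2
      · have a1 := hlo y x hy.1 hxy hx.2
        have a2 := hhi y x hy.1 hxy hx.2
        have a3 := mul_nonneg hm.le (sub_nonneg.2 hxy)
        rw [abs_of_nonneg (by linarith), abs_of_nonneg (sub_nonneg.2 hxy)]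
        exact a2
    exact hL.continuousOn
  have hivt := intermediate_value_Icc hs0 hcont
  rw [h0] at hivt
  obtain ⟨s1, hs1, e1⟩ := hivt ⟨h1, h12.trans h2⟩
  obtain ⟨s2, hs2, e2⟩ := hivt ⟨h1.trans h12, h2⟩
  rw [← e1, ← e2, bik_inv_self hm hlo hs1, bik_inv_self hm hlo hs2]
  have hss : s1 ≤ s2 := by
    by_contra hlt
    have hlt' : s2 < s1 := not_le.1 hlt
    have := hlo s2 s1 hs2.1 hlt'.le hs1.2
    have h3 := mul_pos hm (sub_pos.2 hlt')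
    linarith
  have a1 := hlo s1 s2 hs1.1 hss hs2.2
  have a2 := hhi s1 s2 hs1.1 hss hs2.2
  constructor
  · rw [one_div, inv_mul_le_iff₀ hM]; exact a2
  · rw [one_div, le_inv_mul_iff₀ hm]; exact a1

/-- a rescaled clock is a clock on `(0,1)` -/
theorem bik_resc_clock {a : ℝ} (ha : 0 < a) {c : ℝ → ℝ} (hm : MonotoneOn c (Icc 0 a)) (hn : ∀ v ∈ Icc 0 a, 0 ≤ c v) :
    IsClock 1 (btResc a c) := by
  have hmem : ∀ w ∈ Ioo (0 : ℝ) 1, a * w ∈ Icc 0 a := fun w hw =>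
    ⟨(mul_pos ha hw.1).le, by have := mul_le_mul_of_nonneg_left hw.2.le ha.le; linarith⟩
  refine ⟨?_, ?_, ⟨a ^ 2 * c a, ?_⟩⟩
  · intro x hx y hy hxy
    exact mul_le_mul_of_nonneg_left (hm (hmem x hx) (hmem y hy) (mul_le_mul_of_nonneg_left hxy ha.le)) (sq_nonneg _)
  · intro v hv
    exact mul_nonneg (sq_nonneg _) (hn _ (hmem v hv))
  · intro v hv
    exact mul_le_mul_of_nonneg_left (hm (hmem v hv) (right_mem_Icc.2 ha.le) (hmem v hv).2) (sq_nonneg _)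

/-! ## 3. The frames -/

/-- the path data of the frame `Fr` are those of the direct point `p` at the dyad `2^-hd` -/
structure BikOf (𝔹 : LlBase) (F : LlFix) (p : LlPt) (hd : ℕ) (Fr : BdFr) : Prop where
  N : Fr.N = p.N
  lam : Fr.lam = p.lam
  u : Fr.u = btU hd
  ell : Fr.ell = p.ell
  chiL : Fr.chiL = p.chiL
  chiE : Fr.chiE = p.chiE
  Tm : Fr.Tm = p.ell ^ 2 * p.b0 F 𝔹
  K : Fr.K = btResc p.ell (p.K F 𝔹)
  q : Fr.q = fun w => p.q F 𝔹 (p.ell * w)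
  d : Fr.d = btResc p.ell ((p.loc hd 0 0).d F 𝔹)
  b : Fr.b = fun g => btResc p.ell ((p.loc hd g 0).b F 𝔹)
  h : Fr.h = fun g => btResc p.ell ((p.loc hd g 0).h F 𝔹)
  cu : Fr.cu = btResc p.ell (btCu F p hd)

theorem bik_of {𝔹 : LlBase} {F : LlFix} {p : LlPt} {hd : ℕ} {Fr : BdFr}
    (e : Fr = btFr 𝔹 F p hd Fr.m Fr.st Fr.kap Fr.Ilo Fr.Ihi) : BikOf 𝔹 F p hd Fr :=
  ⟨congrArg BdFr.N e, congrArg BdFr.lam e, congrArg BdFr.u e, congrArg BdFr.ell e, congrArg BdFr.chiL e, congrArg BdFr.chiE e,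
    congrArg BdFr.Tm e, congrArg BdFr.K e, congrArg BdFr.q e, congrArg BdFr.d e, congrArg BdFr.b e, congrArg BdFr.h e,
    congrArg BdFr.cu e⟩

theorem bik_of_eq {𝔹 : LlBase} {F : LlFix} {p : LlPt} {hd : ℕ} {Fr : BdFr} (h : BikOf 𝔹 F p hd Fr) :
    Fr = btFr 𝔹 F p hd Fr.m Fr.st Fr.kap Fr.Ilo Fr.Ihi := by
  obtain ⟨h1, h2, h3, h4, h5, h6, h7, h8, h9, h10, h11, h12, h13⟩ := h
  cases Fr
  simp only at h1 h2 h3 h4 h5 h6 h7 h8 h9 h10 h11 h12 h13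
  subst h1 h2 h3 h4 h5 h6 h7 h8 h9 h10 h11 h12 h13
  rfl

section Fr

variable {𝔹 : LlBase} {F : LlFix} {p : LlPt} {hd : ℕ} {Fr : BdFr}

theorem BikOf.x (h : BikOf 𝔹 F p hd Fr) : Fr.x = p.x := by unfold BdFr.x LlPt.x; rw [h.N]

theorem BikOf.xm (h : BikOf 𝔹 F p hd Fr) : Fr.xm = p.x / p.ell := by unfold BdFr.xm; rw [h.x, h.ell]

theorem BikOf.cg (h : BikOf 𝔹 F p hd Fr) (w : ℝ) : Fr.cg w = p.ell ^ 2 * p.cg F (p.ell * w) := by
  unfold BdFr.cg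
  rw [h.b]
  simp only [btResc]
  rw [bik_loc_b 𝔹 F p hd 1]
  ring

theorem BikOf.b_aff (h : BikOf 𝔹 F p hd Fr) (g w : ℝ) : Fr.b g w = Fr.b 0 w - g * Fr.cg w := by
  rw [h.cg, h.b]
  simp only [btResc]
  rw [bik_loc_b 𝔹 F p hd g]
  ring

theorem BikOf.h_aff (h : BikOf 𝔹 F p hd Fr) (hl : 0 < p.ell) (g : ℝ) {w : ℝ} (hw : Fr.xm ≤ w) :
    Fr.h g w = Fr.h 0 w + g * (Fr.cg w * Fr.q w) := by
  have hx : p.x ≤ p.ell * w := by
    rw [h.xm, div_le_iff₀ hl] at hw; linarith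
  rw [h.cg, h.h, h.q]
  simp only [btResc]
  rw [bik_loc_h 𝔹 F p hd g hx]
  ring

theorem BikOf.h_mask (h : BikOf 𝔹 F p hd Fr) (hl : 0 < p.ell) (g : ℝ) {w : ℝ} (hw : w < Fr.xm) : Fr.h g w = 0 := by
  have hx : p.ell * w < p.x := by
    rw [h.xm, lt_div_iff₀ hl] at hw; linarith
  rw [h.h]
  simp only [btResc]
  rw [bik_loc_h_mask 𝔹 F p hd g hx, mul_zero]

/-- `U` of the frame is `U` of the point as soon as it is `≤ 1` -/
theorem BikOf.U (h : BikOf 𝔹 F p hd Fr) {X : BdFix} (hX : BtFix F X) (h1 : Fr.U X ≤ 1) : p.U F = Fr.U X := by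
  unfold LlPt.U
  have e : Fr.U X = p.x * p.lam ^ (-(F.sS / 2)) := by unfold BdFr.U; rw [h.x, h.lam, hX.sS]
  rw [← e]
  exact min_eq_right h1

theorem BikOf.cg_meas (h : BikOf 𝔹 F p hd Fr) (hF : F.Ok) : Measurable Fr.cg := by
  have e : Fr.cg = fun w => p.ell ^ 2 * p.cg F (p.ell * w) := funext h.cg
  rw [e]
  exact measurable_const.mul ((bik_cg_meas hF p).comp (measurable_const.mul measurable_id))

theorem BikOf.cg_lo (h : BikOf 𝔹 F p hd Fr) (hF : F.Ok) (hp : p.Ok F) {X : BdFix} (hX : BtFix F X) (hXok : X.Ok) (hFr : Fr.Ok X)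
    {w : ℝ} (hw : w ∈ Ioo (0 : ℝ) 1) :
    F.cb * F.c1 * min (1 / 65) (F.vb ^ 2 / 4) * Fr.lam * (w ^ 2 + Fr.U X ^ 2) ≤ max 1 (X.CU ^ 2) * Fr.cg w := by
  have hx := bik_x_pos hp
  have hl := bik_lam_pos hp
  have hell := hp.ell1
  have hl1 : p.lam ≤ 1 := by rw [← h.lam]; exact (BdFr.bds_lam_lt_one hFr hXok).le
  have hy0 : 0 ≤ p.ell * w := mul_nonneg (by linarith) hw.1.le
  have hy2 : p.ell * w ≤ 2 := by
    have := bik_ell_le_two hp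
    nlinarith [hw.1, hw.2]
  have e : Fr.U X = p.x * p.lam ^ (-(F.sS / 2)) := by unfold BdFr.U; rw [h.x, h.lam, hX.sS]
  have eU : p.U F = min 1 (Fr.U X) := by unfold LlPt.U; rw [e]
  have hxU : p.x ≤ Fr.U X := by
    have h2 : 1 ≤ p.lam ^ (-(F.sS / 2)) := Real.one_le_rpow_of_pos_of_le_one_of_nonpos hl hl1 (by linarith [hF.sS0])
    rw [e]
    exact le_mul_of_one_le_right hx.le h2
  have hUX0 : 0 ≤ Fr.U X := hx.le.trans hxU
  have hU : p.x ^ 2 ≤ p.U F ^ 2 := by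
    rw [eU]
    exact pow_le_pow_left₀ hx.le (le_min (bik_x_le_one hp) hxU) 2
  have hM1 : (1 : ℝ) ≤ max 1 (X.CU ^ 2) := le_max_left _ _
  have hUU : Fr.U X ^ 2 ≤ max 1 (X.CU ^ 2) * p.U F ^ 2 := by
    rw [eU]
    rcases le_or_gt (Fr.U X) 1 with h1 | h1
    · rw [min_eq_right h1]
      nlinarith [sq_nonneg (Fr.U X)]
    · rw [min_eq_left h1.le, one_pow, mul_one]
      have h3 : Fr.U X ≤ X.CU := by
        have := hFr.u_lo
        have hu1 := BdFr.bds_u_le_one hFr hXok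
        nlinarith [hXok.CU_pos]
      exact le_trans (pow_le_pow_left₀ hUX0 h3 2) (le_max_right _ _)
  have hG := bik_G_lower hF hx hy0 hy2 hU
  rw [h.cg, h.lam]
  unfold LlPt.cg
  have hk0 : 0 ≤ min (1 / 65 : ℝ) (F.vb ^ 2 / 4) := le_min (by norm_num) (by positivity)
  have hw2 : w ^ 2 ≤ (p.ell * w) ^ 2 := pow_le_pow_left₀ hw.1.le (by nlinarith [hw.1]) 2
  have h2 : w ^ 2 + Fr.U X ^ 2 ≤ max 1 (X.CU ^ 2) * ((p.ell * w) ^ 2 + p.U F ^ 2) := by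
    nlinarith [sq_nonneg (p.ell * w)]
  have h3 : min (1 / 65 : ℝ) (F.vb ^ 2 / 4) * (w ^ 2 + Fr.U X ^ 2) ≤ max 1 (X.CU ^ 2) * (p.G F (p.ell * w) + p.U F ^ 2) := by
    calc min (1 / 65 : ℝ) (F.vb ^ 2 / 4) * (w ^ 2 + Fr.U X ^ 2)
        ≤ min (1 / 65 : ℝ) (F.vb ^ 2 / 4) * (max 1 (X.CU ^ 2) * ((p.ell * w) ^ 2 + p.U F ^ 2)) := mul_le_mul_of_nonneg_left h2 hk0
      _ = max 1 (X.CU ^ 2) * (min (1 / 65 : ℝ) (F.vb ^ 2 / 4) * ((p.ell * w) ^ 2 + p.U F ^ 2)) := by ring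
      _ ≤ max 1 (X.CU ^ 2) * (p.G F (p.ell * w) + p.U F ^ 2) := mul_le_mul_of_nonneg_left hG (by linarith)
  have hpos : 0 ≤ F.cb * p.lam * F.c1 := mul_nonneg (mul_nonneg hF.cb0.le hl.le) hF.c10.le
  have h4 := mul_le_mul_of_nonneg_left h3 hpos
  have h5 : 0 ≤ max 1 (X.CU ^ 2) * (F.cb * p.lam * F.c1 * (p.G F (p.ell * w) + p.U F ^ 2)) :=
    mul_nonneg (by linarith) (mul_nonneg hpos (add_nonneg (bik_G_nonneg hF p _) (sq_nonneg _)))
  have h6 : (1 : ℝ) ≤ p.ell ^ 2 := by nlinarith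
  nlinarith

theorem BikOf.cg_hi (h : BikOf 𝔹 F p hd Fr) (hF : F.Ok) (hp : p.Ok F) {w : ℝ} (hw : w ∈ Ioo (0 : ℝ) 1) :
    Fr.cg w ≤ 4 * (F.cb * F.c1 * (64 + F.vb ^ 2 + F.vb ^ 2 * F.G1 2 + 1)) * Fr.lam := by
  have hx := bik_x_pos hp
  have hl := bik_lam_pos hp
  have hell := hp.ell1
  have hy0 : 0 ≤ p.ell * w := mul_nonneg (by linarith) hw.1.le
  have hG := bik_G_upper hF hx (bik_x_le_one hp) hy0
  have hU0 : 0 ≤ p.U F := by
    unfold LlPt.U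
    exact le_min zero_le_one (mul_nonneg hx.le (Real.rpow_nonneg hl.le _))
  have hU : p.U F ^ 2 ≤ 1 := by
    have : p.U F ≤ 1 := min_le_left _ _
    nlinarith
  rw [h.cg, h.lam]
  unfold LlPt.cg
  have hpos : 0 ≤ F.cb * p.lam * F.c1 := mul_nonneg (mul_nonneg hF.cb0.le hl.le) hF.c10.le
  have h4 := mul_le_mul_of_nonneg_left (show p.G F (p.ell * w) + p.U F ^ 2 ≤ 64 + F.vb ^ 2 + F.vb ^ 2 * F.G1 2 + 1 by linarith) hpos
  have h5 : 0 ≤ F.cb * p.lam * F.c1 * (p.G F (p.ell * w) + p.U F ^ 2) :=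
    mul_nonneg hpos (add_nonneg (bik_G_nonneg hF p _) (sq_nonneg _))
  have h6 : p.ell ^ 2 ≤ 4 := by have := bik_ell_le_two hp; nlinarith
  nlinarith

/-- admissibility at one point (the part of `LlAdm` used here) -/
def BikAdm (𝔹 : LlBase) (F : LlFix) (c C : ℝ) (p : LlPt) : Prop :=
  MonotoneOn (p.b F 𝔹) (Icc 0 p.a) ∧ MonotoneOn (p.h F 𝔹) (Icc 0 p.a) ∧ MonotoneOn (p.hS F 𝔹) (Icc 0 p.a) ∧
  MonotoneOn (p.K F 𝔹) (Icc 0 p.a) ∧ MonotoneOn (p.q F 𝔹) (Icc 0 p.a) ∧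
  (∀ v ∈ Icc 0 p.a, c ≤ p.b F 𝔹 v ∧ p.b F 𝔹 v ≤ C ∧ 0 ≤ p.h F 𝔹 v ∧ 0 ≤ p.hS F 𝔹 v ∧ 0 ≤ p.K F 𝔹 v)

theorem bik_adm_eqns_cite : True := by
  have := @BikAdm.eq_1
  trivial

theorem bik_a_eq (hsm : p.sm = false) (g t : ℝ) : (p.loc hd g t).a = p.ell := by
  show (if p.sm then 4 else p.ell) = p.ell
  rw [hsm]; simp

theorem bik_mem_a (hl : 1 ≤ p.ell) {w : ℝ} (hw : w ∈ Icc (0 : ℝ) 1) : p.ell * w ∈ Icc 0 p.ell :=
  ⟨mul_nonneg (by linarith) hw.1, by nlinarith [hw.1, hw.2]⟩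

theorem BikOf.clk0 (h : BikOf 𝔹 F p hd Fr) (hp : p.Ok F) (hsm : p.sm = false) {c C g : ℝ} (hc : 0 ≤ c)
    (ha : BikAdm 𝔹 F c C (p.loc hd g 0)) : IsClock 1 (Fr.b g) ∧ IsClock 1 (Fr.h g) := by
  obtain ⟨a1, a2, _, _, _, a6⟩ := ha
  rw [bik_a_eq hsm] at a1 a2 a6
  have hl : 0 < p.ell := by linarith [hp.ell1]
  rw [h.b, h.h]
  exact ⟨bik_resc_clock hl a1 fun v hv => le_trans hc (a6 v hv).1, bik_resc_clock hl a2 fun v hv => (a6 v hv).2.2.1⟩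

theorem BikOf.base (h : BikOf 𝔹 F p hd Fr) (hp : p.Ok F) (hsm : p.sm = false) {c C g : ℝ} (hc : 0 ≤ c)
    (ha : BikAdm 𝔹 F c C (p.loc hd g 0)) {X : BdFix} (hX : X.Ok) (hFr : Fr.Ok X) {W : BdWorld} (hW : ∀ m, (W.ps m).a = 1)
    (hsmall : Fr.lam ^ (0.03 : ℝ) ≤ c) : Fr.Base X W g := by
  obtain ⟨k1, k2⟩ := h.clk0 hp hsm hc ha
  refine ⟨hW _, k1, k2, fun v hv => ?_⟩
  obtain ⟨_, _, _, _, _, a6⟩ := ha
  rw [bik_a_eq hsm] at a6
  rw [bud_gb_C_flat hX hFr (bud_gb_flat_pos hX hFr).le]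
  have h1 : Fr.C0 ≤ c := by
    unfold BdFr.C0 BdFr.Lam
    have hu0 := BdFr.bds_u_pos hFr hX
    have hu1 := BdFr.bds_u_le_one hFr hX
    have hL : 0 ≤ Fr.lam ^ (0.03 : ℝ) := Real.rpow_nonneg (BdFr.bds_lam_pos hFr).le _
    have : Fr.u ^ 2 ≤ 1 := by nlinarith
    nlinarith
  have h2 := (a6 _ (bik_mem_a hp.ell1 (Ioo_subset_Icc_self hv))).1
  rw [h.b]
  simp only [btResc]
  have h6 : (1 : ℝ) ≤ p.ell ^ 2 := by nlinarith [hp.ell1]
  nlinarith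

theorem BikOf.q_mono (h : BikOf 𝔹 F p hd Fr) (hp : p.Ok F) (hsm : p.sm = false) {c C : ℝ}
    (ha : BikAdm 𝔹 F c C (p.loc hd 0 0)) : MonotoneOn Fr.q (Icc 0 1) := by
  obtain ⟨_, _, _, _, a5, _⟩ := ha
  rw [bik_a_eq hsm] at a5
  rw [h.q]
  intro x hx y hy hxy
  exact a5 (bik_mem_a hp.ell1 hx) (bik_mem_a hp.ell1 hy) (mul_le_mul_of_nonneg_left hxy (by linarith [hp.ell1]))

theorem BikOf.q_mem (h : BikOf 𝔹 F p hd Fr) (hp : p.Ok F) (hsm : p.sm = false) {c C cr Cr v0 : ℝ}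
    (ha : BikAdm 𝔹 F c C (p.loc hd 0 0)) (hr : p.Ref F 𝔹 cr Cr v0) {w : ℝ} (hw : w ∈ Icc (0 : ℝ) 1) : Fr.q w ∈ Icc (0 : ℝ) 1 := by
  obtain ⟨_, _, _, _, _, a6⟩ := ha
  rw [bik_a_eq hsm] at a6
  rw [h.q]
  exact bik_q_mem 𝔹 hr (a6 _ (bik_mem_a hp.ell1 hw)).2.2.2.2

theorem BikOf.d_int (h : BikOf 𝔹 F p hd Fr) (hp : p.Ok F) (hsm : p.sm = false) {c C : ℝ}
    (ha : BikAdm 𝔹 F c C (p.loc hd 0 0)) : IntervalIntegrable Fr.d volume 0 1 := by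
  obtain ⟨_, a2, a3, _, _, _⟩ := ha
  rw [bik_a_eq hsm] at a2 a3
  have hl : 0 ≤ p.ell := by linarith [hp.ell1]
  have m1 : MonotoneOn (fun w => (p.loc hd 0 0).h F 𝔹 (p.ell * w)) (uIcc 0 1) := by
    rw [uIcc_of_le zero_le_one]
    intro x hx y hy hxy
    exact a2 (bik_mem_a hp.ell1 hx) (bik_mem_a hp.ell1 hy) (mul_le_mul_of_nonneg_left hxy hl)
  have m2 : MonotoneOn (fun w => (p.loc hd 0 0).hS F 𝔹 (p.ell * w)) (uIcc 0 1) := by
    rw [uIcc_of_le zero_le_one]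
    intro x hx y hy hxy
    exact a3 (bik_mem_a hp.ell1 hx) (bik_mem_a hp.ell1 hy) (mul_le_mul_of_nonneg_left hxy hl)
  rw [h.d]
  exact ((m1.intervalIntegrable (μ := volume)).sub (m2.intervalIntegrable (μ := volume))).const_mul (p.ell ^ 2)

/-- slopes of the normalised reference `w ↦ q(ℓ w)` on the initial interval -/
theorem bik_qn_slopes (hF : F.Ok) (hp : p.Ok F) (hsm : p.sm = false) {c C v0 : ℝ} (h : p.Ref F 𝔹 c C v0) (hc : 0 < c)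
    (hlam : C * p.lam * (C * v0) ^ 2 ≤ 1 / 2) {s s' : ℝ} (hs : 0 ≤ s) (hss : s ≤ s') (hs' : p.ell * s' ≤ min v0 (1 / 2)) :
    min (c / (2 * C)) c * (s' - s) ≤ p.q F 𝔹 (p.ell * s') - p.q F 𝔹 (p.ell * s) ∧
      p.q F 𝔹 (p.ell * s') - p.q F 𝔹 (p.ell * s) ≤ 2 * max (max (C / c) C) 1 * (s' - s) := by
  have hl := (bik_lam_pos hp).le
  have hell := hp.ell1
  have hell2 := bik_ell_le_two hp
  have hb : 0 < p.b0 F 𝔹 := lt_of_lt_of_le hc h.b0_lo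
  have hC : 0 < C := lt_of_lt_of_le hb h.b0_hi
  have ha : p.a = p.ell := bik_a_eq (hd := 0) hsm p.gam0 0
  have hv0 : p.ell * s' ≤ v0 := hs'.trans (min_le_left _ _)
  have hva : p.ell * s' < p.a := by rw [ha]; linarith [hs'.trans (min_le_right _ _)]
  have hd0 : 0 ≤ s' - s := sub_nonneg.2 hss
  have hm1 : min (c / (2 * C)) c ≤ c / (2 * C) := min_le_left _ _
  have hm2 : min (c / (2 * C)) c ≤ c := min_le_right _ _
  have hM1 : C / c ≤ max (max (C / c) C) 1 := le_trans (le_max_left _ _) (le_max_left _ _)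
  have hM2 : C ≤ max (max (C / c) C) 1 := le_trans (le_max_right _ _) (le_max_left _ _)
  have hM0 : 0 ≤ max (max (C / c) C) 1 := le_trans zero_le_one (le_max_right _ _)
  rcases eq_or_lt_of_le hs with e0 | hpos
  · subst e0
    rw [mul_zero, bik_q_zero 𝔹 hF hl hsm h, sub_zero, sub_zero]
    rcases eq_or_lt_of_le hss with e1 | hpos'
    · subst e1
      simp only [mul_zero]
      rw [bik_q_zero 𝔹 hF hl hsm h]; simp
    · have hv' : 0 < p.ell * s' := mul_pos (by linarith) hpos'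
      have q1 := h.q_lo _ ⟨hv', hva⟩
      have q2 := h.q_hi _ ⟨hv', hva⟩
      constructor
      · refine le_trans ?_ q1
        calc min (c / (2 * C)) c * s' ≤ c * s' := mul_le_mul_of_nonneg_right hm2 hpos'.le
          _ ≤ c * (p.ell * s') := mul_le_mul_of_nonneg_left (by nlinarith) hc.le
      · refine le_trans q2 ?_
        calc C * (p.ell * s') ≤ C * (2 * s') := mul_le_mul_of_nonneg_left (by nlinarith) hC.le
          _ = 2 * C * s' := by ring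
          _ ≤ 2 * max (max (C / c) C) 1 * s' := mul_le_mul_of_nonneg_right (by linarith) hpos'.le
  · have hv : 0 < p.ell * s := mul_pos (by linarith) hpos
    have hvv : p.ell * s ≤ p.ell * s' := mul_le_mul_of_nonneg_left hss (by linarith)
    obtain ⟨q1, q2⟩ := bik_q_incr 𝔹 h hc hsm hl hlam hv hvv hv0 hva
    have e : p.ell * s' - p.ell * s = p.ell * (s' - s) := by ring
    rw [e] at q1 q2
    have hcC : 0 ≤ c / (2 * C) := by positivity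
    have hCc : 0 ≤ C / c := by positivity
    constructor
    · refine le_trans ?_ q1
      calc min (c / (2 * C)) c * (s' - s) ≤ c / (2 * C) * (s' - s) := mul_le_mul_of_nonneg_right hm1 hd0
        _ ≤ c / (2 * C) * (p.ell * (s' - s)) := mul_le_mul_of_nonneg_left (by nlinarith) hcC
    · refine le_trans q2 ?_
      calc C / c * (p.ell * (s' - s)) ≤ C / c * (2 * (s' - s)) := mul_le_mul_of_nonneg_left (by nlinarith) hCc
        _ = 2 * (C / c) * (s' - s) := by ring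
        _ ≤ 2 * max (max (C / c) C) 1 * (s' - s) := mul_le_mul_of_nonneg_right (by linarith) hd0

/-- `β_0 = q⁻¹` has slopes in `[1/(2M), 1/m]` on `[0, R]`, `R ≤ c min(v0,1/2)` -/
theorem BikOf.beta (h : BikOf 𝔹 F p hd Fr) (hF : F.Ok) (hp : p.Ok F) (hsm : p.sm = false) {c C v0 : ℝ} (hr : p.Ref F 𝔹 c C v0)
    (hc : 0 < c) (hv0 : 0 < v0) (hlam : C * p.lam * (C * v0) ^ 2 ≤ 1 / 2) {r1 r2 : ℝ} (h1 : 0 ≤ r1) (h12 : r1 ≤ r2)
    (h2 : r2 ≤ c * min v0 (1 / 2)) :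
    1 / (2 * max (max (C / c) C) 1) * (r2 - r1) ≤ Fr.beta0 r2 - Fr.beta0 r1 ∧
      Fr.beta0 r2 - Fr.beta0 r1 ≤ 1 / min (c / (2 * C)) c * (r2 - r1) := by
  have hell := hp.ell1
  have hl0 : 0 < p.ell := by linarith
  have hb : 0 < p.b0 F 𝔹 := lt_of_lt_of_le hc hr.b0_lo
  have hC : 0 < C := lt_of_lt_of_le hb hr.b0_hi
  have hv1 : 0 < min v0 (1 / 2) := lt_min hv0 (by norm_num)
  have ha : p.a = p.ell := bik_a_eq (hd := 0) hsm p.gam0 0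
  have hm : 0 < min (c / (2 * C)) c := lt_min (by positivity) hc
  have hM : 0 < 2 * max (max (C / c) C) 1 := by
    have : (1 : ℝ) ≤ max (max (C / c) C) 1 := le_max_right _ _
    linarith
  have es : p.ell * (min v0 (1 / 2) / p.ell) = min v0 (1 / 2) := by field_simp
  unfold BdFr.beta0
  rw [h.q]
  refine bik_inv_slopes (s0 := min v0 (1 / 2) / p.ell) hm hM ?_ (by positivity) ?_ ?_ h1 h12 ?_
  · simp only [mul_zero]
    exact bik_q_zero 𝔹 hF (bik_lam_pos hp).le hsm hr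
  · intro s s' hs hss hs'
    refine (bik_qn_slopes hF hp hsm hr hc hlam hs hss ?_).1
    rw [← es]; exact mul_le_mul_of_nonneg_left hs' hl0.le
  · intro s s' hs hss hs'
    refine (bik_qn_slopes hF hp hsm hr hc hlam hs hss ?_).2
    rw [← es]; exact mul_le_mul_of_nonneg_left hs' hl0.le
  · simp only [es]
    refine h2.trans (hr.q_lo _ ⟨hv1, ?_⟩)
    rw [ha]; linarith [min_le_right v0 (1 / 2 : ℝ)]

theorem BikOf.beta_zero (h : BikOf 𝔹 F p hd Fr) (hF : F.Ok) (hp : p.Ok F) (hsm : p.sm = false) {c C v0 : ℝ} (hr : p.Ref F 𝔹 c C v0) :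
    Fr.beta0 0 = 0 := by
  unfold BdFr.beta0 bdInv
  apply IsLeast.csInf_eq
  refine ⟨⟨le_rfl, ?_⟩, fun s hs => hs.1⟩
  rw [h.q]
  simp only [mul_zero]
  rw [bik_q_zero 𝔹 hF (bik_lam_pos hp).le hsm hr]

/-- the support of `c_u` -/
theorem BikOf.cu_supp (h : BikOf 𝔹 F p hd Fr) (hF : F.Ok) (hp : p.Ok F) (hsm : p.sm = false) {c C v0 : ℝ} (hr : p.Ref F 𝔹 c C v0)
    (hc : 0 < c) (hu0 : 0 < Fr.u) (hu : 4 * Fr.u < 1) {w : ℝ} (hne : Fr.cu w ≠ 0) :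
    c / 2 * Fr.u ≤ Fr.q w ∧ Fr.q w ≤ 4 * C * Fr.u := by
  have hb : 0 < p.b0 F 𝔹 := lt_of_lt_of_le hc hr.b0_lo
  have hC : 0 < C := lt_of_lt_of_le hb hr.b0_hi
  have ha : p.a = p.ell := bik_a_eq (hd := 0) hsm p.gam0 0
  have hmem : p.ell * w / btU hd ∈ Icc (1 / 2 : ℝ) 4 := by
    by_contra hn
    apply hne
    rw [h.cu]
    simp only [btResc, btCu]
    rw [hF.phi_supp _ hn]; ring
  rw [← h.u] at hmem
  obtain ⟨m1, m2⟩ := hmem
  rw [le_div_iff₀ hu0] at m1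
  rw [div_le_iff₀ hu0] at m2
  have hy0 : 0 < p.ell * w := by nlinarith
  have hya : p.ell * w < p.a := by rw [ha]; linarith [hp.ell1]
  have q1 := hr.q_lo _ ⟨hy0, hya⟩
  have q2 := hr.q_hi _ ⟨hy0, hya⟩
  rw [h.q]
  simp only
  constructor
  · nlinarith
  · nlinarith

theorem BikOf.cu_hi (h : BikOf 𝔹 F p hd Fr) (hF : F.Ok) (hp : p.Ok F) {M : ℝ} (hM : ∀ w, F.phi w ≤ M) (w : ℝ) :
    Fr.cu w ≤ 4 * (F.cb * F.c1 * M) * Fr.lam * Fr.u ^ 2 := by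
  have hl := bik_lam_pos hp
  have h6 : p.ell ^ 2 ≤ 4 := by have := bik_ell_le_two hp; nlinarith [hp.ell1]
  rw [h.cu, h.lam, h.u]
  simp only [btResc, btCu]
  have hpos : 0 ≤ F.cb * p.lam * F.c1 * btU hd ^ 2 :=
    mul_nonneg (mul_nonneg (mul_nonneg hF.cb0.le hl.le) hF.c10.le) (sq_nonneg _)
  have h1 := mul_le_mul_of_nonneg_left (hM (p.ell * w / btU hd)) hpos
  have h2 := mul_nonneg hpos (hF.phi_nn (p.ell * w / btU hd))
  nlinarith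

/-- only the path data matter -/
theorem bik_box {F' : BdFr} (hF : BtFam 𝔹 F Fr)
    (he : { F' with st := Fr.st, kap := Fr.kap, Ilo := Fr.Ilo, Ihi := Fr.Ihi } = Fr) : BtFam 𝔹 F F' ∧ F'.N = Fr.N := by
  obtain ⟨p, hd, hp, hsm, hdy, e⟩ := hF
  have h := bik_of e
  have k1 := congrArg BdFr.N he
  have k2 := congrArg BdFr.lam he
  have k3 := congrArg BdFr.u he
  have k4 := congrArg BdFr.ell he
  have k5 := congrArg BdFr.chiL he
  have k6 := congrArg BdFr.chiE he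
  have k7 := congrArg BdFr.Tm he
  have k8 := congrArg BdFr.K he
  have k9 := congrArg BdFr.q he
  have k10 := congrArg BdFr.d he
  have k11 := congrArg BdFr.b he
  have k12 := congrArg BdFr.h he
  have k13 := congrArg BdFr.cu he
  refine ⟨⟨p, hd, hp, hsm, hdy, bik_of_eq ?_⟩, k1⟩
  exact ⟨k1.trans h.N, k2.trans h.lam, k3.trans h.u, k4.trans h.ell, k5.trans h.chiL, k6.trans h.chiE, k7.trans h.Tm,
    k8.trans h.K, k9.trans h.q, k10.trans h.d, k11.trans h.b, k12.trans h.h, k13.trans h.cu⟩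

end Fr

/-- the changed clocks are clocks -/
theorem bik_clk (X : BdFix) (hX : X.Ok) : ∃ N0 : ℕ, ∀ Fr : BdFr, Fr.Ok X → N0 ≤ Fr.N → ∀ (W : BdWorld) (g : ℝ), Fr.Base X W g →
    ∀ Q : BdQ Fr X, IsClock 1 (Q.bq g) ∧ IsClock 1 (Q.hq g) := by
  obtain ⟨N0, h⟩ := bud_loc_of_frame X hX
  refine ⟨N0, fun Fr hFr hN W g hB Q => ?_⟩
  have hL := h Fr hFr hN W g hB
  obtain ⟨hρ, _, hQ⟩ := bud_dens_of_bdq X hX Fr hFr Q
  have hQ' : ∀ v ∈ Icc (0 : ℝ) 1, Q.r v = budQ (deriv Q.al) v := fun v hv => (hQ v hv).symm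
  exact ⟨(bud_clock_b hL hρ).congr fun v hv => (bud_gb_bq_eq Q g hQ' v hv).symm,
    (bud_clock_h hL hρ).congr fun v hv => (bud_gb_hq_eq Q g hQ' v hv).symm⟩

/-- the removal profile is constant on `[0, c_I u]` -/
theorem bik_cconst {X : BdFix} (hX : X.Ok) (hcd : X.cI ≤ X.cd ^ 3) {Fr : BdFr} (hO : Fr.Ok X) {r : ℝ} (hr : r ≤ X.cI * Fr.u) :
    Fr.C X r = Fr.C0 :=
  bud_gb_C_flat hX hO (hr.trans (mul_le_mul_of_nonneg_right hcd (BdFr.bds_u_pos hO hX).le))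

end

end Claimed.Agent.R286
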