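import Claimed.Agent.R286.Bud.InstKit
import Claimed.Agent.R286.Bud.HubBDefs
import Claimed.Agent.R286.LL04.ClkHe

/-!
# Row 286 (S0533), LL sec. 7: PRODUCER OF `BudB.PathStd` ON THE FRAMES OF LL PATHS      OWNER helper131      prefix `bik_` (continues `Bud/InstKit`)

Abstract in the base `𝔹 : LlBase`.      **EXIT `bik_path`**: from `LlBaseProfile`, `LlSec3`, `LlRef`, `BdFix.Ok`, `BtFix`: constants `P : BudB.PCst` and `N0` such that EVERY family of frames of direct LL paths which are `Ok X`, of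
size `≥ N0`, and tied to the world (`q = Γ_K ∘ K`) satisfies `BudB.PathStd X W Fam P`.
* measurability: `bik_llInv_meas` (the generalised inverse of ANY profile), `bik_K_meas`, `bik_q_meas`, `bik_He_meas`, `bik_d_meas`
* the edge profile vanishes below a fixed mass on the LOCAL frames (`U ≤ C_U u ≤ C_U λ^{b_l} → 0`, no smallness of `U_0`): `bik_Eb_le`, `bik_He_zero`
* fields: `BikOf.K_eq K_le b_bd h_le d_le d_seed q_lip p8`
-/

set_option autoImplicit false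

namespace Claimed.Agent.R286

open MeasureTheory Set Filter Topology

noncomputable section

/-! ## 1. Measurability -/

/-- the generalised inverse of ANY profile is measurable -/
theorem bik_llInv_meas (A : ℝ → ℝ) : Measurable (llInv A) := by
  refine measurable_of_Ioi fun t => ?_
  by_cases ht : t < 0
  · have : llInv A ⁻¹' Ioi t = univ := by
      ext w
      simp only [mem_preimage, mem_Ioi, mem_univ, iff_true]
      exact lt_of_lt_of_le ht (Real.sInf_nonneg fun ξ hξ => hξ.1)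
    rw [this]; exact MeasurableSet.univ
  · push Not at ht
    apply Set.OrdConnected.measurableSet
    refine ⟨fun w1 h1 w2 h2 w hw => ?_⟩
    have hne : {ξ : ℝ | 0 ≤ ξ ∧ w2 ≤ A ξ}.Nonempty := by
      by_contra hcon
      rw [not_nonempty_iff_eq_empty] at hcon
      have h0 : llInv A w2 = 0 := by unfold llInv; rw [hcon, Real.sInf_empty]
      have h2' : t < llInv A w2 := h2
      linarith
    have hne' : {ξ : ℝ | 0 ≤ ξ ∧ w ≤ A ξ}.Nonempty := hne.mono fun ξ hξ => ⟨hξ.1, hw.2.trans hξ.2⟩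
    have hle : llInv A w1 ≤ llInv A w := by
      unfold llInv
      exact csInf_le_csInf ⟨0, fun ξ hξ => hξ.1⟩ hne' fun ξ hξ => ⟨hξ.1, hw.1.trans hξ.2⟩
    exact lt_of_lt_of_le h1 hle

section Pt

variable (𝔹 : LlBase) (F : LlFix) (p : LlPt)

theorem bik_xi_meas : Measurable (p.xi F 𝔹) := (bik_llInv_meas _).comp (measurable_id.div_const _)

theorem bik_xi_nonneg (v : ℝ) : 0 ≤ p.xi F 𝔹 v := Real.sInf_nonneg fun _ hξ => hξ.1

theorem bik_K_meas : Measurable (p.K F 𝔹) := (bik_xi_meas 𝔹 F p).const_mul _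

theorem bik_K_nonneg (v : ℝ) : 0 ≤ p.K F 𝔹 v := mul_nonneg (inv_nonneg.2 (sq_nonneg _)) (bik_xi_nonneg 𝔹 F p v)

theorem bik_xi_eq (hl : 0 < p.ell) (v : ℝ) : p.xi F 𝔹 v = p.ell ^ 2 * p.K F 𝔹 v := by
  unfold LlPt.K
  field_simp

variable {𝔹 F p}

theorem bik_q_meas {c C v0 : ℝ} (h : p.Ref F 𝔹 c C v0) : Measurable (p.q F 𝔹) := by
  have hg : Continuous fun s => p.Gam1 F 𝔹 (max s 0) :=
    h.g1_cont.comp_continuous (continuous_id.max continuous_const) fun s => mem_Ici.2 (le_max_right _ _)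
  have hP : Continuous fun t => ∫ s in (0 : ℝ)..t, p.Gam1 F 𝔹 (max s 0) :=
    intervalIntegral.continuous_primitive (fun a b => hg.intervalIntegrable a b) 0
  have e : p.q F 𝔹 = fun v => ∫ s in (0 : ℝ)..(p.K F 𝔹 v), p.Gam1 F 𝔹 (max s 0) := by
    funext v
    have hK : 0 ≤ p.K F 𝔹 v := bik_K_nonneg 𝔹 F p v
    have h1 := h.gam_ftc 0 _ le_rfl hK
    rw [h.gam_zero, sub_zero] at h1
    unfold LlPt.q
    rw [h1]
    refine intervalIntegral.integral_congr fun s hs => ?_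
    rw [uIcc_of_le hK] at hs
    simp only [max_eq_left hs.1]
  rw [e]
  exact hP.measurable.comp (bik_K_meas 𝔹 F p)

theorem bik_G_meas (hF : F.Ok) (p : LlPt) : Measurable (p.G F) := by
  unfold LlPt.G
  refine Measurable.ite measurableSet_Iic ?_ ?_
  · exact measurable_const.mul (hF.G0_sm.continuous.measurable.comp (measurable_id.div_const _))
  · exact measurable_const.mul (hF.G1_sm.continuous.measurable.comp (measurable_id.div_const _))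

theorem bik_HePl_meas : Measurable (p.HePl F 𝔹) := by
  unfold LlPt.HePl
  refine measurable_const.mul (Measurable.sub ?_ ?_)
  · exact ((measurable_const.sub measurable_id).add_const _).pow_const _
  · exact ((measurable_id.sub_const _).add_const _).pow_const _

theorem bik_He_meas : Measurable (p.He F 𝔹) := by
  unfold LlPt.He
  refine Measurable.ite (measurableSet_le measurable_const (measurable_id.div_const _)) ?_ ?_
  · exact bik_HePl_meas.comp (measurable_id.div_const _)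
  · exact (measurable_const.max (((bik_xi_meas 𝔹 F p).sub_const _).div_const _)).mul_const _

theorem bik_Hlo_meas : Measurable (p.Hlo F) := by
  unfold LlPt.Hlo
  exact measurable_const.mul (Real.measurable_log.comp ((measurable_id.min measurable_const).div_const _))

theorem bik_Hlin_meas : Measurable (p.Hlin F) := by
  unfold LlPt.Hlin
  exact measurable_const.mul (measurable_const.max ((measurable_id.min measurable_const).sub_const _))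

/-- the defect above the mask: the seeds -/
theorem bik_loc_d (hd : ℕ) {v : ℝ} (hv : p.x ≤ v) :
    (p.loc hd 0 0).d F 𝔹 v = p.Hlo F v + p.chiL * p.Hlin F v + p.chiE * p.He F 𝔹 v := by
  have e : (p.loc hd 0 0).d F 𝔹 v = (if v < p.x then 0 else
      (p.loc hd 0 0).hS F 𝔹 v + p.Hlo F v + p.chiL * p.Hlin F v + p.chiE * p.He F 𝔹 v) - (p.loc hd 0 0).hS F 𝔹 v := rfl
  rw [e, if_neg (not_lt.2 hv)]; ring

/-- the defect on the mask -/
theorem bik_loc_d_mask (hd : ℕ) {v : ℝ} (hv : v < p.x) : (p.loc hd 0 0).d F 𝔹 v = -(p.loc hd 0 0).hS F 𝔹 v := by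
  have e : (p.loc hd 0 0).d F 𝔹 v = (if v < p.x then 0 else
      (p.loc hd 0 0).hS F 𝔹 v + p.Hlo F v + p.chiL * p.Hlin F v + p.chiE * p.He F 𝔹 v) - (p.loc hd 0 0).hS F 𝔹 v := rfl
  rw [e, if_pos hv]; ring

theorem bik_dy_zero (hF : F.Ok) (p : LlPt) (hx : 0 < p.x) {v : ℝ} (hv : v < p.x) : p.dySum F v = 0 := by
  unfold LlPt.dySum
  apply finsum_eq_zero_of_forall_eq_zero
  intro h
  split_ifs with hd
  · have hu : (0 : ℝ) < (2 : ℝ)⁻¹ ^ h := by positivity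
    rw [hF.phi_supp _ (fun hc => ?_), mul_zero]
    have h1 := hc.1
    rw [le_div_iff₀ hu] at h1
    linarith [hd.1]
  · rfl

/-- `h_*` on the mask: no dyadic term -/
theorem bik_loc_hS_mask (hF : F.Ok) (hx : 0 < p.x) (hd : ℕ) {v : ℝ} (hv : v < p.x) :
    (p.loc hd 0 0).hS F 𝔹 v = p.K F 𝔹 v - (p.b0 F 𝔹 + F.cb * p.lam * (p.G F v - p.U F ^ 2)) * p.q F 𝔹 v := by
  have e : (p.loc hd 0 0).hS F 𝔹 v = p.K F 𝔹 v - (p.b0 F 𝔹 + F.cb * p.lam * (p.G F v - p.U F ^ 2 - F.c1 * 0 * (p.G F v + p.U F ^ 2)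
      - F.c1 * (p.loc hd 0 0).dySum F v)) * p.q F 𝔹 v := rfl
  rw [e, bik_dy_zero hF (p.loc hd 0 0) hx hv]
  ring

theorem bik_d_meas (hF : F.Ok) (hx : 0 < p.x) {c C v0 : ℝ} (h : p.Ref F 𝔹 c C v0) (hd : ℕ) : Measurable ((p.loc hd 0 0).d F 𝔹) := by
  have e : (p.loc hd 0 0).d F 𝔹 = fun v => if v < p.x then
      -(p.K F 𝔹 v - (p.b0 F 𝔹 + F.cb * p.lam * (p.G F v - p.U F ^ 2)) * p.q F 𝔹 v)
      else p.Hlo F v + p.chiL * p.Hlin F v + p.chiE * p.He F 𝔹 v := by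
    funext v
    by_cases hv : v < p.x
    · rw [if_pos hv, bik_loc_d_mask hd hv, bik_loc_hS_mask hF hx hd hv]
    · rw [if_neg hv, bik_loc_d hd (not_lt.1 hv)]
  rw [e]
  refine Measurable.ite measurableSet_Iio ?_ ?_
  · exact ((bik_K_meas 𝔹 F p).sub ((measurable_const.add (measurable_const.mul ((bik_G_meas hF p).sub_const _))).mul (bik_q_meas h))).neg
  · exact (bik_Hlo_meas.add (measurable_const.mul bik_Hlin_meas)).add (measurable_const.mul bik_He_meas)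

end Pt

/-! ## 2. The seeds at one point -/

section Seeds

variable {𝔹 : LlBase} {F : LlFix} {p : LlPt}

theorem bik_Eb_le {E1 : ℝ} (hE1 : 0 < E1) (h : p.Ut F ^ 4 / E1 ^ 2 ≤ 𝔹.pTop F.T - 𝔹.A0 F.T (𝔹.xiS F.T - E1)) : p.Eb F 𝔹 ≤ E1 :=
  csInf_le ⟨0, fun _ hE => hE.1.le⟩ ⟨hE1, h⟩

theorem bik_Eb_nonneg : 0 ≤ p.Eb F 𝔹 := Real.sInf_nonneg fun _ hE => hE.1.le

/-- the edge profile vanishes where `ξ(v) ≤ ξ_*/2`, if `E_b ≤ ξ_*/2` -/
theorem bik_He_zero {y : ℝ} (hyp : y / p.ell < 𝔹.pTop F.T) (hxi : p.xi F 𝔹 y ≤ 𝔹.xiS F.T / 2) (hEb : p.Eb F 𝔹 ≤ 𝔹.xiS F.T / 2) :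
    p.He F 𝔹 y = 0 := by
  rw [lcc_He_act y hyp, max_eq_left (div_nonpos_of_nonpos_of_nonneg (by linarith) bik_Eb_nonneg), zero_mul]

theorem bik_ell_le_inv_x (hp : p.Ok F) : p.ell ≤ 1 / p.x := by
  have hN : (2 : ℝ) ≤ p.N := by exact_mod_cast hp.N2
  have e : 1 / p.x = (p.N : ℝ) ^ (1 / 6 : ℝ) := by
    unfold LlPt.x
    rw [Real.rpow_neg (by linarith), one_div, inv_inv]
  rw [e]
  exact hp.ell2.trans (Real.rpow_le_rpow (by norm_num) hN (by norm_num))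

theorem bik_log_nonneg (hp : p.Ok F) : 0 ≤ Real.log (1 / p.x) :=
  Real.log_nonneg (by rw [le_div_iff₀ (bik_x_pos hp)]; linarith [bik_x_le_one hp])

/-- the logarithmic seed -/
theorem bik_Hlo_seed (hp : p.Ok F) {y : ℝ} (hy : p.x ≤ y) : |p.Hlo F y| ≤ 2 * (p.lam1 F * p.U F ^ 3 * Real.log (1 / p.x)) := by
  have hx := bik_x_pos hp
  have hx1 := bik_x_le_one hp
  have hl1 : 0 ≤ p.lam1 F := (Real.rpow_pos_of_pos (bik_lam_pos hp) _).le
  have hU : 0 ≤ p.U F := (lce_U_pos hp).le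
  have hm : p.x ≤ min y p.ell := le_min hy (by linarith [hp.ell1])
  have a1 : 0 ≤ Real.log (min y p.ell / p.x) := Real.log_nonneg ((one_le_div hx).2 hm)
  have a2 : Real.log (min y p.ell / p.x) ≤ 2 * Real.log (1 / p.x) := by
    have h1 : min y p.ell / p.x ≤ (1 / p.x) ^ 2 := by
      have h2 : min y p.ell ≤ 1 / p.x := (min_le_right _ _).trans (bik_ell_le_inv_x hp)
      calc min y p.ell / p.x = min y p.ell * (1 / p.x) := by ring
        _ ≤ (1 / p.x) * (1 / p.x) := mul_le_mul_of_nonneg_right h2 (by positivity)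
        _ = (1 / p.x) ^ 2 := by ring
    have h3 := Real.log_le_log (div_pos (lt_of_lt_of_le hx hm) hx) h1
    rwa [Real.log_pow, Nat.cast_ofNat] at h3
  unfold LlPt.Hlo
  rw [abs_of_nonneg (mul_nonneg (mul_nonneg hl1 (pow_nonneg hU 3)) a1)]
  calc p.lam1 F * p.U F ^ 3 * Real.log (min y p.ell / p.x) ≤ p.lam1 F * p.U F ^ 3 * (2 * Real.log (1 / p.x)) :=
        mul_le_mul_of_nonneg_left a2 (mul_nonneg hl1 (pow_nonneg hU 3))
    _ = _ := by ring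

/-- `λ_1 log(1/x) ≤ 1/p_*` -/
theorem bik_lam1_log (hF : F.Ok) (hp : p.Ok F) : p.lam1 F * Real.log (1 / p.x) ≤ 1 / F.pS := by
  have hx := bik_x_pos hp
  obtain ⟨l0, l1, -⟩ := ll04h_lam1 hp hF.pS0.le hF.eta0.le
  have h1 : Real.log (1 / p.x) ≤ (1 / p.x) ^ F.pS / F.pS := Real.log_le_rpow_div (by positivity) hF.pS0
  have h2 : p.lam1 F ≤ p.x ^ F.pS := l1.trans hp.lam_hi
  have h3 : 0 < p.x ^ F.pS := Real.rpow_pos_of_pos hx _
  calc p.lam1 F * Real.log (1 / p.x) ≤ p.x ^ F.pS * ((1 / p.x) ^ F.pS / F.pS) :=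
        mul_le_mul h2 h1 (bik_log_nonneg hp) h3.le
    _ = 1 / F.pS := by
        rw [one_div, Real.inv_rpow hx.le]
        field_simp

theorem bik_Hlin_abs (hp : p.Ok F) (y : ℝ) : |p.Hlin F y| ≤ 2 + 4 * |F.vb| := by
  have hx := bik_x_pos hp
  have hx3 : p.x ^ 3 ≤ 1 := pow_le_one₀ hx.le (bik_x_le_one hp)
  unfold LlPt.Hlin
  rw [abs_of_nonneg (mul_nonneg (pow_nonneg hx.le 3) (le_max_left _ _))]
  have h1 : max 0 (min y p.ell - 4 * F.vb) ≤ 2 + 4 * |F.vb| := by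
    refine max_le (by positivity) ?_
    have := min_le_right y p.ell
    have := bik_ell_le_two hp
    have := neg_abs_le F.vb
    linarith
  calc p.x ^ 3 * max 0 (min y p.ell - 4 * F.vb) ≤ 1 * (2 + 4 * |F.vb|) :=
        mul_le_mul hx3 h1 (le_max_left _ _) zero_le_one
    _ = _ := one_mul _

theorem bik_Hlin_zero {y : ℝ} (hy : y ≤ 4 * F.vb) : p.Hlin F y = 0 := by
  unfold LlPt.Hlin
  rw [max_eq_left (by linarith [min_le_left y p.ell]), mul_zero]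

/-- the constant of `|d| ≤ dmax` -/
def bikDmax (𝔹 : LlBase) (F : LlFix) : ℝ := 𝔹.xiS F.T + 4 * (4 + 4 * |F.vb| + 1 / F.pS + ll04hE 𝔹 F.T)

theorem bik_path_eqns_cite : True := by
  have := @bikDmax.eq_1
  trivial

/-- the defect is bounded -/
theorem bik_d_abs (hF : F.Ok) (hB : LlBaseProfile 𝔹 F.T) (hp : p.Ok F) (hsm : p.sm = false) {c C v0 ca Ca : ℝ} (hr : p.Ref F 𝔹 c C v0)
    (hca : 0 ≤ ca) (hd : ℕ) (ha : BikAdm 𝔹 F ca Ca (p.loc hd 0 0)) {y : ℝ} (hy : y ∈ Ioo 0 p.ell) :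
    p.ell ^ 2 * |(p.loc hd 0 0).d F 𝔹 y| ≤ bikDmax 𝔹 F := by
  have hl1 := hp.ell1
  have hl2 := bik_ell_le_two hp
  have h4 : p.ell ^ 2 ≤ 4 := by nlinarith
  have hE := ll04h_E_pos (F := F) hB
  have hxi := hB.xi_pos
  have hpS : 0 < 1 / F.pS := one_div_pos.2 hF.pS0
  have hvb := abs_nonneg F.vb
  obtain ⟨l0, l1, l2⟩ := ll04h_lam1 hp hF.pS0.le hF.eta0.le
  unfold bikDmax
  rcases lt_or_ge y p.x with hyx | hyx
  · obtain ⟨_, _, _, _, _, a6⟩ := ha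
    rw [bik_a_eq hsm] at a6
    obtain ⟨b1, -, -, b4, -⟩ := a6 y ⟨hy.1.le, hy.2.le⟩
    have hq := (bik_q_mem 𝔹 hr (bik_K_nonneg 𝔹 F p y)).1
    have e : (p.loc hd 0 0).hS F 𝔹 y = p.K F 𝔹 y - (p.loc hd 0 0).b F 𝔹 y * p.q F 𝔹 y := rfl
    have h1 : (p.loc hd 0 0).hS F 𝔹 y ≤ p.K F 𝔹 y := by
      rw [e]; nlinarith [mul_nonneg (hca.trans b1) hq]
    have htop : p.ell ^ 2 * p.K F 𝔹 y ≤ 𝔹.xiS F.T := by
      simpa [hsm] using hr.K_top y (by rw [lce_a_direct hsm]; exact hy)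
    rw [bik_loc_d_mask hd hyx, abs_neg, abs_of_nonneg b4]
    have := mul_le_mul_of_nonneg_left h1 (sq_nonneg p.ell)
    linarith
  · rw [bik_loc_d hd hyx]
    have t1 : |p.Hlo F y| ≤ 1 + 1 / F.pS := by
      refine (ll04h_Hlo_abs hp hyx).trans ?_
      have := bik_lam1_log hF hp
      nlinarith
    have t2 : |p.chiL * p.Hlin F y| ≤ 2 + 4 * |F.vb| := by
      rw [abs_mul, abs_of_nonneg hp.chiL.1]
      calc p.chiL * |p.Hlin F y| ≤ 1 * (2 + 4 * |F.vb|) := mul_le_mul hp.chiL.2 (bik_Hlin_abs hp y) (abs_nonneg _) zero_le_one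
        _ = _ := one_mul _
    have t3 : |p.chiE * p.He F 𝔹 y| ≤ 1 + ll04hE 𝔹 F.T := by
      rw [abs_mul, abs_of_nonneg hp.chiE.1]
      have h5 := ll04h_He_abs hF hB hsm hp.N2 (bik_lam_pos hp) (v := y) (by rw [div_le_one (by linarith)]; exact hy.2.le)
      have h6 : p.lam1 F * (1 + ll04hE 𝔹 F.T) ≤ 1 * (1 + ll04hE 𝔹 F.T) := mul_le_mul_of_nonneg_right (l1.trans l2) (by linarith)
      calc p.chiE * |p.He F 𝔹 y| ≤ 1 * (1 + ll04hE 𝔹 F.T) :=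
            mul_le_mul hp.chiE.2 (h5.trans (by linarith)) (abs_nonneg _) zero_le_one
        _ = _ := one_mul _
    have t4 : |p.Hlo F y + p.chiL * p.Hlin F y + p.chiE * p.He F 𝔹 y| ≤ 4 + 4 * |F.vb| + 1 / F.pS + ll04hE 𝔹 F.T := by
      refine (abs_add_le _ _).trans ?_
      have := abs_add_le (p.Hlo F y) (p.chiL * p.Hlin F y)
      linarith
    calc p.ell ^ 2 * |p.Hlo F y + p.chiL * p.Hlin F y + p.chiE * p.He F 𝔹 y|
        ≤ 4 * (4 + 4 * |F.vb| + 1 / F.pS + ll04hE 𝔹 F.T) := mul_le_mul h4 t4 (abs_nonneg _) (by norm_num)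
      _ ≤ _ := by linarith

end Seeds

/-! ## 3. The fields of `PathStd` on one frame -/

section Fr

variable {𝔹 : LlBase} {F : LlFix} {p : LlPt} {hd : ℕ} {Fr : BdFr}

theorem BikOf.d_apply (h : BikOf 𝔹 F p hd Fr) (w : ℝ) : Fr.d w = p.ell ^ 2 * (p.loc hd 0 0).d F 𝔹 (p.ell * w) := by rw [h.d]; rfl

theorem BikOf.K_apply (h : BikOf 𝔹 F p hd Fr) (w : ℝ) : Fr.K w = p.ell ^ 2 * p.K F 𝔹 (p.ell * w) := by rw [h.K]; rfl

theorem BikOf.q_apply (h : BikOf 𝔹 F p hd Fr) (w : ℝ) : Fr.q w = p.q F 𝔹 (p.ell * w) := by rw [h.q]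

theorem BikOf.b_apply (h : BikOf 𝔹 F p hd Fr) (g w : ℝ) : Fr.b g w = p.ell ^ 2 * (p.loc hd g 0).b F 𝔹 (p.ell * w) := by rw [h.b]; rfl

theorem BikOf.h_apply (h : BikOf 𝔹 F p hd Fr) (g w : ℝ) : Fr.h g w = p.ell ^ 2 * (p.loc hd g 0).h F 𝔹 (p.ell * w) := by rw [h.h]; rfl

theorem BikOf.x_le_of_xm (h : BikOf 𝔹 F p hd Fr) (hl : 0 < p.ell) {w : ℝ} (hw : Fr.xm ≤ w) : p.x ≤ p.ell * w := by
  rw [h.xm, div_le_iff₀ hl] at hw; linarith

/-- `K_* = h - d + b q` above the mask -/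
theorem BikOf.K_eq (h : BikOf 𝔹 F p hd Fr) (hl : 0 < p.ell) (g : ℝ) {w : ℝ} (hw : Fr.xm ≤ w) :
    Fr.K w = Fr.h g w - Fr.d w + Fr.b g w * Fr.q w := by
  have hx := h.x_le_of_xm hl hw
  rw [h.K_apply, h.h_apply, h.d_apply, h.b_apply, h.q_apply, bik_loc_d hd hx]
  have e : (p.loc hd g 0).h F 𝔹 (p.ell * w) = (p.K F 𝔹 (p.ell * w) - (p.loc hd g 0).b F 𝔹 (p.ell * w) * p.q F 𝔹 (p.ell * w))
      + p.Hlo F (p.ell * w) + p.chiL * p.Hlin F (p.ell * w) + p.chiE * p.He F 𝔹 (p.ell * w) := by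
    show (if p.ell * w < p.x then 0 else _) = _
    rw [if_neg (not_lt.2 hx)]; rfl
  rw [e]; ring

theorem BikOf.K_clk (h : BikOf 𝔹 F p hd Fr) (hp : p.Ok F) (hsm : p.sm = false) {c C : ℝ} (ha : BikAdm 𝔹 F c C (p.loc hd 0 0)) :
    IsClock 1 Fr.K := by
  obtain ⟨_, _, _, a4, _, a6⟩ := ha
  rw [bik_a_eq hsm] at a4 a6
  rw [h.K]
  exact bik_resc_clock (by linarith [hp.ell1]) a4 fun v hv => (a6 v hv).2.2.2.2

theorem BikOf.K_le (h : BikOf 𝔹 F p hd Fr) (hp : p.Ok F) (hsm : p.sm = false) {c C v0 : ℝ} (hr : p.Ref F 𝔹 c C v0) (hc : 0 < c)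
    (hv0 : 0 < v0) (hxi : 0 ≤ 𝔹.xiS F.T) {w : ℝ} (hw : w ∈ Ioo (0 : ℝ) 1) :
    Fr.K w ≤ max (8 * C) (2 * 𝔹.xiS F.T / v0) * w ∧ Fr.K w ≤ 𝔹.xiS F.T := by
  have hl1 := hp.ell1
  have hl2 := bik_ell_le_two hp
  have hl0 : 0 < p.ell := by linarith
  have hC : 0 < C := lt_of_lt_of_le hc (hr.b0_lo.trans hr.b0_hi)
  have hy0 : 0 < p.ell * w := mul_pos hl0 hw.1
  have hya : p.ell * w ∈ Ioo 0 p.a := by
    rw [lce_a_direct hsm]; exact ⟨hy0, by nlinarith [hw.2]⟩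
  have htop : p.ell ^ 2 * p.K F 𝔹 (p.ell * w) ≤ 𝔹.xiS F.T := by simpa [hsm] using hr.K_top _ hya
  rw [h.K_apply]
  refine ⟨?_, htop⟩
  rcases le_or_gt (p.ell * w) v0 with hv | hv
  · have h1 := hr.K_hi0 _ hy0 hv
    have h2 : p.ell ^ 2 * p.K F 𝔹 (p.ell * w) ≤ p.ell ^ 2 * (C * (p.ell * w)) := mul_le_mul_of_nonneg_left h1 (sq_nonneg _)
    have h3 : p.ell ^ 2 * (C * (p.ell * w)) ≤ 8 * C * w := by
      have h8 : p.ell ^ 3 ≤ 8 := by
        have := pow_le_pow_left₀ hl0.le hl2 3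
        norm_num at this; exact this
      calc p.ell ^ 2 * (C * (p.ell * w)) = p.ell ^ 3 * (C * w) := by ring
        _ ≤ 8 * (C * w) := mul_le_mul_of_nonneg_right h8 (mul_nonneg hC.le hw.1.le)
        _ = _ := by ring
    exact (h2.trans h3).trans (mul_le_mul_of_nonneg_right (le_max_left _ _) hw.1.le)
  · have h1 : v0 < 2 * w := by nlinarith [hw.1]
    have h2 : 𝔹.xiS F.T ≤ 2 * 𝔹.xiS F.T / v0 * w := by
      rw [div_mul_eq_mul_div, le_div_iff₀ hv0]; nlinarith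
    exact (htop.trans h2).trans (mul_le_mul_of_nonneg_right (le_max_right _ _) hw.1.le)

theorem BikOf.b_bd (h : BikOf 𝔹 F p hd Fr) (hp : p.Ok F) (hsm : p.sm = false) {ca Ca g : ℝ} (hca : 0 ≤ ca)
    (ha : BikAdm 𝔹 F ca Ca (p.loc hd g 0)) {w : ℝ} (hw : w ∈ Ioo (0 : ℝ) 1) : ca ≤ Fr.b g w ∧ Fr.b g w ≤ 4 * Ca := by
  obtain ⟨_, _, _, _, _, a6⟩ := ha
  rw [bik_a_eq hsm] at a6
  obtain ⟨b1, b2, -⟩ := a6 _ (bik_mem_a hp.ell1 ⟨hw.1.le, hw.2.le⟩)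
  have hl1 := hp.ell1
  have hl2 := bik_ell_le_two hp
  have h1 : 1 ≤ p.ell ^ 2 := by nlinarith
  have h4 : p.ell ^ 2 ≤ 4 := by nlinarith
  have hb0 := hca.trans b1
  rw [h.b_apply]
  constructor
  · nlinarith [mul_nonneg (sub_nonneg.2 h1) hb0]
  · nlinarith [mul_nonneg (sub_nonneg.2 h4) hb0]

/-- (P9): the field clock is `O(v)` -/
theorem BikOf.h_le (h : BikOf 𝔹 F p hd Fr) (hp : p.Ok F) {g C9 κ : ℝ} (hκ : 0 ≤ κ)
    (h9 : ∀ w ∈ Ioo (0 : ℝ) 1, 1 / 2 * p.x ≤ w → |p.ell ^ 2 * (p.loc hd g 0).h F 𝔹 (p.ell * w)| ≤ C9 * p.x ^ κ * w ^ 3)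
    {w : ℝ} (hw : w ∈ Ioo (0 : ℝ) 1) : Fr.h g w ≤ max C9 0 * w := by
  have hl0 : 0 < p.ell := by linarith [hp.ell1]
  rcases lt_or_ge w Fr.xm with hm | hm
  · rw [h.h_mask hl0 g hm]; exact mul_nonneg (le_max_right _ _) hw.1.le
  · have hx := bik_x_pos hp
    have hxw : 1 / 2 * p.x ≤ w := by
      have := h.x_le_of_xm hl0 hm
      have := bik_ell_le_two hp
      nlinarith [hw.1]
    have h1 := (le_abs_self _).trans (h9 w hw hxw)
    rw [h.h_apply]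
    have hxk : p.x ^ κ ≤ 1 := Real.rpow_le_one hx.le (bik_x_le_one hp) hκ
    have hxk0 : 0 ≤ p.x ^ κ := Real.rpow_nonneg hx.le _
    have hw3 : w ^ 3 ≤ w := pow_le_of_le_one hw.1.le hw.2.le (by norm_num)
    have hw30 : 0 ≤ w ^ 3 := pow_nonneg hw.1.le 3
    have hM : 0 ≤ max C9 0 := le_max_right _ _
    calc _ ≤ C9 * p.x ^ κ * w ^ 3 := h1
      _ ≤ max C9 0 * p.x ^ κ * w ^ 3 :=
          mul_le_mul_of_nonneg_right (mul_le_mul_of_nonneg_right (le_max_left _ _) hxk0) hw30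
      _ ≤ max C9 0 * 1 * w := mul_le_mul (mul_le_mul_of_nonneg_left hxk hM) hw3 hw30 (by positivity)
      _ = _ := by ring

theorem BikOf.d_meas (h : BikOf 𝔹 F p hd Fr) (hF : F.Ok) (hp : p.Ok F) {c C v0 : ℝ} (hr : p.Ref F 𝔹 c C v0) : Measurable Fr.d := by
  have e : Fr.d = fun w => p.ell ^ 2 * (p.loc hd 0 0).d F 𝔹 (p.ell * w) := funext h.d_apply
  rw [e]
  exact measurable_const.mul ((bik_d_meas hF (bik_x_pos hp) hr hd).comp (measurable_const.mul measurable_id))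

theorem BikOf.d_le (h : BikOf 𝔹 F p hd Fr) (hF : F.Ok) (hB : LlBaseProfile 𝔹 F.T) (hp : p.Ok F) (hsm : p.sm = false) {c C v0 ca Ca : ℝ}
    (hr : p.Ref F 𝔹 c C v0) (hca : 0 ≤ ca) (ha : BikAdm 𝔹 F ca Ca (p.loc hd 0 0)) {w : ℝ} (hw : w ∈ Ioo (0 : ℝ) 1) :
    |Fr.d w| ≤ bikDmax 𝔹 F := by
  have hl0 : 0 < p.ell := by linarith [hp.ell1]
  rw [h.d_apply, abs_mul, abs_of_nonneg (sq_nonneg _)]
  exact bik_d_abs hF hB hp hsm hr hca hd ha ⟨mul_pos hl0 hw.1, by nlinarith [hw.2]⟩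

theorem BikOf.U_le (h : BikOf 𝔹 F p hd Fr) {X : BdFix} (hX : BtFix F X) : p.U F ≤ Fr.U X := by
  have e : Fr.U X = p.x * p.lam ^ (-(F.sS / 2)) := by unfold BdFr.U; rw [h.x, h.lam, hX.sS]
  rw [e]; exact min_le_right _ _

theorem BikOf.lam1 (h : BikOf 𝔹 F p hd Fr) {X : BdFix} (hX : BtFix F X) : Fr.lam1 X = p.lam1 F := by
  unfold BdFr.lam1 LlPt.lam1; rw [h.lam, hX.eta]

theorem BikOf.sd_nonneg (h : BikOf 𝔹 F p hd Fr) (hp : p.Ok F) {X : BdFix} (hX : BtFix F X) : 0 ≤ BudB.sd X Fr := by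
  unfold BudB.sd
  rw [h.lam1 hX, h.x]
  exact mul_nonneg (mul_nonneg (Real.rpow_pos_of_pos (bik_lam_pos hp) _).le (pow_nonneg ((lce_U_pos hp).le.trans (h.U_le hX)) 3))
    (bik_log_nonneg hp)

/-- l.1353: where `H_lin = H_e = 0` the defect is the logarithmic seed -/
theorem BikOf.d_seed (h : BikOf 𝔹 F p hd Fr) (hp : p.Ok F) {X : BdFix} (hX : BtFix F X) {w : ℝ} (hw : Fr.xm ≤ w)
    (hlin : p.ell * w ≤ 4 * F.vb) (hHe : p.He F 𝔹 (p.ell * w) = 0) : |Fr.d w| ≤ 8 * BudB.sd X Fr := by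
  have hl1 := hp.ell1
  have hl2 := bik_ell_le_two hp
  have hl0 : 0 < p.ell := by linarith
  have h4 : p.ell ^ 2 ≤ 4 := by nlinarith
  have hx := h.x_le_of_xm hl0 hw
  have hU0 := (lce_U_pos hp).le
  have hl10 : 0 ≤ p.lam1 F := (Real.rpow_pos_of_pos (bik_lam_pos hp) _).le
  rw [h.d_apply, bik_loc_d hd hx, bik_Hlin_zero hlin, hHe, mul_zero, mul_zero, add_zero, add_zero, abs_mul, abs_of_nonneg (sq_nonneg _)]
  have h1 := bik_Hlo_seed hp hx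
  have h2 : p.lam1 F * p.U F ^ 3 * Real.log (1 / p.x) ≤ BudB.sd X Fr := by
    unfold BudB.sd
    rw [h.lam1 hX, h.x]
    exact mul_le_mul_of_nonneg_right (mul_le_mul_of_nonneg_left (pow_le_pow_left₀ hU0 (h.U_le hX) 3) hl10) (bik_log_nonneg hp)
  calc p.ell ^ 2 * |p.Hlo F (p.ell * w)| ≤ 4 * (2 * BudB.sd X Fr) :=
        mul_le_mul h4 (h1.trans (by linarith)) (abs_nonneg _) (by norm_num)
    _ = _ := by ring

theorem BikOf.q_lip (h : BikOf 𝔹 F p hd Fr) (hF : F.Ok) (hp : p.Ok F) (hsm : p.sm = false) {c C v0 : ℝ} (hr : p.Ref F 𝔹 c C v0)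
    (hc : 0 < c) (hlam : C * p.lam * (C * v0) ^ 2 ≤ 1 / 2) {v v' : ℝ} (hv : 0 ≤ v) (hv' : 0 ≤ v')
    (h1 : p.ell * v ≤ min v0 (1 / 2)) (h2 : p.ell * v' ≤ min v0 (1 / 2)) :
    |Fr.q v - Fr.q v'| ≤ 2 * max (max (C / c) C) 1 * |v - v'| := by
  have hC : 0 < C := lt_of_lt_of_le hc (hr.b0_lo.trans hr.b0_hi)
  have hm : 0 ≤ min (c / (2 * C)) c := le_min (by positivity) hc.le
  have key : ∀ s s' : ℝ, 0 ≤ s → s ≤ s' → p.ell * s' ≤ min v0 (1 / 2) →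
      |Fr.q s - Fr.q s'| ≤ 2 * max (max (C / c) C) 1 * |s - s'| := by
    intro s s' hs hss hs'
    obtain ⟨a1, a2⟩ := bik_qn_slopes hF hp hsm hr hc hlam hs hss hs'
    have a3 : 0 ≤ p.q F 𝔹 (p.ell * s') - p.q F 𝔹 (p.ell * s) := (mul_nonneg hm (by linarith)).trans a1
    rw [h.q_apply, h.q_apply, abs_sub_comm, abs_of_nonneg a3, abs_sub_comm, abs_of_nonneg (by linarith : 0 ≤ s' - s)]
    exact a2
  rcases le_total v v' with hvv | hvv
  · exact key v v' hv hvv h2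
  · rw [abs_sub_comm, abs_sub_comm v v']; exact key v' v hv' hvv h1

theorem bik_cg_pos (hF : F.Ok) (hp : p.Ok F) (y : ℝ) : F.cb * p.lam * F.c1 * p.U F ^ 2 ≤ p.cg F y ∧ 0 < F.cb * p.lam * F.c1 * p.U F ^ 2 := by
  have hl := bik_lam_pos hp
  have hU := lce_U_pos hp
  have h0 : 0 < F.cb * p.lam * F.c1 := mul_pos (mul_pos hF.cb0 hl) hF.c10
  refine ⟨?_, mul_pos h0 (pow_pos hU 2)⟩
  unfold LlPt.cg
  exact mul_le_mul_of_nonneg_left (by linarith [bik_G_nonneg hF p y]) h0.le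

/-- `d²/c_g` is integrable -/
theorem bik_dcg_int (hF : F.Ok) (hp : p.Ok F) {c C v0 D : ℝ} (hr : p.Ref F 𝔹 c C v0) (hd : ℕ)
    (hD : ∀ y ∈ Ioo 0 p.ell, |(p.loc hd 0 0).d F 𝔹 y| ≤ D) :
    IntervalIntegrable (fun y => (p.loc hd 0 0).d F 𝔹 y ^ 2 / p.cg F y) volume 0 p.ell := by
  have hl0 : 0 ≤ p.ell := by linarith [hp.ell1]
  rw [intervalIntegrable_iff_integrableOn_Ioo_of_le hl0]
  have hm : Measurable fun y => (p.loc hd 0 0).d F 𝔹 y ^ 2 / p.cg F y :=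
    ((bik_d_meas hF (bik_x_pos hp) hr hd).pow_const 2).div (bik_cg_meas hF p)
  refine Measure.integrableOn_of_bounded (M := D ^ 2 / (F.cb * p.lam * F.c1 * p.U F ^ 2)) (by simp) hm.aestronglyMeasurable ?_
  refine (ae_restrict_iff' measurableSet_Ioo).2 (Filter.Eventually.of_forall fun y hy => ?_)
  obtain ⟨c1, c2⟩ := bik_cg_pos hF hp y
  have h1 : (p.loc hd 0 0).d F 𝔹 y ^ 2 ≤ D ^ 2 := by
    rw [← sq_abs]; exact pow_le_pow_left₀ (abs_nonneg _) (hD y hy) 2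
  rw [Real.norm_eq_abs, abs_of_nonneg (div_nonneg (sq_nonneg _) (c2.le.trans c1))]
  exact div_le_div₀ (sq_nonneg _) h1 c2 c1

/-- (P8) on the frame: change of variables `v = ℓ w`, restriction to the unmasked masses -/
theorem BikOf.p8 (h : BikOf 𝔹 F p hd Fr) (hF : F.Ok) (hp : p.Ok F) {c C v0 D A : ℝ} (hr : p.Ref F 𝔹 c C v0)
    (hD : ∀ y ∈ Ioo 0 p.ell, |(p.loc hd 0 0).d F 𝔹 y| ≤ D)
    (h8 : ∫ v in (0 : ℝ)..p.ell, (p.loc hd 0 0).d F 𝔹 v ^ 2 / p.cg F v ≤ A) {a : ℝ} (ha0 : 0 ≤ a) (ha1 : a ≤ 1) :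
    ∫ w in a..1, Fr.d w ^ 2 / Fr.cg w ≤ 2 * A := by
  have hl1 := hp.ell1
  have hl2 := bik_ell_le_two hp
  have hl0 : 0 < p.ell := by linarith
  have hnn : ∀ y, 0 ≤ (p.loc hd 0 0).d F 𝔹 y ^ 2 / p.cg F y := fun y =>
    div_nonneg (sq_nonneg _) ((bik_cg_pos hF hp y).2.le.trans (bik_cg_pos hF hp y).1)
  have e1 : ∫ w in a..1, Fr.d w ^ 2 / Fr.cg w
      = ∫ w in a..1, p.ell ^ 2 * ((fun y => (p.loc hd 0 0).d F 𝔹 y ^ 2 / p.cg F y) (p.ell * w)) := by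
    refine intervalIntegral.integral_congr fun w _ => ?_
    simp only
    rw [h.d_apply, h.cg]
    have : p.ell ^ 2 ≠ 0 := by positivity
    rw [mul_pow, sq (p.ell ^ 2), mul_assoc, mul_div_mul_left _ _ this, mul_div_assoc]
  have e3 := intervalIntegral.integral_comp_mul_left (a := a) (b := 1) (fun y => (p.loc hd 0 0).d F 𝔹 y ^ 2 / p.cg F y) hl0.ne'
  rw [e1, intervalIntegral.integral_const_mul, e3, mul_one, smul_eq_mul]
  have hint := bik_dcg_int hF hp hr hd hD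
  have h2 : ∫ y in p.ell * a..p.ell, (p.loc hd 0 0).d F 𝔹 y ^ 2 / p.cg F y ≤ ∫ y in (0 : ℝ)..p.ell, (p.loc hd 0 0).d F 𝔹 y ^ 2 / p.cg F y :=
    intervalIntegral.integral_mono_interval (mul_nonneg hl0.le ha0) (by nlinarith) le_rfl (Filter.Eventually.of_forall hnn) hint
  have h3 : 0 ≤ ∫ y in p.ell * a..p.ell, (p.loc hd 0 0).d F 𝔹 y ^ 2 / p.cg F y :=
    intervalIntegral.integral_nonneg (by nlinarith) fun y _ => hnn y
  have e2 : p.ell ^ 2 * (p.ell⁻¹ * ∫ y in p.ell * a..p.ell, (p.loc hd 0 0).d F 𝔹 y ^ 2 / p.cg F y)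
      = p.ell * ∫ y in p.ell * a..p.ell, (p.loc hd 0 0).d F 𝔹 y ^ 2 / p.cg F y := by
    field_simp
  rw [e2]
  nlinarith [h2.trans h8]

/-- the budget of (P8) -/
theorem BikOf.p8B_le (h : BikOf 𝔹 F p hd Fr) (hp : p.Ok F) {X : BdFix} (hX : BtFix F X) :
    0 ≤ p.lam ^ (1 + 2 * F.eta) * p.U F ^ 5 + p.chiE ^ 2 * p.lam ^ (1 + 2 * F.eta) * p.U F ^ 4 + p.chiL ^ 2 * p.x ^ 6 / p.lam ∧
    p.lam ^ (1 + 2 * F.eta) * p.U F ^ 5 + p.chiE ^ 2 * p.lam ^ (1 + 2 * F.eta) * p.U F ^ 4 + p.chiL ^ 2 * p.x ^ 6 / p.lam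
      ≤ BudB.p8B X Fr := by
  have hl := bik_lam_pos hp
  have hx := bik_x_pos hp
  have hU0 := (lce_U_pos hp).le
  have hU := h.U_le hX
  have hle : 0 ≤ p.lam ^ (1 + 2 * F.eta) := (Real.rpow_pos_of_pos hl _).le
  have e5 : Fr.U X ^ (5 : ℝ) = Fr.U X ^ (5 : ℕ) := by rw [← Real.rpow_natCast]; norm_num
  have e4 : Fr.U X ^ (4 : ℝ) = Fr.U X ^ (4 : ℕ) := by rw [← Real.rpow_natCast]; norm_num
  have e6 : p.x ^ (6 : ℝ) = p.x ^ (6 : ℕ) := by rw [← Real.rpow_natCast]; norm_num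
  refine ⟨by positivity, ?_⟩
  unfold BudB.p8B
  rw [h.lam, h.chiE, h.chiL, h.x, hX.eta, e5, e4, e6]
  have a5 : p.U F ^ 5 ≤ Fr.U X ^ 5 := pow_le_pow_left₀ hU0 hU 5
  have a4 : p.U F ^ 4 ≤ Fr.U X ^ 4 := pow_le_pow_left₀ hU0 hU 4
  have b5 := mul_le_mul_of_nonneg_left a5 hle
  have b4 := mul_le_mul_of_nonneg_left a4 (mul_nonneg (sq_nonneg p.chiE) hle)
  linarith

end Fr

/-! ## 4. The context of a frame of the family; EXIT -/

/-- everything that holds at a frame of large size of the family -/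
structure BikCtx (𝔹 : LlBase) (F : LlFix) (X : BdFix) (c C v0 ca Ca C9 κ : ℝ) (Fr : BdFr) (p : LlPt) (hd : ℕ) : Prop where
  of : BikOf 𝔹 F p hd Fr
  ok : p.Ok F
  sm : p.sm = false
  dy : p.IsDy F hd
  fr : Fr.Ok X
  ref : p.Ref F 𝔹 c C v0
  adm : ∀ g ∈ Icc (-4 : ℝ) 4, BikAdm 𝔹 F ca Ca (p.loc hd g 0)
  p9 : ∀ g ∈ Icc (-4 : ℝ) 4, ∀ w ∈ Ioo (0 : ℝ) 1, 1 / 2 * p.x ≤ w →
    |p.ell ^ 2 * (p.loc hd g 0).h F 𝔹 (p.ell * w)| ≤ C9 * p.x ^ κ * w ^ 3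
  lam : C * p.lam * (C * v0) ^ 2 ≤ 1 / 2
  Eb : p.Eb F 𝔹 ≤ 𝔹.xiS F.T / 2

/-- **the context exists** at all frames of large size -/
theorem bik_ctx (𝔹 : LlBase) {F : LlFix} {X : BdFix} {c C v0 : ℝ} (hB : LlBaseProfile 𝔹 F.T) (h3 : LlSec3 𝔹 F) (hr : LlRef 𝔹 F c C v0)
    (hX : X.Ok) (hFX : BtFix F X) :
    ∃ ca Ca C9 κ : ℝ, 0 < ca ∧ 0 < κ ∧ ∃ N0 : ℕ, ∀ Fr : BdFr, BtFam 𝔹 F Fr → Fr.Ok X → N0 ≤ Fr.N →
      ∃ (p : LlPt) (hd : ℕ), BikCtx 𝔹 F X c C v0 ca Ca C9 κ Fr p hd := by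
  have hF := h3.ok
  obtain ⟨Na, ha⟩ := hr
  obtain ⟨ca, Ca, hca, Nb, hb⟩ := h3.adm
  obtain ⟨κ, hκ, h9⟩ := h3.p9
  obtain ⟨C9, Nc, hc9⟩ := h9 (1 / 2) (by norm_num)
  have hM : 0 < |C| * (C * v0) ^ 2 + 1 := by positivity
  obtain ⟨Nd, hd'⟩ := lce_unif_lam F hF.pS0 (1 / (2 * (|C| * (C * v0) ^ 2 + 1))) (by positivity)
  have hxi := hB.xi_pos
  have hδ : 0 < 𝔹.pTop F.T - 𝔹.A0 F.T (𝔹.xiS F.T - 𝔹.xiS F.T / 2) := by
    linarith [hB.lt_top (𝔹.xiS F.T - 𝔹.xiS F.T / 2) (by linarith)]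
  have hCU := hX.CU_pos
  have hε : 0 < min 1 ((𝔹.xiS F.T / 2) ^ 2 * (𝔹.pTop F.T - 𝔹.A0 F.T (𝔹.xiS F.T - 𝔹.xiS F.T / 2)) / X.CU ^ 4) :=
    lt_min one_pos (by positivity)
  obtain ⟨Ne, he⟩ := BudB.ev_lam hX hX.bl_pos hε
  refine ⟨ca, Ca, C9, κ, hca, hκ, max (max Na Nb) (max Nc (max Nd Ne)), fun Fr hFam hO hN => ?_⟩
  obtain ⟨p, hd, hp, hsm, hdy, e⟩ := hFam
  have h := bik_of e
  have hNa : Na ≤ p.N := by rw [← h.N]; exact ((le_max_left _ _).trans (le_max_left _ _)).trans hN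
  have hNb : Nb ≤ p.N := by rw [← h.N]; exact ((le_max_right _ _).trans (le_max_left _ _)).trans hN
  have hNc : Nc ≤ p.N := by rw [← h.N]; exact ((le_max_left _ _).trans (le_max_right _ _)).trans hN
  have hNd : Nd ≤ p.N := by
    rw [← h.N]; exact (((le_max_left _ _).trans (le_max_right _ _)).trans (le_max_right _ _)).trans hN
  have hNe : Ne ≤ Fr.N := (((le_max_right _ _).trans (le_max_right _ _)).trans (le_max_right _ _)).trans hN
  refine ⟨p, hd, h, hp, hsm, hdy, hO, ha p hp hNa, fun g hg => ?_, fun g hg w hw hxw => ?_, ?_, ?_⟩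
  · obtain ⟨a1, a2, a3, a4, a5, a6, -, -⟩ := hb (p.loc hd g 0) (bik_loc_ok hp hd hg) hNb
    exact ⟨a1, a2, a3, a4, a5, a6⟩
  · exact ((hc9 (p.loc hd g 0) (bik_loc_ok hp hd hg) hNc).2 hsm w hw hxw).2
  · have h1 := hd' p hp hNd
    have hl := bik_lam_pos hp
    have h2 : C * (C * v0) ^ 2 ≤ |C| * (C * v0) ^ 2 + 1 := by
      have := mul_le_mul_of_nonneg_right (le_abs_self C) (sq_nonneg (C * v0))
      linarith
    calc C * p.lam * (C * v0) ^ 2 = p.lam * (C * (C * v0) ^ 2) := by ring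
      _ ≤ p.lam * (|C| * (C * v0) ^ 2 + 1) := mul_le_mul_of_nonneg_left h2 hl.le
      _ ≤ 1 / (2 * (|C| * (C * v0) ^ 2 + 1)) * (|C| * (C * v0) ^ 2 + 1) := mul_le_mul_of_nonneg_right h1 hM.le
      _ = 1 / 2 := by field_simp
  · refine bik_Eb_le (by linarith) ?_
    rw [div_le_iff₀ (by positivity)]
    set ε := min 1 ((𝔹.xiS F.T / 2) ^ 2 * (𝔹.pTop F.T - 𝔹.A0 F.T (𝔹.xiS F.T - 𝔹.xiS F.T / 2)) / X.CU ^ 4) with hεd
    have h1 : p.Ut F ≤ X.CU * ε := by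
      calc p.Ut F ≤ p.U F := min_le_right _ _
        _ ≤ Fr.U X := h.U_le hFX
        _ ≤ X.CU * Fr.u := hO.u_lo
        _ ≤ X.CU * ε := mul_le_mul_of_nonneg_left (hO.u_hi.trans (he Fr hO hNe)) hCU.le
    have h0 : 0 ≤ p.Ut F := (lt_min hF.U00 (lce_U_pos hp)).le
    have h2 : ε ^ 4 ≤ ε := pow_le_of_le_one hε.le (min_le_left _ _) (by norm_num)
    have h3' : ε ≤ (𝔹.xiS F.T / 2) ^ 2 * (𝔹.pTop F.T - 𝔹.A0 F.T (𝔹.xiS F.T - 𝔹.xiS F.T / 2)) / X.CU ^ 4 := min_le_right _ _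
    rw [le_div_iff₀ (by positivity)] at h3'
    calc p.Ut F ^ 4 ≤ (X.CU * ε) ^ 4 := pow_le_pow_left₀ h0 h1 4
      _ = ε ^ 4 * X.CU ^ 4 := by ring
      _ ≤ ε * X.CU ^ 4 := mul_le_mul_of_nonneg_right h2 (by positivity)
      _ ≤ _ := by linarith

/-- the fixed mass below which the defect is the logarithmic seed and `q` is Lipschitz -/
def bikVS (𝔹 : LlBase) (F : LlFix) (C v0 : ℝ) : ℝ :=
  min (min (min v0 (1 / 2) / 2) (2 * F.vb)) (min (𝔹.pTop F.T / 2) (𝔹.xiS F.T / (16 * max C 1)))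

/-- the constants of `PathStd` -/
def bikP (𝔹 : LlBase) (F : LlFix) (c C v0 ca Ca C9 : ℝ) : BudB.PCst where
  Q0 := max 1 (𝔹.xiS F.T)
  CK := max 1 (max (max (8 * C) (2 * 𝔹.xiS F.T / v0)) (max C9 0))
  bmin := ca
  bmax := 4 * Ca
  dmax := bikDmax 𝔹 F
  vS := bikVS 𝔹 F C v0
  Cd := 8
  Cq := 2 * max (max (C / c) C) 1

theorem bik_path_eqns_cite2 : True := by
  have := @bikVS.eq_1
  have := @bikP.eq_1
  trivial

section Ctx

variable {𝔹 : LlBase} {F : LlFix} {X : BdFix} {c C v0 ca Ca C9 κ : ℝ} {Fr : BdFr} {p : LlPt} {hd : ℕ}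

theorem bik_vS_pos (hF : F.Ok) (hB : LlBaseProfile 𝔹 F.T) (hv0 : 0 < v0) : 0 < bikVS 𝔹 F C v0 := by
  have h1 := hB.xi_pos
  have h2 := hB.pTop_mem.1
  have h3 := hF.vb0
  have h4 : (0 : ℝ) < max C 1 := lt_of_lt_of_le one_pos (le_max_right _ _)
  have h5 : 0 < min v0 (1 / 2) := lt_min hv0 (by norm_num)
  exact lt_min (lt_min (by positivity) (by positivity)) (lt_min (by positivity) (by positivity))

/-- below the fixed mass -/
theorem BikCtx.below (k : BikCtx 𝔹 F X c C v0 ca Ca C9 κ Fr p hd) (hc : 0 < c) (hB : LlBaseProfile 𝔹 F.T) {w : ℝ} (hw0 : 0 < w)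
    (hw : w ≤ bikVS 𝔹 F C v0) :
    p.ell * w ≤ min v0 (1 / 2) ∧ p.ell * w ≤ 4 * F.vb ∧ p.He F 𝔹 (p.ell * w) = 0 := by
  have hl1 := k.ok.ell1
  have hl2 := bik_ell_le_two k.ok
  have hl0 : 0 < p.ell := by linarith
  have hxi := hB.xi_pos
  have w1 : w ≤ min v0 (1 / 2) / 2 := hw.trans ((min_le_left _ _).trans (min_le_left _ _))
  have w2 : w ≤ 2 * F.vb := hw.trans ((min_le_left _ _).trans (min_le_right _ _))
  have w3 : w ≤ 𝔹.pTop F.T / 2 := hw.trans ((min_le_right _ _).trans (min_le_left _ _))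
  have w4 : w ≤ 𝔹.xiS F.T / (16 * max C 1) := hw.trans ((min_le_right _ _).trans (min_le_right _ _))
  have hM : (0 : ℝ) < max C 1 := lt_of_lt_of_le one_pos (le_max_right _ _)
  have y1 : p.ell * w ≤ min v0 (1 / 2) := by nlinarith
  refine ⟨y1, by nlinarith, ?_⟩
  refine bik_He_zero ?_ ?_ k.Eb
  · rw [mul_div_cancel_left₀ _ hl0.ne']
    linarith [hB.pTop_mem.1]
  · have hy0 : 0 < p.ell * w := mul_pos hl0 hw0
    have h1 := k.ref.K_hi0 _ hy0 (y1.trans (min_le_left _ _))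
    rw [le_div_iff₀ (by positivity)] at w4
    have hC : 0 < C := lt_of_lt_of_le hc (k.ref.b0_lo.trans k.ref.b0_hi)
    have h8 : p.ell ^ 3 ≤ 8 := by
      have := pow_le_pow_left₀ hl0.le hl2 3
      norm_num at this; exact this
    rw [bik_xi_eq 𝔹 F p hl0]
    calc p.ell ^ 2 * p.K F 𝔹 (p.ell * w) ≤ p.ell ^ 2 * (C * (p.ell * w)) := mul_le_mul_of_nonneg_left h1 (sq_nonneg _)
      _ = p.ell ^ 3 * (C * w) := by ring
      _ ≤ 8 * (C * w) := mul_le_mul_of_nonneg_right h8 (mul_nonneg hC.le hw0.le)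
      _ ≤ 8 * (max C 1 * w) := by
          have := mul_le_mul_of_nonneg_right (le_max_left C 1) hw0.le
          linarith
      _ ≤ _ := by linarith

end Ctx

/-- **EXIT: PRODUCER of `BudB.PathStd`** for every family of frames of direct LL paths, `Ok X`, of large size, tied to the world -/
theorem bik_path (𝔹 : LlBase) {F : LlFix} {X : BdFix} {c C v0 : ℝ} (hB : LlBaseProfile 𝔹 F.T) (h3 : LlSec3 𝔹 F) (hr : LlRef 𝔹 F c C v0)
    (hc : 0 < c) (hv0 : 0 < v0) (hX : X.Ok) (hFX : BtFix F X) (hglo : -4 ≤ X.glo 0) (hghi : X.ghi 0 ≤ 4) :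
    ∃ (P : BudB.PCst) (N0 : ℕ), ∀ (W : BdWorld) (Fam : BdFr → Prop), (∀ Fr, Fam Fr → BtFam 𝔹 F Fr ∧ Fr.Ok X ∧ N0 ≤ Fr.N) →
      (∀ Fr, Fam Fr → ∀ v ∈ Ioo (0 : ℝ) 1, Fr.q v = W.Gam Fr.K (Fr.K v)) → BudB.PathStd X W Fam P := by
  have hF := h3.ok
  obtain ⟨ca, Ca, C9, κ, hca, hκ, N0, hctx⟩ := bik_ctx 𝔹 hB h3 hr hX hFX
  refine ⟨bikP 𝔹 F c C v0 ca Ca C9, N0, fun W Fam hFam htie => ?_⟩
  have ctx : ∀ Fr, Fam Fr → ∃ (p : LlPt) (hd : ℕ), BikCtx 𝔹 F X c C v0 ca Ca C9 κ Fr p hd := fun Fr h =>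
    hctx Fr (hFam Fr h).1 (hFam Fr h).2.1 (hFam Fr h).2.2
  have hg4 : ∀ g ∈ Icc (X.glo 0) (X.ghi 0), g ∈ Icc (-4 : ℝ) 4 := fun g hg => ⟨hglo.trans hg.1, hg.2.trans hghi⟩
  have h04 : (0 : ℝ) ∈ Icc (-4 : ℝ) 4 := ⟨by norm_num, by norm_num⟩
  have hxi := hB.xi_pos
  have hvS := bik_vS_pos (C := C) hF hB hv0
  have hCK1 : (1 : ℝ) ≤ (bikP 𝔹 F c C v0 ca Ca C9).CK := le_max_left _ _
  exact
    { Q0_pos := lt_of_lt_of_le one_pos (le_max_left _ _)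
      CK1 := hCK1
      bmin_pos := hca
      vS_pos := hvS
      vS_le := by
        have h1 : bikVS 𝔹 F C v0 ≤ min v0 (1 / 2) / 2 := (min_le_left _ _).trans (min_le_left _ _)
        have h2 : min v0 (1 / 2 : ℝ) ≤ 1 / 2 := min_le_right _ _
        show bikVS 𝔹 F C v0 ≤ 1
        linarith
      Cd_pos := by show (0 : ℝ) < 8; norm_num
      K_eq := fun Fr h g _ v hv => by
        obtain ⟨p, hd, k⟩ := ctx Fr h
        exact k.of.K_eq (by linarith [k.ok.ell1]) g hv.1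
      K_clk := fun Fr h => by
        obtain ⟨p, hd, k⟩ := ctx Fr h
        exact k.of.K_clk k.ok k.sm (k.adm 0 h04)
      K_le := fun Fr h v hv => by
        obtain ⟨p, hd, k⟩ := ctx Fr h
        obtain ⟨a1, a2⟩ := k.of.K_le k.ok k.sm k.ref hc hv0 hxi.le hv
        refine ⟨a1.trans (mul_le_mul_of_nonneg_right ?_ hv.1.le), a2.trans (le_max_right _ _)⟩
        exact (le_max_left _ _).trans (le_max_right _ _)
      q_eq := htie
      b_ge := fun Fr h g hg v hv => by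
        obtain ⟨p, hd, k⟩ := ctx Fr h
        exact (k.of.b_bd k.ok k.sm hca.le (k.adm g (hg4 g hg)) hv).1
      b_le := fun Fr h g hg v hv => by
        obtain ⟨p, hd, k⟩ := ctx Fr h
        exact (k.of.b_bd k.ok k.sm hca.le (k.adm g (hg4 g hg)) hv).2
      h_le := fun Fr h g hg v hv => by
        obtain ⟨p, hd, k⟩ := ctx Fr h
        have a1 := k.of.h_le k.ok hκ.le (k.p9 g (hg4 g hg)) hv
        have a2 : max C9 0 * v ≤ (bikP 𝔹 F c C v0 ca Ca C9).CK * v :=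
          mul_le_mul_of_nonneg_right ((le_max_right _ _).trans (le_max_right _ _)) hv.1.le
        have a3 : 0 ≤ (bikP 𝔹 F c C v0 ca Ca C9).Cd * BudB.sd X Fr :=
          mul_nonneg (by show (0 : ℝ) ≤ 8; norm_num) (k.of.sd_nonneg k.ok hFX)
        linarith
      d_meas := fun Fr h => by
        obtain ⟨p, hd, k⟩ := ctx Fr h
        exact k.of.d_meas hF k.ok k.ref
      d_le := fun Fr h v hv => by
        obtain ⟨p, hd, k⟩ := ctx Fr h
        exact k.of.d_le hF hB k.ok k.sm k.ref hca.le (k.adm 0 h04) hv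
      d_seed := fun Fr h v hv => by
        obtain ⟨p, hd, k⟩ := ctx Fr h
        have hv0' : 0 < v := by
          have : 0 < Fr.xm := by rw [k.of.xm]; exact div_pos (bik_x_pos k.ok) (by linarith [k.ok.ell1])
          linarith [hv.1]
        obtain ⟨-, b2, b3⟩ := k.below hc hB hv0' hv.2
        exact k.of.d_seed k.ok hFX hv.1 b2 b3
      p8 := by
        have hA0 : ∀ Fr, Fam Fr → 0 ≤ ∫ v in Fr.xm..1, Fr.d v ^ 2 / Fr.cg v := fun Fr h => by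
          obtain ⟨p, hd, k⟩ := ctx Fr h
          have hl0 : 0 < p.ell := by linarith [k.ok.ell1]
          refine intervalIntegral.integral_nonneg ?_ fun u _ => div_nonneg (sq_nonneg _) ?_
          · rw [k.of.xm, div_le_one hl0]; linarith [bik_x_le_one k.ok, k.ok.ell1]
          · rw [k.of.cg]
            exact mul_nonneg (sq_nonneg _) ((bik_cg_pos hF k.ok (p.ell * u)).2.le.trans (bik_cg_pos hF k.ok (p.ell * u)).1)
        have hB0 : ∀ Fr, Fam Fr → 0 ≤ BudB.p8B X Fr := fun Fr h => by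
          obtain ⟨p, hd, k⟩ := ctx Fr h
          exact (k.of.p8B_le k.ok hFX).1.trans (k.of.p8B_le k.ok hFX).2
        rw [bd_sub_iff hA0 hB0]
        intro ε hε
        obtain ⟨C8, N8, h8⟩ := h3.p8 (6 * ε) (by positivity)
        refine ⟨2 * max C8 0, N8, fun Fr h hN => ?_⟩
        obtain ⟨p, hd, k⟩ := ctx Fr h
        have hl0 : 0 < p.ell := by linarith [k.ok.ell1]
        have hl1 : 1 ≤ p.ell ^ 2 := by nlinarith [k.ok.ell1]
        have a1 := h8 (p.loc hd 0 0) (bik_loc_ok k.ok hd h04) (by show N8 ≤ p.N; rw [← k.of.N]; exact hN) trivial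
        have ea : (p.loc hd 0 0).a = p.ell := bik_a_eq k.sm 0 0
        simp only at a1
        rw [ea] at a1
        have hD : ∀ y ∈ Ioo 0 p.ell, |(p.loc hd 0 0).d F 𝔹 y| ≤ bikDmax 𝔹 F := fun y hy => by
          have b1 := bik_d_abs hF hB k.ok k.sm k.ref hca.le hd (k.adm 0 h04) hy
          nlinarith [abs_nonneg ((p.loc hd 0 0).d F 𝔹 y)]
        have hxm0 : 0 ≤ Fr.xm := by rw [k.of.xm]; exact (div_pos (bik_x_pos k.ok) hl0).le
        have hxm1 : Fr.xm ≤ 1 := by rw [k.of.xm, div_le_one hl0]; linarith [bik_x_le_one k.ok, k.ok.ell1]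
        have a2 := k.of.p8 hF k.ok k.ref hD a1 hxm0 hxm1
        obtain ⟨c1, c2⟩ := k.of.p8B_le k.ok hFX
        have ex : (p.loc hd 0 0).x ^ (-(6 * ε)) = (Fr.N : ℝ) ^ ε := by
          show p.x ^ (-(6 * ε)) = _
          unfold LlPt.x
          rw [← Real.rpow_mul (Nat.cast_nonneg _), k.of.N]
          congr 1; ring
        rw [ex] at a2
        have hNε : 0 ≤ (Fr.N : ℝ) ^ ε := Real.rpow_nonneg (Nat.cast_nonneg _) _
        refine a2.trans ?_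
        have a3 : C8 * (Fr.N : ℝ) ^ ε * (p.lam ^ (1 + 2 * F.eta) * p.U F ^ 5 + p.chiE ^ 2 * p.lam ^ (1 + 2 * F.eta) * p.U F ^ 4
            + p.chiL ^ 2 * p.x ^ 6 / p.lam) ≤ max C8 0 * ((Fr.N : ℝ) ^ ε * BudB.p8B X Fr) := by
          calc _ ≤ max C8 0 * (Fr.N : ℝ) ^ ε * (p.lam ^ (1 + 2 * F.eta) * p.U F ^ 5 + p.chiE ^ 2 * p.lam ^ (1 + 2 * F.eta) * p.U F ^ 4
                + p.chiL ^ 2 * p.x ^ 6 / p.lam) :=
                mul_le_mul_of_nonneg_right (mul_le_mul_of_nonneg_right (le_max_left _ _) hNε) c1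
            _ ≤ max C8 0 * (Fr.N : ℝ) ^ ε * BudB.p8B X Fr :=
                mul_le_mul_of_nonneg_left c2 (mul_nonneg (le_max_right _ _) hNε)
            _ = _ := by ring
        have a4 : 2 * (C8 * (Fr.N : ℝ) ^ ε * ((p.loc hd 0 0).lam ^ (1 + 2 * F.eta) * (p.loc hd 0 0).U F ^ 5
            + (p.loc hd 0 0).chiE ^ 2 * (p.loc hd 0 0).lam ^ (1 + 2 * F.eta) * (p.loc hd 0 0).U F ^ 4
            + (p.loc hd 0 0).chiL ^ 2 * (p.loc hd 0 0).x ^ 6 / (p.loc hd 0 0).lam)) ≤ 2 * (max C8 0 * ((Fr.N : ℝ) ^ ε * BudB.p8B X Fr)) :=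
          mul_le_mul_of_nonneg_left a3 (by norm_num)
        calc _ ≤ 2 * (max C8 0 * ((Fr.N : ℝ) ^ ε * BudB.p8B X Fr)) := a4
          _ = _ := by ring
      q_lip := fun Fr h v hv v' hv' => by
        obtain ⟨p, hd, k⟩ := ctx Fr h
        exact k.of.q_lip hF k.ok k.sm k.ref hc k.lam hv.1.le hv'.1.le (k.below hc hB hv.1 hv.2).1 (k.below hc hB hv'.1 hv'.2).1 }

end

end Claimed.Agent.R286
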