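import Claimed.Agent.R286.Bud.L07T
import Claimed.Agent.R286.Bud.L07C
import Claimed.Agent.R286.Bud.HubB
import Claimed.Agent.R286.Bud.GeoBr
import Claimed.Agent.R286.Exit.ScBd7

/-!
# Row 286, LL sec. 7, package L07: THE EXIT OF (C7)      (head helper12; prefix `bd7_`)

`Bd7In X W Fam K c0 C0` = ALL the imports of Prop. 7.3 (C7), the loose constants `cL < CL` still FREE (each field = one owner).
ORDER OF THE CONSTANTS: `Kb = T + 2` (P9) ; `Kmax = Tmax = 2 Kb` ; `c2 C2 c4 C4` (scalar API, 265) ; `c0 C0` (slope bounds of the PE direct profile, Step 1) ;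
then `cL < min(c0, 2 c2³/(T C4²))`, `CL > max(C0, 2 C2³/(T c4²))` ; then everything else (`raw`, `band`, `sup` hold for ALL loose constants).
* `bd7_adm_of_std`   `BdStd + Bd7P9 ⟹ Bd7Adm (T + 2)`
* `bd7_geo_of_n4`    N4 (`bud_n4_geo`, 109, proved) `⟹ Bd7Geo`   (the five fields of `Bd7I.Pot`)
* `Bd7KOk T W Sc k` (scalar API at the horizon `2(T+2)`; `bd7_k_ex`), `Bd7Loose T k c0 C0 cL CL` (`bd7_loose_ex`): the constants do NOT depend on `X` (162: `c_H` is chosen after them)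
* `bd7_sin_all`      `Bd7In ⟹ Bd7SIn` for all loose constants
* `bd7_C7a_of`       `Bd7In + Bd7KOk + Bd7Loose ⟹ Bd7C7a cL CL`
* `bd7_hub_C7a`, `bd7_hub_C7al`   the forms of `Bud/HubB`, `Bud/L8Defs`
* `bd7_exit`         `Bd7In + Bd7KOk + Bd7Loose ⟹ Bd7C7a cL CL ∧ BudC7al`
-/

set_option autoImplicit false

namespace Claimed.Agent.R286

open MeasureTheory Set Filter Topology

noncomputable section

/-! ## 1. arithmetic -/

section arith

variable {X : BdFix} {F : BdFr}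

/-- the patches are nested: `plo` increases with the stage -/
theorem BdFix.Ok.plo_mono (hX : X.Ok) : ∀ n, n ≤ X.J + 1 → X.plo 0 ≤ X.plo n
  | 0, _ => le_rfl
  | n + 1, h => by
      have h1 := BdFix.Ok.plo_mono hX n (by omega)
      have h2 := (hX.pat n (by omega)).2.1
      have h3 := (hX.nest n (by omega)).1
      linarith

/-- `u → 0` -/
theorem bd7_ar_u_small (hX : X.Ok) {ε : ℝ} (hε : 0 < ε) :
    ∃ N0 : ℕ, ∀ F : BdFr, F.Ok X → N0 ≤ F.N → F.u ≤ ε := by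
  have hp := hX.pS_pos
  have hb := hX.bl_pos
  obtain ⟨N0, hN0⟩ := bd7_ar_x_small X (a := X.pS * X.bl) (ε := ε) (by positivity) hε
  refine ⟨N0, fun F h hN => ?_⟩
  have hx := BdFr.x_pos' h
  have hl := BdFr.lam_pos' h
  calc F.u ≤ F.lam ^ X.bl := h.u_hi
    _ ≤ (F.x ^ X.pS) ^ X.bl := Real.rpow_le_rpow hl.le h.lam_hi hb.le
    _ = F.x ^ (X.pS * X.bl) := by rw [← Real.rpow_mul hx.le]
    _ ≤ ε := hN0 F h hN

/-- `y_c → 0` -/
theorem bd7_ar_yc_small (hX : X.Ok) {ε : ℝ} (hε : 0 < ε) :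
    ∃ N0 : ℕ, ∀ F : BdFr, F.Ok X → N0 ≤ F.N → F.yc X ≤ ε := by
  have hCU := hX.CU_pos
  have hp := hX.pS_pos
  obtain ⟨M, hM⟩ : ∃ M, M = X.CU + X.CU ^ (3 / 4 : ℝ) := ⟨_, rfl⟩
  have hM0 : 0 < M := by rw [hM]; positivity
  obtain ⟨N0, hN0⟩ := bd7_ar_x_small X (a := 0.1 * X.pS) (ε := ε / M) (by positivity) (by positivity)
  refine ⟨N0, fun F h hN => ?_⟩
  have hx := BdFr.x_pos' h
  have hx1 := (bd7_ar_x_lt_one h).le
  have hl := BdFr.lam_pos' h
  have hl1 := bd7_ar_lam_le_one hX h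
  have hXr := BdFr.bds_Xr_le h hX
  have hXr0 := BdFr.bds_Xr_pos h hX
  have hsS : 0.49 ≤ X.sS := by unfold BdFix.sS; linarith [hX.tau_le]
  have t1 : F.Xr * F.Lam ^ (-(1 / 6) : ℝ) ≤ X.CU * F.lam ^ (0.2 : ℝ) := by
    have e : F.Lam ^ (-(1 / 6) : ℝ) = F.lam ^ (-0.005 : ℝ) := by
      unfold BdFr.Lam; rw [← Real.rpow_mul hl.le]; norm_num
    rw [e]
    calc F.Xr * F.lam ^ (-0.005 : ℝ) ≤ (X.CU * F.lam ^ (X.sS / 2)) * F.lam ^ (-0.005 : ℝ) :=
          mul_le_mul_of_nonneg_right hXr (Real.rpow_nonneg hl.le _)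
      _ = X.CU * F.lam ^ (X.sS / 2 + -0.005) := by rw [mul_assoc, ← Real.rpow_add hl]
      _ ≤ X.CU * F.lam ^ (0.2 : ℝ) :=
          mul_le_mul_of_nonneg_left (Real.rpow_le_rpow_of_exponent_ge hl hl1 (by linarith)) hCU.le
  have t2 : F.Xr ^ (3 / 4 : ℝ) * F.lam ^ (0.12 : ℝ) ≤ X.CU ^ (3 / 4 : ℝ) * F.lam ^ (0.2 : ℝ) := by
    have h1 : F.Xr ^ (3 / 4 : ℝ) ≤ X.CU ^ (3 / 4 : ℝ) * F.lam ^ (X.sS / 2 * (3 / 4)) := by
      calc F.Xr ^ (3 / 4 : ℝ) ≤ (X.CU * F.lam ^ (X.sS / 2)) ^ (3 / 4 : ℝ) :=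
            Real.rpow_le_rpow hXr0.le hXr (by norm_num)
        _ = _ := by rw [Real.mul_rpow hCU.le (Real.rpow_nonneg hl.le _), ← Real.rpow_mul hl.le]
    calc F.Xr ^ (3 / 4 : ℝ) * F.lam ^ (0.12 : ℝ)
        ≤ (X.CU ^ (3 / 4 : ℝ) * F.lam ^ (X.sS / 2 * (3 / 4))) * F.lam ^ (0.12 : ℝ) :=
          mul_le_mul_of_nonneg_right h1 (Real.rpow_nonneg hl.le _)
      _ = X.CU ^ (3 / 4 : ℝ) * F.lam ^ (X.sS / 2 * (3 / 4) + 0.12) := by rw [mul_assoc, ← Real.rpow_add hl]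
      _ ≤ _ := mul_le_mul_of_nonneg_left (Real.rpow_le_rpow_of_exponent_ge hl hl1 (by linarith))
          (Real.rpow_nonneg hCU.le _)
  have t3 : F.lam ^ (0.2 : ℝ) ≤ F.x ^ (X.pS * 0.2) := by
    calc F.lam ^ (0.2 : ℝ) ≤ (F.x ^ X.pS) ^ (0.2 : ℝ) := Real.rpow_le_rpow hl.le h.lam_hi (by norm_num)
      _ = _ := by rw [← Real.rpow_mul hx.le]
  have hz : 10 * X.zeta ≤ 0.1 * X.pS := by
    have a1 : X.tau0 ≤ 1 := by linarith [hX.tau0_le, hX.eta_le, hX.tau_le]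
    have a2 : X.bl ≤ 1 := by linarith [hX.bl_le, hX.bs_le, hX.eta_le, hX.tau_le]
    have a3 : X.pS * X.tau0 * X.bl ≤ X.pS * 1 * 1 :=
      mul_le_mul (mul_le_mul_of_nonneg_left a1 hp.le) a2 hX.bl_pos.le (by positivity)
    linarith [hX.zeta_le]
  have hpz : 0 < F.x ^ (-(10 * X.zeta)) := Real.rpow_pos_of_pos hx _
  unfold BdFr.yc
  calc F.x ^ (-(10 * X.zeta)) * (F.Xr * F.Lam ^ (-(1 / 6) : ℝ) + F.Xr ^ (3 / 4 : ℝ) * F.lam ^ (0.12 : ℝ))
      ≤ F.x ^ (-(10 * X.zeta)) * (M * F.x ^ (X.pS * 0.2)) := by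
        refine mul_le_mul_of_nonneg_left ?_ hpz.le
        calc _ ≤ X.CU * F.lam ^ (0.2 : ℝ) + X.CU ^ (3 / 4 : ℝ) * F.lam ^ (0.2 : ℝ) := add_le_add t1 t2
          _ = M * F.lam ^ (0.2 : ℝ) := by rw [hM]; ring
          _ ≤ _ := mul_le_mul_of_nonneg_left t3 hM0.le
    _ = M * F.x ^ (-(10 * X.zeta) + X.pS * 0.2) := by rw [Real.rpow_add hx]; ring
    _ ≤ M * F.x ^ (0.1 * X.pS) :=
        mul_le_mul_of_nonneg_left (Real.rpow_le_rpow_of_exponent_ge hx hx1 (by linarith)) hM0.le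
    _ ≤ M * (ε / M) := mul_le_mul_of_nonneg_left (hN0 F h hN) hM0.le
    _ = ε := by field_simp

end arith

/-! ## 2. admissibility -/

section adm

variable {X : BdFix} {W : BdWorld} {Fam : BdFr → Prop} {K : BdCst}

/-- the clocks are clocks (`BdStd`) and they are bounded by `T + 2` ((P9) at `v ≥ x`, monotonicity below) -/
theorem bd7_adm_of_std (hS : BdStd X W Fam K) (h9 : Bd7P9 X Fam) : Bd7Adm X W Fam (X.T + 2) := by
  obtain ⟨N0, h⟩ := h9 1 1 one_pos one_pos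
  refine ⟨N0, fun i hi hN => ?_⟩
  obtain ⟨hT, hbh⟩ := h i.F hi.fam hi.ok hN
  obtain ⟨cb, ch⟩ := hS.clk0 i.F hi.fam i.g hi.g_mem
  obtain ⟨cbq, chq⟩ := hS.clk i.F hi.fam i.g hi.g_mem i.Q
  refine ⟨cb, ch, cbq, chq, fun v hv => ?_⟩
  have hx := BdFr.x_pos' hi.ok
  have hx1 := bd7_ar_x_lt_one hi.ok
  have hT1 := hS.fix.T1
  obtain ⟨v', hv'd⟩ : ∃ v', v' = max v i.F.x := ⟨_, rfl⟩
  have hvv : v ≤ v' := hv'd ▸ le_max_left _ _
  have hv' : v' ∈ Ioo (0 : ℝ) 1 := ⟨lt_of_lt_of_le hv.1 hvv, hv'd ▸ max_lt hv.2 hx1⟩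
  have hv'' : v' ∈ Ico (1 * i.F.x) 1 := ⟨by rw [one_mul, hv'd]; exact le_max_right _ _, hv'.2⟩
  obtain ⟨p1, p2⟩ := hbh i.g hi.g_mem v' hv''
  rw [abs_le] at p1 p2 hT
  have h2 : v' ^ 2 ≤ 1 := pow_le_one₀ hv'.1.le hv'.2.le
  have h3 : v' ^ 3 ≤ 1 := pow_le_one₀ hv'.1.le hv'.2.le
  have hb : i.F.b i.g v ≤ X.T + 2 := by
    have := cb.mono hv hv' hvv
    linarith [p1.2, hT.2]
  have hh : i.F.h i.g v ≤ 1 := by
    have := ch.mono hv hv' hvv
    linarith [p2.2]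
  have hr := i.Q.r_mem v ⟨hv.1.le, hv.2.le⟩
  have hC0 := bd7_ar_C_pos hS.fix hi.ok (i.Q.r v)
  have hC1 := (bd7_ar_C_le hS.fix hi.ok (i.Q.r v)).trans (bd7_ar_C0_le_one hS.fix hi.ok)
  constructor
  · unfold BdQ.bq; linarith
  · unfold BdQ.hq
    have : i.F.C X (i.Q.r v) * i.Q.r v ≤ 1 * 1 := mul_le_mul hC1 hr.2 hr.1 zero_le_one
    linarith

end adm

/-! ## 3. the potential: N4 gives `Bd7I.Pot` -/

section tools

/-- the image of a null set under a Lipschitz map of the line is a null set -/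
theorem bd7_lip_null {f : ℝ → ℝ} {Kl : NNReal} {s t : Set ℝ} (hf : LipschitzOnWith Kl f s) (hts : t ⊆ s)
    (ht : volume t = 0) : volume (f '' t) = 0 := by
  have h := (hf.mono hts).hausdorffMeasure_image_le (d := 1) zero_le_one
  rw [hausdorffMeasure_real, ht, mul_zero] at h
  exact le_antisymm h zero_le

/-- a function with slopes in `[0,M]` on `[0,1]` is Lipschitz there -/
theorem bd7_lip_of_slopes {α : ℝ → ℝ} {M : ℝ} (hmono : MonotoneOn α (Icc 0 1))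
    (hlip : ∀ r1 r2 : ℝ, 0 ≤ r1 → r1 ≤ r2 → r2 ≤ 1 → α r2 - α r1 ≤ M * (r2 - r1)) :
    LipschitzOnWith M.toNNReal α (Icc 0 1) := by
  refine LipschitzOnWith.of_dist_le_mul fun x hx y hy => ?_
  have key : ∀ x ∈ Icc (0 : ℝ) 1, ∀ y ∈ Icc (0 : ℝ) 1, x ≤ y → dist (α x) (α y) ≤ M.toNNReal * dist x y := by
    intro x hx y hy hxy
    have h1 := hlip x y hx.1 hxy hy.2
    have h2 := hmono hx hy hxy
    rw [Real.dist_eq, Real.dist_eq, abs_sub_comm, abs_of_nonneg (by linarith), abs_sub_comm,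
      abs_of_nonneg (by linarith)]
    refine h1.trans (mul_le_mul_of_nonneg_right ?_ (by linarith))
    exact Real.le_coe_toNNReal M
  rcases le_total x y with h | h
  · exact key x hx y hy h
  · rw [dist_comm (α x), dist_comm x]; exact key y hy x hx h

/-- **the mass of the image of a set of radii** -/
theorem bd7_image_vol {α : ℝ → ℝ} {M : ℝ} (hmono : StrictMonoOn α (Icc 0 1))
    (hlip : ∀ r1 r2 : ℝ, 0 ≤ r1 → r1 ≤ r2 → r2 ≤ 1 → α r2 - α r1 ≤ M * (r2 - r1))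
    {A : Set ℝ} (hA : MeasurableSet A) (hsub : A ⊆ Icc 0 1) :
    volume (α '' A) ≤ ∫⁻ x in A, ENNReal.ofReal |deriv α x| := by
  have hL := bd7_lip_of_slopes hmono.monotoneOn hlip
  have hDm : MeasurableSet {x | DifferentiableAt ℝ α x} := measurableSet_of_differentiableAt ℝ α
  have hnull : volume (A \ {x | DifferentiableAt ℝ α x}) = 0 := by
    have h1 := hmono.monotoneOn.ae_differentiableWithinAt_of_mem
    have a0 : ∀ᵐ r ∂(volume : Measure ℝ), r ≠ 0 := by simp [ae_iff, measure_singleton]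
    have a1 : ∀ᵐ r ∂(volume : Measure ℝ), r ≠ 1 := by simp [ae_iff, measure_singleton]
    have h2 : ∀ᵐ x ∂(volume : Measure ℝ), x ∉ A \ {x | DifferentiableAt ℝ α x} := by
      filter_upwards [h1, a0, a1] with x hx b0 b1 hcon
      have hx01 := hsub hcon.1
      exact hcon.2 ((hx hx01).differentiableAt
        (Icc_mem_nhds (lt_of_le_of_ne hx01.1 (Ne.symm b0)) (lt_of_le_of_ne hx01.2 b1)))
    exact measure_eq_zero_iff_ae_notMem.2 h2
  have hsplit : α '' A ⊆ α '' (A ∩ {x | DifferentiableAt ℝ α x}) ∪ α '' (A \ {x | DifferentiableAt ℝ α x}) := by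
    rw [← image_union, inter_union_sdiff]
  have h0 : volume (α '' (A \ {x | DifferentiableAt ℝ α x})) = 0 :=
    bd7_lip_null hL (sdiff_subset.trans hsub) hnull
  have h1 : volume (α '' (A ∩ {x | DifferentiableAt ℝ α x}))
      = ∫⁻ x in A ∩ {x | DifferentiableAt ℝ α x}, ENNReal.ofReal |deriv α x| := by
    have := lintegral_image_eq_lintegral_abs_deriv_mul (f := α) (f' := deriv α) (hA.inter hDm)
      (fun x hx => hx.2.hasDerivAt.hasDerivWithinAt)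
      (hmono.injOn.mono (inter_subset_left.trans hsub)) (fun _ => 1)
    simpa using this
  calc volume (α '' A) ≤ volume (α '' (A ∩ {x | DifferentiableAt ℝ α x}))
        + volume (α '' (A \ {x | DifferentiableAt ℝ α x})) := (measure_mono hsplit).trans (measure_union_le _ _)
    _ = ∫⁻ x in A ∩ {x | DifferentiableAt ℝ α x}, ENNReal.ofReal |deriv α x| := by rw [h0, add_zero, h1]
    _ ≤ _ := lintegral_mono_set inter_subset_left

end tools

section geo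

variable {X : BdFix} {W : BdWorld} {Fam : BdFr → Prop}

/-- cap widths are negligible: `1/M_j ≤ x^100 ≤ ε u` -/
theorem bd7_ar_cap_small (hX : X.Ok) {ε : ℝ} (hε : 0 < ε) :
    ∃ N0 : ℕ, ∀ F : BdFr, F.Ok X → N0 ≤ F.N → 1 / F.Mj ≤ ε * F.u := by
  obtain ⟨N1, h1⟩ := bd7_ar_x_small X (a := 99) (ε := ε) (by norm_num) hε
  obtain ⟨N2, h2⟩ := bd7_ar_yc_small hX (ε := 1) one_pos
  refine ⟨max N1 N2, fun F h hN => ?_⟩
  have hx := BdFr.x_pos' h
  have hu := BdFr.u_pos' hX h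
  have hxu : F.x ≤ F.u := by
    have := bd7_ar_x_le_wc hX h
    unfold BdFr.wc at this
    have h3 : F.yc X * F.u ≤ 1 * F.u := mul_le_mul_of_nonneg_right (h2 F h ((le_max_right _ _).trans hN)) hu.le
    linarith
  have hp : 0 < F.x ^ (-(100 : ℝ)) := Real.rpow_pos_of_pos hx _
  have h4 : 1 / F.Mj ≤ 1 / F.x ^ (-(100 : ℝ)) := one_div_le_one_div_of_le hp (bd7_ar_Mj_ge h)
  have h5 : 1 / F.x ^ (-(100 : ℝ)) = F.x ^ (99 : ℝ) * F.x := by
    rw [Real.rpow_neg hx.le, one_div, inv_inv]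
    nth_rewrite 3 [← Real.rpow_one F.x]
    rw [← Real.rpow_add hx]
    norm_num
  rw [h5] at h4
  exact h4.trans (mul_le_mul (h1 F h ((le_max_left _ _).trans hN)) hxu hx.le hε.le)

/-- the variation density of N4 is the integrand of (C6) -/
theorem bd7_geo_G (hX : X.Ok) {F : BdFr} (hF : F.Ok X) (Q : BdQ F X) (g c0 : ℝ) (hB : F.Base X W g) {r : ℝ}
    (hr : r ∈ Ioo (0 : ℝ) 1) : (budGeoQ Q W g c0).G r
      = F.C X r * cmBr (F.pC X r) r (Q.Sq W g (Q.al r)) (Q.Bq W g (Q.al r)) := by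
  unfold BudGeo.G
  rw [bud_n4_S X hX F hF Q W g c0 hB hr, bud_n4_B X hX F hF Q W g c0 hB hr]
  show F.C X r * budBr (budP (F.C X) (budCp F X) r) r _ _ = _
  rw [bud_gb_P X hX F hF]
  rfl

/-- **one instance** -/
theorem bd7_pot_of_geo (hX : X.Ok) (hcI : X.cI ≤ X.cd ^ 3) {i : Bd7I X} (hF : i.F.Ok X) (hB : i.F.Base X W i.g)
    (hcap : 1 / i.F.Mj ≤ X.cI / 2 * i.F.u) (hu : X.cI * i.F.u ≤ 1) {c0 : ℝ} (hOk : (budGeoQ i.Q W i.g c0).Ok)
    (hpot : i.Q.IsPot W i.g (budGeoQ i.Q W i.g c0).H) : i.Pot W (budGeoQ i.Q W i.g c0).H := by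
  obtain ⟨G, hG⟩ : ∃ G, G = budGeoQ i.Q W i.g c0 := ⟨_, rfl⟩
  rw [← hG] at hOk hpot ⊢
  have hM : G.M = i.F.Mj := by rw [hG]; rfl
  have hu0 := BdFr.u_pos' hX hF
  have hcI0 := hX.cI_pos
  have hstrict := bd7_q_al_strict i.Q hF
  have hL := bd7_lip_of_slopes hstrict.monotoneOn i.Q.hi
  have m0 : (0 : ℝ) ∈ Icc (0 : ℝ) 1 := ⟨le_rfl, zero_le_one⟩
  have m1 : (1 : ℝ) ∈ Icc (0 : ℝ) 1 := ⟨zero_le_one, le_rfl⟩
  have hflat : G.Flat (min (X.cd ^ 3 * i.F.u) 1) i.F.C0 := by rw [hG]; exact bud_n4_flat X hX i.F hF i.Q W i.g c0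
  have hR0 : X.cI * i.F.u ≤ min (X.cd ^ 3 * i.F.u) 1 := le_min (mul_le_mul_of_nonneg_right hcI hu0.le) hu
  refine ⟨hpot, ?_, ?_, ?_, ?_⟩
  · -- integrability
    refine (BudGeo.G_intervalIntegrable hOk m0 m1).congr_uIoo ?_
    intro r hr
    rw [uIoo_of_le zero_le_one] at hr
    rw [hG]
    exact bd7_geo_G hX hF i.Q i.g c0 hB hr
  · -- a zero of the potential on the right of a point of a cap
    intro r h0 h1 hH
    have hMpos : 0 < 1 / i.F.Mj := by have := bd7_ar_Mj_pos hF; positivity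
    obtain ⟨a, b, har, hrb, hl, hr⟩ := BudGeo.exists_cap hOk (r := r) ⟨h0, by linarith⟩ hH
    have hw := BudGeo.cap_width hOk hl.1 hl.2.1.le hl.2.2.1 hl.2.2.2.1
    rw [hM] at hw
    have hb0 : G.H b = 0 := by
      rcases hr.2.2.2.2 with h | h
      · exact h
      · exfalso; linarith
    refine ⟨b, lt_of_le_of_ne hrb ?_, by linarith, hb0⟩
    rintro rfl
    linarith
  · -- the mass of the floor
    intro s t hs hst ht
    have hc := BudGeo.H_cont hOk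
    obtain ⟨U, hU, hUeq⟩ := (continuousOn_iff'.1 hc) (Ioi 0) isOpen_Ioi
    have hsub : Icc s t ⊆ Icc (0 : ℝ) 1 := fun x hx => ⟨hs.trans hx.1, hx.2.trans ht⟩
    have hset : {r | 0 < G.H r} ∩ Icc s t = U ∩ Icc s t := by
      ext x
      constructor
      · rintro ⟨h1, h2⟩
        have : x ∈ G.H ⁻¹' Ioi 0 ∩ Icc 0 1 := ⟨h1, hsub h2⟩
        rw [hUeq] at this
        exact ⟨this.1, h2⟩
      · rintro ⟨h1, h2⟩
        have : x ∈ U ∩ Icc 0 1 := ⟨h1, hsub h2⟩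
        rw [← hUeq] at this
        exact ⟨this.1, h2⟩
    have hAm : MeasurableSet ({r | 0 < G.H r} ∩ Icc s t) := by
      rw [hset]; exact hU.measurableSet.inter measurableSet_Icc
    refine (bd7_image_vol hstrict i.Q.hi hAm (inter_subset_right.trans hsub)).trans ?_
    have hkb0 : ∀ r, 0 ≤ budKb i.F X r := fun r => bd7_q_kbar_nonneg hF _
    have hkint : IntervalIntegrable (budKb i.F X) volume s t := by
      have := BudGeo.pot_kb_int hOk hs hst ht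
      rwa [hG] at this
    have e1 : ∫ r in s..t, i.F.kbar X r = ∫ r in s..t, budKb i.F X r := (bud_gb_int_Kb i.F X hs hst ht).symm
    rw [e1, intervalIntegral.integral_of_le hst,
      ofReal_integral_eq_lintegral_ofReal (f := budKb i.F X)
        ((intervalIntegrable_iff_integrableOn_Ioc_of_le hst).1 hkint)
        (Eventually.of_forall fun r => hkb0 r), ← restrict_Ioo_eq_restrict_Ioc]
    have a0 : ∀ᵐ r ∂(volume : Measure ℝ), r ≠ s := by simp [ae_iff, measure_singleton]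
    have a1 : ∀ᵐ r ∂(volume : Measure ℝ), r ≠ t := by simp [ae_iff, measure_singleton]
    have hfl : ∀ᵐ r ∂(volume : Measure ℝ), r ∈ Ioo (0 : ℝ) 1 → 0 < G.H r → deriv i.Q.al r = budKb i.F X r := by
      have h := hOk.floor
      have e1 : G.ρ = deriv i.Q.al := by rw [hG]; rfl
      have e2 : G.kb = budKb i.F X := by rw [hG]; rfl
      rwa [e1, e2] at h
    calc ∫⁻ x in {r | 0 < G.H r} ∩ Icc s t, ENNReal.ofReal |deriv i.Q.al x|
        = ∫⁻ x in {r | 0 < G.H r} ∩ Icc s t, (Ioo s t).indicator (fun x => ENNReal.ofReal (budKb i.F X x)) x := by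
          refine setLIntegral_congr_fun_ae hAm ?_
          filter_upwards [a0, a1, hfl] with x b0 b1 hx hxA
          have hxI : x ∈ Ioo s t := ⟨lt_of_le_of_ne hxA.2.1 (Ne.symm b0), lt_of_le_of_ne hxA.2.2 b1⟩
          rw [indicator_of_mem hxI, hx ⟨lt_of_le_of_lt hs hxI.1, lt_of_lt_of_le hxI.2 ht⟩ hxA.1,
            abs_of_nonneg (hkb0 _)]
      _ ≤ ∫⁻ x, (Ioo s t).indicator (fun x => ENNReal.ofReal (budKb i.F X x)) x := setLIntegral_le_lintegral _ _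
      _ = _ := lintegral_indicator measurableSet_Ioo _
  · -- off the floor, in the flat region
    have hbad : volume {r | ¬ (r ∈ Ioo (0 : ℝ) 1 → G.H r = 0 → budBr (G.p r) r (G.S r) (G.B r) = 0)} = 0 :=
      ae_iff.1 (BudGeo.contact_ae hOk)
    have hbad' : volume ({r | ¬ (r ∈ Ioo (0 : ℝ) 1 → G.H r = 0 → budBr (G.p r) r (G.S r) (G.B r) = 0)} ∩ Icc 0 1) = 0 :=
      measure_mono_null inter_subset_left hbad
    have himg := bd7_lip_null hL inter_subset_right hbad'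
    rw [ae_iff]
    refine measure_mono_null ?_ himg
    intro v hv
    simp only [mem_ofPred_eq, Classical.not_imp, not_le] at hv
    obtain ⟨hv01, hrv, hH, hS⟩ := hv
    have hvm : v ∈ Icc (0 : ℝ) 1 := Ioo_subset_Icc_self hv01
    have hrm := i.Q.r_mem v hvm
    have hal := i.Q.al_r v hvm
    have hr0 : 0 < i.Q.r v := by
      rcases hrm.1.eq_or_lt with h | h
      · exfalso; rw [← h, i.Q.al_zero] at hal; linarith [hv01.1]
      · exact h
    have hr1 : i.Q.r v < 1 := by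
      rcases hrm.2.eq_or_lt with h | h
      · exfalso; rw [h, i.Q.al_one] at hal; linarith [hv01.2]
      · exact h
    have hSr : G.S (i.Q.r v) = i.Q.Sq W i.g v := by
      rw [hG, bud_n4_S X hX i.F hF i.Q W i.g c0 hB ⟨hr0, hr1⟩, hal]
    refine ⟨i.Q.r v, ⟨?_, hrm⟩, hal⟩
    simp only [mem_ofPred_eq, Classical.not_imp]
    have hH0 : G.H (i.Q.r v) = 0 := by
      rcases hH.lt_or_eq with h | h
      · exfalso
        obtain ⟨a, b, har, hrb, hl, hr⟩ := BudGeo.exists_cap hOk hrm h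
        have hw := BudGeo.cap_width hOk hl.1 hl.2.1.le hl.2.2.1 hl.2.2.2.1
        rw [hM] at hw
        have ha : a < i.Q.r v := by
          refine lt_of_le_of_ne har ?_
          intro e
          rcases hl.2.2.2.2 with h' | h'
          · rw [e] at h'; linarith
          · rw [h'] at e; linarith
        have hb : i.Q.r v < b := by
          refine lt_of_le_of_ne hrb ?_
          intro e
          rcases hr.2.2.2.2 with h' | h'
          · rw [← e] at h'; linarith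
          · rw [h'] at e; linarith
        have hbR : b ≤ min (X.cd ^ 3 * i.F.u) 1 := by
          refine le_trans ?_ hR0
          have : X.cI * i.F.u / 2 + X.cI / 2 * i.F.u = X.cI * i.F.u := by ring
          linarith
        have := (BudGeo.flat_cap hOk hflat hl hr hbR ⟨ha, hb⟩).2.2
        rw [hM, hSr] at this
        linarith
      · exact h
    refine ⟨⟨hr0, hr1⟩, hH0, ?_⟩
    intro hbr
    have hcu : 0 < X.cI * i.F.u := by positivity
    have hp : G.p (i.Q.r v) = 0 := hflat.hp _ ⟨hr0.le, le_trans (by linarith) hR0⟩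
    rw [hp, hSr] at hbr
    unfold budBr at hbr
    have : i.Q.Sq W i.g v - i.Q.r v = 0 := by
      rw [zero_mul, zero_div] at hbr
      linarith
    rw [this, abs_zero] at hS
    have := bd7_ar_Mj_pos hF
    have : 0 < 1 / i.F.Mj := by positivity
    linarith

/-- **Lemma 7.2 in the form consumed by Step 2** -/
theorem bd7_geo_of_n4 (hX : X.Ok) (hcI : X.cI ≤ X.cd ^ 3) (hbase : ∀ F, Fam F → ∀ g ∈ X.G0, F.Base X W g) :
    Bd7Geo X W Fam := by
  have hcI0 := hX.cI_pos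
  obtain ⟨N1, h1⟩ := bud_n4_geo X hX
  obtain ⟨N2, h2⟩ := bd7_ar_cap_small hX (ε := X.cI / 2) (by positivity)
  obtain ⟨N3, h3⟩ := bd7_ar_u_small hX (ε := 1 / X.cI) (by positivity)
  refine ⟨max N1 (max N2 N3), fun i hi hN => ?_⟩
  have hN1 : N1 ≤ i.F.N := (le_max_left _ _).trans hN
  have hN2 : N2 ≤ i.F.N := ((le_max_left _ _).trans (le_max_right _ _)).trans hN
  have hN3 : N3 ≤ i.F.N := ((le_max_right _ _).trans (le_max_right _ _)).trans hN
  have hB := hbase i.F hi.fam i.g hi.g_mem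
  obtain ⟨c0, hOk, hpot⟩ := h1 i.F hi.ok hN1 W i.g hB i.Q hi.opt
  refine ⟨_, bd7_pot_of_geo hX hcI hi.ok hB (h2 i.F hi.ok hN2) ?_ hOk hpot⟩
  calc X.cI * i.F.u ≤ X.cI * (1 / X.cI) := mul_le_mul_of_nonneg_left (h3 i.F hi.ok hN3) hcI0.le
    _ = 1 := by field_simp

end geo

/-! ## 4. the imports of (C7), the order of the constants -/

/-- **all the imports of (C7)**; the loose constants are still free; `c0 ≤ C0` = the slope bounds of the PE direct profile (Step 1) -/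
structure Bd7In (X : BdFix) (W : BdWorld) (Fam : BdFr → Prop) (K : BdCst) (c0 C0 : ℝ) : Prop where
  std : BdStd X W Fam K
  hub : W.IsHub
  base : ∀ F, Fam F → ∀ g ∈ X.G0, F.Base X W g
  p9 : Bd7P9 X Fam
  raw : ∀ cL CL : ℝ, 0 < cL → cL ≤ CL → Bd7Raw X W Fam cL CL
  band : ∀ cL CL : ℝ, 0 < cL → cL ≤ CL → Bd7Band X W Fam cL CL
  rc : Bd7CRc X W Fam
  gam : Bd7CGam X W Fam
  sup : ∀ cL CL : ℝ, 0 < cL → cL ≤ CL → Bd7CSup X W Fam cL CL
  /-- Step 1, for all loose constants strictly outside the slope bounds of the PE direct profile -/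
  weak : ∀ cL CL : ℝ, 0 < cL → cL < c0 → C0 < CL → Bd7Weak X W Fam cL CL
  /-- Step 3 -/
  c7b : ∀ cL CL : ℝ, 0 < cL → cL ≤ CL → Bd7C7a X W Fam cL CL → Bd7C7b X W Fam

/-- the scalar API at the horizon `2 (T + 2)`: it depends on `T` only -/
structure Bd7KOk (T : ℝ) (W : BdWorld) (Sc : Bd7Sc) (k : Bd7ScC) : Prop where
  sc : Sc.Ok W k
  Kmax : k.Kmax = 2 * (T + 2)
  Tmax : k.Tmax = 2 * (T + 2)

/-- **the loose constants**: strictly outside the slope bounds of Step 1 and of Step 2.   They depend on `T`, `k`, `c0`, `C0` only (NOT on `X`) -/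
structure Bd7Loose (T : ℝ) (k : Bd7ScC) (c0 C0 cL CL : ℝ) : Prop where
  pos : 0 < cL
  le : cL ≤ CL
  lo1 : cL < c0
  hi1 : C0 < CL
  lo2 : cL < 2 * k.c2 ^ 3 / (T * k.C4 ^ 2)
  hi2 : 2 * k.C2 ^ 3 / (T * k.c4 ^ 2) < CL

theorem bd7_k_ex {W : BdWorld} (hW : W.IsHub) {T : ℝ} (hT : 1 < T) : ∃ (Sc : Bd7Sc) (k : Bd7ScC), Bd7KOk T W Sc k := by
  obtain ⟨c2, C2, c4, C4, Csc, hsc⟩ := exit_sc_bd7 hW (Kmax := 2 * (T + 2)) (Tmax := 2 * (T + 2)) (by linarith) le_rfl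
  exact ⟨sb7Sc (2 * (T + 2)), ⟨2 * (T + 2), 2 * (T + 2), c2, C2, c4, C4, Csc⟩, hsc, rfl, rfl⟩

/-- loose constants exist -/
theorem bd7_loose_ex {W : BdWorld} {T : ℝ} (hT : 1 < T) {Sc : Bd7Sc} {k : Bd7ScC} (hk : Bd7KOk T W Sc k) {c0 C0 : ℝ}
    (hc0 : 0 < c0) (hcC : c0 ≤ C0) : ∃ cL CL : ℝ, Bd7Loose T k c0 C0 cL CL := by
  have hz : IsClock 1 (fun _ : ℝ => (0 : ℝ)) := ⟨fun _ _ _ _ _ => le_rfl, fun _ _ => le_rfl, ⟨0, fun _ _ => le_rfl⟩⟩
  have hzK : ∀ v ∈ Ioo (0 : ℝ) 1, (fun _ : ℝ => (0 : ℝ)) v ≤ k.Kmax := by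
    intro v _
    show (0 : ℝ) ≤ k.Kmax
    rw [hk.Kmax]; linarith
  have h4 := hk.sc.a4_mem _ hz hzK
  have hc2 := hk.sc.c2_pos
  have hc4 := hk.sc.c4_pos
  have hC4 : 0 < k.C4 := lt_of_lt_of_le hc4 (h4.1.trans h4.2)
  obtain ⟨lo, hlo⟩ : ∃ lo, lo = 2 * k.c2 ^ 3 / (T * k.C4 ^ 2) := ⟨_, rfl⟩
  obtain ⟨hi, hhi⟩ : ∃ hi, hi = 2 * k.C2 ^ 3 / (T * k.c4 ^ 2) := ⟨_, rfl⟩
  have hlo0 : 0 < lo := by rw [hlo]; positivity
  have hm : 0 < min c0 lo := lt_min hc0 hlo0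
  have a1 : min c0 lo / 2 < c0 := by linarith [min_le_left c0 lo]
  have a2 : min c0 lo / 2 < lo := by linarith [min_le_right c0 lo]
  have a3 : C0 < max C0 hi + 1 := by linarith [le_max_left C0 hi]
  have a4 : hi < max C0 hi + 1 := by linarith [le_max_right C0 hi]
  exact ⟨min c0 lo / 2, max C0 hi + 1, by positivity, by linarith, a1, a3, hlo ▸ a2, hhi ▸ a4⟩

section glue

variable {X : BdFix} {W : BdWorld} {Fam : BdFr → Prop} {K : BdCst} {c0 C0 : ℝ} {Sc : Bd7Sc} {k : Bd7ScC}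

/-- the imports of Step 2, for all loose constants -/
theorem bd7_sin_all (h : Bd7In X W Fam K c0 C0) (hk : Bd7KOk X.T W Sc k) (cL CL : ℝ) (h1 : 0 < cL) (h2 : cL ≤ CL) :
    Bd7SIn X W Fam Sc k (X.T + 2) cL CL := by
  have hT := h.std.fix.T1
  have hadm := bd7_adm_of_std h.std h.p9
  exact
    { hX := h.std.fix
      a1 := h.std.a1
      cL_pos := h1
      cL_le := h2
      Kb_le := hk.Kmax.ge
      Tmax := by rw [hk.Tmax]; linarith
      Kmax_le := by rw [hk.Tmax, hk.Kmax]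
      Ilo_lb := ⟨X.plo 0, (h.std.fix.pat 0 (by omega)).1, fun F hF => (h.std.ok F hF).I3⟩
      adm := hadm
      geo := bd7_geo_of_n4 h.std.fix h.std.fix.cI_le h.base
      raw := h.raw cL CL h1 h2
      band := h.band cL CL h1 h2
      p9 := h.p9
      sc := hk.sc
      clo := bd7c_clo h.std.fix h.hub hadm (h.raw cL CL h1 h2) (h.band cL CL h1 h2) h.rc h.gam (h.sup cL CL h1 h2) }

/-- **(C7), first half**, for every choice of the loose constants -/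
theorem bd7_C7a_of (h : Bd7In X W Fam K c0 C0) (hk : Bd7KOk X.T W Sc k) {cL CL : ℝ} (hL : Bd7Loose X.T k c0 C0 cL CL) :
    Bd7C7a X W Fam cL CL :=
  bd7_C7a_of_excl h.std.fix (h.weak _ _ hL.pos hL.lo1 hL.hi1) (bd7_strong (bd7_sin_all h hk _ _ hL.pos hL.le) hL.lo2 hL.hi2)

end glue

/-! ## 5. the forms of `Bud/HubB`, `Bud/L8Defs` -/

section forms

variable {X : BdFix} {W : BdWorld} {Fam : BdFr → Prop} {K : BdCst}

theorem bd7_hub_C7a (hok : ∀ F, Fam F → F.Ok X) {cL CL : ℝ} (hcL : 0 < cL) (h : Bd7C7a X W Fam cL CL) :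
    BudB.C7a X W Fam := by
  obtain ⟨N0, h⟩ := h
  refine ⟨cL, CL, hcL, N0, fun i hi hN v hv => ?_⟩
  exact h ⟨i.F, i.g, i.Q, v⟩ ⟨hi.1, hok _ hi.1, hi.2.1, hi.2.2⟩ hN hv

/-- **(C7), second half, in the inverse variable** -/
theorem bd7_hub_C7al (hS : BdStd X W Fam K) {cL CL : ℝ} (hcL : 0 < cL) (hLL : cL ≤ CL)
    (ha : Bd7C7a X W Fam cL CL) (hb : Bd7C7b X W Fam) : BudC7al X W Fam := by
  have hX := hS.fix
  have hCL : 0 < CL := lt_of_lt_of_le hcL hLL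
  unfold BudC7al
  rw [bd_o_iff (fun _ _ => abs_nonneg _) (fun i hi => (BdFr.u_pos' hX (hS.ok _ hi.1.1)).le)]
  intro ε hε
  obtain ⟨hp0, hp1, hp2, hp3, hp4⟩ := hX.pat 0 (by omega)
  have hpp : X.plo 0 < X.phi 0 := by linarith
  have hcI := hX.cI_pos
  obtain ⟨η, hηd⟩ : ∃ η, η = min (ε / (2 * (|K.Cb| + 1))) (min (X.plo 0 / 2) ((X.cI - X.phi 0) / 2)) := ⟨_, rfl⟩
  have hη : 0 < η := by
    rw [hηd]; exact lt_min (by positivity) (lt_min (by positivity) (by linarith))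
  have hη1 : η ≤ ε / (2 * (|K.Cb| + 1)) := hηd ▸ min_le_left _ _
  have hη2 : η ≤ X.plo 0 / 2 := hηd ▸ (min_le_right _ _).trans (min_le_left _ _)
  have hη3 : η ≤ (X.cI - X.phi 0) / 2 := hηd ▸ (min_le_right _ _).trans (min_le_right _ _)
  obtain ⟨Na, ha⟩ := ha
  obtain ⟨Nb, hb⟩ := hb (X.plo 0 / CL) (X.phi 0 / cL) η (by positivity)
    (div_le_div₀ (by linarith) hpp.le hcL hLL) hη
  obtain ⟨Nc, hc⟩ := bd7_ar_yc_small hX (ε := min 1 (X.plo 0 / (2 * CL))) (lt_min one_pos (by positivity))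
  obtain ⟨Nd, hd⟩ := bd7_ar_u_small hX (ε := 1 / X.cI) (by positivity)
  refine ⟨max (max Na Nb) (max Nc Nd), ?_⟩
  rintro ⟨i, ρ⟩ ⟨hi, hρ⟩ hN
  simp only at hi hρ hN ⊢
  have hNa : Na ≤ i.F.N := ((le_max_left _ _).trans (le_max_left _ _)).trans hN
  have hNb : Nb ≤ i.F.N := ((le_max_right _ _).trans (le_max_left _ _)).trans hN
  have hNc : Nc ≤ i.F.N := ((le_max_left _ _).trans (le_max_right _ _)).trans hN
  have hNd : Nd ≤ i.F.N := ((le_max_right _ _).trans (le_max_right _ _)).trans hN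
  have hF := hS.ok _ hi.1
  have hu := BdFr.u_pos' hX hF
  have hu1 := bd7_ar_u_le_one hX hF
  have hstd : ∀ w, (⟨i.F, i.g, i.Q, w⟩ : Bd7I X).Std W Fam := fun w => ⟨hi.1, hF, hi.2.1, hi.2.2⟩
  have hcIu : X.cI * i.F.u ≤ 1 := by
    calc X.cI * i.F.u ≤ X.cI * (1 / X.cI) := mul_le_mul_of_nonneg_left (hd i.F hF hNd) hcI.le
      _ = 1 := by field_simp
  have hρ0 : 0 < ρ := lt_of_lt_of_le (by positivity) hρ.1
  have hρc : ρ ≤ X.cI * i.F.u := hρ.2.trans (mul_le_mul_of_nonneg_right hp4.le hu.le)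
  have hρm : ρ ∈ Icc (0 : ℝ) 1 := ⟨hρ0.le, hρc.trans hcIu⟩
  obtain ⟨v, hvd⟩ : ∃ v, v = i.Q.al ρ := ⟨_, rfl⟩
  have hvm : v ∈ Icc (0 : ℝ) 1 := hvd ▸ bd7_q_al_mem i.Q hF hρm
  have hrv : i.Q.r v = ρ := by rw [hvd]; exact i.Q.r_al ρ hρm
  have hyc := hc i.F hF hNc
  have hwc0 := BdFr.wc_pos' hX hF
  have hwc1 : i.F.wc X ≤ 1 := by
    unfold BdFr.wc
    calc i.F.yc X * i.F.u ≤ 1 * 1 := mul_le_mul (hyc.trans (min_le_left _ _)) hu1 hu.le zero_le_one
      _ = 1 := one_mul 1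
  have hwv : i.F.wc X ≤ v := by
    by_contra hcon
    push Not at hcon
    have h1 := bd7_q_r_mono i.Q hF hvm ⟨hwc0.le, hwc1⟩ hcon.le
    have h2 : i.Q.r (i.F.wc X) ≤ CL * i.F.wc X := (ha ⟨i.F, i.g, i.Q, i.F.wc X⟩ (hstd _) hNa ⟨le_rfl, hwc1⟩).2
    have h3 : CL * i.F.wc X ≤ X.plo 0 / 2 * i.F.u := by
      unfold BdFr.wc
      calc CL * (i.F.yc X * i.F.u) ≤ CL * (X.plo 0 / (2 * CL) * i.F.u) :=
            mul_le_mul_of_nonneg_left (mul_le_mul_of_nonneg_right (hyc.trans (min_le_right _ _)) hu.le) hCL.le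
        _ = _ := by field_simp
    have h4 : X.plo 0 / 2 * i.F.u < X.plo 0 * i.F.u := mul_lt_mul_of_pos_right (by linarith) hu
    linarith [hρ.1]
  have hg : cL * v ≤ i.Q.r v ∧ i.Q.r v ≤ CL * v := ha ⟨i.F, i.g, i.Q, v⟩ (hstd _) hNa ⟨hwv, hvm.2⟩
  rw [hrv] at hg
  have hvlo : X.plo 0 / CL * i.F.u ≤ v := by
    rw [div_mul_eq_mul_div, div_le_iff₀ hCL]; linarith [hρ.1, hg.2]
  have hvhi : v ≤ X.phi 0 / cL * i.F.u := by
    rw [div_mul_eq_mul_div, le_div_iff₀ hcL]; linarith [hρ.2, hg.1]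
  have hq : |i.Q.r v - i.F.q v| ≤ η * i.F.u := hb ⟨i.F, i.g, i.Q, v⟩ (hstd _) hNb ⟨hvlo, hvhi⟩
  rw [hrv, abs_le] at hq
  have hbeta := hS.beta i.F hi.1
  have hb0 := hS.beta_zero i.F hi.1
  have hηu : 0 < η * i.F.u := by positivity
  have hr2 : ρ + 2 * (η * i.F.u) ≤ X.cI * i.F.u := by
    have : η * i.F.u ≤ (X.cI - X.phi 0) / 2 * i.F.u := mul_le_mul_of_nonneg_right hη3 hu.le
    linarith [hρ.2]
  have hr1 : 0 ≤ ρ - 2 * (η * i.F.u) := by
    have : η * i.F.u ≤ X.plo 0 / 2 * i.F.u := mul_le_mul_of_nonneg_right hη2 hu.le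
    linarith [hρ.1]
  have up : v ≤ i.F.beta0 (ρ + 2 * (η * i.F.u)) := by
    have hpos := (hbeta 0 (ρ + 2 * (η * i.F.u)) le_rfl (by linarith) hr2).1
    have hβpos : 0 < i.F.beta0 (ρ + 2 * (η * i.F.u)) := by
      rw [hb0] at hpos
      have : 0 < K.cb * (ρ + 2 * (η * i.F.u) - 0) := mul_pos hS.cb_pos (by linarith)
      linarith
    unfold BdFr.beta0 bdInv at hβpos ⊢
    have hne : {s : ℝ | 0 ≤ s ∧ ρ + 2 * (η * i.F.u) ≤ i.F.q s}.Nonempty := by
      by_contra hne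
      rw [Set.not_nonempty_iff_eq_empty] at hne
      rw [hne, Real.sInf_empty] at hβpos
      exact lt_irrefl _ hβpos
    refine le_csInf hne fun s hs => ?_
    by_contra hcon
    push Not at hcon
    have := hS.q_mono i.F hi.1 ⟨hs.1, hcon.le.trans hvm.2⟩ hvm hcon.le
    linarith [hs.2, hq.1]
  have lowr : i.F.beta0 (ρ - 2 * (η * i.F.u)) ≤ v := by
    unfold BdFr.beta0 bdInv
    exact csInf_le ⟨0, fun s hs => hs.1⟩ ⟨hvm.1, by linarith [hq.2]⟩
  have u2 := (hbeta ρ (ρ + 2 * (η * i.F.u)) hρ0.le (by linarith) hr2).2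
  have l2 := (hbeta (ρ - 2 * (η * i.F.u)) ρ hr1 (by linarith) hρc).2
  have hCb : K.Cb * (2 * (η * i.F.u)) ≤ ε * i.F.u := by
    calc K.Cb * (2 * (η * i.F.u)) ≤ (|K.Cb| + 1) * (2 * (η * i.F.u)) :=
          mul_le_mul_of_nonneg_right (by linarith [le_abs_self K.Cb]) (by positivity)
      _ ≤ (|K.Cb| + 1) * (2 * (ε / (2 * (|K.Cb| + 1)) * i.F.u)) := by
          refine mul_le_mul_of_nonneg_left ?_ (by positivity)
          exact mul_le_mul_of_nonneg_left (mul_le_mul_of_nonneg_right hη1 hu.le) (by norm_num)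
      _ = ε * i.F.u := by field_simp
  have e1 : ρ + 2 * (η * i.F.u) - ρ = 2 * (η * i.F.u) := by ring
  have e2 : ρ - (ρ - 2 * (η * i.F.u)) = 2 * (η * i.F.u) := by ring
  rw [e1] at u2
  rw [e2] at l2
  rw [← hvd, abs_le]
  constructor <;> linarith

/-- **THE EXIT OF THE PACKAGE**: (C7a) with the loose constants, (C7), second half, in the inverse variable -/
theorem bd7_exit {c0 C0 : ℝ} {Sc : Bd7Sc} {k : Bd7ScC} (h : Bd7In X W Fam K c0 C0) (hk : Bd7KOk X.T W Sc k) {cL CL : ℝ}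
    (hL : Bd7Loose X.T k c0 C0 cL CL) : Bd7C7a X W Fam cL CL ∧ BudC7al X W Fam := by
  have h3 := bd7_C7a_of h hk hL
  exact ⟨h3, bd7_hub_C7al h.std hL.pos hL.le h3 (h.c7b cL CL hL.pos hL.le h3)⟩

end forms

end

end Claimed.Agent.R286
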