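import Claimed.Agent.R286.Bud.RawExit
import Claimed.Agent.R286.Bud.SecInst
import Claimed.Agent.R286.Bud.FfNum
import Claimed.Agent.R286.Bud.HpFr

/-!
# Row 286 (S0533), LL sec. 7, node N5 = Lemma 7.4 (bud:outer-moments), (C8): THE FORMS OF THE CONSUMERS      (helper294; exits `bud_c8_*`, tools `brx_*`)

ADAPTERS ONLY, 0 own leaves.   THE producer of (C8) is helper7's `Bud/RawExit.lean` (`BudRxH`, `bud_rx_raw`, `bud_rx_raw2`); this file carries its two step-level exits to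
 §1 `bud_c8_tree` (`cmkMX`, `cmkMR` at EVERY exponent `l ≥ 1`), `bud_c8_num` (`NX q`, `NR` of `Q.bosNum g`), `bud_c8_world` (`B_v`, `S_v`, `D_v`);
 §2 producers of `BudRxH` from `BdStd`: `brx_h_of_out` (instances `Bd7I.Out`, loose constants normalised to `c ≤ 1 ≤ C`), `brx_out_wc`, `brx_h_wc` (after (C7a): EVERY optimiser at the scale `w = w_c`);
 §3 EXITS: `bud_c8_bd7 : Bd7Raw` (12, 198), `bud_c8_ff : BudFfRaw` (248/161), `bud_c8_B` (h8 of `bos_inst_ff`, 111), `bud_c8_hp : BudHpRaw`, `bud_c8_sv : BudHpSv` (8, 162).      TEX[LL:bud:outer-moments]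
-/

set_option autoImplicit false

namespace Claimed.Agent.R286

open MeasureTheory Set Filter Topology

noncomputable section

/-! ## 1. From the step level to the numbers -/

section exits

variable {X : BdFix}

/-- mirror of `ckm_nu_le` -/
theorem brx_nu_ge {n : ℕ} {b h : ℝ → ℝ} (hn : 0 < n) (H : CkAdm 1 b h) {q : ℕ} {τ : ℕ → ℕ → WithTop GhPos} (hτ : GhIsRT 1 q τ) (T : (Fin q → SkCfg n) → ℝ)
    {B : ℝ} (hB : BmEv 1 fun ps => B ≤ ckNuF n 1 b h q τ T ps) : B ≤ skCNu n 1 b h q τ T := by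
  classical
  obtain ⟨K, hK⟩ : ∃ K : ℝ, ∀ σ, |T σ| ≤ K :=
    ⟨∑ σ, |T σ|, fun σ => Finset.single_le_sum (f := fun σ => |T σ|) (fun _ _ => abs_nonneg _) (Finset.mem_univ σ)⟩
  have hK0 : 0 ≤ K := by
    by_cases hne : Nonempty (Fin q → SkCfg n)
    · obtain ⟨σ⟩ := hne
      exact (abs_nonneg _).trans (hK σ)
    · exact absurd ⟨fun _ _ => true⟩ hne
  obtain ⟨F1, hF1⟩ := hB.exists_base
  refine le_of_forall_pos_le_add fun ε hε => ?_
  obtain ⟨F0, hF0⟩ := exit_clk_lim_nu hn one_pos H q (δ := ε / (K + 1)) (by positivity)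
  have h1 := hF0 (F0 ∪ F1 ∪ ghForks q τ) (Finset.subset_union_left.trans Finset.subset_union_left) τ hτ
    (fun x y p hx hy hp => Finset.mem_union_right _ (by
      unfold ghForks
      refine Finset.mem_image.2 ⟨(x, y), Finset.mem_product.2 ⟨Finset.mem_range.2 hx, Finset.mem_range.2 hy⟩, ?_⟩
      simp [hp])) T K hK
  have h2 := hF1 (F0 ∪ F1 ∪ ghForks q τ) (Finset.subset_union_right.trans Finset.subset_union_left)
  have h3 : ε / (K + 1) * K ≤ ε := by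
    rw [div_mul_eq_mul_div, div_le_iff₀ (by positivity)]
    nlinarith
  have h4 := (abs_le.1 h1).2
  linarith

/-- the star moments are nonnegative -/
theorem brx_mx_nonneg {n : ℕ} {b h : ℝ → ℝ} (hn : 0 < n) (H : CkAdm 1 b h) (l : ℕ) {p : GhPos} (hp : p.Ok 1) : 0 ≤ cmkMX n b h l p := by
  unfold cmkMX
  refine brx_nu_ge hn H (ckm_star_rt hp _) _ (Filter.Eventually.of_forall fun F => ?_)
  beta_reduce
  rw [ckm_star hn H F l p]
  exact integral_nonneg fun ω => by positivity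

/-- **(C8) for the tree numbers of the changed path**, every exponent.      TEX[LL:bud:outer-moments] -/
theorem bud_c8_tree (hX : X.Ok) {c C : ℝ} (hcp : 0 < c) (hc1 : c ≤ 1) (hC : 1 ≤ C) (l : ℕ) (hl : 1 ≤ l) :
    ∃ (Kc : ℝ) (N0 : ℕ), 0 < Kc ∧ ∀ W : BdWorld, W.IsHub → ∀ (F : BdFr) (g : ℝ) (Q : BdQ F X) (w c0 : ℝ), BudRxH X W F g Q w c C c0 → N0 ≤ F.N →
      ∀ p : GhPos, p.Ok 1 →
        cmkMX F.m (Q.bE g) (Q.hE g) l p ≤ (Kc * (p.u + w)) ^ l ∧ cmkMR F.m (Q.bE g) (Q.hE g) l p ≤ (Kc * (p.u + w)) ^ (2 * l) := by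
  obtain ⟨N1, h1⟩ := bud_rx_raw hX hcp hC hl
  obtain ⟨A2, N2, hA2, h2⟩ := bud_rx_raw2 hX hcp hc1 hC hl
  have hQ0 := bud_rx_Q0_ge c hC
  have hQ00 : 0 ≤ budRxQ0 c C := by linarith
  refine ⟨max (budRxQ0 c C ^ 2) A2, max N1 N2, lt_of_lt_of_le hA2 (le_max_right _ _), fun W hW F g Q w c0 hI hN p hp => ?_⟩
  have hN1 : N1 ≤ F.N := (le_max_left _ _).trans hN
  have hN2 : N2 ≤ F.N := (le_max_right _ _).trans hN
  have hn := bud_rx_m_pos hI.ok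
  have H := bud_rx_adm hI
  have hw0 : 0 < w := bud_rx_w_pos hX hI
  have hraw := h1 W hW F g Q w c0 hI hN1
  have hs0 : 0 ≤ w + p.u := by linarith [hp.1]
  have e : p.u + w = w + p.u := add_comm _ _
  rw [e]
  constructor
  · have hR : BmEv 1 fun ps => (ckM F.m (Q.bE g) (Q.hE g) ps).Raw (2 * l) (budRxQ0 c C) w :=
      Filter.Eventually.mono (f := atTop) hraw fun F' hF => ckm_raw_exp (ckm_ok hn H F') (by omega) (by omega) hF
    refine (ckm_mx hn H hl hQ00 hw0.le hR hp).trans ?_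
    exact pow_le_pow_left₀ (mul_nonneg (sq_nonneg _) hs0) (mul_le_mul_of_nonneg_right (le_max_left _ _) hs0) _
  · refine (ckm_mr hn H hl hA2.le hw0.le (h2 W hW F g Q w c0 hI hN2) hp).trans ?_
    exact pow_le_pow_left₀ (mul_nonneg hA2.le hs0) (mul_le_mul_of_nonneg_right (le_max_right _ _) hs0) _

/-- **(C8) for the numbers `CmNum` of the changed path**, one exponent at a time -/
theorem bud_c8_num (hX : X.Ok) {c C : ℝ} (hcp : 0 < c) (hc1 : c ≤ 1) (hC : 1 ≤ C) (q : ℕ) (hq : 1 ≤ q) :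
    ∃ (A : ℝ) (N0 : ℕ), 0 < A ∧ ∀ W : BdWorld, W.IsHub → ∀ (F : BdFr) (g : ℝ) (Q : BdQ F X) (w c0 : ℝ), BudRxH X W F g Q w c C c0 → N0 ≤ F.N →
      ∀ u ∈ Icc (0 : ℝ) 1, (Q.bosNum g).NX q u ≤ A * Real.sqrt (u + w) ∧ (Q.bosNum g).NR u ≤ A * (u + w) := by
  obtain ⟨K1, N1, hK1, h1⟩ := bud_c8_tree hX hcp hc1 hC q hq
  obtain ⟨K2, N2, hK2, h2⟩ := bud_c8_tree hX hcp hc1 hC 1 le_rfl
  refine ⟨max (Real.sqrt K1) K2, max N1 N2, lt_of_lt_of_le hK2 (le_max_right _ _), fun W hW F g Q w c0 hI hN u hu => ?_⟩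
  have hN1 : N1 ≤ F.N := (le_max_left _ _).trans hN
  have hN2 : N2 ≤ F.N := (le_max_right _ _).trans hN
  have hw0 : 0 < w := bud_rx_w_pos hX hI
  have hn := bud_rx_m_pos hI.ok
  have H := bud_rx_adm hI
  have hpos := gci_posA_ok hu.1 hu.2
  have hux : 0 ≤ u + w := by linarith [hu.1]
  constructor
  · have a1 : cmkMX F.m (Q.bE g) (Q.hE g) q (ghPosA u) ≤ (K1 * (u + w)) ^ q := (h1 W hW F g Q w c0 hI hN1 (ghPosA u) hpos).1
    have a0 := brx_mx_nonneg hn H q hpos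
    have hqR : (0 : ℝ) < q := by exact_mod_cast hq
    have hb : 0 ≤ K1 * (u + w) := mul_nonneg hK1.le hux
    show (cmkMX F.m (Q.bE g) (Q.hE g) q (ghPosA (cmkCl u))) ^ (1 / (2 * (q : ℝ))) ≤ _
    rw [gci_cl hu.1 hu.2]
    calc (cmkMX F.m (Q.bE g) (Q.hE g) q (ghPosA u)) ^ (1 / (2 * (q : ℝ)))
        ≤ ((K1 * (u + w)) ^ q) ^ (1 / (2 * (q : ℝ))) := Real.rpow_le_rpow a0 a1 (by positivity)
      _ = (K1 * (u + w)) ^ ((1 : ℝ) / 2) := by
          rw [← Real.rpow_natCast, ← Real.rpow_mul hb]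
          congr 1
          field_simp
      _ = Real.sqrt K1 * Real.sqrt (u + w) := by rw [← Real.sqrt_eq_rpow, Real.sqrt_mul hK1.le]
      _ ≤ max (Real.sqrt K1) K2 * Real.sqrt (u + w) := mul_le_mul_of_nonneg_right (le_max_left _ _) (Real.sqrt_nonneg _)
  · have a1 : skCB F.m 1 (Q.bE g) (Q.hE g) (ghPosA u) ≤ (K2 * (u + w)) ^ 2 := (h2 W hW F g Q w c0 hI hN2 (ghPosA u) hpos).2
    have hb : 0 ≤ K2 * (u + w) := mul_nonneg hK2.le hux
    show Real.sqrt (skCB F.m 1 (Q.bE g) (Q.hE g) (ghPosA (cmkCl u))) ≤ _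
    rw [gci_cl hu.1 hu.2]
    calc Real.sqrt (skCB F.m 1 (Q.bE g) (Q.hE g) (ghPosA u)) ≤ Real.sqrt ((K2 * (u + w)) ^ 2) := Real.sqrt_le_sqrt a1
      _ = K2 * (u + w) := Real.sqrt_sq hb
      _ ≤ max (Real.sqrt K1) K2 * (u + w) := mul_le_mul_of_nonneg_right (le_max_right _ _) hux

/-- (C8), first two moments, in the world: `B_v ≤ (A (v+w))²`, `S_v, D_v ≤ A (v+w)` -/
theorem bud_c8_world (hX : X.Ok) {c C : ℝ} (hcp : 0 < c) (hc1 : c ≤ 1) (hC : 1 ≤ C) :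
    ∃ (A : ℝ) (N0 : ℕ), 0 < A ∧ ∀ W : BdWorld, W.IsHub → ∀ (F : BdFr) (g : ℝ) (Q : BdQ F X) (w c0 : ℝ), BudRxH X W F g Q w c C c0 → N0 ≤ F.N →
      ∀ v ∈ Ioo (0 : ℝ) 1, Q.Bq W g v ≤ (A * (v + w)) ^ 2 ∧ Q.Sq W g v ≤ A * (v + w) ∧ Q.Dq W g v ≤ A * (v + w) := by
  obtain ⟨A, N0, hA, h⟩ := bud_rx_B hX hcp hc1 hC
  refine ⟨A, N0, hA, fun W hW F g Q w c0 hI hN v hv => ?_⟩
  have hB := h W hW F g Q w c0 hI hN v hv
  have hw0 : 0 < w := bud_rx_w_pos hX hI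
  have hR0 : 0 ≤ A * (v + w) := by have := hv.1; positivity
  have ha := hI.base.a1
  have hv' : v ∈ Ioo 0 (W.ps F.m).a := by rw [ha]; exact hv
  have s1 : Q.Sq W g v ^ 2 ≤ Q.Bq W g v := (W.ps F.m).S_sq_le _ _ (ha ▸ hI.clkb) (ha ▸ hI.clkh) v hv'
  refine ⟨hB, (abs_le_of_sq_le_sq' (s1.trans hB) hR0).2, (bud_rx_SD_le hI hv).2.2.trans ?_⟩
  exact Real.sqrt_le_iff.2 ⟨hR0, hB⟩

end exits

/-! ## 2. Producers of `BudRxH` from `BdStd` -/

section consumers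

variable {X : BdFix} {W : BdWorld} {Fam : BdFr → Prop} {Kd : BdCst}

/-- an instance of 12 with outer regularity satisfies `BudRxH` with the constants normalised to `c ≤ 1 ≤ C` (potential of `bud_n4_geo`) -/
theorem brx_h_of_out (hS : BdStd X W Fam Kd) (cL CL : ℝ) :
    ∃ N0 : ℕ, ∀ i : Bd7I X, i.Out W Fam cL CL → N0 ≤ i.F.N → ∃ c0 : ℝ, BudRxH X W i.F i.g i.Q i.w (min cL 1) (max CL 1) c0 := by
  obtain ⟨N0, h⟩ := bud_n4_geo X hS.fix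
  refine ⟨N0, fun i hi hN => ?_⟩
  have hB : i.F.Base X W i.g := bdg_base hS hi.fam i.Q hi.g_mem
  obtain ⟨c0, hg, -⟩ := h i.F hi.ok hN W i.g hB i.Q hi.opt
  have hclk := hS.clk i.F hi.fam i.g hi.g_mem i.Q
  have hwc : 0 < i.F.wc X := BdFr.wc_pos' hS.fix hi.ok
  refine ⟨c0, ⟨hi.ok, hi.w_lo, hi.w_hi, fun v hv hv1 => ?_, hB, hclk.1, hclk.2, hg⟩⟩
  have hv' : 2 * i.w ≤ v := hv
  have hv0 : 0 ≤ v := by linarith [hi.w_lo]
  obtain ⟨a, b⟩ := hi.reg v hv hv1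
  exact ⟨(mul_le_mul_of_nonneg_right (min_le_left _ _) hv0).trans a, b.trans (mul_le_mul_of_nonneg_right (le_max_left _ _) hv0)⟩

/-- after (C7): every optimiser, with the scale `w_c`, has outer regularity -/
theorem brx_out_wc (hS : BdStd X W Fam Kd) {cL CL : ℝ} (h7 : Bd7C7a X W Fam cL CL) :
    ∃ N0 : ℕ, ∀ i : BdI X, i.Ok W Fam → N0 ≤ i.F.N → (⟨i.F, i.g, i.Q, i.F.wc X⟩ : Bd7I X).Out W Fam cL CL := by
  obtain ⟨N1, h1⟩ := h7
  obtain ⟨N2, h2⟩ := ff_sc_ev X hS.fix 1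
  refine ⟨max N1 N2, fun i hi hN => ?_⟩
  have hF := hS.ok _ hi.1
  have hs := h2 i.F hF ((le_max_right _ _).trans hN)
  have hwc : 0 < i.F.wc X := BdFr.wc_pos' hS.fix hF
  have hstd : ∀ w : ℝ, (⟨i.F, i.g, i.Q, w⟩ : Bd7I X).Std W Fam := fun w => ⟨hi.1, hF, hi.2.1, hi.2.2⟩
  refine { toStd := hstd _, w_lo := le_rfl, w_hi := ?_, reg := fun v hv hv1 => ?_ }
  · show i.F.yc X * i.F.u ≤ 1
    have a := hs.yK; have b := hs.uK
    rw [one_mul] at a b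
    exact mul_le_one₀ a hs.u0.le b
  · have hv' : 2 * i.F.wc X ≤ v := hv
    exact h1 ⟨i.F, i.g, i.Q, v⟩ (hstd v) ((le_max_left _ _).trans hN) ⟨by show i.F.wc X ≤ v; linarith, hv1⟩

/-- after (C7): every optimiser, with the scale `w_c`, satisfies `BudRxH` -/
theorem brx_h_wc (hS : BdStd X W Fam Kd) {cL CL : ℝ} (h7 : Bd7C7a X W Fam cL CL) :
    ∃ N0 : ℕ, ∀ i : BdI X, i.Ok W Fam → N0 ≤ i.F.N → ∃ c0 : ℝ, BudRxH X W i.F i.g i.Q (i.F.wc X) (min cL 1) (max CL 1) c0 := by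
  obtain ⟨N1, h1⟩ := brx_out_wc hS h7
  obtain ⟨N2, h2⟩ := brx_h_of_out hS cL CL
  exact ⟨max N1 N2, fun i hi hN => h2 _ (h1 i hi ((le_max_left _ _).trans hN)) ((le_max_right _ _).trans hN)⟩

/-! ## 3. The forms of the consumers -/

/-- **EXIT: `Bd7Raw`** (12, 198; `BcsRaw` of 190 follows by `bcs_raw_of_bd7`); same as `bud_rx_bd7raw` of 7, from `BdStd` alone.      TEX[LL:bud:outer-moments] -/
theorem bud_c8_bd7 (hS : BdStd X W Fam Kd) (hW : W.IsHub) {cL : ℝ} (CL : ℝ) (hcL : 0 < cL) : Bd7Raw X W Fam cL CL := by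
  intro cs _
  obtain ⟨C, N1, -, h1⟩ := bud_c8_world hS.fix (lt_min hcL one_pos) (min_le_right cL 1) (le_max_right CL 1)
  obtain ⟨N2, h2⟩ := brx_h_of_out hS cL CL
  refine ⟨C, max N1 N2, fun i hi hN v hv => ?_⟩
  obtain ⟨c0, hR⟩ := h2 i hi.toOut ((le_max_right _ _).trans hN)
  exact (h1 W hW _ _ _ _ c0 hR ((le_max_left _ _).trans hN) v hv).2

/-- **EXIT: `BudFfRaw`** (248, 161), on every optimiser.      TEX[LL:bud:outer-moments] -/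
theorem bud_c8_ff (hS : BdStd X W Fam Kd) (hW : W.IsHub) {cL CL : ℝ} (hcL : 0 < cL) (h7 : Bd7C7a X W Fam cL CL) {P : BdI X → Prop}
    (hP : ∀ i, P i → i.Ok W Fam) : BudFfRaw X P := by
  intro q hq
  obtain ⟨C, N1, -, h1⟩ := bud_c8_num hS.fix (lt_min hcL one_pos) (min_le_right cL 1) (le_max_right CL 1) q hq
  obtain ⟨N2, h2⟩ := brx_h_wc hS h7
  refine ⟨C, max N1 N2, fun i hi hN u hu => ?_⟩
  obtain ⟨c0, hR⟩ := h2 i (hP i hi) ((le_max_right _ _).trans hN)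
  exact h1 W hW _ _ _ _ c0 hR ((le_max_left _ _).trans hN) u hu

/-- **EXIT: the hypothesis `h8` of `bos_inst_ff`** (111) and (C8), first two moments, unconditional at the threshold `w_c` -/
theorem bud_c8_B (hS : BdStd X W Fam Kd) (hW : W.IsHub) {cL CL : ℝ} (hcL : 0 < cL) (h7 : Bd7C7a X W Fam cL CL) :
    ∃ (Cr : ℝ) (N1 : ℕ), 0 < Cr ∧ ∀ i : BdI X, i.Ok W Fam → N1 ≤ i.F.N → ∀ v ∈ Ioo (0 : ℝ) 1,
      i.Q.Bq W i.g v ≤ (Cr * (v + i.F.wc X)) ^ 2 ∧ i.Q.Sq W i.g v ≤ Cr * (v + i.F.wc X) ∧ i.Q.Dq W i.g v ≤ Cr * (v + i.F.wc X) := by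
  obtain ⟨C, N1, hC, h1⟩ := bud_c8_world hS.fix (lt_min hcL one_pos) (min_le_right cL 1) (le_max_right CL 1)
  obtain ⟨N2, h2⟩ := brx_h_wc hS h7
  refine ⟨C, max N1 N2, hC, fun i hi hN v hv => ?_⟩
  obtain ⟨c0, hR⟩ := h2 i hi ((le_max_right _ _).trans hN)
  exact h1 W hW _ _ _ _ c0 hR ((le_max_left _ _).trans hN) v hv

/-- **EXIT: `BudHpRaw`** (8): (C8) at step level on the sampled changed path.      TEX[LL:bud:outer-moments] -/
theorem bud_c8_hp (hS : BdStd X W Fam Kd) (hW : W.IsHub) {cL CL : ℝ} (hcL : 0 < cL) (h7 : Bd7C7a X W Fam cL CL) : BudHpRaw X W Fam := by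
  intro l hl
  obtain ⟨N1, h1⟩ := bud_rx_raw hS.fix (lt_min hcL one_pos) (le_max_right CL 1) hl
  obtain ⟨N2, h2⟩ := brx_h_wc hS h7
  refine ⟨budRxQ0 (min cL 1) (max CL 1), bud_rx_Q0_ge _ (le_max_right CL 1), max N1 N2, fun i hi hN => ?_⟩
  obtain ⟨c0, hR⟩ := h2 i hi.1 ((le_max_right _ _).trans hN)
  exact h1 W hW _ _ _ _ c0 hR ((le_max_left _ _).trans hN)

/-- **EXIT: `BudHpSv`** (8): `S_v ≤ CS v` above `c_H u` (`w_c = y_c u ≤ c_H u`) -/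
theorem bud_c8_sv (hS : BdStd X W Fam Kd) (hW : W.IsHub) {cL CL : ℝ} (hcL : 0 < cL) (h7 : Bd7C7a X W Fam cL CL) :
    ∃ CS : ℝ, BudHpSv X W Fam CS := by
  obtain ⟨C, N1, hC, h1⟩ := bud_c8_B hS hW hcL h7
  obtain ⟨N2, h2⟩ := ff_sc_ev X hS.fix (1 / X.cH)
  refine ⟨2 * C, bd_ev_iff.2 ⟨max N1 N2, fun i hi hN v hv => ?_⟩⟩
  have hF := hS.ok _ hi.1.1
  have hs := h2 i.F hF ((le_max_right _ _).trans hN)
  have hcH := hS.fix.cH_pos
  have hwc : i.F.wc X ≤ v := by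
    have a := hs.yK
    rw [div_mul_eq_mul_div, one_mul, div_le_one hcH] at a
    exact (mul_le_mul_of_nonneg_right a hs.u0.le).trans hv.1
  have hv0 : 0 < v := lt_of_lt_of_le (mul_pos hcH hs.u0) hv.1
  have := (h1 i hi.1 ((le_max_left _ _).trans hN) v ⟨hv0, hv.2⟩).2.1
  nlinarith

end consumers

end

end Claimed.Agent.R286
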