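import Claimed.Agent.R286.Bud.StarW
import Claimed.Agent.R286.Bud.SecInst
import Claimed.Agent.R286.Bud.L07C

/-!
# Row 286, LL sec. 7, node N7 = LEMMA 7.6: THE EXPORTS      (owner helper190; prefix `bcs_x_`)
TEX[LL:bud:common-star]  = LL `07-budgets.tex` l.441-547;   consumers: Step 2 of (C7) (helper12, `Bd7SIn.band`), Prop. 7.7 (helper33/76, `Bd7CSup`, l.586-603 "supply its remaining inputs (12), (17)-(19)").

GLUE ONLY (no leaf of its own):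
* `bud_star_n5`     Lemma 7.6 over the Hub from the three exits of N5 only ((C8), (C9), resampled residual); N6 enters through `bos_inst_c10/sw/nf` (111).
* `bcs_x_band`      `Bd7Band` (12) from `IsHub`, `BcsBase`, `Bd7Adm`, `Bd7Raw`;   `bcs_x_band_all`: for ALL loose constants `0 < cL ≤ CL` (cited by `bi7_band`, `Bud/Inst`).
* `bcs_x_c10f`      (C10) on ALL regular dyads `4w ≤ v ≤ 1/2` (`bos_c10_core` + `bos_reg_of_cls` of 111) in the vocabulary of `Bud/Star`;   `BcsC10F` is VERBATIM `Bd7CC10` of 33 (`Bud/L07Ca`, which imports this file).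
* `bcs_x_high`      PE (18) per dyad in cumulative form, above `Kx w` (saving relative to `w`) and above `KU W` (saving relative to `w²/W`).
* `bcs_x_low`       PE (19): `∫_0^U D < et w²` for `U ≤ C'W`.
* `bcs_x_star`      the star: `S_* ≍ W`, `D_*`, PE (17), at the position `ghPosA v_*`.
* `bcs_x_cav`       THE SEVEN FIELDS `lowX highX SLo Dst mom lowU highU` of `CavP.Ok/.Star` (76, `Cav/Lim`) for `i.cav C sv et (ghPosA (Kx w)) (ghPosA v_*) (ghPosA (KU W))` (33, `Bud/L07C`), `sv ≥ x^cst` arbitrary.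
DICTIONARY (world = Hub): `cvDC m bE hE (ghPosA v) = D_v`, `skCS .. (ghPosA v) = S_v`, `CavP.mom (ghPosA v) c k = E|Q_v - c|^(2k)`   for `v ∈ (0,1)`.
-/

set_option autoImplicit false

namespace Claimed.Agent.R286

open MeasureTheory Set Filter Topology

noncomputable section

/-! ## 1. Lemma 7.6 from N5 only; export to Step 2 of (C7) -/

section partA
variable {X : BdFix} {W : BdWorld} {Fam : BdFr → Prop} {K : BcsK}

/-- **LEMMA 7.6** over the Hub; the only hypotheses left are the three exits of N5.      TEX[LL:bud:common-star] -/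
theorem bud_star_n5 (hX : X.Ok) (hK : K.Ok) (hW : W.IsHub)
    (h8 : BcsRaw W (BcsIn.Cls (X := X) · W Fam K)) (h9 : BcsC9 W (BcsIn.Cls (X := X) · W Fam K) K) (hres : BcsRes W (BcsIn.Cls (X := X) · W Fam K)) :
    BcsS1 W (BcsIn.Cls (X := X) · W Fam K) ∧ BcsS2 W (BcsIn.Cls (X := X) · W Fam K) ∧ BcsS3 W (BcsIn.Cls (X := X) · W Fam K) ∧
      BcsCut W (BcsIn.Cls (X := X) · W Fam K) K :=
  bud_star_hub hX hK hW h8 h9 hres (bos_inst_c10 hX hK hW h8) (bos_inst_sw hX hK hW h8) (bos_inst_nf hX hK hW h8)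

/-- **`Bd7Band`** (the field `band` of `Bd7SIn`, helper12): needs (C8) only.      TEX[LL:bud:common-star] -/
theorem bcs_x_band {cL CL i0 Kb : ℝ} (hX : X.Ok) (hW : W.IsHub) (hc : 0 < cL) (hc1 : cL ≤ 1) (hC : 1 ≤ CL) (hi0 : 0 < i0)
    (hb : BcsBase X W Fam) (hadm : Bd7Adm X W Fam Kb) (hilo : ∀ F, Fam F → i0 ≤ F.Ilo) (hraw : Bd7Raw X W Fam cL CL) :
    Bd7Band X W Fam cL CL := by
  have hK : ∀ cs, 0 < cs → (⟨cL, CL, cs, i0⟩ : BcsK).Ok := fun cs hcs => ⟨hc, hc1, hC, hcs, hi0⟩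
  have h8 : ∀ cs, 0 < cs → BcsRaw W (BcsIn.Cls (X := X) · W Fam ⟨cL, CL, cs, i0⟩) := fun cs hcs => bcs_raw_of_bd7 (hK cs hcs) hraw
  exact bd7_band_of_star hX hc hc1 hC hi0 hb hadm hilo
    (fun cs hcs => bud_star_S1 hX (hK cs hcs) (h8 cs hcs) (bos_inst_nf hX (hK cs hcs) hW (h8 cs hcs)))
    (fun cs hcs => bud_star_S2 hX (hK cs hcs) (bos_inst_sw hX (hK cs hcs) hW (h8 cs hcs)))

/-- the class of strong instances decreases when the loose constants are tightened -/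
theorem bcs_x_str_mono (hX : X.Ok) {cL CL cL' CL' cs : ℝ} (h1 : cL' ≤ cL) (h2 : CL ≤ CL') {i : Bd7I X} (hi : i.Str W Fam cL CL cs) :
    i.Str W Fam cL' CL' cs := by
  have hw : 0 < i.w := lt_of_lt_of_le (BdFr.wc_pos' hX hi.ok) hi.w_lo
  exact
    { toStd := hi.toStd
      w_lo := hi.w_lo
      w_hi := hi.w_hi
      reg := fun v a b => by
        have hv : 0 ≤ v := by linarith
        obtain ⟨r1, r2⟩ := hi.reg v a b
        exact ⟨(mul_le_mul_of_nonneg_right h1 hv).trans r1, r2.trans (mul_le_mul_of_nonneg_right h2 hv)⟩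
      strong := hi.strong }

/-- **`Bd7Band` for ALL loose constants** (the field `band` of `Bd7In`, helper12, `Bud/L07X`) -/
theorem bcs_x_band_all {i0 Kb : ℝ} (hX : X.Ok) (hW : W.IsHub) (hi0 : 0 < i0)
    (hb : BcsBase X W Fam) (hadm : Bd7Adm X W Fam Kb) (hilo : ∀ F, Fam F → i0 ≤ F.Ilo)
    (hraw : ∀ cL CL : ℝ, 0 < cL → cL ≤ CL → Bd7Raw X W Fam cL CL) :
    ∀ cL CL : ℝ, 0 < cL → cL ≤ CL → Bd7Band X W Fam cL CL := by
  intro cL CL h1 _ cs c C ε hcs hc hε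
  have hm : 0 < min cL 1 := lt_min h1 one_pos
  have hB := bcs_x_band hX hW hm (min_le_right _ _) (le_max_right CL 1) hi0 hb hadm hilo
    (hraw _ _ hm ((min_le_right _ _).trans (le_max_right _ _)))
  obtain ⟨N0, h⟩ := hB cs c C ε hcs hc hε
  exact ⟨N0, fun i hi hN => h i (bcs_x_str_mono hX (min_le_left _ _) (le_max_left _ _) hi) hN⟩

end partA

/-! ## 2. (C10) on all regular dyads -/

/-- **(C10)** on ALL the regular dyads `Kr w ≤ v ≤ 1/2` -/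
def BcsC10F {X : BdFix} (W : BdWorld) (P : BcsIn X → Prop) : Prop :=
  ∃ Kr clo chi : ℝ, 1 ≤ Kr ∧ 0 < clo ∧ clo ≤ chi ∧ ∀ ε : ℝ, 0 < ε → ∃ (Cc : ℝ) (N0 : ℕ), 0 < Cc ∧ ∀ I, P I → N0 ≤ I.F.N →
    ∀ v : ℝ, Kr * I.w ≤ v → 2 * v ≤ 1 →
      ∫ t in v..(2 * v), I.D2 W t ≤ v * (Cc * I.F.x ^ (-ε) * bcsR10 I.F X clo chi v) ^ 2

theorem bcs_x_eqns_cite : True := by
  have := @BcsC10F.eq_1
  trivial

/-- the right side of (C10) increases with the band of the indicator -/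
theorem bcs_x_R10_mono {X : BdFix} (hX : X.Ok) {F : BdFr} (hF : F.Ok X) (clo : ℝ) {chi chi' : ℝ} (h : chi ≤ chi') (v : ℝ) :
    bcsR10 F X clo chi v ≤ bcsR10 F X clo chi' v := by
  obtain ⟨hx0, hl0, hu0, hm0, hL0, hC0, hvs, hwc, hMj, hBf⟩ := bcs_ha_pos hX hF
  unfold bcsR10
  have : (if clo * F.u ≤ v ∧ v ≤ chi * F.u then F.u * F.Bf X else 0) ≤ (if clo * F.u ≤ v ∧ v ≤ chi' * F.u then F.u * F.Bf X else 0) := by
    by_cases h1 : clo * F.u ≤ v ∧ v ≤ chi * F.u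
    · rw [if_pos h1, if_pos ⟨h1.1, h1.2.trans (mul_le_mul_of_nonneg_right h hu0.le)⟩]
    · rw [if_neg h1]
      split_ifs
      · positivity
      · exact le_rfl
  linarith

section partB
variable {X : BdFix} {W : BdWorld} {Fam : BdFr → Prop} {K : BcsK}

/-- (C10) on all regular dyads, from the core of helper111.      TEX[LL:bud:outer-second] -/
theorem bcs_x_c10f (hX : X.Ok) (hK : K.Ok) (hW : W.IsHub) (h8 : BcsRaw W (BcsIn.Cls (X := X) · W Fam K)) :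
    BcsC10F W (BcsIn.Cls (X := X) · W Fam K) := by
  obtain ⟨Cr, N1, hCr, h8⟩ := h8
  obtain ⟨N2, hreg⟩ := bos_reg_of_cls hX hK hCr h8
  have hc := hK.c0
  have hC : 0 < K.C := lt_of_lt_of_le one_pos hK.C1
  have hi := hK.i00
  refine ⟨4, K.i0 / (2 * K.C), max (K.i0 / (2 * K.C)) (X.cI / K.c), by norm_num, by positivity, le_max_left _ _, fun ε hε => ?_⟩
  obtain ⟨Cc, N3, hCc, h⟩ := bos_c10_core (W := W) (K := K) hX hK hW (le_max_left 1 Cr) ε hε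
  refine ⟨Cc, max N2 N3, hCc, fun I hI hN v hv h2 => ?_⟩
  have h1 := h I (hreg I hI ((le_max_left _ _).trans hN)) ((le_max_right _ _).trans hN) v hv h2
  refine h1.trans ?_
  have hw : 0 < I.w := lt_of_lt_of_le (BdFr.wc_pos' hX hI.ok) hI.w_lo
  have hv0 : 0 ≤ v := by nlinarith
  have hx0 : 0 < I.F.x := (bcs_ha_pos hX hI.ok).1
  have hxe : 0 < I.F.x ^ (-ε) := Real.rpow_pos_of_pos hx0 _
  have hR := bcs_he_R10_nonneg hX hI.ok (K.i0 / (2 * K.C)) (X.cI / K.c) hv0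
  have hm := bcs_x_R10_mono hX hI.ok (K.i0 / (2 * K.C)) (le_max_right (K.i0 / (2 * K.C)) (X.cI / K.c)) v
  gcongr

end partB

/-! ## 3. Tools: congruence off the endpoints, dyadic summation -/

/-- two functions which agree on `(0,1)` have the same integrals on subintervals of `[0,1]` -/
theorem bcs_x_congr {f g : ℝ → ℝ} (h : ∀ t ∈ Ioo (0 : ℝ) 1, f t = g t) {a b : ℝ} (ha : 0 ≤ a) (hab : a ≤ b) (hb : b ≤ 1) :
    (∫ t in a..b, f t = ∫ t in a..b, g t) ∧ (IntervalIntegrable g volume a b → IntervalIntegrable f volume a b) := by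
  have hne : ∀ᵐ x : ℝ, x ≠ 1 := by simp [ae_iff]
  have hae : ∀ᵐ x : ℝ, x ∈ Set.uIoc a b → f x = g x := by
    filter_upwards [hne] with x hx hm
    rw [uIoc_of_le hab] at hm
    exact h x ⟨lt_of_le_of_lt ha hm.1, lt_of_le_of_ne (hm.2.trans hb) hx⟩
  refine ⟨intervalIntegral.integral_congr_ae hae, fun hg => ?_⟩
  refine hg.congr_ae ?_
  rw [Filter.EventuallyEq, ae_restrict_iff' measurableSet_uIoc]
  filter_upwards [hae] with x hx hm
  exact (hx hm).symm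

/-- **dyadic summation**: a bound `v A` on every dyad `[v,2v]`, `U/2 ≤ v`, gives the cumulative bound `∫_U^v f ≤ v A` -/
theorem bcs_x_dyad {f : ℝ → ℝ} {U A : ℝ} (hU : 0 < U) (hA : 0 ≤ A) (hf0 : ∀ t, 0 ≤ f t)
    (hfi : ∀ a b : ℝ, 0 ≤ a → a ≤ b → b ≤ 1 → IntervalIntegrable f volume a b)
    (hd : ∀ v : ℝ, U / 2 ≤ v → 2 * v ≤ 1 → ∫ t in v..(2 * v), f t ≤ v * A) :
    ∀ v : ℝ, U ≤ v → v ≤ 1 → ∫ t in U..v, f t ≤ v * A := by
  have key : ∀ n : ℕ, ∀ v : ℝ, U ≤ v → v ≤ 1 → v ≤ 2 ^ n * U → ∫ t in U..v, f t ≤ v * A := by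
    intro n
    induction n with
    | zero =>
      intro v h1 _ h3
      have e : v = U := le_antisymm (by simpa using h3) h1
      rw [e, intervalIntegral.integral_same]
      positivity
    | succ n ih =>
      intro v h1 h2 h3
      have hd1 := hd (v / 2) (by linarith) (by linarith)
      rw [show 2 * (v / 2) = v by ring] at hd1
      by_cases h : v / 2 ≤ U
      · have e := intervalIntegral.integral_add_adjacent_intervals (hfi (v / 2) U (by linarith) h (by linarith)) (hfi U v hU.le h1 h2)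
        have h0 : 0 ≤ ∫ t in (v / 2)..U, f t := intervalIntegral.integral_nonneg h fun t _ => hf0 t
        have h4 : v / 2 * A ≤ v * A := mul_le_mul_of_nonneg_right (by linarith) hA
        linarith
      · have h' : U ≤ v / 2 := (not_le.1 h).le
        have e := intervalIntegral.integral_add_adjacent_intervals (hfi U (v / 2) hU.le h' (by linarith)) (hfi (v / 2) v (by linarith) (by linarith) h2)
        have h5 := ih (v / 2) h' (by linarith) (by rw [pow_succ] at h3; linarith)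
        have h6 : v / 2 * A + v / 2 * A = v * A := by ring
        linarith
  intro v h1 h2
  obtain ⟨n, hn⟩ := pow_unbounded_of_one_lt (v / U) (one_lt_two)
  refine key n v h1 h2 ?_
  rw [div_lt_iff₀ hU] at hn
  exact hn.le

/-! ## 4. Dictionary world ↔ Hub at the positions `ghPosA v` -/

section dict
variable {X : BdFix} {W : BdWorld} {Fam : BdFr → Prop} {K : BcsK} {I : BcsIn X}

theorem bcs_x_m_pos (hI : I.Cls W Fam K) : 0 < I.F.m := by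
  have h1 := hI.ok.N2
  have h2 := hI.ok.m_lo
  have h3 : (2 : ℝ) ≤ I.F.N := by exact_mod_cast h1
  have h4 : (0 : ℝ) < I.F.m := by linarith
  exact_mod_cast h4

theorem bcs_x_S (hW : W.IsHub) (hI : I.Cls W Fam K) {v : ℝ} (hv : v ∈ Ioo (0 : ℝ) 1) :
    skCS I.F.m 1 (I.Q.bE I.g) (I.Q.hE I.g) (ghPosA v) = I.S W v :=
  (hW.S _ (bcs_x_m_pos hI) _ _ hI.clkb hI.clkh v hv).symm

theorem bcs_x_D (hW : W.IsHub) (hI : I.Cls W Fam K) {v : ℝ} (hv : v ∈ Ioo (0 : ℝ) 1) :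
    cvDC I.F.m (I.Q.bE I.g) (I.Q.hE I.g) (ghPosA v) = I.D W v := by
  have eB : skCB I.F.m 1 (I.Q.bE I.g) (I.Q.hE I.g) (ghPosA v) = I.B W v := (hW.B _ (bcs_x_m_pos hI) _ _ hI.clkb hI.clkh v hv).symm
  unfold cvDC
  rw [bcs_x_S hW hI hv, eB]
  rfl

theorem bcs_x_D2 (hW : W.IsHub) (hI : I.Cls W Fam K) {v : ℝ} (hv : v ∈ Ioo (0 : ℝ) 1) :
    cvDC I.F.m (I.Q.bE I.g) (I.Q.hE I.g) (ghPosA v) ^ 2 = I.D2 W v := by
  rw [bcs_x_D hW hI hv]
  exact ((bcs_stat hI).2.2 v hv).2.2.2.2.1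

/-- the even moments of `Q_v - c`: the number of 76 is the number of the world -/
theorem bcs_x_mom (hW : W.IsHub) (hI : I.Cls W Fam K) (v c : ℝ) (k : ℕ) :
    skCNu I.F.m 1 (I.Q.bE I.g) (I.Q.hE I.g) 2 (ghR2 (ghPosA v)) (fun σ => (skOv (σ 0) (σ 1) - c) ^ (2 * k))
      = I.Q.mQ W I.g ((2 * k : ℕ) : ℝ) v c := by
  unfold BdQ.mQ
  rw [hW.nu _ _ _ hI.clkb hI.clkh]
  have e1 : bmTree (fun _ _ => v) = ghR2 (ghPosA v) := rfl
  have e2 : bmTest I.F.m 2 (fun O => |O 0 1 - c| ^ ((2 * k : ℕ) : ℝ)) = fun σ => (skOv (σ 0) (σ 1) - c) ^ (2 * k) := by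
    funext σ
    unfold bmTest
    have e3 : (if h : (0 : ℕ) < 2 ∧ (1 : ℕ) < 2 then skOv (σ ⟨0, h.1⟩) (σ ⟨1, h.2⟩) else 0) = skOv (σ 0) (σ 1) :=
      dif_pos ⟨by norm_num, by norm_num⟩
    show |(if h : (0 : ℕ) < 2 ∧ (1 : ℕ) < 2 then skOv (σ ⟨0, h.1⟩) (σ ⟨1, h.2⟩) else 0) - c| ^ ((2 * k : ℕ) : ℝ) = _
    rw [e3, Real.rpow_natCast, (even_two_mul k).pow_abs]
  rw [e1, e2]
  rfl

/-- from the norm to the even moment (no sign information on the number is needed) -/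
theorem bcs_x_of_norm {M A : ℝ} {k : ℕ} (hk : 1 ≤ k) (h : M ^ (1 / ((2 * k : ℕ) : ℝ)) ≤ A) : M ≤ A ^ (2 * k) := by
  rcases le_or_gt M 0 with h0 | h0
  · exact h0.trans ((even_two_mul k).pow_nonneg A)
  · have hp : (0 : ℝ) < ((2 * k : ℕ) : ℝ) := by
      have : 0 < 2 * k := by omega
      exact_mod_cast this
    have h1 : 0 ≤ M ^ (1 / ((2 * k : ℕ) : ℝ)) := Real.rpow_nonneg h0.le _
    have h2 := pow_le_pow_left₀ h1 h (2 * k)
    rw [← Real.rpow_natCast, ← Real.rpow_mul h0.le, one_div, inv_mul_cancel₀ hp.ne', Real.rpow_one] at h2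
    exact h2

end dict

/-! ## 5. PE (18), (19), (17) for the changed path of an instance of the class -/

section fields
variable {X : BdFix} {W : BdWorld} {Fam : BdFr → Prop} {K : BcsK}

/-- per-dyad bounds with the amplitude `A` ⟹ the cumulative form of 76 (the factor `2` is paid by the `1/4`) -/
theorem bcs_x_cum (hW : W.IsHub) {I : BcsIn X} (hI : I.Cls W Fam K) {U A : ℝ} (hU : 0 < U)
    (hd : ∀ v : ℝ, U / 2 ≤ v → 2 * v ≤ 1 → ∫ t in v..(2 * v), I.D2 W t ≤ v * (A ^ 2 / 4)) :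
    ∀ v : ℝ, U ≤ v → v ≤ 1 → 2 * ∫ t in U..v, cvDC I.F.m (I.Q.bE I.g) (I.Q.hE I.g) (ghPosA t) ^ 2 ≤ v * A ^ 2 := by
  intro v h1 h2
  have hc : ∀ t ∈ Ioo (0 : ℝ) 1, cvDC I.F.m (I.Q.bE I.g) (I.Q.hE I.g) (ghPosA t) ^ 2 = I.D2 W t := fun t ht => bcs_x_D2 hW hI ht
  have h3 := bcs_x_dyad (f := fun t => cvDC I.F.m (I.Q.bE I.g) (I.Q.hE I.g) (ghPosA t) ^ 2) hU (by positivity : 0 ≤ A ^ 2 / 4)
    (fun t => sq_nonneg _) (fun a b ha hab hb => (bcs_x_congr hc ha hab hb).2 (bcs_int hI ha hab hb).1)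
    (fun v hv h2v => by rw [(bcs_x_congr hc (by linarith) (by linarith) h2v).1]; exact hd v hv h2v) v h1 h2
  have hv0 : 0 ≤ v := by linarith
  nlinarith [mul_nonneg hv0 (sq_nonneg A)]

/-- **PE (18)** above `Kx w` (relative to `w`) and above `KU W` (relative to `w²/W`), l.469-478.      TEX[LL:bud:common-star] -/
theorem bcs_x_high (hX : X.Ok) (hK : K.Ok) (hW : W.IsHub) (h10 : BcsC10F W (BcsIn.Cls (X := X) · W Fam K)) :
    ∃ K0 : ℝ, 1 ≤ K0 ∧ ∀ Kx KU : ℝ, K0 ≤ Kx → K0 ≤ KU → ∃ N0 : ℕ, ∀ I : BcsIn X, I.Cls W Fam K → N0 ≤ I.F.N →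
      (∀ v : ℝ, Kx * I.w ≤ v → v ≤ 1 →
        2 * ∫ t in (Kx * I.w)..v, cvDC I.F.m (I.Q.bE I.g) (I.Q.hE I.g) (ghPosA t) ^ 2 ≤ v * (I.F.x ^ (10 * X.zeta) * I.w) ^ 2) ∧
      (∀ v : ℝ, KU * I.Ws ≤ v → v ≤ 1 →
        2 * ∫ t in (KU * I.Ws)..v, cvDC I.F.m (I.Q.bE I.g) (I.Q.hE I.g) (ghPosA t) ^ 2
          ≤ v * (I.F.x ^ (10 * X.zeta) * (I.w ^ 2 / I.Ws)) ^ 2) := by
  obtain ⟨Kr, clo, chi, hKr, hclo, hchi, h10⟩ := h10
  have hz := hX.zeta_pos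
  obtain ⟨Cc, N1, hCc, h10⟩ := h10 X.zeta hz
  refine ⟨2 * Kr, by linarith, fun Kx KU hKx hKU => ?_⟩
  obtain ⟨N2, hmid⟩ := bcs_num_mid X hX K.cs clo chi 1 hK.cs0 hclo hchi le_rfl
  obtain ⟨N3, hhi⟩ := bcs_num_high X hX K.cs clo chi 1 hK.cs0 hclo hchi one_pos
  obtain ⟨N4, habs⟩ := bcs_num_absorb (2 * Cc) X.zeta (12 * X.zeta) (10 * X.zeta) (by linarith)
  obtain ⟨N5, hsc⟩ := bcs_num_scale X hX K.cs K.i0 1 hK.cs0 hK.i00 le_rfl
  refine ⟨max N1 (max N2 (max N3 (max N4 N5))), fun I hI hN => ?_⟩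
  have n1 : N1 ≤ I.F.N := (le_max_left _ _).trans hN
  have hN := (le_max_right _ _).trans hN
  have n2 : N2 ≤ I.F.N := (le_max_left _ _).trans hN
  have hN := (le_max_right _ _).trans hN
  have n3 : N3 ≤ I.F.N := (le_max_left _ _).trans hN
  have hN := (le_max_right _ _).trans hN
  have n4 : N4 ≤ I.F.N := (le_max_left _ _).trans hN
  have n5 : N5 ≤ I.F.N := (le_max_right _ _).trans hN
  have sc := hsc I.F hI.ok n5 I.w hI.w_lo hI.strong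
  obtain ⟨hx0, hx1, hab⟩ := habs I.F n4
  have hw0 := sc.w0
  have hwW : I.w ≤ I.Ws := sc.wW
  have hW0 : 0 < I.Ws := hw0.trans_le hwW
  have hKr0 : 0 < Kr := by linarith
  have p1 := Real.rpow_pos_of_pos hx0 (-X.zeta)
  have p2 := Real.rpow_pos_of_pos hx0 (12 * X.zeta)
  have p3 := Real.rpow_pos_of_pos hx0 (10 * X.zeta)
  have core : ∀ A v : ℝ, 0 ≤ A → Kr * I.w ≤ v → 2 * v ≤ 1 → bcsR10 I.F X clo chi v ≤ I.F.x ^ (12 * X.zeta) * A →
      ∫ t in v..(2 * v), I.D2 W t ≤ v * ((I.F.x ^ (10 * X.zeta) * A) ^ 2 / 4) := by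
    intro A v hA hv h2 hR
    have hv0 : 0 ≤ v := (by positivity : 0 ≤ Kr * I.w).trans hv
    refine (h10 I hI n1 v hv h2).trans (mul_le_mul_of_nonneg_left ?_ hv0)
    have hR0 := bcs_he_R10_nonneg hX hI.ok clo chi hv0
    have h3 : Cc * I.F.x ^ (-X.zeta) * bcsR10 I.F X clo chi v ≤ I.F.x ^ (10 * X.zeta) * A / 2 := by
      calc Cc * I.F.x ^ (-X.zeta) * bcsR10 I.F X clo chi v ≤ Cc * I.F.x ^ (-X.zeta) * (I.F.x ^ (12 * X.zeta) * A) := by gcongr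
        _ = (2 * Cc * I.F.x ^ (-X.zeta) * I.F.x ^ (12 * X.zeta)) * A / 2 := by ring
        _ ≤ I.F.x ^ (10 * X.zeta) * A / 2 := by gcongr
    have h4 : 0 ≤ Cc * I.F.x ^ (-X.zeta) * bcsR10 I.F X clo chi v := by positivity
    calc (Cc * I.F.x ^ (-X.zeta) * bcsR10 I.F X clo chi v) ^ 2 ≤ (I.F.x ^ (10 * X.zeta) * A / 2) ^ 2 := pow_le_pow_left₀ h4 h3 2
      _ = _ := by ring
  constructor
  · refine bcs_x_cum hW hI (U := Kx * I.w) (mul_pos (by linarith) hw0) fun v hv h2 => ?_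
    have hvK : Kr * I.w ≤ v := by nlinarith
    have hwv : I.w ≤ v := by nlinarith
    refine core I.w v hw0.le hvK h2 ?_
    rcases le_total v (1 * I.Ws) with h | h
    · refine (hmid I.F hI.ok n2 I.w hI.w_lo hI.strong v hwv h).trans (mul_le_mul_of_nonneg_left ?_ p2.le)
      have h5 : I.w ≤ (I.Ws ^ 2 * v) ^ (1 / 3 : ℝ) := by
        calc I.w = (I.w ^ 3) ^ (1 / 3 : ℝ) := by
              rw [← Real.rpow_natCast, ← Real.rpow_mul hw0.le]; norm_num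
          _ ≤ _ := by
              refine Real.rpow_le_rpow (by positivity) ?_ (by norm_num)
              calc I.w ^ 3 = I.w ^ 2 * I.w := by ring
                _ ≤ I.Ws ^ 2 * v := mul_le_mul (pow_le_pow_left₀ hw0.le hwW 2) hwv hw0.le (by positivity)
      show I.w ^ 2 / (I.Ws ^ 2 * v) ^ (1 / 3 : ℝ) ≤ I.w
      rw [div_le_iff₀ (hw0.trans_le h5)]
      nlinarith
    · refine (hhi I.F hI.ok n3 I.w hI.w_lo hI.strong v h (by linarith)).trans (mul_le_mul_of_nonneg_left ?_ p2.le)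
      show I.w ^ 2 / I.Ws ≤ I.w
      rw [div_le_iff₀ hW0]
      nlinarith
  · refine bcs_x_cum hW hI (U := KU * I.Ws) (mul_pos (by linarith) hW0) fun v hv h2 => ?_
    have hvK : Kr * I.Ws ≤ v := by nlinarith
    refine core (I.w ^ 2 / I.Ws) v (by positivity) ((mul_le_mul_of_nonneg_left hwW hKr0.le).trans hvK) h2 ?_
    exact hhi I.F hI.ok n3 I.w hI.w_lo hI.strong v (by show 1 * I.Ws ≤ v; nlinarith) (by linarith)

/-- **PE (19)**: `∫_0^U D dv < et w²` for every `U ≤ C'W`.      TEX[LL:bud:common-star] -/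
theorem bcs_x_low (hX : X.Ok) (hK : K.Ok) (hW : W.IsHub) (h3 : BcsS3 W (BcsIn.Cls (X := X) · W Fam K)) (C' et : ℝ) (hC' : 0 < C') (het : 0 < et) :
    ∃ N0 : ℕ, ∀ I : BcsIn X, I.Cls W Fam K → N0 ≤ I.F.N → ∀ U : ℝ, 0 ≤ U → U ≤ C' * I.Ws →
      ∫ v in (0 : ℝ)..U, cvDC I.F.m (I.Q.bE I.g) (I.Q.hE I.g) (ghPosA v) < et * I.w ^ 2 := by
  obtain ⟨N1, h3⟩ := h3 C' hC' (et / 2) (by positivity)
  obtain ⟨N2, hsc⟩ := bcs_num_scale X hX K.cs K.i0 (max C' 1) hK.cs0 hK.i00 (le_max_right _ _)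
  refine ⟨max N1 N2, fun I hI hN U hU0 hU => ?_⟩
  have sc := hsc I.F hI.ok ((le_max_right _ _).trans hN) I.w hI.w_lo hI.strong
  have hw0 := sc.w0
  have hwW : I.w ≤ I.Ws := sc.wW
  have hW0 : 0 < I.Ws := hw0.trans_le hwW
  have hC1 : C' * I.Ws ≤ 1 := by
    have h1 : C' * I.Ws ≤ max C' 1 * I.Ws := mul_le_mul_of_nonneg_right (le_max_left _ _) hW0.le
    have h2 : max C' 1 * I.Ws ≤ 1 / 4 := sc.W1
    linarith
  have hCW0 : (0 : ℝ) ≤ C' * I.Ws := by positivity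
  have hc : ∀ t ∈ Ioo (0 : ℝ) 1, cvDC I.F.m (I.Q.bE I.g) (I.Q.hE I.g) (ghPosA t) = I.D W t := fun t ht => bcs_x_D hW hI ht
  have hcg := bcs_x_congr hc le_rfl hCW0 hC1
  have h4 : ∫ v in (0 : ℝ)..U, cvDC I.F.m (I.Q.bE I.g) (I.Q.hE I.g) (ghPosA v)
      ≤ ∫ v in (0 : ℝ)..(C' * I.Ws), cvDC I.F.m (I.Q.bE I.g) (I.Q.hE I.g) (ghPosA v) :=
    intervalIntegral.integral_mono_interval le_rfl hU0 hU (Eventually.of_forall fun t => Real.sqrt_nonneg _)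
      (hcg.2 (bcs_int hI le_rfl hCW0 hC1).2)
  rw [hcg.1] at h4
  have h5 := h3 I hI ((le_max_left _ _).trans hN)
  have h6 : 0 < et * I.w ^ 2 := by positivity
  linarith

/-- **the star at the position `ghPosA v_*`**: `S_* ≍ W`, `D_*`, PE (17).      TEX[LL:bud:common-star] -/
theorem bcs_x_star (hX : X.Ok) (hW : W.IsHub) (hcut : BcsCut W (BcsIn.Cls (X := X) · W Fam K) K) :
    ∃ cst : ℝ, 0 < cst ∧ ∀ Km : ℝ, 1 ≤ Km → ∃ (Kup : ℝ) (Cp : ℕ → ℝ) (N0 : ℕ), (∀ k, 0 < Cp k) ∧ ∀ I : BcsIn X, I.Cls W Fam K → N0 ≤ I.F.N →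
      ∃ vst : ℝ, Km * I.Ws ≤ vst ∧ vst ≤ Kup * I.Ws ∧ vst < 1 ∧
        K.c / 2 * vst ≤ skCS I.F.m 1 (I.Q.bE I.g) (I.Q.hE I.g) (ghPosA vst) ∧
        skCS I.F.m 1 (I.Q.bE I.g) (I.Q.hE I.g) (ghPosA vst) ≤ 2 * K.C * vst ∧
        cvDC I.F.m (I.Q.bE I.g) (I.Q.hE I.g) (ghPosA vst) ≤ I.F.x ^ cst * I.w ^ 2 / I.Ws ∧
        ∀ k : ℕ, 1 ≤ k → skCNu I.F.m 1 (I.Q.bE I.g) (I.Q.hE I.g) 2 (ghR2 (ghPosA vst))
          (fun σ => (skOv (σ 0) (σ 1) - skCS I.F.m 1 (I.Q.bE I.g) (I.Q.hE I.g) (ghPosA vst)) ^ (2 * k))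
            ≤ (Cp k * I.F.x ^ cst * I.Ws) ^ (2 * k) := by
  obtain ⟨cst, hcst, hcut⟩ := hcut
  refine ⟨cst, hcst, fun Km hKm => ?_⟩
  obtain ⟨Kup, Cp, N0, hcut⟩ := hcut Km hKm
  refine ⟨Kup, fun k => |Cp ((2 * k : ℕ) : ℝ)| + 1, N0, fun k => by positivity, fun I hI hN => ?_⟩
  obtain ⟨vst, h1, h2, h3, -, -, h6, h7, h8, h9⟩ := hcut I hI hN
  have hw0 : 0 < I.w := lt_of_lt_of_le (BdFr.wc_pos' hX hI.ok) hI.w_lo
  have hW0 : 0 < I.Ws := hw0.trans_le (le_max_left _ _)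
  have hv : vst ∈ Ioo (0 : ℝ) 1 := ⟨lt_of_lt_of_le (by positivity) h1, h3⟩
  have hx0 : 0 < I.F.x := (bcs_ha_pos hX hI.ok).1
  refine ⟨vst, h1, h2, h3, ?_, ?_, ?_, fun k hk => ?_⟩
  · rw [bcs_x_S hW hI hv]; exact h6
  · rw [bcs_x_S hW hI hv]; exact h7
  · rw [bcs_x_D hW hI hv]; exact h8
  · rw [bcs_x_S hW hI hv, bcs_x_mom hW hI]
    have hp : (2 : ℝ) ≤ ((2 * k : ℕ) : ℝ) := by
      have : 2 ≤ 2 * k := by omega
      exact_mod_cast this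
    have h10 := bcs_x_of_norm hk (h9 _ hp)
    refine h10.trans ?_
    have hy : 0 ≤ I.F.x ^ cst * I.Ws := mul_nonneg (Real.rpow_pos_of_pos hx0 _).le hW0.le
    rw [← (even_two_mul k).pow_abs]
    refine pow_le_pow_left₀ (abs_nonneg _) ?_ _
    rw [mul_assoc, mul_assoc, abs_mul, abs_of_nonneg hy]
    exact mul_le_mul_of_nonneg_right (by linarith) hy

end fields

/-! ## 6. The seven fields of `CavP.Ok`, `CavP.Star` -/

/-- the fields of `CavP.Ok`, `CavP.Star` (76, `Cav/Lim`) which are Lemma 7.6 + (C10); the moment bound holds for ALL orders `k ≥ 1` -/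
structure CavP.BcsF (I : CavP) (c : ℝ) (Cp : ℕ → ℝ) : Prop where
  lowX : ∫ v in (0 : ℝ)..I.pX.u, I.D (ghPosA v) < I.et * I.x ^ 2
  highX : ∀ v : ℝ, I.pX.u ≤ v → v ≤ 1 → 2 * ∫ t in I.pX.u..v, I.D (ghPosA t) ^ 2 ≤ v * (I.sv * I.x) ^ 2
  SLo : c * I.W < I.S I.ps
  Dst : I.D I.ps < I.sv * I.x ^ 2 / I.W
  mom : ∀ k, 1 ≤ k → I.mom I.ps (I.S I.ps) k ≤ (Cp k * I.sv * I.W) ^ (2 * k)
  lowU : ∫ v in (0 : ℝ)..I.pU.u, I.D (ghPosA v) < I.et * I.x ^ 2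
  highU : ∀ v : ℝ, I.pU.u ≤ v → v ≤ 1 → 2 * ∫ t in I.pU.u..v, I.D (ghPosA t) ^ 2 ≤ v * (I.sv * I.x ^ 2 / I.W) ^ 2

section cav
variable {X : BdFix} {W : BdWorld} {Fam : BdFr → Prop}

/-- **EXPORT to Prop. 7.7** (l.599-603: "the good-star bound, and the second-moment estimates above supply its remaining inputs (17)-(19), with `m, w, W` in place of `n, x, W`").
ORDER: the exponent `cst` and the threshold `K0`; the multiples `Kx` (of `w`), `Km` (of `W`, the star lies above it); then `Kup`, `Cp`; then `KU` (take it `≥ Kup`), `et`; then `N0`.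
The saving `sv` is ANY number `≥ x^cst`.      TEX[LL:bud:common-star] TEX[LL:bud:modified-closure] -/
theorem bcs_x_cav {cL CL cs i0 Kb : ℝ} (hX : X.Ok) (hW : W.IsHub) (hc : 0 < cL) (hc1 : cL ≤ 1) (hC : 1 ≤ CL) (hcs : 0 < cs) (hi0 : 0 < i0)
    (hb : BcsBase X W Fam) (hadm : Bd7Adm X W Fam Kb) (hilo : ∀ F, Fam F → i0 ≤ F.Ilo)
    (h8 : BcsRaw W (BcsIn.Cls (X := X) · W Fam ⟨cL, CL, cs, i0⟩))
    (h9 : BcsC9 W (BcsIn.Cls (X := X) · W Fam ⟨cL, CL, cs, i0⟩) ⟨cL, CL, cs, i0⟩)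
    (hres : BcsRes W (BcsIn.Cls (X := X) · W Fam ⟨cL, CL, cs, i0⟩)) :
    ∃ cst K0 : ℝ, 0 < cst ∧ 1 ≤ K0 ∧ ∀ Kx Km : ℝ, K0 ≤ Kx → 1 ≤ Km → ∃ (Kup : ℝ) (Cp : ℕ → ℝ), (∀ k, 0 < Cp k) ∧
      ∀ KU et : ℝ, K0 ≤ KU → 0 < et → ∃ N0 : ℕ, ∀ i : Bd7I X, i.Str W Fam cL CL cs → N0 ≤ i.F.N →
        0 < i.w ∧ i.w ≤ i.F.Wsc X i.w ∧ Kx * i.w < 1 ∧ KU * i.F.Wsc X i.w < 1 ∧ 0 < i.F.x ∧ i.F.x < 1 ∧
        ∃ vst : ℝ, Km * i.F.Wsc X i.w ≤ vst ∧ vst ≤ Kup * i.F.Wsc X i.w ∧ vst < 1 ∧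
          ∀ sv C : ℝ, i.F.x ^ cst ≤ sv →
            (i.cav C sv et (ghPosA (Kx * i.w)) (ghPosA vst) (ghPosA (KU * i.F.Wsc X i.w))).BcsF (cL * Km / 4) Cp := by
  have hK : (⟨cL, CL, cs, i0⟩ : BcsK).Ok := ⟨hc, hc1, hC, hcs, hi0⟩
  obtain ⟨-, -, hS3, hcut⟩ := bud_star_n5 hX hK hW h8 h9 hres
  obtain ⟨K0, hK0, hhigh⟩ := bcs_x_high hX hK hW (bcs_x_c10f hX hK hW h8)
  obtain ⟨c1, hc1p, hstar⟩ := bcs_x_star hX hW hcut
  have hz := hX.zeta_pos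
  have hmin : 0 < min c1 (10 * X.zeta) := lt_min hc1p (by positivity)
  refine ⟨min c1 (10 * X.zeta) / 2, K0, by positivity, hK0, fun Kx Km hKx hKm => ?_⟩
  obtain ⟨Kup, Cp, N1, hCp, hstar⟩ := hstar Km hKm
  refine ⟨Kup, Cp, hCp, fun KU et hKU het => ?_⟩
  have hKx0 : 0 < Kx := by linarith
  have hKU0 : 0 < KU := by linarith
  obtain ⟨N2, hhigh⟩ := hhigh Kx KU hKx hKU
  obtain ⟨N3, hlow⟩ := bcs_x_low hX hK hW hS3 (max Kx KU) et (lt_of_lt_of_le hKx0 (le_max_left _ _)) het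
  obtain ⟨N4, hlift⟩ := bcs_cls_of_str (K := ⟨cL, CL, cs, i0⟩) hX hb hadm hilo
  obtain ⟨N5, hsc⟩ := bcs_num_scale X hX cs i0 (max (max Kx KU) 1) hcs hi0 (le_max_right _ _)
  refine ⟨max N1 (max N2 (max N3 (max N4 N5))), fun i hi hN => ?_⟩
  have n1 : N1 ≤ i.F.N := (le_max_left _ _).trans hN
  have hN := (le_max_right _ _).trans hN
  have n2 : N2 ≤ i.F.N := (le_max_left _ _).trans hN
  have hN := (le_max_right _ _).trans hN
  have n3 : N3 ≤ i.F.N := (le_max_left _ _).trans hN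
  have hN := (le_max_right _ _).trans hN
  have n4 : N4 ≤ i.F.N := (le_max_left _ _).trans hN
  have n5 : N5 ≤ i.F.N := (le_max_right _ _).trans hN
  obtain ⟨c0, hI⟩ := hlift i hi n4
  have sc := hsc i.F hi.ok n5 i.w hi.w_lo hi.strong
  have hw0 := sc.w0
  have hwW := sc.wW
  have hW0 : 0 < i.F.Wsc X i.w := hw0.trans_le hwW
  have hx0 := sc.x0
  have hx1 := sc.x1
  have hmW : max Kx KU * i.F.Wsc X i.w ≤ 1 / 4 :=
    (mul_le_mul_of_nonneg_right (le_max_left _ _) hW0.le).trans sc.W1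
  have hKUW : KU * i.F.Wsc X i.w ≤ max Kx KU * i.F.Wsc X i.w := mul_le_mul_of_nonneg_right (le_max_right _ _) hW0.le
  have hKxw : Kx * i.w ≤ max Kx KU * i.F.Wsc X i.w := mul_le_mul (le_max_left _ _) hwW hw0.le (hKx0.le.trans (le_max_left _ _))
  obtain ⟨vst, s1, s2, s3, s4, -, s6, s7⟩ := hstar _ hI n1
  obtain ⟨g1, g2⟩ := hhigh _ hI n2
  have hlow := hlow _ hI n3
  refine ⟨hw0, hwW, by linarith, by linarith, hx0, hx1, vst, s1, s2, s3, fun sv C hsv => ?_⟩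
  have e1 : i.F.x ^ c1 < i.F.x ^ (min c1 (10 * X.zeta) / 2) :=
    Real.rpow_lt_rpow_of_exponent_gt hx0 hx1 (by have := min_le_left c1 (10 * X.zeta); linarith)
  have e2 : i.F.x ^ (10 * X.zeta) ≤ i.F.x ^ (min c1 (10 * X.zeta) / 2) :=
    Real.rpow_le_rpow_of_exponent_ge hx0 hx1.le (by have := min_le_right c1 (10 * X.zeta); linarith)
  have p1 := Real.rpow_pos_of_pos hx0 c1
  have p2 := Real.rpow_pos_of_pos hx0 (10 * X.zeta)
  have hsv1 : i.F.x ^ c1 < sv := e1.trans_le hsv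
  have hsv2 : i.F.x ^ (10 * X.zeta) ≤ sv := e2.trans hsv
  refine ⟨?_, fun v h1 h2 => ?_, ?_, ?_, fun k hk => ?_, ?_, fun v h1 h2 => ?_⟩
  · exact hlow (Kx * i.w) (by positivity) hKxw
  · have hv0 : 0 ≤ v := (by positivity : 0 ≤ Kx * i.w).trans h1
    refine (g1 v h1 h2).trans (mul_le_mul_of_nonneg_left (pow_le_pow_left₀ (by positivity) ?_ 2) hv0)
    exact mul_le_mul_of_nonneg_right hsv2 hw0.le
  · show cL * Km / 4 * i.F.Wsc X i.w < skCS i.F.m 1 (i.Q.bE i.g) (i.Q.hE i.g) (ghPosA vst)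
    refine lt_of_lt_of_le ?_ s4
    show cL * Km / 4 * i.F.Wsc X i.w < cL / 2 * vst
    have h1 : cL / 2 * (Km * i.F.Wsc X i.w) ≤ cL / 2 * vst := mul_le_mul_of_nonneg_left s1 (by positivity)
    have h2 : 0 < cL * Km * i.F.Wsc X i.w := by positivity
    nlinarith
  · show cvDC i.F.m (i.Q.bE i.g) (i.Q.hE i.g) (ghPosA vst) < sv * i.w ^ 2 / i.F.Wsc X i.w
    refine lt_of_le_of_lt s6 ?_
    show i.F.x ^ c1 * i.w ^ 2 / i.F.Wsc X i.w < sv * i.w ^ 2 / i.F.Wsc X i.w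
    exact div_lt_div_of_pos_right (mul_lt_mul_of_pos_right hsv1 (by positivity)) hW0
  · refine (s7 k hk).trans (pow_le_pow_left₀ ?_ ?_ _)
    · have := hCp k
      exact mul_nonneg (mul_nonneg this.le p1.le) hW0.le
    · exact mul_le_mul_of_nonneg_right (mul_le_mul_of_nonneg_left hsv1.le (hCp k).le) hW0.le
  · exact hlow (KU * i.F.Wsc X i.w) (by positivity) hKUW
  · have hv0 : 0 ≤ v := (by positivity : 0 ≤ KU * i.F.Wsc X i.w).trans h1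
    refine (g2 v h1 h2).trans (mul_le_mul_of_nonneg_left (pow_le_pow_left₀ (by positivity) ?_ 2) hv0)
    show i.F.x ^ (10 * X.zeta) * (i.w ^ 2 / i.F.Wsc X i.w) ≤ sv * i.w ^ 2 / i.F.Wsc X i.w
    rw [mul_div_assoc]
    exact mul_le_mul_of_nonneg_right hsv2 (by positivity)

end cav

end

end Claimed.Agent.R286
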