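import Claimed.Agent.R286.Bud.TopGlob
import Claimed.Agent.R286.Cmp.Prof
import Claimed.Agent.R286.Bud.L8Defs

/-!
# Row 286 (S0533), LL sec. 7, `Bud/Top`, file LOC = node N2: reduction of a local dyad to the assertions (i), (ii) (07-budgets.tex l.80-125)      (owner helper66; prefix `bt_`)

TEX[LL:bud:targets]#80-125.      `u = 2^-hd` a LOCAL dyad (`p.IsLoc F X hd`: `U ≤ C_U u`, `u ≤ λ^{b_ℓ}`), `Fr = btFrL 𝔹 F X p hd m` the normalised frame at the last stage.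
* normalisation to length one: `bt_resc_*`, `bt_fr_*`  (`f^{(1)}(b~,h~) = ℓ f^{(ℓ)}(b,h)`, `∫_0^1 b~ q~² = ℓ ∫_0^ℓ b q²`)
* the frame belongs to the family and is `Ok`: `bt_frL_ok`;   all changed clocks are admissible: `bt_clk_changed`
* **`bt_kl_point`**: `ℓ (fRest(γ_u = 1) - fRest(γ_u = 0)) ≤ exc(g) + ½ D² ∫ c_u`  for an optimiser with `|r - q| ≤ D`, `2 c_u ≤ C(r)` on `supp c_u`  (`bud_gammaFTC` + `bud_dyadBudget`)
* **`bt_kl`**: integrated over `γ_0 ∈ [1/3,2/3]` with `BtLoc`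
* **`bt_loc_avg`**: `∫∫ dγ_0 dγ_u ∫_u^{2u} A_v dv ≲ (λ u²)⁻¹ ( u (x^{4-2ζ} Λ^{1/3} + x⁴ λ^{1-2s_0}) + [smoothed] x^{5+1/8} )`  by (P10), (P11)
-/

set_option autoImplicit false

namespace Claimed.Agent.R286

open MeasureTheory Set Filter Topology

variable {𝔹 : LlBase} {F : LlFix} {X : BdFix} {W : BdWorld}

/-! ## 1. Normalisation to length one -/

theorem bt_resc_mem {a : ℝ} (ha : 0 < a) {w : ℝ} (hw : w ∈ Ioo (0 : ℝ) 1) : a * w ∈ Ioo 0 a :=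
  ⟨mul_pos ha hw.1, by nlinarith [hw.2]⟩

theorem bt_resc_clock {a : ℝ} (ha : 0 < a) {c : ℝ → ℝ} (hc : IsClock a c) : IsClock 1 (btResc a c) := by
  obtain ⟨C, hC⟩ := hc.bdd
  refine ⟨?_, ?_, ⟨a ^ 2 * C, ?_⟩⟩
  · intro u hu v hv huv
    exact mul_le_mul_of_nonneg_left (hc.mono (bt_resc_mem ha hu) (bt_resc_mem ha hv) (mul_le_mul_of_nonneg_left huv ha.le)) (sq_nonneg a)
  · intro v hv
    exact mul_nonneg (sq_nonneg a) (hc.nonneg _ (bt_resc_mem ha hv))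
  · intro v hv
    exact mul_le_mul_of_nonneg_left (hC _ (bt_resc_mem ha hv)) (sq_nonneg a)

open scoped Pointwise in
theorem bt_resc_img {a : ℝ} (ha : 0 < a) (c : ℝ → ℝ) : sSup (btResc a c '' Ioo 0 1) = a ^ 2 * sSup (c '' Ioo 0 a) := by
  have e : btResc a c '' Ioo 0 1 = (a ^ 2) • (c '' Ioo 0 a) := by
    ext y
    constructor
    · rintro ⟨w, hw, rfl⟩
      exact ⟨c (a * w), ⟨a * w, bt_resc_mem ha hw, rfl⟩, rfl⟩
    · rintro ⟨_, ⟨v, hv, rfl⟩, rfl⟩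
      refine ⟨v / a, ⟨div_pos hv.1 ha, (div_lt_one ha).2 hv.2⟩, ?_⟩
      show a ^ 2 * c (a * (v / a)) = a ^ 2 • c v
      rw [mul_div_cancel₀ v ha.ne', smul_eq_mul]
  rw [e, Real.sSup_smul_of_nonneg (sq_nonneg a), smul_eq_mul]

theorem bt_resc_end {a : ℝ} (ha : 0 < a) {c : ℝ → ℝ} (hc : BtE a c) : BtE 1 (btResc a c) := by
  unfold BtE at hc ⊢
  rw [bt_resc_img ha, ← hc]
  show a ^ 2 * c (a * 1) = a ^ 2 * c a
  rw [mul_one]

/-- change of variables `v = a w` -/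
theorem bt_resc_int {a : ℝ} (ha : 0 < a) (f : ℝ → ℝ) : ∫ w in Ioo (0 : ℝ) 1, f (a * w) = a⁻¹ * ∫ v in Ioo (0 : ℝ) a, f v := by
  rw [← integral_Ioc_eq_integral_Ioo, ← integral_Ioc_eq_integral_Ioo, ← intervalIntegral.integral_of_le zero_le_one,
    ← intervalIntegral.integral_of_le ha.le, intervalIntegral.integral_comp_mul_left f ha.ne', mul_zero, mul_one, smul_eq_mul]

theorem bt_resc_integrable {a : ℝ} (ha : 0 < a) {f : ℝ → ℝ} (hf : IntegrableOn f (Ioo 0 a)) : IntegrableOn (fun w => f (a * w)) (Ioo 0 1) := by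
  rw [← integrableOn_Ioc_iff_integrableOn_Ioo, ← intervalIntegrable_iff_integrableOn_Ioc_of_le zero_le_one]
  rw [← integrableOn_Ioc_iff_integrableOn_Ioo, ← intervalIntegrable_iff_integrableOn_Ioc_of_le ha.le] at hf
  have := hf.comp_mul_left (c := a)
  simpa [ha.ne'] using this

/-- local dyads: `U ≤ C_U u`, `u ≤ λ^{b_ℓ}` -/
def LlPt.IsLoc (p : LlPt) (F : LlFix) (X : BdFix) (hd : ℕ) : Prop :=
  p.IsDy F hd ∧ p.x * p.lam ^ (-(F.sS / 2)) ≤ X.CU * btU hd ∧ btU hd ≤ p.lam ^ X.bl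

/-- the multipliers of a direct point of a segment (incl. the direct companion of the size path) -/
def LlPt.ChiOk (p : LlPt) (F : LlFix) : Prop :=
  (p.chiL = 0 ∧ p.chiE = 1) ∨ (p.lam = p.x ^ F.pS ∧ (p.chiL = 1 ∨ p.chiE = 1))

section frame

variable {p : LlPt} {hd m st : ℕ} {kap Ilo Ihi g : ℝ}

/-- the terminal mass of a direct point -/
theorem bt_loc_a (hsm : p.sm = false) (t : ℝ) : (p.loc hd g t).a = p.ell := by
  have : (p.loc hd g t).sm = false := hsm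
  unfold LlPt.a
  rw [this]
  rfl

/-- the pressure of the world at the normalised clocks of a direct point -/
theorem bt_fr_pres (hW : BtWorld 𝔹 W) (hSc : BtScale 𝔹) (hp : p.Ok F) (hsm : p.sm = false) (hm : 1 ≤ m) (t : ℝ) (hc : BtClkAt 𝔹 F (p.loc hd g t)) :
    (W.ps m).f (btResc p.ell ((p.loc hd g t).b F 𝔹)) (btResc p.ell ((p.loc hd g t).h F 𝔹)) = p.ell * (p.loc hd g t).f0 F 𝔹 m := by
  have ha := bt_loc_a (hd := hd) (g := g) hsm t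
  have hl : 0 < p.ell := by linarith [hp.ell1]
  have hb := hc.b
  have hh := hc.h
  have hbE := hc.bE
  have hhE := hc.hE
  rw [ha] at hb hh hbE hhE
  rw [hW.f m _ _ hm (bt_resc_clock hl hb) (bt_resc_clock hl hh) (bt_resc_end hl hbE) (bt_resc_end hl hhE),
    hSc.f m p.ell _ _ hl hb hh hbE hhE]
  unfold LlPt.f0 LlBase.f
  rw [ha]

/-- bare pressure of the frame -/
theorem bt_fr_f0 (hW : BtWorld 𝔹 W) (hSc : BtScale 𝔹) (hp : p.Ok F) (hsm : p.sm = false) (hm : 1 ≤ m) (hc : BtClkAt 𝔹 F (p.loc hd g 0)) :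
    (btFr 𝔹 F p hd m st kap Ilo Ihi).f0 W g = p.ell * (p.loc hd g 0).f0 F 𝔹 m := by
  exact bt_fr_pres hW hSc hp hsm hm 0 hc

/-- the matrix clock as a function of `(γ_0, γ_u)` -/
theorem bt_loc_b (hp : p.Ok F) (hdy : p.IsDy F hd) (t v : ℝ) :
    (p.loc hd g t).b F 𝔹 v = p.b F 𝔹 v - (t - p.gu hd) * btCu F p hd v - (g - p.gam0) * p.cg F v := by
  have e : p.loc hd g t = (p.wGu hd t).wG0 g := rfl
  rw [e, bt_b_wG0, bt_b_wGu hp hdy]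
  rfl

/-- the field clock as a function of `(γ_0, γ_u)` -/
theorem bt_loc_h (hF : F.Ok) (hp : p.Ok F) (hdy : p.IsDy F hd) (t v : ℝ) :
    (p.loc hd g t).h F 𝔹 v = p.h F 𝔹 v + (t - p.gu hd) * (btCu F p hd v * p.q F 𝔹 v)
      + if v < p.x then 0 else (g - p.gam0) * (p.cg F v * p.q F 𝔹 v) := by
  have e : p.loc hd g t = (p.wGu hd t).wG0 g := rfl
  rw [e, bt_h_wG0, bt_h_wGu hF hp hdy]
  rfl

/-- the clocks of the frame at `γ_u = 1` -/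
theorem bt_fr_b1 (hp : p.Ok F) (hdy : p.IsDy F hd) (w : ℝ) :
    (btFr 𝔹 F p hd m st kap Ilo Ihi).b g w - (btFr 𝔹 F p hd m st kap Ilo Ihi).cu w = btResc p.ell ((p.loc hd g 1).b F 𝔹) w := by
  show p.ell ^ 2 * (p.loc hd g 0).b F 𝔹 (p.ell * w) - p.ell ^ 2 * btCu F p hd (p.ell * w) = p.ell ^ 2 * (p.loc hd g 1).b F 𝔹 (p.ell * w)
  rw [bt_loc_b hp hdy, bt_loc_b hp hdy]
  ring

theorem bt_fr_h1 (hF : F.Ok) (hp : p.Ok F) (hdy : p.IsDy F hd) (w : ℝ) :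
    (btFr 𝔹 F p hd m st kap Ilo Ihi).h g w + (btFr 𝔹 F p hd m st kap Ilo Ihi).cu w * (btFr 𝔹 F p hd m st kap Ilo Ihi).q w
      = btResc p.ell ((p.loc hd g 1).h F 𝔹) w := by
  show p.ell ^ 2 * (p.loc hd g 0).h F 𝔹 (p.ell * w) + p.ell ^ 2 * btCu F p hd (p.ell * w) * p.q F 𝔹 (p.ell * w)
    = p.ell ^ 2 * (p.loc hd g 1).h F 𝔹 (p.ell * w)
  rw [bt_loc_h hF hp hdy, bt_loc_h hF hp hdy]
  ring

/-- the restored pressures in the normalised variables, `t ∈ {0, 1}` -/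
theorem bt_fr_rest (hW : BtWorld 𝔹 W) (hSc : BtScale 𝔹) (hp : p.Ok F) (hsm : p.sm = false) (hm : 1 ≤ m) (t : ℝ) (hc : BtClkAt 𝔹 F (p.loc hd g t)) :
    (W.ps m).f (btResc p.ell ((p.loc hd g t).b F 𝔹)) (btResc p.ell ((p.loc hd g t).h F 𝔹))
        - (1 / 4) * ∫ w in Ioo (0 : ℝ) 1, btResc p.ell ((p.loc hd g t).b F 𝔹) w * p.q F 𝔹 (p.ell * w) ^ 2
      = p.ell * (p.loc hd g t).fRest F 𝔹 m := by
  have ha := bt_loc_a (hd := hd) (g := g) hsm t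
  have hl : 0 < p.ell := by linarith [hp.ell1]
  rw [bt_fr_pres hW hSc hp hsm hm t hc]
  have e1 : ∫ w in Ioo (0 : ℝ) 1, btResc p.ell ((p.loc hd g t).b F 𝔹) w * p.q F 𝔹 (p.ell * w) ^ 2
      = p.ell⁻¹ * ∫ v in Ioo (0 : ℝ) p.ell, p.ell ^ 2 * ((p.loc hd g t).b F 𝔹 v * p.q F 𝔹 v ^ 2) := by
    rw [← bt_resc_int hl (fun v => p.ell ^ 2 * ((p.loc hd g t).b F 𝔹 v * p.q F 𝔹 v ^ 2))]
    refine integral_congr_ae (Filter.Eventually.of_forall fun w => ?_)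
    show p.ell ^ 2 * (p.loc hd g t).b F 𝔹 (p.ell * w) * p.q F 𝔹 (p.ell * w) ^ 2 = _
    ring
  have e2 : (p.loc hd g t).fRest F 𝔹 m = (p.loc hd g t).f0 F 𝔹 m - (∫ v in Ioo (0 : ℝ) p.ell, (p.loc hd g t).b F 𝔹 v * p.q F 𝔹 v ^ 2) / 4 := by
    unfold LlPt.fRest
    rw [ha, intervalIntegral.integral_of_le hl.le, integral_Ioc_eq_integral_Ioo, integral_div]
    rfl
  rw [e1, e2, integral_const_mul]
  field_simp

/-- `∫_0^1 c~_u ≤ C λ u³` -/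
theorem bt_fr_cu_int (hF : F.Ok) (hp : p.Ok F) {Cφ : ℝ} (hφ : ∀ w, F.phi w ≤ Cφ) :
    ∫ w in Ioo (0 : ℝ) 1, (btFr 𝔹 F p hd m st kap Ilo Ihi).cu w ≤ 8 * F.cb * F.c1 * Cφ * (p.lam * btU hd ^ 3) := by
  have hl : 0 < p.ell := by linarith [hp.ell1]
  have hl2 : p.ell ≤ 2 := by
    refine hp.ell2.trans ?_
    calc (2 : ℝ) ^ (1 / 6 : ℝ) ≤ (2 : ℝ) ^ (1 : ℝ) := Real.rpow_le_rpow_of_exponent_le (by norm_num) (by norm_num)
      _ = 2 := Real.rpow_one 2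
  have hu : 0 < btU hd := by unfold btU; positivity
  have hlam := bt_lam_pos hp
  have hC : 0 ≤ Cφ := (hF.phi_nn 0).trans (hφ 0)
  have hcb := hF.cb0
  have hc1 := hF.c10
  have e1 : ∫ w in Ioo (0 : ℝ) 1, (btFr 𝔹 F p hd m st kap Ilo Ihi).cu w = p.ell * ∫ v in Ioo (0 : ℝ) p.ell, btCu F p hd v := by
    have : ∫ w in Ioo (0 : ℝ) 1, (btFr 𝔹 F p hd m st kap Ilo Ihi).cu w = ∫ w in Ioo (0 : ℝ) 1, p.ell ^ 2 * btCu F p hd (p.ell * w) := rfl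
    rw [this, integral_const_mul, bt_resc_int hl (btCu F p hd)]
    field_simp
  obtain ⟨K, hK⟩ : ∃ K : ℝ, K = F.cb * p.lam * F.c1 * btU hd ^ 2 * Cφ := ⟨_, rfl⟩
  have hK0 : 0 ≤ K := by rw [hK]; positivity
  have hle : ∀ v, btCu F p hd v ≤ indicator (Icc (btU hd / 2) (4 * btU hd)) (fun _ => K) v := by
    intro v
    by_cases hv : v ∈ Icc (btU hd / 2) (4 * btU hd)
    · rw [indicator_of_mem hv, hK]
      unfold btCu
      exact mul_le_mul_of_nonneg_left (hφ _) (by positivity)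
    · rw [indicator_of_notMem hv, bt_cu_supp hF p hd hv]
  have hi1 : IntegrableOn (btCu F p hd) (Ioo 0 p.ell) :=
    ((bt_cu_cont hF p hd).continuousOn.integrableOn_Icc (a := 0) (b := p.ell)).mono_set Ioo_subset_Icc_self
  have hi2 : Integrable (indicator (Icc (btU hd / 2) (4 * btU hd)) (fun _ : ℝ => K)) :=
    (integrable_indicator_iff measurableSet_Icc).2 (integrableOn_const (by simp))
  have e2 : ∫ v in Ioo (0 : ℝ) p.ell, btCu F p hd v ≤ K * (7 / 2 * btU hd) := by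
    calc ∫ v in Ioo (0 : ℝ) p.ell, btCu F p hd v
        ≤ ∫ v in Ioo (0 : ℝ) p.ell, indicator (Icc (btU hd / 2) (4 * btU hd)) (fun _ => K) v :=
          setIntegral_mono hi1 hi2.integrableOn hle
      _ ≤ ∫ v, indicator (Icc (btU hd / 2) (4 * btU hd)) (fun _ => K) v :=
          setIntegral_le_integral hi2 (Filter.Eventually.of_forall fun v => indicator_nonneg (fun _ _ => hK0) v)
      _ = K * (7 / 2 * btU hd) := by
          rw [integral_indicator measurableSet_Icc, setIntegral_const, smul_eq_mul, Measure.real, Real.volume_Icc,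
            ENNReal.toReal_ofReal (by linarith)]
          ring
  rw [e1]
  calc p.ell * ∫ v in Ioo (0 : ℝ) p.ell, btCu F p hd v ≤ 2 * (K * (7 / 2 * btU hd)) :=
        mul_le_mul hl2 e2 (setIntegral_nonneg measurableSet_Ioo fun v _ => bt_cu_nonneg hF hp hd v) (by norm_num)
    _ = 7 * F.cb * F.c1 * Cφ * (p.lam * btU hd ^ 3) := by rw [hK]; ring
    _ ≤ 8 * F.cb * F.c1 * Cφ * (p.lam * btU hd ^ 3) := by
        have : 0 ≤ F.cb * F.c1 * Cφ * (p.lam * btU hd ^ 3) := by positivity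
        nlinarith

end frame

/-! ## 2. Feasible quantiles -/

/-- the floor of (C5) is nonnegative -/
theorem bt_kbar_nonneg {Fr : BdFr} (hFr : Fr.Ok X) (t : ℝ) : 0 ≤ Fr.kbar X t := by
  unfold BdFr.kbar
  have h1 : 0 ≤ Fr.k X t := by
    unfold BdFr.k CmCall.k
    have : 0 ≤ (Fr.call X).N := by unfold CmCall.N; positivity
    positivity
  have h2 : 0 ≤ (if t ∈ Icc (Fr.Ilo * Fr.u) (Fr.Ihi * Fr.u) then Fr.kap else 0) := by
    split_ifs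
    · exact hFr.kap0
    · exact le_rfl
  linarith

/-- the quantile of a feasible element is monotone -/
theorem bt_Q_r_mono {Fr : BdFr} (hFr : Fr.Ok X) (hX : X.Ok) (Q : BdQ Fr X) : MonotoneOn Q.r (Icc 0 1) := by
  intro v1 h1 v2 h2 h12
  by_contra hlt
  rw [not_le] at hlt
  have m1 := Q.r_mem v1 h1
  have m2 := Q.r_mem v2 h2
  have h3 := Q.lo (Q.r v2) (Q.r v1) m2.1 hlt.le m1.2
  rw [Q.al_r v1 h1, Q.al_r v2 h2] at h3
  have h4 : 0 ≤ ∫ t in (Q.r v2)..(Q.r v1), Fr.kbar X t :=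
    intervalIntegral.integral_nonneg hlt.le fun t _ => bt_kbar_nonneg hFr t
  have h5 : v1 = v2 := le_antisymm h12 (by linarith)
  rw [h5] at hlt
  exact lt_irrefl _ hlt

/-- the optimal value is attained at a minimiser -/
theorem bt_V_eq {Fr : BdFr} {g : ℝ} (Q : BdQ Fr X) (hQ : Q.IsOpt W g) : Fr.V X W g = Q.obj W g := by
  unfold BdFr.V
  refine IsLeast.csInf_eq ⟨⟨Q, rfl⟩, ?_⟩
  rintro _ ⟨Q', rfl⟩
  exact hQ Q'

/-- a fixed negative power of the size is eventually below any positive constant -/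
theorem bt_pow_small {c ε : ℝ} (hc : 0 < c) (hε : 0 < ε) : ∃ N0 : ℕ, ∀ N : ℕ, N0 ≤ N → (N : ℝ) ^ (-c) ≤ ε := by
  have h1 : Tendsto (fun N : ℕ => (N : ℝ) ^ (-c)) atTop (𝓝 0) := (tendsto_rpow_neg_atTop hc).comp tendsto_natCast_atTop_atTop
  obtain ⟨N0, h⟩ := eventually_atTop.1 (h1.eventually_le_const hε)
  exact ⟨N0, h⟩

/-- `λ^s ≤ N^{-p_* s/6}` -/
theorem bt_lam_pow_le {p : LlPt} (hp : p.Ok F) {s : ℝ} (hs : 0 ≤ s) : p.lam ^ s ≤ (p.N : ℝ) ^ (-(F.pS * s / 6)) := by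
  have hl := bt_lam_pos hp
  have hN : (0 : ℝ) ≤ p.N := Nat.cast_nonneg _
  calc p.lam ^ s ≤ (p.x ^ F.pS) ^ s := Real.rpow_le_rpow hl.le hp.lam_hi hs
    _ = (p.N : ℝ) ^ (-(F.pS * s / 6)) := by
        unfold LlPt.x
        rw [← Real.rpow_mul hN, ← Real.rpow_mul hN]
        congr 1; ring

/-- **all changed clocks are admissible** (l.150: matrix margin, monotonicities of the taper) -/
theorem bt_clk_changed (h3 : LlSec3 𝔹 F) (hEn : BtEnd 𝔹 F) (hX : X.Ok) (hFX : BtFix F X) : ∃ N0 : ℕ, ∀ Fr : BdFr, BtFam 𝔹 F Fr → Fr.Ok X → N0 ≤ Fr.N →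
    ∀ g ∈ Icc (-4 : ℝ) 4, ∀ Q : BdQ Fr X, IsClock 1 (Q.bq g) ∧ IsClock 1 (Q.hq g) := by
  obtain ⟨N1, hN1⟩ := bt_clk h3 hEn
  obtain ⟨c, C, hc, N2, hN2⟩ := bt_bd h3
  have hpS : 0 < F.pS := by rw [← hFX.pS]; exact hX.pS_pos
  have hc3 : 0 < F.pS * 0.03 / 6 := by positivity
  obtain ⟨N3, hN3⟩ := bt_pow_small hc3 hc
  refine ⟨max N1 (max N2 N3), fun Fr hFam hFr hN g hg Q => ?_⟩
  obtain ⟨p, hd, hp, hsm, hdy, hE⟩ := hFam
  have eN : Fr.N = p.N := congrArg BdFr.N hE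
  have el : Fr.lam = p.lam := congrArg BdFr.lam hE
  have eb : ∀ v, Fr.b g v = p.ell ^ 2 * (p.loc hd g 0).b F 𝔹 (p.ell * v) := fun v => congrFun (congrFun (congrArg BdFr.b hE) g) v
  have eh : ∀ v, Fr.h g v = p.ell ^ 2 * (p.loc hd g 0).h F 𝔹 (p.ell * v) := fun v => congrFun (congrFun (congrArg BdFr.h hE) g) v
  rw [eN] at hN
  have hp' : (p.loc hd g 0).Ok F := bt_ok_loc hp hd hg ⟨by norm_num, by norm_num⟩
  have hck : BtClkAt 𝔹 F (p.loc hd g 0) := hN1 _ hp' ((le_max_left _ _).trans hN)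
  have hbd : BtBd 𝔹 F c C (p.loc hd g 0) := hN2 _ hp' (((le_max_left _ _).trans (le_max_right _ _)).trans hN)
  have ha := bt_loc_a (hd := hd) (g := g) hsm 0
  have hl1 := hp.ell1
  have hl : 0 < p.ell := by linarith
  have hb := hck.b
  have hh := hck.h
  have hblo := hbd.b_lo
  rw [ha] at hb hh hblo
  have hB := bt_resc_clock hl hb
  have hH := bt_resc_clock hl hh
  -- the removal profile
  have hlam : 0 < Fr.lam := by rw [el]; exact bt_lam_pos hp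
  have hLam : 0 < Fr.Lam := by unfold BdFr.Lam; exact Real.rpow_pos_of_pos hlam _
  have hx : 0 < Fr.x := by
    have : Fr.x = p.x := by unfold BdFr.x LlPt.x; rw [eN]
    rw [this]; exact bt_x_pos hp
  have hu : 0 < Fr.u := by
    have : Fr.u = btU hd := congrArg BdFr.u hE
    rw [this]; unfold btU; positivity
  have hlam1 : Fr.lam ≤ 1 := by
    refine hFr.lam_hi.trans (Real.rpow_le_one hx.le ?_ hX.pS_pos.le)
    unfold BdFr.x
    have hN1' : (1 : ℝ) ≤ Fr.N := by exact_mod_cast (by linarith [hFr.N2] : 1 ≤ Fr.N)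
    exact Real.rpow_le_one_of_one_le_of_nonpos hN1' (by norm_num)
  have hu1 : Fr.u ≤ 1 := hFr.u_hi.trans (Real.rpow_le_one hlam.le hlam1 hX.bl_pos.le)
  have hC0 : 0 ≤ Fr.C0 := by unfold BdFr.C0; positivity
  have hC0c : Fr.C0 ≤ c := by
    have h1 : Fr.Lam ≤ c := by
      unfold BdFr.Lam
      rw [el]
      exact (bt_lam_pow_le hp (by norm_num)).trans (hN3 p.N (((le_max_right _ _).trans (le_max_right _ _)).trans hN))
    calc Fr.C0 = Fr.u ^ 2 * Fr.Lam := rfl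
      _ ≤ 1 * Fr.Lam := mul_le_mul_of_nonneg_right (pow_le_one₀ hu.le hu1) hLam.le
      _ ≤ c := by rw [one_mul]; exact h1
  have hd0 : 0 < (Fr.call X).d := by
    show 0 < X.cd * Fr.u * Fr.Lam ^ (1 / 3 : ℝ)
    have := hX.cd_pos
    positivity
  have hrm := bt_Q_r_mono hFr hX Q
  have hsub : Ioo (0 : ℝ) 1 ⊆ Icc 0 1 := Ioo_subset_Icc_self
  have hanti := cm_e_anti (Fr.call X) hd0 hC0
  have hre := cm_re_mono (Fr.call X) hd0 hC0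
  obtain ⟨Cb, hCb⟩ := hB.bdd
  obtain ⟨Ch, hCh⟩ := hH.bdd
  constructor
  · refine ⟨?_, ?_, ⟨Cb, ?_⟩⟩
    · intro v1 h1 v2 h2 h12
      have a1 := hB.mono h1 h2 h12
      have a2 : (Fr.call X).e Fr.C0 (Q.r v2) ≤ (Fr.call X).e Fr.C0 (Q.r v1) := hanti (hrm (hsub h1) (hsub h2) h12)
      show Fr.b g v1 - (Fr.call X).e Fr.C0 (Q.r v1) ≤ Fr.b g v2 - (Fr.call X).e Fr.C0 (Q.r v2)
      rw [eb, eb]
      have a1' : p.ell ^ 2 * (p.loc hd g 0).b F 𝔹 (p.ell * v1) ≤ p.ell ^ 2 * (p.loc hd g 0).b F 𝔹 (p.ell * v2) := a1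
      linarith
    · intro v hv
      show 0 ≤ Fr.b g v - (Fr.call X).e Fr.C0 (Q.r v)
      rw [eb]
      have a1 := hblo _ (bt_resc_mem hl hv)
      have a2 := cm_e_le (Fr.call X) hC0 (Q.r v)
      have a3 : c ≤ p.ell ^ 2 * (p.loc hd g 0).b F 𝔹 (p.ell * v) := by
        have : (1 : ℝ) ≤ p.ell ^ 2 := one_le_pow₀ hl1
        nlinarith
      linarith
    · intro v hv
      show Fr.b g v - (Fr.call X).e Fr.C0 (Q.r v) ≤ Cb
      rw [eb]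
      have a1 : p.ell ^ 2 * (p.loc hd g 0).b F 𝔹 (p.ell * v) ≤ Cb := hCb v hv
      have a2 := cm_e_nonneg (Fr.call X) hC0 (Q.r v)
      linarith
  · refine ⟨?_, ?_, ⟨Ch + c, ?_⟩⟩
    · intro v1 h1 v2 h2 h12
      have a1 : p.ell ^ 2 * (p.loc hd g 0).h F 𝔹 (p.ell * v1) ≤ p.ell ^ 2 * (p.loc hd g 0).h F 𝔹 (p.ell * v2) := hH.mono h1 h2 h12
      have a2 : Q.r v1 * (Fr.call X).e Fr.C0 (Q.r v1) ≤ Q.r v2 * (Fr.call X).e Fr.C0 (Q.r v2) :=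
        hre (Q.r_mem v1 (hsub h1)).1 (Q.r_mem v2 (hsub h2)).1 (hrm (hsub h1) (hsub h2) h12)
      show Fr.h g v1 + (Fr.call X).e Fr.C0 (Q.r v1) * Q.r v1 ≤ Fr.h g v2 + (Fr.call X).e Fr.C0 (Q.r v2) * Q.r v2
      rw [eh, eh]
      linarith
    · intro v hv
      show 0 ≤ Fr.h g v + (Fr.call X).e Fr.C0 (Q.r v) * Q.r v
      rw [eh]
      have a1 : 0 ≤ p.ell ^ 2 * (p.loc hd g 0).h F 𝔹 (p.ell * v) := hH.nonneg v hv
      have a2 := mul_nonneg (cm_e_nonneg (Fr.call X) hC0 (Q.r v)) (Q.r_mem v (hsub hv)).1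
      linarith
    · intro v hv
      show Fr.h g v + (Fr.call X).e Fr.C0 (Q.r v) * Q.r v ≤ Ch + c
      rw [eh]
      have a1 : p.ell ^ 2 * (p.loc hd g 0).h F 𝔹 (p.ell * v) ≤ Ch := hCh v hv
      have a2 : (Fr.call X).e Fr.C0 (Q.r v) * Q.r v ≤ c * 1 :=
        mul_le_mul ((cm_e_le (Fr.call X) hC0 (Q.r v)).trans hC0c) (Q.r_mem v (hsub hv)).2 (Q.r_mem v (hsub hv)).1 hc.le
      linarith

/-- the accuracies of the stages stay above the goal -/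
theorem bt_astage_ge {Fr : BdFr} (ha : Fr.agoal X ≤ 1) (n : ℕ) : Fr.agoal X ≤ Fr.astage X n := by
  cases n with
  | zero => exact ha
  | succ n => exact le_max_left _ _

/-- `κ_j ≤ λ^{2 s_0} Λ^{-2/3}` as soon as `a_goal ≤ 1` -/
theorem bt_kstage_le {Fr : BdFr} (hx : 0 < Fr.x) (hu : 0 < Fr.u) (hl : 0 < Fr.lam) (ha : Fr.agoal X ≤ 1) (n : ℕ) :
    Fr.kstage X n ≤ Fr.lam ^ (2 * X.s0) * Fr.Lam ^ (-(2 / 3) : ℝ) := by
  have hL : 0 < Fr.Lam := by unfold BdFr.Lam; exact Real.rpow_pos_of_pos hl _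
  cases n with
  | zero =>
    show (0 : ℝ) ≤ _
    positivity
  | succ n =>
    show (Fr.A / Fr.astage X n) ^ 2 ≤ _
    have hXr : 0 < Fr.Xr := by unfold BdFr.Xr; positivity
    have hg : 0 < Fr.agoal X := by unfold BdFr.agoal; positivity
    have hA : 0 < Fr.A := by unfold BdFr.A; positivity
    have h1 : Fr.A / Fr.astage X n ≤ Fr.A / Fr.agoal X := div_le_div_of_nonneg_left hA.le hg (bt_astage_ge ha n)
    have h2 : Fr.A / Fr.agoal X = Fr.lam ^ X.s0 * Fr.Lam ^ (-(1 / 3) : ℝ) := by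
      unfold BdFr.A BdFr.agoal
      rw [Real.rpow_neg hl.le]
      field_simp
    have h3 : 0 ≤ Fr.A / Fr.astage X n := div_nonneg hA.le (hg.le.trans (bt_astage_ge ha n))
    calc (Fr.A / Fr.astage X n) ^ 2 ≤ (Fr.lam ^ X.s0 * Fr.Lam ^ (-(1 / 3) : ℝ)) ^ 2 := by
          rw [← h2]; exact pow_le_pow_left₀ h3 h1 2
      _ = Fr.lam ^ (2 * X.s0) * Fr.Lam ^ (-(2 / 3) : ℝ) := by
          rw [mul_pow, ← Real.rpow_natCast (Fr.lam ^ X.s0) 2, ← Real.rpow_natCast (Fr.Lam ^ (-(1 / 3) : ℝ)) 2, ← Real.rpow_mul hl.le,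
            ← Real.rpow_mul hL.le]
          congr 2 <;> (push_cast; ring)

/-- the stage accuracies only depend on `N, u, λ` -/
theorem bt_astage_congr {Fr Fr' : BdFr} (hN : Fr.N = Fr'.N) (hu : Fr.u = Fr'.u) (hl : Fr.lam = Fr'.lam) (n : ℕ) :
    Fr.astage X n = Fr'.astage X n := by
  have hx : Fr.x = Fr'.x := by unfold BdFr.x; rw [hN]
  have hXr : Fr.Xr = Fr'.Xr := by unfold BdFr.Xr; rw [hx, hu]
  have hL : Fr.Lam = Fr'.Lam := by unfold BdFr.Lam; rw [hl]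
  have hA : Fr.A = Fr'.A := by unfold BdFr.A; rw [hXr, hL]
  have hg : Fr.agoal X = Fr'.agoal X := by unfold BdFr.agoal; rw [hXr, hl]
  induction n with
  | zero => rfl
  | succ n ih =>
    show max (Fr.agoal X) (Fr.lam ^ (-(0.12 : ℝ)) * Fr.A ^ (1 / 3 : ℝ) * Fr.astage X n ^ (2 / 3 : ℝ))
      = max (Fr'.agoal X) (Fr'.lam ^ (-(0.12 : ℝ)) * Fr'.A ^ (1 / 3 : ℝ) * Fr'.astage X n ^ (2 / 3 : ℝ))
    rw [hg, hl, hA, ih]

theorem bt_kstage_congr {Fr Fr' : BdFr} (hN : Fr.N = Fr'.N) (hu : Fr.u = Fr'.u) (hl : Fr.lam = Fr'.lam) (n : ℕ) :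
    Fr.kstage X n = Fr'.kstage X n := by
  have hx : Fr.x = Fr'.x := by unfold BdFr.x; rw [hN]
  have hXr : Fr.Xr = Fr'.Xr := by unfold BdFr.Xr; rw [hx, hu]
  have hL : Fr.Lam = Fr'.Lam := by unfold BdFr.Lam; rw [hl]
  have hA : Fr.A = Fr'.A := by unfold BdFr.A; rw [hXr, hL]
  cases n with
  | zero => rfl
  | succ n =>
    show (Fr.A / Fr.astage X n) ^ 2 = (Fr'.A / Fr'.astage X n) ^ 2
    rw [hA, bt_astage_congr hN hu hl n]

theorem bt_kstage_nonneg (Fr : BdFr) (n : ℕ) : 0 ≤ Fr.kstage X n := by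
  cases n with
  | zero => exact le_rfl
  | succ n => exact sq_nonneg _

/-- the patches start later and later -/
theorem bt_plo_mono (hX : X.Ok) : ∀ n ≤ X.J + 1, X.plo 0 ≤ X.plo n := by
  intro n
  induction n with
  | zero => exact fun _ => le_rfl
  | succ n ih =>
    intro hn
    have h1 := ih (by omega)
    have h2 := (hX.pat n (by omega)).2.1
    have h3 := (hX.nest n (by omega)).1
    linarith

/-- **the frame of a local dyad at the last stage** is in the family, `Ok`, and carries the box of its stage -/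
theorem bt_frL_ok (hF : F.Ok) (hX : X.Ok) (hFX : BtFix F X) : LlUnif F fun p => p.sm = false → p.ChiOk F → ∀ hd : ℕ, p.IsLoc F X hd →
    ∀ m : ℕ, p.N ≤ 2 * m → m ≤ 3 * p.N →
      BtFam 𝔹 F (btFrL 𝔹 F X p hd m) ∧ (btFrL 𝔹 F X p hd m).Ok X ∧ (btFrL 𝔹 F X p hd m).AtStage X ∧ (btFrL 𝔹 F X p hd m).st = X.J + 1 := by
  have hCU := hX.CU_pos
  have hc : 0 < F.pS * X.tau0 / 6 := by
    have := hF.pS0; have := hX.tau0_pos; positivity
  obtain ⟨N0, hN0⟩ := bt_pow_small hc (ε := 1 / X.CU ^ 2) (by positivity)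
  refine ⟨N0, fun p hp hN hsm hchi hd hloc m hm1 hm2 => ?_⟩
  obtain ⟨hdy, hU, hub⟩ := hloc
  have hx := bt_x_pos hp
  have hl := bt_lam_pos hp
  have hu : 0 < btU hd := by unfold btU; positivity
  have hks : (btFrL 𝔹 F X p hd m).kap = (btFrL 𝔹 F X p hd m).kstage X (X.J + 1) :=
    bt_kstage_congr (X := X) (Fr := btFr 𝔹 F p hd m 0 0 0 0) (Fr' := btFrL 𝔹 F X p hd m) rfl rfl rfl (X.J + 1)
  -- the goal accuracy is small
  have hgoal : (btFrL 𝔹 F X p hd m).agoal X ≤ 1 := by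
    show (p.x / btU hd) ^ 2 * p.lam ^ (-X.s0) ≤ 1
    have h1 : p.x / btU hd ≤ X.CU * p.lam ^ (F.sS / 2) := by
      rw [div_le_iff₀ hu]
      rw [Real.rpow_neg hl.le] at hU
      have hq : 0 < p.lam ^ (F.sS / 2) := Real.rpow_pos_of_pos hl _
      have : p.x ≤ X.CU * btU hd * p.lam ^ (F.sS / 2) := by
        rw [← div_eq_mul_inv, div_le_iff₀ hq] at hU
        exact hU
      linarith
    have h2 : (p.x / btU hd) ^ 2 ≤ X.CU ^ 2 * p.lam ^ F.sS := by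
      calc (p.x / btU hd) ^ 2 ≤ (X.CU * p.lam ^ (F.sS / 2)) ^ 2 := pow_le_pow_left₀ (by positivity) h1 2
        _ = X.CU ^ 2 * p.lam ^ F.sS := by
            rw [mul_pow, ← Real.rpow_natCast (p.lam ^ (F.sS / 2)) 2, ← Real.rpow_mul hl.le]
            congr 2; push_cast; ring
    have h3 : p.lam ^ F.sS * p.lam ^ (-X.s0) = p.lam ^ X.tau0 := by
      rw [← Real.rpow_add hl]
      congr 1
      have := hFX.sS
      unfold BdFix.s0
      linarith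
    have h4 := (bt_lam_pow_le hp hX.tau0_pos.le).trans (hN0 p.N hN)
    calc (p.x / btU hd) ^ 2 * p.lam ^ (-X.s0) ≤ (X.CU ^ 2 * p.lam ^ F.sS) * p.lam ^ (-X.s0) :=
          mul_le_mul_of_nonneg_right h2 (Real.rpow_nonneg hl.le _)
      _ = X.CU ^ 2 * p.lam ^ X.tau0 := by rw [mul_assoc, h3]
      _ ≤ X.CU ^ 2 * (1 / X.CU ^ 2) := by gcongr
      _ = 1 := by field_simp
  obtain ⟨q1, q2, q3, q4, q5⟩ := hX.pat (X.J + 1) le_rfl
  refine ⟨⟨p, hd, hp, hsm, hdy, rfl⟩, ?_, ⟨hks, rfl, rfl⟩, rfl⟩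
  exact
    { N2 := hp.N2
      m_lo := by
        show (p.N : ℝ) / 2 ≤ (m : ℝ)
        have : (p.N : ℝ) ≤ 2 * (m : ℝ) := by exact_mod_cast hm1
        linarith
      m_hi := by
        show (m : ℝ) ≤ 3 * (p.N : ℝ)
        exact_mod_cast hm2
      lam_lo := hp.lam_lo
      lam_hi := by
        show p.lam ≤ p.x ^ X.pS
        rw [hFX.pS]; exact hp.lam_hi
      u_lo := by
        show p.x * p.lam ^ (-(X.sS / 2)) ≤ X.CU * btU hd
        rw [hFX.sS]; exact hU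
      u_hi := hub
      ell1 := hp.ell1
      ell2 := hp.ell2
      chiL := hp.chiL
      chiE := hp.chiE
      chi := by
        show (p.chiL = 0 ∧ p.chiE = 1) ∨ (p.lam = p.x ^ X.pS ∧ (p.chiL = 1 ∨ p.chiE = 1))
        rw [hFX.pS]; exact hchi
      st_le := le_rfl
      kap0 := by rw [hks]; exact bt_kstage_nonneg _ _
      kap1 := by rw [hks]; exact bt_kstage_le (Fr := btFrL 𝔹 F X p hd m) hx hu hl hgoal _
      I0 := q1
      I1 := by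
        show X.plo (X.J + 1) ≤ X.phi (X.J + 1)
        linarith
      I2 := q5
      I3 := bt_plo_mono hX (X.J + 1) le_rfl }

/-! ## 3. The key local inequality -/

/-- abstract form of l.105-112 (`bud_gammaFTC` + `bud_dyadBudget`; the last integrand is `≤ 2 c D²`) -/
theorem bt_kl_abs (P : PSys) {b h c q Cr r : ℝ → ℝ} {D : ℝ}
    (hb : IsClock P.a b) (hh : IsClock P.a h) (hb1 : IsClock P.a (fun v => b v - c v)) (hh1 : IsClock P.a (fun v => h v + c v * q v))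
    (hbq : IsClock P.a (fun v => b v - Cr v)) (hhq : IsClock P.a (fun v => h v + Cr v * r v))
    (hc0 : ∀ v ∈ Ioo 0 P.a, 0 ≤ c v) (hCr : ∀ v ∈ Ioo 0 P.a, 0 < Cr v)
    (hq : ∀ v ∈ Ioo 0 P.a, q v ∈ Icc (0 : ℝ) 1) (hr : ∀ v ∈ Ioo 0 P.a, r v ∈ Icc (0 : ℝ) 1)
    (mq : AEStronglyMeasurable q (volume.restrict (Ioo 0 P.a))) (mr : AEStronglyMeasurable r (volume.restrict (Ioo 0 P.a)))
    (hD : ∀ v ∈ Ioo 0 P.a, c v ≠ 0 → |r v - q v| ≤ D ∧ 2 * c v ≤ Cr v) :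
    P.f (fun v => b v - c v) (fun v => h v + c v * q v) + (1 / 4) * (∫ v in Ioo 0 P.a, c v * q v ^ 2) - P.f b h
      ≤ (P.f (fun v => b v - Cr v) (fun v => h v + Cr v * r v) + (1 / 4) * (∫ v in Ioo 0 P.a, Cr v * r v ^ 2) - P.f b h)
        + D ^ 2 / 2 * ∫ v in Ioo 0 P.a, c v := by
  obtain ⟨Cb, hCb⟩ := hb.bdd
  have mb := bud_aesm_of_monoOn hb.mono
  have mc : AEStronglyMeasurable c (volume.restrict (Ioo 0 P.a)) := by
    have := mb.sub (bud_aesm_of_monoOn hb1.mono)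
    refine this.congr (Eventually.of_forall fun v => ?_)
    simp
  have mCr : AEStronglyMeasurable Cr (volume.restrict (Ioo 0 P.a)) := by
    have := mb.sub (bud_aesm_of_monoOn hbq.mono)
    refine this.congr (Eventually.of_forall fun v => ?_)
    simp
  have hcle : ∀ v ∈ Ioo 0 P.a, c v ≤ Cb := fun v hv => by
    have h1 : 0 ≤ b v - c v := hb1.nonneg v hv
    have := hCb v hv
    linarith
  have hCrle : ∀ v ∈ Ioo 0 P.a, Cr v ≤ Cb := fun v hv => by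
    have h1 : 0 ≤ b v - Cr v := hbq.nonneg v hv
    have := hCb v hv
    linarith
  have sq1 : ∀ {y : ℝ}, y ∈ Icc (0 : ℝ) 1 → y ^ 2 ≤ 1 := fun hy => pow_le_one₀ hy.1 hy.2
  have hlt : ∀ v ∈ Ioo 0 P.a, c v < Cr v := by
    intro v hv
    by_cases h0 : c v = 0
    · rw [h0]; exact hCr v hv
    · have h1 := (hD v hv h0).2
      have h2 : 0 < c v := lt_of_le_of_ne (hc0 v hv) (Ne.symm h0)
      linarith
  have i1 : IntegrableOn (fun v => c v * q v ^ 2) (Ioo 0 P.a) := by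
    refine bt_int_bdd (C := Cb) (mc.mul (mq.pow 2)) fun v hv => ?_
    rw [abs_of_nonneg (mul_nonneg (hc0 v hv) (sq_nonneg _))]
    calc c v * q v ^ 2 ≤ c v * 1 := mul_le_mul_of_nonneg_left (sq1 (hq v hv)) (hc0 v hv)
      _ ≤ Cb := by rw [mul_one]; exact hcle v hv
  have i2 : IntegrableOn (fun v => Cr v * r v ^ 2) (Ioo 0 P.a) := by
    refine bt_int_bdd (C := Cb) (mCr.mul (mr.pow 2)) fun v hv => ?_
    rw [abs_of_nonneg (mul_nonneg (hCr v hv).le (sq_nonneg _))]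
    calc Cr v * r v ^ 2 ≤ Cr v * 1 := mul_le_mul_of_nonneg_left (sq1 (hr v hv)) (hCr v hv).le
      _ ≤ Cb := by rw [mul_one]; exact hCrle v hv
  have key : ∀ v ∈ Ioo 0 P.a, 0 ≤ Cr v * c v * (r v - q v) ^ 2 / (Cr v - c v) ∧
      Cr v * c v * (r v - q v) ^ 2 / (Cr v - c v) ≤ 2 * D ^ 2 * c v ∧ Cr v * c v * (r v - q v) ^ 2 / (Cr v - c v) ≤ 2 * Cb := by
    intro v hv
    have hpos : 0 < Cr v - c v := by linarith [hlt v hv]
    have hCb0 : 0 ≤ Cb := (hc0 v hv).trans (hcle v hv)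
    refine ⟨div_nonneg (mul_nonneg (mul_nonneg (hCr v hv).le (hc0 v hv)) (sq_nonneg _)) hpos.le, ?_⟩
    by_cases h0 : c v = 0
    · rw [h0]
      simp [hCb0]
    · obtain ⟨h1, h2⟩ := hD v hv h0
      have h3 : (r v - q v) ^ 2 ≤ D ^ 2 := by
        rw [← sq_abs (r v - q v)]
        exact pow_le_pow_left₀ (abs_nonneg _) h1 2
      have h4 : (r v - q v) ^ 2 ≤ 1 := by
        have a1 := hr v hv
        have a2 := hq v hv
        rw [← sq_abs (r v - q v)]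
        refine pow_le_one₀ (abs_nonneg _) (abs_le.2 ⟨by linarith [a1.1, a2.2], by linarith [a1.2, a2.1]⟩)
      have h5 : Cr v ≤ 2 * (Cr v - c v) := by linarith
      have h6 : ∀ y : ℝ, 0 ≤ y → Cr v * c v * y / (Cr v - c v) ≤ 2 * y * c v := by
        intro y hy
        rw [div_le_iff₀ hpos]
        have : Cr v * (c v * y) ≤ 2 * (Cr v - c v) * (c v * y) := mul_le_mul_of_nonneg_right h5 (mul_nonneg (hc0 v hv) hy)
        nlinarith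
      refine ⟨(h6 _ (sq_nonneg _)).trans ?_, (h6 _ (sq_nonneg _)).trans ?_⟩
      · exact mul_le_mul_of_nonneg_right (by linarith) (hc0 v hv)
      · have := hcle v hv
        have := hc0 v hv
        nlinarith
  have i3 : IntegrableOn (fun v => Cr v * c v * (r v - q v) ^ 2 / (Cr v - c v)) (Ioo 0 P.a) := by
    refine bt_int_bdd (C := 2 * Cb) (((mCr.mul mc).mul ((mr.sub mq).pow 2)).aemeasurable.div (mCr.sub mc).aemeasurable).aestronglyMeasurable fun v hv => ?_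
    rw [abs_of_nonneg (key v hv).1]
    exact (key v hv).2.2
  have i4 : IntegrableOn c (Ioo 0 P.a) := by
    refine bt_int_bdd (C := Cb) mc fun v hv => ?_
    rw [abs_of_nonneg (hc0 v hv)]
    exact hcle v hv
  have h1 := (bud_gammaFTC P b h c q hb hh hb1 hh1 i1).2
  have h2 := bud_dyadBudget P b h c q Cr r hb hh hb1 hh1 hbq hhq hlt i1 i2 i3
  have h3 : ∫ v in Ioo 0 P.a, Cr v * c v * (r v - q v) ^ 2 / (Cr v - c v) ≤ 2 * D ^ 2 * ∫ v in Ioo 0 P.a, c v := by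
    rw [← integral_const_mul]
    exact setIntegral_mono_on i3 (i4.const_mul _) measurableSet_Ioo fun v hv => (key v hv).2.1
  rw [h1]
  refine h2.trans ?_
  linarith

/-- **l.105-112**: compare a minimising auxiliary path to the actual endpoint `γ_u = 1` -/
theorem bt_kl_point (hF : F.Ok) (hX : X.Ok) (hW : BtWorld 𝔹 W) (hSc : BtScale 𝔹) {p : LlPt} (hp : p.Ok F) (hsm : p.sm = false) {hd m st : ℕ} {kap Ilo Ihi g : ℝ}
    (hdy : p.IsDy F hd) (hm : 1 ≤ m) (hFr : (btFr 𝔹 F p hd m st kap Ilo Ihi).Ok X)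
    (hc0 : BtClkAt 𝔹 F (p.loc hd g 0)) (hc1 : BtClkAt 𝔹 F (p.loc hd g 1))
    (Q : BdQ (btFr 𝔹 F p hd m st kap Ilo Ihi) X) (hQc : IsClock 1 (Q.bq g) ∧ IsClock 1 (Q.hq g)) (hQ : Q.IsOpt W g) {D : ℝ}
    (hD : ∀ v ∈ Ioo (0 : ℝ) 1, (btFr 𝔹 F p hd m st kap Ilo Ihi).cu v ≠ 0 →
      |Q.r v - (btFr 𝔹 F p hd m st kap Ilo Ihi).q v| ≤ D ∧
        2 * (btFr 𝔹 F p hd m st kap Ilo Ihi).cu v ≤ (btFr 𝔹 F p hd m st kap Ilo Ihi).C X (Q.r v)) :
    p.ell * ((p.loc hd g 1).fRest F 𝔹 m - (p.loc hd g 0).fRest F 𝔹 m)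
      ≤ (btFr 𝔹 F p hd m st kap Ilo Ihi).exc X W g + D ^ 2 / 2 * ∫ w in Ioo (0 : ℝ) 1, (btFr 𝔹 F p hd m st kap Ilo Ihi).cu w := by
  have hPa : (W.ps m).a = 1 := hW.a1 m
  have hl : 0 < p.ell := by linarith [hp.ell1]
  have ha0 := bt_loc_a (hd := hd) (g := g) hsm 0
  have ha1 := bt_loc_a (hd := hd) (g := g) hsm 1
  have c0b := hc0.b
  have c0h := hc0.h
  have c1b := hc1.b
  have c1h := hc1.h
  have qm := hc0.q_mono
  have qi := hc0.q_mem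
  rw [ha0] at c0b c0h qm qi
  rw [ha1] at c1b c1h
  have hb : IsClock 1 ((btFr 𝔹 F p hd m st kap Ilo Ihi).b g) := bt_resc_clock hl c0b
  have hh : IsClock 1 ((btFr 𝔹 F p hd m st kap Ilo Ihi).h g) := bt_resc_clock hl c0h
  have eb1 : (fun v => (btFr 𝔹 F p hd m st kap Ilo Ihi).b g v - (btFr 𝔹 F p hd m st kap Ilo Ihi).cu v) = btResc p.ell ((p.loc hd g 1).b F 𝔹) := funext fun v => bt_fr_b1 hp hdy v
  have eh1 : (fun v => (btFr 𝔹 F p hd m st kap Ilo Ihi).h g v + (btFr 𝔹 F p hd m st kap Ilo Ihi).cu v * (btFr 𝔹 F p hd m st kap Ilo Ihi).q v) = btResc p.ell ((p.loc hd g 1).h F 𝔹) := funext fun v => bt_fr_h1 hF hp hdy v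
  have hb1 : IsClock 1 (fun v => (btFr 𝔹 F p hd m st kap Ilo Ihi).b g v - (btFr 𝔹 F p hd m st kap Ilo Ihi).cu v) := by rw [eb1]; exact bt_resc_clock hl c1b
  have hh1 : IsClock 1 (fun v => (btFr 𝔹 F p hd m st kap Ilo Ihi).h g v + (btFr 𝔹 F p hd m st kap Ilo Ihi).cu v * (btFr 𝔹 F p hd m st kap Ilo Ihi).q v) := by rw [eh1]; exact bt_resc_clock hl c1h
  have hcu0 : ∀ v, 0 ≤ (btFr 𝔹 F p hd m st kap Ilo Ihi).cu v := fun v => mul_nonneg (sq_nonneg _) (bt_cu_nonneg hF hp hd _)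
  have hC0 : 0 < (btFr 𝔹 F p hd m st kap Ilo Ihi).C0 := by
    have h1 : 0 < (btFr 𝔹 F p hd m st kap Ilo Ihi).u := bt_U_hd_pos hd
    have h2 : 0 < (btFr 𝔹 F p hd m st kap Ilo Ihi).lam := bt_lam_pos hp
    unfold BdFr.C0 BdFr.Lam
    positivity
  have hCr : ∀ v, 0 < (btFr 𝔹 F p hd m st kap Ilo Ihi).C X (Q.r v) := fun v => cm_e_pos ((btFr 𝔹 F p hd m st kap Ilo Ihi).call X) hC0 _
  have hq : ∀ v ∈ Ioo (0 : ℝ) 1, (btFr 𝔹 F p hd m st kap Ilo Ihi).q v ∈ Icc (0 : ℝ) 1 := fun v hv => qi _ (bt_resc_mem hl hv)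
  have hqm : MonotoneOn (btFr 𝔹 F p hd m st kap Ilo Ihi).q (Ioo 0 1) := fun v hv w hw hvw =>
    qm (bt_resc_mem hl hv) (bt_resc_mem hl hw) (mul_le_mul_of_nonneg_left hvw hl.le)
  have hr : ∀ v ∈ Ioo (0 : ℝ) 1, Q.r v ∈ Icc (0 : ℝ) 1 := fun v hv => Q.r_mem v (Ioo_subset_Icc_self hv)
  have hrm : MonotoneOn Q.r (Ioo 0 1) := (bt_Q_r_mono hFr hX Q).mono Ioo_subset_Icc_self
  have main := bt_kl_abs (W.ps m) (b := (btFr 𝔹 F p hd m st kap Ilo Ihi).b g) (h := (btFr 𝔹 F p hd m st kap Ilo Ihi).h g) (c := (btFr 𝔹 F p hd m st kap Ilo Ihi).cu) (q := (btFr 𝔹 F p hd m st kap Ilo Ihi).q) (Cr := fun v => (btFr 𝔹 F p hd m st kap Ilo Ihi).C X (Q.r v)) (r := Q.r) (D := D)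
    (by rw [hPa]; exact hb) (by rw [hPa]; exact hh) (by rw [hPa]; exact hb1) (by rw [hPa]; exact hh1)
    (by rw [hPa]; exact hQc.1) (by rw [hPa]; exact hQc.2) (fun v _ => hcu0 v) (fun v _ => hCr v)
    (by rw [hPa]; exact hq) (by rw [hPa]; exact hr) (by rw [hPa]; exact bud_aesm_of_monoOn hqm)
    (by rw [hPa]; exact bud_aesm_of_monoOn hrm) (by rw [hPa]; exact hD)
  rw [hPa] at main
  -- the right side
  have eR : (btFr 𝔹 F p hd m st kap Ilo Ihi).exc X W g = (W.ps m).f (fun v => (btFr 𝔹 F p hd m st kap Ilo Ihi).b g v - (btFr 𝔹 F p hd m st kap Ilo Ihi).C X (Q.r v)) (fun v => (btFr 𝔹 F p hd m st kap Ilo Ihi).h g v + (btFr 𝔹 F p hd m st kap Ilo Ihi).C X (Q.r v) * Q.r v)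
      + (1 / 4) * (∫ v in Ioo (0 : ℝ) 1, (btFr 𝔹 F p hd m st kap Ilo Ihi).C X (Q.r v) * Q.r v ^ 2) - (W.ps m).f ((btFr 𝔹 F p hd m st kap Ilo Ihi).b g) ((btFr 𝔹 F p hd m st kap Ilo Ihi).h g) := by
    unfold BdFr.exc
    rw [bt_V_eq Q hQ]
    unfold BdQ.obj BdQ.pen BdFr.f0
    rw [bt_ii zero_le_one]
    rfl
  -- the left side
  obtain ⟨Cb, hCb⟩ := hb.bdd
  have sq1 : ∀ v ∈ Ioo (0 : ℝ) 1, (btFr 𝔹 F p hd m st kap Ilo Ihi).q v ^ 2 ≤ 1 := fun v hv => pow_le_one₀ (hq v hv).1 (hq v hv).2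
  have mq := bud_aesm_of_monoOn hqm
  have ibq : IntegrableOn (fun v => (btFr 𝔹 F p hd m st kap Ilo Ihi).b g v * (btFr 𝔹 F p hd m st kap Ilo Ihi).q v ^ 2) (Ioo 0 1) := by
    refine bt_int_bdd (C := Cb) ((bud_aesm_of_monoOn hb.mono).mul (mq.pow 2)) fun v hv => ?_
    rw [abs_of_nonneg (mul_nonneg (hb.nonneg v hv) (sq_nonneg _))]
    calc (btFr 𝔹 F p hd m st kap Ilo Ihi).b g v * (btFr 𝔹 F p hd m st kap Ilo Ihi).q v ^ 2 ≤ (btFr 𝔹 F p hd m st kap Ilo Ihi).b g v * 1 := mul_le_mul_of_nonneg_left (sq1 v hv) (hb.nonneg v hv)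
      _ ≤ Cb := by rw [mul_one]; exact hCb v hv
  have ib1q : IntegrableOn (fun v => ((btFr 𝔹 F p hd m st kap Ilo Ihi).b g v - (btFr 𝔹 F p hd m st kap Ilo Ihi).cu v) * (btFr 𝔹 F p hd m st kap Ilo Ihi).q v ^ 2) (Ioo 0 1) := by
    refine bt_int_bdd (C := Cb) ((bud_aesm_of_monoOn hb1.mono).mul (mq.pow 2)) fun v hv => ?_
    have h0 : 0 ≤ (btFr 𝔹 F p hd m st kap Ilo Ihi).b g v - (btFr 𝔹 F p hd m st kap Ilo Ihi).cu v := hb1.nonneg v hv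
    rw [abs_of_nonneg (mul_nonneg h0 (sq_nonneg _))]
    calc ((btFr 𝔹 F p hd m st kap Ilo Ihi).b g v - (btFr 𝔹 F p hd m st kap Ilo Ihi).cu v) * (btFr 𝔹 F p hd m st kap Ilo Ihi).q v ^ 2 ≤ ((btFr 𝔹 F p hd m st kap Ilo Ihi).b g v - (btFr 𝔹 F p hd m st kap Ilo Ihi).cu v) * 1 := mul_le_mul_of_nonneg_left (sq1 v hv) h0
      _ ≤ Cb := by rw [mul_one]; linarith [hCb v hv, hcu0 v]
  have eI : ∫ v in Ioo (0 : ℝ) 1, (btFr 𝔹 F p hd m st kap Ilo Ihi).cu v * (btFr 𝔹 F p hd m st kap Ilo Ihi).q v ^ 2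
      = (∫ v in Ioo (0 : ℝ) 1, (btFr 𝔹 F p hd m st kap Ilo Ihi).b g v * (btFr 𝔹 F p hd m st kap Ilo Ihi).q v ^ 2) - ∫ v in Ioo (0 : ℝ) 1, ((btFr 𝔹 F p hd m st kap Ilo Ihi).b g v - (btFr 𝔹 F p hd m st kap Ilo Ihi).cu v) * (btFr 𝔹 F p hd m st kap Ilo Ihi).q v ^ 2 := by
    rw [← integral_sub ibq ib1q]
    refine integral_congr_ae (Eventually.of_forall fun v => ?_)
    simp only
    ring
  have r1 := bt_fr_rest hW hSc hp hsm hm 1 hc1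
  have r0 := bt_fr_rest hW hSc hp hsm hm 0 hc0
  rw [← eb1, ← eh1] at r1
  have r0' : (W.ps m).f ((btFr 𝔹 F p hd m st kap Ilo Ihi).b g) ((btFr 𝔹 F p hd m st kap Ilo Ihi).h g) - (1 / 4) * ∫ w in Ioo (0 : ℝ) 1, (btFr 𝔹 F p hd m st kap Ilo Ihi).b g w * (btFr 𝔹 F p hd m st kap Ilo Ihi).q w ^ 2 = p.ell * (p.loc hd g 0).fRest F 𝔹 m := r0
  have r1' : (W.ps m).f (fun v => (btFr 𝔹 F p hd m st kap Ilo Ihi).b g v - (btFr 𝔹 F p hd m st kap Ilo Ihi).cu v) (fun v => (btFr 𝔹 F p hd m st kap Ilo Ihi).h g v + (btFr 𝔹 F p hd m st kap Ilo Ihi).cu v * (btFr 𝔹 F p hd m st kap Ilo Ihi).q v)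
      - (1 / 4) * ∫ w in Ioo (0 : ℝ) 1, ((btFr 𝔹 F p hd m st kap Ilo Ihi).b g w - (btFr 𝔹 F p hd m st kap Ilo Ihi).cu w) * (btFr 𝔹 F p hd m st kap Ilo Ihi).q w ^ 2 = p.ell * (p.loc hd g 1).fRest F 𝔹 m := r1
  rw [mul_sub, ← r0', ← r1', eR]
  rw [eI] at main
  linarith

/-- the difference of the restored pressures is continuous in `γ_0` -/
theorem bt_delta_cont (h3 : LlSec3 𝔹 F) (hEn : BtEnd 𝔹 F) (hS : BtSys 𝔹) : LlUnif F fun p => ∀ (hd m : ℕ), 1 ≤ m →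
    ContinuousOn (fun g : ℝ => (p.loc hd g 1).fRest F 𝔹 m - (p.loc hd g 0).fRest F 𝔹 m) (Icc (-4 : ℝ) 4) := by
  refine bt_unif_mono (bt_fRest_cont2 h3 hEn hS) fun p hp h hd m hm => ?_
  have h1 := h hd m hm
  have c1 : ContinuousOn (fun g : ℝ => (g, (1 : ℝ))) (Icc (-4 : ℝ) 4) := (continuous_id.prodMk continuous_const).continuousOn
  have c0 : ContinuousOn (fun g : ℝ => (g, (0 : ℝ))) (Icc (-4 : ℝ) 4) := (continuous_id.prodMk continuous_const).continuousOn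
  have m1 : MapsTo (fun g : ℝ => (g, (1 : ℝ))) (Icc (-4 : ℝ) 4) (Icc (-4 : ℝ) 4 ×ˢ Icc (-4 : ℝ) 4) :=
    fun g hg => Set.mk_mem_prod hg (by constructor <;> norm_num)
  have m0 : MapsTo (fun g : ℝ => (g, (0 : ℝ))) (Icc (-4 : ℝ) 4) (Icc (-4 : ℝ) 4 ×ˢ Icc (-4 : ℝ) 4) :=
    fun g hg => Set.mk_mem_prod hg (by constructor <;> norm_num)
  have a1 : ContinuousOn (fun g : ℝ => (p.loc hd g 1).fRest F 𝔹 m) (Icc (-4 : ℝ) 4) := by
    have := h1.comp c1 m1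
    simpa only [Function.comp_def] using this
  have a0 : ContinuousOn (fun g : ℝ => (p.loc hd g 0).fRest F 𝔹 m) (Icc (-4 : ℝ) 4) := by
    have := h1.comp c0 m0
    simpa only [Function.comp_def] using this
  exact a1.sub a0

theorem bt_sub13 : Icc (1 / 3 : ℝ) (2 / 3) ⊆ Icc (-4 : ℝ) 4 := Icc_subset_Icc (by norm_num) (by norm_num)

/-- the scales of the frame -/
theorem bt_cost_eq {p : LlPt} (hp : p.Ok F) (hd m : ℕ) :
    (btFrL 𝔹 F X p hd m).btCost X = btU hd * (p.x ^ (4 - 2 * X.zeta) * p.lam ^ (1 / 100 : ℝ)) := by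
  have hl := bt_lam_pos hp
  show p.x ^ (4 - 2 * X.zeta) * btU hd * (p.lam ^ (0.03 : ℝ)) ^ (1 / 3 : ℝ) = _
  rw [← Real.rpow_mul hl.le]
  have : (0.03 : ℝ) * (1 / 3) = 1 / 100 := by norm_num
  rw [this]; ring

theorem bt_goal_eq {p : LlPt} (hp : p.Ok F) (hd m : ℕ) :
    (btU hd * (btFrL 𝔹 F X p hd m).agoal X) ^ 2 * (p.lam * btU hd ^ 3) = btU hd * (p.x ^ 4 * p.lam ^ (1 - 2 * X.s0)) := by
  have hl := bt_lam_pos hp
  have hu := bt_U_hd_pos hd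
  show (btU hd * ((p.x / btU hd) ^ 2 * p.lam ^ (-X.s0))) ^ 2 * (p.lam * btU hd ^ 3) = _
  have e : p.lam ^ (1 - 2 * X.s0) = p.lam * (p.lam ^ (-X.s0)) ^ 2 := by
    rw [← Real.rpow_natCast (p.lam ^ (-X.s0)) 2, ← Real.rpow_mul hl.le]
    nth_rewrite 2 [← Real.rpow_one p.lam]
    rw [← Real.rpow_add hl]
    congr 1; push_cast; ring
  rw [e]
  field_simp

/-- **the increase of the restored pressure between `γ_u = 0` and `γ_u = 1`, averaged over `γ_0`** -/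
theorem bt_kl (h3 : LlSec3 𝔹 F) (hEn : BtEnd 𝔹 F) (hS : BtSys 𝔹) (hX : X.Ok) (hFX : BtFix F X) (hW : BtWorld 𝔹 W) (hSc : BtScale 𝔹) (hloc : BtLoc X W (BtFam 𝔹 F)) :
    ∃ C : ℝ, LlUnif F fun p => p.sm = false → p.ChiOk F → ∀ hd : ℕ, p.IsLoc F X hd → ∀ m : ℕ, p.N ≤ 2 * m → m ≤ 3 * p.N →
      ∫ g in (1 / 3 : ℝ)..(2 / 3), ((p.loc hd g 1).fRest F 𝔹 m - (p.loc hd g 0).fRest F 𝔹 m)
        ≤ C * (btU hd * (p.x ^ (4 - 2 * X.zeta) * p.lam ^ (1 / 100 : ℝ) + p.x ^ 4 * p.lam ^ (1 - 2 * X.s0))) := by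
  have hF := h3.ok
  obtain ⟨CL, NL, hL⟩ := hloc
  obtain ⟨Nc, hNc⟩ := bt_clk_changed (X := X) h3 hEn hX hFX
  obtain ⟨cφ, Cφ, _, _, hφ⟩ := bt_phi_bds hF
  have hCφ : 0 ≤ Cφ := (hF.phi_nn 0).trans (hφ 0)
  set K1 : ℝ := 8 * F.cb * F.c1 * Cφ with hK1
  have hK1' : 0 ≤ K1 := by have := hF.cb0; have := hF.c10; positivity
  refine ⟨|CL| + CL ^ 2 / 2 * K1 * |CL|, ?_⟩
  have hbig : LlUnif F fun p => NL ≤ p.N ∧ Nc ≤ p.N := ⟨max NL Nc, fun p _ h => ⟨le_trans (le_max_left _ _) h, le_trans (le_max_right _ _) h⟩⟩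
  refine bt_unif_mono (bt_unif_and (bt_frL_ok (𝔹 := 𝔹) hF hX hFX) (bt_unif_and hbig (bt_unif_and (bt_unif_loc (bt_clk h3 hEn)) (bt_delta_cont h3 hEn hS)))) ?_
  rintro p hp ⟨hfr, ⟨hNL, hNc'⟩, hclk, hcont⟩ hsm hchi hd hl m hm1 hm2
  have hm := bt_m_pos hp hm1
  obtain ⟨hfam, hok, hst, hJ⟩ := hfr hsm hchi hd hl m hm1 hm2
  obtain ⟨Z, iE, hE, iZ, hZ, hae⟩ := hL _ hfam hok hst hJ hNL
  set Fr := btFrL 𝔹 F X p hd m with hFr
  set Icu : ℝ := ∫ w in Ioo (0 : ℝ) 1, Fr.cu w with hIcu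
  have hIcu1 : Icu ≤ K1 * (p.lam * btU hd ^ 3) := bt_fr_cu_int hF hp hφ
  have hu := bt_U_hd_pos hd
  have hlam := bt_lam_pos hp
  have hx := bt_x_pos hp
  have hIcu0 : 0 ≤ Icu := by
    refine setIntegral_nonneg measurableSet_Ioo fun w _ => ?_
    show 0 ≤ p.ell ^ 2 * btCu F p hd (p.ell * w)
    exact mul_nonneg (sq_nonneg _) (bt_cu_nonneg hF hp hd _)
  set Δ : ℝ → ℝ := fun g => (p.loc hd g 1).fRest F 𝔹 m - (p.loc hd g 0).fRest F 𝔹 m with hΔ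
  have iΔ : IntervalIntegrable Δ volume (1 / 3) (2 / 3) := ((hcont hd m hm).mono bt_sub13).intervalIntegrable_of_Icc (by norm_num)
  set k : ℝ := (CL * (Fr.u * Fr.agoal X)) ^ 2 / 2 * Icu with hk
  have key : (fun g => p.ell * Δ g) ≤ᵐ[volume.restrict (Icc (1 / 3 : ℝ) (2 / 3))] fun g => Fr.exc X W g + k * Z g ^ 2 := by
    have hmem : ∀ᵐ g ∂(volume.restrict (Icc (1 / 3 : ℝ) (2 / 3))), g ∈ Icc (1 / 3 : ℝ) (2 / 3) := ae_restrict_mem measurableSet_Icc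
    filter_upwards [hae, hmem] with g ⟨Q, hQ, hQD⟩ hg
    have hg4 := bt_sub13 hg
    have h01 : (0 : ℝ) ∈ Icc (-4 : ℝ) 4 := by constructor <;> norm_num
    have h11 : (1 : ℝ) ∈ Icc (-4 : ℝ) 4 := by constructor <;> norm_num
    have := bt_kl_point (W := W) hF hX hW hSc hp hsm hl.1 hm hok (hclk hd g hg4 0 h01) (hclk hd g hg4 1 h11) Q
      (hNc Fr hfam hok hNc' g hg4 Q) hQ (D := CL * (Fr.u * Fr.agoal X * Z g)) hQD
    calc p.ell * Δ g ≤ Fr.exc X W g + (CL * (Fr.u * Fr.agoal X * Z g)) ^ 2 / 2 * Icu := this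
      _ = Fr.exc X W g + k * Z g ^ 2 := by rw [hk]; ring
  have int1 := intervalIntegral.integral_mono_ae_restrict (by norm_num : (1 / 3 : ℝ) ≤ 2 / 3) (iΔ.const_mul p.ell) (iE.add (iZ.const_mul k)) key
  rw [intervalIntegral.integral_const_mul, intervalIntegral.integral_add iE (iZ.const_mul k), intervalIntegral.integral_const_mul] at int1
  -- sizes
  have hk0 : 0 ≤ k := by rw [hk]; positivity
  have hZ0 : 0 ≤ ∫ g in (1 / 3 : ℝ)..(2 / 3), Z g ^ 2 := intervalIntegral.integral_nonneg (by norm_num) fun g _ => sq_nonneg _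
  set t1 : ℝ := btU hd * (p.x ^ (4 - 2 * X.zeta) * p.lam ^ (1 / 100 : ℝ)) with ht1
  set t2 : ℝ := btU hd * (p.x ^ 4 * p.lam ^ (1 - 2 * X.s0)) with ht2
  have ht1' : 0 ≤ t1 := by rw [ht1]; positivity
  have ht2' : 0 ≤ t2 := by rw [ht2]; positivity
  have hcost : Fr.btCost X = t1 := bt_cost_eq hp hd m
  have hkle : k ≤ CL ^ 2 / 2 * K1 * t2 := by
    have e : (btU hd * Fr.agoal X) ^ 2 * (p.lam * btU hd ^ 3) = t2 := bt_goal_eq hp hd m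
    have hu' : Fr.u = btU hd := rfl
    calc k = CL ^ 2 / 2 * ((btU hd * Fr.agoal X) ^ 2 * Icu) := by rw [hk, hu']; ring
      _ ≤ CL ^ 2 / 2 * ((btU hd * Fr.agoal X) ^ 2 * (K1 * (p.lam * btU hd ^ 3))) := by gcongr
      _ = CL ^ 2 / 2 * K1 * ((btU hd * Fr.agoal X) ^ 2 * (p.lam * btU hd ^ 3)) := by ring
      _ = CL ^ 2 / 2 * K1 * t2 := by rw [e]
  have hR : p.ell * (∫ g in (1 / 3 : ℝ)..(2 / 3), Δ g) ≤ |CL| * t1 + CL ^ 2 / 2 * K1 * |CL| * t2 := by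
    have a1 : (∫ g in (1 / 3 : ℝ)..(2 / 3), Fr.exc X W g) ≤ |CL| * t1 := by
      rw [← hcost]
      exact hE.trans (mul_le_mul_of_nonneg_right (le_abs_self _) (by rw [hcost]; exact ht1'))
    have a2 : k * (∫ g in (1 / 3 : ℝ)..(2 / 3), Z g ^ 2) ≤ CL ^ 2 / 2 * K1 * t2 * |CL| :=
      mul_le_mul hkle (hZ.trans (le_abs_self _)) hZ0 (by positivity)
    linarith
  have hfin : (∫ g in (1 / 3 : ℝ)..(2 / 3), Δ g) ≤ |CL| * t1 + CL ^ 2 / 2 * K1 * |CL| * t2 := by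
    have hR0 : 0 ≤ |CL| * t1 + CL ^ 2 / 2 * K1 * |CL| * t2 := by positivity
    rcases le_or_gt 0 (∫ g in (1 / 3 : ℝ)..(2 / 3), Δ g) with h | h
    · nlinarith [hp.ell1]
    · linarith
  have e3 : btU hd * (p.x ^ (4 - 2 * X.zeta) * p.lam ^ (1 / 100 : ℝ) + p.x ^ 4 * p.lam ^ (1 - 2 * X.s0)) = t1 + t2 := by rw [ht1, ht2]; ring
  rw [e3]
  have b1 : 0 ≤ CL ^ 2 / 2 * K1 * |CL| * t1 := by positivity
  have b2 : 0 ≤ |CL| * t2 := by positivity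
  nlinarith

/-- the same on a smoothed path, by (P11) -/
theorem bt_kl_sm (h3 : LlSec3 𝔹 F) (hEn : BtEnd 𝔹 F) (hS : BtSys 𝔹) (hX : X.Ok) (hFX : BtFix F X) (hW : BtWorld 𝔹 W) (hSc : BtScale 𝔹) (hloc : BtLoc X W (BtFam 𝔹 F)) :
    ∃ C : ℝ, LlUnif F fun p => p.sm = true → p.chiL = 1 → ∀ hd : ℕ, p.IsLoc F X hd → ∀ m : ℕ, p.N ≤ 2 * m → m ≤ 3 * p.N →
      ∫ g in (1 / 3 : ℝ)..(2 / 3), ((p.loc hd g 1).fRest F 𝔹 m - (p.loc hd g 0).fRest F 𝔹 m)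
        ≤ C * (btU hd * (p.x ^ (4 - 2 * X.zeta) * p.lam ^ (1 / 100 : ℝ) + p.x ^ 4 * p.lam ^ (1 - 2 * X.s0)) + p.x ^ (5 + 1 / 8 : ℝ)) := by
  obtain ⟨C, hC⟩ := bt_kl h3 hEn hS hX hFX hW hSc hloc
  obtain ⟨C11, h11⟩ := h3.p11
  have hdc := bt_delta_cont h3 hEn hS
  refine ⟨|C| + |C11|, bt_unif_mono (bt_unif_and (bt_unif_dir hC) (bt_unif_and h11 (bt_unif_and hdc (bt_unif_dir hdc)))) ?_⟩
  rintro p hp ⟨hd', h11p, hc1, hc2⟩ hsm hchi hd hl m hm1 hm2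
  have hm := bt_m_pos hp hm1
  obtain ⟨κ, hκ⟩ := h11p hsm hchi
  have hx := bt_x_pos hp
  have hu := bt_U_hd_pos hd
  have hlam := bt_lam_pos hp
  have hs' : p.x / 2 ∈ Ioo 0 p.x := ⟨by linarith, by linarith⟩
  set pd : LlPt := { p with sm := false } with hpd
  have hchi' : pd.ChiOk F := Or.inr ⟨(hp.sm_fin hsm).1, Or.inl hchi⟩
  have dd := hd' rfl hchi' hd hl m hm1 hm2
  set Y : ℝ := p.x ^ (5 + 1 / 8 : ℝ) with hY
  have hY0 : 0 ≤ Y := (Real.rpow_pos_of_pos hx _).le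
  set t : ℝ := btU hd * (p.x ^ (4 - 2 * X.zeta) * p.lam ^ (1 / 100 : ℝ) + p.x ^ 4 * p.lam ^ (1 - 2 * X.s0)) with ht
  have ht0 : 0 ≤ t := by rw [ht]; positivity
  have dd' : ∫ g in (1 / 3 : ℝ)..(2 / 3), ((pd.loc hd g 1).fRest F 𝔹 m - (pd.loc hd g 0).fRest F 𝔹 m) ≤ C * t := dd
  have i1 := ((hc1 hd m hm).mono bt_sub13).intervalIntegrable_of_Icc (μ := volume) (by norm_num : (1 / 3 : ℝ) ≤ 2 / 3)
  have i2 := ((hc2 hd m hm).mono bt_sub13).intervalIntegrable_of_Icc (μ := volume) (by norm_num : (1 / 3 : ℝ) ≤ 2 / 3)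
  have upd : ∀ s : ℝ, s ∈ Icc (-4 : ℝ) 4 → ∀ h, Function.update p.gu hd s h ∈ Icc (-4 : ℝ) 4 := fun s hs h => by
    by_cases hh : h = hd
    · subst hh; rw [Function.update_self]; exact hs
    · rw [Function.update_of_ne hh]; exact hp.gu h
  have pt : ∀ g ∈ Icc (1 / 3 : ℝ) (2 / 3), (p.loc hd g 1).fRest F 𝔹 m - (p.loc hd g 0).fRest F 𝔹 m
      ≤ ((pd.loc hd g 1).fRest F 𝔹 m - (pd.loc hd g 0).fRest F 𝔹 m) + 2 * (C11 * Y) := fun g hg => by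
    have a1 : (p.loc hd g 1).fRest F 𝔹 m - (pd.loc hd g 1).fRest F 𝔹 m - κ ≤ C11 * Y :=
      (abs_le.1 (hκ g (bt_sub13 hg) _ (upd 1 (by constructor <;> norm_num)) m hm1 hm2 _ hs').2.1).2
    have a0 : -(C11 * Y) ≤ (p.loc hd g 0).fRest F 𝔹 m - (pd.loc hd g 0).fRest F 𝔹 m - κ :=
      (abs_le.1 (hκ g (bt_sub13 hg) _ (upd 0 (by constructor <;> norm_num)) m hm1 hm2 _ hs').2.1).1
    linarith
  have int1 := intervalIntegral.integral_mono_on (by norm_num : (1 / 3 : ℝ) ≤ 2 / 3) i1 (i2.add (intervalIntegrable_const (c := 2 * (C11 * Y)))) pt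
  rw [intervalIntegral.integral_add i2 intervalIntegrable_const, intervalIntegral.integral_const] at int1
  have e1 : C * t ≤ |C| * t := mul_le_mul_of_nonneg_right (le_abs_self _) ht0
  have e2 : C11 * Y ≤ |C11| * Y := mul_le_mul_of_nonneg_right (le_abs_self _) hY0
  have e3 : 0 ≤ |C| * Y := by positivity
  have e4 : 0 ≤ |C11| * t := by positivity
  have e5 : ((2 / 3 : ℝ) - 1 / 3) • (2 * (C11 * Y)) = 2 / 3 * (C11 * Y) := by rw [smul_eq_mul]; ring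
  rw [e5] at int1
  have e6 : 0 ≤ |C11| * Y := by positivity
  nlinarith

/-- (P10) for `γ_u`: `∫_{1/3}^{2/3} dγ_u ∫_u^{2u} A_v dv ≤ C (λ u²)⁻¹ (fRest(γ_u = 1) - fRest(γ_u = 0))` -/
theorem bt_p10_u (h3 : LlSec3 𝔹 F) (hEn : BtEnd 𝔹 F) (hS : BtSys 𝔹) : ∃ C : ℝ, 0 ≤ C ∧ LlUnif F fun p => ∀ hd : ℕ, p.IsDy F hd → ∀ m : ℕ, p.N ≤ 2 * m → m ≤ 3 * p.N →
    ∀ g ∈ Icc (-4 : ℝ) 4,
      ∫ t in (1 / 3 : ℝ)..(2 / 3), (p.loc hd g t).wA F 𝔹 m (indicator (Icc (btU hd) (2 * btU hd)) 1)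
        ≤ C / (p.lam * btU hd ^ 2) * ((p.loc hd g 1).fRest F 𝔹 m - (p.loc hd g 0).fRest F 𝔹 m) := by
  have hF := h3.ok
  obtain ⟨cφ, Cφ, hcφ, hlo, _⟩ := bt_phi_bds hF
  have hcb := hF.cb0
  have hc1 := hF.c10
  refine ⟨4 / (F.cb * F.c1 * cφ), by positivity, ?_⟩
  refine bt_unif_mono (bt_unif_and (bt_unif_wG0 h3.p10) (bt_unif_and (bt_wA_cont2 h3 hEn hS) (bt_unif_loc (bt_clk h3 hEn)))) ?_
  rintro p hp ⟨h10, hcont, hclk⟩ hd hdy m hm1 hm2 g hg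
  have hm := bt_m_pos hp hm1
  have ha := bt_a_pos hp
  have hl := bt_lam_pos hp
  have hu := bt_U_hd_pos hd
  have h10' := (h10 g hg m hm1 hm2 0 1 (by norm_num) (by norm_num) (by norm_num)).2 hd hdy
  -- the weights
  have i1 : IntegrableOn (indicator (Icc (btU hd) (2 * btU hd)) (1 : ℝ → ℝ)) (Ioo 0 p.a) :=
    (integrableOn_const (by simp : volume (Ioo 0 p.a) ≠ ⊤)).indicator measurableSet_Icc
  have i2 : IntegrableOn (fun v => btCu F p hd v / 4) (Ioo 0 p.a) :=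
    (((bt_cu_cont hF p hd).div_const 4).continuousOn.integrableOn_Icc (a := 0) (b := p.a)).mono_set Ioo_subset_Icc_self
  have cont : ∀ φ : ℝ → ℝ, IntegrableOn φ (Ioo 0 p.a) → ContinuousOn (fun t => (p.loc hd g t).wA F 𝔹 m φ) (Icc (-4 : ℝ) 4) := by
    intro φ hφ
    have := (hcont hd m hm φ hφ).comp (f := fun t : ℝ => (g, t)) (s := Icc (-4 : ℝ) 4) (by fun_prop) (fun t ht => ⟨hg, ht⟩)
    exact this
  have sub1 : Icc (1 / 3 : ℝ) (2 / 3) ⊆ Icc (-4 : ℝ) 4 := Icc_subset_Icc (by norm_num) (by norm_num)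
  have sub0 : Icc (0 : ℝ) 1 ⊆ Icc (-4 : ℝ) 4 := Icc_subset_Icc (by norm_num) (by norm_num)
  have e2 : ∀ r, (∫ v in (0 : ℝ)..(p.wG0 g).a, F.cb * (p.wG0 g).lam * F.c1 * ((2 : ℝ)⁻¹ ^ hd) ^ 2 * F.phi (v / (2 : ℝ)⁻¹ ^ hd) / 4
      * ((p.wG0 g).wGu hd r).Aerr F 𝔹 m v) = (p.loc hd g r).wA F 𝔹 m (fun v => btCu F p hd v / 4) := fun r => by
    have : (p.wG0 g).a = p.a := rfl
    rw [this, bt_ii ha.le]; rfl
  simp only [e2] at h10'
  set k : ℝ := F.cb * p.lam * F.c1 * btU hd ^ 2 * cφ / 4 with hk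
  have hk0 : 0 < k := by rw [hk]; positivity
  have pt : ∀ t ∈ Icc (-4 : ℝ) 4, k * (p.loc hd g t).wA F 𝔹 m (indicator (Icc (btU hd) (2 * btU hd)) 1)
      ≤ (p.loc hd g t).wA F 𝔹 m (fun v => btCu F p hd v / 4) := by
    intro t ht
    rw [← bt_wA_smul]
    refine bt_wA_mono hS (bt_ok_loc hp hd hg ht) (hclk hd g hg t ht) hm (i1.const_mul _) i2 fun v _ => ?_
    by_cases hv : v ∈ Icc (btU hd) (2 * btU hd)
    · rw [indicator_of_mem hv, Pi.one_apply, mul_one, hk]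
      unfold btCu
      have : cφ ≤ F.phi (v / btU hd) := hlo _ ⟨(one_le_div hu).2 hv.1, (div_le_iff₀ hu).2 hv.2⟩
      have h0 : 0 ≤ F.cb * p.lam * F.c1 * btU hd ^ 2 := by positivity
      have := mul_le_mul_of_nonneg_left this h0
      linarith
    · rw [indicator_of_notMem hv, mul_zero]
      exact div_nonneg (bt_cu_nonneg hF hp hd v) (by norm_num)
  have nn : ∀ t ∈ Icc (-4 : ℝ) 4, 0 ≤ (p.loc hd g t).wA F 𝔹 m (fun v => btCu F p hd v / 4) := fun t ht =>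
    bt_wA_nonneg hS (bt_ok_loc hp hd hg ht) (hclk hd g hg t ht) hm fun v _ => div_nonneg (bt_cu_nonneg hF hp hd v) (by norm_num)
  have key1 : ∫ t in (1 / 3 : ℝ)..(2 / 3), k * (p.loc hd g t).wA F 𝔹 m (indicator (Icc (btU hd) (2 * btU hd)) 1)
      ≤ ∫ t in (1 / 3 : ℝ)..(2 / 3), (p.loc hd g t).wA F 𝔹 m (fun v => btCu F p hd v / 4) := by
    refine intervalIntegral.integral_mono_on (by norm_num) ?_ ?_ fun t ht => pt t (sub1 ht)
    · exact (continuousOn_const.mul ((cont _ i1).mono sub1)).intervalIntegrable_of_Icc (by norm_num)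
    · exact ((cont _ i2).mono sub1).intervalIntegrable_of_Icc (by norm_num)
  have key2 : ∫ t in (1 / 3 : ℝ)..(2 / 3), (p.loc hd g t).wA F 𝔹 m (fun v => btCu F p hd v / 4)
      ≤ ∫ t in (0 : ℝ)..1, (p.loc hd g t).wA F 𝔹 m (fun v => btCu F p hd v / 4) := by
    refine intervalIntegral.integral_mono_interval (by norm_num) (by norm_num) (by norm_num) ?_ ?_
    · exact (ae_restrict_iff' measurableSet_Ioc).2 (Eventually.of_forall fun t ht => nn t (sub0 (Ioc_subset_Icc_self ht)))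
    · exact ((cont _ i2).mono sub0).intervalIntegrable_of_Icc (by norm_num)
  rw [intervalIntegral.integral_const_mul] at key1
  have h10'' : ∫ t in (0 : ℝ)..1, (p.loc hd g t).wA F 𝔹 m (fun v => btCu F p hd v / 4)
      ≤ (p.loc hd g 1).fRest F 𝔹 m - (p.loc hd g 0).fRest F 𝔹 m := h10'
  have e : 4 / (F.cb * F.c1 * cφ) / (p.lam * btU hd ^ 2) = 1 / k := by
    rw [hk]; field_simp
  rw [e, div_mul_eq_mul_div, one_mul, le_div_iff₀ hk0]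
  linarith

/-- the inner average is integrable in `γ_0` -/
theorem bt_inner_int (h3 : LlSec3 𝔹 F) (hEn : BtEnd 𝔹 F) (hS : BtSys 𝔹) : LlUnif F fun p => ∀ (hd m : ℕ), 1 ≤ m → ∀ φ : ℝ → ℝ, IntegrableOn φ (Ioo 0 p.a) →
    IntervalIntegrable (fun g => ∫ t in (1 / 3 : ℝ)..(2 / 3), (p.loc hd g t).wA F 𝔹 m φ) volume (1 / 3) (2 / 3) := by
  refine bt_unif_mono (bt_wA_cont2 h3 hEn hS) fun p hp h hd m hm φ hφ => ?_
  have h1 := h hd m hm φ hφ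
  have hcl : Continuous fun y : ℝ × ℝ => (ll04Cl y.1, ll04Cl y.2) := (bt_cl_cont.comp continuous_fst).prodMk (bt_cl_cont.comp continuous_snd)
  have h2 : Continuous fun y : ℝ × ℝ => (p.loc hd (ll04Cl y.1) (ll04Cl y.2)).wA F 𝔹 m φ := by
    have := h1.comp_continuous hcl (fun y => Set.mk_mem_prod (bt_sub13 (bt_cl_mem _)) (bt_sub13 (bt_cl_mem _)))
    simpa only [Function.comp_def] using this
  have h3' : Continuous fun g : ℝ => ∫ t in (1 / 3 : ℝ)..(2 / 3), (p.loc hd (ll04Cl g) (ll04Cl t)).wA F 𝔹 m φ :=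
    intervalIntegral.continuous_parametric_intervalIntegral_of_continuous (f := fun g t => (p.loc hd (ll04Cl g) (ll04Cl t)).wA F 𝔹 m φ)
      h2 continuous_const
  refine (h3'.intervalIntegrable (1 / 3) (2 / 3)).congr ?_
  rw [uIoc_of_le (by norm_num)]
  intro g hg
  show (∫ t in (1 / 3 : ℝ)..(2 / 3), (p.loc hd (ll04Cl g) (ll04Cl t)).wA F 𝔹 m φ) = ∫ t in (1 / 3 : ℝ)..(2 / 3), (p.loc hd g t).wA F 𝔹 m φ
  rw [bt_cl_of_mem (Ioc_subset_Icc_self hg)]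
  refine intervalIntegral.integral_congr fun t ht => ?_
  rw [uIcc_of_le (by norm_num)] at ht
  show (p.loc hd g (ll04Cl t)).wA F 𝔹 m φ = (p.loc hd g t).wA F 𝔹 m φ
  rw [bt_cl_of_mem ht]

/-- **the local budget**, raw form -/
theorem bt_loc_avg (h3 : LlSec3 𝔹 F) (hEn : BtEnd 𝔹 F) (hS : BtSys 𝔹) (hX : X.Ok) (hFX : BtFix F X) (hW : BtWorld 𝔹 W) (hSc : BtScale 𝔹) (hloc : BtLoc X W (BtFam 𝔹 F)) :
    ∃ C : ℝ, LlUnif F fun p => (p.sm = false → p.ChiOk F) → (p.sm = true → p.chiL = 1) → ∀ hd : ℕ, p.IsLoc F X hd → ∀ m : ℕ, p.N ≤ 2 * m → m ≤ 3 * p.N →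
      ∫ g in (1 / 3 : ℝ)..(2 / 3), ∫ t in (1 / 3 : ℝ)..(2 / 3), (p.loc hd g t).wA F 𝔹 m (indicator (Icc (btU hd) (2 * btU hd)) 1)
        ≤ C / (p.lam * btU hd ^ 2) * (btU hd * (p.x ^ (4 - 2 * X.zeta) * p.lam ^ (1 / 100 : ℝ) + p.x ^ 4 * p.lam ^ (1 - 2 * X.s0))
            + if p.sm then p.x ^ (5 + 1 / 8 : ℝ) else 0) := by
  obtain ⟨Cd, hd'⟩ := bt_kl h3 hEn hS hX hFX hW hSc hloc
  obtain ⟨Cs, hs'⟩ := bt_kl_sm h3 hEn hS hX hFX hW hSc hloc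
  obtain ⟨C10, hC10, h10⟩ := bt_p10_u h3 hEn hS
  refine ⟨C10 * max Cd Cs, bt_unif_mono (bt_unif_and hd' (bt_unif_and hs' (bt_unif_and h10 (bt_unif_and (bt_inner_int h3 hEn hS) (bt_delta_cont h3 hEn hS))))) ?_⟩
  rintro p hp ⟨hd', hs', h10, hint, hdc⟩ hchi1 hchi2 hd hl m hm1 hm2
  have hm := bt_m_pos hp hm1
  have hx := bt_x_pos hp
  have hu := bt_U_hd_pos hd
  have hlam := bt_lam_pos hp
  have hφ : IntegrableOn (indicator (Icc (btU hd) (2 * btU hd)) (1 : ℝ → ℝ)) (Ioo 0 p.a) :=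
    (integrableOn_const (by simp) : IntegrableOn (1 : ℝ → ℝ) (Ioo 0 p.a)).indicator measurableSet_Icc
  set k : ℝ := C10 / (p.lam * btU hd ^ 2) with hk
  have hk0 : 0 ≤ k := by rw [hk]; positivity
  have iΔ := ((hdc hd m hm).mono bt_sub13).intervalIntegrable_of_Icc (μ := volume) (by norm_num : (1 / 3 : ℝ) ≤ 2 / 3)
  have int1 := intervalIntegral.integral_mono_on (by norm_num : (1 / 3 : ℝ) ≤ 2 / 3) (hint hd m hm _ hφ) (iΔ.const_mul k)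
    (fun g hg => h10 hd hl.1 m hm1 hm2 g (bt_sub13 hg))
  rw [intervalIntegral.integral_const_mul] at int1
  refine int1.trans ?_
  set t : ℝ := btU hd * (p.x ^ (4 - 2 * X.zeta) * p.lam ^ (1 / 100 : ℝ) + p.x ^ 4 * p.lam ^ (1 - 2 * X.s0)) with ht
  have ht0 : 0 ≤ t := by rw [ht]; positivity
  have hY0 : 0 ≤ p.x ^ (5 + 1 / 8 : ℝ) := (Real.rpow_pos_of_pos hx _).le
  have e : C10 * max Cd Cs / (p.lam * btU hd ^ 2) = k * max Cd Cs := by rw [hk]; ring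
  rw [e, mul_assoc]
  refine mul_le_mul_of_nonneg_left ?_ hk0
  cases hsm : p.sm with
  | false =>
    simp only [Bool.false_eq_true, if_false, add_zero]
    exact (hd' hsm (hchi1 hsm) hd hl m hm1 hm2).trans (mul_le_mul_of_nonneg_right (le_max_left _ _) ht0)
  | true =>
    simp only [if_true]
    exact (hs' hsm (hchi2 hsm) hd hl m hm1 hm2).trans (mul_le_mul_of_nonneg_right (le_max_right _ _) (by positivity))

/-! ## 4. N1 in the vocabulary of the frames: `bt_r0` (input `BudR0` of part B) -/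

/-- above the mask the defect does not depend on `(γ_0, γ_u)` -/
theorem bt_loc_d (hF : F.Ok) {p : LlPt} (hp : p.Ok F) {hd : ℕ} (hdy : p.IsDy F hd) (g t : ℝ) {v : ℝ} (hv : p.x ≤ v) :
    (p.loc hd g t).d F 𝔹 v = p.d F 𝔹 v := by
  have e : p.loc hd g t = (p.wGu hd t).wG0 g := rfl
  have hx : ¬ v < (p.wGu hd t).x := not_lt.2 hv
  rw [e, bt_d_wG0, bt_d_wGu hF hp hdy, if_neg hx, sub_zero]

/-- the one-site pressure of the frame -/
theorem bt_fr_fsp (hW : BtWorld 𝔹 W) (hSc : BtScale 𝔹) {p : LlPt} (hp : p.Ok F) (hsm : p.sm = false) (hc : BtClkAt 𝔹 F p) :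
    W.fsp (btResc p.ell (p.K F 𝔹)) = p.ell * 𝔹.fspin p.a (p.K F 𝔹) := by
  have hl : 0 < p.ell := by linarith [hp.ell1]
  have ha : p.a = p.ell := by unfold LlPt.a; rw [hsm]; rfl
  have hK := hc.K
  have hKE := hc.KE
  rw [ha] at hK hKE ⊢
  have e0 : btResc p.ell (0 : ℝ → ℝ) = 0 := by funext u; simp [btResc]
  rw [hW.fsp _ (bt_resc_clock hl hK) (bt_resc_end hl hKE), ← e0, hSc.f 1 p.ell 0 _ hl bt_zero_clock hK (bt_zero_end hl) hKE]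
  rfl

/-- **the restored bare pressure of a frame** in the physical variables -/
theorem bt_r0_point (hF : F.Ok) (hW : BtWorld 𝔹 W) (hSc : BtScale 𝔹) {p : LlPt} (hp : p.Ok F) (hsm : p.sm = false) {hd m st : ℕ} {kap Ilo Ihi g : ℝ}
    (hdy : p.IsDy F hd) (hm : 1 ≤ m) (hg : g ∈ Icc (-4 : ℝ) 4) (hc : BtClkAt 𝔹 F (p.loc hd g 0)) :
    (btFr 𝔹 F p hd m st kap Ilo Ihi).R0 W g - W.fsp (btFr 𝔹 F p hd m st kap Ilo Ihi).K
      = p.ell * ((p.loc hd g 0).Phi F 𝔹 m - (∫ v in Ioo (0 : ℝ) p.x, (p.loc hd g 0).d F 𝔹 v * p.q F 𝔹 v) / 2 - 𝔹.fspin p.a (p.K F 𝔹)) := by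
  have hl : 0 < p.ell := by linarith [hp.ell1]
  have hx := bt_x_pos hp
  have hxl : p.x ≤ p.ell := (bt_x_le_one hp).trans hp.ell1
  have h01 : (0 : ℝ) ∈ Icc (-4 : ℝ) 4 := by constructor <;> norm_num
  have hp' : (p.loc hd g 0).Ok F := bt_ok_loc hp hd hg h01
  have ha := bt_loc_a (hd := hd) (g := g) hsm 0
  have haa : p.a = p.ell := by unfold LlPt.a; rw [hsm]; rfl
  -- the one-site pressure
  have hcK : W.fsp (btFr 𝔹 F p hd m st kap Ilo Ihi).K = p.ell * 𝔹.fspin p.a (p.K F 𝔹) := by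
    have := bt_fr_fsp (p := p.loc hd g 0) hW hSc hp' hsm hc
    rw [ha] at this
    rw [haa]
    exact this
  -- the restored pressure
  have h1 := bt_fr_rest (W := W) hW hSc hp hsm hm 0 hc
  have h2 := bt_fRest_eq (𝔹 := 𝔹) hp' m
  -- the defect above the mask
  have i1 : IntegrableOn (fun v => (p.loc hd g 0).d F 𝔹 v * p.q F 𝔹 v) (Ioo 0 p.ell) := by
    have := bt_int_dq hc
    rw [ha] at this
    exact this
  have h3 : ∫ w in (p.x / p.ell)..1, (btFr 𝔹 F p hd m st kap Ilo Ihi).d w * (btFr 𝔹 F p hd m st kap Ilo Ihi).q w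
      = p.ell * ∫ v in p.x..p.ell, (p.loc hd g 0).d F 𝔹 v * p.q F 𝔹 v := by
    have e1 : ∀ w, (btFr 𝔹 F p hd m st kap Ilo Ihi).d w * (btFr 𝔹 F p hd m st kap Ilo Ihi).q w
        = (fun v => p.ell ^ 2 * ((p.loc hd 0 0).d F 𝔹 v * p.q F 𝔹 v)) (p.ell * w) := fun w => by
      show p.ell ^ 2 * (p.loc hd 0 0).d F 𝔹 (p.ell * w) * p.q F 𝔹 (p.ell * w) = p.ell ^ 2 * ((p.loc hd 0 0).d F 𝔹 (p.ell * w) * p.q F 𝔹 (p.ell * w))
      ring
    rw [intervalIntegral.integral_congr (g := fun w => (fun v => p.ell ^ 2 * ((p.loc hd 0 0).d F 𝔹 v * p.q F 𝔹 v)) (p.ell * w)) (fun w _ => e1 w),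
      intervalIntegral.integral_comp_mul_left (fun v => p.ell ^ 2 * ((p.loc hd 0 0).d F 𝔹 v * p.q F 𝔹 v)) hl.ne', mul_div_cancel₀ _ hl.ne', mul_one,
      intervalIntegral.integral_const_mul, smul_eq_mul]
    have e2 : ∫ v in p.x..p.ell, (p.loc hd 0 0).d F 𝔹 v * p.q F 𝔹 v = ∫ v in p.x..p.ell, (p.loc hd g 0).d F 𝔹 v * p.q F 𝔹 v := by
      refine intervalIntegral.integral_congr fun v hv => ?_
      rw [uIcc_of_le hxl] at hv
      show (p.loc hd 0 0).d F 𝔹 v * p.q F 𝔹 v = (p.loc hd g 0).d F 𝔹 v * p.q F 𝔹 v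
      rw [bt_loc_d hF hp hdy 0 0 hv.1, bt_loc_d hF hp hdy g 0 hv.1]
    rw [e2]
    field_simp
  have h4 : ∫ v in p.x..p.ell, (p.loc hd g 0).d F 𝔹 v * p.q F 𝔹 v
      = (∫ v in Ioo (0 : ℝ) p.ell, (p.loc hd g 0).d F 𝔹 v * p.q F 𝔹 v) - ∫ v in Ioo (0 : ℝ) p.x, (p.loc hd g 0).d F 𝔹 v * p.q F 𝔹 v := by
    have j : IntervalIntegrable (fun v => (p.loc hd g 0).d F 𝔹 v * p.q F 𝔹 v) volume 0 p.ell := by
      rw [intervalIntegrable_iff_integrableOn_Ioo_of_le hl.le]; exact i1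
    have j1 : IntervalIntegrable (fun v => (p.loc hd g 0).d F 𝔹 v * p.q F 𝔹 v) volume 0 p.x :=
      j.mono_set (by rw [uIcc_of_le hx.le, uIcc_of_le hl.le]; exact Icc_subset_Icc le_rfl hxl)
    have j2 : IntervalIntegrable (fun v => (p.loc hd g 0).d F 𝔹 v * p.q F 𝔹 v) volume p.x p.ell :=
      j.mono_set (by rw [uIcc_of_le hxl, uIcc_of_le hl.le]; exact Icc_subset_Icc hx.le le_rfl)
    rw [← bt_ii hl.le, ← bt_ii hx.le, ← intervalIntegral.integral_add_adjacent_intervals j1 j2]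
    ring
  have h5 : (btFr 𝔹 F p hd m st kap Ilo Ihi).R0 W g
      = ((W.ps m).f (btResc p.ell ((p.loc hd g 0).b F 𝔹)) (btResc p.ell ((p.loc hd g 0).h F 𝔹))
        - (1 / 4) * ∫ w in Ioo (0 : ℝ) 1, btResc p.ell ((p.loc hd g 0).b F 𝔹) w * p.q F 𝔹 (p.ell * w) ^ 2)
        + (1 / 2) * ∫ w in (p.x / p.ell)..1, (btFr 𝔹 F p hd m st kap Ilo Ihi).d w * (btFr 𝔹 F p hd m st kap Ilo Ihi).q w := by
    rw [← bt_ii zero_le_one]
    rfl
  rw [h5, h1, h2, h3, h4, hcK, ha]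
  have e6 : ∫ v in Ioo (0 : ℝ) p.ell, (p.loc hd g 0).d F 𝔹 v * (p.loc hd g 0).q F 𝔹 v = ∫ v in Ioo (0 : ℝ) p.ell, (p.loc hd g 0).d F 𝔹 v * p.q F 𝔹 v := rfl
  rw [e6]
  ring

/-- the defect on the mask: `|∫_{v<x} d q| ≲ λ U² x³` (P4) -/
theorem bt_mask_d (h3 : LlSec3 𝔹 F) (hEn : BtEnd 𝔹 F) : ∃ C : ℝ, 0 ≤ C ∧ LlUnif F fun p =>
    |∫ v in Ioo (0 : ℝ) p.x, p.d F 𝔹 v * p.q F 𝔹 v| ≤ C * (p.lam * p.U F ^ 2 * p.x ^ 3) := by
  have hF := h3.ok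
  obtain ⟨c4, C4, v4, _, hv4, h4⟩ := h3.p4
  obtain ⟨c, Cq, _, hbd⟩ := bt_bd h3
  refine ⟨2 * |C4| * |Cq|, by positivity, bt_unif_mono (bt_unif_and h4 (bt_unif_and hbd (bt_unif_and (bt_clk h3 hEn) (bt_unif_x hv4)))) ?_⟩
  rintro p hp ⟨⟨_, h4⟩, hb, hc, hxv⟩
  have hx := bt_x_pos hp
  have hl := bt_lam_pos hp
  have hU := bt_U_pos hp
  have hxU := bt_x_le_U hF hp
  have hxa : p.x ≤ p.a := (bt_x_le_one hp).trans (bt_a_ge_one hp)
  have key : ∀ v ∈ Ioo (0 : ℝ) p.x, ‖p.d F 𝔹 v * p.q F 𝔹 v‖ ≤ 2 * |C4| * |Cq| * (p.lam * p.U F ^ 2 * p.x ^ 2) := by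
    intro v hv
    have hva : v ∈ Ioo 0 p.a := ⟨hv.1, lt_of_lt_of_le hv.2 hxa⟩
    have hd : p.d F 𝔹 v = -p.hS F 𝔹 v := by
      unfold LlPt.d LlPt.h
      rw [if_pos hv.2]; ring
    have s0 := hc.hS.nonneg v hva
    have q0 := (hc.q_mem v hva).1
    have s1 : p.hS F 𝔹 v ≤ |C4| * (p.lam * (2 * (p.x * p.U F ^ 2))) := by
      refine (h4 v ⟨hv.1, hv.2.le.trans hxv⟩).trans ?_
      have a1 : v ^ 3 + v * p.U F ^ 2 ≤ 2 * (p.x * p.U F ^ 2) := by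
        have b1 : v ^ 3 ≤ p.x * p.U F ^ 2 := by
          calc v ^ 3 = v * v ^ 2 := by ring
            _ ≤ p.x * p.U F ^ 2 := mul_le_mul hv.2.le (pow_le_pow_left₀ hv.1.le (hv.2.le.trans hxU) 2) (sq_nonneg _) hx.le
        have b2 : v * p.U F ^ 2 ≤ p.x * p.U F ^ 2 := mul_le_mul_of_nonneg_right hv.2.le (sq_nonneg _)
        linarith
      have a0 : 0 ≤ v ^ 3 + v * p.U F ^ 2 := by have := hv.1; positivity
      calc C4 * p.lam * (v ^ 3 + v * p.U F ^ 2) ≤ |C4| * p.lam * (v ^ 3 + v * p.U F ^ 2) := by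
            gcongr; exact le_abs_self _
        _ ≤ |C4| * p.lam * (2 * (p.x * p.U F ^ 2)) := by gcongr
        _ = |C4| * (p.lam * (2 * (p.x * p.U F ^ 2))) := by ring
    have q1 : p.q F 𝔹 v ≤ |Cq| * p.x := by
      refine (hb.q_hi v hva).trans ?_
      calc Cq * v ≤ |Cq| * v := mul_le_mul_of_nonneg_right (le_abs_self _) hv.1.le
        _ ≤ |Cq| * p.x := mul_le_mul_of_nonneg_left hv.2.le (abs_nonneg _)
    rw [hd, Real.norm_eq_abs, abs_mul, abs_neg, abs_of_nonneg s0, abs_of_nonneg q0]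
    calc p.hS F 𝔹 v * p.q F 𝔹 v ≤ (|C4| * (p.lam * (2 * (p.x * p.U F ^ 2)))) * (|Cq| * p.x) := mul_le_mul s1 q1 q0 (by positivity)
      _ = 2 * |C4| * |Cq| * (p.lam * p.U F ^ 2 * p.x ^ 2) := by ring
  have := norm_setIntegral_le_of_norm_le_const (μ := volume) (s := Ioo (0 : ℝ) p.x) measure_Ioo_lt_top key
  rw [Real.norm_eq_abs] at this
  refine this.trans (le_of_eq ?_)
  have : volume.real (Ioo (0 : ℝ) p.x) = p.x := by
    rw [Measure.real, Real.volume_Ioo, sub_zero, ENNReal.toReal_ofReal hx.le]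
  rw [this]; ring

theorem bt_r0_arith {Φ I fs D A R Y C8 Cm t : ℝ} (r1 : fs - A - D / 4 ≤ Φ) (r2 : Φ ≤ fs + D / 4) (h8 : D ≤ C8 * (Y * R)) (hI : |I| ≤ Cm * t)
    (ht : t ≤ R) (hY : 1 ≤ Y) (hA : 0 ≤ A) (hR : 0 ≤ R) (hC8 : 0 ≤ C8) (hCm : 0 ≤ Cm) :
    |Φ - I / 2 - fs| ≤ (1 + C8 + Cm) * (Y * (A + R)) := by
  obtain ⟨ma, mb⟩ := abs_le.1 hI
  have e : (1 + C8 + Cm) * (Y * (A + R)) = Y * A + Y * R + C8 * (Y * A) + C8 * (Y * R) + Cm * (Y * A) + Cm * (Y * R) := by ring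
  have hYR : R ≤ Y * R := by nlinarith
  have hYA : A ≤ Y * A := by nlinarith
  have h1 : Cm * t ≤ Cm * (Y * R) := mul_le_mul_of_nonneg_left (ht.trans hYR) hCm
  have z1 : 0 ≤ C8 * (Y * A) := mul_nonneg hC8 (hA.trans hYA)
  have z2 : 0 ≤ Cm * (Y * A) := mul_nonneg hCm (hA.trans hYA)
  have z3 : 0 ≤ C8 * (Y * R) := mul_nonneg hC8 (hR.trans hYR)
  have z4 : 0 ≤ Cm * (Y * R) := mul_nonneg hCm (hR.trans hYR)
  rw [e, abs_le]
  constructor <;> linarith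

/-- **N1 in the vocabulary of the frames** (l.50-60): `|R - f_spin(K)| ≲_∘ 𝓑` -/
theorem bt_r0 (h3 : LlSec3 𝔹 F) (hEn : BtEnd 𝔹 F) (hS : BtSys 𝔹) (hSite : BtSite 𝔹) (hW : BtWorld 𝔹 W) (hSc : BtScale 𝔹) (hs : 1 / 4 ≤ F.sS) (he : F.eta ≤ 1 / 8)
    {cG : ℝ} (hG1 : BtG1 𝔹 F cG) (hFX : BtFix F X) :
    ∀ ε > (0 : ℝ), ∃ C : ℝ, ∃ N0 : ℕ, ∀ Fr : BdFr, BtFam 𝔹 F Fr → Fr.Ok X → N0 ≤ Fr.N → ∀ g ∈ Icc (-3 : ℝ) 4,
      |Fr.R0 W g - W.fsp Fr.K| ≤ C * ((Fr.N : ℝ) ^ ε * Fr.Bcal X cG) := by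
  intro ε hε
  have hF := h3.ok
  obtain ⟨C8, hC8, h8⟩ := bt_p8 h3 (6 * ε) (by positivity)
  obtain ⟨Cm, hCm, hmk⟩ := bt_mask_d h3 hEn
  obtain ⟨N0, hU⟩ := bt_unif_loc (bt_unif_and (bt_clk h3 hEn) (bt_unif_and (bt_R h3 hEn hS hSite hG1) (bt_unif_and h8 hmk)))
  refine ⟨2 * (1 + C8 + Cm), N0, ?_⟩
  rintro Fr ⟨p, hd, hp, hsm, hdy, hFr⟩ hok hN g hg
  have hg4 : g ∈ Icc (-4 : ℝ) 4 := ⟨by linarith [hg.1], hg.2⟩
  have h01 : (0 : ℝ) ∈ Icc (-4 : ℝ) 4 := by constructor <;> norm_num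
  have hNp : Fr.N = p.N := by rw [hFr]; rfl
  obtain ⟨hc, hR, h8p, hmp⟩ := hU p hp (hNp ▸ hN) hd g hg4 0 h01
  have hm1 : p.N ≤ 2 * Fr.m := by
    have := hok.m_lo
    rw [hNp] at this
    have h2 : (p.N : ℝ) ≤ 2 * (Fr.m : ℝ) := by linarith
    exact_mod_cast h2
  have hm2 : Fr.m ≤ 3 * p.N := by
    have := hok.m_hi
    rw [hNp] at this
    exact_mod_cast this
  have hm := bt_m_pos hp hm1
  obtain ⟨r1, r2⟩ := hR hsm hg.1 Fr.m hm1 hm2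
  have pt := bt_r0_point (W := W) (st := Fr.st) (kap := Fr.kap) (Ilo := Fr.Ilo) (Ihi := Fr.Ihi) hF hW hSc hp hsm hdy hm hg4 hc
  rw [← hFr] at pt
  rw [pt]
  -- sizes
  have hx := bt_x_pos hp
  have hl := bt_lam_pos hp
  have hUp := bt_U_pos hp
  have hN0 := bt_N_pos hp
  have hNe : (Fr.N : ℝ) ^ ε = p.x ^ (-(6 * ε)) := by
    rw [hNp]
    unfold LlPt.x
    rw [← Real.rpow_mul hN0.le]
    congr 1; ring
  have hxe := bt_xneg_ge hp (ε := 6 * ε) (by positivity)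
  have hUle : p.U F ≤ Fr.U X := by
    have : Fr.U X = p.x * p.lam ^ (-(F.sS / 2)) := by
      rw [hFr, ← hFX.sS]; rfl
    rw [this]
    exact min_le_right _ _
  have hB : p.x ^ (4 + cG) + p.R8 F ≤ Fr.Bcal X cG := by
    have e : Fr.Bcal X cG = p.x ^ (4 + cG) + p.lam ^ (1 + 2 * F.eta) * Fr.U X ^ 5 + p.chiE ^ 2 * p.lam ^ (1 + 2 * F.eta) * Fr.U X ^ 4
        + p.chiL ^ 2 * p.x ^ 6 / p.lam := by
      have e1 : Fr.Bcal X cG = Fr.x ^ (4 + cG) + Fr.lam ^ (1 + 2 * X.eta) * Fr.U X ^ (5 : ℝ) + Fr.chiE ^ 2 * Fr.lam ^ (1 + 2 * X.eta) * Fr.U X ^ (4 : ℝ)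
          + Fr.chiL ^ 2 * Fr.x ^ (6 : ℝ) / Fr.lam := rfl
      have a1 : Fr.x = p.x := by rw [hFr]; rfl
      have a2 : Fr.lam = p.lam := by rw [hFr]; rfl
      have a3 : Fr.chiE = p.chiE := by rw [hFr]; rfl
      have a4 : Fr.chiL = p.chiL := by rw [hFr]; rfl
      rw [e1, a1, a2, a3, a4, hFX.eta]
      norm_num
    rw [e]
    unfold LlPt.R8
    have p5 : p.U F ^ 5 ≤ Fr.U X ^ 5 := pow_le_pow_left₀ hUp.le hUle 5
    have p4 : p.U F ^ 4 ≤ Fr.U X ^ 4 := pow_le_pow_left₀ hUp.le hUle 4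
    have k1 : 0 ≤ p.lam ^ (1 + 2 * F.eta) := (Real.rpow_pos_of_pos hl _).le
    have t5 := mul_le_mul_of_nonneg_left p5 k1
    have t4 := mul_le_mul_of_nonneg_left p4 (mul_nonneg (sq_nonneg p.chiE) k1)
    linarith
  have hR8 := bt_R8_nonneg hp
  have pw := bt_pow_mask hF hs he hp
  have t1 : p.lam ^ (1 + 2 * F.eta) * p.U F ^ 5 ≤ p.R8 F := by
    unfold LlPt.R8
    have a1 : 0 ≤ p.chiE ^ 2 * p.lam ^ (1 + 2 * F.eta) * p.U F ^ 4 := by positivity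
    have a2 : 0 ≤ p.chiL ^ 2 * p.x ^ 6 / p.lam := by positivity
    linarith
  have hx4 : 0 ≤ p.x ^ (4 + cG) := (Real.rpow_pos_of_pos hx _).le
  set Y : ℝ := p.x ^ (-(6 * ε)) with hY
  have r1' : 𝔹.fspin p.a (p.K F 𝔹) - p.x ^ (4 + cG) - (p.loc hd g 0).dcg F 𝔹 / 4 ≤ (p.loc hd g 0).Phi F 𝔹 Fr.m := r1
  have r2' : (p.loc hd g 0).Phi F 𝔹 Fr.m ≤ 𝔹.fspin p.a (p.K F 𝔹) + (p.loc hd g 0).dcg F 𝔹 / 4 := r2
  have h8' : (p.loc hd g 0).dcg F 𝔹 ≤ C8 * (Y * p.R8 F) := h8p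
  have hm' : |∫ v in Ioo (0 : ℝ) p.x, (p.loc hd g 0).d F 𝔹 v * p.q F 𝔹 v| ≤ Cm * (p.lam * p.U F ^ 2 * p.x ^ 3) := hmp
  have hinner : |(p.loc hd g 0).Phi F 𝔹 Fr.m - (∫ v in Ioo (0 : ℝ) p.x, (p.loc hd g 0).d F 𝔹 v * p.q F 𝔹 v) / 2 - 𝔹.fspin p.a (p.K F 𝔹)|
      ≤ (1 + C8 + Cm) * (Y * (p.x ^ (4 + cG) + p.R8 F)) :=
    bt_r0_arith r1' r2' h8' hm' (pw.trans t1) hxe hx4 hR8 hC8 hCm
  rw [abs_mul, abs_of_pos (by linarith [hp.ell1] : 0 < p.ell), hNe]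
  have hell := bt_ell_le hp
  have hY0 : 0 ≤ Y := zero_le_one.trans hxe
  have hC0 : 0 ≤ 1 + C8 + Cm := by positivity
  calc p.ell * |(p.loc hd g 0).Phi F 𝔹 Fr.m - (∫ v in Ioo (0 : ℝ) p.x, (p.loc hd g 0).d F 𝔹 v * p.q F 𝔹 v) / 2 - 𝔹.fspin p.a (p.K F 𝔹)|
      ≤ 2 * ((1 + C8 + Cm) * (Y * (p.x ^ (4 + cG) + p.R8 F))) := mul_le_mul hell hinner (abs_nonneg _) (by norm_num)
    _ ≤ 2 * ((1 + C8 + Cm) * (Y * Fr.Bcal X cG)) := by gcongr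
    _ = 2 * (1 + C8 + Cm) * (Y * Fr.Bcal X cG) := by ring

theorem bt_loc_eqns_cite : True := by
  have := @LlPt.IsLoc.eq_1; have := @LlPt.ChiOk.eq_1
  trivial

end Claimed.Agent.R286
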