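import Claimed.Agent.R286.Bud.HubB
import Claimed.Agent.R286.Bud.TopLoc
import Claimed.Agent.R286.Bud.GeoBr
import Claimed.Agent.R286.Bud.InstKit
import Claimed.Agent.R286.Bud.InstPath
import Claimed.Agent.R286.Exit.BaseProf
import Claimed.Agent.R286.Bud.L07X
import Claimed.Agent.R286.Bud.FfNum
import Claimed.Agent.R286.Bud.StarX
import Claimed.Agent.R286.Exit.BudWorld
import Claimed.Agent.R286.Exit.ScBd7
import Claimed.Agent.R286.LL.PathsBase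
import Claimed.Agent.R286.LL.PathsKit281
import Claimed.Agent.R286.Exit.ClkLim
import Claimed.Agent.R286.Ci.Resc
import Claimed.Agent.R286.Bud.RawExit
import Claimed.Agent.R286.Bud.RawC8
import Claimed.Agent.R286.Bud.HpTr
import Claimed.Agent.R286.Bud.HpInst
import Claimed.Agent.R286.Exit.ClkSite
import Claimed.Agent.R286.Bud.Exc0
import Claimed.Agent.R286.Exit.P6Tm

/-!
# Row 286 (S0533), LL sec. 7: THE INSTANCE      (head helper162; prefix `bi_`, types `Bi*`)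

All abstract records of `R286/Bud` are produced HERE on the SK objects: world `skWorld` (`Exit/BudWorld`), base `llBase` (`LL/PathsBase`), frames `btFr llBase Fx p hd ..` (`Bud/TopDefs`, 66).

* `BiFam Fx X N0`     THE family: frames of direct LL paths (`BtFam llBase Fx`) which are `Ok X` and of size `≥ N0`  (`N0` sits in the family: `BdStd`, `BudOptEx` have no `N0`).
* `BiFix Fx X K c C v0 sg Cu`   compatibility of the fixed data of LL 03 (`LlFix`; `c C v0` = constants of `LlRef`) and LL 07 (`BdFix`, `BdCst`, `CuStd`).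
* SUPPLIES of `Bud/Top`: `bx_world bx_sys bx_site bx_scale bx_end` (sec. 0, proved).
* PRODUCERS   `bi_fix_ex` (`BdFix.Ok`, `BiFix`) | `bi_std` (`BdStd`, `BudB.CuStd`, `BdFr.Base`; glue over the leaves `bi_aff .. bi_cu`) | `bi_sin` (`Bd7SIn`) | `BpHyp`: `bpf_hyp`, `bpf_hyp_viol` (212, proved)
* INPUTS of `BudB.exit_all` on the instance: `bi_optex` (N4), `bi_path` (`PathStd`), `bi_p11x` (`BdP11X`; in `Bud/InstP11.lean`), `bi7_p9`, `bi_exc0` (PE Prop. 6.6), `bi_r0` (N1), `bi_c7` (N9), `bi_hpin` (N15), `bi_ffin` (N14).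
* EXIT        `Exit/Bud.lean`: `bx_loc : BtLoc X skWorld (BtFam llBase Fx)` (glue PROVED), `exit_bud`.
ORDER OF THE CONSTANTS: `T`; cut-offs `F0` (LL 03); `cG` (LL 06); exponents (`BiExp`); `c C v0` (`LlRef`); the loose constants `cL CL` of (C7) (`bi_c7`: BEFORE `X`); `CU = 1/c0`;
then `X K sg Cu` (`bi_fix_ex`; `c_H ≥ M max(1, Cb c_I + 2)`, `M = M(ptop, cL, CL)`); then `N0`.
-/

set_option autoImplicit false

namespace Claimed.Agent.R286

open MeasureTheory Set Filter Topology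
open scoped Pointwise

noncomputable section

/-! ## 0. The supplies of `Bud/Top` (66) at the SK objects: ALL PROVED (162) -/

theorem bx_ext_zero : clkExt 1 (0 : ℝ → ℝ) = 0 := by
  funext u
  unfold clkExt
  have : (0 : ℝ → ℝ) '' Ioo 0 1 = {0} := by
    ext y
    constructor
    · rintro ⟨v, _, rfl⟩; rfl
    · rintro rfl; exact ⟨1 / 2, by constructor <;> norm_num, rfl⟩
  rw [this]
  simp

/-- the world carries the numbers of `llBase` -/
theorem bx_world : BtWorld llBase skWorld where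
  a1 := skWorld_isHub.a1
  f := fun m b h hm _ _ _ _ => by rw [bw_ps hm]; rfl
  S := fun m b h hm _ _ _ _ v _ => by rw [bw_ps hm]; rfl
  B := fun m b h hm _ _ _ _ v _ => by rw [bw_ps hm]; rfl
  fsp := fun K _ _ => by
    show skCPr 1 1 0 (bmExt K) = skCPr 1 1 (clkExt 1 0) (clkExt 1 K)
    rw [bx_ext_zero]; rfl

/-- (A1), line 1, at every terminal mass -/
theorem bx_sys : BtSys llBase := fun m a hm ha =>
  ⟨skPSys m hm a ha, rfl, fun _ _ _ _ _ _ => ⟨rfl, fun _ _ => ⟨rfl, rfl⟩⟩⟩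

/-- no jump of the physical clocks at the terminal mass (`LlSec3.admEnd`, 253) -/
theorem bx_end {Fx : LlFix} (h3 : LlSec3 llBase Fx) : BtEnd llBase Fx := by
  obtain ⟨c, C, hc, N1, h1⟩ := h3.adm
  obtain ⟨N2, h2⟩ := h3.admEnd
  refine ⟨max N1 N2, fun p hp hN => ?_⟩
  obtain ⟨mb, mh, mS, mK, -, hv, -, -⟩ := h1 p hp ((le_max_left _ _).trans hN)
  obtain ⟨tb, th, tS, tK, -⟩ := h2 p hp ((le_max_right _ _).trans hN)
  have ha : 0 < p.a := by
    unfold LlPt.a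
    split_ifs
    · norm_num
    · linarith [hp.ell1]
  have h0 := hv 0 (left_mem_Icc.2 ha.le)
  exact ⟨bw_end_of_tendsto ha (llb_isClock ha ⟨mb, hc.le.trans h0.1⟩) tb, bw_end_of_tendsto ha (llb_isClock ha ⟨mh, h0.2.2.1⟩) th,
    bw_end_of_tendsto ha (llb_isClock ha ⟨mS, h0.2.2.2.1⟩) tS, bw_end_of_tendsto ha (llb_isClock ha ⟨mK, h0.2.2.2.2⟩) tK⟩

/-! without matrix clock the sites decouple (`exit_clk_site`, 26); LL 11 l.20-37: terminal mass `a` -> terminal mass one (`Ci/Resc`, 53) -/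

theorem bx_ext_zero' {a : ℝ} (ha : 0 < a) : clkExt a (0 : ℝ → ℝ) = fun _ => 0 := by
  funext u
  unfold clkExt
  have : (0 : ℝ → ℝ) '' Ioo 0 a = {0} := by
    ext y
    constructor
    · rintro ⟨v, _, rfl⟩; rfl
    · rintro rfl; exact ⟨a / 2, ⟨by linarith, by linarith⟩, rfl⟩
  rw [this]
  simp

theorem bx_site : BtSite llBase := fun m a K hm ha _ _ => by
  show skCPr m a (clkExt a 0) (clkExt a K) = skCPr 1 a (clkExt a 0) (clkExt a K)
  rw [bx_ext_zero' ha]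
  exact exit_clk_site hm ha _

theorem bx_resc {a : ℝ} (ha : 0 < a) (c : ℝ → ℝ) : clkExt 1 (btResc a c) = ghClkRs a (clkExt a c) := by
  funext u
  unfold ghClkRs clkExt btResc
  by_cases h0 : u ≤ 0
  · rw [if_pos h0, if_pos (mul_nonpos_of_nonneg_of_nonpos ha.le h0), mul_zero]
  · have h0' : ¬ a * u ≤ 0 := not_le.2 (mul_pos ha (not_le.1 h0))
    rw [if_neg h0, if_neg h0']
    by_cases h1 : u < 1
    · rw [if_pos h1, if_pos (by nlinarith)]
    · rw [if_neg h1, if_neg (by nlinarith [not_lt.1 h1])]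
      have : (fun u => a ^ 2 * c (a * u)) '' Ioo 0 1 = (a ^ 2) • (c '' Ioo 0 a) := by
        ext y
        simp only [mem_image, mem_smul_set, smul_eq_mul]
        constructor
        · rintro ⟨v, hv, rfl⟩
          exact ⟨c (a * v), ⟨a * v, ⟨mul_pos ha hv.1, by nlinarith [hv.2]⟩, rfl⟩, rfl⟩
        · rintro ⟨_, ⟨v, hv, rfl⟩, rfl⟩
          refine ⟨v / a, ⟨div_pos hv.1 ha, (div_lt_one ha).2 hv.2⟩, ?_⟩
          rw [mul_div_cancel₀ _ ha.ne']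
      rw [this, Real.sSup_smul_of_nonneg (sq_nonneg a), smul_eq_mul]

theorem bx_scale : BtScale llBase where
  f := fun m a b h ha hb hh _ _ => by
    show skCPr m 1 (clkExt 1 (btResc a b)) (clkExt 1 (btResc a h)) = a * skCPr m a (clkExt a b) (clkExt a h)
    rw [bx_resc ha, bx_resc ha]
    exact sk_rs_CPr m ha _ _ (gh_pk_lim_pr ha (psi_adm ha hb hh) 0).2
  S := fun m a b h ha _ _ _ _ w _ => by
    show skCS m 1 (clkExt 1 (btResc a b)) (clkExt 1 (btResc a h)) (ghPosA w) = skCS m a (clkExt a b) (clkExt a h) (ghPosA (a * w))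
    rw [bx_resc ha, bx_resc ha, ← sk_rs_CS m ha, gh_rs_posA, mul_div_cancel_left₀ _ ha.ne']
  B := fun m a b h ha _ _ _ _ w _ => by
    show skCB m 1 (clkExt 1 (btResc a b)) (clkExt 1 (btResc a h)) (ghPosA w) = skCB m a (clkExt a b) (clkExt a h) (ghPosA (a * w))
    rw [bx_resc ha, bx_resc ha, ← sk_rs_CB m ha, gh_rs_posA, mul_div_cancel_left₀ _ ha.ne']


/-- **the family of local frames** of LL sec. 7 -/
def BiFam (Fx : LlFix) (X : BdFix) (N0 : ℕ) (Fr : BdFr) : Prop := BtFam llBase Fx Fr ∧ Fr.Ok X ∧ N0 ≤ Fr.N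

/-- the ranges of the exponents of (P1) which LL sec. 7 needs (`cG` = exponent of (G1)) -/
structure BiExp (Fx : LlFix) (cG : ℝ) : Prop where
  s_hi : Fx.sS < 1 / 2
  s_lo : 1 / 2 - Fx.sS ≤ 1 / 100000
  s_cG : 100 * (1 / 2 - Fx.sS) ≤ cG
  e_pos : 0 < Fx.eta
  e_le : Fx.eta ≤ (1 / 2 - Fx.sS) / 100
  p_pos : 0 < Fx.pS
  p_le : Fx.pS ≤ 1 / 1000000
  p_cG : 2000 * Fx.pS ≤ cG

/-- **compatibility of the fixed data**; `c C v0` = the constants of `LlRef llBase Fx c C v0` -/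
structure BiFix (Fx : LlFix) (X : BdFix) (K : BdCst) (c C v0 sg Cu : ℝ) : Prop where
  fx : Fx.Ok
  ok : X.Ok
  tie : BtFix Fx X
  c_pos : 0 < c
  c_le : c ≤ C
  v0_pos : 0 < v0
  g_lo : -4 ≤ X.glo 0
  g_lo3 : -3 ≤ X.glo 0
  g_hi : X.ghi 0 ≤ 4
  cG_pos : 0 < K.cG
  cG_s0 : 24 * (1 - 2 * X.s0) ≤ K.cG
  cG_he : 2 * X.he ≤ K.cG
  /-- the removal profile is constant on `[0, c_I u]` -/
  cI_cd : X.cI ≤ X.cd ^ 3
  cH_big : 2 * (K.Cb * X.cI + 2) ≤ X.cH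
  /-- `m_PE` is pinned by the exponents (so that the constants of PE6 are fixed BEFORE `X`; ask of 286) -/
  mPE_eq : X.mPE = Fx.pS * (Fx.eta / 100) * (Fx.eta / 10000) / 100000 / 100
  cN_le : 4 * X.cN * max 1 (X.CU ^ 2) ≤ Fx.cb * Fx.c1 * min (1 / 65) (Fx.vb ^ 2 / 4)
  Cg_ge : 4 * (Fx.cb * Fx.c1 * (64 + Fx.vb ^ 2 + Fx.vb ^ 2 * Fx.G1 2 + 1)) ≤ K.Cg
  cb_pos : 0 < K.cb
  cb_le : K.cb ≤ c / (2 * C)
  Cb_ge : 2 * C / c ≤ K.Cb
  sg_pos : 0 < sg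
  J_big : (2 / 3 : ℝ) ^ (X.J + 1) * (2 / X.pS) ≤ 0.12
  /-- the last band contains `q(supp c_u)/u ⊆ [c/2, 4C]` with room -/
  q_lo : X.qlo (X.J + 1) + sg ≤ c / 2
  q_hi : 4 * C ≤ X.qhi (X.J + 1) - sg
  Cu_ge : ∀ w, 2 * Fx.cb * Fx.c1 * Fx.phi w ≤ Cu

/-! ## 1. The fixed data exist -/

/-- `1/(k+1)` is strictly decreasing -/
theorem bi_inv_lt {k l : ℕ} (h : k < l) : (1 : ℝ) / ((l : ℝ) + 1) < 1 / ((k : ℝ) + 1) := by
  have hk : (0 : ℝ) < (k : ℝ) + 1 := by positivity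
  have hkl : (k : ℝ) < (l : ℝ) := by exact_mod_cast h
  exact one_div_lt_one_div_of_lt hk (by linarith)

theorem bi_inv_pos (k : ℕ) : (0 : ℝ) < 1 / ((k : ℝ) + 1) := by positivity

theorem bi_inv_le_one (k : ℕ) : (1 : ℝ) / ((k : ℝ) + 1) ≤ 1 := by
  rw [div_le_one (by positivity)]
  have : (0 : ℝ) ≤ (k : ℝ) := Nat.cast_nonneg k
  linarith

/-- a continuous function which vanishes off a compact interval is bounded above -/
theorem bi_phi_bdd (Fx : LlFix) (hFx : Fx.Ok) : ∃ B : ℝ, 0 ≤ B ∧ ∀ w, Fx.phi w ≤ B := by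
  have hc : ContinuousOn Fx.phi (Icc (1 / 2 : ℝ) 4) := hFx.phi_sm.continuous.continuousOn
  obtain ⟨B, hB⟩ := isCompact_Icc.exists_bound_of_continuousOn hc
  refine ⟨max B 0, le_max_right _ _, fun w => ?_⟩
  by_cases hw : w ∈ Icc (1 / 2 : ℝ) 4
  · exact ((le_abs_self _).trans (hB w hw)).trans (le_max_left _ _)
  · rw [hFx.phi_supp w hw]; exact le_max_right _ _

theorem bi_J_ex {p : ℝ} (hp : 0 < p) : ∃ J : ℕ, (2 / 3 : ℝ) ^ (J + 1) * (2 / p) ≤ 0.12 := by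
  have h : Tendsto (fun n : ℕ => (2 / 3 : ℝ) ^ n) atTop (𝓝 0) :=
    tendsto_pow_atTop_nhds_zero_of_lt_one (by norm_num) (by norm_num)
  have hpos : (0 : ℝ) < 0.12 * (p / 2) := by positivity
  obtain ⟨J, hJ⟩ := ((h.eventually (gt_mem_nhds hpos)).and (eventually_ge_atTop 1)).exists
  refine ⟨J - 1, ?_⟩
  have e : J - 1 + 1 = J := Nat.sub_add_cancel hJ.2
  rw [e]
  have h2 : (0 : ℝ) < 2 / p := by positivity
  calc (2 / 3 : ℝ) ^ J * (2 / p) ≤ 0.12 * (p / 2) * (2 / p) := mul_le_mul_of_nonneg_right hJ.1.le h2.le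
    _ = 0.12 := by field_simp

/-- **PRODUCER of `BdFix.Ok`** (pure arithmetic; nested patches around `[c/2, 4C]`, nested parameter intervals in `[-4,4]` around `[1/3,2/3]`, `J` from `J_big`).      OWNER helper162 -/
theorem bi_fix_ex (Fx : LlFix) (hFx : Fx.Ok) {cG CU c C v0 : ℝ} (hcG : 0 < cG) (hCU : 0 < CU) (he : BiExp Fx cG)
    (hc : 0 < c) (hcC : c ≤ C) (hv0 : 0 < v0) (M : ℝ) :
    ∃ (X : BdFix) (K : BdCst) (sg Cu : ℝ), BiFix Fx X K c C v0 sg Cu ∧ K.cG = cG ∧ X.CU = CU ∧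
      M * max 1 (K.Cb * X.cI + 2) ≤ X.cH := by
  obtain ⟨B, hB0, hB⟩ := bi_phi_bdd Fx hFx
  obtain ⟨J, hJ⟩ := bi_J_ex he.p_pos
  have hC : 0 < C := hc.trans_le hcC
  have htau : 0 < 1 / 2 - Fx.sS := by linarith [he.s_hi]
  have hR : 0 < Fx.cb * Fx.c1 * min (1 / 65) (Fx.vb ^ 2 / 4) :=
    mul_pos (mul_pos hFx.cb0 hFx.c10) (lt_min (by norm_num) (by have := hFx.vb0; positivity))
  have hM : (0 : ℝ) < 4 * max 1 (CU ^ 2) := by
    have : (1 : ℝ) ≤ max 1 (CU ^ 2) := le_max_left _ _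
    linarith
  -- the data
  let X : BdFix :=
    { T := Fx.T
      tau := 1 / 2 - Fx.sS
      tau0 := Fx.eta / 100
      eta := Fx.eta
      pS := Fx.pS
      bl := Fx.eta / 10000
      bs := Fx.eta / 100
      zeta := Fx.pS * (Fx.eta / 100) * (Fx.eta / 10000) / 100000
      mPE := Fx.pS * (Fx.eta / 100) * (Fx.eta / 10000) / 100000 / 100
      rho := Fx.eta / 100 / 1000
      he := 1000 * Fx.pS
      cd := 4 * C + c / 4 + 3
      cI := 4 * C + c / 4 + 2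
      cH := max (2 * (2 * C / c * (4 * C + c / 4 + 2) + 2)) (max 1 (M * max 1 (2 * C / c * (4 * C + c / 4 + 2) + 2)))
      CU := CU
      J := J
      plo := fun st => c / 4 * (1 - 1 / (((2 * st : ℕ) : ℝ) + 1) / 2)
      phi := fun st => 4 * C + c / 4 + 1 / (((2 * st : ℕ) : ℝ) + 1)
      qlo := fun st => c / 4 * (1 - 1 / (((2 * st + 1 : ℕ) : ℝ) + 1) / 2)
      qhi := fun st => 4 * C + c / 4 + 1 / (((2 * st + 1 : ℕ) : ℝ) + 1)
      glo := fun st => - (1 / ((st : ℝ) + 1))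
      ghi := fun st => 1 + 1 / ((st : ℝ) + 1)
      cN := Fx.cb * Fx.c1 * min (1 / 65) (Fx.vb ^ 2 / 4) / (4 * max 1 (CU ^ 2)) }
  let K : BdCst :=
    { cb := c / (2 * C)
      Cb := 2 * C / c
      Cg := 4 * (Fx.cb * Fx.c1 * (64 + Fx.vb ^ 2 + Fx.vb ^ 2 * Fx.G1 2 + 1))
      cG := cG }
  have hc4 : 0 < c / 4 := by positivity
  have hok : X.Ok :=
    { T1 := hFx.T1
      tau0_pos := by show 0 < Fx.eta / 100; linarith [he.e_pos]
      tau0_le := le_refl _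
      eta_le := he.e_le
      tau_le := he.s_lo
      pS_pos := he.p_pos
      pS_le := by show Fx.pS ≤ 1000 * Fx.pS / 1000; linarith
      he_le := by show 1000 * Fx.pS ≤ 1 / 1000; linarith [he.p_le]
      bl_pos := by show 0 < Fx.eta / 10000; linarith [he.e_pos]
      bl_le := by show Fx.eta / 10000 ≤ Fx.eta / 100 / 100; linarith
      bs_le := le_refl _
      zeta_pos := by
        show 0 < Fx.pS * (Fx.eta / 100) * (Fx.eta / 10000) / 100000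
        have := he.p_pos; have := he.e_pos; positivity
      zeta_le := le_refl _
      mPE_pos := by
        show 0 < Fx.pS * (Fx.eta / 100) * (Fx.eta / 10000) / 100000 / 100
        have := he.p_pos; have := he.e_pos; positivity
      mPE_le := le_refl _
      rho_pos := by show 0 < Fx.eta / 100 / 1000; linarith [he.e_pos]
      rho_le := le_refl _
      cd_pos := by show 0 < 4 * C + c / 4 + 3; linarith
      cI_pos := by show 0 < 4 * C + c / 4 + 2; linarith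
      cH_pos := lt_of_lt_of_le one_pos ((le_max_left _ _).trans (le_max_right _ _))
      CU_pos := hCU
      cN_pos := div_pos hR hM
      cI_le := by
        show 4 * C + c / 4 + 2 ≤ (4 * C + c / 4 + 3) ^ 3
        have h1 : (1 : ℝ) ≤ 4 * C + c / 4 + 3 := by linarith
        have := le_self_pow₀ h1 (by norm_num : (3 : ℕ) ≠ 0)
        linarith
      J_big := hJ
      pat := fun st _ => by
        have h1 := bi_inv_le_one (2 * st)
        have h2 := bi_inv_pos (2 * st)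
        have h3 := bi_inv_pos (2 * st + 1)
        have h4 : (1 : ℝ) / (((2 * st + 1 : ℕ) : ℝ) + 1) < 1 / (((2 * st : ℕ) : ℝ) + 1) := bi_inv_lt (Nat.lt_succ_self _)
        refine ⟨?_, ?_, ?_, ?_, ?_⟩
        · show 0 < c / 4 * (1 - 1 / (((2 * st : ℕ) : ℝ) + 1) / 2)
          exact mul_pos hc4 (by linarith)
        · show c / 4 * (1 - 1 / (((2 * st : ℕ) : ℝ) + 1) / 2) < c / 4 * (1 - 1 / (((2 * st + 1 : ℕ) : ℝ) + 1) / 2)
          exact mul_lt_mul_of_pos_left (by linarith) hc4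
        · show c / 4 * (1 - 1 / (((2 * st + 1 : ℕ) : ℝ) + 1) / 2) < 4 * C + c / 4 + 1 / (((2 * st + 1 : ℕ) : ℝ) + 1)
          have : c / 4 * (1 - 1 / (((2 * st + 1 : ℕ) : ℝ) + 1) / 2) ≤ c / 4 * 1 :=
            mul_le_mul_of_nonneg_left (by linarith) hc4.le
          linarith
        · show 4 * C + c / 4 + 1 / (((2 * st + 1 : ℕ) : ℝ) + 1) < 4 * C + c / 4 + 1 / (((2 * st : ℕ) : ℝ) + 1)
          linarith
        · show 4 * C + c / 4 + 1 / (((2 * st : ℕ) : ℝ) + 1) < 4 * C + c / 4 + 2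
          linarith
      nest := fun st _ => by
        have h4 : (1 : ℝ) / (((2 * (st + 1) : ℕ) : ℝ) + 1) < 1 / (((2 * st + 1 : ℕ) : ℝ) + 1) := bi_inv_lt (by omega)
        constructor
        · show c / 4 * (1 - 1 / (((2 * st + 1 : ℕ) : ℝ) + 1) / 2) < c / 4 * (1 - 1 / (((2 * (st + 1) : ℕ) : ℝ) + 1) / 2)
          exact mul_lt_mul_of_pos_left (by linarith) hc4
        · show 4 * C + c / 4 + 1 / (((2 * (st + 1) : ℕ) : ℝ) + 1) < 4 * C + c / 4 + 1 / (((2 * st + 1 : ℕ) : ℝ) + 1)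
          linarith
      gnest := fun st _ => by
        have h4 : (1 : ℝ) / (((st + 1 : ℕ) : ℝ) + 1) < 1 / ((st : ℝ) + 1) := bi_inv_lt (Nat.lt_succ_self _)
        constructor
        · show - (1 / ((st : ℝ) + 1)) < - (1 / (((st + 1 : ℕ) : ℝ) + 1))
          linarith
        · show 1 + 1 / (((st + 1 : ℕ) : ℝ) + 1) < 1 + 1 / ((st : ℝ) + 1)
          linarith
      groom := by
        have h3 := bi_inv_pos (J + 1)
        constructor
        · show - (1 / (((J + 1 : ℕ) : ℝ) + 1)) < 1 / 3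
          linarith
        · show 2 / 3 < 1 + 1 / (((J + 1 : ℕ) : ℝ) + 1)
          linarith }
  refine ⟨X, K, c / 4, 2 * Fx.cb * Fx.c1 * B, ?_, rfl, rfl, (le_max_right _ _).trans (le_max_right _ _)⟩
  exact
    { fx := hFx
      ok := hok
      tie := ⟨rfl, by show 1 / 2 - (1 / 2 - Fx.sS) = Fx.sS; ring, rfl, rfl⟩
      c_pos := hc
      c_le := hcC
      v0_pos := hv0
      g_lo := by show -4 ≤ - (1 / (((0 : ℕ) : ℝ) + 1)); norm_num
      g_lo3 := by show -3 ≤ - (1 / (((0 : ℕ) : ℝ) + 1)); norm_num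
      g_hi := by show 1 + 1 / (((0 : ℕ) : ℝ) + 1) ≤ 4; norm_num
      cG_pos := hcG
      cG_s0 := by
        show 24 * (1 - 2 * (1 / 2 - (1 / 2 - Fx.sS) - Fx.eta / 100)) ≤ cG
        linarith [he.s_cG, he.e_le]
      cG_he := by show 2 * (1000 * Fx.pS) ≤ cG; linarith [he.p_cG]
      cH_big := le_max_left _ _
      mPE_eq := rfl
      cI_cd := by
        show 4 * C + c / 4 + 2 ≤ (4 * C + c / 4 + 3) ^ 3
        have h1 : (1 : ℝ) ≤ 4 * C + c / 4 + 3 := by linarith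
        have := le_self_pow₀ h1 (by norm_num : (3 : ℕ) ≠ 0)
        linarith
      cN_le := by
        show 4 * (Fx.cb * Fx.c1 * min (1 / 65) (Fx.vb ^ 2 / 4) / (4 * max 1 (CU ^ 2))) * max 1 (CU ^ 2) ≤ _
        apply le_of_eq
        field_simp
      Cg_ge := le_refl _
      cb_pos := by show 0 < c / (2 * C); positivity
      cb_le := le_refl _
      Cb_ge := le_refl _
      sg_pos := hc4
      J_big := hJ
      q_lo := by
        show c / 4 * (1 - 1 / (((2 * (J + 1) + 1 : ℕ) : ℝ) + 1) / 2) + c / 4 ≤ c / 2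
        have h3 := bi_inv_pos (2 * (J + 1) + 1)
        have : c / 4 * (1 - 1 / (((2 * (J + 1) + 1 : ℕ) : ℝ) + 1) / 2) ≤ c / 4 * 1 :=
          mul_le_mul_of_nonneg_left (by linarith) hc4.le
        linarith
      q_hi := by
        show 4 * C ≤ 4 * C + c / 4 + 1 / (((2 * (J + 1) + 1 : ℕ) : ℝ) + 1) - c / 4
        have h3 := bi_inv_pos (2 * (J + 1) + 1)
        linarith
      Cu_ge := fun w => mul_le_mul_of_nonneg_left (hB w) (by have := hFx.cb0; have := hFx.c10; positivity) }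

/-! ## 2. Leaves of `bi_std`: one frame of the family -/

section leaves

variable {Fx : LlFix} {X : BdFix} {K : BdCst} {c C v0 sg Cu : ℝ}

/-- (P3): the matrix clock is affine in `γ_0` -/
theorem bi_loc_b (𝔹 : LlBase) (F : LlFix) (p : LlPt) (hd : ℕ) (g v : ℝ) :
    (p.loc hd g 0).b F 𝔹 v = (p.loc hd 0 0).b F 𝔹 v - g * p.cg F v := by
  have e1 : (p.loc hd g 0).b F 𝔹 v = p.b0 F 𝔹 + F.cb * p.lam * (p.G F v - p.U F ^ 2 - F.c1 * g * (p.G F v + p.U F ^ 2)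
      - F.c1 * (p.loc hd 0 0).dySum F v) := rfl
  have e2 : (p.loc hd 0 0).b F 𝔹 v = p.b0 F 𝔹 + F.cb * p.lam * (p.G F v - p.U F ^ 2 - F.c1 * 0 * (p.G F v + p.U F ^ 2)
      - F.c1 * (p.loc hd 0 0).dySum F v) := rfl
  rw [e1, e2]
  unfold LlPt.cg
  ring

/-- (P6): the field clock is affine in `γ_0` above the mask -/
theorem bi_loc_h (𝔹 : LlBase) (F : LlFix) (p : LlPt) (hd : ℕ) (g v : ℝ) (hv : p.x ≤ v) :
    (p.loc hd g 0).h F 𝔹 v = (p.loc hd 0 0).h F 𝔹 v + g * (p.cg F v * p.q F 𝔹 v) := by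
  have e1 : ∀ g', (p.loc hd g' 0).h F 𝔹 v = if v < p.x then 0 else
      (p.K F 𝔹 v - (p.loc hd g' 0).b F 𝔹 v * p.q F 𝔹 v) + p.Hlo F v + p.chiL * p.Hlin F v + p.chiE * p.He F 𝔹 v := fun _ => rfl
  rw [e1 g, e1 0, if_neg (not_lt.2 hv), if_neg (not_lt.2 hv), bi_loc_b]
  ring

theorem bi_loc_h0 (𝔹 : LlBase) (F : LlFix) (p : LlPt) (hd : ℕ) (g v : ℝ) (hv : v < p.x) :
    (p.loc hd g 0).h F 𝔹 v = 0 := by
  have e1 : (p.loc hd g 0).h F 𝔹 v = if v < p.x then 0 else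
      (p.K F 𝔹 v - (p.loc hd g 0).b F 𝔹 v * p.q F 𝔹 v) + p.Hlo F v + p.chiL * p.Hlin F v + p.chiE * p.He F 𝔹 v := rfl
  rw [e1, if_pos hv]

/-- `c_g` of the frame -/
theorem bi_fr_cg (𝔹 : LlBase) (F : LlFix) (p : LlPt) (hd m st : ℕ) (kap Ilo Ihi v : ℝ) :
    (btFr 𝔹 F p hd m st kap Ilo Ihi).cg v = p.ell ^ 2 * p.cg F (p.ell * v) := by
  have e : (btFr 𝔹 F p hd m st kap Ilo Ihi).cg v
      = p.ell ^ 2 * (p.loc hd 0 0).b F 𝔹 (p.ell * v) - p.ell ^ 2 * (p.loc hd 1 0).b F 𝔹 (p.ell * v) := rfl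
  rw [e, bi_loc_b 𝔹 F p hd 1]
  ring

/-- (P3), (P6): the clocks are affine in `γ_0`; the mask.   Pure unfolding of `btFr`, `LlPt.b`, `LlPt.h`.      OWNER helper162 (proved helper27) -/
theorem bi_aff {Fr : BdFr} (h : BtFam llBase Fx Fr) :
    (∀ g v, Fr.b g v = Fr.b 0 v - g * Fr.cg v) ∧ (∀ g v, Fr.xm ≤ v → Fr.h g v = Fr.h 0 v + g * (Fr.cg v * Fr.q v)) ∧
      ∀ g v, v < Fr.xm → Fr.h g v = 0 := by
  obtain ⟨p, hd, hp, hsm, hdy, hFe⟩ := h
  have hl : 0 < p.ell := lt_of_lt_of_le one_pos hp.ell1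
  rw [hFe]
  have hxm : (btFr llBase Fx p hd Fr.m Fr.st Fr.kap Fr.Ilo Fr.Ihi).xm = p.x / p.ell := rfl
  refine ⟨fun g v => ?_, fun g v hv => ?_, fun g v hv => ?_⟩
  · rw [bi_fr_cg]
    have e : ∀ g', (btFr llBase Fx p hd Fr.m Fr.st Fr.kap Fr.Ilo Fr.Ihi).b g' v
      = p.ell ^ 2 * (p.loc hd g' 0).b Fx llBase (p.ell * v) := fun _ => rfl
    rw [e g, e 0, bi_loc_b llBase Fx p hd g]
    ring
  · rw [bi_fr_cg]
    rw [hxm, div_le_iff₀ hl, mul_comm] at hv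
    have e : ∀ g', (btFr llBase Fx p hd Fr.m Fr.st Fr.kap Fr.Ilo Fr.Ihi).h g' v
      = p.ell ^ 2 * (p.loc hd g' 0).h Fx llBase (p.ell * v) := fun _ => rfl
    have eq : (btFr llBase Fx p hd Fr.m Fr.st Fr.kap Fr.Ilo Fr.Ihi).q v = p.q Fx llBase (p.ell * v) := rfl
    rw [e g, e 0, eq, bi_loc_h llBase Fx p hd g _ hv]
    ring
  · rw [hxm, lt_div_iff₀ hl, mul_comm] at hv
    have e : (btFr llBase Fx p hd Fr.m Fr.st Fr.kap Fr.Ilo Fr.Ihi).h g v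
      = p.ell ^ 2 * (p.loc hd g 0).h Fx llBase (p.ell * v) := rfl
    rw [e, bi_loc_h0 llBase Fx p hd g _ hv, mul_zero]

/-- (P3): `c_g ≍ λ (v² + U²)`.      OWNER helper162 -/
theorem bi_cg (hf : BiFix Fx X K c C v0 sg Cu) {Fr : BdFr} (h : BtFam llBase Fx Fr) (hO : Fr.Ok X) :
    (∀ v ∈ Ioo (0 : ℝ) 1, 4 * X.cN * Fr.lam * (v ^ 2 + Fr.U X ^ 2) ≤ Fr.cg v) ∧ (∀ v ∈ Ioo (0 : ℝ) 1, Fr.cg v ≤ K.Cg * Fr.lam) ∧
      Measurable Fr.cg := by
  obtain ⟨p, hd, hp, -, -, hFe⟩ := h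
  have hk : BikOf llBase Fx p hd Fr := bik_of hFe
  have hl : 0 < Fr.lam := BdFr.bds_lam_pos hO
  have hM : (0 : ℝ) < max 1 (X.CU ^ 2) := lt_of_lt_of_le one_pos (le_max_left _ _)
  refine ⟨fun v hv => ?_, fun v hv => ?_, hk.cg_meas hf.fx⟩
  · have h1 := hk.cg_lo hf.fx hp hf.tie hf.ok hO hv
    have h2 : 0 ≤ Fr.lam * (v ^ 2 + Fr.U X ^ 2) := mul_nonneg hl.le (by positivity)
    have h3 := mul_le_mul_of_nonneg_right hf.cN_le h2
    have h4 : max 1 (X.CU ^ 2) * (4 * X.cN * Fr.lam * (v ^ 2 + Fr.U X ^ 2)) ≤ max 1 (X.CU ^ 2) * Fr.cg v := by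
      calc max 1 (X.CU ^ 2) * (4 * X.cN * Fr.lam * (v ^ 2 + Fr.U X ^ 2))
          = 4 * X.cN * max 1 (X.CU ^ 2) * (Fr.lam * (v ^ 2 + Fr.U X ^ 2)) := by ring
        _ ≤ Fx.cb * Fx.c1 * min (1 / 65) (Fx.vb ^ 2 / 4) * (Fr.lam * (v ^ 2 + Fr.U X ^ 2)) := h3
        _ = Fx.cb * Fx.c1 * min (1 / 65) (Fx.vb ^ 2 / 4) * Fr.lam * (v ^ 2 + Fr.U X ^ 2) := by ring
        _ ≤ _ := h1
    exact le_of_mul_le_mul_left h4 hM
  · exact (hk.cg_hi hf.fx hp hv).trans (mul_le_mul_of_nonneg_right hf.Cg_ge hl.le)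

/-- `x^κ → 0` -/
theorem bi43_small {κ ε : ℝ} (hκ : 0 < κ) (hε : 0 < ε) :
    ∃ N0 : ℕ, ∀ N : ℕ, N0 ≤ N → ((N : ℝ) ^ (-(1 / 6) : ℝ)) ^ κ ≤ ε := by
  have h1 : Tendsto (fun N : ℕ => ((N : ℝ)) ^ (-(κ / 6))) atTop (𝓝 0) :=
    (tendsto_rpow_neg_atTop (by positivity : 0 < κ / 6)).comp tendsto_natCast_atTop_atTop
  obtain ⟨N0, h0⟩ := eventually_atTop.1 (h1.eventually_le_const hε)
  refine ⟨N0, fun N hN => ?_⟩
  rw [← Real.rpow_mul (Nat.cast_nonneg N)]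
  have : (-(1 / 6) * κ : ℝ) = -(κ / 6) := by ring
  rw [this]
  exact h0 N hN

/-- `λ^e → 0` uniformly over the frames -/
theorem bi43_lam_small (hX : X.Ok) {ε e : ℝ} (hε : 0 < ε) (he : 0 < e) :
    ∃ N0 : ℕ, ∀ Fr : BdFr, Fr.Ok X → N0 ≤ Fr.N → Fr.lam ^ e ≤ ε := by
  obtain ⟨N0, h0⟩ := bi43_small (mul_pos hX.pS_pos he) hε
  refine ⟨N0, fun Fr hO hN => ?_⟩
  have h1 : Fr.lam ^ e ≤ (Fr.x ^ X.pS) ^ e := Real.rpow_le_rpow (BdFr.bds_lam_pos hO).le hO.lam_hi he.le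
  rw [← Real.rpow_mul (BdFr.bds_x_pos hO).le] at h1
  exact h1.trans (h0 Fr.N hN)

/-- the fields of a frame of the family -/
theorem bi43_unf {Fr : BdFr} (h : BtFam llBase Fx Fr) :
    ∃ (p : LlPt) (hd : ℕ), p.Ok Fx ∧ p.sm = false ∧ p.IsDy Fx hd ∧ Fr.N = p.N ∧ Fr.lam = p.lam ∧ Fr.u = btU hd ∧ Fr.ell = p.ell ∧
      Fr.K = btResc p.ell (p.K Fx llBase) ∧ (Fr.q = fun w => p.q Fx llBase (p.ell * w)) ∧
      Fr.d = btResc p.ell ((p.loc hd 0 0).d Fx llBase) ∧ (Fr.b = fun g => btResc p.ell ((p.loc hd g 0).b Fx llBase)) ∧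
      (Fr.h = fun g => btResc p.ell ((p.loc hd g 0).h Fx llBase)) ∧ Fr.cu = btResc p.ell (btCu Fx p hd) := by
  obtain ⟨p, hd, hp, hs, hdy, he⟩ := h
  exact ⟨p, hd, hp, hs, hdy, congrArg BdFr.N he, congrArg BdFr.lam he, congrArg BdFr.u he, congrArg BdFr.ell he,
    congrArg BdFr.K he, congrArg BdFr.q he, congrArg BdFr.d he, congrArg BdFr.b he, congrArg BdFr.h he, congrArg BdFr.cu he⟩

/-- the localised point is admissible -/
theorem bi43_loc_ok {p : LlPt} (hp : p.Ok Fx) (hd : ℕ) {g : ℝ} (hg : g ∈ Icc (-4 : ℝ) 4) : (p.loc hd g 0).Ok Fx where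
  N2 := hp.N2
  ell1 := hp.ell1
  ell2 := hp.ell2
  lam_lo := hp.lam_lo
  lam_hi := hp.lam_hi
  g0 := hg
  gu := fun h => by
    show Function.update p.gu hd 0 h ∈ Icc (-4 : ℝ) 4
    by_cases e : h = hd
    · subst e; rw [Function.update_self]; constructor <;> norm_num
    · rw [Function.update_of_ne e]; exact hp.gu h
  chiL := hp.chiL
  chiE := hp.chiE
  sm_fin := hp.sm_fin

theorem bi43_a {p : LlPt} (hs : p.sm = false) : p.a = p.ell := by simp [LlPt.a, hs]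

theorem bi43_loc_a {p : LlPt} (hs : p.sm = false) (hd : ℕ) (g t : ℝ) : (p.loc hd g t).a = p.ell := bi43_a hs

theorem bi43_ell_sq {ell : ℝ} (h1 : 1 ≤ ell) (h2 : ell ≤ (2 : ℝ) ^ (1 / 6 : ℝ)) : ell ^ 2 ≤ 2 := by
  calc ell ^ 2 ≤ ((2 : ℝ) ^ (1 / 6 : ℝ)) ^ 2 := by gcongr
    _ = (2 : ℝ) ^ ((1 / 6 : ℝ) * 2) := by rw [Real.rpow_mul (by norm_num), Real.rpow_two]
    _ ≤ (2 : ℝ) ^ (1 : ℝ) := Real.rpow_le_rpow_of_exponent_le (by norm_num) (by norm_num)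
    _ = 2 := Real.rpow_one 2

/-- rescaling of a monotone nonnegative function on `[0,ℓ]` is a clock on `(0,1)` -/
theorem bi43_clock {ell : ℝ} (h1 : 0 < ell) {f : ℝ → ℝ} (hm : MonotoneOn f (Icc 0 ell)) (h0 : ∀ v ∈ Icc 0 ell, 0 ≤ f v) :
    IsClock 1 (btResc ell f) := by
  have hmap : ∀ w ∈ Ioo (0 : ℝ) 1, ell * w ∈ Icc 0 ell := fun w hw =>
    ⟨mul_nonneg h1.le hw.1.le, by nlinarith [hw.2]⟩
  refine ⟨?_, ?_, ⟨ell ^ 2 * f ell, ?_⟩⟩
  · intro x hx y hy hxy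
    exact mul_le_mul_of_nonneg_left (hm (hmap x hx) (hmap y hy) (mul_le_mul_of_nonneg_left hxy h1.le)) (sq_nonneg _)
  · intro v hv
    exact mul_nonneg (sq_nonneg _) (h0 _ (hmap v hv))
  · intro v hv
    exact mul_le_mul_of_nonneg_left (hm (hmap v hv) ⟨h1.le, le_rfl⟩ (hmap v hv).2) (sq_nonneg _)

/-- the reference `q`, the defect `d`.      OWNER helper162 -/
theorem bi_q (h3 : LlSec3 llBase Fx) (hr : LlRef llBase Fx c C v0) (hf : BiFix Fx X K c C v0 sg Cu) :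
    ∃ N0 : ℕ, ∀ Fr, BiFam Fx X N0 Fr →
      MonotoneOn Fr.q (Icc 0 1) ∧ (∀ v ∈ Icc (0 : ℝ) 1, Fr.q v ∈ Icc (0 : ℝ) 1) ∧ IntervalIntegrable Fr.d volume 0 1 := by
  obtain ⟨Na, ha⟩ := hr
  obtain ⟨ca, Ca, hca, Nb, hb⟩ := h3.adm
  refine ⟨max Na Nb, fun Fr hF => ?_⟩
  obtain ⟨hFam, hO, hN⟩ := hF
  obtain ⟨p, hd, hp, hs, hdy, eN, el, eu, eell, eK, eq, ed, eb, eh, ecu⟩ := bi43_unf hFam
  have hNa : Na ≤ p.N := by rw [← eN]; exact (le_max_left _ _).trans hN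
  have hNb : Nb ≤ p.N := by rw [← eN]; exact (le_max_right _ _).trans hN
  have hR := ha p hp hNa
  obtain ⟨-, -, -, -, mq, bd, -, -⟩ := hb p hp hNb
  obtain ⟨-, mh0, mhS0, -, -, -, -, -⟩ := hb (p.loc hd 0 0) (bi43_loc_ok hp hd ⟨by norm_num, by norm_num⟩) hNb
  rw [bi43_a hs] at mq bd
  rw [bi43_loc_a hs] at mh0 mhS0
  have hl0 : 0 < p.ell := by linarith [hp.ell1]
  have hmap : ∀ w ∈ Icc (0 : ℝ) 1, p.ell * w ∈ Icc 0 p.ell := fun w hw =>
    ⟨mul_nonneg hl0.le hw.1, by nlinarith [hw.2]⟩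
  have hmm : ∀ f : ℝ → ℝ, MonotoneOn f (Icc 0 p.ell) → MonotoneOn (fun w => f (p.ell * w)) (Icc 0 1) :=
    fun f hf x hx y hy hxy => hf (hmap x hx) (hmap y hy) (mul_le_mul_of_nonneg_left hxy hl0.le)
  refine ⟨?_, ?_, ?_⟩
  · rw [eq]; exact hmm _ mq
  · intro v hv
    rw [eq]
    have hK : 0 ≤ p.K Fx llBase (p.ell * v) := (bd _ (hmap v hv)).2.2.2.2
    constructor
    · have h1 := hR.gam_ftc 0 _ le_rfl hK
      rw [hR.gam_zero, sub_zero] at h1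
      show 0 ≤ p.Gam Fx llBase (p.K Fx llBase (p.ell * v))
      rw [h1]
      exact intervalIntegral.integral_nonneg hK fun t ht => (hR.g1_pos t ht.1).le
    · exact hR.gam_le _ hK
  · rw [ed]
    have i1 : IntervalIntegrable (fun w => (p.loc hd 0 0).h Fx llBase (p.ell * w)) volume 0 1 :=
      MonotoneOn.intervalIntegrable (by rw [uIcc_of_le zero_le_one]; exact hmm _ mh0)
    have i2 : IntervalIntegrable (fun w => (p.loc hd 0 0).hS Fx llBase (p.ell * w)) volume 0 1 :=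
      MonotoneOn.intervalIntegrable (by rw [uIcc_of_le zero_le_one]; exact hmm _ mhS0)
    exact (i1.sub i2).const_mul (p.ell ^ 2)

/-- **PRODUCER of `BdFr.Base`**: admissibility of the bare clocks (`LlAdm`), matrix margin `C(0) = u² Λ ≤ b`.      OWNER helper162 -/
theorem bi_base (h3 : LlSec3 llBase Fx) (hf : BiFix Fx X K c C v0 sg Cu) :
    ∃ N0 : ℕ, ∀ Fr, BiFam Fx X N0 Fr → ∀ g ∈ Icc (X.glo 0) (X.ghi 0), Fr.Base X skWorld g := by
  obtain ⟨ca, Ca, hca, Nb, hb⟩ := h3.adm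
  obtain ⟨Nc, hc⟩ := bi43_lam_small hf.ok (ε := ca) (e := 0.03) hca (by norm_num)
  refine ⟨max Nb Nc, fun Fr hF g hg => ?_⟩
  obtain ⟨hFam, hO, hN⟩ := hF
  obtain ⟨p, hd, hp, hs, hdy, eN, el, eu, eell, eK, eq, ed, eb, eh, ecu⟩ := bi43_unf hFam
  have hNb : Nb ≤ p.N := by rw [← eN]; exact (le_max_left _ _).trans hN
  obtain ⟨mb, mh, -, -, -, bd, -, -⟩ :=
    hb (p.loc hd g 0) (bi43_loc_ok hp hd ⟨hf.g_lo.trans hg.1, hg.2.trans hf.g_hi⟩) hNb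
  rw [bi43_loc_a hs] at mb mh bd
  have hl0 : 0 < p.ell := by linarith [hp.ell1]
  refine ⟨skWorld_isHub.a1 _, ?_, ?_, ?_⟩
  · rw [eb]; exact bi43_clock hl0 mb fun v hv => hca.le.trans (bd v hv).1
  · rw [eh]; exact bi43_clock hl0 mh fun v hv => (bd v hv).2.2.1
  · intro v hv
    have hC0 : 0 ≤ Fr.C0 := (bud_gb_C0_pos hf.ok hO).le
    have h1 : Fr.C X 0 ≤ Fr.C0 := by
      show Fr.C0 * cmF _ ≤ Fr.C0
      exact mul_le_of_le_one_right hC0 (cm_f_le_one _)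
    have h2 : Fr.C0 ≤ ca := by
      have hu1 := BdFr.bds_u_le_one hO hf.ok
      have hu0 := (BdFr.bds_u_pos hO hf.ok).le
      have hL : Fr.Lam ≤ ca := hc Fr hO ((le_max_right _ _).trans hN)
      have hL0 := (bud_gb_Lam_pos hO).le
      have hu2 : Fr.u ^ 2 ≤ 1 := pow_le_one₀ hu0 hu1
      calc Fr.C0 = Fr.u ^ 2 * Fr.Lam := rfl
        _ ≤ 1 * Fr.Lam := mul_le_mul_of_nonneg_right hu2 hL0
        _ ≤ ca := by rw [one_mul]; exact hL
    have hm : p.ell * v ∈ Icc 0 p.ell := ⟨mul_nonneg hl0.le hv.1.le, by nlinarith [hv.2]⟩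
    have h3' : ca ≤ (p.loc hd g 0).b Fx llBase (p.ell * v) := (bd _ hm).1
    have h4 : (p.loc hd g 0).b Fx llBase (p.ell * v) ≤ p.ell ^ 2 * (p.loc hd g 0).b Fx llBase (p.ell * v) := by
      have : 1 ≤ p.ell ^ 2 := one_le_pow₀ hp.ell1
      exact le_mul_of_one_le_left (hca.le.trans h3') this
    rw [eb]
    exact h1.trans (h2.trans (h3'.trans h4))

/-- the quantile of a feasible element is monotone -/
theorem bi_r_mono (hX : X.Ok) {Fr : BdFr} (hO : Fr.Ok X) (Q : BdQ Fr X) : MonotoneOn Q.r (Icc 0 1) := by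
  have hal : ∀ r1 r2 : ℝ, 0 ≤ r1 → r1 ≤ r2 → r2 ≤ 1 → Q.al r1 ≤ Q.al r2 := by
    intro r1 r2 h1 h12 h2
    have h := Q.lo r1 r2 h1 h12 h2
    have h0 : 0 ≤ ∫ t in r1..r2, Fr.kbar X t := by
      refine intervalIntegral.integral_nonneg h12 fun t ht => ?_
      unfold BdFr.kbar
      have hk : 0 < Fr.k X t := bud_gb_k_pos (Fr.call X) (bud_gb_N_pos hO) (bud_gb_us_pos hX hO) (h1.trans ht.1)
      split_ifs
      · exact add_nonneg hk.le hO.kap0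
      · simpa using hk.le
    linarith
  intro v1 hv1 v2 hv2 h12
  by_contra hlt
  push Not at hlt
  have h1 := Q.r_mem v1 hv1
  have h2 := Q.r_mem v2 hv2
  have h3 := hal (Q.r v2) (Q.r v1) h2.1 hlt.le h1.2
  rw [Q.al_r v1 hv1, Q.al_r v2 hv2] at h3
  have h4 : v1 = v2 := le_antisymm h12 h3
  rw [h4] at hlt
  exact lt_irrefl _ hlt

/-- the changed clocks are clocks: `-C(r(v))` and `C(r) r` are nondecreasing (profile lemmas of 192), `b - C(r) ≥ b - C(0) ≥ 0`.      OWNER helper162 (proved helper27) -/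
theorem bi_clk (hX : X.Ok) {Fr : BdFr} (hO : Fr.Ok X) {W : BdWorld} {g : ℝ} (hB : Fr.Base X W g) (Q : BdQ Fr X) :
    IsClock 1 (Q.bq g) ∧ IsClock 1 (Q.hq g) := by
  have hr := bi_r_mono hX hO Q
  have hd := bud_gb_d_pos hX hO
  have hC0 := (bud_gb_C0_pos hX hO).le
  have hanti : Antitone (Fr.C X) := cm_e_anti (Fr.call X) hd hC0
  have hre : MonotoneOn (fun r => r * Fr.C X r) (Ici 0) := cm_re_mono (Fr.call X) hd hC0
  have hsub : Ioo (0 : ℝ) 1 ⊆ Icc 0 1 := Ioo_subset_Icc_self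
  obtain ⟨Cb, hCb⟩ := hB.hb.bdd
  obtain ⟨Ch, hCh⟩ := hB.hh.bdd
  refine ⟨⟨?_, ?_, ⟨Cb, ?_⟩⟩, ⟨?_, ?_, ⟨Ch + Fr.C X 0, ?_⟩⟩⟩
  · intro v1 h1 v2 h2 h12
    have e1 := hB.hb.mono h1 h2 h12
    have e2 := hanti (hr (hsub h1) (hsub h2) h12)
    unfold BdQ.bq
    linarith
  · intro v hv
    have e1 := hB.marg v hv
    have e2 := hanti (Q.r_mem v (hsub hv)).1
    unfold BdQ.bq
    linarith
  · intro v hv
    have e1 := hCb v hv
    have e2 := bud_gb_C_pos hX hO (Q.r v)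
    unfold BdQ.bq
    linarith
  · intro v1 h1 v2 h2 h12
    have e1 := hB.hh.mono h1 h2 h12
    have e2 := hre (Q.r_mem v1 (hsub h1)).1 (Q.r_mem v2 (hsub h2)).1 (hr (hsub h1) (hsub h2) h12)
    simp only at e2
    unfold BdQ.hq
    linarith
  · intro v hv
    have e1 := hB.hh.nonneg v hv
    have e2 := bud_gb_C_pos hX hO (Q.r v)
    have e3 := (Q.r_mem v (hsub hv)).1
    unfold BdQ.hq
    positivity
  · intro v hv
    have e1 := hCh v hv
    have e2 := bud_gb_C_pos hX hO (Q.r v)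
    have e3 := Q.r_mem v (hsub hv)
    have e4 := hanti e3.1
    unfold BdQ.hq
    nlinarith [e3.1, e3.2]

/-- the scalar clock starts at `0` -/
theorem bi43_K0 {p : LlPt} (hs : p.sm = false) (hp : p.Ok Fx) (hFx : Fx.Ok) : p.K Fx llBase 0 = 0 := by
  have hA : 0 ≤ p.Aprof Fx llBase 0 := by
    have e : p.Aprof Fx llBase = p.Adir Fx llBase := by simp [LlPt.Aprof, hs]
    rw [e]
    have h1 : 0 ≤ llBase.A0 Fx.T 0 := ENNReal.toReal_nonneg
    have h2 := (hFx.P_nn 0 le_rfl).1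
    have h3 : 0 ≤ p.lam := (Real.rpow_nonneg (Real.rpow_nonneg (Nat.cast_nonneg _) _) _).trans hp.lam_lo
    exact add_nonneg h1 (mul_nonneg h3 h2)
  have hL : IsLeast {ξ : ℝ | 0 ≤ ξ ∧ (0 : ℝ) / p.ell ≤ p.Aprof Fx llBase ξ} 0 :=
    ⟨⟨le_rfl, by rw [zero_div]; exact hA⟩, fun ξ hξ => hξ.1⟩
  unfold LlPt.K LlPt.xi llInv
  rw [hL.csInf_eq, mul_zero]

/-- increments of the reference `q` near `0` -/
theorem bi43_q_incr {p : LlPt} (hs : p.sm = false) (hp : p.Ok Fx) (hc : 0 < c) (hR : p.Ref Fx llBase c C v0)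
    (hK0 : p.K Fx llBase 0 = 0) {v1 : ℝ} (hv10 : v1 ≤ v0) (hv11 : v1 < 1)
    (hlam : C * p.lam * (C * v1) ^ 2 ≤ 1 / 2) (v v' : ℝ) (h0 : 0 ≤ v) (hvv : v ≤ v') (hv' : v' ≤ v1) :
    c / (2 * C) * (v' - v) ≤ p.q Fx llBase v' - p.q Fx llBase v ∧ p.q Fx llBase v' - p.q Fx llBase v ≤ C / c * (v' - v) := by
  have hC : 0 < C := hc.trans_le (hR.b0_lo.trans hR.b0_hi)
  have hb0 : 0 < p.b0 Fx llBase := hc.trans_le hR.b0_lo
  have hl0 : 0 ≤ p.lam := (Real.rpow_nonneg (Real.rpow_nonneg (Nat.cast_nonneg _) _) _).trans hp.lam_lo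
  rcases eq_or_lt_of_le (h0.trans hvv) with e0 | hpos
  · have e1 : v = 0 := le_antisymm (by rw [e0]; exact hvv) h0
    rw [← e0, e1]; simp
  -- increments of `K`
  have hKinc : c * (v' - v) ≤ p.K Fx llBase v' - p.K Fx llBase v ∧ p.K Fx llBase v' - p.K Fx llBase v ≤ C * (v' - v) := by
    rcases eq_or_lt_of_le h0 with e | hv
    · rw [← e, hK0, sub_zero, sub_zero]
      exact ⟨hR.K_lo0 v' hpos (hv'.trans hv10), hR.K_hi0 v' hpos (hv'.trans hv10)⟩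
    · exact ⟨hR.K_lo v v' hv hvv (hv'.trans hv10), hR.K_hi v v' hv hvv (hv'.trans hv10)⟩
  have hKv : 0 ≤ p.K Fx llBase v := by
    rcases eq_or_lt_of_le h0 with e | hv
    · rw [← e, hK0]
    · exact (mul_nonneg hc.le hv.le).trans (hR.K_lo0 v hv ((hvv.trans hv').trans hv10))
  have hKle : p.K Fx llBase v ≤ p.K Fx llBase v' := by
    have := mul_nonneg hc.le (sub_nonneg.2 hvv); linarith [hKinc.1]
  have hKv' : p.K Fx llBase v' ≤ C * v1 :=
    (hR.K_hi0 v' hpos (hv'.trans hv10)).trans (mul_le_mul_of_nonneg_left hv' hC.le)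
  have hmem : v' ∈ Ioo 0 p.a := by
    rw [bi43_a hs]; exact ⟨hpos, by linarith [hp.ell1]⟩
  have hKtop : p.ell ^ 2 * p.K Fx llBase v' ≤ llBase.xiS Fx.T := by
    have := hR.K_top v' hmem
    simpa [hs] using this
  -- bounds of `Γ'`
  have hG : ∀ s ∈ Icc (p.K Fx llBase v) (p.K Fx llBase v'), 1 / (2 * C) ≤ p.Gam1 Fx llBase s ∧ p.Gam1 Fx llBase s ≤ 1 / c := by
    intro s hs'
    have hs0 : 0 ≤ s := hKv.trans hs'.1
    have g1 : 0 ≤ p.gap Fx llBase s :=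
      (mul_nonneg (mul_nonneg hc.le hl0) (le_min (sq_nonneg _) zero_le_one)).trans (hR.gap_lo s hs0)
    have g2 : p.gap Fx llBase s ≤ 1 / 2 := by
      have h1 : p.ell ^ 2 * s ≤ llBase.xiS Fx.T :=
        (mul_le_mul_of_nonneg_left hs'.2 (sq_nonneg _)).trans hKtop
      have h2 : s ^ 2 ≤ (C * v1) ^ 2 := pow_le_pow_left₀ hs0 (hs'.2.trans hKv') 2
      exact ((hR.gap_hi s hs0 h1).trans (mul_le_mul_of_nonneg_left h2 (mul_nonneg hC.le hl0))).trans hlam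
    have e : p.b0 Fx llBase * p.Gam1 Fx llBase s = 1 - p.gap Fx llBase s := by unfold LlPt.gap; ring
    have hGp := hR.g1_pos s hs0
    constructor
    · rw [div_le_iff₀ (by positivity)]
      have : p.b0 Fx llBase * p.Gam1 Fx llBase s ≤ C * p.Gam1 Fx llBase s := mul_le_mul_of_nonneg_right hR.b0_hi hGp.le
      nlinarith
    · rw [le_div_iff₀ hc]
      have : c * p.Gam1 Fx llBase s ≤ p.b0 Fx llBase * p.Gam1 Fx llBase s := mul_le_mul_of_nonneg_right hR.b0_lo hGp.le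
      nlinarith
  have hint : IntervalIntegrable (p.Gam1 Fx llBase) volume (p.K Fx llBase v) (p.K Fx llBase v') :=
    (hR.g1_cont.mono fun s hs' => mem_Ici.2 (hKv.trans hs'.1)).intervalIntegrable_of_Icc hKle
  have hq : p.q Fx llBase v' - p.q Fx llBase v = ∫ s in (p.K Fx llBase v)..(p.K Fx llBase v'), p.Gam1 Fx llBase s :=
    hR.gam_ftc _ _ hKv hKle
  have i1 : (∫ _s in (p.K Fx llBase v)..(p.K Fx llBase v'), (1 / (2 * C) : ℝ)) ≤ ∫ s in (p.K Fx llBase v)..(p.K Fx llBase v'), p.Gam1 Fx llBase s :=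
    intervalIntegral.integral_mono_on hKle intervalIntegrable_const hint fun s hs' => (hG s hs').1
  have i2 : (∫ s in (p.K Fx llBase v)..(p.K Fx llBase v'), p.Gam1 Fx llBase s) ≤ ∫ _s in (p.K Fx llBase v)..(p.K Fx llBase v'), (1 / c : ℝ) :=
    intervalIntegral.integral_mono_on hKle hint intervalIntegrable_const fun s hs' => (hG s hs').2
  rw [intervalIntegral.integral_const, smul_eq_mul] at i1 i2
  rw [hq]
  constructor
  · refine le_trans ?_ i1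
    have : c * (v' - v) * (1 / (2 * C)) ≤ (p.K Fx llBase v' - p.K Fx llBase v) * (1 / (2 * C)) :=
      mul_le_mul_of_nonneg_right hKinc.1 (by positivity)
    calc c / (2 * C) * (v' - v) = c * (v' - v) * (1 / (2 * C)) := by ring
      _ ≤ _ := this
  · refine le_trans i2 ?_
    have : (p.K Fx llBase v' - p.K Fx llBase v) * (1 / c) ≤ C * (v' - v) * (1 / c) :=
      mul_le_mul_of_nonneg_right hKinc.2 (by positivity)
    calc (p.K Fx llBase v' - p.K Fx llBase v) * (1 / c) ≤ C * (v' - v) * (1 / c) := this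
      _ = C / c * (v' - v) := by ring

/-- the generalised inverse of a bi-Lipschitz function is its inverse -/
theorem bi43_inv {φ : ℝ → ℝ} {s1 lo hi : ℝ} (hs1 : 0 ≤ s1) (hlo : 0 < lo) (h0 : φ 0 = 0)
    (hL : ∀ s s', 0 ≤ s → s ≤ s' → s' ≤ s1 → lo * (s' - s) ≤ φ s' - φ s ∧ φ s' - φ s ≤ hi * (s' - s))
    {r : ℝ} (hr0 : 0 ≤ r) (hr : r ≤ φ s1) : bdInv φ r ∈ Icc 0 s1 ∧ φ (bdInv φ r) = r := by
  have hcont : ContinuousOn φ (Icc 0 s1) := by
    have hLip : LipschitzOnWith (Real.toNNReal |hi|) φ (Icc 0 s1) := by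
      refine LipschitzOnWith.of_dist_le_mul fun x hx y hy => ?_
      rw [Real.dist_eq, Real.dist_eq, Real.coe_toNNReal _ (abs_nonneg _)]
      rcases le_total x y with h | h
      · have a := hL x y hx.1 h hy.2
        have b : 0 ≤ lo * (y - x) := mul_nonneg hlo.le (by linarith)
        rw [abs_sub_comm, abs_of_nonneg (by linarith : 0 ≤ φ y - φ x), abs_sub_comm x y, abs_of_nonneg (by linarith : 0 ≤ y - x)]
        exact a.2.trans (mul_le_mul_of_nonneg_right (le_abs_self _) (by linarith))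
      · have a := hL y x hy.1 h hx.2
        have b : 0 ≤ lo * (x - y) := mul_nonneg hlo.le (by linarith)
        rw [abs_of_nonneg (by linarith : 0 ≤ φ x - φ y), abs_of_nonneg (by linarith : 0 ≤ x - y)]
        exact a.2.trans (mul_le_mul_of_nonneg_right (le_abs_self _) (by linarith))
    exact hLip.continuousOn
  obtain ⟨s, hs, hφ⟩ : r ∈ φ '' Icc 0 s1 := intermediate_value_Icc hs1 hcont ⟨by rw [h0]; exact hr0, hr⟩
  have hleast : IsLeast {t : ℝ | 0 ≤ t ∧ r ≤ φ t} s := by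
    refine ⟨⟨hs.1, hφ.ge⟩, fun t ht => ?_⟩
    by_contra hlt
    rw [not_le] at hlt
    have a := (hL t s ht.1 hlt.le hs.2).1
    have b : 0 < lo * (s - t) := mul_pos hlo (by linarith)
    linarith [ht.2]
  have e : bdInv φ r = s := hleast.csInf_eq
  rw [e]
  exact ⟨hs, hφ⟩

/-- slopes of `β_0 = q⁻¹` on `[0, c_I u]` (`LlPt.Ref`: `K_lo K_hi gam_ftc gap_lo gap_hi b0_lo b0_hi`).      OWNER helper162 -/
theorem bi_beta (hr : LlRef llBase Fx c C v0) (h3 : LlSec3 llBase Fx) (hf : BiFix Fx X K c C v0 sg Cu) :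
    ∃ N0 : ℕ, ∀ Fr, BiFam Fx X N0 Fr →
      (∀ r1 r2 : ℝ, 0 ≤ r1 → r1 ≤ r2 → r2 ≤ X.cI * Fr.u →
        K.cb * (r2 - r1) ≤ Fr.beta0 r2 - Fr.beta0 r1 ∧ Fr.beta0 r2 - Fr.beta0 r1 ≤ K.Cb * (r2 - r1)) ∧ Fr.beta0 0 = 0 := by
  have hc := hf.c_pos
  have hC : 0 < C := hc.trans_le hf.c_le
  obtain ⟨v1, hv1⟩ : ∃ v1 : ℝ, v1 = min v0 (1 / 2) := ⟨_, rfl⟩
  have hv1p : 0 < v1 := by rw [hv1]; exact lt_min hf.v0_pos (by norm_num)
  have hv10 : v1 ≤ v0 := by rw [hv1]; exact min_le_left _ _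
  have hv11 : v1 < 1 := by rw [hv1]; exact lt_of_le_of_lt (min_le_right _ _) (by norm_num)
  obtain ⟨Na, ha⟩ := hr
  obtain ⟨Nb, hb⟩ := bi43_lam_small hf.ok (ε := 1 / (2 * (C * (C * v1) ^ 2))) (e := 1) (by positivity) one_pos
  obtain ⟨Nc, hcc⟩ := bi43_lam_small hf.ok (ε := c * v1 / X.cI) (div_pos (mul_pos hc hv1p) hf.ok.cI_pos) hf.ok.bl_pos
  refine ⟨max Na (max Nb Nc), fun Fr hF => ?_⟩
  obtain ⟨hFam, hO, hN⟩ := hF
  obtain ⟨p, hd, hp, hs, hdy, eN, el, eu, eell, eK, eq, ed, eb, eh, ecu⟩ := bi43_unf hFam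
  have hR := ha p hp (by rw [← eN]; exact (le_max_left _ _).trans hN)
  have hlam : C * p.lam * (C * v1) ^ 2 ≤ 1 / 2 := by
    have h1 := hb Fr hO ((le_max_left _ _).trans ((le_max_right _ _).trans hN))
    rw [Real.rpow_one, el, le_div_iff₀ (by positivity)] at h1
    linarith
  have hu : X.cI * Fr.u ≤ c * v1 := by
    have h1 := hO.u_hi.trans (hcc Fr hO ((le_max_right _ _).trans ((le_max_right _ _).trans hN)))
    rw [le_div_iff₀ hf.ok.cI_pos] at h1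
    linarith
  have hK0 := bi43_K0 hs hp hf.fx
  have hl1 : 1 ≤ p.ell := hp.ell1
  have hl0 : 0 < p.ell := by linarith
  have hl2 : p.ell ≤ 2 := by
    have := bi43_ell_sq hp.ell1 hp.ell2
    nlinarith
  have hq0 : Fr.q 0 = 0 := by
    rw [eq]
    show p.Gam Fx llBase (p.K Fx llBase (p.ell * 0)) = 0
    rw [mul_zero, hK0, hR.gam_zero]
  have hs1 : 0 ≤ v1 / p.ell := by positivity
  have hL : ∀ s s', 0 ≤ s → s ≤ s' → s' ≤ v1 / p.ell →
      c / (2 * C) * (s' - s) ≤ Fr.q s' - Fr.q s ∧ Fr.q s' - Fr.q s ≤ 2 * C / c * (s' - s) := by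
    intro s s' h0 hss hs'
    have h1 := bi43_q_incr hs hp hc hR hK0 hv10 hv11 hlam (p.ell * s) (p.ell * s') (mul_nonneg hl0.le h0)
      (mul_le_mul_of_nonneg_left hss hl0.le) (by rw [le_div_iff₀ hl0] at hs'; linarith)
    rw [eq]
    have hd0 : 0 ≤ s' - s := by linarith
    have e : p.ell * s' - p.ell * s = p.ell * (s' - s) := by ring
    rw [e] at h1
    have k1 : 0 ≤ c / (2 * C) := by positivity
    have k2 : 0 ≤ C / c := by positivity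
    constructor
    · refine le_trans ?_ h1.1
      exact mul_le_mul_of_nonneg_left (le_mul_of_one_le_left hd0 hl1) k1
    · refine le_trans h1.2 ?_
      calc C / c * (p.ell * (s' - s)) ≤ C / c * (2 * (s' - s)) :=
            mul_le_mul_of_nonneg_left (mul_le_mul_of_nonneg_right hl2 hd0) k2
        _ = 2 * C / c * (s' - s) := by ring
  have htop : c * v1 ≤ Fr.q (v1 / p.ell) := by
    rw [eq]
    show c * v1 ≤ p.q Fx llBase (p.ell * (v1 / p.ell))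
    rw [mul_div_cancel₀ _ hl0.ne']
    exact hR.q_lo v1 (by rw [bi43_a hs]; exact ⟨hv1p, by linarith⟩)
  have hinv : ∀ r, 0 ≤ r → r ≤ X.cI * Fr.u → Fr.beta0 r ∈ Icc 0 (v1 / p.ell) ∧ Fr.q (Fr.beta0 r) = r := fun r h0 h1 =>
    bi43_inv hs1 (by positivity) hq0 hL h0 ((h1.trans hu).trans htop)
  constructor
  · intro r1 r2 h0 h12 h2
    obtain ⟨m1, e1⟩ := hinv r1 h0 (h12.trans h2)
    obtain ⟨m2, e2⟩ := hinv r2 (h0.trans h12) h2
    have hle : Fr.beta0 r1 ≤ Fr.beta0 r2 := by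
      by_contra hlt
      rw [not_le] at hlt
      have a := (hL _ _ m2.1 hlt.le m1.2).1
      rw [e1, e2] at a
      have b : 0 < c / (2 * C) * (Fr.beta0 r1 - Fr.beta0 r2) := mul_pos (by positivity) (by linarith)
      linarith
    have a := hL _ _ m1.1 hle m2.2
    rw [e1, e2] at a
    have hd0 : 0 ≤ r2 - r1 := by linarith
    constructor
    · refine (mul_le_mul_of_nonneg_right hf.cb_le hd0).trans ?_
      have := a.2
      rw [div_mul_eq_mul_div, le_div_iff₀ hc] at this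
      rw [div_mul_eq_mul_div, div_le_iff₀ (by positivity)]
      linarith
    · refine le_trans ?_ (mul_le_mul_of_nonneg_right hf.Cb_ge hd0)
      have := a.1
      rw [div_mul_eq_mul_div, div_le_iff₀ (by positivity)] at this
      rw [div_mul_eq_mul_div, le_div_iff₀ hc]
      linarith
  · have hleast : IsLeast {t : ℝ | 0 ≤ t ∧ (0 : ℝ) ≤ Fr.q t} 0 := ⟨⟨le_rfl, hq0.ge⟩, fun t ht => ht.1⟩
    exact hleast.csInf_eq

/-- the removal profile is constant on `[0, c_I u]`: `C0 r / d_PE³ = r/(c_d³ u) ≤ 1`.      OWNER helper162 -/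
theorem bi_cconst (hX : X.Ok) (hcd : X.cI ≤ X.cd ^ 3) {Fr : BdFr} (hO : Fr.Ok X) :
    ∀ r ∈ Icc (0 : ℝ) (X.cI * Fr.u), Fr.C X r = Fr.C0 := fun _ hr =>
  bud_gb_C_flat hX hO (hr.2.trans (mul_le_mul_of_nonneg_right hcd (BdFr.bds_u_pos hO hX).le))

/-- the direction `c_u`: support and size.      OWNER helper162 -/
theorem bi_cu (hr : LlRef llBase Fx c C v0) (hf : BiFix Fx X K c C v0 sg Cu) :
    ∃ N0 : ℕ, ∀ Fr, BiFam Fx X N0 Fr →
      (∀ v ∈ Icc (0 : ℝ) 1, Fr.cu v ≠ 0 → (X.qlo (X.J + 1) + sg) * Fr.u ≤ Fr.q v ∧ Fr.q v ≤ (X.qhi (X.J + 1) - sg) * Fr.u) ∧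
      ∀ v ∈ Icc (0 : ℝ) 1, Fr.cu v ≤ Cu * Fr.lam * Fr.u ^ 2 := by
  obtain ⟨Na, ha⟩ := hr
  obtain ⟨Nb, hb⟩ := bi43_lam_small hf.ok (ε := 1 / 8) (by norm_num) hf.ok.bl_pos
  refine ⟨max Na Nb, fun Fr hF => ?_⟩
  obtain ⟨hFam, hO, hN⟩ := hF
  obtain ⟨p, hd, hp, hs, hdy, eN, el, eu, eell, eK, eq, ed, eb, eh, ecu⟩ := bi43_unf hFam
  have hR := ha p hp (by rw [← eN]; exact (le_max_left _ _).trans hN)
  have hu8 : Fr.u ≤ 1 / 8 := hO.u_hi.trans (hb Fr hO ((le_max_right _ _).trans hN))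
  have hu0 : 0 < Fr.u := BdFr.bds_u_pos hO hf.ok
  have hl0 : 0 < Fr.lam := BdFr.bds_lam_pos hO
  have hell1 : 1 ≤ p.ell := hp.ell1
  have hcu : ∀ v, Fr.cu v = p.ell ^ 2 * (Fx.cb * Fr.lam * Fx.c1 * Fr.u ^ 2 * Fx.phi (p.ell * v / Fr.u)) := by
    intro v; rw [ecu, el, eu]; rfl
  constructor
  · intro v hv hne
    have hphi : Fx.phi (p.ell * v / Fr.u) ≠ 0 := by
      intro h0; apply hne; rw [hcu, h0]; ring
    have hmem : p.ell * v / Fr.u ∈ Icc (1 / 2 : ℝ) 4 := by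
      by_contra hcon; exact hphi (hf.fx.phi_supp _ hcon)
    have h1 : Fr.u / 2 ≤ p.ell * v := by
      have := hmem.1; rw [le_div_iff₀ hu0] at this; linarith
    have h2 : p.ell * v ≤ 4 * Fr.u := by
      have := hmem.2; rwa [div_le_iff₀ hu0] at this
    have hIoo : p.ell * v ∈ Ioo 0 p.a := by
      rw [bi43_a hs]; constructor <;> linarith
    have q1 := hR.q_lo _ hIoo
    have q2 := hR.q_hi _ hIoo
    have hq : Fr.q v = p.q Fx llBase (p.ell * v) := by rw [eq]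
    rw [hq]
    constructor
    · calc (X.qlo (X.J + 1) + sg) * Fr.u ≤ c / 2 * Fr.u := mul_le_mul_of_nonneg_right hf.q_lo hu0.le
        _ = c * (Fr.u / 2) := by ring
        _ ≤ c * (p.ell * v) := mul_le_mul_of_nonneg_left h1 hf.c_pos.le
        _ ≤ _ := q1
    · calc p.q Fx llBase (p.ell * v) ≤ C * (p.ell * v) := q2
        _ ≤ C * (4 * Fr.u) := mul_le_mul_of_nonneg_left h2 (hf.c_pos.le.trans hf.c_le)
        _ = 4 * C * Fr.u := by ring
        _ ≤ _ := mul_le_mul_of_nonneg_right hf.q_hi hu0.le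
  · intro v hv
    rw [hcu]
    have h2 : p.ell ^ 2 ≤ 2 := bi43_ell_sq hp.ell1 hp.ell2
    have hphi := hf.fx.phi_nn (p.ell * v / Fr.u)
    have hC := hf.Cu_ge (p.ell * v / Fr.u)
    have hcc : 0 ≤ Fx.cb * Fx.c1 * Fx.phi (p.ell * v / Fr.u) :=
      mul_nonneg (mul_nonneg hf.fx.cb0.le hf.fx.c10.le) hphi
    have h3 : p.ell ^ 2 * (Fx.cb * Fx.c1 * Fx.phi (p.ell * v / Fr.u)) ≤ Cu := by
      refine le_trans (mul_le_mul_of_nonneg_right h2 hcc) ?_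
      linarith
    have h4 : 0 ≤ Fr.lam * Fr.u ^ 2 := by positivity
    calc p.ell ^ 2 * (Fx.cb * Fr.lam * Fx.c1 * Fr.u ^ 2 * Fx.phi (p.ell * v / Fr.u))
        = p.ell ^ 2 * (Fx.cb * Fx.c1 * Fx.phi (p.ell * v / Fr.u)) * (Fr.lam * Fr.u ^ 2) := by ring
      _ ≤ Cu * (Fr.lam * Fr.u ^ 2) := mul_le_mul_of_nonneg_right h3 h4
      _ = Cu * Fr.lam * Fr.u ^ 2 := by ring

/-- only the path data matter -/
theorem bi_box {N0 : ℕ} (F F' : BdFr) (hF : BiFam Fx X N0 F) (hO : F'.Ok X)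
    (he : { F' with st := F.st, kap := F.kap, Ilo := F.Ilo, Ihi := F.Ihi } = F) : BiFam Fx X N0 F' := by
  obtain ⟨⟨p, hd, hp, hsm, hdy, hFe⟩, -, hN⟩ := hF
  have hN' : F'.N = F.N := by rw [← he]
  refine ⟨⟨p, hd, hp, hsm, hdy, ?_⟩, hO, hN' ▸ hN⟩
  have hm : F'.m = F.m := by rw [← he]
  rw [hFe] at he
  cases F'
  simp only [btFr, BdFr.mk.injEq] at he ⊢
  tauto

theorem bi_fam_mono {N0 N1 : ℕ} (h : N0 ≤ N1) {Fr : BdFr} (hF : BiFam Fx X N1 Fr) : BiFam Fx X N0 Fr :=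
  ⟨hF.1, hF.2.1, h.trans hF.2.2⟩

/-! ## 3. The scalar tie -/

/-- **the scalar response of the world is the response of the scalar model** `llMod` at the distribution function of the clock (B03 S8 for `Γ`; companion of `llMod_link`).      PROVED (162) from `sb7_gam` (265), `llMod_id`, `lsc_id_Gam` (68) -/
theorem bi_gam_link (Kc : ℝ → ℝ) (hK : IsClock 1 Kc) (t : ℝ) (ht : 0 ≤ t) : bmGam Kc t = llMod.Gam (llDist 1 Kc) 1 t := by
  obtain ⟨B, hB⟩ := hK.bdd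
  have hτ : (0 : ℝ) < max (max B t) 1 := lt_of_lt_of_le one_pos (le_max_right _ _)
  have hKτ : ∀ v ∈ Ioo (0 : ℝ) 1, Kc v ≤ max (max B t) 1 := fun v hv =>
    (hB v hv).trans ((le_max_left _ _).trans (le_max_left _ _))
  have htτ : t ≤ max (max B t) 1 := (le_max_right _ _).trans (le_max_left _ _)
  rw [sb7_gam hK hKτ ht htτ hτ]
  have hprof : LscProf 1 (max (max B t) 1) (llDist 1 Kc) :=
    { mono := (slc_alK_mono 1 Kc).monotoneOn _
      nonneg := slc_alK_nonneg 1 Kc 0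
      top := fun ξ hξ => by
        have e : {v : ℝ | v ∈ Ioo 0 1 ∧ Kc v ≤ ξ} = Ioo 0 1 := by
          ext v
          exact ⟨fun h => h.1, fun h => ⟨h, (hKτ v h).trans hξ⟩⟩
        unfold llDist
        rw [e, Real.volume_Ioo, sub_zero, ENNReal.toReal_ofReal zero_le_one]
      Xi0 := hτ.le }
  exact (lsc_id_Gam llMod_id one_pos hprof le_rfl ⟨ht, htτ⟩).symm

/-- `scDy` reads the profile on `[0,τ)` only -/
theorem bi43_dy_congr {α α' : ℝ → ℝ} {τ : ℝ} (hτ : 0 < τ) (h : ∀ t ∈ Ico 0 τ, α t = α' t) (n : ℕ) :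
    scDy α τ n = scDy α' τ n := by
  unfold scDy
  apply List.map_congr_left
  intro k hk
  rw [List.mem_range] at hk
  have hm : (k : ℝ) * τ / 2 ^ n ∈ Ico 0 τ := by
    constructor
    · positivity
    · rw [div_lt_iff₀ (by positivity)]
      have : (k : ℝ) < 2 ^ n := by exact_mod_cast hk
      nlinarith
  rw [h _ hm]

/-- the response of the scalar model reads the profile on `[0,∞)` only -/
theorem bi43_gam_congr {A A' : ℝ → ℝ} {Ξ : ℝ} (hA : LscProf 1 Ξ A) (hA' : LscProf 1 Ξ A') (h : ∀ ξ, 0 ≤ ξ → A ξ = A' ξ)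
    {t : ℝ} (ht : 0 ≤ t) : llMod.Gam A 1 t = llMod.Gam A' 1 t := by
  obtain ⟨R, hR⟩ : ∃ R : ℝ, R = max (max Ξ t) 1 := ⟨_, rfl⟩
  have h1 : Ξ ≤ R := by rw [hR]; exact (le_max_left _ _).trans (le_max_left _ _)
  have h2 : t ≤ R := by rw [hR]; exact (le_max_right _ _).trans (le_max_left _ _)
  have h3 : 0 < R := by rw [hR]; exact lt_of_lt_of_le one_pos (le_max_right _ _)
  rw [lsc_id_Gam llMod_id one_pos hA h1 ⟨ht, h2⟩, lsc_id_Gam llMod_id one_pos hA' h1 ⟨ht, h2⟩]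
  have hd : ∀ n, scDy A R n = scDy A' R n := bi43_dy_congr h3 fun s hs => h s hs.1
  unfold scaGam scaEx scaD scPa scVa
  simp only [hd]

/-- the distribution function of the inverse of a profile is the profile -/
theorem bi43_dist {A : ℝ → ℝ} {τ : ℝ} (hA : LpqProf A τ 1) {ξ : ℝ} (hξ : 0 ≤ ξ) : llDist 1 (llInv A) ξ = A ξ := by
  unfold llDist
  have hm := hA.mem_Icc ξ hξ
  have e : volume {v : ℝ | v ∈ Ioo (0 : ℝ) 1 ∧ llInv A v ≤ ξ} = ENNReal.ofReal (A ξ) := by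
    apply le_antisymm
    · calc volume {v : ℝ | v ∈ Ioo (0 : ℝ) 1 ∧ llInv A v ≤ ξ} ≤ volume (Ioc 0 (A ξ)) :=
            measure_mono fun v hv => ⟨hv.1.1, (lpq_galois hA v ξ hv.1.2.le hξ).1 hv.2⟩
        _ = ENNReal.ofReal (A ξ) := by rw [Real.volume_Ioc, sub_zero]
    · calc ENNReal.ofReal (A ξ) = volume (Ioo 0 (A ξ)) := by rw [Real.volume_Ioo, sub_zero]
        _ ≤ volume {v : ℝ | v ∈ Ioo (0 : ℝ) 1 ∧ llInv A v ≤ ξ} := measure_mono fun v hv =>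
            ⟨⟨hv.1, hv.2.trans_le hm.2⟩, (lpq_galois hA v ξ (hv.2.le.trans hm.2) hξ).2 hv.2.le⟩
  rw [e, ENNReal.toReal_ofReal hm.1]

/-- **`q = Γ_K ∘ K`** in the world, and `Γ_*` of the frame is the normalised response of the path.      OWNER helper162
(43: `hA` = the direct profile IS a profile; SUPPLIER `lce_unif_prof` of `LL/PathsClkE2`, needs `z_0 ≤ ξ_1(T)`; not contained in `LlSec3`) -/
theorem bi_tie (h3 : LlSec3 llBase Fx) (hf : BiFix Fx X K c C v0 sg Cu)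
    (hA : LlUnif Fx fun p => LpqProf (p.Adir Fx llBase) (llBase.xiS Fx.T) 1) :
    ∃ N0 : ℕ, ∀ Fr, BiFam Fx X N0 Fr → IsClock 1 Fr.K ∧ ∀ v ∈ Ioo (0 : ℝ) 1, Fr.q v = skWorld.Gam Fr.K (Fr.K v) := by
  obtain ⟨Na, ha⟩ := hA
  refine ⟨Na, fun Fr hF => ?_⟩
  obtain ⟨hFam, hO, hN⟩ := hF
  obtain ⟨p, hd, hp, hs, hdy, eN, el, eu, eell, eK, eq, ed, eb, eh, ecu⟩ := bi43_unf hFam
  have hP := ha p hp (by rw [← eN]; exact hN)
  have hl0 : 0 < p.ell := by linarith [hp.ell1]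
  have eA : p.Aprof Fx llBase = p.Adir Fx llBase := by simp [LlPt.Aprof, hs]
  have ej : p.j = 1 := by simp [LlPt.j, hs]
  have eK' : Fr.K = llInv (p.Adir Fx llBase) := by
    rw [eK]
    funext w
    show p.ell ^ 2 * ((p.ell ^ 2)⁻¹ * llInv (p.Aprof Fx llBase) (p.ell * w / p.ell)) = _
    rw [eA, mul_div_cancel_left₀ _ hl0.ne', ← mul_assoc, mul_inv_cancel₀ (pow_ne_zero 2 hl0.ne'), one_mul]
  have hclk : IsClock 1 Fr.K := by
    rw [eK']
    refine ⟨fun x hx y hy hxy => lpq_inv_mono hP x y hxy hy.2.le, fun v _ => lpq_inv_nonneg _ _,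
      ⟨llBase.xiS Fx.T, fun v hv => lpq_inv_le_tau hP v hv.2.le⟩⟩
  refine ⟨hclk, fun v hv => ?_⟩
  have hK0 : 0 ≤ Fr.K v := hclk.nonneg v hv
  have e1 : Fr.q v = llMod.Gam (p.Adir Fx llBase) 1 (Fr.K v) := by
    rw [eq, eK]
    show llMod.Gam (p.Aprof Fx llBase) p.j (p.ell ^ 2 * p.K Fx llBase (p.ell * v)) = _
    rw [eA, ej]
    rfl
  have hd1 : ∀ ξ, 0 ≤ ξ → llDist 1 Fr.K ξ = p.Adir Fx llBase ξ := fun ξ hξ => by rw [eK']; exact bi43_dist hP hξ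
  have p1 : LscProf 1 (llBase.xiS Fx.T) (p.Adir Fx llBase) := ⟨hP.mono, hP.nn, hP.top, hP.tau⟩
  have p2 : LscProf 1 (llBase.xiS Fx.T) (llDist 1 Fr.K) := by
    refine ⟨fun x hx y hy hxy => ?_, ENNReal.toReal_nonneg, fun ξ hξ => ?_, hP.tau⟩
    · rw [hd1 x hx, hd1 y hy]; exact hP.mono hx hy hxy
    · rw [hd1 ξ (hP.tau.trans hξ)]; exact hP.top ξ hξ
  rw [e1]
  show _ = bmGam Fr.K (Fr.K v)
  rw [bi_gam_link Fr.K hclk (Fr.K v) hK0]
  exact (bi43_gam_congr p2 p1 hd1 hK0).symm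

end leaves

/-! ## 4. The producers -/

section prod

variable {Fx : LlFix} {X : BdFix} {K : BdCst} {c C v0 sg Cu : ℝ}

/-- **PRODUCER of `BdStd`, `BudB.CuStd`, `BdFr.Base`** on the SK objects -/
theorem bi_std (h3 : LlSec3 llBase Fx) (hr : LlRef llBase Fx c C v0) (hf : BiFix Fx X K c C v0 sg Cu) :
    ∃ N0 : ℕ, ∀ N1, N0 ≤ N1 → BdStd X skWorld (BiFam Fx X N1) K ∧ BudB.CuStd X (BiFam Fx X N1) sg Cu ∧
      ∀ Fr, BiFam Fx X N1 Fr → ∀ g ∈ Icc (X.glo 0) (X.ghi 0), Fr.Base X skWorld g := by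
  obtain ⟨Na, ha⟩ := bi_q h3 hr hf
  obtain ⟨Nb, hb⟩ := bi_base h3 hf
  obtain ⟨Nc, hc⟩ := bi_beta hr h3 hf
  obtain ⟨Nd, hd⟩ := bi_cu hr hf
  refine ⟨max (max Na Nb) (max Nc Nd), fun N1 hN => ?_⟩
  have hNa : Na ≤ N1 := (le_max_left _ _).trans ((le_max_left _ _).trans hN)
  have hNb : Nb ≤ N1 := (le_max_right _ _).trans ((le_max_left _ _).trans hN)
  have hNc : Nc ≤ N1 := (le_max_left _ _).trans ((le_max_right _ _).trans hN)
  have hNd : Nd ≤ N1 := (le_max_right _ _).trans ((le_max_right _ _).trans hN)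
  have hB : ∀ Fr, BiFam Fx X N1 Fr → ∀ g ∈ Icc (X.glo 0) (X.ghi 0), Fr.Base X skWorld g :=
    fun Fr hF => hb Fr (bi_fam_mono hNb hF)
  refine ⟨?_, ?_, hB⟩
  · exact
      { fix := hf.ok
        cb_pos := hf.cb_pos
        cG_pos := hf.cG_pos
        cG_s0 := hf.cG_s0
        cG_he := hf.cG_he
        cH_big := hf.cH_big
        ok := fun F hF => hF.2.1
        box := fun F F' hF hO he => bi_box F F' hF hO he
        a1 := skWorld_isHub.a1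
        b_aff := fun F hF => (bi_aff hF.1).1
        h_aff := fun F hF => (bi_aff hF.1).2.1
        h_mask := fun F hF => (bi_aff hF.1).2.2
        cg_lo := fun F hF => (bi_cg hf hF.1 hF.2.1).1
        cg_hi := fun F hF => (bi_cg hf hF.1 hF.2.1).2.1
        cg_meas := fun F hF => (bi_cg hf hF.1 hF.2.1).2.2
        q_mono := fun F hF => (ha F (bi_fam_mono hNa hF)).1
        q_mem := fun F hF => (ha F (bi_fam_mono hNa hF)).2.1
        d_int := fun F hF => (ha F (bi_fam_mono hNa hF)).2.2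
        clk0 := fun F hF g hg => ⟨(hB F hF g hg).hb, (hB F hF g hg).hh⟩
        clk := fun F hF g hg Q => bi_clk hf.ok hF.2.1 (hB F hF g hg) Q
        beta := fun F hF => (hc F (bi_fam_mono hNc hF)).1
        beta_zero := fun F hF => (hc F (bi_fam_mono hNc hF)).2
        Cconst := fun F hF => bi_cconst hf.ok hf.cI_cd hF.2.1 }
  · exact
      { sg_pos := hf.sg_pos
        J_big := hf.J_big
        supp := fun F hF => (hd F (bi_fam_mono hNd hF)).1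
        hi := fun F hF => (hd F (bi_fam_mono hNd hF)).2 }

/-! ### the imports of (C7) on the SK objects      (head helper12; ONE leaf per field of `Bd7In`, `Bud/L07X.lean`; all of them for ALL loose constants `cL ≤ CL`) -/

/-- (P9) and `T_m → T`   (from `LlSec3.p9` at the localised points `p.loc hd g 0`) -/
theorem bi7_p9 (h3 : LlSec3 llBase Fx) (hf : BiFix Fx X K c C v0 sg Cu) :
    ∃ N0 : ℕ, ∀ N1, N0 ≤ N1 → Bd7P9 X (BiFam Fx X N1) := by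
  refine ⟨0, fun N1 _ κ0 ε hκ0 hε => ?_⟩
  obtain ⟨κ, hκ, h9⟩ := h3.p9
  obtain ⟨C9, Na, ha⟩ := h9 κ0 hκ0
  obtain ⟨Nb, hb⟩ := bi43_small hκ (ε := ε / (|C9| + 1)) (by positivity)
  refine ⟨max Na Nb, fun Fr hF hO hN => ?_⟩
  obtain ⟨p, hd, hp, hs, hdy, he⟩ := hF.1
  have eN : Fr.N = p.N := congrArg BdFr.N he
  have eT : Fr.Tm = p.ell ^ 2 * p.b0 Fx llBase := congrArg BdFr.Tm he
  have eb : Fr.b = fun g => btResc p.ell ((p.loc hd g 0).b Fx llBase) := congrArg BdFr.b he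
  have eh : Fr.h = fun g => btResc p.ell ((p.loc hd g 0).h Fx llBase) := congrArg BdFr.h he
  have ex : Fr.x = p.x := by unfold BdFr.x LlPt.x; rw [eN]
  have hNa : Na ≤ p.N := by rw [← eN]; exact (le_max_left _ _).trans hN
  have hNb : Nb ≤ p.N := by rw [← eN]; exact (le_max_right _ _).trans hN
  have hsm : C9 * p.x ^ κ ≤ ε := by
    have h1 : p.x ^ κ ≤ ε / (|C9| + 1) := hb p.N hNb
    have h0 : 0 ≤ p.x ^ κ := Real.rpow_nonneg (Real.rpow_nonneg (Nat.cast_nonneg _) _) _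
    calc C9 * p.x ^ κ ≤ (|C9| + 1) * p.x ^ κ := mul_le_mul_of_nonneg_right (by linarith [le_abs_self C9]) h0
      _ ≤ (|C9| + 1) * (ε / (|C9| + 1)) := mul_le_mul_of_nonneg_left h1 (by positivity)
      _ = ε := by field_simp
  refine ⟨?_, fun g hg v hv => ?_⟩
  · rw [eT, hf.tie.T]
    exact (ha p hp hNa).1.trans hsm
  · have hg4 : g ∈ Icc (-4 : ℝ) 4 := ⟨hf.g_lo.trans hg.1, hg.2.trans hf.g_hi⟩
    have hx0 : 0 < p.x := Real.rpow_pos_of_pos (by have := hp.N2; positivity) _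
    have hv0 : 0 < v := lt_of_lt_of_le (by rw [ex]; positivity) hv.1
    obtain ⟨q1, q2⟩ := (ha (p.loc hd g 0) (bi43_loc_ok hp hd hg4) hNa).2 hs v ⟨hv0, hv.2⟩
      (by show κ0 * p.x ≤ v; rw [← ex]; exact hv.1)
    have q1' : |p.ell ^ 2 * (p.loc hd g 0).b Fx llBase (p.ell * v) - p.ell ^ 2 * p.b0 Fx llBase| ≤ C9 * p.x ^ κ * v ^ 2 := q1
    have q2' : |p.ell ^ 2 * (p.loc hd g 0).h Fx llBase (p.ell * v)| ≤ C9 * p.x ^ κ * v ^ 3 := q2
    rw [eT, eb, eh]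
    exact ⟨q1'.trans (mul_le_mul_of_nonneg_right hsm (by positivity)),
      q2'.trans (mul_le_mul_of_nonneg_right hsm (by positivity))⟩

/-- (C8), first two moments, under outer regularity above `2w`.      OWNER helper7 (`Bud/RawExit`) / helper109 -/
theorem bi7_raw (h3 : LlSec3 llBase Fx) (hr : LlRef llBase Fx c C v0) (hf : BiFix Fx X K c C v0 sg Cu) :
    ∃ N0 : ℕ, ∀ N1, N0 ≤ N1 → ∀ cL CL : ℝ, 0 < cL → cL ≤ CL → Bd7Raw X skWorld (BiFam Fx X N1) cL CL := by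
  obtain ⟨n1, a1⟩ := bi_std h3 hr hf
  obtain ⟨n2, a2⟩ := bi7_p9 h3 hf
  refine ⟨n1 + n2, fun N1 hN cL CL hcL _ => ?_⟩
  exact bud_rx_bd7raw hf.ok skWorld_isHub (fun F hF _ g hg => (a1 N1 (by omega)).2.2 F hF g hg)
    (bd7_adm_of_std (a1 N1 (by omega)).1 (a2 N1 (by omega))) hcL

/-- Lemma 7.6: band integrals of `D²` in both coordinates.      OWNER helper190 (`Bud/Star`) / helper111 -/
theorem bi7_band (h3 : LlSec3 llBase Fx) (hr : LlRef llBase Fx c C v0) (hf : BiFix Fx X K c C v0 sg Cu) :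
    ∃ N0 : ℕ, ∀ N1, N0 ≤ N1 → ∀ cL CL : ℝ, 0 < cL → cL ≤ CL → Bd7Band X skWorld (BiFam Fx X N1) cL CL := by
  obtain ⟨n1, a1⟩ := bi_std h3 hr hf
  obtain ⟨n2, a2⟩ := bi7_p9 h3 hf
  obtain ⟨n3, a3⟩ := bi7_raw h3 hr hf
  refine ⟨n1 + n2 + n3, fun N1 hN => ?_⟩
  exact bcs_x_band_all hf.ok skWorld_isHub (hf.ok.pat 0 (by omega)).1 (fun F hF _ g hg => (a1 N1 (by omega)).2.2 F hF g hg)
    (bd7_adm_of_std (a1 N1 (by omega)).1 (a2 N1 (by omega))) (fun F hF => hF.2.1.I3) (a3 N1 (by omega))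

-- `bi7_rc bi7_sup bi7_weak bi7_c7b`, `bi7_in`, `bi7_const`, `bi_sin`, `bi_c7`: MOVED to `Bud/InstA.lean` (helper19): their proofs need files which this file cannot import (`Exit/BudLL` imports it).

/-- the function clock `cvKf` and the position clock `pfKu` agree off a countable set (as `pfv_K_ae`, Prof/InstCav) -/
theorem bi7g_K_ae {n : ℕ} {b h : ℝ → ℝ} (hb : GhClk1 1 b) (hh : GhClk1 1 h) :
    ∀ᵐ v : ℝ, v ∈ Ioo (0:ℝ) 1 → cvKf n b h v = pfKu n b h v := by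
  have mb := gh_os_clamp_mono zero_le_one hb
  have mh := gh_os_clamp_mono zero_le_one hh
  filter_upwards [mb.countable_not_continuousAt.ae_notMem volume, mh.countable_not_continuousAt.ae_notMem volume] with v h1 h2 hv
  have c1 : ContinuousAt (ghClamp 1 b) v := by simpa using h1
  have c2 : ContinuousAt (ghClamp 1 h) v := by simpa using h2
  have e1 := mb.continuousWithinAt_Ioi_iff_rightLim_eq.1 c1.continuousWithinAt
  have e2 := mh.continuousWithinAt_Ioi_iff_rightLim_eq.1 c2.continuousWithinAt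
  have hv0 : ¬ v < 0 := not_lt.2 hv.1.le
  have f1 : ghClamp 1 b v = b v := by unfold ghClamp; rw [if_neg hv0, min_eq_left hv.2.le]
  have f2 : ghClamp 1 h v = h v := by unfold ghClamp; rw [if_neg hv0, min_eq_left hv.2.le]
  unfold pfKu pfKp cvKf
  rw [gh_os_at_posA, gh_os_at_posA, e1, e2, f1, f2]

/-- a clock which is `cvKf` on `(0,1)` has the mass profile `pfAl` -/
theorem bi7g_alK_eq {n : ℕ} {b h Ks : ℝ → ℝ} (hb : GhClk1 1 b) (hh : GhClk1 1 h) (hK : ∀ v ∈ Ioo (0:ℝ) 1, cvKf n b h v = Ks v) :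
    scAlK 1 Ks = pfAl n b h := by
  funext t
  unfold pfAl scAlK
  congr 1
  apply measure_congr
  rw [eventuallyEq_set]
  filter_upwards [bi7g_K_ae (n := n) hb hh] with v hv
  constructor
  · rintro ⟨h1, h2⟩
    exact ⟨h1, by rw [← hv h1, hK v h1]; exact h2⟩
  · rintro ⟨h1, h2⟩
    exact ⟨h1, by rw [← hK v h1, hv h1]; exact h2⟩

/-- **the two codings of `Γ_K(K(v))`** at a point of right-continuity of the two clocks (`cvg_main`, `sb7_gam`) -/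
theorem bi7g_bridge {W : BdWorld} (hW : W.IsHub) {m : ℕ} (hm : 0 < m) {b h Ks : ℝ → ℝ} (hb : IsClock 1 b) (hh : IsClock 1 h)
    (hKs : ∀ u ∈ Ioo (0:ℝ) 1, Ks u = h u + b u * (W.ps m).S b h u) (hKc : IsClock 1 Ks) {v : ℝ} (hv : v ∈ Ioo (0:ℝ) 1)
    (cb : ContinuousWithinAt b (Ioi v) v) (ch : ContinuousWithinAt h (Ioi v) v) :
    cvGamC m (bmExt b) (bmExt h) (ghPosA v) = bmGam Ks (Ks v) := by
  have hbE : GhClk1 1 (bmExt b) := by rw [bw_ext_eq]; exact psi_ext_clk one_pos hb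
  have hhE : GhClk1 1 (bmExt h) := by rw [bw_ext_eq]; exact psi_ext_clk one_pos hh
  have ext : ∀ (c : ℝ → ℝ), ∀ u ∈ Ioo (0:ℝ) 1, bmExt c u = c u := fun c u hu => by
    rw [bw_ext_eq]; exact psi_ext_of_mem c hu
  have e1 : ∀ u ∈ Ioo (0:ℝ) 1, cvKf m (bmExt b) (bmExt h) u = Ks u := fun u hu => by
    unfold cvKf
    rw [ext b u hu, ext h u hu, hKs u hu, hW.S m hm b h hb hh u hu]
  have tend : ∀ (c : ℝ → ℝ), ContinuousWithinAt c (Ioi v) v → Tendsto (bmExt c) (𝓝[>] v) (𝓝 (bmExt c v)) := fun c hc => by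
    rw [ext c v hv]
    refine Tendsto.congr' ?_ hc
    filter_upwards [Ioo_mem_nhdsGT hv.2] with u hu
    exact (ext c u ⟨hv.1.trans hu.1, hu.2⟩).symm
  have e2 : pfKp m (bmExt b) (bmExt h) (ghPosA v) = Ks v := by
    unfold pfKp
    rw [sk_stp_at_posA (tend b cb) hv.1.le hv.2.le, sk_stp_at_posA (tend h ch) hv.1.le hv.2.le, ← e1 v hv]
    rfl
  obtain ⟨τ, hτ⟩ : ∃ τ : ℝ, τ = max 1 (bmExt h 1 + bmExt b 1) := ⟨_, rfl⟩
  have hτ0 : 0 < τ := by rw [hτ]; exact lt_of_lt_of_le one_pos (le_max_left _ _)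
  have hτ1 : bmExt h 1 + bmExt b 1 ≤ τ := by rw [hτ]; exact le_max_right _ _
  have hK1 : pfKp m (bmExt b) (bmExt h) (ghPosA 1) ≤ τ := (cvg_Kp_le hm hbE hhE (gh_os_posA_ok zero_le_one le_rfl)).trans hτ1
  have hKτ : ∀ u ∈ Ioo (0:ℝ) 1, Ks u ≤ τ := fun u hu => by
    rw [← e1 u hu]
    exact ((cvg_Kf_le hm hbE hhE hu.1.le hu.2.le).trans (cvg_Kp_le hm hbE hhE (gh_os_posA_ok hu.1.le hu.2.le))).trans hτ1
  rw [(cvg_main hm hbE hhE hτ0 hK1 (gh_os_posA_ok hv.1.le hv.2.le)).2, e2, sb7_gam hKc hKτ (hKc.nonneg v hv) (hKτ v hv) hτ0,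
    bi7g_alK_eq hbE hhE e1]
  rfl

/-- the two codings of `Γ_{K_s}(K_s(v))`.      OWNER helper76 / helper33 -/
theorem bi7_gam (h3 : LlSec3 llBase Fx) (hr : LlRef llBase Fx c C v0) (hf : BiFix Fx X K c C v0 sg Cu) :
    ∃ N0 : ℕ, ∀ N1, N0 ≤ N1 → Bd7CGam X skWorld (BiFam Fx X N1) := by
  obtain ⟨n1, a1⟩ := bi_std h3 hr hf
  obtain ⟨n2, a2⟩ := bi7_p9 h3 hf
  refine ⟨n1 + n2, fun N1 hN => ?_⟩
  obtain ⟨N2, h2⟩ := bd7_adm_of_std (a1 N1 (by omega)).1 (a2 N1 (by omega))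
  refine ⟨N2, fun i hstd hN2 v hv cb ch => ?_⟩
  obtain ⟨-, -, hb, hh, -⟩ := h2 i hstd hN2
  have hm0 : 0 < i.F.m := by
    have h1 := hstd.ok.N2
    have h2 := hstd.ok.m_lo
    have h3 : (2 : ℝ) ≤ i.F.N := by exact_mod_cast h1
    have h4 : (0 : ℝ) < i.F.m := by linarith
    exact_mod_cast h4
  exact bi7g_bridge skWorld_isHub hm0 hb hh (fun _ _ => rfl) (bd7c_stat i skWorld (skWorld_isHub.a1 _) hb hh).Kc hv cb ch

/-! ## 5. The inputs of `BudB.exit_all` on the instance -/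

/-- N4: minimisers exist -/
theorem bi_optex (h3 : LlSec3 llBase Fx) (hr : LlRef llBase Fx c C v0) (hf : BiFix Fx X K c C v0 sg Cu) :
    ∃ N0 : ℕ, ∀ N1, N0 ≤ N1 → BudOptEx X skWorld (BiFam Fx X N1) := by
  obtain ⟨Na, ha⟩ := bi_std h3 hr hf
  obtain ⟨Nb, hb⟩ := bud_n4_exists X hf.ok
  refine ⟨max Na Nb, fun N1 hN F hF g hg => ?_⟩
  exact hb F hF.2.1 (((le_max_right _ _).trans hN).trans hF.2.2) skWorld g ((ha N1 ((le_max_left _ _).trans hN)).2.2 F hF g hg)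

/-- the direct profile `A_0 + λ P` IS a mass profile (input `hA` of `bi_tie`): field `dirProf` of `LlSec3` (253 / 281) -/
theorem bi_prof (h3 : LlSec3 llBase Fx) : LlUnif Fx fun p => LpqProf (p.Adir Fx llBase) (llBase.xiS Fx.T) 1 := by
  obtain ⟨N0, h⟩ := h3.dirProf.2
  exact ⟨N0, fun p hp hN => (h p hp hN).1⟩

/-- **PRODUCER of `BudB.PathStd`** ((P2)-(P8) on the frames, ties `K = h_* + b q`, `q = Γ_*(K)`: `bi_tie`).      OWNER helper131: PROVED = `bik_path` (`Bud/InstPath.lean`) + `bi_tie` + `exit_baseprof` + `bi_prof` -/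
theorem bi_path (h3 : LlSec3 llBase Fx) (hr : LlRef llBase Fx c C v0) (hf : BiFix Fx X K c C v0 sg Cu) :
    ∃ (P : BudB.PCst) (N0 : ℕ), ∀ N1, N0 ≤ N1 → BudB.PathStd X skWorld (BiFam Fx X N1) P := by
  obtain ⟨P, Na, ha⟩ := bik_path llBase (exit_baseprof Fx.T hf.fx.T1) h3 hr hf.c_pos hf.v0_pos hf.ok hf.tie hf.g_lo hf.g_hi
  obtain ⟨Nb, hb⟩ := bi_tie h3 hf (bi_prof h3)
  exact ⟨P, max Na Nb, fun N1 hN => ha skWorld _ (fun Fr hF => ⟨hF.1, hF.2.1, ((le_max_left _ _).trans hN).trans hF.2.2⟩)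
    fun Fr hF => (hb Fr (bi_fam_mono ((le_max_right _ _).trans hN) hF)).2⟩

/-! the PRODUCER of `BdP11X` (`Bud/N11X` sec. F) = `bi_p11x`, PROVED in `Bud/InstP11.lean` (helper79; it imports this file) -/

/-- **PRODUCER of `Bd7WBase`** ((P3), (P6), (P9)): the bare clocks of the frames, FIXED matrix margin `β0` (= the constant `c` of `LlAdm`), fixed bound `Kb`.      (helper285) -/
theorem bi_wbase (h3 : LlSec3 llBase Fx) (hr : LlRef llBase Fx c C v0) (hf : BiFix Fx X K c C v0 sg Cu) :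
    ∃ β0 Kb : ℝ, 0 < β0 ∧ ∃ N0 : ℕ, ∀ N1, N0 ≤ N1 → Bd7WBase X (BiFam Fx X N1) β0 Kb := by
  obtain ⟨ca, Ca, hca, Nb, hb⟩ := h3.adm
  obtain ⟨Na, ha⟩ := bi_std h3 hr hf
  obtain ⟨Np, hp9⟩ := bi7_p9 h3 hf
  refine ⟨ca, max (2 * Ca) 1, hca, max Na Np, fun N1 hN => ?_⟩
  obtain ⟨Nq, hq⟩ := hp9 N1 ((le_max_right _ _).trans hN) 1 1 one_pos one_pos
  refine ⟨max Nb Nq, fun Fr hF hO hN' g hg => ?_⟩
  have hg' : g ∈ Icc (X.glo 0) (X.ghi 0) := hg
  have hB := (ha N1 ((le_max_left _ _).trans hN)).2.2 Fr hF g hg'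
  refine ⟨hB.hb, hB.hh, fun v hv => ?_⟩
  obtain ⟨p, hd, hp, hs, hdy, eN, el, eu, eell, eK, eq, ed, eb, eh, ecu⟩ := bi43_unf hF.1
  have hNb : Nb ≤ p.N := by rw [← eN]; exact (le_max_left _ _).trans hN'
  obtain ⟨-, -, -, -, -, bd, -, -⟩ :=
    hb (p.loc hd g 0) (bi43_loc_ok hp hd ⟨hf.g_lo.trans hg'.1, hg'.2.trans hf.g_hi⟩) hNb
  rw [bi43_loc_a hs] at bd
  have hl0 : 0 < p.ell := by linarith [hp.ell1]
  have hm : p.ell * v ∈ Icc 0 p.ell := ⟨mul_nonneg hl0.le hv.1.le, by nlinarith [hv.2]⟩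
  have hl1 : 1 ≤ p.ell ^ 2 := one_le_pow₀ hp.ell1
  have hl2 : p.ell ^ 2 ≤ 2 := bi43_ell_sq hp.ell1 hp.ell2
  have hbv : Fr.b g v = p.ell ^ 2 * (p.loc hd g 0).b Fx llBase (p.ell * v) := by rw [eb]; rfl
  obtain ⟨b1, b2, -⟩ := bd _ hm
  refine ⟨?_, ?_, ?_⟩
  · rw [hbv]
    nlinarith
  · rw [hbv]
    refine le_trans ?_ (le_max_left _ _)
    nlinarith
  · have hx : Fr.x < 1 := by
      have hN2 : (1 : ℝ) < Fr.N := by
        have : (2 : ℝ) ≤ Fr.N := by exact_mod_cast hO.N2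
        linarith
      exact Real.rpow_lt_one_of_one_lt_of_neg hN2 (by norm_num)
    obtain ⟨-, h9⟩ := hq Fr hF hO ((le_max_right _ _).trans hN')
    have hv' : max v Fr.x ∈ Ico (1 * Fr.x) 1 := ⟨by rw [one_mul]; exact le_max_right _ _, max_lt hv.2 hx⟩
    have hv0 : 0 < max v Fr.x := lt_of_lt_of_le hv.1 (le_max_left _ _)
    have h1 := (h9 g hg _ hv').2
    have h2 : Fr.h g v ≤ Fr.h g (max v Fr.x) := hB.hh.mono hv ⟨hv0, hv'.2⟩ (le_max_left _ _)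
    have h4 : (max v Fr.x) ^ 3 ≤ 1 := pow_le_one₀ hv0.le hv'.2.le
    calc Fr.h g v ≤ Fr.h g (max v Fr.x) := h2
      _ ≤ |Fr.h g (max v Fr.x)| := le_abs_self _
      _ ≤ 1 * (max v Fr.x) ^ 3 := h1
      _ ≤ 1 := by linarith
      _ ≤ max (2 * Ca) 1 := le_max_right _ _

/-- l.139 = PE Prop. 6.6 for the call `Fr.call X` at the stage `-1`.      GLUE (helper285): `bx0_main` (14, `Bud/Exc0`) + `exit_p6tm_sk` (252, `Exit/P6Tm`) + `bi_wbase` + `bi_std` + `bi7_p9` -/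
theorem bi_exc0 (h3 : LlSec3 llBase Fx) (hr : LlRef llBase Fx c C v0) (hf : BiFix Fx X K c C v0 sg Cu) :
    ∃ N0 : ℕ, ∀ N1, N0 ≤ N1 → BudExc0 X skWorld (BiFam Fx X N1) := by
  obtain ⟨β0, Kb, hβ, Nw, hw⟩ := bi_wbase h3 hr hf
  obtain ⟨Na, ha⟩ := bi_std h3 hr hf
  obtain ⟨Np, hp9⟩ := bi7_p9 h3 hf
  have hX := hf.ok
  have hm : X.mPE ≤ 1 / 100 := by
    have h1 : X.pS ≤ 1 := by linarith [hX.pS_le, hX.he_le]
    have h2 : X.tau0 ≤ 1 := by linarith [hX.tau0_le, hX.eta_le, hX.tau_le]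
    have h3 : X.bl ≤ 1 := by linarith [hX.bl_le, hX.bs_le, hX.eta_le, hX.tau_le]
    have h4 : X.pS * X.tau0 ≤ 1 := mul_le_one₀ h1 hX.tau0_pos.le h2
    have h5 : X.pS * X.tau0 * X.bl ≤ 1 := mul_le_one₀ h4 hX.bl_pos.le h3
    linarith [hX.zeta_le, hX.mPE_le]
  have hok : (⟨X.mPE, max Kb 0 + 2, 1 / 2, X.T, 1, 1⟩ : P6C).Ok :=
    ⟨hX.mPE_pos, hm, by have := le_max_right Kb 0; show 0 < max Kb 0 + 2; linarith, by norm_num,
      by show (1 / 2 : ℝ) < X.T; linarith [hX.T1], hX.T1, one_pos, one_pos⟩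
  obtain ⟨cκ, Cκ, cT, CT, hP, -⟩ := exit_p6tm_sk _ hok
  refine ⟨max (max Nw Na) Np, fun N1 hN => ?_⟩
  exact bx0_main (β0 := β0) (Kb := Kb)
    ⟨hX, hok, rfl, rfl, hβ, by show Kb + 2 ≤ max Kb 0 + 2; linarith [le_max_left Kb 0]⟩
    (ha N1 ((le_max_right _ _).trans ((le_max_left _ _).trans hN))).1 hP
    (hw N1 ((le_max_left _ _).trans ((le_max_left _ _).trans hN))) (hp9 N1 ((le_max_right _ _).trans hN))

/-- N1 (l.50-60): `|R - f_spin(K)| ≲_∘ 𝓑`, from (G1), (P8), square interpolation.      OWNER helper66 -/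
theorem bi_r0 (h3 : LlSec3 llBase Fx) (hG : BtG1 llBase Fx K.cG) (hf : BiFix Fx X K c C v0 sg Cu) :
    ∃ N0 : ℕ, ∀ N1, N0 ≤ N1 → BudR0 X skWorld (BiFam Fx X N1) K.cG := by
  have hX := hf.ok
  have hs : 1 / 4 ≤ Fx.sS := by rw [← hf.tie.sS]; unfold BdFix.sS; linarith [hX.tau_le]
  have he : Fx.eta ≤ 1 / 8 := by rw [← hf.tie.eta]; linarith [hX.eta_le, hX.tau_le]
  refine ⟨0, fun N1 _ => ?_⟩
  unfold BudR0
  rw [bd_sub_iff (fun _ _ => abs_nonneg _) (fun i hi => ?_)]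
  · intro ε hε
    obtain ⟨C', N0, h⟩ := bt_r0 (W := skWorld) (X := X) h3 (bx_end h3) bx_sys bx_site bx_world bx_scale hs he hG hf.tie ε hε
    exact ⟨C', N0, fun i hi hN => h i.1 hi.1.1 hi.1.2.1 hN i.2 ⟨hf.g_lo3.trans hi.2.1, hi.2.2.trans hf.g_hi⟩⟩
  · have hO := hi.1.2.1
    have hx : 0 < i.1.x := by
      unfold BdFr.x
      exact Real.rpow_pos_of_pos (by have := hO.N2; exact_mod_cast (by omega : 0 < i.1.N)) _
    have hl : 0 < i.1.lam := lt_of_lt_of_le (Real.rpow_pos_of_pos hx _) hO.lam_lo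
    have hU : 0 < i.1.U X := by unfold BdFr.U; positivity
    unfold BdFr.Bcal
    positivity

/-- the order of the constants of N15: from (C7a) with `(cL, CL)` and "`c_H` large" to constants which ALSO satisfy `c_I ≤ cL c_H`
(`CL ≥ 1`: direct, `C_b ≥ 2`;   `CL < 1`: there is no optimiser at large sizes (`r(1) = 1`), any pair of equal constants will do) -/
theorem bi_hp_const {W : BdWorld} {Fam : BdFr → Prop} {cL CL P : ℝ} (hcL : 0 < cL) (hcI : 0 < X.cI) (hcH0 : 0 < X.cH) (hCb : 2 ≤ K.Cb)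
    (h7 : Bd7C7a X W Fam cL CL) (hok : ∀ F, Fam F → F.Ok X)
    (hcH : 4 * max (max 4 (2 / P)) (4 * CL / cL) * max 1 (K.Cb * X.cI + 2) ≤ X.cH) :
    ∃ cL' CL' : ℝ, 0 < cL' ∧
      BdEv (fun i : BdI X => i.F.N) (fun i => i.OkS W Fam) (fun i => ∀ v ∈ Icc (i.F.wc X) 1, cL' * v ≤ i.Q.r v ∧ i.Q.r v ≤ CL' * v) ∧
      4 * max (max 4 (2 / P)) (4 * CL' / cL') * max 1 (K.Cb * X.cI + 2) ≤ X.cH ∧ X.cI ≤ cL' * X.cH := by
  obtain ⟨N7, h7a⟩ := h7
  have hstd : ∀ (i : BdI X), i.OkS W Fam → ∀ v : ℝ, (⟨i.F, i.g, i.Q, v⟩ : Bd7I X).Std W Fam := fun i hi v =>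
    ⟨hi.1.1, hok _ hi.1.1, hi.1.2.1, hi.1.2.2⟩
  have hM1 : (1 : ℝ) ≤ max 1 (K.Cb * X.cI + 2) := le_max_left _ _
  rcases le_or_gt 1 CL with hCL | hCL
  · refine ⟨cL, CL, hcL, bd_ev_iff.2 ⟨N7, fun i hi hN v hv => h7a ⟨i.F, i.g, i.Q, v⟩ (hstd i hi v) hN hv⟩, hcH, ?_⟩
    have h1 : 4 * (1 / cL) ≤ max (max 4 (2 / P)) (4 * CL / cL) := by
      refine le_trans ?_ (le_max_right _ _)
      rw [mul_one_div]
      exact div_le_div_of_nonneg_right (by linarith) hcL.le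
    have h2 : 2 * X.cI ≤ max 1 (K.Cb * X.cI + 2) := by
      refine le_trans ?_ (le_max_right _ _)
      nlinarith
    have h3 : 4 * (4 * (1 / cL)) * (2 * X.cI) ≤ X.cH :=
      le_trans (mul_le_mul (mul_le_mul_of_nonneg_left h1 (by norm_num)) h2 (by positivity)
        (by have : 0 < 4 * (1 / cL) := by positivity
            linarith)) hcH
    have e : cL * (4 * (4 * (1 / cL)) * (2 * X.cI)) = 32 * X.cI := by field_simp; ring
    have h4 := mul_le_mul_of_nonneg_left h3 hcL.le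
    rw [e] at h4
    linarith
  · obtain ⟨t, ht⟩ : ∃ t : ℝ, t = max 1 (X.cI / X.cH) := ⟨_, rfl⟩
    have ht0 : 0 < t := by rw [ht]; exact lt_of_lt_of_le one_pos (le_max_left _ _)
    refine ⟨t, t, ht0, bd_ev_iff.2 ⟨N7, fun i hi hN v hv => ?_⟩, ?_, ?_⟩
    · exfalso
      have h1 := i.Q.r_al 1 ⟨zero_le_one, le_rfl⟩
      rw [i.Q.al_one] at h1
      have h2 : i.Q.r 1 ≤ CL * 1 := (h7a ⟨i.F, i.g, i.Q, 1⟩ (hstd i hi 1) hN ⟨hv.1.trans hv.2, le_rfl⟩).2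
      rw [h1] at h2
      linarith
    · have e : 4 * t / t = 4 := by field_simp
      rw [e]
      refine le_trans ?_ hcH
      refine mul_le_mul_of_nonneg_right (mul_le_mul_of_nonneg_left ?_ (by norm_num)) (by linarith)
      exact max_le (le_max_left _ _) ((le_max_left _ _).trans (le_max_left _ _))
    · have : X.cI / X.cH ≤ t := by rw [ht]; exact le_max_right _ _
      rwa [div_le_iff₀ hcH0] at this

/-- N15: all the inputs of (C17) (`Bud/HpFr`).      OWNER helper8 (`BdHpStd`: LL 03 (P4), (P6), (P7) on the frames, `ptop = llBase.pTop T`; `BudHpSv`, `BudHpRaw`: N5 (7/109); `BudHpTr`: 8) -/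
theorem bi_hpin (h3 : LlSec3 llBase Fx) (hr : LlRef llBase Fx c C v0) (hf : BiFix Fx X K c C v0 sg Cu) {cL CL : ℝ} (hcL : 0 < cL)
    (h7 : ∃ N0 : ℕ, ∀ N1, N0 ≤ N1 → Bd7C7a X skWorld (BiFam Fx X N1) cL CL)
    (hcH : 4 * max (max 4 (2 / llBase.pTop Fx.T)) (4 * CL / cL) * max 1 (K.Cb * X.cI + 2) ≤ X.cH) :
    ∃ N0 : ℕ, ∀ N1, N0 ≤ N1 → BudHpIn X skWorld (BiFam Fx X N1) K 2 := by
  obtain ⟨Na, ha⟩ := bi_std h3 hr hf
  obtain ⟨Nb, hb⟩ := h7
  refine ⟨max Na Nb, fun N1 hN => ?_⟩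
  obtain ⟨hS, -, -⟩ := ha N1 ((le_max_left _ _).trans hN)
  have h7 := hb N1 ((le_max_right _ _).trans hN)
  have hCb : 2 ≤ K.Cb := by
    refine le_trans ?_ hf.Cb_ge
    rw [le_div_iff₀ hf.c_pos]
    linarith [hf.c_le]
  obtain ⟨Ch, dm, hpt, hStd⟩ := exit_bud_hpstd h3.hp hf.fx hf.tie hf.ok
    (fun g hg => ⟨hf.g_lo.trans hg.1, hg.2.trans hf.g_hi⟩) (Fam := BiFam Fx X N1) (fun Fr hFr => ⟨hFr.1, hFr.2.1⟩)
  obtain ⟨cL', CL', hcL', h7', hn1, hn2⟩ := bi_hp_const (P := llBase.pTop Fx.T) hcL hf.ok.cI_pos hf.ok.cH_pos hCb h7 hS.ok hcH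
  obtain ⟨CS, hSv⟩ := bud_c8_sv hS skWorld_isHub hcL h7
  refine ⟨Ch, dm, CS, cL', CL', hStd, hSv, bud_hp_tr_std hS skWorld_isHub hSv hcL' h7' hn2, bud_c8_hp hS skWorld_isHub hcL h7, hcL', h7',
    by norm_num, ?_, hn2⟩
  rw [hpt]
  exact hn1

/-- N5 at the threshold: (C8) at the scale `w_c` (after (C7)), one exponent at a time, on the SK numbers `i.num` of the changed path (`Bud/FfNum`), for the stage boxes.
OWNER helper7 (`Bud/RawExit.lean`).      TEX[LL:bud:outer-moments] -/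
theorem bi_ffraw (h3 : LlSec3 llBase Fx) (hr : LlRef llBase Fx c C v0) (hf : BiFix Fx X K c C v0 sg Cu) {cL CL : ℝ} (hcL : 0 < cL)
    (h7 : ∃ N0 : ℕ, ∀ N1, N0 ≤ N1 → Bd7C7a X skWorld (BiFam Fx X N1) cL CL) :
    ∃ N0 : ℕ, ∀ N1, N0 ≤ N1 → BudFfRaw X (fun i => i.OkSt skWorld (BiFam Fx X N1)) := by
  obtain ⟨Na, ha⟩ := bi_std h3 hr hf
  obtain ⟨Nb, hb⟩ := h7
  refine ⟨max Na Nb, fun N1 hN => ?_⟩
  exact bud_c8_ff (ha N1 ((le_max_left _ _).trans hN)).1 skWorld_isHub hcL (hb N1 ((le_max_right _ _).trans hN)) fun i hi => hi.1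

/-- N14: all the inputs of (C16) (`Bud/FfTop`): `bud_ff_in` (`Bud/FfNum`) on the instance.      OWNER helper161 (PROVED; open input: `bi_ffraw`) -/
theorem bi_ffin (h3 : LlSec3 llBase Fx) (hr : LlRef llBase Fx c C v0) (hf : BiFix Fx X K c C v0 sg Cu) {cL CL : ℝ} (hcL : 0 < cL)
    (h7 : ∃ N0 : ℕ, ∀ N1, N0 ≤ N1 → Bd7C7a X skWorld (BiFam Fx X N1) cL CL ∧ BudC7al X skWorld (BiFam Fx X N1))
    (hcH : K.Cb * X.cI + 1 ≤ X.cH) :
    ∃ N0 : ℕ, ∀ N1, N0 ≤ N1 → BudFfIn X skWorld (BiFam Fx X N1) := by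
  obtain ⟨Na, ha⟩ := bi_std h3 hr hf
  obtain ⟨Nb, hb⟩ := h7
  obtain ⟨Nc, hc⟩ := bi_ffraw h3 hr hf hcL ⟨Nb, fun N1 hN => (hb N1 hN).1⟩
  refine ⟨max Na (max Nb Nc), fun N1 hN => ?_⟩
  have hNa : Na ≤ N1 := (le_max_left _ _).trans hN
  have hNb : Nb ≤ N1 := (le_max_left _ _).trans ((le_max_right _ _).trans hN)
  have hNc : Nc ≤ N1 := (le_max_right _ _).trans ((le_max_right _ _).trans hN)
  obtain ⟨hS, -, -⟩ := ha N1 hNa
  obtain ⟨⟨N7, h7a⟩, h7b⟩ := hb N1 hNb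
  exact bud_ff_in hS skWorld_isHub hcL
    ⟨N7, fun i hi hN' v h1 h2 => h7a ⟨i.F, i.g, i.Q, v⟩ ⟨hi.1.1, hS.ok _ hi.1.1, hi.1.2.1, hi.1.2.2⟩ hN' ⟨h1, h2⟩⟩ h7b hcH (hc N1 hNc)

end prod

theorem bi_eqns_cite : True := by
  have := @BiFam.eq_1
  trivial

end

end Claimed.Agent.R286
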