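import Claimed.Agent.R286.Bud.L07Cb
import Claimed.Agent.R286.Bud.StarX
import Claimed.Agent.R286.Bud.RawExit

/-!
# Row 286 (S0533), LL sec. 7, node N8 = Prop. 7.7: THE SUPPLY FROM N5 ONLY      (owner helper33; prefix `bd7cc_`)
TEX[LL:bud:modified-closure] TEX[LL:bud:outer-moments]

The asks of `Bud/L07Ca` are discharged on the exits of N5 (helper7, `Bud/RawExit`), N6 (helper111) and N7 (helper190, `Bud/StarX`):
* `bd7cc_raw`     `Bd7CRaw` = (C8), all even moments of `Q_v` at every position  (`bud_rx_mr`).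
* `bd7cc_res_rx`  (16) for one optimiser under outer regularity: the two-branch layer lemma `cm5_tbl_pf` (247/38) on the sampled changed path (`bud_rx_clk5`, `bud_rx_raw`), limit `ckm_nu_le`, three leaves `cm5_sk_three`.
* `bd7cc_res`     `Bd7CRes`.
* `bd7cc_sup1`    `Bd7CSup` for `cL ≤ 1 ≤ CL` from `IsHub`, `BcsBase`, `Bd7Adm`, `Bd7P9` and the two remaining exits of N5 (`BcsC9`, `BcsRes`).
* `bd7cc_sup`     the same for ALL loose constants `0 < cL ≤ CL` (the class is monotone in the loose constants).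
-/

set_option autoImplicit false

namespace Claimed.Agent.R286

open MeasureTheory Set Filter Topology

noncomputable section

variable {X : BdFix} {W : BdWorld} {Fam : BdFr → Prop} {Kb cL CL i0 : ℝ}

/-! ## 1. (C8) at every position -/

/-- **`Bd7CRaw`**      TEX[LL:bud:outer-moments] -/
theorem bd7cc_raw (hX : X.Ok) (hW : W.IsHub) (hcL : 0 < cL) (hcL1 : cL ≤ 1) (hCL : 1 ≤ CL) (hb : BcsBase X W Fam) (hadm : Bd7Adm X W Fam Kb) :
    Bd7CRaw X W Fam cL CL := by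
  intro cs _
  have H : ∀ k : ℕ, ∃ A2 : ℝ, 0 < A2 ∧ (1 ≤ k → ∃ N0 : ℕ, ∀ W : BdWorld, W.IsHub → ∀ (F : BdFr) (g : ℝ) (Q : BdQ F X) (w c0 : ℝ),
      BudRxH X W F g Q w cL CL c0 → N0 ≤ F.N → ∀ p : GhPos, p.Ok 1 → cmkMR F.m (Q.bE g) (Q.hE g) k p ≤ (A2 * (w + p.u)) ^ (2 * k)) := by
    intro k
    by_cases hk : 1 ≤ k
    · obtain ⟨A2, N0, hA, H⟩ := bud_rx_mr hX hcL hcL1 hCL hk
      exact ⟨A2, hA, fun _ => ⟨N0, H⟩⟩
    · exact ⟨1, one_pos, fun h => absurd h hk⟩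
  choose Cr hCr H using H
  obtain ⟨N1, hout⟩ := bud_rx_of_out hX hb hadm cL CL
  refine ⟨Cr, hCr, fun k hk => ?_⟩
  obtain ⟨N0, H⟩ := H k hk
  refine ⟨max N0 N1, fun i hi hN p hp => ?_⟩
  obtain ⟨c0, h⟩ := hout i hi.toOut ((le_max_right _ _).trans hN)
  have h1 := H W hW i.F i.g i.Q i.w c0 h ((le_max_left _ _).trans hN) p hp
  have e : i.mom p 0 k = cmkMR i.F.m (i.Q.bE i.g) (i.Q.hE i.g) k p := by
    unfold Bd7I.mom cmkMR cmkStar
    simp only [sub_zero]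
  rw [e, add_comm]
  exact h1

/-! ## 2. numerics of (16) -/

section num
variable {F : BdFr}

/-- `1 + log(1 + C0/d³) ≤ K x^(-e)` for every `e > 0` -/
theorem bd7cc_lg_le (hX : X.Ok) {e : ℝ} (he : 0 < e) : ∃ K : ℝ, 0 < K ∧ ∀ F : BdFr, F.Ok X → F.lgC X ≤ K * F.x ^ (-e) := by
  have hcd := hX.cd_pos
  have hCU := hX.CU_pos
  have hB : 0 < 1 + X.CU / X.cd ^ 3 := by positivity
  refine ⟨1 + (1 + X.CU / X.cd ^ 3) ^ e / e, by positivity, fun F h => ?_⟩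
  have hx := BdFr.x_pos' h
  have hx1 := (bd7_ar_x_lt_one h).le
  have hu := BdFr.u_pos' hX h
  have hl := BdFr.lam_pos' h
  have hC0 := bd7_ar_C0_pos hX h
  have hxU : F.x ≤ F.U X := by
    unfold BdFr.U
    have hs : 0 ≤ X.sS / 2 := by
      unfold BdFix.sS
      have := hX.tau_le
      linarith
    have : 1 ≤ F.lam ^ (-(X.sS / 2)) :=
      Real.one_le_rpow_of_pos_of_le_one_of_nonpos hl (bd7_ar_lam_le_one hX h) (by linarith)
    nlinarith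
  have hxu : F.x ≤ X.CU * F.u := hxU.trans h.u_lo
  have e1 : F.C0 / F.dPE X ^ 3 = 1 / (X.cd ^ 3 * F.u) := by
    rw [bud_gb_d_cube h]; field_simp
  have h2 : 1 / (X.cd ^ 3 * F.u) ≤ X.CU / X.cd ^ 3 / F.x := by
    rw [div_div, div_le_div_iff₀ (by positivity) (by positivity)]
    nlinarith [pow_pos hcd 3]
  have h3 : 1 + F.C0 / F.dPE X ^ 3 ≤ (1 + X.CU / X.cd ^ 3) / F.x := by
    rw [e1, add_div]
    have : 1 ≤ 1 / F.x := by rw [le_div_iff₀ hx]; linarith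
    linarith
  have h4 : 0 < 1 + F.C0 / F.dPE X ^ 3 := by
    have : 0 ≤ F.C0 / F.dPE X ^ 3 := by rw [e1]; positivity
    linarith
  have h5 : Real.log (1 + F.C0 / F.dPE X ^ 3) ≤ (1 + F.C0 / F.dPE X ^ 3) ^ e / e := Real.log_le_rpow_div h4.le he
  have h6 : (1 + F.C0 / F.dPE X ^ 3) ^ e ≤ (1 + X.CU / X.cd ^ 3) ^ e * F.x ^ (-e) := by
    calc (1 + F.C0 / F.dPE X ^ 3) ^ e ≤ ((1 + X.CU / X.cd ^ 3) / F.x) ^ e := Real.rpow_le_rpow h4.le h3 he.le
      _ = (1 + X.CU / X.cd ^ 3) ^ e * F.x ^ (-e) := by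
          rw [Real.div_rpow hB.le hx.le, Real.rpow_neg hx.le, div_eq_mul_inv]
  have h7 : 1 ≤ F.x ^ (-e) := Real.one_le_rpow_of_pos_of_le_one_of_nonpos hx hx1 (by linarith)
  unfold BdFr.lgC
  calc 1 + Real.log (1 + F.C0 / F.dPE X ^ 3) ≤ F.x ^ (-e) + (1 + X.CU / X.cd ^ 3) ^ e * F.x ^ (-e) / e := by
        have := div_le_div_of_nonneg_right h6 he.le
        linarith
    _ = _ := by ring

/-- the number of layers is a logarithm: `K + 2 ≤ (22/e) x^(-e)` -/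
theorem bd7cc_K_le (X : BdFix) {e : ℝ} (he : 0 < e) : ∃ N0 : ℕ, ∀ F : BdFr, F.Ok X → N0 ≤ F.N → (budRxK F : ℝ) + 2 ≤ 22 / e * F.x ^ (-e) := by
  obtain ⟨N0, h0⟩ := bd7_ar_x_small X (a := 1) (ε := Real.exp (-1)) one_pos (Real.exp_pos _)
  refine ⟨N0, fun F h hN => ?_⟩
  have hx := BdFr.x_pos' h
  have h1 := h0 F h hN
  rw [Real.rpow_one] at h1
  have h2 : Real.log F.x ≤ -1 := by
    have := Real.log_le_log hx h1
    rwa [Real.log_exp] at this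
  have h3 := bud_rx_num_K_le h (by linarith)
  have h4 : -Real.log F.x ≤ F.x ^ (-e) / e := by
    have := Real.log_le_rpow_div (inv_pos.2 hx).le he
    rw [Real.log_inv, Real.inv_rpow hx.le, ← Real.rpow_neg hx.le] at this
    exact this
  calc (budRxK F : ℝ) + 2 ≤ 22 * (-Real.log F.x) := by linarith
    _ ≤ 22 * (F.x ^ (-e) / e) := by linarith
    _ = _ := by ring

/-- the slope of the field clock against the profile: `C(v) ≤ lg sg(v)` -/
theorem bd7cc_sg_ge (hX : X.Ok) (h : F.Ok X) {v : ℝ} (hv : 0 < v) (hv1 : v ≤ 1) : F.C X v ≤ F.lgC X * budRxSg F X v := by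
  have hd := bd7_ar_dPE_pos hX h
  have hC0 := bd7_ar_C0_pos hX h
  have hL := bd7ca_lg_ge hX h
  have hL0 : 0 < F.lgC X := by linarith
  have a1 : 1 / F.lgC X ≤ 1 - F.pC X v := by
    unfold BdFr.lgC BdFr.pC CmCall.pp
    refine cm_p_gap_of_le ?_ ?_
    · have : F.C0 * v / (F.call X).d ^ 3 ≤ F.C0 * 1 / (F.call X).d ^ 3 := by gcongr
      have e2 : F.C0 * 1 / (F.call X).d ^ 3 = F.C0 / F.dPE X ^ 3 := by rw [mul_one]; rfl
      linarith
    · have : 0 ≤ F.C0 / F.dPE X ^ 3 := by positivity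
      linarith
  rw [bud_rx_sg_eq hX h hv]
  have hC := (bd7_ar_C_pos hX h v).le
  calc F.C X v = F.lgC X * (1 / F.lgC X * F.C X v) := by field_simp
    _ ≤ F.lgC X * ((1 - F.pC X v) * F.C X v) := mul_le_mul_of_nonneg_left (mul_le_mul_of_nonneg_right a1 hC) hL0.le

/-- `x⁶ m ≥ 1/2` -/
theorem bd7cc_xm (h : F.Ok X) : 1 / 2 ≤ F.x ^ 6 * F.m := by
  have hx := BdFr.x_pos' h
  have hNpos : (0 : ℝ) < F.N := by
    have := h.N2
    exact_mod_cast (by omega : 0 < F.N)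
  have e : F.x ^ 6 * F.N = 1 := by
    unfold BdFr.x
    rw [← Real.rpow_natCast, ← Real.rpow_mul hNpos.le]
    norm_num
    rw [Real.rpow_neg_one, inv_mul_cancel₀ hNpos.ne']
  have := mul_le_mul_of_nonneg_left h.m_lo (pow_pos hx 6).le
  nlinarith

/-- the denominator of the two-branch layer lemma at `w0 = v/(2Γ)` -/
theorem bd7cc_den (hX : X.Ok) (h : F.Ok X) {c C : ℝ} (hc : 0 < c) (hc1 : c ≤ 1) (hC : 1 ≤ C) {v : ℝ} (hv : 0 < v) (hv1 : v ≤ 1) :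
    v * Real.sqrt (F.C X v)
      ≤ 4 * budRxGam c C * F.lgC X * F.x ^ 3 * Real.sqrt (F.m * (v / (2 * budRxGam c C)) * budRxT5 F X C (v / (2 * budRxGam c C))) := by
  have hG := bud_rx_Gam_ge hc hc1 hC
  have hG0 : 0 < budRxGam c C := by linarith
  have hx := BdFr.x_pos' h
  have hL := bd7ca_lg_ge hX h
  have hCv := bd7_ar_C_pos hX h v
  have hm := bd7cc_xm h
  have hm0 : (0 : ℝ) ≤ F.m := Nat.cast_nonneg _
  have e0 : 2 * C * (v / (2 * budRxGam c C)) = c * v / 4 := by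
    unfold budRxGam
    field_simp
  have hs1 : budRxSg F X v ≤ budRxSg F X (2 * C * (v / (2 * budRxGam c C))) := by
    rw [e0]
    exact bud_rx_sg_anti hX h (by positivity) (by nlinarith)
  have hs2 := bd7cc_sg_ge hX h hv hv1
  have hs0 : 0 < budRxSg F X v := bud_rx_sg_pos hX h hv
  obtain ⟨S, hS⟩ : ∃ S, S = budRxSg F X (2 * C * (v / (2 * budRxGam c C))) := ⟨_, rfl⟩
  have hE : F.m * (v / (2 * budRxGam c C)) * budRxT5 F X C (v / (2 * budRxGam c C)) = F.m * C * v ^ 2 * S / (4 * budRxGam c C ^ 2) := by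
    unfold budRxT5
    rw [← hS]
    field_simp
    ring
  rw [hE]
  rw [← hS] at hs1
  have key : (v * Real.sqrt (F.C X v)) ^ 2 ≤ (4 * budRxGam c C * F.lgC X * F.x ^ 3) ^ 2 * (F.m * C * v ^ 2 * S / (4 * budRxGam c C ^ 2)) := by
    rw [mul_pow, Real.sq_sqrt hCv.le]
    have e1 : (4 * budRxGam c C * F.lgC X * F.x ^ 3) ^ 2 * (F.m * C * v ^ 2 * S / (4 * budRxGam c C ^ 2))
        = 4 * v ^ 2 * (F.x ^ 6 * F.m) * C * (F.lgC X * (F.lgC X * S)) := by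
      field_simp
    rw [e1]
    have h1 : F.C X v ≤ F.lgC X * S := hs2.trans (mul_le_mul_of_nonneg_left hs1 (by linarith))
    have h2 : F.C X v ≤ F.lgC X * (F.lgC X * S) := by
      have : 0 ≤ F.lgC X * S := hCv.le.trans h1
      nlinarith
    have h3 : (1 : ℝ) / 2 ≤ F.x ^ 6 * F.m * C := by
      have : 0 ≤ F.x ^ 6 * F.m := by positivity
      nlinarith
    have h4 : 0 ≤ F.lgC X * (F.lgC X * S) := hCv.le.trans h2
    have hv2 : 0 < v ^ 2 := by positivity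
    calc v ^ 2 * F.C X v ≤ v ^ 2 * (F.lgC X * (F.lgC X * S)) := mul_le_mul_of_nonneg_left h2 hv2.le
      _ ≤ 4 * v ^ 2 * (F.x ^ 6 * F.m * C) * (F.lgC X * (F.lgC X * S)) := by
          have : v ^ 2 ≤ 4 * v ^ 2 * (F.x ^ 6 * F.m * C) := by nlinarith
          exact mul_le_mul_of_nonneg_right this h4
      _ = _ := by ring
  have hb : 0 ≤ 4 * budRxGam c C * F.lgC X * F.x ^ 3 := by positivity
  calc v * Real.sqrt (F.C X v) = Real.sqrt ((v * Real.sqrt (F.C X v)) ^ 2) := (Real.sqrt_sq (by positivity)).symm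
    _ ≤ Real.sqrt ((4 * budRxGam c C * F.lgC X * F.x ^ 3) ^ 2 * (F.m * C * v ^ 2 * S / (4 * budRxGam c C ^ 2))) := Real.sqrt_le_sqrt key
    _ = _ := by rw [Real.sqrt_mul (sq_nonneg _), Real.sqrt_sq hb]

end num

/-! ## 3. (16) for one optimiser under outer regularity -/

set_option maxHeartbeats 1000000 in
/-- **the post-projection bound (16)**, labels of PE Lemma 3.6 (`0 = a`, `1 = a'` split at `pv`, `2 = b` leaves at `pf`); the threshold `16 Γ²` does not see the moment order.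
TEX[LL:bud:outer-moments] -/
theorem bd7cc_res_rx (hX : X.Ok) {c C : ℝ} (hcp : 0 < c) (hc1 : c ≤ 1) (hC : 1 ≤ C) {l : ℕ} (hl : 1 ≤ l) {ε : ℝ} (hε : 0 < ε) :
    ∃ (K : ℝ) (N0 : ℕ), 0 < K ∧ ∀ W : BdWorld, W.IsHub → ∀ (F : BdFr) (g : ℝ) (Q : BdQ F X) (w c0 : ℝ), BudRxH X W F g Q w c C c0 → N0 ≤ F.N →
      ∀ pf pv : GhPos, pf.Ok 1 → pv.Ok 1 → 16 * budRxGam c C ^ 2 * (pf.u + w) ≤ pv.u →
        skCNu F.m 1 (Q.bE g) (Q.hE g) 3 (fun y z => if y = z then ⊤ else if y = 2 ∨ z = 2 then (pf : WithTop GhPos) else (pv : WithTop GhPos))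
            (fun σ => (skOv (σ 0) (σ 2) - skOv (σ 1) (σ 2)) ^ (2 * l))
          ≤ (K * F.x ^ (-ε) * (F.x ^ 3 / (pv.u * Real.sqrt (F.C X pv.u)))) ^ (2 * l) := by
  have hG := bud_rx_Gam_ge hcp hc1 hC
  have hG0 : 0 < budRxGam c C := by linarith
  have hQ0 := bud_rx_Q0_ge c hC
  obtain ⟨Ct, hCt, HT⟩ := cm5_tbl_pf (2 * l) (even_two_mul l) (by omega) (budRxGam c C)
  obtain ⟨Pi, hPi, HP⟩ := ckm_proj l hl
  obtain ⟨N1, HR⟩ := bud_rx_raw hX hcp hC hl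
  obtain ⟨N2, hN2⟩ := bud_rx_num hX C 1 hC
  obtain ⟨K1, hK1, hlg⟩ := bd7cc_lg_le hX (e := ε / 2) (by positivity)
  obtain ⟨N3, hKl⟩ := bd7cc_K_le X (e := ε / 4) (by positivity)
  have hPi0 : 0 < Pi := by linarith
  have hQ00 : 0 < budRxQ0 c C := by linarith
  refine ⟨8 * budRxGam c C * Ct * budRxQ0 c C * Pi * K1 * (22 / (ε / 4)) ^ 2, max N1 (max N2 N3), by positivity,
    fun W hW F g Q w c0 h hN pf pv hpf hpv hv => ?_⟩
  have n1 : N1 ≤ F.N := (le_max_left _ _).trans hN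
  have n2 : N2 ≤ F.N := ((le_max_left _ _).trans (le_max_right _ _)).trans hN
  have n3 : N3 ≤ F.N := ((le_max_right _ _).trans (le_max_right _ _)).trans hN
  have hw0 := bud_rx_w_pos hX h
  have hm := bud_rx_m_pos h.ok
  have hNum := hN2 F h.ok n2
  have hx := BdFr.x_pos' h.ok
  have hpf0 : 0 ≤ pf.u := hpf.1
  have hv1 : pv.u ≤ 1 := hpv.2.1
  obtain ⟨v, hvd⟩ : ∃ v : ℝ, v = pv.u := ⟨_, rfl⟩
  rw [← hvd] at hv hv1 ⊢
  have hG2 : 4 * budRxGam c C ≤ 16 * budRxGam c C ^ 2 := by nlinarith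
  have hs0 : 0 < pf.u + w := by linarith
  have hv4 : 4 * budRxGam c C * (pf.u + w) ≤ v := (mul_le_mul_of_nonneg_right hG2 hs0.le).trans hv
  have hv0 : 0 < v := lt_of_lt_of_le (by positivity) hv4
  have hw : 16 * budRxGam c C ^ 2 * w ≤ 1 := by
    have : 16 * budRxGam c C ^ 2 * w ≤ 16 * budRxGam c C ^ 2 * (pf.u + w) := mul_le_mul_of_nonneg_left (by linarith) (by positivity)
    linarith
  have hlt : pf.u < pv.u := by
    rw [← hvd]
    have : 1 * (pf.u + w) ≤ 4 * budRxGam c C * (pf.u + w) := mul_le_mul_of_nonneg_right (by linarith) hs0.le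
    linarith
  have hle : pf ≤ pv := (gh_os_pos_le_iff _ _).2 (Or.inl hlt)
  refine ckm_nu_le hm (bud_rx_adm h) (cvlb_rt 2 3 hpf hpv hle) _ ?_
  refine Filter.Eventually.mono (f := atTop) ((bud_rx_fine hX h).and (HR W hW F g Q w c0 h n1)) fun F' hF' => ?_
  beta_reduce at hF' ⊢
  have hM : (Q.rxM g (ghPs 1 F')).Ok := ckm_ok hm (bud_rx_adm h) F'
  have hc := ckm_ch F'
  have hadm := cmk_chain_adm (bud_rx_adm h) F'
  have hL : (Q.rxM g (ghPs 1 F')).L = (ckStp 1 (Q.bE g) (Q.hE g) (ghPs 1 F')).length := rfl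
  have hL' : (Q.rxM g (ghPs 1 F')).L = (ghPs 1 F').length := ckm_L F.m _ _ _
  have hif : ghIdx (ghPs 1 F') (pf : WithTop GhPos) ≤ (Q.rxM g (ghPs 1 F')).L := hL' ▸ brg_t_idx_coe_le _ pf
  have hiv : ghIdx (ghPs 1 F') (pv : WithTop GhPos) ≤ (Q.rxM g (ghPs 1 F')).L := hL' ▸ brg_t_idx_coe_le _ pv
  have h3 := cm5_sk_three F.m hm (ckStp 1 (Q.bE g) (Q.hE g) (ghPs 1 F')) hadm (ghIdx (ghPs 1 F') pf) (ghIdx (ghPs 1 F') pv)
    (brg_t_idx_mono _ (WithTop.coe_le_coe.2 hle)) (hL ▸ hiv)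
    (ghDisc (ghPs 1 F') (fun y z => if y = z then ⊤ else if y = 2 ∨ z = 2 then (pf : WithTop GhPos) else (pv : WithTop GhPos)))
    (by simp [ghDisc]) (by simp [ghDisc]) (by simp [ghDisc]) (by simp [ghDisc]) (by simp [ghDisc]) (by simp [ghDisc]) l hl
  refine le_trans h3 ?_
  have hK : 1 ≤ budRxGam c C ^ budRxK F * (2 * w) := by
    have h1 := hNum.K_big
    have h2 : (2 : ℝ) ^ (budRxK F - 1) ≤ budRxGam c C ^ budRxK F :=
      calc (2 : ℝ) ^ (budRxK F - 1) ≤ 2 ^ budRxK F := pow_le_pow_right₀ (by norm_num) (Nat.sub_le _ _)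
        _ ≤ budRxGam c C ^ budRxK F := pow_le_pow_left₀ (by norm_num) (by linarith) _
    have h3 : budRxEta F ≤ 2 * w := by linarith [bud_rx_eta_le hNum, h.w_lo]
    calc (1 : ℝ) ≤ 2 ^ (budRxK F - 1) * budRxEta F := h1
      _ ≤ budRxGam c C ^ budRxK F * (2 * w) := mul_le_mul h2 h3 (bud_rx_eta_pos h.ok).le (by positivity)
  have eG : budRxGam c C * (v / (2 * budRxGam c C)) = v / 2 := by field_simp
  have h4 := HT F.m (SkOm F.m) (Q.rxM g (ghPs 1 F')) (2 * w) (1 / (8 * budRxGam c C ^ 2)) 1 (budRxT5 F X C) (budRxS5 F X C) Pi (budRxQ0 c C) w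
    (budRxK F) hM (bud_rx_clk5 hX hcp hc1 hC h hw hF'.1 hM) (HP F.m _ _ F' hm (bud_rx_adm h)) hPi hQ0 hw0 (by linarith)
    (ckm_raw_exp hM (by omega) (by omega) hF'.2) hK
    (ghIdx (ghPs 1 F') pf) (ghIdx (ghPs 1 F') pv) ((Q.rxM g (ghPs 1 F')).L + 1) ((Q.rxM g (ghPs 1 F')).L + 1) (v / (2 * budRxGam c C)) hif
    (by
      rw [le_div_iff₀ (by positivity)]
      have : 4 * budRxGam c C * w ≤ 4 * budRxGam c C * (pf.u + w) := mul_le_mul_of_nonneg_left (by linarith) (by positivity)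
      linarith)
    (by
      have h5 : (Q.rxM g (ghPs 1 F')).mass (ghIdx (ghPs 1 F') pf) ≤ pf.u := ckm_idx_mass_le F.m _ _ hc hpf
      rw [le_div_iff₀ (by positivity)]
      have h6 : 4 * budRxGam c C * (Q.rxM g (ghPs 1 F')).mass (ghIdx (ghPs 1 F') pf) ≤ 4 * budRxGam c C * (pf.u + w) :=
        mul_le_mul_of_nonneg_left (by linarith) (by positivity)
      linarith)
    (by rw [eG]; linarith)
    (by
      rw [eG]
      have e5 : (Q.rxM g (ghPs 1 F')).nd (v / 2) = ghIdx (ghPs 1 F') ((ghPosA (v / 2) : GhPos) : WithTop GhPos) :=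
        ckm_nd F.m _ _ hc (by positivity)
      rw [e5]
      refine brg_t_idx_mono _ (WithTop.coe_le_coe.2 ((gh_os_pos_le_iff _ _).2 (Or.inl ?_)))
      show v / 2 < pv.u
      rw [← hvd]; linarith)
    (hiv.trans (Nat.le_succ _)) le_rfl (hif.trans (Nat.le_succ _)) le_rfl
  refine pow_le_pow_left₀ (mul_nonneg zero_le_two (cmN_nonneg _ _ _)) ?_ _
  refine (mul_le_mul_of_nonneg_left h4 zero_le_two).trans ?_
  -- numerics
  have hden := bd7cc_den hX h.ok hcp hc1 hC hv0 hv1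
  obtain ⟨E, hE⟩ : ∃ E, E = Real.sqrt (F.m * (v / (2 * budRxGam c C)) * budRxT5 F X C (v / (2 * budRxGam c C))) := ⟨_, rfl⟩
  rw [← hE] at hden ⊢
  have hCv := bd7_ar_C_pos hX h.ok v
  have hvs : 0 < v * Real.sqrt (F.C X v) := mul_pos hv0 (Real.sqrt_pos.2 hCv)
  have hL1 := bd7ca_lg_ge hX h.ok
  have hE0 : 0 < E := by
    by_contra hcon
    have hE' : E ≤ 0 := not_lt.1 hcon
    have : 4 * budRxGam c C * F.lgC X * F.x ^ 3 * E ≤ 0 := mul_nonpos_of_nonneg_of_nonpos (by positivity) hE'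
    linarith
  have hk := hKl F h.ok n3
  have hk0 : (0 : ℝ) ≤ (budRxK F : ℝ) + 2 := by positivity
  have p4 := Real.rpow_pos_of_pos hx (-(ε / 4))
  have p2 := Real.rpow_pos_of_pos hx (-(ε / 2))
  have hk2 : ((budRxK F : ℝ) + 2) ^ 2 ≤ (22 / (ε / 4)) ^ 2 * F.x ^ (-(ε / 2)) := by
    have e1 : F.x ^ (-(ε / 2)) = (F.x ^ (-(ε / 4))) ^ 2 := by
      rw [← Real.rpow_natCast, ← Real.rpow_mul hx.le]
      congr 1; push_cast; ring
    rw [e1, ← mul_pow]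
    exact pow_le_pow_left₀ hk0 hk 2
  have hl2 := hlg F h.ok
  have e2 : F.x ^ (-ε) = F.x ^ (-(ε / 2)) * F.x ^ (-(ε / 2)) := by
    rw [← Real.rpow_add hx]
    congr 1; ring
  rw [← mul_div_assoc, ← mul_div_assoc, div_le_div_iff₀ hE0 hvs]
  calc 2 * (Ct * ((budRxK F : ℝ) + 2) ^ 2 * budRxQ0 c C * Pi) * (v * Real.sqrt (F.C X v))
      ≤ 2 * (Ct * ((22 / (ε / 4)) ^ 2 * F.x ^ (-(ε / 2))) * budRxQ0 c C * Pi) * (4 * budRxGam c C * (K1 * F.x ^ (-(ε / 2))) * F.x ^ 3 * E) := by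
        have hd2 : 4 * budRxGam c C * F.lgC X * F.x ^ 3 * E ≤ 4 * budRxGam c C * (K1 * F.x ^ (-(ε / 2))) * F.x ^ 3 * E := by gcongr
        have := hden.trans hd2
        gcongr
    _ = _ := by rw [e2]; ring

/-- **`Bd7CRes`**      TEX[LL:bud:outer-moments] -/
theorem bd7cc_res (hX : X.Ok) (hW : W.IsHub) (hcL : 0 < cL) (hcL1 : cL ≤ 1) (hCL : 1 ≤ CL) (hb : BcsBase X W Fam) (hadm : Bd7Adm X W Fam Kb) :
    Bd7CRes X W Fam cL CL := by
  intro cs _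
  have hG := bud_rx_Gam_ge hcL hcL1 hCL
  refine ⟨16 * budRxGam cL CL ^ 2, by nlinarith, fun k hk ε hε => ?_⟩
  obtain ⟨K, N0, hK, H⟩ := bd7cc_res_rx hX hcL hcL1 hCL hk hε
  obtain ⟨N1, hout⟩ := bud_rx_of_out hX hb hadm cL CL
  refine ⟨K, max N0 N1, hK, fun i hi hN p0 pv hp0 hpv hv => ?_⟩
  obtain ⟨c0, h⟩ := hout i hi.toOut ((le_max_right _ _).trans hN)
  have h1 := H W hW i.F i.g i.Q i.w c0 h ((le_max_left _ _).trans hN) p0 pv hp0 hpv hv
  have hw0 := bud_rx_w_pos hX h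
  have hlt : p0.u < pv.u := by
    have h2 : 1 * (p0.u + i.w) ≤ 16 * budRxGam cL CL ^ 2 * (p0.u + i.w) :=
      mul_le_mul_of_nonneg_right (by nlinarith) (by have := hp0.1; linarith)
    linarith
  have hle : p0 ≤ pv := (gh_os_pos_le_iff _ _).2 (Or.inl hlt)
  have e : skCNu i.F.m 1 (i.Q.bE i.g) (i.Q.hE i.g) 3
      (fun y z => if y = z then ⊤ else if y = 2 ∨ z = 2 then (p0 : WithTop GhPos) else (pv : WithTop GhPos))
      (fun σ => (skOv (σ 0) (σ 2) - skOv (σ 1) (σ 2)) ^ (2 * k)) = i.res p0 pv k :=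
    cvl_res_swap (i.cav 1 1 1 p0 p0 p0) (bud_rx_adm h) hp0 hpv hle k
  rw [← e]
  exact h1

/-! ## 4. the supply -/

/-- **THE SUPPLY** for `cL ≤ 1 ≤ CL`: what is left of N5 are (C9) and the resampled residual with a short first interval (both enter through Lemma 7.6 only).      TEX[LL:bud:modified-closure] -/
theorem bd7cc_sup1 (hX : X.Ok) (hW : W.IsHub) (hcL : 0 < cL) (hcL1 : cL ≤ 1) (hCL : 1 ≤ CL) (hi0 : 0 < i0)
    (hb : BcsBase X W Fam) (hadm : Bd7Adm X W Fam Kb) (hilo : ∀ F, Fam F → i0 ≤ F.Ilo) (hp9 : Bd7P9 X Fam)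
    (h9 : ∀ cs : ℝ, 0 < cs → BcsC9 W (BcsIn.Cls (X := X) · W Fam ⟨cL, CL, cs, i0⟩) ⟨cL, CL, cs, i0⟩)
    (hres : ∀ cs : ℝ, 0 < cs → BcsRes W (BcsIn.Cls (X := X) · W Fam ⟨cL, CL, cs, i0⟩)) :
    Bd7CSup X W Fam cL CL := by
  have hK : ∀ cs, 0 < cs → (⟨cL, CL, cs, i0⟩ : BcsK).Ok := fun cs hcs => ⟨hcL, hcL1, hCL, hcs, hi0⟩
  have h8 : ∀ cs, 0 < cs → BcsRaw W (BcsIn.Cls (X := X) · W Fam ⟨cL, CL, cs, i0⟩) := fun cs hcs => bud_rx_bcsraw hX hW (hK cs hcs)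
  have hst := fun cs (hcs : 0 < cs) => bud_star_n5 hX (hK cs hcs) hW (h8 cs hcs) (h9 cs hcs) (hres cs hcs)
  exact bd7cb_sup hX hW hcL hcL1 hCL hi0 hb hadm hilo hp9 (bd7cc_raw hX hW hcL hcL1 hCL hb hadm) (bd7cc_res hX hW hcL hcL1 hCL hb hadm)
    (fun cs hcs => bcs_x_c10f hX (hK cs hcs) hW (h8 cs hcs)) (fun cs hcs => (hst cs hcs).2.2.1) (fun cs hcs => (hst cs hcs).2.2.2)

/-- the class of the strong instances increases when the loose constants are loosened -/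
theorem bd7cc_str_mono (hX : X.Ok) {i : Bd7I X} {cs c1 C1 : ℝ} (h1 : c1 ≤ cL) (h2 : CL ≤ C1) (hi : i.Str W Fam cL CL cs) :
    i.Str W Fam c1 C1 cs :=
  { hi with
    reg := fun v hv hv1 => by
      have hw0 : 0 < i.w := lt_of_lt_of_le (BdFr.wc_pos' hX hi.ok) hi.w_lo
      have hv0 : 0 ≤ v := by linarith
      obtain ⟨a, b⟩ := hi.reg v hv hv1
      exact ⟨(mul_le_mul_of_nonneg_right h1 hv0).trans a, b.trans (mul_le_mul_of_nonneg_right h2 hv0)⟩ }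

theorem bd7cc_sup_mono (hX : X.Ok) {c1 C1 : ℝ} (h1 : c1 ≤ cL) (h2 : CL ≤ C1) (h : Bd7CSup X W Fam c1 C1) : Bd7CSup X W Fam cL CL := by
  intro cs c C hcs hc hcC
  obtain ⟨c', C', ρ, Cp, a1, a2, a3, H⟩ := h cs c C hcs hc hcC
  refine ⟨c', C', ρ, Cp, a1, a2, a3, fun kM δ hδ => ?_⟩
  obtain ⟨N0, H⟩ := H kM δ hδ
  exact ⟨N0, fun i hi hN => H i (bd7cc_str_mono hX h1 h2 hi) hN⟩

/-- **THE SUPPLY for all loose constants**      TEX[LL:bud:modified-closure] -/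
theorem bd7cc_sup (hX : X.Ok) (hW : W.IsHub) (hcL : 0 < cL) (hi0 : 0 < i0)
    (hb : BcsBase X W Fam) (hadm : Bd7Adm X W Fam Kb) (hilo : ∀ F, Fam F → i0 ≤ F.Ilo) (hp9 : Bd7P9 X Fam)
    (h9 : ∀ K : BcsK, K.Ok → BcsC9 W (BcsIn.Cls (X := X) · W Fam K) K)
    (hres : ∀ K : BcsK, K.Ok → BcsRes W (BcsIn.Cls (X := X) · W Fam K)) :
    Bd7CSup X W Fam cL CL :=
  bd7cc_sup_mono hX (min_le_left cL 1) (le_max_left CL 1)
    (bd7cc_sup1 hX hW (lt_min hcL one_pos) (min_le_right _ _) (le_max_right _ _) hi0 hb hadm hilo hp9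
      (fun _ hcs => h9 _ ⟨lt_min hcL one_pos, min_le_right _ _, le_max_right _ _, hcs, hi0⟩)
      (fun _ hcs => hres _ ⟨lt_min hcL one_pos, min_le_right _ _, le_max_right _ _, hcs, hi0⟩))

end

end Claimed.Agent.R286
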