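import Claimed.Agent.R286.Bud.L07Cc

/-!
# Row 286 (S0533), LL sec. 7, node N5 -> N7/N8: THE RESAMPLED RESIDUAL WITH A SHORT FIRST PROJECTION INTERVAL = `BcsRes`      (owner helper33; prefix `bd7cd_`)
TEX[LL:bud:outer-moments] (`07-budgets.tex` l.243-245) TEX[LL:bud:common-star] (l.530-532)

* `bd7cd_resid`    ABSTRACT (paths `CmPath`): fork at the node `s` (mass `≍ v`), first projection interval `[s, t']` of field clock `≥ θc` (GIVEN DIRECTLY: in LL the clock is long in the RADIUS, not in the mass),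
                   then the synchronized dyadic layers: `cm5_tbl_pf` above `4v`.   Variant of `cm5_resid_pf` (38).
* `bd7cd_res_rx`   one optimiser of (C5) under outer regularity: nodes `v`, `vc` of a fine chain, `θc = sg(8Cv) (r(vc) - r(v))` (`bud_rx_slope`, `bud_rx_phi_slope`); limit `ckm_nu_le`; three leaves `cm5_sk_three`.
* `bd7cd_bcsres`  **`BcsRes`** on the class of Lemma 7.6 over a Hub.
-/

set_option autoImplicit false

namespace Claimed.Agent.R286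

open MeasureTheory Set Filter Topology

noncomputable section

/-! ## 1. the abstract lemma -/

set_option maxHeartbeats 1000000 in
open CmPath in
/-- residual after a short clock given directly -/
theorem bd7cd_resid (p : ℕ) (hp : Even p) (hp2 : 2 ≤ p) (Γ : ℝ) : ∃ C : ℝ, 0 < C ∧
    ∀ (n : ℕ) (Ω : Type) [MeasurableSpace Ω] (M : CmPath n Ω) (x0 um ηm : ℝ) (th sg : ℝ → ℝ) (Pi Q x : ℝ) (K : ℕ),
      M.Ok → Cm5Clk M x0 um Γ ηm th sg → M.Proj p Pi → 1 ≤ Pi → 1 ≤ Q → 0 < x → x ≤ x0 → M.Raw p Q x → 1 ≤ Γ ^ K * x0 →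
      ∀ (v θc : ℝ) (s t' i' : ℕ), x0 ≤ v → Γ * (4 * v) ≤ 1 → s ≤ M.L → v ≤ M.mass (s + 1) → M.mass s ≤ 2 * v → s < t' → t' ≤ M.L →
        M.mass t' ≤ Γ * (4 * v) → 0 < θc → θc ≤ M.hck t' - M.hck s → s ≤ i' → i' ≤ M.L + 1 →
        cmN (M.P2 s) p (fun z : Ω × Ω => inner ℝ (M.X (M.L + 1) z.1 - M.X t' z.1) (M.X i' z.2))
          ≤ C * (K + 2) ^ 2 * (Q * Pi / Real.sqrt (n * v * θc) + Q * Pi / Real.sqrt (n * (4 * v) * th (4 * v))) := by
  obtain ⟨Ct, hCt, htbl⟩ := cm5_tbl_pf p hp hp2 Γ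
  refine ⟨Ct + 4 * Real.sqrt (1 + 4 * Γ), by positivity, ?_⟩
  intro n Ω _ M x0 um ηm th sg Pi Q x K hM hClk hProj hPi hQ hx hxx0 hRaw hK v θc s t' i' hv hΓ4 hsL hvs hms hst ht'L' hmt hθ hθ' hsi' hi'
  have hp1 : 1 ≤ p := by omega
  have hΓ : 2 ≤ Γ := hClk.hΓ
  have hx0 : 0 < x0 := hClk.hx0
  have hv0 : 0 < v := hx0.trans_le hv
  have hPi0 : 0 ≤ Pi := by linarith
  have hQ0 : 0 ≤ Q := by linarith
  have := P2_prob hM s
  have := hM.prob
  set cΓ := Real.sqrt (1 + 4 * Γ) with hcΓ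
  have hcΓ0 : 0 ≤ cΓ := Real.sqrt_nonneg _
  have h4v1 : 4 * v < 1 := by nlinarith
  set is := M.nd (Γ * (4 * v)) with his
  have ht'L : t' ≤ M.L + 1 := ht'L'.trans (Nat.le_succ _)
  have hisL : is ≤ M.L + 1 := (nd_le M _).trans (Nat.le_succ _)
  have ht'is : t' ≤ is := le_nd hM ht'L' hmt
  have hmis : M.mass is ≤ Γ * (4 * v) := mass_nd_le hM (by positivity)
  have hth4pos : 0 < th (4 * v) := hClk.th_pos _ (by linarith)
  have hsq : ∀ c : ℕ, c ≤ M.L + 1 → M.mass c ≤ Γ * (4 * v) → cmN M.P p (M.X c) ≤ cΓ * Q * Real.sqrt v := by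
    intro c hc hm
    have h1 := t_raw hQ0 hRaw hc hm
    have h2 : Real.sqrt (x + Γ * (4 * v)) ≤ cΓ * Real.sqrt v := by
      rw [hcΓ, ← Real.sqrt_mul (by positivity)]
      apply Real.sqrt_le_sqrt
      nlinarith
    calc _ ≤ Q * Real.sqrt (x + Γ * (4 * v)) := h1
      _ ≤ Q * (cΓ * Real.sqrt v) := mul_le_mul_of_nonneg_left h2 hQ0
      _ = _ := by ring
  set D1 := Q * Pi / Real.sqrt (n * v * θc) with hD1
  set D2 := Q * Pi / Real.sqrt (n * (4 * v) * th (4 * v)) with hD2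
  have hD10 : 0 ≤ D1 := by positivity
  have hD20 : 0 ≤ D2 := by positivity
  -- (α)
  have hα : cmN (M.P2 s) p (fun z : Ω × Ω => inner ℝ (M.X (M.L + 1) z.1 - M.X is z.1) (M.X i' z.2))
      ≤ Ct * (K + 2) ^ 2 * D2 := by
    have h := htbl n Ω M x0 um ηm th sg Pi Q x K hM hClk hProj hPi hQ hx hxx0 hRaw hK s is (M.L + 1) i' (4 * v) hsL
      (by linarith) (by linarith) hΓ4 le_rfl hisL le_rfl hsi' hi'
    refine h.trans (le_of_eq ?_)
    rw [hD2]; ring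
  -- (β1)
  have hβ1 : cmN (M.P2 s) p (fun z : Ω × Ω => inner ℝ (M.X is z.1 - M.X t' z.1) (M.X (min i' is) z.2)) ≤ 2 * cΓ * D1 := by
    have h := proj_fst hM hp hp1 hProj hPi0 le_rfl hst le_rfl ht'L ht'is hisL hv0 hvs hθ hθ'
      (hM.meas (min i' is)) (hM.norm_le _)
    have hγ := hsq (min i' is) ((min_le_right _ _).trans hisL) ((hM.mass_mono (min_le_right _ _)).trans hmis)
    exact h.trans (cm5t_num n hPi0 hQ0 hcΓ0 hv0 le_rfl hθ le_rfl hγ)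
  -- (β2)
  have hβ2 : cmN (M.P2 s) p (fun z : Ω × Ω => inner ℝ (M.X is z.1 - M.X t' z.1) (M.X i' z.2 - M.X (min i' is) z.2))
      ≤ 2 * cΓ * D2 := by
    by_cases hc : i' ≤ is
    · rw [min_eq_left hc]
      simp only [sub_self, inner_zero_right]
      rw [t_cmN_zero]; positivity
    · have hc' : is ≤ i' := (not_le.1 hc).le
      rw [min_eq_right hc']
      have hdy := hClk.dy (4 * v) (by linarith) hΓ4
      have hdy' : th (4 * v) ≤ M.hck is - M.hck (M.nd (4 * v)) := hdy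
      have h12 : M.nd (4 * v) < is := by
        by_contra hcon
        have := hM.hck_mono (not_lt.1 hcon)
        linarith
      have hτ : 4 * v ≤ M.mass (M.nd (4 * v) + 1) := (lt_mass_nd_succ hM h4v1).le
      have h := proj_snd hM hp hp1 hProj hPi0 (le_nd hM hsL (by linarith)) h12 le_rfl hisL hc' hi' (by positivity) hτ hth4pos hdy'
        (t_Xsub_meas hM is t') (t_Xsub_le hM _ _)
      have hγ : cmN M.P p (fun ω => M.X is ω - M.X t' ω) ≤ cΓ * Q * Real.sqrt (4 * v) := by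
        have h1 := cmN_sub_le (t_bmX hM is) (t_bmX hM t') p hp1
        have h2 := hsq is hisL hmis
        have h3 := hsq t' ht'L hmt
        have h4 : Real.sqrt (4 * v) = 2 * Real.sqrt v := by
          rw [Real.sqrt_mul (by norm_num), show (4 : ℝ) = 2 ^ 2 by norm_num, Real.sqrt_sq (by norm_num)]
        rw [h4]
        calc _ ≤ cmN M.P p (M.X is) + cmN M.P p (M.X t') := h1
          _ ≤ _ := by linarith
      exact h.trans (cm5t_num n hPi0 hQ0 hcΓ0 (by positivity) le_rfl hth4pos le_rfl hγ)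
  -- assembly
  have bα : CmBM (M.P2 s) (fun z : Ω × Ω => inner ℝ (M.X (M.L + 1) z.1 - M.X is z.1) (M.X i' z.2)) :=
    t_bm2 (g1 := fun ω => M.X (M.L + 1) ω - M.X is ω) (g2 := M.X i') s (t_Xsub_meas hM _ _) (hM.meas _)
      (t_Xsub_le hM _ _) (hM.norm_le _)
  have bβ1 : CmBM (M.P2 s) (fun z : Ω × Ω => inner ℝ (M.X is z.1 - M.X t' z.1) (M.X (min i' is) z.2)) :=
    t_bm2 (g1 := fun ω => M.X is ω - M.X t' ω) (g2 := M.X (min i' is)) s (t_Xsub_meas hM _ _) (hM.meas _)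
      (t_Xsub_le hM _ _) (hM.norm_le _)
  have bβ2 : CmBM (M.P2 s) (fun z : Ω × Ω => inner ℝ (M.X is z.1 - M.X t' z.1) (M.X i' z.2 - M.X (min i' is) z.2)) :=
    t_bm2 (g1 := fun ω => M.X is ω - M.X t' ω) (g2 := fun ω => M.X i' ω - M.X (min i' is) ω) s (t_Xsub_meas hM _ _)
      (t_Xsub_meas hM _ _) (t_Xsub_le hM _ _) (t_Xsub_le hM _ _)
  have bαβ : CmBM (M.P2 s) (fun z : Ω × Ω => inner ℝ (M.X (M.L + 1) z.1 - M.X is z.1) (M.X i' z.2)
      + inner ℝ (M.X is z.1 - M.X t' z.1) (M.X (min i' is) z.2)) := by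
    obtain ⟨m1, C1, c1⟩ := bα
    obtain ⟨m2, C2, c2⟩ := bβ1
    exact ⟨m1.add m2, C1 + C2, fun z => (norm_add_le _ _).trans (add_le_add (c1 z) (c2 z))⟩
  have e : (fun z : Ω × Ω => inner ℝ (M.X (M.L + 1) z.1 - M.X t' z.1) (M.X i' z.2))
      = fun z : Ω × Ω => (inner ℝ (M.X (M.L + 1) z.1 - M.X is z.1) (M.X i' z.2)
        + inner ℝ (M.X is z.1 - M.X t' z.1) (M.X (min i' is) z.2))
        + inner ℝ (M.X is z.1 - M.X t' z.1) (M.X i' z.2 - M.X (min i' is) z.2) := by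
    funext z
    simp only [inner_sub_left, inner_sub_right]
    ring
  rw [e]
  have h1 := cmN_add_le bαβ bβ2 p hp1
  have h2 := cmN_add_le bα bβ1 p hp1
  have hK2 : (1 : ℝ) ≤ (K + 2) ^ 2 := by
    have : (0 : ℝ) ≤ K := Nat.cast_nonneg K
    exact one_le_pow₀ (by linarith)
  have h3 : 2 * cΓ * D1 ≤ 2 * cΓ * D1 * (K + 2) ^ 2 := le_mul_of_one_le_right (by positivity) hK2
  have h4 : 2 * cΓ * D2 ≤ 2 * cΓ * D2 * (K + 2) ^ 2 := le_mul_of_one_le_right (by positivity) hK2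
  have h5 : 0 ≤ Ct * (K + 2) ^ 2 * D1 := by positivity
  have h6 : 0 ≤ cΓ * D1 * (K + 2) ^ 2 := by positivity
  have h7 : 0 ≤ cΓ * D2 * (K + 2) ^ 2 := by positivity
  have e3 : (Ct + 4 * cΓ) * (K + 2) ^ 2 * (D1 + D2)
      = Ct * (K + 2) ^ 2 * D2 + Ct * (K + 2) ^ 2 * D1 + 4 * (cΓ * D1 * (K + 2) ^ 2) + 4 * (cΓ * D2 * (K + 2) ^ 2) := by ring
  rw [e3]
  linarith

/-! ## 2. one optimiser under outer regularity -/

variable {X : BdFix}

set_option maxHeartbeats 1600000 in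
/-- **the resampled residual with a short first projection interval**: fork at the mass `v ≥ 2w`, resampling from the cut `vc`, `θ = r(vc) - r(v) ≤ v`.      TEX[LL:bud:outer-moments] -/
theorem bd7cd_res_rx (hX : X.Ok) {c C : ℝ} (hcp : 0 < c) (hc1 : c ≤ 1) (hC : 1 ≤ C) {l : ℕ} (hl : 1 ≤ l) {ε : ℝ} (hε : 0 < ε) :
    ∃ (K : ℝ) (N0 : ℕ), 0 < K ∧ ∀ W : BdWorld, W.IsHub → ∀ (F : BdFr) (g : ℝ) (Q : BdQ F X) (w c0 : ℝ), BudRxH X W F g Q w c C c0 → N0 ≤ F.N →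
      ∀ v vc : ℝ, 2 * w ≤ v → 8 * budRxGam c C ^ 2 * v ≤ 1 → v < vc → vc < 1 → Q.r vc - Q.r v ≤ v →
        skCNu F.m 1 (Q.bE g) (Q.hE g) 3
            (fun y z => if y = z then ⊤ else if y = 2 ∨ z = 2 then ((ghPosA v : GhPos) : WithTop GhPos) else ((ghPosA vc : GhPos) : WithTop GhPos))
            (fun σ => (skOv (σ 0) (σ 2) - skOv (σ 1) (σ 2)) ^ (2 * l))
          ≤ (K * F.x ^ (-ε) * (F.x ^ 3 / Real.sqrt (v * budRxSg F X (8 * C * v) * (Q.r vc - Q.r v)))) ^ (2 * l) := by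
  have hG := bud_rx_Gam_ge hcp hc1 hC
  have hG0 : 0 < budRxGam c C := by linarith
  have hQ0 := bud_rx_Q0_ge c hC
  obtain ⟨Ct, hCt, HT⟩ := bd7cd_resid (2 * l) (even_two_mul l) (by omega) (budRxGam c C)
  obtain ⟨Pi, hPi, HP⟩ := ckm_proj l hl
  obtain ⟨N1, HR⟩ := bud_rx_raw hX hcp hC hl
  obtain ⟨N2, hN2⟩ := bud_rx_num hX C 1 hC
  obtain ⟨N3, hKl⟩ := bd7cc_K_le X (e := ε / 2) (by positivity)
  have hPi0 : 0 < Pi := by linarith
  have hQ00 : 0 < budRxQ0 c C := by linarith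
  refine ⟨8 * Ct * budRxQ0 c C * Pi * (22 / (ε / 2)) ^ 2, max N1 (max N2 N3), by positivity,
    fun W hW F g Q w c0 h hN v vc hwv hv8 hvvc hvc1 hθv => ?_⟩
  have n1 : N1 ≤ F.N := (le_max_left _ _).trans hN
  have n2 : N2 ≤ F.N := ((le_max_left _ _).trans (le_max_right _ _)).trans hN
  have n3 : N3 ≤ F.N := ((le_max_right _ _).trans (le_max_right _ _)).trans hN
  have hw0 := bud_rx_w_pos hX h
  have hm := bud_rx_m_pos h.ok
  have hNum := hN2 F h.ok n2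
  have hx := BdFr.x_pos' h.ok
  have hv0 : 0 < v := by linarith
  have hv1 : v ≤ 1 := by linarith
  have hw : 16 * budRxGam c C ^ 2 * w ≤ 1 := by
    have : 8 * budRxGam c C ^ 2 * (2 * w) ≤ 8 * budRxGam c C ^ 2 * v := mul_le_mul_of_nonneg_left hwv (by positivity)
    linarith
  have hΓ4 : budRxGam c C * (4 * v) ≤ 1 := by
    have : budRxGam c C * 4 ≤ 8 * budRxGam c C ^ 2 := by nlinarith
    have := mul_le_mul_of_nonneg_right this hv0.le
    linarith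
  have hpf : (ghPosA v).Ok 1 := gh_os_posA_ok hv0.le hv1
  have hpv : (ghPosA vc).Ok 1 := gh_os_posA_ok (hv0.le.trans hvvc.le) hvc1.le
  have euf : (ghPosA v).u = v := by simp [ghPosA, GhPos.u]
  have euv : (ghPosA vc).u = vc := by simp [ghPosA, GhPos.u]
  have hle : ghPosA v ≤ ghPosA vc := (gh_os_pos_le_iff _ _).2 (Or.inl (by rw [euf, euv]; exact hvvc))
  -- the radii
  have hrv := h.reg v hwv hv1
  have hrvc := h.reg vc (by linarith) hvc1.le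
  have hθ0 : 0 < Q.r vc - Q.r v := by linarith [bud_rx_r_strict hX h.ok Q hv0.le hvvc hvc1.le]
  have hrv0 : 0 ≤ Q.r v := (by positivity : 0 ≤ c * v).trans hrv.1
  have hrvc0 : 0 < Q.r vc := by linarith
  have hrvc2 : Q.r vc ≤ 2 * C * v := by nlinarith [hrv.2]
  have hvcΓ : vc ≤ budRxGam c C * (4 * v) := by
    have h1 : c * vc ≤ 2 * C * v := hrvc.1.trans hrvc2
    have e : budRxGam c C * (4 * v) = 16 * C * v / c := by unfold budRxGam; ring
    rw [e, le_div_iff₀ hcp]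
    nlinarith
  obtain ⟨σ, hσ⟩ : ∃ σ, σ = budRxSg F X (8 * C * v) := ⟨_, rfl⟩
  rw [← hσ]
  have hσ0 : 0 < σ := hσ ▸ bud_rx_sg_pos hX h.ok (by positivity)
  have hσ1 : σ ≤ budRxSg F X (Q.r vc) := hσ ▸ bud_rx_sg_anti hX h.ok hrvc0 (by nlinarith)
  obtain ⟨θ, hθd⟩ : ∃ θ, θ = Q.r vc - Q.r v := ⟨_, rfl⟩
  rw [← hθd] at hθ0 hθv ⊢
  have hφ : σ * θ ≤ budRxPhi F X (Q.r vc) - budRxPhi F X (Q.r v) := by
    have := bud_rx_phi_slope hX h.ok hrv0 (by linarith : Q.r v ≤ Q.r vc) hrvc0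
    rw [← hθd] at this
    exact (mul_le_mul_of_nonneg_right hσ1 hθ0.le).trans this
  refine ckm_nu_le hm (bud_rx_adm h) (cvlb_rt 2 3 hpf hpv hle) _ ?_
  have hcont := ckm_contains ({ghPosA v, ghPosA vc} : Finset GhPos) (fun p hp => by
    rcases Finset.mem_insert.1 hp with e | e
    · rw [e]; exact hpf
    · rw [Finset.mem_singleton.1 e]; exact hpv)
  refine Filter.Eventually.mono (f := atTop) (((bud_rx_fine hX h).and (HR W hW F g Q w c0 h n1)).and hcont) fun F' hF' => ?_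
  beta_reduce at hF' ⊢
  obtain ⟨⟨hfine, hraw⟩, hmem⟩ := hF'
  have hmf : ghPosA v ∈ ghPs 1 F' := hmem _ (Finset.mem_insert_self _ _)
  have hmv : ghPosA vc ∈ ghPs 1 F' := hmem _ (Finset.mem_insert_of_mem (Finset.mem_singleton_self _))
  have hM : (Q.rxM g (ghPs 1 F')).Ok := ckm_ok hm (bud_rx_adm h) F'
  have hc := ckm_ch F'
  have hadm := cmk_chain_adm (bud_rx_adm h) F'
  have hL : (Q.rxM g (ghPs 1 F')).L = (ckStp 1 (Q.bE g) (Q.hE g) (ghPs 1 F')).length := rfl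
  have hL' : (Q.rxM g (ghPs 1 F')).L = (ghPs 1 F').length := ckm_L F.m _ _ _
  obtain ⟨s, hs⟩ : ∃ s, s = ghIdx (ghPs 1 F') ((ghPosA v : GhPos) : WithTop GhPos) := ⟨_, rfl⟩
  obtain ⟨t', ht'⟩ : ∃ t', t' = ghIdx (ghPs 1 F') ((ghPosA vc : GhPos) : WithTop GhPos) := ⟨_, rfl⟩
  have hif : s ≤ (Q.rxM g (ghPs 1 F')).L := by rw [hs, hL']; exact brg_t_idx_coe_le _ _
  have hiv : t' ≤ (Q.rxM g (ghPs 1 F')).L := by rw [ht', hL']; exact brg_t_idx_coe_le _ _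
  have hms : (Q.rxM g (ghPs 1 F')).mass s = v := by
    rw [hs]; exact (ckm_idx_mass F.m _ _ hc hmf).trans euf
  have hmt : (Q.rxM g (ghPs 1 F')).mass t' = vc := by
    rw [ht']; exact (ckm_idx_mass F.m _ _ hc hmv).trans euv
  have hst : s < t' := by
    by_contra hcon
    have := hM.mass_mono (not_lt.1 hcon)
    rw [hms, hmt] at this
    linarith
  have h3 := cm5_sk_three F.m hm (ckStp 1 (Q.bE g) (Q.hE g) (ghPs 1 F')) hadm s t' hst.le (hL ▸ hiv)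
    (ghDisc (ghPs 1 F') (fun y z => if y = z then ⊤ else if y = 2 ∨ z = 2 then ((ghPosA v : GhPos) : WithTop GhPos)
      else ((ghPosA vc : GhPos) : WithTop GhPos)))
    (by simp [ghDisc, ht']) (by simp [ghDisc, ht']) (by simp [ghDisc, hs]) (by simp [ghDisc, hs]) (by simp [ghDisc, hs]) (by simp [ghDisc, hs]) l hl
  refine le_trans h3 ?_
  have hK : 1 ≤ budRxGam c C ^ budRxK F * (2 * w) := by
    have h1 := hNum.K_big
    have h2 : (2 : ℝ) ^ (budRxK F - 1) ≤ budRxGam c C ^ budRxK F :=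
      calc (2 : ℝ) ^ (budRxK F - 1) ≤ 2 ^ budRxK F := pow_le_pow_right₀ (by norm_num) (Nat.sub_le _ _)
        _ ≤ budRxGam c C ^ budRxK F := pow_le_pow_left₀ (by norm_num) (by linarith) _
    have h3 : budRxEta F ≤ 2 * w := by linarith [bud_rx_eta_le hNum, h.w_lo]
    calc (1 : ℝ) ≤ 2 ^ (budRxK F - 1) * budRxEta F := h1
      _ ≤ budRxGam c C ^ budRxK F * (2 * w) := mul_le_mul h2 h3 (bud_rx_eta_pos h.ok).le (by positivity)
  have hclk : σ * θ ≤ (Q.rxM g (ghPs 1 F')).hck t' - (Q.rxM g (ghPs 1 F')).hck s := by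
    have h5 := bud_rx_slope hX h hc hst.le (hL' ▸ hiv)
    have e1 : Q.rxRad g (ghPs 1 F') t' = Q.r vc := by unfold BdQ.rxRad; rw [hmt]
    have e2 : Q.rxRad g (ghPs 1 F') s = Q.r v := by unfold BdQ.rxRad; rw [hms]
    rw [e1, e2] at h5
    exact hφ.trans h5
  have h4 := HT F.m (SkOm F.m) (Q.rxM g (ghPs 1 F')) (2 * w) (1 / (8 * budRxGam c C ^ 2)) 1 (budRxT5 F X C) (budRxS5 F X C) Pi (budRxQ0 c C) w
    (budRxK F) hM (bud_rx_clk5 hX hcp hc1 hC h hw hfine hM) (HP F.m _ _ F' hm (bud_rx_adm h)) hPi hQ0 hw0 (by linarith)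
    (ckm_raw_exp hM (by omega) (by omega) hraw) hK v (σ * θ) s t' ((Q.rxM g (ghPs 1 F')).L + 1) hwv hΓ4 hif
    (hms ▸ hM.mass_mono (Nat.le_succ s)) (by rw [hms]; linarith) hst hiv (by rw [hmt]; exact hvcΓ) (by positivity) hclk
    (hif.trans (Nat.le_succ _)) le_rfl
  refine pow_le_pow_left₀ (mul_nonneg zero_le_two (cmN_nonneg _ _ _)) ?_ _
  refine (mul_le_mul_of_nonneg_left h4 zero_le_two).trans ?_
  -- numerics
  obtain ⟨A, hA⟩ : ∃ A, A = v * σ * θ := ⟨_, rfl⟩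
  have hA0 : 0 < A := by rw [hA]; positivity
  have hxm := bd7cc_xm h.ok
  have hm0 : (0 : ℝ) < F.m := by exact_mod_cast hm
  have e1 : (F.m : ℝ) * v * (σ * θ) = F.m * A := by rw [hA]; ring
  have e2 : budRxT5 F X C (4 * v) = 4 * C * v * σ := by
    unfold budRxT5
    rw [hσ, show 2 * C * (4 * v) = 8 * C * v by ring]
    ring
  have hA2 : (F.m : ℝ) * A ≤ F.m * (4 * v) * budRxT5 F X C (4 * v) := by
    rw [e2, hA]
    have : v * σ * θ ≤ v * σ * (16 * C * v) := mul_le_mul_of_nonneg_left (by nlinarith) (by positivity)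
    have := mul_le_mul_of_nonneg_left this hm0.le
    calc (F.m : ℝ) * (v * σ * θ) ≤ F.m * (v * σ * (16 * C * v)) := this
      _ = _ := by ring
  have hsA : 0 < Real.sqrt (F.m * A) := Real.sqrt_pos.2 (by positivity)
  have hs2 : Real.sqrt (F.m * A) ≤ Real.sqrt (F.m * (4 * v) * budRxT5 F X C (4 * v)) := Real.sqrt_le_sqrt hA2
  have hQP : 0 < budRxQ0 c C * Pi := by positivity
  have hd2 : budRxQ0 c C * Pi / Real.sqrt (F.m * (4 * v) * budRxT5 F X C (4 * v)) ≤ budRxQ0 c C * Pi / Real.sqrt (F.m * A) :=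
    div_le_div_of_nonneg_left hQP.le hsA hs2
  have hsx : Real.sqrt A ≤ 2 * F.x ^ 3 * Real.sqrt (F.m * A) := by
    have hb : 0 ≤ 2 * F.x ^ 3 := by positivity
    calc Real.sqrt A ≤ Real.sqrt ((2 * F.x ^ 3) ^ 2 * (F.m * A)) := by
          apply Real.sqrt_le_sqrt
          have : (2 * F.x ^ 3) ^ 2 * (F.m * A) = 4 * (F.x ^ 6 * F.m) * A := by ring
          rw [this]
          nlinarith
      _ = _ := by rw [Real.sqrt_mul (sq_nonneg _), Real.sqrt_sq hb]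
  have hsA' : 0 < Real.sqrt A := Real.sqrt_pos.2 hA0
  have hd3 : 1 / Real.sqrt (F.m * A) ≤ 2 * F.x ^ 3 / Real.sqrt A := by
    rw [div_le_div_iff₀ hsA hsA']
    linarith
  have hk := hKl F h.ok n3
  have hk0 : (0 : ℝ) ≤ (budRxK F : ℝ) + 2 := by positivity
  have hk2 : ((budRxK F : ℝ) + 2) ^ 2 ≤ (22 / (ε / 2)) ^ 2 * F.x ^ (-ε) := by
    have e3 : F.x ^ (-ε) = (F.x ^ (-(ε / 2))) ^ 2 := by
      rw [← Real.rpow_natCast, ← Real.rpow_mul hx.le]
      congr 1; push_cast; ring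
    rw [e3, ← mul_pow]
    exact pow_le_pow_left₀ hk0 hk 2
  rw [e1, ← hA]
  have px := Real.rpow_pos_of_pos hx (-ε)
  calc 2 * (Ct * ((budRxK F : ℝ) + 2) ^ 2 * (budRxQ0 c C * Pi / Real.sqrt (F.m * A)
        + budRxQ0 c C * Pi / Real.sqrt (F.m * (4 * v) * budRxT5 F X C (4 * v))))
      ≤ 2 * (Ct * ((budRxK F : ℝ) + 2) ^ 2 * (budRxQ0 c C * Pi / Real.sqrt (F.m * A) + budRxQ0 c C * Pi / Real.sqrt (F.m * A))) := by gcongr
    _ = 4 * Ct * budRxQ0 c C * Pi * ((budRxK F : ℝ) + 2) ^ 2 * (1 / Real.sqrt (F.m * A)) := by ring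
    _ ≤ 4 * Ct * budRxQ0 c C * Pi * ((22 / (ε / 2)) ^ 2 * F.x ^ (-ε)) * (2 * F.x ^ 3 / Real.sqrt A) := by gcongr
    _ = _ := by ring

/-! ## 3. `BcsRes` -/

/-- **`BcsRes`** on the class of Lemma 7.6 over a Hub.      TEX[LL:bud:outer-moments] TEX[LL:bud:common-star] -/
theorem bd7cd_bcsres {W : BdWorld} (hX : X.Ok) (hW : W.IsHub) {Fam : BdFr → Prop} {K : BcsK} (hK : K.Ok) :
    BcsRes W (BcsIn.Cls (X := X) · W Fam K) := by
  refine ⟨2, by norm_num, fun Ka hKa l hl ε hε => ?_⟩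
  have hG := bud_rx_Gam_ge hK.c0 hK.c1 hK.C1
  have hC := hK.C1
  obtain ⟨Kc, N0, hKc, H⟩ := bd7cd_res_rx hX hK.c0 hK.c1 hK.C1 hl hε
  obtain ⟨Kb, hKb⟩ : ∃ Kb, Kb = 16 * budRxGam K.c K.C ^ 2 * Ka + 16 * K.C * Ka := ⟨_, rfl⟩
  have hKb1 : 1 ≤ Kb := by rw [hKb]; nlinarith
  obtain ⟨N1, hsc⟩ := bcs_num_scale X hX K.cs K.i0 Kb hK.cs0 hK.i00 hKb1
  refine ⟨Kc, max N0 N1, hKc, fun I hI hN v vc h1 h2 h3 h4 h5 h6 => ?_⟩
  have sc := hsc I.F hI.ok ((le_max_right _ _).trans hN) I.w hI.w_lo hI.strong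
  have hw0 := sc.w0
  have hwW : I.w ≤ I.Ws := sc.wW
  have hW0 : 0 < I.Ws := hw0.trans_le hwW
  have hWv : I.Ws ≤ v := by nlinarith
  have hv0 : 0 < v := hW0.trans_le hWv
  have hKW : Kb * I.Ws ≤ 1 / 4 := sc.W1
  have hroom : Kb * I.Ws ≤ X.cd ^ 3 * I.F.u := by
    have h7 : Kb * I.Ws + Kb / I.F.Mj ≤ min (X.cd ^ 3 * I.F.u) 1 := sc.room
    have h8 : 0 ≤ Kb / I.F.Mj := div_nonneg (by linarith) sc.Mj0.le
    exact (by linarith : Kb * I.Ws ≤ min (X.cd ^ 3 * I.F.u) 1).trans (min_le_left _ _)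
  have a1 : 16 * budRxGam K.c K.C ^ 2 * Ka * I.Ws ≤ Kb * I.Ws := by
    refine mul_le_mul_of_nonneg_right ?_ hW0.le
    rw [hKb]; nlinarith
  have a2 : 16 * K.C * Ka * I.Ws ≤ Kb * I.Ws := by
    refine mul_le_mul_of_nonneg_right ?_ hW0.le
    rw [hKb]; nlinarith [sq_nonneg (budRxGam K.c K.C)]
  have hv8 : 8 * budRxGam K.c K.C ^ 2 * v ≤ 1 := by
    have : 8 * budRxGam K.c K.C ^ 2 * v ≤ 8 * budRxGam K.c K.C ^ 2 * (2 * Ka * I.Ws) := mul_le_mul_of_nonneg_left h2 (by positivity)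
    nlinarith
  have h7 := H W hW I.F I.g I.Q I.w I.c0 (bud_rx_of_cls hI) ((le_max_left _ _).trans hN) v vc (by nlinarith) hv8 h3 h4 (h6.trans hWv)
  -- the slope is flat
  have hflat : budRxSg I.F X (8 * K.C * v) = I.F.C0 := by
    unfold budRxSg
    have h8 : 8 * K.C * v ≤ X.cd ^ 3 * I.F.u := by
      have : 8 * K.C * v ≤ 8 * K.C * (2 * Ka * I.Ws) := mul_le_mul_of_nonneg_left h2 (by positivity)
      nlinarith
    rw [min_eq_left (by rw [le_div_iff₀ (by positivity)]; linarith), mul_one]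
  rw [hflat] at h7
  -- dictionary
  have e : bcsRs W I.F.m (I.Q.bq I.g) (I.Q.hq I.g) l v vc = skCNu I.F.m 1 (I.Q.bE I.g) (I.Q.hE I.g) 3
      (fun y z => if y = z then ⊤ else if y = 2 ∨ z = 2 then ((ghPosA v : GhPos) : WithTop GhPos) else ((ghPosA vc : GhPos) : WithTop GhPos))
      (fun σ => (skOv (σ 0) (σ 2) - skOv (σ 1) (σ 2)) ^ (2 * l)) := by
    unfold bcsRs
    rw [hW.nu _ _ _ hI.clkb hI.clkh]
    have e1 : bmTree (fun a e => if a = 2 ∨ e = 2 then v else vc)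
        = fun y z => if y = z then ⊤ else if y = 2 ∨ z = 2 then ((ghPosA v : GhPos) : WithTop GhPos) else ((ghPosA vc : GhPos) : WithTop GhPos) := by
      funext y z
      unfold bmTree
      by_cases hyz : y = z
      · simp [hyz]
      · by_cases h2 : y = 2 ∨ z = 2
        · simp only [if_neg hyz, if_pos h2]
        · simp only [if_neg hyz, if_neg h2]
    have e2 : bmTest I.F.m 3 (fun O => (O 0 2 - O 1 2) ^ (2 * l)) = fun σ => (skOv (σ 0) (σ 2) - skOv (σ 1) (σ 2)) ^ (2 * l) := by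
      funext σ
      unfold bmTest
      show ((if h : (0 : ℕ) < 3 ∧ (2 : ℕ) < 3 then skOv (σ ⟨0, h.1⟩) (σ ⟨2, h.2⟩) else 0)
        - (if h : (1 : ℕ) < 3 ∧ (2 : ℕ) < 3 then skOv (σ ⟨1, h.1⟩) (σ ⟨2, h.2⟩) else 0)) ^ (2 * l) = _
      rw [dif_pos ⟨by norm_num, by norm_num⟩, dif_pos ⟨by norm_num, by norm_num⟩]
      rfl
    rw [e1, e2]
    rfl
  rw [e]
  refine h7.trans (pow_le_pow_left₀ ?_ ?_ _)
  · have hx := BdFr.x_pos' hI.ok
    have := Real.rpow_pos_of_pos hx (-ε)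
    positivity
  · have hx := BdFr.x_pos' hI.ok
    have px := Real.rpow_pos_of_pos hx (-ε)
    have hC0 := sc.C00
    have hθ0 : 0 < I.Q.r vc - I.Q.r v := lt_of_lt_of_le (mul_pos hx hW0) h5
    have hs : Real.sqrt (I.Ws * I.F.C0 * (I.Q.r vc - I.Q.r v)) ≤ Real.sqrt (v * I.F.C0 * (I.Q.r vc - I.Q.r v)) := by
      apply Real.sqrt_le_sqrt
      gcongr
    have hs0 : 0 < Real.sqrt (I.Ws * I.F.C0 * (I.Q.r vc - I.Q.r v)) := Real.sqrt_pos.2 (by positivity)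
    gcongr

end

end Claimed.Agent.R286
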