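import Claimed.Agent.R286.Bud.Cp
import Claimed.Agent.R286.Bud.L07Wa
import Claimed.Agent.R286.Pe6.Free252
import Claimed.Agent.R286.Bud.GeoBr

/-!
# Row 286, LL sec. 7, package L07, STEP 1 of the proof of (C7) (`07-budgets.tex` l.905-958): THE DICTIONARY `BdFr → P6D`, THE CHILD OF A WEAK INSTANCE, THE LL NUMERICS OF THE BARRIERS      (owner helper129; head of the package helper12; prefix `bd7w_`, types `Bd7W*`)
TEX[LL:bud:coarse-profile]#step1-child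

Step 1 = PE Lemma 6.5 for a parent which minimises over the class (C5) instead of PE's class (5).      VOCABULARY of helper286 (`Bud/Cp.lean`): weak sequences `BcpWk X W Fam cL CL U i`, closure `bcpCl`, pressure `bcpFn W`, child `(i k).chd c0`.
* `i.par : P6D`     **the LL parent as a PE instance**: call `F.call X` (`d = d_PE`, `E`, all masses, no wall), temperature `T_m`, bare clocks of the frame closed by `bcpCl`; its STRENGTH is `F.C0`, so `e = F.C X`.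
* IMPORTS (`Bd7WIn`): `Bd7WBase` = (P3),(P6): bare clocks, all-mass matrix margin `β0`, bound `Kb` [L03, 272/253; instance 162 `bi_*`], `Bd7P9` [L03, 272], constants `Bd7WK`.
* sec. 0  closure lemmas `bd7w_cl_*`                      * sec. 2  the scales of a frame as powers of `x` (kit)
* sec. 3  numerics of the parent call (pure `rpow`, uniform `∃ N0`): `bd7w_call_ok` (PE (3)), `bd7w_call_lam` (`0 < C0 ≤ d_PE²`), `bd7w_call_Al` (`A_{C0} ≤ w_c`), `bd7w_d_small`, `bd7w_C0_le`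
* sec. 4  **`bd7w_fr`**: a weak sequence is a class-free weak parent `P6Fr` (252, `Pe6/Free252.lean`) `= Bd7WWk` (`Bud/L07Wa.lean`): **`bd7w_wk`**
* sec. 5  **`bd7w_child : Bd7WIn → BcpChild`** (EXIT for 286);   `chd` and `p6Child` of `par` agree on `(0,1)`: `bd7w_chd_b0, _h0`, same objective / error / minimisers / success: `bd7w_chd_obj, _err, _min, _succ`;
          hence `bd7w_chd_ex` (`= bcp_succ`), `bd7w_chd_prof` (comparable above `m^δ c0 w`)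
* sec. 6  THE LL NUMERICS OF THE BARRIERS (l.918-958), for 186's `Bud/L07Wb.lean`, along a weak sequence: `bd7w_C0_small` (`C0 = o(w²)`), `bd7w_uL` (`u√Λ = o(w)`), `bd7w_l_small` (`1/M_j = o(w)`), `bd7w_kbar_sup` (`sup k̄ → 0`),
          `bd7w_kbar_int` (`∫₀¹ k̄ = o(w)`), regime A `bd7w_A_C1` (`C(1) = o(w³)`), regime B `bd7w_B_patch` (`m^{2δ} w = o(I_lo u)`), `bd7w_B_kbar` (`k̄ = k` below the patch).
-/

set_option autoImplicit false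

namespace Claimed.Agent.R286

open Filter Topology Set MeasureTheory Asymptotics

noncomputable section

/-! ## 0. closing a clock -/

theorem bd7w_cl_eq (c : ℝ → ℝ) {v : ℝ} (hv : v ∈ Ioo (0 : ℝ) 1) : bcpCl c v = c v := by
  unfold bcpCl
  rw [if_neg (not_le.2 hv.1), if_pos hv.2]

theorem bd7w_cl_bdd {c : ℝ → ℝ} (h : IsClock 1 c) : BddBelow (c '' Ioo 0 1) ∧ BddAbove (c '' Ioo 0 1) ∧ (c '' Ioo 0 1).Nonempty := by
  obtain ⟨C, hC⟩ := h.bdd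
  exact ⟨⟨0, by rintro _ ⟨v, hv, rfl⟩; exact h.nonneg v hv⟩, ⟨C, by rintro _ ⟨v, hv, rfl⟩; exact hC v hv⟩,
    ⟨c (1 / 2), 1 / 2, by constructor <;> norm_num, rfl⟩⟩

theorem bd7w_cl_mono {c : ℝ → ℝ} (h : IsClock 1 c) : Monotone (bcpCl c) := by
  obtain ⟨hlo, hhi, hne⟩ := bd7w_cl_bdd h
  intro u v huv
  unfold bcpCl
  by_cases hu0 : u ≤ 0
  · rw [if_pos hu0]
    by_cases hv0 : v ≤ 0
    · rw [if_pos hv0]
    · rw [if_neg hv0]
      by_cases hv1 : v < 1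
      · rw [if_pos hv1]; exact csInf_le hlo ⟨v, ⟨not_le.1 hv0, hv1⟩, rfl⟩
      · rw [if_neg hv1]; exact csInf_le_csSup hne hlo hhi
  · have hv0 : ¬ v ≤ 0 := fun hh => hu0 (huv.trans hh)
    rw [if_neg hu0, if_neg hv0]
    by_cases hv1 : v < 1
    · rw [if_pos (lt_of_le_of_lt huv hv1), if_pos hv1]
      exact h.mono ⟨not_le.1 hu0, lt_of_le_of_lt huv hv1⟩ ⟨not_le.1 hv0, hv1⟩ huv
    · rw [if_neg hv1]
      by_cases hu1 : u < 1
      · rw [if_pos hu1]; exact le_csSup hhi ⟨u, ⟨not_le.1 hu0, hu1⟩, rfl⟩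
      · rw [if_neg hu1]

theorem bd7w_cl_ge {c : ℝ → ℝ} (h : IsClock 1 c) {β : ℝ} (hβ : ∀ v ∈ Ioo (0 : ℝ) 1, β ≤ c v) (v : ℝ) : β ≤ bcpCl c v := by
  obtain ⟨-, -, hne⟩ := bd7w_cl_bdd h
  have h0 : β ≤ bcpCl c 0 := by
    unfold bcpCl
    rw [if_pos le_rfl]
    exact le_csInf hne (by rintro _ ⟨w, hw, rfl⟩; exact hβ w hw)
  rcases le_total v 0 with hv | hv
  · have : bcpCl c v = bcpCl c 0 := by unfold bcpCl; rw [if_pos hv, if_pos le_rfl]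
    rw [this]; exact h0
  · exact h0.trans (bd7w_cl_mono h hv)

theorem bd7w_cl_le {c : ℝ → ℝ} (h : IsClock 1 c) {K : ℝ} (hK : ∀ v ∈ Ioo (0 : ℝ) 1, c v ≤ K) (v : ℝ) : bcpCl c v ≤ K := by
  obtain ⟨-, -, hne⟩ := bd7w_cl_bdd h
  have h1 : bcpCl c 1 ≤ K := by
    unfold bcpCl
    rw [if_neg (by norm_num), if_neg (lt_irrefl _)]
    exact csSup_le hne (by rintro _ ⟨w, hw, rfl⟩; exact hK w hw)
  rcases le_total v 1 with hv | hv
  · exact (bd7w_cl_mono h hv).trans h1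
  · have : bcpCl c v = bcpCl c 1 := by
      unfold bcpCl
      rw [if_neg (by linarith), if_neg (not_lt.2 hv), if_neg (by norm_num), if_neg (lt_irrefl _)]
    rw [this]; exact h1

theorem bd7w_cl_clk {c : ℝ → ℝ} (h : IsClock 1 c) : GhClk1 1 (bcpCl c) :=
  ⟨(bd7w_cl_mono h).monotoneOn _, bd7w_cl_ge h h.nonneg 0⟩

/-! ## 1. the parent, the constants, the imports -/

/-! `Bd7I.par` (the LL parent as a PE instance; its strength is `i.F.C0`) now lives in `Bud/Cp.lean`, and `Bd7I.chd c0` IS `par.child C0 Q.r w c0 0` by definition (286, 04:50Z) -/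

/-- (P3), (P6): the bare clocks of the frames are clocks, with a fixed all-mass matrix margin `β0` and a fixed bound `Kb`      [SUPPLIER: L03] -/
def Bd7WBase (X : BdFix) (Fam : BdFr → Prop) (β0 Kb : ℝ) : Prop :=
  ∃ N0 : ℕ, ∀ F : BdFr, Fam F → F.Ok X → N0 ≤ F.N → ∀ g ∈ X.G0,
    IsClock 1 (F.b g) ∧ IsClock 1 (F.h g) ∧ ∀ v ∈ Ioo (0 : ℝ) 1, β0 ≤ F.b g v ∧ F.b g v ≤ Kb ∧ F.h g v ≤ Kb

/-- the constants of Step 1: PE record `c`, loose constants `cL ≤ 1 ≤ CL`, child coefficient `c0`, bare margin `β0`, bare clock bound `Kb` -/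
structure Bd7WK (X : BdFix) (c : P6C) (cL CL c0 β0 Kb : ℝ) : Prop where
  hX : X.Ok
  k : P6K c cL CL 2 c0 (β0 / 2)
  m_eq : c.m = X.mPE
  T_eq : c.Tinf = X.T
  c0_lt : c0 ^ 2 < β0 / 2
  K_ge : Kb + 1 + c0 ^ 2 + 1 ≤ c.K

/-- **all the imports of the child instance** -/
structure Bd7WIn (X : BdFix) (Fam : BdFr → Prop) (c : P6C) (cL CL c0 β0 Kb : ℝ) : Prop where
  K : Bd7WK X c cL CL c0 β0 Kb
  base : Bd7WBase X Fam β0 Kb
  p9 : Bd7P9 X Fam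

theorem bd7w_defs_eqns_cite : True := by
  have := @Bd7WBase.eq_1
  trivial

/-! ## 2. the scales of a frame as powers of `x` -/

section kit

variable {X : BdFix} {F : BdFr}

theorem bd7w_N_pos (h : F.Ok X) : (0 : ℝ) < F.N := by
  have : (2 : ℝ) ≤ F.N := by exact_mod_cast h.N2
  linarith

theorem bd7w_m_pos (h : F.Ok X) : (0 : ℝ) < F.m := by
  have := bd7w_N_pos h
  linarith [h.m_lo]

/-- `N^e = x^(-6e)` -/
theorem bd7w_N_rpow (h : F.Ok X) (e : ℝ) : (F.N : ℝ) ^ e = F.x ^ (-(6 * e)) := by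
  unfold BdFr.x
  rw [← Real.rpow_mul (bd7w_N_pos h).le]
  congr 1; ring

theorem bd7w_m_rpow_le (h : F.Ok X) {e : ℝ} (h0 : 0 ≤ e) (h1 : e ≤ 1) : (F.m : ℝ) ^ e ≤ 3 * F.x ^ (-(6 * e)) := by
  have hN := bd7w_N_pos h
  calc (F.m : ℝ) ^ e ≤ (3 * (F.N : ℝ)) ^ e := Real.rpow_le_rpow (bd7w_m_pos h).le h.m_hi h0
    _ = (3 : ℝ) ^ e * (F.N : ℝ) ^ e := Real.mul_rpow (by norm_num) hN.le
    _ ≤ 3 * (F.N : ℝ) ^ e := by
        have : (3 : ℝ) ^ e ≤ (3 : ℝ) ^ (1 : ℝ) := Real.rpow_le_rpow_of_exponent_le (by norm_num) h1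
        rw [Real.rpow_one] at this
        exact mul_le_mul_of_nonneg_right this (Real.rpow_nonneg hN.le _)
    _ = _ := by rw [bd7w_N_rpow h]

theorem bd7w_m_rpow_ge (h : F.Ok X) {e : ℝ} (h0 : 0 ≤ e) (h1 : e ≤ 1) : F.x ^ (-(6 * e)) / 2 ≤ (F.m : ℝ) ^ e := by
  have hN := bd7w_N_pos h
  calc F.x ^ (-(6 * e)) / 2 = (F.N : ℝ) ^ e / 2 := by rw [bd7w_N_rpow h]
    _ ≤ (F.N : ℝ) ^ e / (2 : ℝ) ^ e := by
        have : (2 : ℝ) ^ e ≤ (2 : ℝ) ^ (1 : ℝ) := Real.rpow_le_rpow_of_exponent_le (by norm_num) h1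
        rw [Real.rpow_one] at this
        exact div_le_div_of_nonneg_left (Real.rpow_nonneg hN.le _) (Real.rpow_pos_of_pos (by norm_num) _) this
    _ = ((F.N : ℝ) / 2) ^ e := (Real.div_rpow hN.le (by norm_num) _).symm
    _ ≤ (F.m : ℝ) ^ e := Real.rpow_le_rpow (by positivity) h.m_lo h0

theorem bd7w_m_rpow_neg_le (h : F.Ok X) {e : ℝ} (h0 : 0 ≤ e) (h1 : e ≤ 1) : (F.m : ℝ) ^ (-e) ≤ 2 * F.x ^ (6 * e) := by
  have hx := BdFr.bds_x_pos h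
  have h2 := bd7w_m_rpow_ge h h0 h1
  have hp : 0 < F.x ^ (-(6 * e)) / 2 := by have := Real.rpow_pos_of_pos hx (-(6 * e)); positivity
  rw [Real.rpow_neg (bd7w_m_pos h).le]
  calc ((F.m : ℝ) ^ e)⁻¹ ≤ (F.x ^ (-(6 * e)) / 2)⁻¹ := inv_anti₀ hp h2
    _ = 2 * F.x ^ (6 * e) := by rw [Real.rpow_neg hx.le]; field_simp

theorem bd7w_m_rpow_neg_ge (h : F.Ok X) {e : ℝ} (h0 : 0 ≤ e) (h1 : e ≤ 1) : F.x ^ (6 * e) / 3 ≤ (F.m : ℝ) ^ (-e) := by
  have hx := BdFr.bds_x_pos h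
  have h2 := bd7w_m_rpow_le h h0 h1
  have hp : 0 < (F.m : ℝ) ^ e := Real.rpow_pos_of_pos (bd7w_m_pos h) _
  rw [Real.rpow_neg (bd7w_m_pos h).le]
  calc F.x ^ (6 * e) / 3 = (3 * F.x ^ (-(6 * e)))⁻¹ := by rw [Real.rpow_neg hx.le]; field_simp
    _ ≤ ((F.m : ℝ) ^ e)⁻¹ := inv_anti₀ hp h2

theorem bd7w_lam_rpow_le (h : F.Ok X) {e : ℝ} (he : 0 ≤ e) : F.lam ^ e ≤ F.x ^ (X.pS * e) := by
  rw [Real.rpow_mul (BdFr.bds_x_pos h).le]
  exact Real.rpow_le_rpow (BdFr.bds_lam_pos h).le h.lam_hi he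

/-- monotonicity in the exponent (`x < 1`) -/
theorem bd7w_x_rpow_anti (h : F.Ok X) {a b : ℝ} (hab : a ≤ b) : F.x ^ b ≤ F.x ^ a :=
  Real.rpow_le_rpow_of_exponent_ge (BdFr.bds_x_pos h) (BdFr.bds_x_lt_one h).le hab

/-- every positive power of `x` is small for large sizes -/
theorem bd7w_x_small (X : BdFix) {a ε : ℝ} (ha : 0 < a) (hε : 0 < ε) : ∃ N0 : ℕ, ∀ F : BdFr, F.Ok X → N0 ≤ F.N → F.x ^ a ≤ ε := by
  have h1 : ∀ᶠ n : ℕ in atTop, (n : ℝ) ^ (-(a / 6)) ≤ ε :=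
    ((tendsto_rpow_neg_atTop (by positivity : 0 < a / 6)).comp tendsto_natCast_atTop_atTop).eventually_le_const hε
  obtain ⟨N0, hN0⟩ := eventually_atTop.1 h1
  refine ⟨N0, fun F hF hN => ?_⟩
  have := hN0 F.N hN
  rw [bd7w_N_rpow hF] at this
  have e : -(6 * -(a / 6)) = a := by ring
  rwa [e] at this

/-- `t = Λ^{1/3} = λ^{1/100}` -/
theorem bd7w_t_eq (h : F.Ok X) : F.Lam ^ (1 / 3 : ℝ) = F.lam ^ (1 / 100 : ℝ) := by
  unfold BdFr.Lam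
  rw [← Real.rpow_mul (BdFr.bds_lam_pos h).le]; norm_num

theorem bd7w_Lam_eq (h : F.Ok X) : F.Lam = (F.Lam ^ (1 / 3 : ℝ)) ^ 3 := by
  rw [← Real.rpow_natCast, ← Real.rpow_mul (bud_gb_Lam_pos h).le]; norm_num

theorem bd7w_t_le (h : F.Ok X) : F.Lam ^ (1 / 3 : ℝ) ≤ F.x ^ (X.pS / 100) := by
  rw [bd7w_t_eq h]
  have := bd7w_lam_rpow_le (X := X) h (e := 1 / 100) (by norm_num)
  have e : X.pS * (1 / 100) = X.pS / 100 := by ring
  rwa [e] at this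

theorem bd7w_t_pos (h : F.Ok X) : 0 < F.Lam ^ (1 / 3 : ℝ) := Real.rpow_pos_of_pos (bud_gb_Lam_pos h) _

theorem bd7w_t_le_one (hX : X.Ok) (h : F.Ok X) : F.Lam ^ (1 / 3 : ℝ) ≤ 1 := by
  rw [bd7w_t_eq h]
  exact Real.rpow_le_one (BdFr.bds_lam_pos h).le (BdFr.bds_lam_lt_one h hX).le (by norm_num)

/-- smallness of the fixed exponents -/
theorem bd7w_exp (hX : X.Ok) : X.zeta ≤ X.pS / 100000 ∧ X.mPE ≤ X.zeta / 100 ∧ X.pS ≤ 1 / 1000000 ∧ (0.49 : ℝ) ≤ X.sS := by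
  have h1 := hX.tau0_pos; have h2 := hX.tau0_le; have h3 := hX.eta_le; have h4 := hX.tau_le
  have h5 := hX.bl_pos; have h6 := hX.bl_le; have h7 := hX.bs_le; have h8 := hX.pS_pos; have h9 := hX.pS_le; have h10 := hX.he_le
  have ht : X.tau0 ≤ 1 := by linarith
  have hb : X.bl ≤ 1 := by linarith
  refine ⟨?_, hX.mPE_le, by linarith, by unfold BdFix.sS; linarith⟩
  have h11 : X.pS * X.tau0 * X.bl ≤ X.pS * 1 * 1 := by
    apply mul_le_mul (mul_le_mul_of_nonneg_left ht h8.le) hb h5.le (by positivity)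
  linarith [hX.zeta_le]

end kit

/-! ## 3. numerics of the parent call (uniform in the frame) -/

section call

variable {X : BdFix}

theorem bd7w_d_eq (F : BdFr) : F.dPE X = X.cd * F.u * F.Lam ^ (1 / 3 : ℝ) := rfl

theorem bd7w_C0_eq {F : BdFr} (h : F.Ok X) : F.C0 = F.u ^ 2 * (F.Lam ^ (1 / 3 : ℝ)) ^ 3 := by
  unfold BdFr.C0; rw [← bd7w_Lam_eq h]

/-- `d_PE → 0` -/
theorem bd7w_d_small (hX : X.Ok) {ε : ℝ} (hε : 0 < ε) : ∃ N0 : ℕ, ∀ F : BdFr, F.Ok X → N0 ≤ F.N → F.dPE X ≤ ε := by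
  obtain ⟨N0, hN0⟩ := bd7w_x_small X (a := X.pS / 100) (ε := ε / X.cd) (by have := hX.pS_pos; positivity) (div_pos hε hX.cd_pos)
  refine ⟨N0, fun F hF hN => ?_⟩
  have h1 := (bd7w_t_le hF).trans (hN0 F hF hN)
  have hu0 := BdFr.bds_u_pos hF hX
  have hu1 := BdFr.bds_u_le_one hF hX
  have ht := bd7w_t_pos hF
  have hcd := hX.cd_pos
  rw [bd7w_d_eq]
  calc X.cd * F.u * F.Lam ^ (1 / 3 : ℝ) ≤ X.cd * 1 * (ε / X.cd) := by
        apply mul_le_mul (mul_le_mul_of_nonneg_left hu1 hcd.le) h1 ht.le (by positivity)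
    _ = ε := by field_simp

/-- `C0 → 0` -/
theorem bd7w_C0_le (hX : X.Ok) {ε : ℝ} (hε : 0 < ε) : ∃ N0 : ℕ, ∀ F : BdFr, F.Ok X → N0 ≤ F.N → F.C0 ≤ ε := by
  obtain ⟨N0, hN0⟩ := bd7w_x_small X (a := X.pS / 100) (ε := ε) (by have := hX.pS_pos; positivity) hε
  refine ⟨N0, fun F hF hN => ?_⟩
  have h1 := (bd7w_t_le hF).trans (hN0 F hF hN)
  have hu0 := BdFr.bds_u_pos hF hX
  have hu1 := BdFr.bds_u_le_one hF hX
  have ht := bd7w_t_pos hF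
  have ht1 := bd7w_t_le_one hX hF
  rw [bd7w_C0_eq hF]
  set t := F.Lam ^ (1 / 3 : ℝ)
  have a1 : F.u ^ 2 ≤ 1 := by nlinarith
  have a2 : t ^ 3 ≤ t := by
    have : t ^ 2 ≤ 1 := by nlinarith
    nlinarith
  calc F.u ^ 2 * t ^ 3 ≤ 1 * t := mul_le_mul a1 a2 (by positivity) (by norm_num)
    _ ≤ ε := by linarith

theorem bd7w_call_lam (hX : X.Ok) : ∃ N0 : ℕ, ∀ F : BdFr, F.Ok X → N0 ≤ F.N → 0 < F.C0 ∧ F.C0 ≤ (F.call X).d ^ 2 := by
  obtain ⟨N0, hN0⟩ := bd7w_x_small X (a := X.pS / 100) (ε := X.cd ^ 2) (by have := hX.pS_pos; positivity) (by have := hX.cd_pos; positivity)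
  refine ⟨N0, fun F hF hN => ⟨bud_gb_C0_pos hX hF, ?_⟩⟩
  have h1 := (bd7w_t_le hF).trans (hN0 F hF hN)
  have hu0 := BdFr.bds_u_pos hF hX
  have ht := bd7w_t_pos hF
  show F.C0 ≤ (F.dPE X) ^ 2
  rw [bd7w_C0_eq hF, bd7w_d_eq]
  set t := F.Lam ^ (1 / 3 : ℝ)
  have : F.u ^ 2 * t ^ 2 * t ≤ F.u ^ 2 * t ^ 2 * X.cd ^ 2 := mul_le_mul_of_nonneg_left h1 (by positivity)
  nlinarith

theorem bd7w_call_a_eq (hX : X.Ok) {F : BdFr} (h : F.Ok X) : (F.call X).a = (F.m : ℝ) ^ (1 / 2 : ℝ) * F.x ^ (4 - X.zeta) := by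
  have hd := bud_gb_d_pos hX h
  show Real.sqrt (F.m : ℝ) * (F.x ^ (4 - X.zeta) * F.dPE X) / F.dPE X = _
  rw [Real.sqrt_eq_rpow]
  field_simp

theorem bd7w_call_a (hX : X.Ok) {F : BdFr} (h : F.Ok X) : F.x / 2 ≤ (F.call X).a := by
  have hx := BdFr.bds_x_pos h
  rw [bd7w_call_a_eq hX h]
  have h1 := bd7w_m_rpow_ge h (e := 1 / 2) (by norm_num) (by norm_num)
  have h2 : 0 < F.x ^ (4 - X.zeta) := Real.rpow_pos_of_pos hx _
  have h3 : F.x ^ (-(6 * (1 / 2 : ℝ))) * F.x ^ (4 - X.zeta) = F.x ^ (1 - X.zeta) := by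
    rw [← Real.rpow_add hx]; congr 1; ring
  have h4 : F.x ≤ F.x ^ (1 - X.zeta) := by
    have := bd7w_x_rpow_anti h (a := 1 - X.zeta) (b := 1) (by linarith [hX.zeta_pos])
    rwa [Real.rpow_one] at this
  calc F.x / 2 ≤ F.x ^ (1 - X.zeta) / 2 := by linarith
    _ = F.x ^ (-(6 * (1 / 2 : ℝ))) / 2 * F.x ^ (4 - X.zeta) := by rw [← h3]; ring
    _ ≤ _ := mul_le_mul_of_nonneg_right h1 h2.le

/-- `s = Λ^{1/6}` -/
theorem bd7w_s_pos {F : BdFr} (h : F.Ok X) : 0 < F.Lam ^ (1 / 6 : ℝ) := Real.rpow_pos_of_pos (bud_gb_Lam_pos h) _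

theorem bd7w_s_t {F : BdFr} (h : F.Ok X) : F.Lam ^ (1 / 3 : ℝ) = (F.Lam ^ (1 / 6 : ℝ)) ^ 2 := by
  rw [← Real.rpow_natCast, ← Real.rpow_mul (bud_gb_Lam_pos h).le]; norm_num

theorem bd7w_s_Lam {F : BdFr} (h : F.Ok X) : F.Lam = (F.Lam ^ (1 / 6 : ℝ)) ^ 6 := by
  rw [← Real.rpow_natCast, ← Real.rpow_mul (bud_gb_Lam_pos h).le]; norm_num

theorem bd7w_s_inv {F : BdFr} (h : F.Ok X) : F.Lam ^ (-(1 / 6) : ℝ) = (F.Lam ^ (1 / 6 : ℝ))⁻¹ :=
  Real.rpow_neg (bud_gb_Lam_pos h).le _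

theorem bd7w_sqrt_C0 (hX : X.Ok) {F : BdFr} (h : F.Ok X) : Real.sqrt F.C0 = F.u * (F.Lam ^ (1 / 6 : ℝ)) ^ 3 := by
  have hu := BdFr.bds_u_pos h hX
  have hs := bd7w_s_pos h
  have : F.C0 = (F.u * (F.Lam ^ (1 / 6 : ℝ)) ^ 3) ^ 2 := by
    unfold BdFr.C0
    conv_lhs => rw [bd7w_s_Lam h]
    ring
  rw [this, Real.sqrt_sq (by positivity)]

/-- `w_c ≥ x^{1-10ζ} Λ^{-1/6}` -/
theorem bd7w_wc_ge (hX : X.Ok) {F : BdFr} (h : F.Ok X) : F.x ^ (1 - 10 * X.zeta) * (F.Lam ^ (1 / 6 : ℝ))⁻¹ ≤ F.wc X := by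
  have hx := BdFr.bds_x_pos h
  have hu := BdFr.bds_u_pos h hX
  have hs := bd7w_s_pos h
  have hXr := BdFr.bds_Xr_pos h hX
  have hl := BdFr.bds_lam_pos h
  unfold BdFr.wc BdFr.yc
  rw [bd7w_s_inv h]
  have h1 : 0 ≤ F.Xr ^ (3 / 4 : ℝ) * F.lam ^ (0.12 : ℝ) := by positivity
  have h2 : 0 < F.x ^ (-(10 * X.zeta)) := Real.rpow_pos_of_pos hx _
  have h3 : F.x ^ (1 - 10 * X.zeta) = F.x ^ (-(10 * X.zeta)) * F.x := by
    rw [← Real.rpow_add_one hx.ne']; congr 1; ring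
  have h4 : F.Xr * F.u = F.x := by unfold BdFr.Xr; field_simp
  calc F.x ^ (1 - 10 * X.zeta) * (F.Lam ^ (1 / 6 : ℝ))⁻¹
      = F.x ^ (-(10 * X.zeta)) * (F.Xr * (F.Lam ^ (1 / 6 : ℝ))⁻¹ + 0) * F.u := by rw [h3, ← h4]; ring
    _ ≤ _ := by
        apply mul_le_mul_of_nonneg_right _ hu.le
        apply mul_le_mul_of_nonneg_left _ h2.le
        linarith

/-- `w_c ≥ x` -/
theorem bd7w_wc_ge_x (hX : X.Ok) {F : BdFr} (h : F.Ok X) : F.x ≤ F.wc X := by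
  have hx := BdFr.bds_x_pos h
  have hs := bd7w_s_pos h
  have hs1 : F.Lam ^ (1 / 6 : ℝ) ≤ 1 :=
    Real.rpow_le_one (bud_gb_Lam_pos h).le (by
      unfold BdFr.Lam
      exact Real.rpow_le_one (BdFr.bds_lam_pos h).le (BdFr.bds_lam_lt_one h hX).le (by norm_num)) (by norm_num)
  have h1 : F.x ≤ F.x ^ (1 - 10 * X.zeta) := by
    have := bd7w_x_rpow_anti h (a := 1 - 10 * X.zeta) (b := 1) (by linarith [hX.zeta_pos])
    rwa [Real.rpow_one] at this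
  have h2 : 1 ≤ (F.Lam ^ (1 / 6 : ℝ))⁻¹ := (one_le_inv₀ hs).2 hs1
  calc F.x ≤ F.x ^ (1 - 10 * X.zeta) * 1 := by linarith
    _ ≤ F.x ^ (1 - 10 * X.zeta) * (F.Lam ^ (1 / 6 : ℝ))⁻¹ := mul_le_mul_of_nonneg_left h2 (Real.rpow_nonneg hx.le _)
    _ ≤ _ := bd7w_wc_ge hX h

theorem bd7w_call_Al (hX : X.Ok) : ∃ N0 : ℕ, ∀ F : BdFr, F.Ok X → N0 ≤ F.N → (F.call X).Al F.C0 ≤ F.wc X := by
  obtain ⟨e1, e2, e3, e4⟩ := bd7w_exp hX
  have hz := hX.zeta_pos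
  have hm := hX.mPE_pos
  have hcd := hX.cd_pos
  have hexp : 0 < 9 * X.zeta - 6 * (X.mPE / 10000) := by linarith
  obtain ⟨N0, hN0⟩ := bd7w_x_small X hexp (ε := 1 / (9 * X.cd)) (by positivity)
  refine ⟨N0, fun F hF hN => ?_⟩
  have h0 := hN0 F hF hN
  have hx := BdFr.bds_x_pos hF
  have hu := BdFr.bds_u_pos hF hX
  have hs := bd7w_s_pos hF
  refine le_trans ?_ (bd7w_wc_ge hX hF)
  show (F.m : ℝ) ^ (X.mPE / 10000) * Real.sqrt (F.m : ℝ) * (F.x ^ (4 - X.zeta) * F.dPE X) / Real.sqrt F.C0 ≤ _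
  rw [bd7w_sqrt_C0 hX hF, Real.sqrt_eq_rpow]
  have hd : F.dPE X = X.cd * F.u * (F.Lam ^ (1 / 6 : ℝ)) ^ 2 := by rw [← bd7w_s_t hF]; rfl
  rw [hd]
  set s := F.Lam ^ (1 / 6 : ℝ)
  have a1 := bd7w_m_rpow_le hF (e := X.mPE / 10000) (by positivity) (by linarith)
  have a2 := bd7w_m_rpow_le hF (e := 1 / 2) (by norm_num) (by norm_num)
  have p1 : 0 < F.x ^ (4 - X.zeta) := Real.rpow_pos_of_pos hx _
  have e5 : (F.m : ℝ) ^ (X.mPE / 10000) * (F.m : ℝ) ^ (1 / 2 : ℝ) * (F.x ^ (4 - X.zeta) * (X.cd * F.u * s ^ 2)) / (F.u * s ^ 3)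
      = (F.m : ℝ) ^ (X.mPE / 10000) * (F.m : ℝ) ^ (1 / 2 : ℝ) * F.x ^ (4 - X.zeta) * X.cd * s⁻¹ := by
    field_simp
  rw [e5]
  have a3 : (F.m : ℝ) ^ (X.mPE / 10000) * (F.m : ℝ) ^ (1 / 2 : ℝ) ≤ 3 * F.x ^ (-(6 * (X.mPE / 10000))) * (3 * F.x ^ (-(6 * (1 / 2 : ℝ)))) :=
    mul_le_mul a1 a2 (Real.rpow_nonneg (bd7w_m_pos hF).le _) (by positivity)
  have e6 : 3 * F.x ^ (-(6 * (X.mPE / 10000))) * (3 * F.x ^ (-(6 * (1 / 2 : ℝ)))) * F.x ^ (4 - X.zeta)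
      = 9 * (F.x ^ (9 * X.zeta - 6 * (X.mPE / 10000)) * F.x ^ (1 - 10 * X.zeta)) := by
    rw [← Real.rpow_add hx]
    have : 3 * F.x ^ (-(6 * (X.mPE / 10000))) * (3 * F.x ^ (-(6 * (1 / 2 : ℝ)))) * F.x ^ (4 - X.zeta)
        = 9 * (F.x ^ (-(6 * (X.mPE / 10000))) * F.x ^ (-(6 * (1 / 2 : ℝ))) * F.x ^ (4 - X.zeta)) := by ring
    rw [this, ← Real.rpow_add hx, ← Real.rpow_add hx]
    congr 2; ring
  have p2 : 0 < F.x ^ (1 - 10 * X.zeta) := Real.rpow_pos_of_pos hx _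
  calc (F.m : ℝ) ^ (X.mPE / 10000) * (F.m : ℝ) ^ (1 / 2 : ℝ) * F.x ^ (4 - X.zeta) * X.cd * s⁻¹
      ≤ 3 * F.x ^ (-(6 * (X.mPE / 10000))) * (3 * F.x ^ (-(6 * (1 / 2 : ℝ)))) * F.x ^ (4 - X.zeta) * X.cd * s⁻¹ := by
        gcongr
    _ = 9 * X.cd * F.x ^ (9 * X.zeta - 6 * (X.mPE / 10000)) * (F.x ^ (1 - 10 * X.zeta) * s⁻¹) := by rw [e6]; ring
    _ ≤ 9 * X.cd * (1 / (9 * X.cd)) * (F.x ^ (1 - 10 * X.zeta) * s⁻¹) := by gcongr
    _ = F.x ^ (1 - 10 * X.zeta) * s⁻¹ := by field_simp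

/-- `u Λ^{1/3} ≥ x^{1 - p_*/5}/C_U` -/
theorem bd7w_ut_ge (hX : X.Ok) {F : BdFr} (h : F.Ok X) : F.x ^ (1 - X.pS / 5) ≤ X.CU * (F.u * F.Lam ^ (1 / 3 : ℝ)) := by
  obtain ⟨e1, e2, e3, e4⟩ := bd7w_exp hX
  have hx := BdFr.bds_x_pos h
  have hl := BdFr.bds_lam_pos h
  have ht := bd7w_t_pos h
  have hp := hX.pS_pos
  set e : ℝ := X.sS / 2 - 1 / 100 with he
  have he5 : 1 / 5 ≤ e := by rw [he]; linarith
  have a1 : F.lam ^ e ≤ F.x ^ (X.pS * e) := bd7w_lam_rpow_le h (by linarith)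
  have a2 : F.x ^ (-(X.pS * e)) ≤ F.lam ^ (-e) := by
    rw [Real.rpow_neg hx.le, Real.rpow_neg hl.le]
    exact inv_anti₀ (Real.rpow_pos_of_pos hl _) a1
  have a3 : F.x ^ (-(X.pS / 5)) ≤ F.x ^ (-(X.pS * e)) := bd7w_x_rpow_anti h (by nlinarith)
  have a4 : F.U X * F.Lam ^ (1 / 3 : ℝ) = F.x * F.lam ^ (-e) := by
    unfold BdFr.U
    rw [bd7w_t_eq h, mul_assoc, ← Real.rpow_add hl]
    congr 2; rw [he]; ring
  have a5 : F.x ^ (1 - X.pS / 5) = F.x * F.x ^ (-(X.pS / 5)) := by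
    rw [mul_comm, ← Real.rpow_add_one hx.ne']; congr 1; ring
  calc F.x ^ (1 - X.pS / 5) = F.x * F.x ^ (-(X.pS / 5)) := a5
    _ ≤ F.x * F.lam ^ (-e) := mul_le_mul_of_nonneg_left (a3.trans a2) hx.le
    _ = F.U X * F.Lam ^ (1 / 3 : ℝ) := a4.symm
    _ ≤ X.CU * F.u * F.Lam ^ (1 / 3 : ℝ) := mul_le_mul_of_nonneg_right h.u_lo ht.le
    _ = _ := by ring







theorem bd7w_call_ok (hX : X.Ok) {cE D0 : ℝ} (hcE : 0 < cE) (hD0 : 0 < D0) :
    ∃ N0 : ℕ, ∀ F : BdFr, F.Ok X → N0 ≤ F.N → (F.call X).Ok cE D0 := by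
  obtain ⟨e1, e2, e3, e4⟩ := bd7w_exp hX
  have hz := hX.zeta_pos
  have hm := hX.mPE_pos
  have hcd := hX.cd_pos
  have hCU := hX.CU_pos
  have hp := hX.pS_pos
  obtain ⟨N1, hN1⟩ := bd7w_x_small X (a := X.zeta - 6 * X.mPE) (by linarith) (ε := 1 / (2 * cE)) (by positivity)
  obtain ⟨N2, hN2⟩ := bd7w_x_small X (a := X.pS / 5 - X.zeta) (by linarith) (ε := X.cd / (3 * X.CU)) (by positivity)
  obtain ⟨N3, hN3⟩ := bd7w_d_small hX hD0
  refine ⟨max (max N1 N2) (max N3 6), fun F hF hN => ?_⟩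
  have b1 := hN1 F hF (((le_max_left _ _).trans (le_max_left _ _)).trans hN)
  have b2 := hN2 F hF (((le_max_right _ _).trans (le_max_left _ _)).trans hN)
  have b3 := hN3 F hF (((le_max_left _ _).trans (le_max_right _ _)).trans hN)
  have b4 : 6 ≤ F.N := ((le_max_right _ _).trans (le_max_right _ _)).trans hN
  have hx := BdFr.bds_x_pos hF
  have hd := bud_gb_d_pos hX hF
  have hmp := bd7w_m_pos hF
  have hE := bud_gb_E_pos hX hF
  have hus := bud_gb_us_pos hX hF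
  have hNp := bud_gb_N_pos (X := X) hF
  refine ⟨?_, hm, (show X.mPE ≤ 1 / 100 by linarith), hd, b3, ?_, ?_, le_rfl, (show (0 : ℝ) ≤ 1 / 2 by norm_num), le_rfl, ?_, fun _ => rfl⟩
  · -- 3 ≤ m
    have h1 : (6 : ℝ) ≤ F.N := by exact_mod_cast b4
    have h2 : (3 : ℝ) ≤ F.m := by linarith [hF.m_lo]
    show 3 ≤ F.m
    exact_mod_cast h2
  · -- E1
    show cE * (F.m : ℝ) ^ (-(2 / 3 : ℝ) + X.mPE) * F.dPE X ≤ F.x ^ (4 - X.zeta) * F.dPE X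
    apply mul_le_mul_of_nonneg_right _ hd.le
    have a1 := bd7w_m_rpow_neg_le hF (e := 2 / 3 - X.mPE) (by linarith) (by linarith)
    have e5 : -(2 / 3 - X.mPE) = -(2 / 3 : ℝ) + X.mPE := by ring
    rw [e5] at a1
    have e6 : F.x ^ (6 * (2 / 3 - X.mPE)) = F.x ^ (X.zeta - 6 * X.mPE) * F.x ^ (4 - X.zeta) := by
      rw [← Real.rpow_add hx]; congr 1; ring
    have p1 : 0 < F.x ^ (4 - X.zeta) := Real.rpow_pos_of_pos hx _
    calc cE * (F.m : ℝ) ^ (-(2 / 3 : ℝ) + X.mPE) ≤ cE * (2 * F.x ^ (6 * (2 / 3 - X.mPE))) := by gcongr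
      _ = 2 * cE * F.x ^ (X.zeta - 6 * X.mPE) * F.x ^ (4 - X.zeta) := by rw [e6]; ring
      _ ≤ 2 * cE * (1 / (2 * cE)) * F.x ^ (4 - X.zeta) := by gcongr
      _ = F.x ^ (4 - X.zeta) := by field_simp
  · -- E2
    show F.x ^ (4 - X.zeta) * F.dPE X ≤ (F.m : ℝ) ^ (-(1 / 2 : ℝ)) * F.dPE X ^ 2
    have a1 := bd7w_m_rpow_neg_ge hF (e := 1 / 2) (by norm_num) (by norm_num)
    have a2 := bd7w_ut_ge hX hF
    have e5 : F.x ^ (4 - X.zeta) = F.x ^ (X.pS / 5 - X.zeta) * (F.x ^ (6 * (1 / 2 : ℝ)) * F.x ^ (1 - X.pS / 5)) := by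
      rw [← Real.rpow_add hx, ← Real.rpow_add hx]; congr 1; ring
    have p1 : 0 < F.x ^ (6 * (1 / 2 : ℝ)) := Real.rpow_pos_of_pos hx _
    have p2 : 0 < F.x ^ (1 - X.pS / 5) := Real.rpow_pos_of_pos hx _
    have a3 : F.x ^ (4 - X.zeta) ≤ (F.m : ℝ) ^ (-(1 / 2 : ℝ)) * F.dPE X := by
      calc F.x ^ (4 - X.zeta) = F.x ^ (X.pS / 5 - X.zeta) * (F.x ^ (6 * (1 / 2 : ℝ)) * F.x ^ (1 - X.pS / 5)) := e5
        _ ≤ X.cd / (3 * X.CU) * (F.x ^ (6 * (1 / 2 : ℝ)) * F.x ^ (1 - X.pS / 5)) := by gcongr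
        _ ≤ X.cd / (3 * X.CU) * (F.x ^ (6 * (1 / 2 : ℝ)) * (X.CU * (F.u * F.Lam ^ (1 / 3 : ℝ)))) := by gcongr
        _ = F.x ^ (6 * (1 / 2 : ℝ)) / 3 * (X.cd * F.u * F.Lam ^ (1 / 3 : ℝ)) := by field_simp
        _ ≤ (F.m : ℝ) ^ (-(1 / 2 : ℝ)) * (X.cd * F.u * F.Lam ^ (1 / 3 : ℝ)) := by
            apply mul_le_mul_of_nonneg_right a1 hd.le
    calc F.x ^ (4 - X.zeta) * F.dPE X ≤ (F.m : ℝ) ^ (-(1 / 2 : ℝ)) * F.dPE X * F.dPE X := mul_le_mul_of_nonneg_right a3 hd.le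
      _ = _ := by ring
  · -- wall
    show (0 : ℝ) ≤ (F.call X).us / (F.call X).M (F.call X).u0
    apply div_nonneg hus.le
    have hL : 0 < (F.call X).L := by
      unfold CmCall.L
      refine lt_min hus ?_
      have ha : 0 < (F.call X).a := lt_of_lt_of_le (by positivity) (bd7w_call_a hX hF)
      have hd' : 0 < (F.call X).d := hd
      positivity
    unfold CmCall.M
    have hd' : 0 < (F.call X).d := hd
    have hE' : 0 < (F.call X).E := hE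
    have hu0 : (F.call X).u0 = 0 := rfl
    rw [hu0]
    have : 0 < (F.call X).N ^ (F.call X).dl := Real.rpow_pos_of_pos hNp _
    positivity

end call

/-! ## 4. a weak sequence is a class-free weak parent -/

section seq

variable {X : BdFix} {W : BdWorld} {Fam : BdFr → Prop} {c : P6C} {cL CL c0 β0 Kb : ℝ} {U : Ultrafilter ℕ} {i : ℕ → Bd7I X}

/-- uniform statements hold eventually along a weak sequence -/
theorem bd7w_ev (h : BcpWk X W Fam cL CL U i) {Φ : BdFr → Prop} (hΦ : ∃ N0 : ℕ, ∀ F : BdFr, F.Ok X → N0 ≤ F.N → Φ F) :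
    ∀ᶠ k in U, Φ (i k).F := by
  obtain ⟨N0, hN0⟩ := hΦ
  filter_upwards [h.out, h.N_top.eventually_ge_atTop N0] with k hk hN
  exact hN0 _ hk.ok hN

theorem bd7w_evF (h : BcpWk X W Fam cL CL U i) {Φ : BdFr → Prop} (hΦ : ∃ N0 : ℕ, ∀ F : BdFr, Fam F → F.Ok X → N0 ≤ F.N → Φ F) :
    ∀ᶠ k in U, Φ (i k).F := by
  obtain ⟨N0, hN0⟩ := hΦ
  filter_upwards [h.out, h.N_top.eventually_ge_atTop N0] with k hk hN
  exact hN0 _ hk.fam hk.ok hN

theorem bd7w_par_Pb (j : Bd7I X) {u : ℝ} (hu : 0 ≤ u) : j.par.Pb j.F.C0 j.Q.r u = bcpCl (j.F.b j.g) u - j.F.C X (j.Q.r u) := by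
  unfold P6D.Pb
  rw [if_pos (show j.par.P.u0 ≤ u from hu)]
  rfl

theorem bd7w_par_Ph (j : Bd7I X) {u : ℝ} (hu : 0 ≤ u) : j.par.Ph j.F.C0 j.Q.r u = bcpCl (j.F.h j.g) u + j.F.C X (j.Q.r u) * j.Q.r u := by
  unfold P6D.Ph
  rw [if_pos (show j.par.P.u0 ≤ u from hu)]
  rfl

theorem bd7w_par_adm {j : Bd7I X} (hF : j.F.Ok X) (hb : IsClock 1 (j.F.b j.g)) (hh : IsClock 1 (j.F.h j.g))
    (hbd : ∀ v ∈ Ioo (0 : ℝ) 1, β0 ≤ j.F.b j.g v ∧ j.F.b j.g v ≤ Kb ∧ j.F.h j.g v ≤ Kb) (h0 : 0 < j.F.C0) (h1 : j.F.C0 ≤ β0 / 2) (h2 : j.F.C0 ≤ 1)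
    (hd : 0 < j.F.dPE X) :
    P6Adm (j.par.Pb j.F.C0 j.Q.r) (j.par.Ph j.F.C0 j.Q.r) ∧ P6Marg (j.par.Pb j.F.C0 j.Q.r) 0 (β0 / 2) ∧
      P6Bd (j.par.Pb j.F.C0 j.Q.r) (j.par.Ph j.F.C0 j.Q.r) (Kb + 1) := by
  have hBm := bd7w_cl_mono hb
  have hHm := bd7w_cl_mono hh
  have hB0 := bd7w_cl_ge hb (β := β0) (fun v hv => (hbd v hv).1)
  have hB1 := bd7w_cl_le hb (K := Kb) (fun v hv => (hbd v hv).2.1)
  have hH0 := bd7w_cl_ge hh (β := 0) hh.nonneg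
  have hH1 := bd7w_cl_le hh (K := Kb) (fun v hv => (hbd v hv).2.2)
  have hrm := bd7_q_r_mono j.Q hF
  have he0 : ∀ t, 0 ≤ j.F.C X t := fun t => cm_e_nonneg (j.F.call X) h0.le t
  have he1 : ∀ t, j.F.C X t ≤ j.F.C0 := fun t => cm_e_le (j.F.call X) h0.le t
  have hea : ∀ {s t : ℝ}, s ≤ t → j.F.C X t ≤ j.F.C X s := fun hst => cm_e_anti (j.F.call X) hd h0.le hst
  have hre : ∀ {s t : ℝ}, 0 ≤ s → s ≤ t → j.F.C X s * s ≤ j.F.C X t * t := fun {s t} hs hst => by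
    have := cm_re_mono (j.F.call X) hd h0.le (mem_Ici.2 hs) (mem_Ici.2 (hs.trans hst)) hst
    simp only at this
    have e1 : j.F.C X s * s = s * (j.F.call X).e j.F.C0 s := mul_comm _ _
    have e2 : j.F.C X t * t = t * (j.F.call X).e j.F.C0 t := mul_comm _ _
    rw [e1, e2]; exact this
  have hlow : ∀ u, 0 ≤ u → β0 / 2 ≤ j.par.Pb j.F.C0 j.Q.r u := fun u hu => by
    rw [bd7w_par_Pb j hu]
    linarith [hB0 u, he1 (j.Q.r u)]
  refine ⟨⟨⟨?_, ?_⟩, ⟨?_, ?_⟩⟩, ⟨fun u hu _ => hlow u hu, fun u v hu hu' => absurd hu (not_le.2 hu')⟩, ?_⟩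
  · intro u hu v hv huv
    rw [bd7w_par_Pb j hu.1, bd7w_par_Pb j hv.1]
    linarith [hBm huv, hea (hrm hu hv huv)]
  · linarith [hlow 0 le_rfl]
  · intro u hu v hv huv
    rw [bd7w_par_Ph j hu.1, bd7w_par_Ph j hv.1]
    linarith [hHm huv, hre (j.Q.r_mem u hu).1 (hrm hu hv huv)]
  · rw [bd7w_par_Ph j le_rfl]
    have := mul_nonneg (he0 (j.Q.r 0)) (j.Q.r_mem 0 (left_mem_Icc.2 zero_le_one)).1
    linarith [hH0 0]
  · intro u hu
    have hr := j.Q.r_mem u hu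
    constructor
    · rw [abs_le]
      have a1 := hlow u hu.1
      constructor
      · linarith [hB0 u, hB1 u]
      · rw [bd7w_par_Pb j hu.1]; linarith [hB1 u, he0 (j.Q.r u)]
    · rw [bd7w_par_Ph j hu.1, abs_le]
      have a1 := mul_nonneg (he0 (j.Q.r u)) hr.1
      have a2 : j.F.C X (j.Q.r u) * j.Q.r u ≤ 1 * 1 := mul_le_mul ((he1 _).trans h2) hr.2 hr.1 (by norm_num)
      constructor
      · linarith [hH0 u, hH1 u]
      · linarith [hH1 u]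

theorem bd7w_par_seq (hI : Bd7WIn X Fam c cL CL c0 β0 Kb) (h : BcpWk X W Fam cL CL U i) : P6Seq U c (fun k => (i k).par) := by
  have hX := hI.K.hX
  have hc := hI.K.k.ok
  have hTlim : Tendsto (fun k => (i k).F.Tm) U (𝓝 c.Tinf) := by
    rw [Metric.tendsto_nhds]
    intro ε hε
    filter_upwards [bd7w_evF h (hI.p9 1 (ε / 2) one_pos (half_pos hε))] with k hk
    rw [Real.dist_eq, hI.K.T_eq]
    linarith [hk.1]
  have hbase : ∀ᶠ k in U, IsClock 1 ((i k).F.b (i k).g) ∧ IsClock 1 ((i k).F.h (i k).g) ∧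
      ∀ v ∈ Ioo (0 : ℝ) 1, β0 ≤ (i k).F.b (i k).g v ∧ (i k).F.b (i k).g v ≤ Kb ∧ (i k).F.h (i k).g v ≤ Kb := by
    filter_upwards [bd7w_evF h hI.base, h.out] with k hk ho
    exact hk _ ho.g_mem
  have hβ0 : 0 < β0 := by
    have := hI.K.c0_lt
    nlinarith [sq_nonneg c0]
  have hKb : Kb ≤ c.K := by nlinarith [hI.K.K_ge, sq_nonneg c0]
  refine ⟨?_, Eventually.of_forall fun k => hI.K.m_eq.symm, bd7w_ev h (bd7w_call_ok hX hc.cE_pos hc.D0_pos), hTlim, ?_,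
    isLittleO_zero _ _, ?_, ?_, ?_⟩
  · -- sizes
    have h1 : Tendsto (fun k => ((i k).F.N : ℝ) / 2) U atTop :=
      (tendsto_natCast_atTop_atTop.comp h.N_top).atTop_div_const (by norm_num)
    refine tendsto_atTop_mono' _ ?_ h1
    filter_upwards [h.out] with k hk
    exact hk.ok.m_lo
  · -- d² ≤ T - ρ
    set η : ℝ := (c.Tinf - c.ρ) / 2 with hη
    have hη0 : 0 < η := by have := hc.ρ_lt; rw [hη]; linarith
    filter_upwards [bd7w_ev h (bd7w_d_small hX (lt_min one_pos hη0)), hTlim.eventually_const_lt (show c.Tinf - η < c.Tinf by linarith),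
      h.out] with k h1 h2 ho
    have hd := bud_gb_d_pos hX ho.ok
    show ((i k).F.dPE X) ^ 2 ≤ (i k).F.Tm - c.ρ
    have a1 : (i k).F.dPE X ≤ 1 := h1.trans (min_le_left _ _)
    have a2 : (i k).F.dPE X ≤ η := h1.trans (min_le_right _ _)
    have a3 : ((i k).F.dPE X) ^ 2 ≤ (i k).F.dPE X := by nlinarith
    have : c.Tinf - η - c.ρ = η := by rw [hη]; ring
    linarith
  · -- (4)
    intro κ ε hκ hε
    have hκ0 : 0 < κ := by linarith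
    filter_upwards [bd7w_evF h (hI.p9 (1 / (2 * κ ^ 2)) (ε / κ ^ 3) (by positivity) (by positivity)), h.out] with k hk ho z u hz hz1 hu0 hu1 hzu huz
    have hx := BdFr.bds_x_pos ho.ok
    have ha := bd7w_call_a hX ho.ok
    have hz' : (i k).F.x / 2 / κ ≤ z := le_trans (div_le_div_of_nonneg_right ha hκ0.le) hz
    have hz0 : 0 < z := lt_of_lt_of_le (by positivity) hz'
    have hu0' : (0 : ℝ) < u := hu0
    have humem : u ∈ Ico (1 / (2 * κ ^ 2) * (i k).F.x) 1 := by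
      refine ⟨?_, hu1⟩
      calc 1 / (2 * κ ^ 2) * (i k).F.x = (i k).F.x / 2 / κ / κ := by field_simp
        _ ≤ z / κ := div_le_div_of_nonneg_right hz' hκ0.le
        _ ≤ u := hzu
    obtain ⟨p1, p2⟩ := hk.2 _ ho.g_mem u humem
    have e1 : (i k).par.b0 u = (i k).F.b (i k).g u := bd7w_cl_eq _ ⟨hu0', hu1⟩
    have e2 : (i k).par.h0 u = (i k).F.h (i k).g u := bd7w_cl_eq _ ⟨hu0', hu1⟩
    show |(i k).par.b0 u - (i k).F.Tm| ≤ _ ∧ |(i k).par.h0 u| ≤ _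
    rw [e1, e2]
    have q2 : u ^ 2 ≤ (κ * z) ^ 2 := pow_le_pow_left₀ hu0'.le huz 2
    have q3 : u ^ 3 ≤ (κ * z) ^ 3 := pow_le_pow_left₀ hu0'.le huz 3
    constructor
    · calc _ ≤ ε / κ ^ 3 * u ^ 2 := p1
        _ ≤ ε / κ ^ 3 * (κ * z) ^ 2 := by gcongr
        _ = ε * z ^ 2 / κ := by field_simp
        _ ≤ ε * z ^ 2 := div_le_self (by positivity) hκ
    · calc _ ≤ ε / κ ^ 3 * u ^ 3 := p2
        _ ≤ ε / κ ^ 3 * (κ * z) ^ 3 := by gcongr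
        _ = ε * z ^ 3 := by field_simp
  · -- bounded clocks
    filter_upwards [hbase] with k ⟨hb, hh, hbd⟩ u _
    have hB0 := bd7w_cl_ge hb (β := β0) (fun v hv => (hbd v hv).1) u
    have hB1 := bd7w_cl_le hb (K := Kb) (fun v hv => (hbd v hv).2.1) u
    have hH0 := bd7w_cl_ge hh (β := 0) hh.nonneg u
    have hH1 := bd7w_cl_le hh (K := Kb) (fun v hv => (hbd v hv).2.2) u
    constructor
    · show |bcpCl ((i k).F.b (i k).g) u| ≤ c.K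
      rw [abs_of_nonneg (by linarith)]; linarith
    · show |bcpCl ((i k).F.h (i k).g) u| ≤ c.K
      rw [abs_of_nonneg hH0]; linarith
  · filter_upwards [hbase] with k ⟨hb, hh, _⟩
    exact ⟨(bd7w_cl_mono hb).monotoneOn _, (bd7w_cl_mono hh).monotoneOn _⟩

theorem bd7w_beta_pos (hI : Bd7WIn X Fam c cL CL c0 β0 Kb) : 0 < β0 := by
  have := hI.K.c0_lt
  nlinarith [sq_nonneg c0]

/-- the changed path of the optimiser along a weak sequence -/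
theorem bd7w_par_adm_ev (hI : Bd7WIn X Fam c cL CL c0 β0 Kb) (h : BcpWk X W Fam cL CL U i) :
    ∀ᶠ k in U, P6Adm ((i k).par.Pb (i k).F.C0 (i k).Q.r) ((i k).par.Ph (i k).F.C0 (i k).Q.r) ∧
      P6Marg ((i k).par.Pb (i k).F.C0 (i k).Q.r) 0 (β0 / 2) ∧
      P6Bd ((i k).par.Pb (i k).F.C0 (i k).Q.r) ((i k).par.Ph (i k).F.C0 (i k).Q.r) (Kb + 1) := by
  have hX := hI.K.hX
  filter_upwards [bd7w_evF h hI.base, h.out, bd7w_ev h (bd7w_C0_le hX (lt_min (half_pos (bd7w_beta_pos hI)) one_pos))] with k hk ho hC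
  obtain ⟨hb, hh, hbd⟩ := hk _ ho.g_mem
  exact bd7w_par_adm ho.ok hb hh hbd (bud_gb_C0_pos hX ho.ok) (hC.trans (min_le_left _ _)) (hC.trans (min_le_right _ _))
    (bud_gb_d_pos hX ho.ok)

theorem bd7w_fr (hI : Bd7WIn X Fam c cL CL c0 β0 Kb) (h : BcpWk X W Fam cL CL U i) :
    P6Fr U c (fun k => (i k).par) (fun k => (i k).F.C0) (fun k => (i k).w) (fun k => (i k).Q.r) cL CL 2 (β0 / 2) (Kb + 1) (fun _ => 0) := by
  have hX := hI.K.hX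
  have hadm := bd7w_par_adm_ev hI h
  exact
  { seq := bd7w_par_seq hI h
    lam_rng := bd7w_ev h (bd7w_call_lam hX)
    adm := hadm.mono fun k hk => hk.1
    mono := h.out.mono fun k ho => bd7_q_r_mono _ ho.ok
    rng := Eventually.of_forall fun k u hu => (i k).Q.r_mem u hu
    x_rng := by
      filter_upwards [bd7w_ev h (bd7w_call_Al hX), h.out] with k h1 ho
      exact ⟨h1.trans ho.w_lo, ho.w_hi⟩
    outer := h.out.mono fun k ho u h1 h2 _ => ho.reg u h1 h2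
    weak := by
      refine aq_o_of_le fun ε hε => ?_
      filter_upwards [h.weak ε hε, h.out] with k hk ho
      show |(i k).F.C X (i k).w| ≤ _
      rw [abs_of_pos (bud_gb_C_pos hX ho.ok _)]
      exact hk
    j0_rng := Eventually.of_forall fun _ => ⟨le_rfl, le_rfl⟩
    marg := hadm.mono fun k hk => hk.2.1
    clkP := hadm.mono fun k hk => hk.2.2 }

theorem bd7w_bq_eq (j : Bd7I X) {v : ℝ} (hv : v ∈ Ioo (0 : ℝ) 1) : j.Q.bq j.g v = j.par.Pb j.F.C0 j.Q.r v := by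
  rw [bd7w_par_Pb j hv.1.le, bd7w_cl_eq _ hv]; rfl

theorem bd7w_hq_eq (j : Bd7I X) {v : ℝ} (hv : v ∈ Ioo (0 : ℝ) 1) : j.Q.hq j.g v = j.par.Ph j.F.C0 j.Q.r v := by
  rw [bd7w_par_Ph j hv.1.le, bd7w_cl_eq _ hv]; rfl

/-- `P6Fr` (252) and `Bd7WWk` (129) are the same structure -/
theorem bd7w_of_fr {D : ℕ → P6D} {lam x : ℕ → ℝ} {r : ℕ → ℝ → ℝ} {cl Ch C0 β κ0 : ℝ} {j0 : ℕ → ℝ}
    (h : P6Fr U c D lam x r cl Ch C0 β κ0 j0) : Bd7WWk U c D lam x r cl Ch C0 β κ0 j0 :=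
  { seq := h.seq, lam_rng := h.lam_rng, adm := h.adm, rmono := h.mono, rmem := h.rng, x_rng := h.x_rng, outer := h.outer,
    weak := h.weak, j0_rng := h.j0_rng, marg := h.marg, clkP := h.clkP }

theorem bd7w_wk (hI : Bd7WIn X Fam c cL CL c0 β0 Kb) (h : BcpWk X W Fam cL CL U i) :
    Bd7WWk U c (fun k => (i k).par) (fun k => (i k).F.C0) (fun k => (i k).w) (fun k => (i k).Q.r) cL CL 2 (β0 / 2) (Kb + 1) (fun _ => 0) :=
  bd7w_of_fr (bd7w_fr hI h)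

/-! ## 5. the child of helper286 -/

/-- the PE child of the parent `par` -/
abbrev bd7wCh (c0 : ℝ) (i : ℕ → Bd7I X) : ℕ → P6D :=
  p6Child c0 (fun k => (i k).par) (fun k => (i k).F.C0) (fun k => (i k).w) (fun k => (i k).Q.r) (fun _ => 0)

theorem bd7w_chd_P (j : Bd7I X) : (j.chd c0).P = (j.par.child j.F.C0 j.Q.r j.w c0 0).P := rfl

theorem bd7w_chd_T (j : Bd7I X) : (j.chd c0).T = (j.par.child j.F.C0 j.Q.r j.w c0 0).T := rfl

theorem bd7w_chd_b0 (j : Bd7I X) {v : ℝ} (hv : v ∈ Ioo (0 : ℝ) 1) : (j.chd c0).b0 v = (j.par.child j.F.C0 j.Q.r j.w c0 0).b0 v := rfl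

theorem bd7w_chd_h0 (j : Bd7I X) {v : ℝ} (hv : v ∈ Ioo (0 : ℝ) 1) : (j.chd c0).h0 v = (j.par.child j.F.C0 j.Q.r j.w c0 0).h0 v := rfl

/-- same objective -/
theorem bd7w_chd_obj (ha : ∀ m, (W.ps m).a = 1) (j : Bd7I X) (l : ℝ) (s : ℝ → ℝ) :
    (j.chd c0).obj (bcpFn W) l s = (j.par.child j.F.C0 j.Q.r j.w c0 0).obj (bcpFn W) l s := rfl

/-- same error -/
theorem bd7w_chd_err (ha : ∀ m, (W.ps m).a = 1) (j : Bd7I X) (l : ℝ) (s : ℝ → ℝ) :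
    (j.chd c0).err (bcpFn W) l s = (j.par.child j.F.C0 j.Q.r j.w c0 0).err (bcpFn W) l s := rfl

/-- same minimisers -/
theorem bd7w_chd_min (ha : ∀ m, (W.ps m).a = 1) (j : Bd7I X) (l : ℝ) (s : ℝ → ℝ) :
    (j.chd c0).IsMin (bcpFn W) l s ↔ (j.par.child j.F.C0 j.Q.r j.w c0 0).IsMin (bcpFn W) l s := Iff.rfl

/-- same successful minimisers -/
theorem bd7w_chd_succ (ha : ∀ m, (W.ps m).a = 1) (z : ℕ → ℝ → ℝ) :
    P6Succ (bcpFn W) U (fun k => (i k).chd c0) z ↔ P6Succ (bcpFn W) U (bd7wCh c0 i) z := Iff.rfl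

/-- **EXIT for helper286: `BcpChild`** (LL l.905-908 = PE Lemma 6.2 for the LL parent).      TEX[LL:bud:modified-closure]#889-900 -/
theorem bd7w_child (hI : Bd7WIn X Fam c cL CL c0 β0 Kb) : BcpChild X W Fam c c0 (β0 / 2 - c0 ^ 2) (Kb + 1 + c0 ^ 2) cL CL where
  seq := fun _ _ h => bd7wa_seq hI.K.k (bd7w_wk hI h) (by nlinarith [hI.K.K_ge, sq_nonneg c0])
  ord := fun _ _ h => bd7wa_ord hI.K.k (bd7w_wk hI h)
  marg := fun _ _ h => (bd7wa_marg hI.K.k (bd7w_wk hI h)).mono fun _ hk l s h1 h2 h3 => hk l s h1.le h2 h3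

/-- the child has a successful final minimiser (`= bcp_succ`) -/
theorem bd7w_chd_ex {cκ Cκ cT CT : ℝ} (ha : ∀ m, (W.ps m).a = 1) (hP : P6Imports (bcpFn W) c cκ Cκ cT CT)
    (hI : Bd7WIn X Fam c cL CL c0 β0 Kb) (h : BcpWk X W Fam cL CL U i) :
    ∃ z : ℕ → ℝ → ℝ, P6Succ (bcpFn W) U (fun k => (i k).chd c0) z :=
  (p6fr_succ hP hI.K.k hI.K.c0_lt hI.K.K_ge (bd7w_fr hI h)).1

end seq

/-! ## 6. the LL numerics of the barriers (l.918-958) -/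

section bar

variable {X : BdFix} {W : BdWorld} {Fam : BdFr → Prop} {cL CL : ℝ} {U : Ultrafilter ℕ} {i : ℕ → Bd7I X}

/-- `Λ` is small for large sizes -/
theorem bd7w_Lam_small (hX : X.Ok) {ε : ℝ} (hε : 0 < ε) : ∃ N0 : ℕ, ∀ F : BdFr, F.Ok X → N0 ≤ F.N → F.Lam ≤ ε := by
  obtain ⟨N0, hN0⟩ := bd7w_x_small X (a := X.pS / 100) (by have := hX.pS_pos; positivity) hε
  refine ⟨N0, fun F hF hN => ?_⟩
  have h1 := bd7w_t_le hF
  have h2 := bd7w_t_le_one hX hF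
  have h3 := bd7w_t_pos hF
  rw [bd7w_Lam_eq hF]
  calc (F.Lam ^ (1 / 3 : ℝ)) ^ 3 ≤ F.Lam ^ (1 / 3 : ℝ) := pow_le_of_le_one h3.le h2 (by norm_num)
    _ ≤ ε := h1.trans (hN0 F hF hN)

/-- the removal profile is constant below `c_d³ u` -/
theorem bd7w_C_const (hX : X.Ok) {F : BdFr} (hF : F.Ok X) {r : ℝ} (hr : r ≤ X.cd ^ 3 * F.u) : F.C X r = F.C0 := by
  have hu := BdFr.bds_u_pos hF hX
  have ht := bd7w_t_pos hF
  have hcd := hX.cd_pos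
  unfold BdFr.C CmCall.e
  have e : F.C0 * r / (F.call X).d ^ 3 = r / (X.cd ^ 3 * F.u) := by
    show F.C0 * r / (F.dPE X) ^ 3 = _
    rw [bd7w_C0_eq hF, bd7w_d_eq]
    field_simp
  rw [e]
  unfold cmF
  rw [if_pos ((div_le_one (by positivity)).2 hr), mul_one]

/-- `C(0) = C0 = o(w²)`:  if `w ≤ c_d³ u` then `C(w) = C0`, otherwise `C0 = u²Λ ≤ Λ w²/c_d⁶` -/
theorem bd7w_C0_small (hX : X.Ok) (h : BcpWk X W Fam cL CL U i) : (fun k => (i k).F.C0) =o[U] fun k => (i k).w ^ 2 := by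
  rw [isLittleO_iff]
  intro c hc
  have hcd := hX.cd_pos
  filter_upwards [h.out, h.weak c hc, bd7w_ev h (bd7w_Lam_small hX (ε := c * X.cd ^ 6) (by positivity))] with k hk hw hL
  have hF := hk.ok
  have hu := BdFr.bds_u_pos hF hX
  have hLam := bud_gb_Lam_pos hF
  have hC0 : 0 ≤ (i k).F.C0 := by unfold BdFr.C0; positivity
  rw [Real.norm_of_nonneg hC0, Real.norm_of_nonneg (sq_nonneg _)]
  rcases le_or_gt (i k).w (X.cd ^ 3 * (i k).F.u) with h1 | h1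
  · rwa [bd7w_C_const hX hF h1] at hw
  · unfold BdFr.C0
    have h2 : (X.cd ^ 3 * (i k).F.u) ^ 2 ≤ (i k).w ^ 2 := pow_le_pow_left₀ (by positivity) h1.le 2
    have h3 : (i k).F.u ^ 2 * X.cd ^ 6 ≤ (i k).w ^ 2 := by nlinarith
    calc (i k).F.u ^ 2 * (i k).F.Lam ≤ (i k).F.u ^ 2 * (c * X.cd ^ 6) := by gcongr
      _ = c * ((i k).F.u ^ 2 * X.cd ^ 6) := by ring
      _ ≤ c * (i k).w ^ 2 := by gcongr

theorem bd7w_w_pos (hX : X.Ok) {j : Bd7I X} (hk : j.Out W Fam cL CL) : j.F.x ≤ j.w ∧ 0 < j.w := by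
  have h1 := (bd7w_wc_ge_x hX hk.ok).trans hk.w_lo
  exact ⟨h1, lt_of_lt_of_le (BdFr.bds_x_pos hk.ok) h1⟩

/-- `u √Λ = o(w)` (l.920) -/
theorem bd7w_uL (hX : X.Ok) (h : BcpWk X W Fam cL CL U i) : (fun k => (i k).F.u * Real.sqrt (i k).F.Lam) =o[U] fun k => (i k).w := by
  rw [isLittleO_iff]
  intro c hc
  have h0 := (isLittleO_iff.1 (bd7w_C0_small hX h)) (show 0 < c ^ 2 by positivity)
  filter_upwards [h.out, h0] with k hk h1
  have hF := hk.ok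
  have hu := BdFr.bds_u_pos hF hX
  have hLam := bud_gb_Lam_pos hF
  have hw := (bd7w_w_pos hX hk).2
  have hC0 : 0 ≤ (i k).F.C0 := by unfold BdFr.C0; positivity
  rw [Real.norm_of_nonneg hC0, Real.norm_of_nonneg (sq_nonneg _)] at h1
  rw [Real.norm_of_nonneg (by positivity), Real.norm_of_nonneg hw.le]
  have h2 : ((i k).F.u * Real.sqrt (i k).F.Lam) ^ 2 ≤ (c * (i k).w) ^ 2 := by
    rw [mul_pow, Real.sq_sqrt hLam.le, mul_pow]
    exact h1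
  exact (abs_le_of_sq_le_sq' h2 (by positivity)).2

/-- `l = 1/M_j = o(w)`:  `1/M_j ≤ x^{100}`, `w ≥ w_c ≥ x` -/
theorem bd7w_l_small (hX : X.Ok) (h : BcpWk X W Fam cL CL U i) : (fun k => 1 / (i k).F.Mj) =o[U] fun k => (i k).w := by
  rw [isLittleO_iff]
  intro c hc
  filter_upwards [h.out, bd7w_ev h (bd7w_x_small X (a := 99) (by norm_num) hc)] with k hk h1
  have hF := hk.ok
  have hx := BdFr.bds_x_pos hF
  obtain ⟨hxw, hw⟩ := bd7w_w_pos hX hk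
  have hM : 1 / (i k).F.Mj ≤ (i k).F.x ^ (100 : ℝ) := by
    unfold BdFr.Mj
    rw [Real.rpow_neg hx.le, one_div, mul_inv, inv_inv]
    have h2 : ((2 : ℝ) ^ (i k).F.st)⁻¹ ≤ 1 := inv_le_one_of_one_le₀ (one_le_pow₀ (by norm_num))
    exact mul_le_of_le_one_left (by positivity) h2
  have hM0 : 0 ≤ 1 / (i k).F.Mj := by
    unfold BdFr.Mj
    positivity
  rw [Real.norm_of_nonneg hM0, Real.norm_of_nonneg hw.le]
  calc 1 / (i k).F.Mj ≤ (i k).F.x ^ (100 : ℝ) := hM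
    _ = (i k).F.x ^ (99 : ℝ) * (i k).F.x := by
        rw [← Real.rpow_add_one hx.ne']; norm_num
    _ ≤ c * (i k).w := mul_le_mul h1 hxw hx.le hc.le

/-- `sup k̄ = o(1)`:  `k ≤ k(0) = m^{-3δ}`, `κ ≤ λ^{2 s_0 - 0.02}` -/
theorem bd7w_kbar_sup (hX : X.Ok) {ε : ℝ} (hε : 0 < ε) : ∃ N0 : ℕ, ∀ F : BdFr, F.Ok X → N0 ≤ F.N → ∀ t : ℝ, 0 ≤ t → F.kbar X t ≤ ε := by
  obtain ⟨e1, e2, e3, e4⟩ := bd7w_exp hX
  have hm := hX.mPE_pos
  have hp := hX.pS_pos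
  have hz := hX.zeta_pos
  obtain ⟨N1, hN1⟩ := bd7w_x_small X (a := 6 * (3 * (X.mPE / 10000))) (ε := ε / 4) (by positivity) (by positivity)
  obtain ⟨N2, hN2⟩ := bd7w_x_small X (a := X.pS * (9 / 10)) (ε := ε / 2) (by positivity) (by positivity)
  refine ⟨max N1 N2, fun F hF hN t ht => ?_⟩
  have b1 := hN1 F hF ((le_max_left _ _).trans hN)
  have b2 := hN2 F hF ((le_max_right _ _).trans hN)
  have a1 : F.k X t ≤ (F.m : ℝ) ^ (-(3 * (X.mPE / 10000))) := bud_gb_k_le (F.call X) (bud_gb_N_pos hF) (bud_gb_us_pos hX hF) ht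
  have a2 := bd7w_m_rpow_neg_le hF (e := 3 * (X.mPE / 10000)) (by positivity) (by linarith)
  have a3 : F.kap ≤ F.x ^ (X.pS * (9 / 10)) := (bud_gb_kap_le hX hF).trans (bd7w_lam_rpow_le hF (by norm_num))
  have a4 := hF.kap0
  unfold BdFr.kbar
  split_ifs
  · linarith
  · linarith

/-- `v_* = 1/(mE) ≤ (2 C_U/c_d) x` -/
theorem bd7w_us_le (hX : X.Ok) {F : BdFr} (h : F.Ok X) : (F.call X).us ≤ 2 * X.CU / X.cd * F.x := by
  have hx := BdFr.bds_x_pos h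
  have hx1 := (BdFr.bds_x_lt_one h).le
  have hcd := hX.cd_pos
  have hCU := hX.CU_pos
  have hm := bd7w_m_pos h
  have hE := bud_gb_E_pos hX h
  have a1 := bd7w_ut_ge hX h
  have a2 : F.x ^ (-(6 : ℝ)) / 2 ≤ (F.m : ℝ) := by
    have := bd7w_m_rpow_ge h (e := 1) zero_le_one le_rfl
    rwa [Real.rpow_one, mul_one] at this
  have hz := hX.zeta_pos
  have hp := hX.pS_pos
  have p1 : 0 < F.x ^ (-(6 : ℝ)) := Real.rpow_pos_of_pos hx _
  have p2 : 0 < F.x ^ (4 - X.zeta) := Real.rpow_pos_of_pos hx _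
  have p3 : 0 < F.x ^ (1 - X.pS / 5) := Real.rpow_pos_of_pos hx _
  have e1 : F.x * (F.x ^ (-(6 : ℝ)) * (F.x ^ (4 - X.zeta) * F.x ^ (1 - X.pS / 5))) = F.x ^ (-(X.zeta + X.pS / 5)) := by
    rw [← Real.rpow_add hx, ← Real.rpow_add hx]
    nth_rewrite 1 [← Real.rpow_one F.x]
    rw [← Real.rpow_add hx]
    congr 1; ring
  have e2 : (1 : ℝ) ≤ F.x ^ (-(X.zeta + X.pS / 5)) :=
    Real.one_le_rpow_of_pos_of_le_one_of_nonpos hx hx1 (by linarith)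
  show 1 / ((F.m : ℝ) * F.E X) ≤ _
  rw [div_le_iff₀ (mul_pos hm hE)]
  have e3 : 2 * X.CU / X.cd * F.x * ((F.m : ℝ) * F.E X)
      = 2 * (F.x * ((F.m : ℝ) * (F.x ^ (4 - X.zeta) * (X.CU * (F.u * F.Lam ^ (1 / 3 : ℝ)))))) := by
    unfold BdFr.E BdFr.dPE
    field_simp
  rw [e3]
  have e4 : F.x ^ (-(6 : ℝ)) / 2 * (F.x ^ (4 - X.zeta) * F.x ^ (1 - X.pS / 5))
      ≤ (F.m : ℝ) * (F.x ^ (4 - X.zeta) * (X.CU * (F.u * F.Lam ^ (1 / 3 : ℝ)))) :=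
    mul_le_mul a2 (mul_le_mul_of_nonneg_left a1 p2.le) (by positivity) hm.le
  have e5 := mul_le_mul_of_nonneg_left e4 hx.le
  have e6 : F.x * (F.x ^ (-(6 : ℝ)) / 2 * (F.x ^ (4 - X.zeta) * F.x ^ (1 - X.pS / 5)))
      = F.x ^ (-(X.zeta + X.pS / 5)) / 2 := by rw [← e1]; ring
  rw [e6] at e5
  linarith

/-- the mass of the floor: `∫₀¹ k̄ ≤ m^{-δ} v_* + κ c_I u` -/
theorem bd7w_kbar_int_le (hX : X.Ok) {F : BdFr} (h : F.Ok X) :
    ∫ t in (0 : ℝ)..1, F.kbar X t ≤ (F.m : ℝ) ^ (-(X.mPE / 10000)) * (F.call X).us + F.kap * (X.cI * F.u) := by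
  have hNp := bud_gb_N_pos h
  have hus := bud_gb_us_pos hX h
  have hu := BdFr.bds_u_pos h hX
  have ik : IntervalIntegrable (F.k X) volume 0 1 := by
    apply ContinuousOn.intervalIntegrable
    rw [uIcc_of_le zero_le_one]
    exact (bud_gb_k_cont (F.call X) hNp hus).mono (fun x hx => hx.1)
  have hk : ∫ r in (0:ℝ)..1, F.k X r ≤ (F.m : ℝ) ^ (-(X.mPE / 10000)) * (F.call X).us :=
    bud_gb_k_integral (F.call X) hNp hus le_rfl zero_le_one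
  set s : Set ℝ := Icc (F.Ilo * F.u) (F.Ihi * F.u) with hs
  have hsm : MeasurableSet s := measurableSet_Icc
  have hfin : volume s ≠ ⊤ := by rw [hs, Real.volume_Icc]; exact ENNReal.ofReal_ne_top
  have ii : Integrable (s.indicator fun _ : ℝ => F.kap) volume := by
    rw [integrable_indicator_iff hsm]
    exact integrableOn_const hfin
  have e : F.kbar X = fun r => F.k X r + s.indicator (fun _ => F.kap) r := by
    funext r
    unfold BdFr.kbar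
    by_cases hr : r ∈ s
    · rw [if_pos hr, indicator_of_mem hr]
    · rw [if_neg hr, indicator_of_notMem hr]
  rw [e, intervalIntegral.integral_add ik ii.intervalIntegrable]
  have h2 : ∫ r in (0:ℝ)..1, s.indicator (fun _ => F.kap) r ≤ F.kap * (X.cI * F.u) := by
    rw [intervalIntegral.integral_of_le zero_le_one]
    calc ∫ r in Ioc (0:ℝ) 1, s.indicator (fun _ => F.kap) r ≤ ∫ r, s.indicator (fun _ => F.kap) r :=
          setIntegral_le_integral ii (Eventually.of_forall fun r => indicator_nonneg (fun _ _ => h.kap0) r)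
      _ = (F.Ihi * F.u - F.Ilo * F.u) * F.kap := by
          rw [integral_indicator_const _ hsm, smul_eq_mul, hs]
          simp only [measureReal_def, Real.volume_Icc]
          rw [ENNReal.toReal_ofReal (sub_nonneg.2 (mul_le_mul_of_nonneg_right h.I1 hu.le))]
      _ ≤ F.kap * (X.cI * F.u) := by
          have h3 : F.Ihi * F.u - F.Ilo * F.u ≤ X.cI * F.u := by
            have := mul_le_mul_of_nonneg_right h.I2.le hu.le
            have := mul_pos h.I0 hu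
            linarith
          rw [mul_comm]
          exact mul_le_mul_of_nonneg_left h3 h.kap0
  linarith

/-- `∫₀¹ k̄ = o(w)`:  `∫ k ≤ m^{-δ} v_*`, `v_* ≲ x^{11ζ} λ^{s_*/2 - 0.005} w_c`;   `κ c_I u ≤ λ^{0.9} u = o(u√Λ)` -/
theorem bd7w_kbar_int (hX : X.Ok) (h : BcpWk X W Fam cL CL U i) :
    (fun k => ∫ t in (0 : ℝ)..1, (i k).F.kbar X t) =o[U] fun k => (i k).w := by
  have hcd := hX.cd_pos
  have hCU := hX.CU_pos
  have hcI := hX.cI_pos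
  have hm := hX.mPE_pos
  obtain ⟨_, e2, _, _⟩ := bd7w_exp hX
  refine aq_o_of_le fun ε hε => ?_
  have hK : 0 < 2 * (2 * X.CU / X.cd) := by positivity
  have s1 := bd7w_ev h (bd7w_x_small X (a := 6 * (X.mPE / 10000)) (ε := ε / 2 / (2 * (2 * X.CU / X.cd))) (by positivity) (by positivity))
  have s2 := aq_o_bound (bd7w_uL hX h) (h.out.mono fun _ hk => (bd7w_w_pos hX hk).2.le) (show 0 < ε / 2 / X.cI by positivity)
  filter_upwards [h.out, s1, s2] with k hk h1 h2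
  obtain ⟨hxw, hw⟩ := bd7w_w_pos hX hk
  have hF := hk.ok
  have hx := BdFr.bds_x_pos hF
  have hu := BdFr.bds_u_pos hF hX
  have hl := BdFr.bds_lam_pos hF
  have hl1 := (BdFr.bds_lam_lt_one hF hX).le
  have b0 : 0 ≤ ∫ t in (0 : ℝ)..1, (i k).F.kbar X t :=
    intervalIntegral.integral_nonneg zero_le_one fun t _ => bd7_q_kbar_nonneg hF t
  rw [abs_of_nonneg b0]
  refine (bd7w_kbar_int_le hX hF).trans ?_
  have c1 : ((i k).F.m : ℝ) ^ (-(X.mPE / 10000)) * ((i k).F.call X).us ≤ ε / 2 * (i k).w := by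
    have a1 := bd7w_m_rpow_neg_le hF (e := X.mPE / 10000) (by positivity) (by
      have := hX.zeta_le; have := hX.pS_le; have := hX.he_le; nlinarith [hX.zeta_pos, hX.pS_pos, hX.tau0_pos, hX.bl_pos, hX.tau0_le, hX.eta_le, hX.tau_le, hX.bl_le, hX.bs_le])
    have a2 := bd7w_us_le hX hF
    have a3 := bud_gb_us_pos hX hF
    calc ((i k).F.m : ℝ) ^ (-(X.mPE / 10000)) * ((i k).F.call X).us
        ≤ (2 * (i k).F.x ^ (6 * (X.mPE / 10000))) * (2 * X.CU / X.cd * (i k).w) :=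
          mul_le_mul a1 (a2.trans (mul_le_mul_of_nonneg_left hxw (by positivity))) a3.le (by positivity)
      _ = (2 * (2 * X.CU / X.cd)) * (i k).F.x ^ (6 * (X.mPE / 10000)) * (i k).w := by ring
      _ ≤ (2 * (2 * X.CU / X.cd)) * (ε / 2 / (2 * (2 * X.CU / X.cd))) * (i k).w :=
          mul_le_mul_of_nonneg_right (mul_le_mul_of_nonneg_left h1 hK.le) hw.le
      _ = ε / 2 * (i k).w := by field_simp
  have c2 : (i k).F.kap * (X.cI * (i k).F.u) ≤ ε / 2 * (i k).w := by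
    have a1 : (i k).F.kap ≤ Real.sqrt (i k).F.Lam := by
      refine (bud_gb_kap_le hX hF).trans ?_
      rw [Real.sqrt_eq_rpow]
      unfold BdFr.Lam
      rw [← Real.rpow_mul hl.le]
      exact Real.rpow_le_rpow_of_exponent_ge hl hl1 (by norm_num)
    have a2 := (le_abs_self _).trans h2
    calc (i k).F.kap * (X.cI * (i k).F.u) ≤ Real.sqrt (i k).F.Lam * (X.cI * (i k).F.u) :=
          mul_le_mul_of_nonneg_right a1 (by positivity)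
      _ = X.cI * ((i k).F.u * Real.sqrt (i k).F.Lam) := by ring
      _ ≤ X.cI * (ε / 2 / X.cI * (i k).w) := mul_le_mul_of_nonneg_left a2 hcI.le
      _ = ε / 2 * (i k).w := by field_simp
  linarith

/-- `Λ^{1/4} ≤ x^{3 p_*/400}` -/
theorem bd7w_L4_le {F : BdFr} (h : F.Ok X) : F.Lam ^ (1 / 4 : ℝ) ≤ F.x ^ (X.pS * (3 / 400)) := by
  have e : F.Lam ^ (1 / 4 : ℝ) = F.lam ^ (3 / 400 : ℝ) := by
    unfold BdFr.Lam
    rw [← Real.rpow_mul (BdFr.bds_lam_pos h).le]; norm_num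
  rw [e]
  exact bd7w_lam_rpow_le h (by norm_num)

/-- `u → 0` -/
theorem bd7w_u_small (hX : X.Ok) {ε : ℝ} (hε : 0 < ε) : ∃ N0 : ℕ, ∀ F : BdFr, F.Ok X → N0 ≤ F.N → F.u ≤ ε := by
  obtain ⟨N0, hN0⟩ := bd7w_x_small X (a := X.pS * X.bl) (mul_pos hX.pS_pos hX.bl_pos) hε
  exact ⟨N0, fun F hF hN => (hF.u_hi.trans (bd7w_lam_rpow_le hF hX.bl_pos.le)).trans (hN0 F hF hN)⟩

/-- `u ≥ x / C_U` -/
theorem bd7w_u_ge (hX : X.Ok) {F : BdFr} (h : F.Ok X) : F.x ≤ X.CU * F.u := by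
  have hx := BdFr.bds_x_pos h
  have hu := BdFr.bds_u_pos h hX
  have a1 := bd7w_ut_ge hX h
  have a2 : F.x ≤ F.x ^ (1 - X.pS / 5) := by
    have := bd7w_x_rpow_anti h (a := 1 - X.pS / 5) (b := 1) (by linarith [hX.pS_pos])
    rwa [Real.rpow_one] at this
  have a3 : F.u * F.Lam ^ (1 / 3 : ℝ) ≤ F.u * 1 := mul_le_mul_of_nonneg_left (bd7w_t_le_one hX h) hu.le
  have := mul_le_mul_of_nonneg_left a3 hX.CU_pos.le
  linarith

/-- `C(1) = d_PE³ (1 + log(1/(c_d³ u)))` once `c_d³ u ≤ 1` -/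
theorem bd7w_C1_eq (hX : X.Ok) {F : BdFr} (h : F.Ok X) (hu1 : X.cd ^ 3 * F.u ≤ 1) :
    F.C X 1 = F.dPE X ^ 3 * (1 + Real.log (1 / (X.cd ^ 3 * F.u))) := by
  have hu := BdFr.bds_u_pos h hX
  have hcd := hX.cd_pos
  have hC0 := bud_gb_C0_pos hX h
  have hpos : 0 < X.cd ^ 3 * F.u := by positivity
  have e : F.C0 * 1 / (F.call X).d ^ 3 = 1 / (X.cd ^ 3 * F.u) := by
    show F.C0 * 1 / (F.dPE X) ^ 3 = _
    rw [bud_gb_d_cube h]
    field_simp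
  unfold BdFr.C CmCall.e
  rw [e, cm_f_of_ge ((one_le_div hpos).2 hu1), bud_gb_d_cube h]
  field_simp

/-- regime A (`w ≥ λ^{k_c/4} u`):  `C(1) = d_PE³ (1 + log(1/(c_d³ u))) = o(w³)`      (l.947: `y C(y) ≲_∘ u³Λ ≪ w³`) -/
theorem bd7w_A_C1 (hX : X.Ok) (h : BcpWk X W Fam cL CL U i) (hA : ∀ᶠ k in U, (i k).F.Lam ^ (1 / 4 : ℝ) * (i k).F.u ≤ (i k).w) :
    (fun k => (i k).F.C X 1) =o[U] fun k => (i k).w ^ 3 := by
  have hp := hX.pS_pos
  have hcd := hX.cd_pos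
  have hCU := hX.CU_pos
  refine aq_o_of_le fun ε hε => ?_
  set A : ℝ := 1 + |Real.log (X.CU / X.cd ^ 3)| with hAdef
  have hA0 : 0 < A := by positivity
  set a : ℝ := X.pS / 400 with ha
  have ha0 : 0 < a := by positivity
  filter_upwards [h.out, hA, bd7w_ev h (bd7w_u_small hX (ε := 1 / X.cd ^ 3) (by positivity)),
    bd7w_ev h (bd7w_x_small X (a := X.pS * (3 / 400)) (by positivity) (ε := ε / (2 * X.cd ^ 3 * A)) (by positivity)),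
    bd7w_ev h (bd7w_x_small X (a := X.pS * (3 / 400) - a) (by rw [ha]; nlinarith) (ε := ε * a / (2 * X.cd ^ 3)) (by positivity))]
    with k hk hAk hu1 h1 h2
  have hF := hk.ok
  have hx := BdFr.bds_x_pos hF
  have hx1 := (BdFr.bds_x_lt_one hF).le
  have hu := BdFr.bds_u_pos hF hX
  have hw := (bd7w_w_pos hX hk).2
  have hLam := bud_gb_Lam_pos hF
  have hu1' : X.cd ^ 3 * (i k).F.u ≤ 1 := by
    calc X.cd ^ 3 * (i k).F.u ≤ X.cd ^ 3 * (1 / X.cd ^ 3) := by gcongr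
      _ = 1 := by field_simp
  rw [abs_of_pos (bud_gb_C_pos hX hF _), bd7w_C1_eq hX hF hu1']
  -- the logarithm
  have hpos : 0 < X.cd ^ 3 * (i k).F.u := by positivity
  have l1 : Real.log (1 / (X.cd ^ 3 * (i k).F.u)) ≤ Real.log (X.CU / X.cd ^ 3 * (1 / (i k).F.x)) := by
    apply Real.log_le_log (by positivity)
    rw [div_mul_div_comm, mul_one, div_le_div_iff₀ hpos (by positivity)]
    have := bd7w_u_ge hX hF
    nlinarith [pow_pos hcd 3]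
  have l2 : Real.log (X.CU / X.cd ^ 3 * (1 / (i k).F.x)) = Real.log (X.CU / X.cd ^ 3) + Real.log (1 / (i k).F.x) :=
    Real.log_mul (by positivity) (by positivity)
  have l3 : Real.log (1 / (i k).F.x) ≤ (1 / (i k).F.x) ^ a / a := Real.log_le_rpow_div (by positivity) ha0
  have l4 : (1 / (i k).F.x) ^ a = (i k).F.x ^ (-a) := by
    rw [one_div, Real.inv_rpow hx.le, Real.rpow_neg hx.le]
  have l5 : 1 + Real.log (1 / (X.cd ^ 3 * (i k).F.u)) ≤ A + (i k).F.x ^ (-a) / a := by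
    rw [l4] at l3
    have := le_abs_self (Real.log (X.CU / X.cd ^ 3))
    rw [hAdef]; linarith
  -- Λ^{1/4}
  set L4 := (i k).F.Lam ^ (1 / 4 : ℝ) with hL4
  have pL : 0 < L4 := Real.rpow_pos_of_pos hLam _
  have a2 : L4 ≤ (i k).F.x ^ (X.pS * (3 / 400)) := bd7w_L4_le hF
  have eL : (i k).F.Lam = L4 ^ 4 := by
    rw [hL4, ← Real.rpow_natCast, ← Real.rpow_mul hLam.le]; norm_num
  have ed : (i k).F.dPE X ^ 3 = X.cd ^ 3 * L4 * (L4 * (i k).F.u) ^ 3 := by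
    rw [bud_gb_d_cube hF]; unfold BdFr.C0; rw [eL]; ring
  have hw3 : (L4 * (i k).F.u) ^ 3 ≤ (i k).w ^ 3 := pow_le_pow_left₀ (by positivity) hAk 3
  have px : 0 < (i k).F.x ^ (-a) := Real.rpow_pos_of_pos hx _
  have key : X.cd ^ 3 * L4 * (A + (i k).F.x ^ (-a) / a) ≤ ε := by
    have b1 : X.cd ^ 3 * L4 * A ≤ ε / 2 := by
      calc X.cd ^ 3 * L4 * A ≤ X.cd ^ 3 * (ε / (2 * X.cd ^ 3 * A)) * A := by gcongr; exact a2.trans h1
        _ = ε / 2 := by field_simp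
    have b2 : X.cd ^ 3 * L4 * ((i k).F.x ^ (-a) / a) ≤ ε / 2 := by
      have e5 : (i k).F.x ^ (X.pS * (3 / 400)) * (i k).F.x ^ (-a) = (i k).F.x ^ (X.pS * (3 / 400) - a) := by
        rw [← Real.rpow_add hx]; congr 1
      calc X.cd ^ 3 * L4 * ((i k).F.x ^ (-a) / a) ≤ X.cd ^ 3 * (i k).F.x ^ (X.pS * (3 / 400)) * ((i k).F.x ^ (-a) / a) := by gcongr
        _ = X.cd ^ 3 * (i k).F.x ^ (X.pS * (3 / 400) - a) / a := by rw [← e5]; ring
        _ ≤ X.cd ^ 3 * (ε * a / (2 * X.cd ^ 3)) / a := by gcongr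
        _ = ε / 2 := by field_simp
    have : X.cd ^ 3 * L4 * (A + (i k).F.x ^ (-a) / a) = X.cd ^ 3 * L4 * A + X.cd ^ 3 * L4 * ((i k).F.x ^ (-a) / a) := by ring
    linarith
  have hd3 : 0 < (i k).F.dPE X ^ 3 := by have := bud_gb_d_pos hX hF; positivity
  calc (i k).F.dPE X ^ 3 * (1 + Real.log (1 / (X.cd ^ 3 * (i k).F.u)))
      ≤ (i k).F.dPE X ^ 3 * (A + (i k).F.x ^ (-a) / a) := by gcongr
    _ = X.cd ^ 3 * L4 * (A + (i k).F.x ^ (-a) / a) * (L4 * (i k).F.u) ^ 3 := by rw [ed]; ring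
    _ ≤ ε * (i k).w ^ 3 := mul_le_mul key hw3 (by positivity) hε.le

/-- regime B (`w < λ^{k_c/4} u`):  all active radii are below the enhanced patch (l.951) -/
theorem bd7w_B_patch (hX : X.Ok) (h : BcpWk X W Fam cL CL U i) (hB : ∀ᶠ k in U, (i k).w < (i k).F.Lam ^ (1 / 4 : ℝ) * (i k).F.u) :
    (fun k => ((i k).F.m : ℝ) ^ (2 * (X.mPE / 10000)) * (i k).w) =o[U] fun k => (i k).F.Ilo * (i k).F.u := by
  obtain ⟨e1, e2, e3, e4⟩ := bd7w_exp hX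
  have hz := hX.zeta_pos
  have hm := hX.mPE_pos
  have hp := hX.pS_pos
  have hpl : 0 < X.plo 0 := (hX.pat 0 (by omega)).1
  refine aq_o_of_le fun ε hε => ?_
  have hexp : 0 < X.pS * (3 / 400) - 6 * (2 * (X.mPE / 10000)) := by nlinarith
  filter_upwards [h.out, hB, bd7w_ev h (bd7w_x_small X hexp (ε := ε * X.plo 0 / 3) (by positivity))] with k hk hB h1
  have hF := hk.ok
  have hx := BdFr.bds_x_pos hF
  have hu := BdFr.bds_u_pos hF hX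
  have hw := (bd7w_w_pos hX hk).2
  have hmp := bd7w_m_pos hF
  have a1 := bd7w_m_rpow_le hF (e := 2 * (X.mPE / 10000)) (by positivity) (by linarith)
  have a2 := bd7w_L4_le hF
  have p0 : 0 < ((i k).F.m : ℝ) ^ (2 * (X.mPE / 10000)) := Real.rpow_pos_of_pos hmp _
  have pL : 0 < (i k).F.Lam ^ (1 / 4 : ℝ) := Real.rpow_pos_of_pos (bud_gb_Lam_pos hF) _
  rw [abs_of_pos (by positivity)]
  have e5 : (i k).F.x ^ (-(6 * (2 * (X.mPE / 10000)))) * (i k).F.x ^ (X.pS * (3 / 400))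
      = (i k).F.x ^ (X.pS * (3 / 400) - 6 * (2 * (X.mPE / 10000))) := by
    rw [← Real.rpow_add hx]; congr 1; ring
  calc ((i k).F.m : ℝ) ^ (2 * (X.mPE / 10000)) * (i k).w
      ≤ ((i k).F.m : ℝ) ^ (2 * (X.mPE / 10000)) * ((i k).F.Lam ^ (1 / 4 : ℝ) * (i k).F.u) := by gcongr
    _ ≤ (3 * (i k).F.x ^ (-(6 * (2 * (X.mPE / 10000))))) * ((i k).F.x ^ (X.pS * (3 / 400)) * (i k).F.u) := by gcongr
    _ = 3 * (i k).F.x ^ (X.pS * (3 / 400) - 6 * (2 * (X.mPE / 10000))) * (i k).F.u := by rw [← e5]; ring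
    _ ≤ 3 * (ε * X.plo 0 / 3) * (i k).F.u := by gcongr
    _ = ε * (X.plo 0 * (i k).F.u) := by ring
    _ ≤ ε * ((i k).F.Ilo * (i k).F.u) := by
        have := hF.I3
        gcongr

/-- below the patch `k̄ = k` -/
theorem bd7w_B_kbar (F : BdFr) {t : ℝ} (ht : t < F.Ilo * F.u) : F.kbar X t = F.k X t := by
  unfold BdFr.kbar
  rw [if_neg (fun hh => absurd hh.1 (not_le.2 ht)), add_zero]

end bar

end

end Claimed.Agent.R286
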