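import Claimed.Agent.R286.Bud.L07Wb
import Claimed.Agent.R286.Bud.L07W

/-!
# Row 286, LL 07-budgets Step 1 (l.902-960), node T8 : NO THRESHOLD SEPARATION, THE LL INSTANCE      owner helper186, prefix `bd7wc_`
TEX[LL:bud:modified-closure]#902-960

EXIT: **`bd7wc_nosep : … → BcpNoSep X W Fam c0 cL CL`** (`Bud/Cp.lean`, helper286), from `skns_main` (`Bud/L07Wb.lean`).

* sec. 1  the floor primitive `i.Psi q = ∫₀^q k̄` (frozen outside `[0,1]`): monotone, Lipschitz `i.ksup = m^{-3δ} + κ`, lower slope `k(1)`, harmonic below the patch.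
* sec. 2  `BdQ ↔ SkBar i.Psi (·/M_j) 0`: `bd7wc_feas` (a feasible quantile is a member), `bd7wc_comp` (a member is the quantile of a competitor).
* sec. 3  `i.pc W c0 z : SkPC`, `bd7wc_ok : (i.pc W c0 z).Ok`, `bd7wc_reg`.
* sec. 4  numerics along a weak sequence (`BcpWk`).
* sec. 5  glue.
* sec. 7 (helper129)  constants `bd7wC`, `bd7wc0`, `bd7w_K`; `bd7w_base_of` (`Bd7WBase` from (P9) + clocks + lower margin, `Kb = T + 2`); **`bd7w_weak_fin`**: STEP 1 CLOSED for all loose constants `cL ≤ p6Lo`, `p6Hi ≤ CL`.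
-/

set_option autoImplicit false

namespace Claimed.Agent.R286

open MeasureTheory Set Filter Topology

noncomputable section

/-! ## 1. the floor primitive -/

namespace Bd7I

variable {X : BdFix} (i : Bd7I X)

/-- `Ψ(q) = ∫₀^q k̄` -/
def Psi (q : ℝ) : ℝ := ∫ t in (0 : ℝ)..q, budKb i.F X t
/-- `sup k̄ ≤ m^{-3δ} + κ` -/
def ksup : ℝ := (i.F.call X).N ^ (-(3 * (i.F.call X).dl)) + i.F.kap
/-- all radii below `i0` are below the patch -/
def i0 : ℝ := min 1 (i.F.Ilo * i.F.u / 2)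

end Bd7I

section prim

variable {X : BdFix} {i : Bd7I X}

theorem bd7wc_psi_sub (hX : X.Ok) (hF : i.F.Ok X) (p q : ℝ) : i.Psi q - i.Psi p = ∫ t in p..q, budKb i.F X t := by
  have hb := bud_gb_box hX hF
  unfold Bd7I.Psi
  exact intervalIntegral.integral_interval_sub_left (hb.kb_intervalIntegrable 0 q) (hb.kb_intervalIntegrable 0 p)

theorem bd7wc_kb_le (hX : X.Ok) (hF : i.F.Ok X) (t : ℝ) : budKb i.F X t ≤ i.ksup := by
  have hc := bud_gb_clamp t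
  have h1 := bud_gb_k_le (i.F.call X) (bud_gb_N_pos hF) (bud_gb_us_pos hX hF) hc.1
  unfold budKb BdFr.kbar Bd7I.ksup BdFr.k
  split_ifs
  · linarith
  · linarith [hF.kap0]

theorem bd7wc_ksup_nonneg (hF : i.F.Ok X) : 0 ≤ i.ksup :=
  add_nonneg (Real.rpow_nonneg (bud_gb_N_pos hF).le _) hF.kap0

theorem bd7wc_psi_lip (hX : X.Ok) (hF : i.F.Ok X) (p q : ℝ) (hpq : p ≤ q) : i.Psi q - i.Psi p ≤ i.ksup * (q - p) := by
  have hb := bud_gb_box hX hF
  rw [bd7wc_psi_sub hX hF]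
  calc ∫ t in p..q, budKb i.F X t ≤ ∫ _t in p..q, i.ksup :=
        intervalIntegral.integral_mono_on hpq (hb.kb_intervalIntegrable p q) intervalIntegrable_const
          (fun t _ => bd7wc_kb_le hX hF t)
    _ = i.ksup * (q - p) := by rw [intervalIntegral.integral_const, smul_eq_mul, mul_comm]

theorem bd7wc_psi_low (hX : X.Ok) (hF : i.F.Ok X) (p q : ℝ) (hpq : p ≤ q) : i.F.k X 1 * (q - p) ≤ i.Psi q - i.Psi p := by
  have hb := bud_gb_box hX hF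
  rw [bd7wc_psi_sub hX hF]
  calc i.F.k X 1 * (q - p) = ∫ _t in p..q, i.F.k X 1 := by rw [intervalIntegral.integral_const, smul_eq_mul, mul_comm]
    _ ≤ ∫ t in p..q, budKb i.F X t :=
        intervalIntegral.integral_mono_on hpq intervalIntegrable_const (hb.kb_intervalIntegrable p q)
          (fun t _ => hb.kb_ge t)

theorem bd7wc_psi_mono (hX : X.Ok) (hF : i.F.Ok X) : Monotone i.Psi := by
  intro p q hpq
  have h1 := bd7wc_psi_low hX hF p q hpq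
  have h2 := (bud_gb_box hX hF).kmin0
  have : 0 ≤ i.F.k X 1 * (q - p) := mul_nonneg h2.le (by linarith)
  linarith

theorem bd7wc_psi_cont (hX : X.Ok) (hF : i.F.Ok X) : Continuous i.Psi := by
  have hL : LipschitzWith (Real.toNNReal i.ksup) i.Psi := by
    apply LipschitzWith.of_dist_le_mul
    intro x y
    rw [Real.coe_toNNReal _ (bd7wc_ksup_nonneg hF), Real.dist_eq, Real.dist_eq]
    rcases le_total x y with h | h
    · have a1 := bd7wc_psi_lip hX hF x y h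
      have a2 := bd7wc_psi_mono hX hF h
      rw [abs_sub_comm, abs_of_nonneg (by linarith), abs_sub_comm, abs_of_nonneg (by linarith)]
      exact a1
    · have a1 := bd7wc_psi_lip hX hF y x h
      have a2 := bd7wc_psi_mono hX hF h
      rw [abs_of_nonneg (by linarith), abs_of_nonneg (by linarith)]
      exact a1
  exact hL.continuous

theorem bd7wc_psi_kbar (hX : X.Ok) (hF : i.F.Ok X) {p q : ℝ} (hp : 0 ≤ p) (hpq : p ≤ q) (hq : q ≤ 1) :
    i.Psi q - i.Psi p = ∫ t in p..q, i.F.kbar X t := by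
  rw [bd7wc_psi_sub hX hF, bud_gb_int_Kb i.F X hp hpq hq]

theorem bd7wc_psi_zero : i.Psi 0 = 0 := by
  unfold Bd7I.Psi; exact intervalIntegral.integral_same

/-- the primitive of the PE floor -/
theorem bd7wc_k_prim (P : CmCall) (hN : 0 < P.N) (hu : 0 < P.us) {q : ℝ} (hq : 0 ≤ q) :
    ∫ r in (0 : ℝ)..q, P.k r = skbarPsi P.A0 P.B0 q := by
  have hcc : 0 < P.B0 := by unfold CmCall.B0; positivity
  have hder : ∀ x ∈ uIcc 0 q, HasDerivAt (fun r => -P.A0 / (r + P.B0)) (P.k x) x := by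
    intro x hx
    rw [uIcc_of_le hq] at hx
    have hx0 : 0 < x + P.B0 := by linarith [hx.1]
    have h0 : HasDerivAt (fun r : ℝ => r + P.B0) 1 x := (hasDerivAt_id x).add_const P.B0
    have h3 : HasDerivAt (fun r : ℝ => -P.A0 / (r + P.B0)) ((0 * (x + P.B0) - (-P.A0) * 1) / (x + P.B0) ^ 2) x :=
      (hasDerivAt_const x (-P.A0)).div h0 hx0.ne'
    have e : P.k x = (0 * (x + P.B0) - (-P.A0) * 1) / (x + P.B0) ^ 2 := by
      unfold CmCall.k CmCall.A0 CmCall.B0; ring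
    rw [e]; exact h3
  have hint : IntervalIntegrable P.k volume 0 q := by
    apply ContinuousOn.intervalIntegrable
    rw [uIcc_of_le hq]
    exact (bud_gb_k_cont P hN hu).mono (fun x hx => hx.1)
  rw [intervalIntegral.integral_eq_sub_of_hasDerivAt hder hint]
  unfold skbarPsi
  rw [zero_add]; ring

/-- below the patch the floor primitive is the harmonic one -/
theorem bd7wc_psi_harm (hX : X.Ok) (hF : i.F.Ok X) {q : ℝ} (hq0 : 0 ≤ q) (hq : q ≤ i.i0) :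
    i.Psi q = skbarPsi (i.F.call X).A0 (i.F.call X).B0 q := by
  have hq1 : q ≤ 1 := hq.trans (min_le_left _ _)
  have hq2 : q ≤ i.F.Ilo * i.F.u / 2 := hq.trans (min_le_right _ _)
  have hIu : 0 < i.F.Ilo * i.F.u := by
    rcases hq0.eq_or_lt with h | h
    · exact mul_pos hF.I0 (BdFr.bds_u_pos hF hX)
    · linarith
  rw [← bd7wc_k_prim (i.F.call X) (bud_gb_N_pos hF) (bud_gb_us_pos hX hF) hq0]
  unfold Bd7I.Psi
  refine intervalIntegral.integral_congr fun t ht => ?_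
  rw [uIcc_of_le hq0] at ht
  rw [bud_gb_Kb_eq i.F X ⟨ht.1, ht.2.trans hq1⟩]
  unfold BdFr.kbar BdFr.k
  rw [if_neg (fun hmem => by have := hmem.1; linarith [ht.2]), add_zero]

theorem bd7wc_psi_conc {A0 B0 τ p q : ℝ} (hA : 0 ≤ A0) (hB : 0 < B0) (hτ : 0 ≤ τ) (hp : 0 ≤ p) (hpq : p ≤ q) :
    skbarPsi A0 B0 (q + τ) - skbarPsi A0 B0 (p + τ) ≤ skbarPsi A0 B0 q - skbarPsi A0 B0 p := by
  unfold skbarPsi
  have h1 : 0 < p + B0 := by linarith
  have h2 : 0 < q + B0 := by linarith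
  have h3 : 0 < p + τ + B0 := by linarith
  have h4 : 0 < q + τ + B0 := by linarith
  have e1 : A0 / B0 - A0 / (q + τ + B0) - (A0 / B0 - A0 / (p + τ + B0)) = A0 * (q - p) / ((p + τ + B0) * (q + τ + B0)) := by
    field_simp; ring
  have e2 : A0 / B0 - A0 / (q + B0) - (A0 / B0 - A0 / (p + B0)) = A0 * (q - p) / ((p + B0) * (q + B0)) := by
    field_simp; ring
  rw [e1, e2]
  apply div_le_div_of_nonneg_left (mul_nonneg hA (by linarith)) (by positivity)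
  exact mul_le_mul (by linarith) (by linarith) h2.le h3.le

end prim

/-! ## 2. the class (C5) in forward form -/

section cls

variable {X : BdFix} {i : Bd7I X}

theorem bd7wc_r_mono (hX : X.Ok) {F : BdFr} (hF : F.Ok X) (Q : BdQ F X) : MonotoneOn Q.r (Icc 0 1) := by
  obtain ⟨h1, _, h3⟩ := bud_dens_of_bdq X hX F hF Q
  intro u hu v hv huv
  rw [← h3 u hu, ← h3 v hv]
  exact budQ_mono (bud_gb_box hX hF) h1 hu hv huv

theorem bd7wc_Mj_pos {F : BdFr} (hF : F.Ok X) : 0 < F.Mj := by linarith [bud_gb_Mj_ge hF]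

/-- a feasible quantile of (C5) is a member of the forward class -/
theorem bd7wc_feas (hX : X.Ok) (hF : i.F.Ok X) (Q : BdQ i.F X) :
    SkBar i.Psi (fun u => u / i.F.Mj) 0 Q.r ∧ Q.r 0 = 0 ∧ Q.r 1 = 1 := by
  have hM := bd7wc_Mj_pos hF
  have hm := bd7wc_r_mono hX hF Q
  refine ⟨⟨fun u hu v hv huv => ?_, fun u hu v hv huv => ?_⟩, ?_, ?_⟩
  · have h1 := Q.hi (Q.r u) (Q.r v) (Q.r_mem u hu).1 (hm hu hv huv) (Q.r_mem v hv).2
    rw [Q.al_r u hu, Q.al_r v hv] at h1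
    simp only
    have h2 : (v - u) / i.F.Mj ≤ Q.r v - Q.r u := by rw [div_le_iff₀ hM]; linarith
    have e : v / i.F.Mj - u / i.F.Mj = (v - u) / i.F.Mj := by ring
    linarith
  · have h1 := Q.lo (Q.r u) (Q.r v) (Q.r_mem u hu).1 (hm hu hv huv) (Q.r_mem v hv).2
    rw [Q.al_r u hu, Q.al_r v hv] at h1
    have h2 := bd7wc_psi_kbar hX hF (Q.r_mem u hu).1 (hm hu hv huv) (Q.r_mem v hv).2
    simp only
    linarith
  · have := Q.r_al 0 ⟨le_rfl, zero_le_one⟩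
    rwa [Q.al_zero] at this
  · have := Q.r_al 1 ⟨zero_le_one, le_rfl⟩
    rwa [Q.al_one] at this

/-- a member of the forward class is the quantile of a competitor -/
theorem bd7wc_comp (hX : X.Ok) (hF : i.F.Ok X) {ρ : ℝ → ℝ} (hρ : SkBar i.Psi (fun u => u / i.F.Mj) 0 ρ) (h0 : ρ 0 = 0)
    (h1 : ρ 1 = 1) : ∃ Q' : BdQ i.F X, Q'.r = ρ := by
  have hM := bd7wc_Mj_pos hF
  obtain ⟨al, a0, a1, h3, h4, h5⟩ := skbar_inverse (Ψ := i.Psi) (Λ := fun u => u / i.F.Mj) (rh := ρ) (l := 1 / i.F.Mj)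
    (km := i.F.k X 1) (by positivity) (bud_gb_box hX hF).kmin0
    (fun u _ v _ _ => by
      have e : v / i.F.Mj - u / i.F.Mj = 1 / i.F.Mj * (v - u) := by ring
      rw [e])
    (fun p _ q _ hpq => bd7wc_psi_low hX hF p q hpq) hρ h0 h1
  refine ⟨⟨al, ρ, a0, a1, fun r1 r2 hr1 h12 hr2 => ?_, fun r1 r2 hr1 h12 hr2 => ?_, fun v hv => (h3 v hv).1,
    fun v hv => (h3 v hv).2, fun t ht => (h4 t ht).2⟩, rfl⟩
  · rw [← bd7wc_psi_kbar hX hF hr1 h12 hr2]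
    exact (h5 r1 r2 hr1 h12 hr2).1
  · have := (h5 r1 r2 hr1 h12 hr2).2
    have e : al r2 / i.F.Mj - al r1 / i.F.Mj = (al r2 - al r1) / i.F.Mj := by ring
    rw [e, div_le_iff₀ hM] at this
    linarith

end cls

/-! ## 3. the parent/child comparison of an instance -/

namespace Bd7I

variable {X : BdFix} (i : Bd7I X)

/-- the child profile `𝒟(t) = d'² f(t/d')` -/
def Dc (c0 : ℝ) (t : ℝ) : ℝ := (i.chd c0).P.e ((i.chd c0).P.d ^ 2) t

/-- the bound `m^{20δ} E'` of the child error -/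
def cerr (c0 : ℝ) : ℝ := (i.chd c0).P.N ^ (20 * (i.chd c0).P.dl) * (i.chd c0).P.E

/-- **the parent/child comparison** -/
def pc (W : BdWorld) (c0 : ℝ) (z : ℝ → ℝ) : SkPC where
  P := W.ps i.F.m
  Ψ := i.Psi
  Λ := fun u => u / i.F.Mj
  b := i.F.b i.g
  h := i.F.h i.g
  ef := i.F.C X
  Df := i.Dc c0
  r := i.Q.r
  z := z
  err := i.cerr c0

end Bd7I

section inst

variable {X : BdFix} {i : Bd7I X} {W : BdWorld} {c0 : ℝ} {z : ℝ → ℝ}

theorem bd7wc_C_anti (hX : X.Ok) {F : BdFr} (hF : F.Ok X) : AntitoneOn (F.C X) (Ici 0) :=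
  (cm_e_anti (F.call X) (bud_gb_d_pos hX hF) (bud_gb_C0_pos hX hF).le).antitoneOn _

theorem bd7wc_C_mono (hX : X.Ok) {F : BdFr} (hF : F.Ok X) : MonotoneOn (fun t => t * F.C X t) (Ici 0) :=
  cm_re_mono (F.call X) (bud_gb_d_pos hX hF) (bud_gb_C0_pos hX hF).le

/-- a clock of `Defs/Clk` on `[0,1]` is a clock on `(0,1)` -/
theorem bd7wc_clock_of_gh {c c' : ℝ → ℝ} (h : GhClk1 1 c) (he : ∀ v ∈ Ioo (0 : ℝ) 1, c v = c' v) : IsClock 1 c' := by
  have sub : Ioo (0 : ℝ) 1 ⊆ Icc (0 : ℝ) 1 := Ioo_subset_Icc_self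
  have m0 : (0 : ℝ) ∈ Icc (0 : ℝ) 1 := ⟨le_rfl, zero_le_one⟩
  have m1 : (1 : ℝ) ∈ Icc (0 : ℝ) 1 := ⟨zero_le_one, le_rfl⟩
  refine ⟨fun u hu v hv huv => ?_, fun v hv => ?_, ⟨c 1, fun v hv => ?_⟩⟩
  · rw [← he u hu, ← he v hv]; exact h.1 (sub hu) (sub hv) huv
  · rw [← he v hv]; exact h.2.trans (h.1 m0 (sub hv) hv.1.le)
  · rw [← he v hv]; exact h.1 (sub hv) m1 hv.2.le

/-- the changed clocks of any monotone radius are clocks -/
theorem bd7wc_clk (hX : X.Ok) {F : BdFr} (hF : F.Ok X) {g : ℝ} (hB : F.Base X W g) {ρ : ℝ → ℝ} (hm : MonotoneOn ρ (Icc 0 1))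
    (hr : ∀ v ∈ Icc (0 : ℝ) 1, ρ v ∈ Icc (0 : ℝ) 1) :
    IsClock 1 (fun v => F.b g v - F.C X (ρ v)) ∧ IsClock 1 (fun v => F.h g v + F.C X (ρ v) * ρ v) := by
  have sub : Ioo (0 : ℝ) 1 ⊆ Icc (0 : ℝ) 1 := Ioo_subset_Icc_self
  have ha := bd7wc_C_anti hX hF
  have hmo := bd7wc_C_mono hX hF
  have hpos := bud_gb_C_pos hX hF
  obtain ⟨Cb, hCb⟩ := hB.hb.bdd
  obtain ⟨Ch, hCh⟩ := hB.hh.bdd
  constructor
  · refine ⟨fun u hu v hv huv => ?_, fun v hv => ?_, ⟨Cb, fun v hv => ?_⟩⟩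
    · have h1 := hB.hb.mono hu hv huv
      have h2 := ha (mem_Ici.2 (hr u (sub hu)).1) (mem_Ici.2 (hr v (sub hv)).1) (hm (sub hu) (sub hv) huv)
      linarith
    · have h1 := hB.marg v hv
      have h2 := ha (mem_Ici.2 le_rfl) (mem_Ici.2 (hr v (sub hv)).1) (hr v (sub hv)).1
      linarith
    · have := hpos (ρ v)
      linarith [hCb v hv]
  · refine ⟨fun u hu v hv huv => ?_, fun v hv => ?_, ⟨Ch + F.C X 0, fun v hv => ?_⟩⟩
    · have h1 := hB.hh.mono hu hv huv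
      have h2 := hmo (mem_Ici.2 (hr u (sub hu)).1) (mem_Ici.2 (hr v (sub hv)).1) (hm (sub hu) (sub hv) huv)
      simp only at h2 ⊢
      linarith
    · have h1 := hB.hh.nonneg v hv
      have h2 := mul_nonneg (hpos (ρ v)).le (hr v (sub hv)).1
      linarith
    · have h2 := ha (mem_Ici.2 le_rfl) (mem_Ici.2 (hr v (sub hv)).1) (hr v (sub hv)).1
      have h3 : F.C X (ρ v) * ρ v ≤ F.C X 0 * 1 := mul_le_mul h2 (hr v (sub hv)).2 (hr v (sub hv)).1 (hpos 0).le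
      linarith [hCh v hv]

/-- on `(0,1)` the closed clock is the clock -/
theorem bd7wc_cl_eq (c : ℝ → ℝ) {v : ℝ} (hv : v ∈ Ioo (0 : ℝ) 1) : bcpCl c v = c v := by
  unfold bcpCl
  rw [if_neg (not_le.2 hv.1), if_pos hv.2]

theorem bd7wc_b0_eq {v : ℝ} (hv : v ∈ Ioo (0 : ℝ) 1) : (i.chd c0).b0 v = i.F.b i.g v - i.F.C X (i.Q.r v) := by
  have h0 : i.par.P.u0 ≤ v := hv.1.le
  show i.par.Pb i.F.C0 i.Q.r v = _
  unfold P6D.Pb
  rw [if_pos h0]
  show bcpCl (i.F.b i.g) v - _ = _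
  rw [bd7wc_cl_eq _ hv]
  rfl

theorem bd7wc_h0_eq {v : ℝ} (hv : v ∈ Ioo (0 : ℝ) 1) : (i.chd c0).h0 v = i.F.h i.g v + i.F.C X (i.Q.r v) * i.Q.r v := by
  have h0 : i.par.P.u0 ≤ v := hv.1.le
  show i.par.Ph i.F.C0 i.Q.r v = _
  unfold P6D.Ph
  rw [if_pos h0]
  show bcpCl (i.F.h i.g) v + _ = _
  rw [bd7wc_cl_eq _ hv]
  rfl

theorem bd7wc_Pb_eq (l : ℝ) {v : ℝ} (hv : v ∈ Ioo (0 : ℝ) 1) :
    (i.chd c0).Pb l z v = i.F.b i.g v - i.F.C X (i.Q.r v) - (i.chd c0).P.e l (z v) := by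
  have h0 : (i.chd c0).P.u0 ≤ v := hv.1.le
  unfold P6D.Pb
  rw [if_pos h0, bd7wc_b0_eq hv]

theorem bd7wc_Ph_eq (l : ℝ) {v : ℝ} (hv : v ∈ Ioo (0 : ℝ) 1) :
    (i.chd c0).Ph l z v = i.F.h i.g v + i.F.C X (i.Q.r v) * i.Q.r v + (i.chd c0).P.e l (z v) * z v := by
  have h0 : (i.chd c0).P.u0 ≤ v := hv.1.le
  unfold P6D.Ph
  rw [if_pos h0, bd7wc_h0_eq hv]

/-- **the standing hypotheses of the comparison** -/
theorem bd7wc_ok (hX : X.Ok) (hF : i.F.Ok X) (hB : i.F.Base X W i.g) (hopt : i.Q.IsOpt W i.g) (hc0 : 0 < c0) (hw : 0 < i.w)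
    (zM : MonotoneOn z (Icc 0 1)) (zR : ∀ v ∈ Icc (0 : ℝ) 1, z v ∈ Icc (0 : ℝ) 1)
    (hadm : P6Adm ((i.chd c0).Pb ((i.chd c0).P.d ^ 2) z) ((i.chd c0).Ph ((i.chd c0).P.d ^ 2) z))
    (hsucc : (i.chd c0).err (bcpFn W) ((i.chd c0).P.d ^ 2) z ≤ i.cerr c0) : (i.pc W c0 z).Ok := by
  have hM := bd7wc_Mj_pos hF
  have hd' : 0 < (i.chd c0).P.d := mul_pos hc0 hw
  have hl' : 0 < (i.chd c0).P.d ^ 2 := by positivity
  have hΛm : MonotoneOn (fun u : ℝ => u / i.F.Mj) (Icc 0 1) := fun u _ v _ huv => div_le_div_of_nonneg_right huv hM.le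
  have a1 := hB.a1
  refine
    { a1 := a1
      Λ0 := zero_div _
      Λ_mono := hΛm
      ef_anti := bd7wc_C_anti hX hF
      ef_mono := bd7wc_C_mono hX hF
      ef_pos := fun t _ => bud_gb_C_pos hX hF t
      Df_anti := (cm_e_anti (i.chd c0).P hd' hl'.le).antitoneOn _
      Df_mono := cm_re_mono (i.chd c0).P hd' hl'.le
      Df_pos := fun t _ => cm_e_pos (i.chd c0).P hl' t
      feas := bd7wc_feas hX hF i.Q
      clk := fun ρ hρ => bd7wc_clk hX hF hB (SkSp.Feas.mono (d := (i.pc W c0 z).sp) hΛm hρ)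
        (fun v hv => SkSp.Feas.rng (d := (i.pc W c0 z).sp) hΛm hρ hv)
      opt := ?_
      z_mono := zM
      z_rng := zR
      clkQb := bd7wc_clock_of_gh hadm.1 (fun v hv => bd7wc_Pb_eq _ hv)
      clkQh := bd7wc_clock_of_gh hadm.2 (fun v hv => bd7wc_Ph_eq _ hv)
      child := ?_ }
  · intro ρ hρ
    obtain ⟨Q', hQ'⟩ := bd7wc_comp hX hF hρ.1 hρ.2.1 hρ.2.2
    have h1 := hopt Q'
    have pen : ∀ Q'' : BdQ i.F X, Q''.pen = (1 / 4) * ∫ v in Ioo (0 : ℝ) 1, i.F.C X (Q''.r v) * Q''.r v ^ 2 := by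
      intro Q''
      unfold BdQ.pen
      rw [intervalIntegral.integral_of_le zero_le_one, integral_Ioc_eq_integral_Ioo]
    unfold BdQ.obj at h1
    rw [pen, pen, hQ'] at h1
    have e : Q'.bq i.g = fun v => i.F.b i.g v - i.F.C X (ρ v) := by
      funext v; unfold BdQ.bq; rw [hQ']
    have e' : Q'.hq i.g = fun v => i.F.h i.g v + i.F.C X (ρ v) * ρ v := by
      funext v; unfold BdQ.hq; rw [hQ']
    rw [e, e'] at h1
    exact h1
  · unfold P6D.err P6D.obj at hsucc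
    have f1 : bcpFn W (i.chd c0).P.n ((i.chd c0).Pb ((i.chd c0).P.d ^ 2) z) ((i.chd c0).Ph ((i.chd c0).P.d ^ 2) z)
        = (W.ps i.F.m).f (fun v => i.F.b i.g v - i.F.C X (i.Q.r v) - i.Dc c0 (z v))
            (fun v => i.F.h i.g v + i.F.C X (i.Q.r v) * i.Q.r v + i.Dc c0 (z v) * z v) := by
      apply (W.ps i.F.m).f_congr
      · intro v hv; rw [a1] at hv; exact bd7wc_Pb_eq _ hv
      · intro v hv; rw [a1] at hv; exact bd7wc_Ph_eq _ hv
    have f2 : bcpFn W (i.chd c0).P.n (i.chd c0).b0 (i.chd c0).h0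
        = (W.ps i.F.m).f (fun v => i.F.b i.g v - i.F.C X (i.Q.r v)) (fun v => i.F.h i.g v + i.F.C X (i.Q.r v) * i.Q.r v) := by
      apply (W.ps i.F.m).f_congr
      · intro v hv; rw [a1] at hv; exact bd7wc_b0_eq hv
      · intro v hv; rw [a1] at hv; exact bd7wc_h0_eq hv
    have f3 : (i.chd c0).pen ((i.chd c0).P.d ^ 2) z = (1 / 4) * ∫ v in Ioo (0 : ℝ) 1, i.Dc c0 (z v) * z v ^ 2 := by
      unfold P6D.pen
      show (1 / 4) * ∫ u in (0 : ℝ)..1, _ = _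
      rw [intervalIntegral.integral_of_le zero_le_one, integral_Ioc_eq_integral_Ioo]
      rfl
    rw [f1, f2, f3] at hsucc
    show (W.ps i.F.m).f _ _ + _ ≤ (W.ps i.F.m).f _ _ + _
    have : ∀ A B C E : ℝ, A + B - C ≤ E → A + B ≤ C + E := fun A B C E h => by linarith
    exact this _ _ _ _ hsucc

/-- regularity of the class -/
theorem bd7wc_reg (hX : X.Ok) (hF : i.F.Ok X) : (i.pc W c0 z).sp.Reg i.ksup (1 / i.F.Mj) where
  Ψ_mono := bd7wc_psi_mono hX hF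
  Ψ_cont := bd7wc_psi_cont hX hF
  ks0 := bd7wc_ksup_nonneg hF
  ls0 := by have := bd7wc_Mj_pos hF; positivity
  Ψ_lip := bd7wc_psi_lip hX hF
  Λ_lip := fun u _ v _ _ => by
    show v / i.F.Mj - u / i.F.Mj ≤ 1 / i.F.Mj * (v - u)
    have e : v / i.F.Mj - u / i.F.Mj = 1 / i.F.Mj * (v - u) := by ring
    rw [e]

end inst

/-! ## 4. numerics along a weak sequence -/

section num

variable {X : BdFix} {W : BdWorld} {Fam : BdFr → Prop} {cL CL c0 : ℝ} {U : Ultrafilter ℕ} {i : ℕ → Bd7I X}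

theorem bd7wc_w_pos (hX : X.Ok) (h : BcpWk X W Fam cL CL U i) : ∀ᶠ k in U, 0 < (i k).w :=
  h.out.mono fun _ hk => lt_of_lt_of_le (BdFr.wc_pos' hX hk.ok) hk.w_lo

theorem bd7wc_N_top (h : BcpWk X W Fam cL CL U i) : Tendsto (fun k => ((i k).F.N : ℝ)) (U : Filter ℕ) atTop :=
  tendsto_natCast_atTop_atTop.comp h.N_top

theorem bd7wc_m_top (h : BcpWk X W Fam cL CL U i) : Tendsto (fun k => ((i k).F.m : ℝ)) (U : Filter ℕ) atTop := by
  have h1 : Tendsto (fun k => ((i k).F.N : ℝ) / 2) (U : Filter ℕ) atTop := (bd7wc_N_top h).atTop_div_const (by norm_num)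
  exact tendsto_atTop_mono' _ (h.out.mono fun _ hk => hk.ok.m_lo) h1

/-- negative powers of the size are `o(1)` -/
theorem bd7wc_m_pow (h : BcpWk X W Fam cL CL U i) {a ε : ℝ} (ha : 0 < a) (hε : 0 < ε) :
    ∀ᶠ k in U, ((i k).F.m : ℝ) ^ (-a) ≤ ε :=
  (((tendsto_rpow_neg_atTop ha).comp (bd7wc_m_top h)).eventually_lt_const hε).mono fun _ hk => hk.le

/-- `sup k̄ = o(1)` -/
theorem bd7wc_ks0 (hX : X.Ok) (h : BcpWk X W Fam cL CL U i) {ε : ℝ} (hε : 0 < ε) : ∀ᶠ k in U, (i k).ksup ≤ ε := by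
  have hp : 0 < 3 / 20 * X.pS := by have := hX.pS_pos; positivity
  have hd : 0 < 3 * (X.mPE / 10000) := by have := hX.mPE_pos; positivity
  have t1 := ((tendsto_rpow_neg_atTop hp).comp (bd7wc_N_top h)).eventually_lt_const (half_pos hε)
  filter_upwards [h.out, t1, bd7wc_m_pow h hd (half_pos hε)] with k hk h1 h2
  have h3 := bud_gb_kap_le_N hX hk.ok
  have h4 : (i k).ksup = ((i k).F.m : ℝ) ^ (-(3 * (X.mPE / 10000))) + (i k).F.kap := rfl
  simp only [Function.comp] at h1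
  rw [h4]
  linarith

/-- `D(w) = c0² f(1/c0) w²` -/
theorem bd7wc_Dc_w (j : Bd7I X) (hc0 : 0 < c0) (hw : 0 < j.w) : j.Dc c0 j.w = c0 ^ 2 * cmF (1 / c0) * j.w ^ 2 :=
  p6_child_D_x hw hc0

/-- weak removal: `C(0) = o(D(w))` -/
theorem bd7wc_weak (hX : X.Ok) (hc0 : 0 < c0) (h : BcpWk X W Fam cL CL U i) {ε : ℝ} (hε : 0 < ε) :
    ∀ᶠ k in U, (i k).F.C X 0 ≤ ε * (i k).Dc c0 (i k).w := by
  have hf : 0 < c0 ^ 2 * cmF (1 / c0) := mul_pos (pow_pos hc0 2) (cm_f_pos _)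
  filter_upwards [h.out, bd7wc_w_pos hX h,
    aq_o_bound (bd7w_C0_small hX h) (Eventually.of_forall fun k => sq_nonneg _) (mul_pos hε hf)] with k hk hw h1
  rw [bd7wc_Dc_w _ hc0 hw, bud_gb_C_flat hX hk.ok (bud_gb_flat_pos hX hk.ok).le]
  have := le_abs_self (i k).F.C0
  nlinarith

/-- the child error is `o(C(w) w³)` -/
theorem bd7wc_err (hX : X.Ok) (h : BcpWk X W Fam cL CL U i) {ε : ℝ} (hε : 0 < ε) :
    ∀ᶠ k in U, (i k).cerr c0 ≤ ε * ((i k).F.C X (i k).w * (i k).w ^ 3) := by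
  have hd : 0 < 80 * (X.mPE / 10000) := by have := hX.mPE_pos; positivity
  filter_upwards [h.out, bd7wc_w_pos hX h, bd7wc_m_pow h hd hε] with k hk hw h1
  have h2 : (i k).cerr c0 ≤ ((i k).F.m : ℝ) ^ (-(80 * (X.mPE / 10000))) * ((i k).F.C X (i k).w * (i k).w ^ 3) :=
    p6_child_err (D := (i k).par) (bud_gb_N_pos hk.ok)
  exact h2.trans (mul_le_mul_of_nonneg_right h1 (mul_nonneg (bud_gb_C_pos hX hk.ok _).le (pow_pos hw 3).le))

/-- forced rise `1/M_j = o(w)` -/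
theorem bd7wc_rise (hX : X.Ok) (h : BcpWk X W Fam cL CL U i) {ε : ℝ} (hε : 0 < ε) :
    ∀ᶠ k in U, 1 / (i k).F.Mj ≤ ε * (i k).w := by
  filter_upwards [aq_o_bound (bd7w_l_small hX h) ((bd7wc_w_pos hX h).mono fun _ hk => hk.le) hε] with k h1
  exact (le_abs_self _).trans h1

/-- floor mass `∫₀¹ k̄ = o(w)` -/
theorem bd7wc_floor (hX : X.Ok) (h : BcpWk X W Fam cL CL U i) {ε : ℝ} (hε : 0 < ε) :
    ∀ᶠ k in U, (i k).Psi 1 - (i k).Psi 0 ≤ ε * (i k).w := by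
  filter_upwards [h.out, aq_o_bound (bd7w_kbar_int hX h) ((bd7wc_w_pos hX h).mono fun _ hk => hk.le) hε] with k hk h1
  rw [bd7wc_psi_kbar hX hk.ok le_rfl zero_le_one le_rfl]
  exact (le_abs_self _).trans h1

/-- regime A -/
theorem bd7wc_regA (hX : X.Ok) (hc0 : 0 < c0) (h : BcpWk X W Fam cL CL U i)
    (hA : ∀ᶠ k in U, (i k).F.Lam ^ (1 / 4 : ℝ) * (i k).F.u ≤ (i k).w) {ε : ℝ} (hε : 0 < ε) :
    ∀ᶠ k in U, (i k).F.C X 1 ≤ ε * ((i k).w * (i k).Dc c0 (i k).w) := by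
  have hf : 0 < c0 ^ 2 * cmF (1 / c0) := mul_pos (pow_pos hc0 2) (cm_f_pos _)
  filter_upwards [bd7wc_w_pos hX h,
    aq_o_bound (bd7w_A_C1 hX h hA) ((bd7wc_w_pos hX h).mono fun _ hk => (pow_pos hk 3).le) (mul_pos hε hf)] with k hw h1
  rw [bd7wc_Dc_w _ hc0 hw]
  have := le_abs_self ((i k).F.C X 1)
  nlinarith

/-- regime B -/
theorem bd7wc_regB (hX : X.Ok) (h : BcpWk X W Fam cL CL U i)
    (hB : ∀ᶠ k in U, (i k).w < (i k).F.Lam ^ (1 / 4 : ℝ) * (i k).F.u) (z : ℕ → ℝ → ℝ) :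
    SkNsB U (fun k => ((i k).pc W c0 (z k)).sp) (fun k => (i k).Ysep) := by
  refine ⟨fun k => (i k).i0, fun k => ((i k).F.call X).B0, fun C => ?_, ?_⟩
  · have hcI := hX.cI_pos
    set ε : ℝ := min (1 / 2) (1 / X.cI) / (|C| + 1) with hε
    have hC1 : 0 < |C| + 1 := by positivity
    have hε0 : 0 < ε := div_pos (lt_min (by norm_num) (by positivity)) hC1
    filter_upwards [h.out, bd7wc_w_pos hX h, aq_o_bound (bd7w_B_patch hX h hB)
      (h.out.mono fun _ hk => (mul_pos hk.ok.I0 (BdFr.bds_u_pos hk.ok hX)).le) hε0] with k hk hw h1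
    have hu := BdFr.bds_u_pos hk.ok hX
    have hu1 := BdFr.bds_u_le_one hk.ok hX
    have hI := hk.ok.I0
    have hIu : 0 < (i k).F.Ilo * (i k).F.u := mul_pos hI hu
    have hIc : (i k).F.Ilo * (i k).F.u ≤ X.cI := by
      have : (i k).F.Ilo ≤ X.cI := hk.ok.I1.trans hk.ok.I2.le
      nlinarith
    have hm : 0 < ((i k).F.m : ℝ) := lt_of_lt_of_le one_pos (bud_gb_m_ge hk.ok)
    have hY0 : 0 < ((i k).F.m : ℝ) ^ (2 * (X.mPE / 10000)) * (i k).w := mul_pos (Real.rpow_pos_of_pos hm _) hw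
    have hY1 : (i k).Ysep ≤ ((i k).F.m : ℝ) ^ (2 * (X.mPE / 10000)) * (i k).w := min_le_right _ _
    have hY2 : 0 ≤ (i k).Ysep := le_min zero_le_one hY0.le
    have h2 : C * (i k).Ysep ≤ (|C| + 1) * (((i k).F.m : ℝ) ^ (2 * (X.mPE / 10000)) * (i k).w) :=
      mul_le_mul ((le_abs_self C).trans (by linarith)) hY1 hY2 hC1.le
    have h3 : (|C| + 1) * (((i k).F.m : ℝ) ^ (2 * (X.mPE / 10000)) * (i k).w)
        ≤ min (1 / 2) (1 / X.cI) * ((i k).F.Ilo * (i k).F.u) := by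
      have h4 := (le_abs_self _).trans h1
      have h5 := mul_le_mul_of_nonneg_left h4 hC1.le
      have e : (|C| + 1) * (ε * ((i k).F.Ilo * (i k).F.u)) = min (1 / 2) (1 / X.cI) * ((i k).F.Ilo * (i k).F.u) := by
        rw [hε]; field_simp
      rwa [e] at h5
    refine h2.trans (h3.trans (le_min ?_ ?_))
    · calc min (1 / 2) (1 / X.cI) * ((i k).F.Ilo * (i k).F.u) ≤ 1 / X.cI * X.cI :=
            mul_le_mul (min_le_right _ _) hIc hIu.le (by positivity)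
        _ = 1 := by field_simp
    · calc min (1 / 2) (1 / X.cI) * ((i k).F.Ilo * (i k).F.u) ≤ 1 / 2 * ((i k).F.Ilo * (i k).F.u) :=
            mul_le_mul_of_nonneg_right (min_le_left _ _) hIu.le
        _ = (i k).F.Ilo * (i k).F.u / 2 := by ring
  · filter_upwards [h.out] with k hk
    have hN := bud_gb_N_pos hk.ok
    have hus := bud_gb_us_pos hX hk.ok
    have hB0 : 0 < ((i k).F.call X).B0 := by unfold CmCall.B0; positivity
    have hA0 : 0 ≤ ((i k).F.call X).A0 := by unfold CmCall.A0; positivity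
    refine ⟨hB0, fun τ p q hτ hp hpq hq => ?_, fun t a b ht0 ht1 hb hba ha => ?_⟩
    · show (i k).Psi (q + τ) - (i k).Psi (p + τ) ≤ (i k).Psi q - (i k).Psi p
      rw [bd7wc_psi_harm hX hk.ok (by linarith) hq, bd7wc_psi_harm hX hk.ok (by linarith) (by linarith),
        bd7wc_psi_harm hX hk.ok (by linarith) (by linarith), bd7wc_psi_harm hX hk.ok hp (by linarith)]
      exact bd7wc_psi_conc hA0 hB0 hτ hp hpq
    · show (i k).Psi (skbarHm _ t a b) = (1 - t) * (i k).Psi a + t * (i k).Psi b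
      have h1 := skbar_hm_le_left hB0 ht0 ht1 hb hba
      have h2 := skbar_hm_ge_right hB0 ht0 ht1 hb hba
      rw [bd7wc_psi_harm hX hk.ok (hb.trans h2) (h1.trans ha), bd7wc_psi_harm hX hk.ok (hb.trans hba) ha,
        bd7wc_psi_harm hX hk.ok hb (hba.trans ha)]
      exact skbar_hm_psi hB0 ht0 ht1 (hb.trans hba) hb

end num

/-! ## 5. glue -/

section glue

variable {X : BdFix} {W : BdWorld} {Fam : BdFr → Prop} {c : P6C} {c0 β0 κ0 cL CL : ℝ}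

/-- **EXIT for helper286: no fixed threshold separation** (LL l.902-960).      TEX[LL:bud:modified-closure]#902-960 -/
theorem bd7wc_nosep (hX : X.Ok) (hc : c.Ok) (hc0 : 0 < c0) (hcL : 0 < cL)
    (hbase : ∀ F, Fam F → ∀ g ∈ X.G0, F.Base X W g) (hC : BcpChild X W Fam c c0 β0 κ0 cL CL) :
    BcpNoSep X W Fam c0 cL CL := by
  intro U i z h hz
  have hw := bd7wc_w_pos hX h
  have main : SkNs U (fun k => ((i k).pc W c0 (z k)).sp) (fun k => (i k).w) (fun k => (i k).Ysep) (fun k => (i k).ksup)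
      (fun k => 1 / (i k).F.Mj) cL CL 2 :=
    { ok := by
        filter_upwards [h.out, hw, (hC.seq U i h).ok, hC.ord U i h, hz.min, hz.succ] with k hk hw ok ord hmin hsucc
        obtain ⟨zM, zR⟩ := p6_fe_rng hc.cE_pos ok hmin.1
        exact (bd7wc_ok hX hk.ok (hbase _ hk.fam _ hk.g_mem) hk.opt hc0 hw zM zR
          (ord.2 _ (sq_nonneg _) le_rfl _ hmin.1) hsucc).sp
      reg := h.out.mono fun k hk => bd7wc_reg hX hk.ok
      x_pos := hw
      Y_le := Eventually.of_forall fun k => min_le_left _ _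
      weak := fun ε hε => bd7wc_weak hX hc0 h hε
      outer := h.out.mono fun k hk u h1 h2 _ => hk.reg u h1 h2
      err := fun ε hε => bd7wc_err hX h hε
      ks0 := fun ε hε => bd7wc_ks0 hX h hε
      ls1 := h.out.mono fun k hk => by
        have := bud_gb_Mj_ge hk.ok
        rw [div_le_one (by linarith)]; linarith
      Λ1 := fun ε hε => bd7wc_rise hX h hε
      Ψ1 := fun ε hε => bd7wc_floor hX h hε
      regime := by
        rcases U.em (fun k => (i k).F.Lam ^ (1 / 4 : ℝ) * (i k).F.u ≤ (i k).w) with hA | hB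
        · exact Or.inl fun ε hε => bd7wc_regA hX hc0 h hA hε
        · exact Or.inr (bd7wc_regB hX h (hB.mono fun k hk => not_le.1 hk) z) }
  exact skns_main hcL (by norm_num) main

end glue

/-! ## 7. the constants of Step 1; Step 1 for all loose constants -/

/-- the PE record of Step 1: `m = m_PE`, `K = Kb + 4`, `ρ = (T-1)/2`, `T_∞ = T`, `cE = D0 = 1` -/
def bd7wC (m T Kb : ℝ) : P6C := ⟨m, Kb + 4, (T - 1) / 2, T, 1, 1⟩

/-- the child coefficient `d'/w` -/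
def bd7wc0 (T β0 : ℝ) : ℝ := min 1 (min (β0 / 4) ((T + 1) / 4))

theorem bd7w_C_ok {m T Kb : ℝ} (hm : 0 < m) (hm1 : m ≤ 1 / 100) (hT : 1 < T) (hKb : 0 ≤ Kb) : (bd7wC m T Kb).Ok where
  m_pos := hm
  m_le := hm1
  K_pos := by show 0 < Kb + 4; linarith
  ρ_pos := by show 0 < (T - 1) / 2; linarith
  ρ_lt := by show (T - 1) / 2 < T; linarith
  T_gt := hT
  cE_pos := one_pos
  D0_pos := one_pos

theorem bd7w_c0_facts {T β0 : ℝ} (hT : 1 < T) (hβ0 : 0 < β0) :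
    0 < bd7wc0 T β0 ∧ bd7wc0 T β0 ≤ 1 ∧ bd7wc0 T β0 ^ 2 ≤ 1 ∧ bd7wc0 T β0 ^ 2 ≤ β0 / 4 ∧ bd7wc0 T β0 ^ 2 ≤ (T + 1) / 4 := by
  have h0 : 0 < bd7wc0 T β0 := lt_min one_pos (lt_min (by linarith) (by linarith))
  have h1 : bd7wc0 T β0 ≤ 1 := min_le_left _ _
  have h2 : bd7wc0 T β0 ≤ β0 / 4 := (min_le_right _ _).trans (min_le_left _ _)
  have h3 : bd7wc0 T β0 ≤ (T + 1) / 4 := (min_le_right _ _).trans (min_le_right _ _)
  have h4 : bd7wc0 T β0 ^ 2 ≤ bd7wc0 T β0 := by nlinarith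
  exact ⟨h0, h1, h4.trans h1, h4.trans h2, h4.trans h3⟩

theorem bd7w_K {X : BdFix} {β0 Kb cL CL : ℝ} (hX : X.Ok) (hβ0 : 0 < β0) (hKb : 0 ≤ Kb) (h1 : 0 < cL) (h2 : cL ≤ 1) (h3 : 1 ≤ CL) :
    Bd7WK X (bd7wC X.mPE X.T Kb) cL CL (bd7wc0 X.T β0) β0 Kb := by
  obtain ⟨a0, a1, a2, a3, a4⟩ := bd7w_c0_facts hX.T1 hβ0
  obtain ⟨e1, e2, e3, e4⟩ := bd7w_exp hX
  have hT := hX.T1
  exact
  { hX := hX
    k :=
      { ok := bd7w_C_ok hX.mPE_pos (by linarith [hX.zeta_pos, hX.pS_pos]) hX.T1 hKb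
        cl_pos := h1
        cl_le := h2
        Ch_ge := h3
        C0_ge := by norm_num
        c0_pos := a0
        c0_T := by show _ < X.T - (X.T - 1) / 2; linarith
        c0_D := a1
        c0_β := by linarith }
    m_eq := rfl
    T_eq := rfl
    c0_lt := by linarith
    K_ge := by show _ ≤ Kb + 4; linarith }

/-- **Step 1 for all loose constants outside the PE constants**, from named Props only -/
theorem bd7w_weak_all {X : BdFix} {W : BdWorld} {Fam : BdFr → Prop} {β0 Kb cκ Cκ cT CT : ℝ} (hX : X.Ok) (hβ0 : 0 < β0) (hKb : 0 ≤ Kb)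
    (base : Bd7WBase X Fam β0 Kb) (p9 : Bd7P9 X Fam) (hP : BcpPE W (bd7wC X.mPE X.T Kb) cκ Cκ cT CT)
    (hN : ∀ cL CL : ℝ, 0 < cL → cL ≤ 1 → 1 ≤ CL → BcpNoSep X W Fam (bd7wc0 X.T β0) cL CL) :
    ∀ cL CL : ℝ, 0 < cL → cL ≤ p6Lo Cκ cT → p6Hi cκ CT ≤ CL → Bd7Weak X W Fam cL CL := by
  intro cL CL h1 h2 h3
  have h2' : cL ≤ 1 := h2.trans ((min_le_left _ _).trans (by norm_num))
  have h3' : 1 ≤ CL := le_trans (le_trans (by norm_num) (le_max_left _ _)) h3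
  have hK := bd7w_K hX hβ0 hKb h1 h2' h3'
  obtain ⟨a0, a1, a2, a3, a4⟩ := bd7w_c0_facts hX.T1 hβ0
  refine bcp_weak (β0 := β0 / 2 - bd7wc0 X.T β0 ^ 2) (κ0 := Kb + 1 + bd7wc0 X.T β0 ^ 2) ?_ hP (bd7w_child ⟨hK, base, p9⟩) (hN cL CL h1 h2' h3')
  exact ⟨hX, hK.k.ok, rfl, rfl, a0, by linarith, by show _ ≤ Kb + 4; linarith, h1, h2, h3⟩

/-- `Bd7WBase` from (P9), the clocks and the lower margin: the upper bound is `Kb = T + 2` -/
theorem bd7w_base_of {X : BdFix} {Fam : BdFr → Prop} {β0 : ℝ} (hX : X.Ok) (p9 : Bd7P9 X Fam)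
    (hclk : ∃ N0 : ℕ, ∀ F : BdFr, Fam F → F.Ok X → N0 ≤ F.N → ∀ g ∈ X.G0,
      IsClock 1 (F.b g) ∧ IsClock 1 (F.h g) ∧ ∀ v ∈ Ioo (0 : ℝ) 1, β0 ≤ F.b g v) : Bd7WBase X Fam β0 (X.T + 2) := by
  obtain ⟨N1, h1⟩ := hclk
  obtain ⟨N2, h2⟩ := p9 1 1 one_pos one_pos
  refine ⟨max N1 N2, fun F hF hO hN g hg => ?_⟩
  obtain ⟨hb, hh, hm⟩ := h1 F hF hO ((le_max_left _ _).trans hN) g hg
  obtain ⟨hT, h9⟩ := h2 F hF hO ((le_max_right _ _).trans hN)
  have hx0 := BdFr.bds_x_pos hO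
  have hx1 := BdFr.bds_x_lt_one hO
  have hTm : F.Tm ≤ X.T + 1 := by have := (abs_le.1 hT).2; linarith
  -- above the mask
  have hup : ∀ v ∈ Ico F.x 1, F.b g v ≤ X.T + 2 ∧ F.h g v ≤ X.T + 2 := by
    intro v hv
    have hv0 : 0 < v := lt_of_lt_of_le hx0 hv.1
    obtain ⟨q1, q2⟩ := h9 g hg v ⟨by rw [one_mul]; exact hv.1, hv.2⟩
    have v2 : v ^ 2 ≤ 1 := pow_le_one₀ hv0.le hv.2.le
    have v3 : v ^ 3 ≤ 1 := pow_le_one₀ hv0.le hv.2.le
    have a1 := (abs_le.1 q1).2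
    have a2 := (abs_le.1 q2).2
    have hT1 := hX.T1
    constructor <;> linarith
  refine ⟨hb, hh, fun v hv => ⟨hm v hv, ?_⟩⟩
  rcases le_or_gt F.x v with h | h
  · exact hup v ⟨h, hv.2⟩
  · have hxm : F.x ∈ Ioo (0 : ℝ) 1 := ⟨hx0, hx1⟩
    obtain ⟨u1, u2⟩ := hup F.x ⟨le_rfl, hx1⟩
    exact ⟨(hb.mono hv hxm h.le).trans u1, (hh.mono hv hxm h.le).trans u2⟩

/-- **STEP 1 OF (C7), CLOSED**: for all loose constants outside the PE constants, from named Props only: bare clocks (`Bd7WBase`, `BdFr.Base`), (P9), PE Sec. 6 for the world (`BcpPE`).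
`= bcp_weak` (286) `+ bd7w_child` (129) `+ bd7wc_nosep` (186).      TEX[LL:bud:coarse-profile]#step1 -/
theorem bd7w_weak_fin {X : BdFix} {W : BdWorld} {Fam : BdFr → Prop} {β0 Kb cκ Cκ cT CT : ℝ} (hX : X.Ok) (hβ0 : 0 < β0) (hKb : 0 ≤ Kb)
    (base : Bd7WBase X Fam β0 Kb) (p9 : Bd7P9 X Fam) (hbase : ∀ F, Fam F → ∀ g ∈ X.G0, F.Base X W g)
    (hP : BcpPE W (bd7wC X.mPE X.T Kb) cκ Cκ cT CT) :
    ∀ cL CL : ℝ, 0 < cL → cL ≤ p6Lo Cκ cT → p6Hi cκ CT ≤ CL → Bd7Weak X W Fam cL CL :=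
  bd7w_weak_all hX hβ0 hKb base p9 hP fun _ _ h1 h2 h3 =>
    bd7wc_nosep hX (bd7w_K hX hβ0 hKb h1 h2 h3).k.ok (bd7w_c0_facts hX.T1 hβ0).1 h1 hbase
      (bd7w_child ⟨bd7w_K hX hβ0 hKb h1 h2 h3, base, p9⟩)

theorem bd7w_defs2_eqns_cite : True := by
  have := @bd7wC.eq_1; have := @bd7wc0.eq_1
  trivial

end

end Claimed.Agent.R286
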