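import Claimed.Agent.R286.Bud.RawExit
import Claimed.Agent.R286.Bud.StarW

/-!
# Row 286, LL sec. 7, node N5 = Lemma 7.4, (C9): THE ADAPTER TO THE WORLD LEVEL      (owner helper190; prefix `bud_ry_`; exit `bud_rx_bcsc9`)
TEX[LL:bud:outer-moments] = LL `07-budgets.tex` l.242-246, (C9) l.271-275.

`bud_rx_c9` (helper7, `Bud/RawExit`): on all fine chains, `‖∑_j ov_j(z,2z) W_j‖_l ≤ Cc x^(-ε) x⁶/sg(3z)`, `ov_j` = length of `[rad j, rad (j+1)] ∩ [z,2z]` in the RADIUS labelling `rad j = r(mass j)`.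
`BcsC9` (`Bud/StarLp`): `‖∫ κ_v W_v dv‖_l ≤ Cc x^(-ε) x⁶/C0` for the world number `nWr` = `IsHub.nWw` with the weight `κ = r' 1_[α(a),α(b)]`, `[a,b] = [c Ka W/2, 3 C Ka W]`.
* §1 `bud_ry_ov_split`, `bud_ry_ov_dyad`: a window is covered by dyads.
* §2 `bud_ry_lip`, `bud_ry_wt`, `bud_ry_rho_le`: the Riemann weight of the cell `l` is `≤ ov_l(a,b)` (FTC for the Lipschitz quantile; only the inclusion `{ix = l} ⊆ cell l` is used).
* §3 `bud_ry_NW_le`: the norm of `IsHub.nWw` on one chain `≤ cmN` of the radius integral.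
* §4 `bud_rx_bcsc9`.
-/

set_option autoImplicit false

namespace Claimed.Agent.R286

open MeasureTheory Set Filter Topology

noncomputable section

/-! ## 1. windows and dyads -/

section ov
variable {n : ℕ} {Ω : Type} [MeasurableSpace Ω] (M : CmPath n Ω)

theorem bud_ry_ov_nonneg (i : ℕ) (t1 t2 : ℝ) : 0 ≤ M.ov i t1 t2 := le_max_left _ _

theorem bud_ry_ov_split (i : ℕ) {t1 t2 t3 : ℝ} (h12 : t1 ≤ t2) (h23 : t2 ≤ t3) : M.ov i t1 t3 ≤ M.ov i t1 t2 + M.ov i t2 t3 := by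
  unfold CmPath.ov
  simp only [max_def, min_def]
  split_ifs <;> linarith

theorem bud_ry_ov_mono (i : ℕ) (t1 : ℝ) {t2 t3 : ℝ} (h23 : t2 ≤ t3) : M.ov i t1 t2 ≤ M.ov i t1 t3 := by
  unfold CmPath.ov
  exact max_le_max le_rfl (sub_le_sub_right (min_le_min le_rfl h23) _)

theorem bud_ry_ov_self (i : ℕ) (t : ℝ) : M.ov i t t = 0 := by
  unfold CmPath.ov
  exact max_eq_left (by linarith [min_le_right (M.mass (i + 1)) t, le_max_right (M.mass i) t])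

/-- a window `[a,b]`, `b ≤ 2^k a`, is covered by the `k` dyads `[2^j a, 2^(j+1) a]` -/
theorem bud_ry_ov_dyad (i : ℕ) {a b : ℝ} (ha : 0 < a) (k : ℕ) (hb : b ≤ 2 ^ k * a) :
    M.ov i a b ≤ ∑ j ∈ Finset.range k, M.ov i (2 ^ j * a) (2 * (2 ^ j * a)) := by
  refine (bud_ry_ov_mono M i a hb).trans ?_
  clear hb
  induction k with
  | zero => simp [bud_ry_ov_self]
  | succ k ih =>
    rw [Finset.sum_range_succ]
    have h1 : a ≤ 2 ^ k * a := le_mul_of_one_le_left ha.le (one_le_pow₀ (by norm_num))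
    have h2 : 2 ^ k * a ≤ 2 ^ (k + 1) * a := by rw [pow_succ]; nlinarith [pow_pos (two_pos : (0:ℝ) < 2) k]
    have h3 := bud_ry_ov_split M i h1 h2
    have e : (2 : ℝ) ^ (k + 1) * a = 2 * (2 ^ k * a) := by rw [pow_succ]; ring
    rw [e] at h3 ⊢
    linarith

end ov

/-! ## 2. the weight of `nWr` and its Riemann weights -/

section wt
variable {X : BdFix} {F : BdFr}

/-- the weight of `BdQ.nWr` -/
def budRyK (Q : BdQ F X) (a b : ℝ) (v : ℝ) : ℝ := if v ∈ Icc (Q.al a) (Q.al b) then deriv Q.r v else 0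

theorem bud_ry_eqns_cite : True := by
  have := @budRyK.eq_1
  trivial

theorem bud_ry_lip (hX : X.Ok) (hF : F.Ok X) (Q : BdQ F X) :
    0 < F.k X 1 ∧ LipschitzOnWith (Real.toNNReal (1 / F.k X 1)) Q.r (Icc 0 1) := by
  obtain ⟨h1, _, h3⟩ := bud_dens_of_bdq X hX F hF Q
  have hbox := bud_gb_box hX hF
  have hk : 0 < F.k X 1 := hbox.kmin0
  refine ⟨hk, LipschitzOnWith.of_dist_le_mul fun v hv w hw => ?_⟩
  rw [Real.dist_eq, Real.dist_eq, ← h3 v hv, ← h3 w hw, Real.coe_toNNReal _ (by positivity)]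
  have := budQ_lip hbox h1 hv hw
  rw [div_eq_mul_one_div, mul_comm] at this
  exact this

theorem bud_ry_al (hX : X.Ok) (hF : F.Ok X) (Q : BdQ F X) {a : ℝ} (ha : a ∈ Ioo (0 : ℝ) 1) : Q.al a ∈ Ioo (0 : ℝ) 1 := by
  obtain ⟨hdn, hal, _⟩ := bud_dens_of_bdq X hX F hF Q
  have hbox := bud_gb_box hX hF
  have ha' := Ioo_subset_Icc_self ha
  have h0 : (0 : ℝ) ∈ Icc (0 : ℝ) 1 := ⟨le_rfl, zero_le_one⟩
  have h1 : (1 : ℝ) ∈ Icc (0 : ℝ) 1 := ⟨zero_le_one, le_rfl⟩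
  have hmem : Q.al a ∈ Icc (0 : ℝ) 1 := by rw [← hal a ha']; exact budAl_mem_Icc hbox hdn ha'
  constructor
  · rcases hmem.1.eq_or_lt with h | h
    · exfalso
      have e := Q.r_al a ha'
      have e0 := Q.r_al 0 h0
      rw [← h] at e
      rw [Q.al_zero] at e0
      linarith [ha.1]
    · exact h
  · rcases hmem.2.eq_or_lt with h | h
    · exfalso
      have e := Q.r_al a ha'
      have e1 := Q.r_al 1 h1
      rw [h] at e
      rw [Q.al_one] at e1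
      linarith [ha.2]
    · exact h

/-- bounds of the derivative of the quantile inside `(0,1)` -/
theorem bud_ry_der (hX : X.Ok) (hF : F.Ok X) (Q : BdQ F X) {v : ℝ} (hv : v ∈ Ioo (0 : ℝ) 1) :
    0 ≤ deriv Q.r v ∧ deriv Q.r v ≤ 1 / F.k X 1 := by
  obtain ⟨hk, hlip⟩ := bud_ry_lip hX hF Q
  constructor
  · have hmo : MonotoneOn Q.r (Ioo 0 1) := (bcs_hc_r hX hF Q).1.mono Ioo_subset_Icc_self
    have := hmo.derivWithin_nonneg (x := v)
    rwa [derivWithin_of_isOpen isOpen_Ioo hv] at this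
  · have := norm_deriv_le_of_lipschitzOn (Icc_mem_nhds hv.1 hv.2) hlip
    rw [Real.coe_toNNReal _ (by positivity)] at this
    exact (le_abs_self _).trans this

theorem bud_ry_wt (hX : X.Ok) (hF : F.Ok X) (Q : BdQ F X) {a b : ℝ} (ha : 0 < a) (hab : a ≤ b) (hb : b < 1) :
    Measurable (budRyK Q a b) ∧ (∀ v, 0 ≤ budRyK Q a b v) ∧ ∀ v, |budRyK Q a b v| ≤ 1 / F.k X 1 := by
  have hk := (bud_ry_lip hX hF Q).1
  have h1 := bud_ry_al hX hF Q (a := a) ⟨ha, hab.trans_lt hb⟩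
  have h2 := bud_ry_al hX hF Q (a := b) ⟨ha.trans_le hab, hb⟩
  have h0 : ∀ v, 0 ≤ budRyK Q a b v ∧ budRyK Q a b v ≤ 1 / F.k X 1 := by
    intro v
    unfold budRyK
    split_ifs with hv
    · exact bud_ry_der hX hF Q ⟨h1.1.trans_le hv.1, hv.2.trans_lt h2.2⟩
    · exact ⟨le_rfl, by positivity⟩
  refine ⟨Measurable.ite measurableSet_Icc (measurable_deriv _) measurable_const, fun v => (h0 v).1, fun v => ?_⟩
  rw [abs_of_nonneg (h0 v).1]
  exact (h0 v).2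

/-- FTC for the quantile -/
theorem bud_ry_ftc (hX : X.Ok) (hF : F.Ok X) (Q : BdQ F X) {A B : ℝ} (hA : 0 ≤ A) (hAB : A ≤ B) (hB : B ≤ 1) :
    ∫ v in A..B, deriv Q.r v = Q.r B - Q.r A := by
  obtain ⟨hk, hlip⟩ := bud_ry_lip hX hF Q
  have hac : AbsolutelyContinuousOnInterval Q.r A B := by
    apply LipschitzOnWith.absolutelyContinuousOnInterval (K := Real.toNNReal (1 / F.k X 1))
    rw [uIcc_of_le hAB]
    exact hlip.mono (Icc_subset_Icc hA hB)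
  exact hac.integral_deriv_eq_sub

/-- **the Riemann weight of the cell `l`** is at most the length of `[rad l, rad (l+1)] ∩ [a,b]` -/
theorem bud_ry_rho_le (hX : X.Ok) (hF : F.Ok X) (Q : BdQ F X) (g : ℝ) (hm : 0 < F.m) (hbc : IsClock 1 (Q.bq g)) (hhc : IsClock 1 (Q.hq g))
    (Fs : Finset GhPos) {a b : ℝ} (ha : 0 < a) (hab : a ≤ b) (hb : b < 1) {l : ℕ} (hl : l ≤ bcsLen Fs) :
    bcsRho (budRyK Q a b) Fs l ≤ ((Q.rxM g (ghPs 1 Fs)).re (Q.rxRad g (ghPs 1 Fs))).ov l a b := by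
  have hM : (Q.rxM g (ghPs 1 Fs)).Ok := cm5_l8_ok (bcsSP F.m (Q.bq g) (Q.hq g) Fs) (bcs_w_ok hm hbc hhc Fs) rfl
  have hL : (Q.rxM g (ghPs 1 Fs)).L = bcsLen Fs := bcs_w_len (Q.bq g) (Q.hq g) Fs
  obtain ⟨A0, hA0⟩ : ∃ A0, A0 = (Q.rxM g (ghPs 1 Fs)).mass l := ⟨_, rfl⟩
  obtain ⟨B0, hB0⟩ : ∃ B0, B0 = (Q.rxM g (ghPs 1 Fs)).mass (l + 1) := ⟨_, rfl⟩
  have mA : A0 ∈ Icc (0 : ℝ) 1 := by rw [hA0]; exact CmPath.mass_mem hM (by omega)
  have mB : B0 ∈ Icc (0 : ℝ) 1 := by rw [hB0]; exact CmPath.mass_mem hM (by omega)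
  have h1 := bud_ry_al hX hF Q (a := a) ⟨ha, hab.trans_lt hb⟩
  have h2 := bud_ry_al hX hF Q (a := b) ⟨ha.trans_le hab, hb⟩
  have hrm := (bcs_hc_r hX hF Q).1
  have hk := (bud_ry_lip hX hF Q).1
  obtain ⟨hκm, hκ0, hκb⟩ := bud_ry_wt hX hF Q ha hab hb
  -- the target
  have etgt : ((Q.rxM g (ghPs 1 Fs)).re (Q.rxRad g (ghPs 1 Fs))).ov l a b = max 0 (min (Q.r B0) b - max (Q.r A0) a) := by
    rw [hA0, hB0]; rfl
  rw [etgt]
  -- the support
  have hsupp : ∀ v ∈ Icc (0 : ℝ) 1, bcsIx Fs v = l → v ∈ Icc (Q.al a) (Q.al b) → v ∈ Icc (max A0 (Q.al a)) (min B0 (Q.al b)) := by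
    intro v hv hix hw
    obtain ⟨c1, c2⟩ := bcs_w_level_aux (Q.bq g) (Q.hq g) Fs hv hix
    have c1' : A0 ≤ v := by rw [hA0]; exact c1
    have c2' : v ≤ B0 := by
      rw [hB0]
      have : (Q.rxM g (ghPs 1 Fs)).mass (l + 1) = skMs 1 (bcsStp (Q.bq g) (Q.hq g) Fs) l :=
        cm5_l8_mass_succ (bcsSP F.m (Q.bq g) (Q.hq g) Fs) l
      rw [this]; exact c2
    exact ⟨max_le c1' hw.1, le_min c2' hw.2⟩
  rcases lt_or_ge (min B0 (Q.al b)) (max A0 (Q.al a)) with hlt | hge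
  · -- empty intersection
    have hz : bcsRho (budRyK Q a b) Fs l = 0 := by
      unfold bcsRho
      have hc : ∀ v ∈ uIcc (0 : ℝ) 1, (if bcsIx Fs v = l then budRyK Q a b v else 0) = (fun _ : ℝ => (0 : ℝ)) v := by
        intro v hv
        rw [uIcc_of_le zero_le_one] at hv
        show (if bcsIx Fs v = l then budRyK Q a b v else 0) = 0
        split_ifs with hix
        · unfold budRyK
          split_ifs with hw
          · exfalso
            have := hsupp v hv hix hw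
            linarith [this.1, this.2]
          · rfl
        · rfl
      rw [intervalIntegral.integral_congr hc, intervalIntegral.integral_zero]
    rw [hz]
    exact le_max_left _ _
  · obtain ⟨A, hA⟩ : ∃ A, A = max A0 (Q.al a) := ⟨_, rfl⟩
    obtain ⟨B, hB⟩ : ∃ B, B = min B0 (Q.al b) := ⟨_, rfl⟩
    rw [← hA, ← hB] at hge hsupp
    have hA0' : 0 < A := by rw [hA]; exact h1.1.trans_le (le_max_right _ _)
    have hB1 : B < 1 := by rw [hB]; exact (min_le_right _ _).trans_lt h2.2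
    have hftc := bud_ry_ftc hX hF Q hA0'.le hge hB1.le
    have erB : Q.r B = min (Q.r B0) b := by
      rw [hB, hrm.map_min mB (Ioo_subset_Icc_self h2), Q.r_al b ⟨(ha.trans_le hab).le, hb.le⟩]
    have erA : Q.r A = max (Q.r A0) a := by
      rw [hA, hrm.map_max mA (Ioo_subset_Icc_self h1), Q.r_al a ⟨ha.le, (hab.trans_lt hb).le⟩]
    rw [← erB, ← erA, ← hftc]
    refine le_trans ?_ (le_max_right _ _)
    -- compare with the indicator of `[A,B]`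
    have hind : ∫ v in A..B, deriv Q.r v = ∫ v in (0 : ℝ)..1, (Icc A B).indicator (deriv Q.r) v := by
      rw [intervalIntegral.integral_of_le hge, intervalIntegral.integral_of_le zero_le_one, ← integral_Icc_eq_integral_Ioc,
        setIntegral_indicator measurableSet_Icc]
      congr 2
      ext v
      constructor
      · intro hv; exact ⟨⟨hA0'.trans_le hv.1, (hv.2.trans hB1.le)⟩, hv⟩
      · intro hv; exact hv.2
    rw [hind]
    unfold bcsRho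
    have hder : ∀ v ∈ Icc A B, 0 ≤ deriv Q.r v ∧ deriv Q.r v ≤ 1 / F.k X 1 := fun v hv =>
      bud_ry_der hX hF Q ⟨hA0'.trans_le hv.1, hv.2.trans_lt hB1⟩
    have hindm : Measurable ((Icc A B).indicator (deriv Q.r)) := (measurable_deriv _).indicator measurableSet_Icc
    have hindb : ∀ v, |(Icc A B).indicator (deriv Q.r) v| ≤ 1 / F.k X 1 := by
      intro v
      by_cases hv : v ∈ Icc A B
      · rw [indicator_of_mem hv, abs_of_nonneg (hder v hv).1]; exact (hder v hv).2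
      · rw [indicator_of_notMem hv, abs_zero]; positivity
    refine intervalIntegral.integral_mono_on zero_le_one (bcs_p_rho_int Fs hκm hκb l) (bcs_w_ii_aux hindm hindb 0 1) fun v hv => ?_
    split_ifs with hix
    · unfold budRyK
      split_ifs with hw
      · rw [indicator_of_mem (hsupp v hv hix hw)]
      · by_cases hv' : v ∈ Icc A B
        · rw [indicator_of_mem hv']; exact (hder v hv').1
        · rw [indicator_of_notMem hv']
    · by_cases hv' : v ∈ Icc A B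
      · rw [indicator_of_mem hv']; exact (hder v hv').1
      · rw [indicator_of_notMem hv']

end wt

/-! ## 3. one chain -/

section chain
variable {X : BdFix} {F : BdFr}

theorem bud_ry_bm {α : Type} [MeasurableSpace α] {μ : Measure α} {f : α → ℝ} (hf : L8Bd f) : CmBM μ f := by
  obtain ⟨h1, C, hC⟩ := hf
  exact ⟨h1.aestronglyMeasurable, C, fun x => by rw [Real.norm_eq_abs]; exact hC x⟩

/-- **the norm of `IsHub.nWw` on one chain** is at most the sum of the norms of the radius integrals over the dyads which cover the window -/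
theorem bud_ry_NW_le (hX : X.Ok) (hF : F.Ok X) (Q : BdQ F X) (g : ℝ) (hm : 0 < F.m) (hbc : IsClock 1 (Q.bq g)) (hhc : IsClock 1 (Q.hq g))
    (Fs : Finset GhPos) {a b : ℝ} (ha : 0 < a) (hab : a ≤ b) (hb : b < 1) {l : ℕ} (hl : 1 ≤ l) (k : ℕ) (hk : b ≤ 2 ^ k * a) :
    bcsNW F.m (Q.bq g) (Q.hq g) l (budRyK Q a b) Fs
      ≤ ∑ j ∈ Finset.range k, cmN (Q.rxM g (ghPs 1 Fs)).P l
          (((Q.rxM g (ghPs 1 Fs)).re (Q.rxRad g (ghPs 1 Fs))).intg (Q.rxM g (ghPs 1 Fs)).W (2 ^ j * a) (2 * (2 ^ j * a))) := by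
  have hok := bcs_w_ok hm hbc hhc Fs
  have hprob := hok.prob
  have hL : (Q.rxM g (ghPs 1 Fs)).L = bcsLen Fs := bcs_w_len (Q.bq g) (Q.hq g) Fs
  obtain ⟨hκm, hκ0, hκb⟩ := bud_ry_wt hX hF Q ha hab hb
  -- the radius integrals in the vocabulary of L08
  have eG : ∀ (t1 t2 : ℝ) (ω : SkOm F.m), ((Q.rxM g (ghPs 1 Fs)).re (Q.rxRad g (ghPs 1 Fs))).intg (Q.rxM g (ghPs 1 Fs)).W t1 t2 ω
      = ∑ i ∈ Finset.range (bcsLen Fs + 1), ((Q.rxM g (ghPs 1 Fs)).re (Q.rxRad g (ghPs 1 Fs))).ov i t1 t2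
          * (bcsSP F.m (Q.bq g) (Q.hq g) Fs).W i ω := by
    intro t1 t2 ω
    unfold CmPath.intg
    have hL' : ((Q.rxM g (ghPs 1 Fs)).re (Q.rxRad g (ghPs 1 Fs))).L = bcsLen Fs := hL
    rw [hL']
    refine Finset.sum_congr rfl fun i _ => ?_
    have : (Q.rxM g (ghPs 1 Fs)).W i ω = (bcsSP F.m (Q.bq g) (Q.hq g) Fs).W i ω :=
      cm5_l8_W (bcsSP F.m (Q.bq g) (Q.hq g) Fs) hok i ω
    rw [this]
  have hGbd : ∀ t1 t2 : ℝ, L8Bd (((Q.rxM g (ghPs 1 Fs)).re (Q.rxRad g (ghPs 1 Fs))).intg (Q.rxM g (ghPs 1 Fs)).W t1 t2) := by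
    intro t1 t2
    have : ((Q.rxM g (ghPs 1 Fs)).re (Q.rxRad g (ghPs 1 Fs))).intg (Q.rxM g (ghPs 1 Fs)).W t1 t2
        = fun ω => ∑ i ∈ Finset.range (bcsLen Fs + 1), ((Q.rxM g (ghPs 1 Fs)).re (Q.rxRad g (ghPs 1 Fs))).ov i t1 t2
          * (bcsSP F.m (Q.bq g) (Q.hq g) Fs).W i ω := funext (eG t1 t2)
    rw [this]
    exact l8k_bd_sum _ fun i _ => l8k_bd_const_mul _ ((bcsSP F.m (Q.bq g) (Q.hq g) Fs).l8s_W_bd hok i)
  have hW0 : ∀ i ω, 0 ≤ (bcsSP F.m (Q.bq g) (Q.hq g) Fs).W i ω := fun i ω => (bcsSP F.m (Q.bq g) (Q.hq g) Fs).l8s_W_nonneg hok i ω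
  -- pointwise comparison
  have hpt : ∀ ω, 0 ≤ ∑ i ∈ Finset.range (bcsLen Fs + 1), bcsRho (budRyK Q a b) Fs i * (bcsSP F.m (Q.bq g) (Q.hq g) Fs).W i ω ∧
      ∑ i ∈ Finset.range (bcsLen Fs + 1), bcsRho (budRyK Q a b) Fs i * (bcsSP F.m (Q.bq g) (Q.hq g) Fs).W i ω
        ≤ ∑ j ∈ Finset.range k, ((Q.rxM g (ghPs 1 Fs)).re (Q.rxRad g (ghPs 1 Fs))).intg (Q.rxM g (ghPs 1 Fs)).W (2 ^ j * a) (2 * (2 ^ j * a)) ω := by
    intro ω
    constructor
    · exact Finset.sum_nonneg fun i _ => mul_nonneg (bcs_w_rho_nonneg_aux Fs hκ0 i) (hW0 i ω)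
    · simp only [eG]
      rw [Finset.sum_comm]
      refine Finset.sum_le_sum fun i hi => ?_
      rw [← Finset.sum_mul]
      refine mul_le_mul_of_nonneg_right ?_ (hW0 i ω)
      exact (bud_ry_rho_le hX hF Q g hm hbc hhc Fs ha hab hb (Nat.lt_succ_iff.1 (Finset.mem_range.1 hi))).trans
        (bud_ry_ov_dyad _ i ha k hk)
  have hSbd : L8Bd fun ω => ∑ j ∈ Finset.range k,
      ((Q.rxM g (ghPs 1 Fs)).re (Q.rxRad g (ghPs 1 Fs))).intg (Q.rxM g (ghPs 1 Fs)).W (2 ^ j * a) (2 * (2 ^ j * a)) ω :=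
    l8k_bd_sum _ fun j _ => hGbd _ _
  have hRbd : L8Bd fun ω => ∑ i ∈ Finset.range (bcsLen Fs + 1), bcsRho (budRyK Q a b) Fs i * (bcsSP F.m (Q.bq g) (Q.hq g) Fs).W i ω :=
    l8k_bd_sum _ fun i _ => l8k_bd_const_mul _ ((bcsSP F.m (Q.bq g) (Q.hq g) Fs).l8s_W_bd hok i)
  obtain ⟨n0, e1⟩ := bcs_w_NW hm hbc hhc Fs hκm ⟨_, hκb⟩ hκ0 l hl
  have e2 := cmN_pow_eq (μ := (bcsSP F.m (Q.bq g) (Q.hq g) Fs).μ) (bud_ry_bm hSbd) l hl
  have h3 : bcsNW F.m (Q.bq g) (Q.hq g) l (budRyK Q a b) Fs ^ l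
      ≤ cmN (bcsSP F.m (Q.bq g) (Q.hq g) Fs).μ l (fun ω => ∑ j ∈ Finset.range k,
        ((Q.rxM g (ghPs 1 Fs)).re (Q.rxRad g (ghPs 1 Fs))).intg (Q.rxM g (ghPs 1 Fs)).W (2 ^ j * a) (2 * (2 ^ j * a)) ω) ^ l := by
    rw [e1, e2]
    unfold bcsMW
    refine integral_mono (l8k_bd_integrable (l8k_bd_pow hRbd l) _) (l8k_bd_integrable (l8k_bd_pow (l8k_bd_abs hSbd) l) _) fun ω => ?_
    show _ ≤ ‖_‖ ^ l
    rw [Real.norm_eq_abs]
    exact pow_le_pow_left₀ (hpt ω).1 ((hpt ω).2.trans (le_abs_self _)) l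
  exact ((pow_le_pow_iff_left₀ n0 (cmN_nonneg _ _ _) (by omega)).1 h3).trans
    (cmN_sum_le _ _ (fun j _ => bud_ry_bm (hGbd _ _)) l hl)

end chain

/-! ## 4. the exit -/

section exit
variable {X : BdFix} {W : BdWorld} {Fam : BdFr → Prop} {K : BcsK}

theorem bud_ry_m_pos {I : BcsIn X} (hI : I.Cls W Fam K) : 0 < I.F.m := by
  have h1 := hI.ok.N2
  have h2 := hI.ok.m_lo
  have h3 : (2 : ℝ) ≤ I.F.N := by exact_mod_cast h1
  have h4 : (0 : ℝ) < I.F.m := by linarith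
  exact_mod_cast h4

/-- **(C9)** in the form consumed by Lemma 7.6 (`Bud/StarLp`): `Kr = 4C/c`; the window `[c Ka W/2, 3 C Ka W]` is covered by `k` dyads, `6C/c < 2^k`; the removal is constant there.
TEX[LL:bud:outer-moments] -/
theorem bud_rx_bcsc9 (hX : X.Ok) (hW : W.IsHub) (hK : K.Ok) : BcsC9 W (BcsIn.Cls (X := X) · W Fam K) K := by
  have hc := hK.c0
  have hc1 := hK.c1
  have hC1 := hK.C1
  have hC : 0 < K.C := lt_of_lt_of_le one_pos hC1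
  obtain ⟨k, hk⟩ := pow_unbounded_of_one_lt (6 * K.C / K.c) (one_lt_two : (1 : ℝ) < 2)
  refine ⟨4 * K.C / K.c, by rw [le_div_iff₀ hc]; linarith, fun Ka hKa l hl ε hε => ?_⟩
  obtain ⟨Cc, N1, hCc, h9⟩ := bud_rx_c9 hX hc hC1 hl hε
  have hcKa : 4 * K.C ≤ K.c * Ka := by
    rw [div_le_iff₀ hc] at hKa; linarith
  have hKa0 : 0 < Ka := by
    by_contra hneg
    have : K.c * Ka ≤ 0 := mul_nonpos_of_nonneg_of_nonpos hc.le (not_lt.1 hneg)
    linarith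
  obtain ⟨N2, hsc⟩ := bcs_num_scale X hX K.cs K.i0 (max 1 (3 * 2 ^ k * (K.c * Ka) + 8 * K.C)) hK.cs0 hK.i00 (le_max_left _ _)
  refine ⟨k * Cc + 1, max N1 N2, by positivity, fun I hI hN => ?_⟩
  have n1 : N1 ≤ I.F.N := (le_max_left _ _).trans hN
  have sc := hsc I.F hI.ok ((le_max_right _ _).trans hN) I.w hI.w_lo hI.strong
  have hw0 := sc.w0
  have hwW : I.w ≤ I.Ws := sc.wW
  have hW0 : 0 < I.Ws := hw0.trans_le hwW
  have hx0 := sc.x0
  have hC00 := sc.C00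
  have h2k : (0 : ℝ) < 2 ^ k := by positivity
  have hKbW : (3 * 2 ^ k * (K.c * Ka) + 8 * K.C) * I.Ws ≤ max 1 (3 * 2 ^ k * (K.c * Ka) + 8 * K.C) * I.Ws :=
    mul_le_mul_of_nonneg_right (le_max_right _ _) hW0.le
  have hW1 : max 1 (3 * 2 ^ k * (K.c * Ka) + 8 * K.C) * I.Ws ≤ 1 / 4 := sc.W1
  have hroom : max 1 (3 * 2 ^ k * (K.c * Ka) + 8 * K.C) * I.Ws ≤ X.cd ^ 3 * I.F.u := by
    have h1 := sc.room
    have h2 : 0 ≤ max 1 (3 * 2 ^ k * (K.c * Ka) + 8 * K.C) / I.F.Mj :=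
      div_nonneg (zero_le_one.trans (le_max_left _ _)) sc.Mj0.le
    have h3 := min_le_left (X.cd ^ 3 * I.F.u) 1
    have h4 : max 1 (3 * 2 ^ k * (K.c * Ka) + 8 * K.C) * I.Ws + max 1 (3 * 2 ^ k * (K.c * Ka) + 8 * K.C) / I.F.Mj
        ≤ min (X.cd ^ 3 * I.F.u) 1 := h1
    linarith
  obtain ⟨a, hadef⟩ : ∃ a, a = K.c * Ka * I.Ws / 2 := ⟨_, rfl⟩
  obtain ⟨b, hbdef⟩ : ∃ b, b = 3 * K.C * Ka * I.Ws := ⟨_, rfl⟩
  have ha0 : 0 < a := by rw [hadef]; positivity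
  have hba : b = 6 * K.C / K.c * a := by rw [hadef, hbdef]; field_simp; ring
  have hbk : b ≤ 2 ^ k * a := by rw [hba]; exact mul_le_mul_of_nonneg_right hk.le ha0.le
  have hab : a ≤ b := by
    rw [hba]
    refine le_mul_of_one_le_left ha0.le ?_
    rw [le_div_iff₀ hc]; linarith
  have hCW : 0 < K.C * I.Ws := by positivity
  have hka : 6 * (2 ^ k * a) ≤ (3 * 2 ^ k * (K.c * Ka) + 8 * K.C) * I.Ws := by
    rw [hadef]; nlinarith
  have hb1 : b < 1 := by linarith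
  have h2Cw : 2 * K.C * I.w ≤ a := by
    rw [hadef]
    have h1 : 2 * K.C * I.w ≤ 2 * K.C * I.Ws := mul_le_mul_of_nonneg_left hwW (by positivity)
    have h2 : 4 * K.C * I.Ws ≤ K.c * Ka * I.Ws := mul_le_mul_of_nonneg_right hcKa hW0.le
    linarith
  have h8w : 8 * K.C * I.w ≤ 1 := by
    have h1 : 8 * K.C * I.w ≤ 8 * K.C * I.Ws := mul_le_mul_of_nonneg_left hwW (by positivity)
    have h2 : 0 ≤ 3 * 2 ^ k * (K.c * Ka) * I.Ws := by positivity
    nlinarith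
  have hev := h9 W hW I.F I.g I.Q I.w I.c0 (bud_rx_of_cls hI) n1 h8w
  have hm := bud_ry_m_pos hI
  obtain ⟨hκm, hκ0, hκb⟩ := bud_ry_wt hX hI.ok I.Q ha0 hab hb1
  have hl1 : (1 : ℝ) ≤ l := by exact_mod_cast hl
  have B := bcs_w_bdd hm hI.clkb hI.clkh hκm hκb l hl1
  show W.nWw I.F.m (I.Q.bq I.g) (I.Q.hq I.g) (l : ℝ) (budRyK I.Q (K.c * Ka * I.Ws / 2) (3 * K.C * Ka * I.Ws)) ≤ _
  rw [← hadef, ← hbdef, hW.nWw _ _ _ hI.clkb hI.clkh]
  show limsup (bcsNW I.F.m (I.Q.bq I.g) (I.Q.hq I.g) l (budRyK I.Q a b)) atTop ≤ _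
  refine Filter.limsup_le_of_le (isCoboundedUnder_le_of_le atTop fun Fs => (B Fs).2.1) (Filter.Eventually.mono hev fun Fs hFs => ?_)
  refine (bud_ry_NW_le hX hI.ok I.Q I.g hm hI.clkb hI.clkh Fs ha0 hab hb1 hl k hbk).trans ?_
  have hy : 0 < I.F.x ^ (-ε) * (I.F.x ^ 6 / I.F.C0) := by
    have := Real.rpow_pos_of_pos hx0 (-ε)
    positivity
  have hterm : ∀ j ∈ Finset.range k, cmN (I.Q.rxM I.g (ghPs 1 Fs)).P l
      (((I.Q.rxM I.g (ghPs 1 Fs)).re (I.Q.rxRad I.g (ghPs 1 Fs))).intg (I.Q.rxM I.g (ghPs 1 Fs)).W (2 ^ j * a) (2 * (2 ^ j * a)))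
        ≤ Cc * I.F.x ^ (-ε) * (I.F.x ^ 6 / I.F.C0) := by
    intro j hj
    have hj' : j ≤ k := (Finset.mem_range.1 hj).le
    have hz1 : a ≤ 2 ^ j * a := le_mul_of_one_le_left ha0.le (one_le_pow₀ (by norm_num))
    have hz2 : 2 ^ j * a ≤ 2 ^ k * a := mul_le_mul_of_nonneg_right (pow_le_pow_right₀ (by norm_num) hj') ha0.le
    have hz0 : 0 < 2 ^ j * a := by positivity
    have h1 := hFs (2 ^ j * a) (h2Cw.trans hz1) (by linarith)
    have hsg : budRxSg I.F X (3 * (2 ^ j * a)) = I.F.C0 := by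
      unfold budRxSg
      rw [min_eq_left, mul_one]
      rw [le_div_iff₀ (by positivity)]
      linarith
    rwa [hsg] at h1
  calc _ ≤ ∑ _j ∈ Finset.range k, Cc * I.F.x ^ (-ε) * (I.F.x ^ 6 / I.F.C0) := Finset.sum_le_sum hterm
    _ = k * Cc * (I.F.x ^ (-ε) * (I.F.x ^ 6 / I.F.C0)) := by
        rw [Finset.sum_const, Finset.card_range, nsmul_eq_mul]; ring
    _ ≤ (k * Cc + 1) * (I.F.x ^ (-ε) * (I.F.x ^ 6 / I.F.C0)) := by
        refine mul_le_mul_of_nonneg_right (by linarith) hy.le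
    _ = _ := by ring

end exit

end

end Claimed.Agent.R286
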