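import Claimed.Agent.R286.Bud.Inst
import Claimed.Agent.R286.Bud.L07Cc
import Claimed.Agent.R286.Bud.L07Cd
import Claimed.Agent.R286.Bud.L07Wc
import Claimed.Agent.R286.Exit.P6Tm
import Claimed.Agent.R286.Exit.BcpInst
import Claimed.Agent.R286.Bud.RawC9

/-!
# Row 286 (S0533), LL sec. 7, PART A (l.126-1150): THE INSTANCE OF (C7)      (owner helper19 = instance glue of part A; head of L07 helper286; section head helper162; prefix `bia_`, leaves `bi7_*`)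

TOP FILE of part A: it imports `Bud/Inst` (family `BiFam`, fixed data `BiFix`, `bi_std`, `bi7_p9`) AND the exits of the units N5-N9, and PROVES `bi_sin`, `bi_c7` (consumer: `Exit/Bud`).
The END of the section "imports of (C7)" of `Bud/Inst.lean` (helper12): `bi7_rc bi7_sup bi7_weak bi7_c7b bi7_in bi7_const bi_sin bi_c7` was MOVED here (statements unchanged): the proofs of the leaves need files which import `Bud/Inst` (`Exit/BudLL`) or which `Bud/Inst` does not import.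

| leaf       | Prop on `skWorld`, `BiFam Fx X N1` | state                                                                                     |
| `bi7_p9`   | `Bd7P9`                            | PROVED (12), stays in `Bud/Inst`                                                          |
| `bi7_raw`  | `Bd7Raw`, all `0 < cL ≤ CL`        | PROVED glue (32)  `bud_rx_bd7raw` (7, `Bud/RawExit`), stays in `Bud/Inst` (used by `bi_hpin`) |
| `bi7_band` | `Bd7Band`                          | PROVED glue (190)  `bcs_x_band_all` (`Bud/StarX`), stays in `Bud/Inst`                    |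
| `bi7_rc`   | `Bd7CRc`                           | PROVED  (`LlSec3.equi`, `.adm` of 253; `bcs_hc_r`, `cm_e_cont`)                           |
| `bi7_gam`  | `Bd7CGam`                          | PROVED (32; also `bd7ca_gam` of 76), stays in `Bud/Inst`                                  |
| `bi7_sup`  | `Bd7CSup`                          | PROVED glue  `bd7cc_sup` (33, `Bud/L07Cc`) over the TWO N5 DEBTS below                    |
| `bi7_weak` | `Bd7Weak`, constants before `X`    | owner 129 / 286: `exit_bcp_weak` (`Exit/BcpAll`) + `bi7_wbase`                            |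
| `bi7_c7b`  | `Bd7C7a → Bd7C7b`                  | PROVED (286): `exit_bi7_c7b` (`Exit/BcpInst`) = `exit_bcp_c7b` (`Exit/BcpAll`) + `bip_p2` (95, `Exit/BudLL`) + `bi7_wbase` |

THE TWO N5 DEBTS (Lemma 7.4 beyond (C8), (16); abstract Hub level; they enter through Lemma 7.6 only: `bud_star_n5` of 190; NO producer before this file):
* `bia_c9  : BcsC9`    (C9) on the regular radius window, PATH level (`nWr`)  ⟸ `bud_rx_c9` (7; step level, fine chains) + dictionary `CmPath.intg` ↔ `bcsMW` + limsup.      DONE (helper190): `bud_rx_bcsc9` (`Bud/RawC9.lean`, 0 sorry)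
* `bia_res : BcsRes`   resampled residual with a short first projection interval (l.243-245, l.530-532).      DONE twice: `bd7cd_bcsres` (helper33, `Bud/L07Cd.lean`, 0 sorry; cited here) = `bud_rx_bcsres` (helper7, `Bud/RawExit2.lean`)
When these two files land: import them here and replace the two `sorry` by the exits.
-/

set_option autoImplicit false

namespace Claimed.Agent.R286

open MeasureTheory Set Filter Topology

noncomputable section

/-! ## 1. Producers over the Hub (any family) -/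

section hub

variable {X : BdFix} {W : BdWorld} {Fam : BdFr → Prop}

/-- **N5 DEBT 1: (C9) at path level** on the regular radius window `[c Ka W/2, 3 C Ka W]` (ask of helper190, `Bud/StarLp`).      TEX[LL:bud:outer-moments] l.241-243
PLAN: `bud_rx_of_cls`; `bud_rx_c9` (7; step level, ALL radius windows `[z,2z]`, `2Cw ≤ z ≤ 1/4`, on fine chains) summed over the `O(log(6 C/c))` dyadic windows which cover `[c Ka W/2, 3 C Ka W]`
(`Kr` so large that `c Kr W/2 ≥ 2 C w`; `W → 0`: `bcs_num_scale`), `sg(3z) ≥ c' C0` there (constant region: `3 z ≤ c_d³ u`), then the limit along the chains in the definition of `nWr` (`Bud/Mom`, 198). -/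
theorem bia_c9 (hX : X.Ok) (hW : W.IsHub) {K : BcsK} (hK : K.Ok) : BcsC9 W (BcsIn.Cls (X := X) · W Fam K) K :=
  bud_rx_bcsc9 hX hW hK

/-- **N5 DEBT 2: the resampled residual with a short first projection interval** (ask of helper190, `Bud/StarLp`).      TEX[LL:bud:outer-moments] l.243-245, l.530-532
PLAN: (A3) on `[v, vc]` (mass `≍ W`, field length `≥ C0 θ`: `bud_rx_slope`), anchor `‖X‖ ≲ √W` (`bud_rx_raw`), then the synchronized layers (`cm5_tbl_pf` of 247/38 at `bud_rx_clk5`), dictionary `ckm_*`. -/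
theorem bia_res (hX : X.Ok) (hW : W.IsHub) {K : BcsK} (hK : K.Ok) : BcsRes W (BcsIn.Cls (X := X) · W Fam K) :=
  bd7cd_bcsres hX hW hK

/-- **`Bd7CRc`** from the right-continuity of the bare clocks: `r` is continuous (`bcs_hc_r`), `C(·)` is continuous (`cm_e_cont`) -/
theorem bia_rc_of (hX : X.Ok) {N0 : ℕ}
    (h : ∀ Fr, Fam Fr → N0 ≤ Fr.N → ∀ g ∈ X.G0, ∀ v ∈ Ioo (0 : ℝ) 1,
      ContinuousWithinAt (Fr.b g) (Ioi v) v ∧ ContinuousWithinAt (Fr.h g) (Ioi v) v) : Bd7CRc X W Fam := by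
  refine ⟨N0, fun i hi hN v hv => ?_⟩
  obtain ⟨h1, h2⟩ := h i.F hi.fam hN i.g hi.g_mem v hv
  have hr : ContinuousAt i.Q.r v := (bcs_hc_r hX hi.ok i.Q).2.continuousAt (Icc_mem_nhds hv.1 hv.2)
  have hC : ContinuousAt (fun v => i.F.C X (i.Q.r v)) v :=
    ContinuousAt.comp (g := i.F.C X) (cm_e_cont (i.F.call X) i.F.C0).continuousAt hr
  exact ⟨h1.sub hC.continuousWithinAt, h2.add (hC.mul hr).continuousWithinAt⟩

/-- right continuity from monotonicity and a one-sided modulus -/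
theorem bia_rc_aux {f : ℝ → ℝ} {v s : ℝ} (hs : v < s) (hm : ∀ v', v ≤ v' → v' < s → f v ≤ f v')
    (he : ∀ η : ℝ, 0 < η → ∃ δ : ℝ, 0 < δ ∧ ∀ v', v ≤ v' → v' < s → v' - v ≤ δ → f v' - f v ≤ η) :
    ContinuousWithinAt f (Ioi v) v := by
  rw [Metric.continuousWithinAt_iff]
  intro ε hε
  obtain ⟨δ, hδ, h⟩ := he (ε / 2) (by positivity)
  refine ⟨min δ (s - v), lt_min hδ (by linarith), fun v' hv' hd => ?_⟩
  have hv'' : v < v' := hv'
  rw [Real.dist_eq, abs_of_pos (by linarith)] at hd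
  have h1 : v' - v ≤ δ := hd.le.trans (min_le_left _ _)
  have h2 : v' < s := by have := hd.trans_le (min_le_right δ (s - v)); linarith
  rw [Real.dist_eq, abs_of_nonneg (by linarith [hm v' hv''.le h2])]
  linarith [h v' hv''.le h2 h1]

end hub

/-! ## 2. The instance: the imports of (C7) on the SK objects      (ONE leaf per field of `Bd7In`, `Bud/L07X.lean`; all of them for ALL loose constants `cL ≤ CL`) -/

section prod

variable {Fx : LlFix} {X : BdFix} {K : BdCst} {c C v0 sg Cu : ℝ}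

/-- the clocks of the frames are right-continuous on `(0,1)`   (`LlSec3.equi` of helper253: one modulus at fixed `N`; `h` jumps only at the mask, and it is right-continuous there) -/
theorem bia_rc_fr (h3 : LlSec3 llBase Fx) (hf : BiFix Fx X K c C v0 sg Cu) :
    ∃ N0 : ℕ, ∀ Fr, BtFam llBase Fx Fr → N0 ≤ Fr.N → ∀ g ∈ X.G0, ∀ v ∈ Ioo (0 : ℝ) 1,
      ContinuousWithinAt (Fr.b g) (Ioi v) v ∧ ContinuousWithinAt (Fr.h g) (Ioi v) v := by
  obtain ⟨Ne, he⟩ := h3.equi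
  obtain ⟨ca, Ca, -, Na, ha⟩ := h3.adm
  refine ⟨max Ne Na, fun Fr hF hN g hg v hv => ?_⟩
  obtain ⟨p, hd, hp, hs, -, hFe⟩ := hF
  have eN : Fr.N = p.N := congrArg BdFr.N hFe
  have eb : Fr.b g = fun u => p.ell ^ 2 * (p.loc hd g 0).b Fx llBase (p.ell * u) := congrFun (congrArg BdFr.b hFe) g
  have eh : Fr.h g = fun u => p.ell ^ 2 * (p.loc hd g 0).h Fx llBase (p.ell * u) := congrFun (congrArg BdFr.h hFe) g
  have hg4 : g ∈ Icc (-4 : ℝ) 4 := ⟨hf.g_lo.trans hg.1, hg.2.trans hf.g_hi⟩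
  have hp' := bi43_loc_ok hp hd hg4
  have hl : 0 < p.ell := lt_of_lt_of_le one_pos hp.ell1
  have ea : (p.loc hd g 0).a = p.ell := bi43_loc_a hs hd g 0
  have hNe : Ne ≤ p.N := by rw [← eN]; exact (le_max_left _ _).trans hN
  have hNa : Na ≤ p.N := by rw [← eN]; exact (le_max_right _ _).trans hN
  obtain ⟨mb, mh, -⟩ := ha _ hp' hNa
  rw [ea] at mb mh
  have hE := he p.N hNe
  have hl2 : 0 < p.ell ^ 2 := by positivity
  have hmem : ∀ u, v ≤ u → u < 1 → p.ell * u ∈ Icc 0 p.ell := fun u h1 h2 =>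
    ⟨mul_nonneg hl.le (hv.1.le.trans h1), by nlinarith⟩
  have hmul : ∀ u, v ≤ u → p.ell * v ≤ p.ell * u := fun u h1 => mul_le_mul_of_nonneg_left h1 hl.le
  -- the modulus, rescaled
  have hmod : ∀ η : ℝ, 0 < η → ∃ δ : ℝ, 0 < δ ∧ ∀ v', v ≤ v' → v' < 1 → v' - v ≤ δ →
      p.ell ^ 2 * (p.loc hd g 0).b Fx llBase (p.ell * v') - p.ell ^ 2 * (p.loc hd g 0).b Fx llBase (p.ell * v) ≤ η ∧
      ((p.ell * v' < p.x ∨ p.x ≤ p.ell * v) →
        p.ell ^ 2 * (p.loc hd g 0).h Fx llBase (p.ell * v') - p.ell ^ 2 * (p.loc hd g 0).h Fx llBase (p.ell * v) ≤ η) := by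
    intro η hη
    obtain ⟨δ, hδ, h⟩ := hE (η / p.ell ^ 2) (by positivity)
    refine ⟨δ / p.ell, by positivity, fun v' h1 h2 h4 => ?_⟩
    have h5 : p.ell * v' - p.ell * v ≤ δ := by
      rw [le_div_iff₀ hl] at h4
      linarith
    obtain ⟨-, -, k3, -, k5⟩ := h _ hp' rfl (p.ell * v) (p.ell * v') (hmem v le_rfl hv.2).1 (hmul v' h1)
      (by rw [ea]; exact (hmem v' h1 h2).2) h5
    have hsc : ∀ A B : ℝ, A - B ≤ η / p.ell ^ 2 → p.ell ^ 2 * A - p.ell ^ 2 * B ≤ η := by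
      intro A B hAB
      calc p.ell ^ 2 * A - p.ell ^ 2 * B = p.ell ^ 2 * (A - B) := by ring
        _ ≤ p.ell ^ 2 * (η / p.ell ^ 2) := mul_le_mul_of_nonneg_left hAB hl2.le
        _ = η := by field_simp
    exact ⟨hsc _ _ k3, fun hx => hsc _ _ (k5 hx)⟩
  rw [eb, eh]
  constructor
  · refine bia_rc_aux hv.2 (fun v' h1 h2 => ?_) (fun η hη => ?_)
    · exact mul_le_mul_of_nonneg_left (mb (hmem v le_rfl hv.2) (hmem v' h1 h2) (hmul v' h1)) hl2.le
    · obtain ⟨δ, hδ, h⟩ := hmod η hη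
      exact ⟨δ, hδ, fun v' h1 h2 h4 => (h v' h1 h2 h4).1⟩
  · rcases le_or_gt p.x (p.ell * v) with hx | hx
    · refine bia_rc_aux hv.2 (fun v' h1 h2 => ?_) (fun η hη => ?_)
      · exact mul_le_mul_of_nonneg_left (mh (hmem v le_rfl hv.2) (hmem v' h1 h2) (hmul v' h1)) hl2.le
      · obtain ⟨δ, hδ, h⟩ := hmod η hη
        exact ⟨δ, hδ, fun v' h1 h2 h4 => (h v' h1 h2 h4).2 (Or.inr hx)⟩
    · have hvs : v < min 1 (p.x / p.ell) := lt_min hv.2 (by rw [lt_div_iff₀ hl]; linarith)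
      refine bia_rc_aux hvs (fun v' h1 h2 => ?_) (fun η hη => ?_)
      · have h2' : v' < 1 := h2.trans_le (min_le_left _ _)
        exact mul_le_mul_of_nonneg_left (mh (hmem v le_rfl hv.2) (hmem v' h1 h2') (hmul v' h1)) hl2.le
      · obtain ⟨δ, hδ, h⟩ := hmod η hη
        refine ⟨δ, hδ, fun v' h1 h2 h4 => (h v' h1 (h2.trans_le (min_le_left _ _)) h4).2 (Or.inl ?_)⟩
        have := h2.trans_le (min_le_right _ _)
        rw [lt_div_iff₀ hl] at this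
        linarith

/-- what every unit of part A asks from the instance: `BdStd`, `BcsBase`, `Bd7P9`, `Bd7Adm (T+2)`, the lower end of the patches -/
theorem bia_base (h3 : LlSec3 llBase Fx) (hr : LlRef llBase Fx c C v0) (hf : BiFix Fx X K c C v0 sg Cu) :
    ∃ N0 : ℕ, ∀ N1, N0 ≤ N1 → BdStd X skWorld (BiFam Fx X N1) K ∧ BcsBase X skWorld (BiFam Fx X N1) ∧ Bd7P9 X (BiFam Fx X N1) ∧
      Bd7Adm X skWorld (BiFam Fx X N1) (X.T + 2) ∧ 0 < X.plo 0 ∧ ∀ F, BiFam Fx X N1 F → X.plo 0 ≤ F.Ilo := by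
  obtain ⟨n1, a1⟩ := bi_std h3 hr hf
  obtain ⟨n2, a2⟩ := bi7_p9 h3 hf
  refine ⟨max n1 n2, fun N1 hN => ?_⟩
  obtain ⟨hS, -, hB⟩ := a1 N1 ((le_max_left _ _).trans hN)
  have h9 := a2 N1 ((le_max_right _ _).trans hN)
  exact ⟨hS, fun F hF _ g hg => hB F hF g hg, h9, bd7_adm_of_std hS h9, (hf.ok.pat 0 (by omega)).1, fun F hF => (hS.ok F hF).I3⟩

/-- the changed clocks are right-continuous -/
theorem bi7_rc (h3 : LlSec3 llBase Fx) (hr : LlRef llBase Fx c C v0) (hf : BiFix Fx X K c C v0 sg Cu) :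
    ∃ N0 : ℕ, ∀ N1, N0 ≤ N1 → Bd7CRc X skWorld (BiFam Fx X N1) := by
  obtain ⟨N0, h⟩ := bia_rc_fr h3 hf
  exact ⟨0, fun N1 _ => bia_rc_of hf.ok (N0 := N0) fun Fr hF hN => h Fr hF.1 hN⟩

/-- the supply of the cavity inputs (ledger (i)-(iii) of Prop. 7.7)      (= `bd7cc_sup`, helper33, `Bud/L07Cc`) -/
theorem bi7_sup (h3 : LlSec3 llBase Fx) (hr : LlRef llBase Fx c C v0) (hf : BiFix Fx X K c C v0 sg Cu) :
    ∃ N0 : ℕ, ∀ N1, N0 ≤ N1 → ∀ cL CL : ℝ, 0 < cL → cL ≤ CL → Bd7CSup X skWorld (BiFam Fx X N1) cL CL := by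
  obtain ⟨N0, h⟩ := bia_base h3 hr hf
  refine ⟨N0, fun N1 hN cL CL hc _ => ?_⟩
  obtain ⟨-, hb, h9, hadm, hi0, hilo⟩ := h N1 hN
  exact bd7cc_sup hf.ok skWorld_isHub hc hi0 hb hadm hilo h9 (fun _ hK => bia_c9 hf.ok skWorld_isHub hK)
    (fun _ hK => bia_res hf.ok skWorld_isHub hK)

/-- **the fixed all-mass matrix margin** of the bare clocks of the frames (also below the mask), fixed BEFORE `X`      [(P3): `LlSec3.adm`] -/
theorem bi7_marg (h3 : LlSec3 llBase Fx) :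
    ∃ β0 : ℝ, 0 < β0 ∧ ∀ (X : BdFix) (K : BdCst) (sg Cu : ℝ), BiFix Fx X K c C v0 sg Cu →
      ∃ N0 : ℕ, ∀ Fr, BiFam Fx X N0 Fr → ∀ g ∈ X.G0,
        IsClock 1 (Fr.b g) ∧ IsClock 1 (Fr.h g) ∧ ∀ v ∈ Ioo (0 : ℝ) 1, β0 ≤ Fr.b g v := by
  obtain ⟨ca, Ca, hca, Nb, hb⟩ := h3.adm
  refine ⟨ca, hca, fun X K sg Cu hf => ⟨Nb, fun Fr hF g hg => ?_⟩⟩
  obtain ⟨hFam, hO, hN⟩ := hF
  obtain ⟨p, hd, hp, hs, hdy, eN, el, eu, eell, eK, eq, ed, eb, eh, ecu⟩ := bi43_unf hFam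
  have hNb : Nb ≤ p.N := by rw [← eN]; exact hN
  obtain ⟨mb, mh, -, -, -, bd, -, -⟩ :=
    hb (p.loc hd g 0) (bi43_loc_ok hp hd ⟨hf.g_lo.trans hg.1, hg.2.trans hf.g_hi⟩) hNb
  rw [bi43_loc_a hs] at mb mh bd
  have hl0 : 0 < p.ell := by linarith [hp.ell1]
  refine ⟨?_, ?_, ?_⟩
  · rw [eb]; exact bi43_clock hl0 mb fun v hv => hca.le.trans (bd v hv).1
  · rw [eh]; exact bi43_clock hl0 mh fun v hv => (bd v hv).2.2.1
  · intro v hv
    have hm : p.ell * v ∈ Icc 0 p.ell := ⟨mul_nonneg hl0.le hv.1.le, by nlinarith [hv.2]⟩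
    have h3' : ca ≤ (p.loc hd g 0).b Fx llBase (p.ell * v) := (bd _ hm).1
    have h4 : (p.loc hd g 0).b Fx llBase (p.ell * v) ≤ p.ell ^ 2 * (p.loc hd g 0).b Fx llBase (p.ell * v) := by
      have : 1 ≤ p.ell ^ 2 := one_le_pow₀ hp.ell1
      exact le_mul_of_one_le_left (hca.le.trans h3') this
    rw [eb]
    exact h3'.trans h4

/-- **PRODUCER of `Bd7WBase`** on the SK objects: margin `β0` fixed before `X`, bound `Kb = T + 2` -/
theorem bi7_wbase (h3 : LlSec3 llBase Fx) :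
    ∃ β0 : ℝ, 0 < β0 ∧ ∀ (X : BdFix) (K : BdCst) (sg Cu : ℝ), BiFix Fx X K c C v0 sg Cu →
      ∃ N0 : ℕ, ∀ N1, N0 ≤ N1 → Bd7WBase X (BiFam Fx X N1) β0 (Fx.T + 2) := by
  obtain ⟨β0, hβ0, hm⟩ := bi7_marg (c := c) (C := C) (v0 := v0) h3
  refine ⟨β0, hβ0, fun X K sg Cu hf => ?_⟩
  obtain ⟨Na, ha⟩ := hm X K sg Cu hf
  obtain ⟨Nb, hb⟩ := bi7_p9 h3 hf
  refine ⟨max Na Nb, fun N1 hN => ?_⟩
  rw [← hf.tie.T]
  exact bd7w_base_of hf.ok (hb N1 ((le_max_right _ _).trans hN))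
    ⟨0, fun F hF _ _ g hg => ha F (bi_fam_mono ((le_max_left _ _).trans hN) hF) g hg⟩

/-- Step 1 (`bcp_weak`, `Bud/Cp.lean`): `c0 = p6Lo Cκ cT`, `C0 = p6Hi cκ CT`, fixed BEFORE `X` (they depend on `T` and on the bound of the clocks only: NOT on `X.mPE`).
PROVED (129) = `bd7w_weak_fin` (`Bud/L07Wc`) + `bi7_wbase` + `exit_p6tm_sk_cf` (252) -/
theorem bi7_weak (h3 : LlSec3 llBase Fx) (hr : LlRef llBase Fx c C v0) :
    ∃ c0 C0 : ℝ, 0 < c0 ∧ c0 ≤ C0 ∧ ∀ (X : BdFix) (K : BdCst) (sg Cu : ℝ), BiFix Fx X K c C v0 sg Cu →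
      ∃ N0 : ℕ, ∀ N1, N0 ≤ N1 → ∀ cL CL : ℝ, 0 < cL → cL < c0 → C0 < CL → Bd7Weak X skWorld (BiFam Fx X N1) cL CL := by
  have hT : 1 < Fx.T := h3.ok.T1
  obtain ⟨β0, hβ0, hW⟩ := bi7_wbase (c := c) (C := C) (v0 := v0) h3
  obtain ⟨cκ, Cκ, cT, CT, hPE⟩ := exit_p6tm_sk_cf Fx.T (Fx.T + 2 + 4) hT (by linarith)
  have hKb : (0 : ℝ) ≤ Fx.T + 2 := by linarith
  -- a dummy record, for the ranges of the constants
  have hP0 := (hPE (bd7wC (1 / 100) Fx.T (Fx.T + 2)) (bd7w_C_ok (by norm_num) le_rfl hT hKb) rfl rfl).1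
  refine ⟨p6Lo Cκ cT, p6Hi cκ CT, p6Lo_pos hP0.imp.κ_rng hP0.imp.T_rng, p6Lo_lt_Hi.le, fun X K sg Cu hf => ?_⟩
  obtain ⟨Na, ha⟩ := hW X K sg Cu hf
  obtain ⟨Nb, hb⟩ := bi7_p9 h3 hf
  obtain ⟨Nc, hc⟩ := bi_std h3 hr hf
  refine ⟨max Na (max Nb Nc), fun N1 hN cL CL h1 h2 h3' => ?_⟩
  have hX := hf.ok
  have eT : X.T = Fx.T := hf.tie.T
  obtain ⟨e1, e2, e3, e4⟩ := bd7w_exp hX
  have hok : (bd7wC X.mPE X.T (Fx.T + 2)).Ok :=
    bd7w_C_ok hX.mPE_pos (by linarith [hX.zeta_pos, hX.pS_pos]) hX.T1 hKb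
  have hP := (hPE (bd7wC X.mPE X.T (Fx.T + 2)) hok eT rfl).1
  exact bd7w_weak_fin hX hβ0 hKb (ha N1 ((le_max_left _ _).trans hN)) (hb N1 (((le_max_left _ _).trans (le_max_right _ _)).trans hN))
    (hc N1 (((le_max_right _ _).trans (le_max_right _ _)).trans hN)).2.2 hP cL CL h1 h2.le h3'.le

/-- Step 3 (`bcp_C7b`, `Bud/Cp.lean`).      OWNER helper286 -/
theorem bi7_c7b (h3 : LlSec3 llBase Fx) (hr : LlRef llBase Fx c C v0) (hf : BiFix Fx X K c C v0 sg Cu) :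
    ∃ N0 : ℕ, ∀ N1, N0 ≤ N1 → ∀ cL CL : ℝ, 0 < cL → cL ≤ CL →
      Bd7C7a X skWorld (BiFam Fx X N1) cL CL → Bd7C7b X skWorld (BiFam Fx X N1) := by
  obtain ⟨β0, hβ0, hw⟩ := bi7_wbase (c := c) (C := C) (v0 := v0) h3
  exact exit_bi7_c7b h3 hr hf hβ0 (hw X K sg Cu hf) (bi7_p9 h3 hf)

/-- **PRODUCER of `Bd7In`** = all the imports of (C7) on the SK objects -/
theorem bi7_in (h3 : LlSec3 llBase Fx) (hr : LlRef llBase Fx c C v0) (hf : BiFix Fx X K c C v0 sg Cu) {c0 C0 : ℝ}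
    (hw : ∃ N0 : ℕ, ∀ N1, N0 ≤ N1 → ∀ cL CL : ℝ, 0 < cL → cL < c0 → C0 < CL → Bd7Weak X skWorld (BiFam Fx X N1) cL CL) :
    ∃ N0 : ℕ, ∀ N1, N0 ≤ N1 → Bd7In X skWorld (BiFam Fx X N1) K c0 C0 := by
  obtain ⟨n1, a1⟩ := bi_std h3 hr hf
  obtain ⟨n2, a2⟩ := bi7_p9 h3 hf
  obtain ⟨n3, a3⟩ := bi7_raw h3 hr hf
  obtain ⟨n4, a4⟩ := bi7_band h3 hr hf
  obtain ⟨n5, a5⟩ := bi7_rc h3 hr hf
  obtain ⟨n6, a6⟩ := bi7_gam h3 hr hf
  obtain ⟨n7, a7⟩ := bi7_sup h3 hr hf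
  obtain ⟨n8, a8⟩ := hw
  obtain ⟨n9, a9⟩ := bi7_c7b h3 hr hf
  refine ⟨n1 + n2 + n3 + n4 + n5 + n6 + n7 + n8 + n9, fun N1 hN => ?_⟩
  exact
    { std := (a1 N1 (by omega)).1
      hub := skWorld_isHub
      base := (a1 N1 (by omega)).2.2
      p9 := a2 N1 (by omega)
      raw := a3 N1 (by omega)
      band := a4 N1 (by omega)
      rc := a5 N1 (by omega)
      gam := a6 N1 (by omega)
      sup := a7 N1 (by omega)
      weak := a8 N1 (by omega)
      c7b := a9 N1 (by omega) }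

/-- **the constants of (C7)**, fixed BEFORE `X` -/
theorem bi7_const (h3 : LlSec3 llBase Fx) (hr : LlRef llBase Fx c C v0) :
    ∃ (Sc : Bd7Sc) (k : Bd7ScC) (c0 C0 cL CL : ℝ), Bd7KOk Fx.T skWorld Sc k ∧ Bd7Loose Fx.T k c0 C0 cL CL ∧
      ∀ (X : BdFix) (K : BdCst) (sg Cu : ℝ), BiFix Fx X K c C v0 sg Cu →
        ∃ N0 : ℕ, ∀ N1, N0 ≤ N1 → Bd7In X skWorld (BiFam Fx X N1) K c0 C0 := by
  obtain ⟨Sc, k, hk⟩ := bd7_k_ex skWorld_isHub h3.ok.T1
  obtain ⟨c0, C0, b1, b2, hw⟩ := bi7_weak h3 hr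
  obtain ⟨cL, CL, hL⟩ := bd7_loose_ex h3.ok.T1 hk b1 b2
  exact ⟨Sc, k, c0, C0, cL, CL, hk, hL, fun X K sg Cu hf => bi7_in h3 hr hf (hw X K sg Cu hf)⟩

/-- **PRODUCER of `Bd7SIn`** (the imports of Step 2 of (C7)) on the SK objects; the scalar constants `k` and the loose constants `cL CL` are fixed BEFORE `X` (they depend on `T` and on the bound of the clocks only) -/
theorem bi_sin (h3 : LlSec3 llBase Fx) (hr : LlRef llBase Fx c C v0) :
    ∃ (Sc : Bd7Sc) (k : Bd7ScC) (Kb cL CL : ℝ), cL < 2 * k.c2 ^ 3 / (Fx.T * k.C4 ^ 2) ∧ 2 * k.C2 ^ 3 / (Fx.T * k.c4 ^ 2) < CL ∧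
      ∀ (X : BdFix) (K : BdCst) (sg Cu : ℝ), BiFix Fx X K c C v0 sg Cu →
        ∃ N0 : ℕ, ∀ N1, N0 ≤ N1 → Bd7SIn X skWorld (BiFam Fx X N1) Sc k Kb cL CL := by
  obtain ⟨Sc, k, c0, C0, cL, CL, hk, hL, h⟩ := bi7_const h3 hr
  refine ⟨Sc, k, Fx.T + 2, cL, CL, hL.lo2, hL.hi2, fun X K sg Cu hf => ?_⟩
  obtain ⟨N0, hN0⟩ := h X K sg Cu hf
  refine ⟨N0, fun N1 hN => ?_⟩
  have := bd7_sin_all (hN0 N1 hN) (hf.tie.T ▸ hk) cL CL hL.pos hL.le
  rwa [hf.tie.T] at this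

/-- N9: (C7), both halves.   The loose constants `cL CL` are fixed BEFORE `X` (N15 chooses `c_H` after them).      OWNER helper12 -/
theorem bi_c7 (h3 : LlSec3 llBase Fx) (hr : LlRef llBase Fx c C v0) :
    ∃ cL CL : ℝ, 0 < cL ∧ ∀ (X : BdFix) (K : BdCst) (sg Cu : ℝ), BiFix Fx X K c C v0 sg Cu →
      ∃ N0 : ℕ, ∀ N1, N0 ≤ N1 → Bd7C7a X skWorld (BiFam Fx X N1) cL CL ∧ BudC7al X skWorld (BiFam Fx X N1) := by
  obtain ⟨Sc, k, c0, C0, cL, CL, hk, hL, h⟩ := bi7_const h3 hr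
  refine ⟨cL, CL, hL.pos, fun X K sg Cu hf => ?_⟩
  obtain ⟨N0, hN0⟩ := h X K sg Cu hf
  exact ⟨N0, fun N1 hN => bd7_exit (hN0 N1 hN) (hf.tie.T ▸ hk) (hf.tie.T ▸ hL)⟩

end prod

end

end Claimed.Agent.R286
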