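import Claimed.Agent.R286.Bud.Inst
import Claimed.Agent.R286.Bud.InstPath
import Claimed.Agent.R286.Bud.N11X

/-!
# Row 286 (S0533), LL sec. 7 part B: THE PATH INPUTS `BdP11` OF N11, N12 ON THE INSTANCE      (owner helper79; prefix `bi11_`, types `Bi11*`)

PRODUCERS  **`bi11_p11`** : `BdP11 X skWorld (BiFam Fx X N1) c11` (record of helper6, `Bud/N11X.lean`) from `LlSec3 llBase Fx`, `LlRef llBase Fx c C v0`, `BiFix ..`;
**`bi_p11x`** : `BdP11X X skWorld (BiFam Fx X N1) Cm` (sec. F of `Bud/N11X`: the complement of `BudB.PathStd`) = the input of `BudB.exit_all` consumed by `Exit/Bud`.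
`c11` is fixed BEFORE `X` (it depends on `T` and on the constants of `LlRef`, `LlAdm`, `LlP9` only).

USES the two fields of `LlSec3` added for LL 07 (batch edit of 253, 05:48Z):
* `refd`   `LlRefD` of 143 (`lrd_main`): `A_λ` is the distribution function of the normalised clock; `Γ'' = O(λ t)` near `0`;
* `seed`   `LlSeed`: `d = H_lo` on `[x, v_1]`.

KIT (on `BikOf` of 131, `Bud/InstKit`, `Bud/InstPath`); SHARED WITH `BdRhP` (143, `bi_rhp`):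
* `Bi11C`, `Bi11Pt Fx k p hd`   everything LL 03 says at the point of a frame;   `bi11_pt` : every frame of the family of large size has such a point.
* `bi11_gam_eq` (`W.Gam K_* = Γ̂` at ALL times `t ≥ 0`), `bi11_gam_deriv` (`Γ_*' = Γ̂'` at `t > 0`), `bi11_q_tie`, `bi11_g1_zero` (`Γ̂'(0) = 1/T_m`), `bi11_g1_lip`, `bi11_g1_near`, `bi11_d_abs`.
-/

set_option autoImplicit false

namespace Claimed.Agent.R286

open MeasureTheory Set Filter Topology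

noncomputable section

/-! ## 0. the point of a frame -/

/-- the constants of LL 03 -/
structure Bi11C where
  c : ℝ
  C : ℝ
  v0 : ℝ
  ca : ℝ
  Ca : ℝ
  CD : ℝ
  vD : ℝ
  vS : ℝ
  C9 : ℝ
  kap : ℝ

structure Bi11C.Ok (k : Bi11C) : Prop where
  c0 : 0 < k.c
  v00 : 0 < k.v0
  ca0 : 0 < k.ca
  vD0 : 0 < k.vD
  vS0 : 0 < k.vS
  kap0 : 0 < k.kap

/-- everything LL 03 says at the direct point `p`, localised at the dyad `2^-hd` -/
structure Bi11Pt (Fx : LlFix) (k : Bi11C) (p : LlPt) (hd : ℕ) : Prop where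
  ok : p.Ok Fx
  sm : p.sm = false
  ref : p.Ref Fx llBase k.c k.C k.v0
  adm : ∀ g ∈ Icc (-4 : ℝ) 4, BikAdm llBase Fx k.ca k.Ca (p.loc hd g 0)
  refd : p.RefD Fx llBase k.CD k.vD
  seed : ∀ v, p.x ≤ v → v ≤ k.vS → (p.loc hd 0 0).d Fx llBase v = p.Hlo Fx v
  p9 : ∀ w ∈ Ioo (0 : ℝ) 1, 1 / 2 * p.x ≤ w → |p.ell ^ 2 * (p.loc hd 0 0).h Fx llBase (p.ell * w)| ≤ k.C9 * p.x ^ k.kap * w ^ 3

variable {Fx : LlFix} {X : BdFix} {K : BdCst} {c C v0 sg Cu : ℝ}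

/-- **every frame of the family of large size has a point with all the facts of LL 03** -/
theorem bi11_pt (h3 : LlSec3 llBase Fx) (hr : LlRef llBase Fx c C v0) (hc : 0 < c) (hv0 : 0 < v0) :
    ∃ k : Bi11C, k.Ok ∧ ∃ N0 : ℕ, ∀ Fr, BtFam llBase Fx Fr → N0 ≤ Fr.N →
      ∃ (p : LlPt) (hd : ℕ), BikOf llBase Fx p hd Fr ∧ Bi11Pt Fx k p hd := by
  obtain ⟨Na, ha⟩ := hr
  obtain ⟨ca, Ca, hca, Nb, hb⟩ := h3.adm
  obtain ⟨CD, vD, hvD, Nc, hcD⟩ := h3.refd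
  obtain ⟨vS, hvS, Nd, hdS⟩ := h3.seed
  obtain ⟨κ, hκ, h9⟩ := h3.p9
  obtain ⟨C9, Ne, he⟩ := h9 (1 / 2) (by norm_num)
  refine ⟨⟨c, C, v0, ca, Ca, CD, vD, vS, C9, κ⟩, ⟨hc, hv0, hca, hvD, hvS, hκ⟩, Na + Nb + Nc + Nd + Ne, fun Fr hF hN => ?_⟩
  obtain ⟨p, hd, hp, hs, -, hFe⟩ := hF
  have hk := bik_of hFe
  rw [hk.N] at hN
  have h00 : (0 : ℝ) ∈ Icc (-4 : ℝ) 4 := ⟨by norm_num, by norm_num⟩
  refine ⟨p, hd, hk, hp, hs, ha p hp (by omega), fun g hg => ?_, hcD p hp (by omega) hs, ?_, ?_⟩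
  · obtain ⟨a1, a2, a3, a4, a5, a6, -, -⟩ := hb (p.loc hd g 0) (bik_loc_ok hp hd hg) (by show Nb ≤ p.N; omega)
    exact ⟨a1, a2, a3, a4, a5, a6⟩
  · exact hdS (p.loc hd 0 0) (bik_loc_ok hp hd h00) (by show Nd ≤ p.N; omega)
  · intro w hw hxw
    exact (((he (p.loc hd 0 0) (bik_loc_ok hp hd h00) (by show Ne ≤ p.N; omega)).2 hs) w hw hxw).2

/-! ## 1. one frame -/

section one

variable {Fr : BdFr} {p : LlPt} {hd : ℕ} {k : Bi11C}

theorem bi11_zero_mem : (0 : ℝ) ∈ Icc (-4 : ℝ) 4 := ⟨by norm_num, by norm_num⟩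

theorem bi11_ell_pos (P : Bi11Pt Fx k p hd) : 0 < p.ell := lt_of_lt_of_le one_pos P.ok.ell1

theorem bi11_K_clk (h : BikOf llBase Fx p hd Fr) (P : Bi11Pt Fx k p hd) : IsClock 1 Fr.K :=
  h.K_clk P.ok P.sm (P.adm 0 bi11_zero_mem)

theorem bi11_xiS_nonneg (P : Bi11Pt Fx k p hd) : 0 ≤ llBase.xiS Fx.T := by
  have hl := bi11_ell_pos P
  have h1 := P.ref.K_top (p.ell / 2) (by rw [lce_a_direct P.sm]; exact ⟨by linarith, by linarith⟩)
  simp only [P.sm] at h1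
  exact (mul_nonneg (sq_nonneg _) (bik_K_nonneg llBase Fx p _)).trans h1

/-- **`Γ_* = Γ̂`**: the response of the world at the clock of the frame is the normalised response of the path, at ALL times `t ≥ 0` -/
theorem bi11_gam_eq (h : BikOf llBase Fx p hd Fr) (P : Bi11Pt Fx k p hd) (t : ℝ) (ht : 0 ≤ t) :
    skWorld.Gam Fr.K t = p.GamN Fx llBase t := by
  have hclk := bi11_K_clk h P
  have ej : p.j = 1 := by simp [LlPt.j, P.sm]
  have hxi := bi11_xiS_nonneg P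
  have hd1 : ∀ ξ, 0 ≤ ξ → llDist 1 Fr.K ξ = p.Aprof Fx llBase ξ := fun ξ hξ => by
    rw [← P.refd.dist ξ hξ, h.K]
    rfl
  have p1 : LscProf 1 (llBase.xiS Fx.T) (p.Aprof Fx llBase) := ⟨P.refd.A_mono, P.refd.A_zero.ge, P.refd.A_top, hxi⟩
  have p2 : LscProf 1 (llBase.xiS Fx.T) (llDist 1 Fr.K) := by
    refine ⟨fun x hx y hy hxy => ?_, ENNReal.toReal_nonneg, fun ξ hξ => ?_, hxi⟩
    · rw [hd1 x hx, hd1 y hy]; exact P.refd.A_mono hx hy hxy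
    · rw [hd1 ξ (hxi.trans hξ)]; exact P.refd.A_top ξ hξ
  show bmGam Fr.K t = llMod.Gam (p.Aprof Fx llBase) p.j t
  rw [bi_gam_link Fr.K hclk t ht, ej]
  exact bi43_gam_congr p2 p1 hd1 ht

/-- `q = Γ_* ∘ K_*` (every mass) -/
theorem bi11_q_tie (h : BikOf llBase Fx p hd Fr) (P : Bi11Pt Fx k p hd) (v : ℝ) : Fr.q v = skWorld.Gam Fr.K (Fr.K v) := by
  have hK : 0 ≤ Fr.K v := by
    rw [h.K_apply]
    exact mul_nonneg (sq_nonneg _) (bik_K_nonneg llBase Fx p _)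
  rw [bi11_gam_eq h P _ hK, h.q_apply, h.K_apply]
  rfl

/-- `Γ̂'` is the derivative of `Γ̂` -/
theorem bi11_gamN_deriv (P : Bi11Pt Fx k p hd) (t : ℝ) (ht : 0 < t) : HasDerivAt (p.GamN Fx llBase) (p.Gam1N Fx llBase t) t := by
  have hl := bi11_ell_pos P
  have hl2 : 0 < p.ell ^ 2 := by positivity
  have hs : 0 < t / p.ell ^ 2 := by positivity
  have hc := P.ref.g1_cont
  have hsub : uIcc 0 (t / p.ell ^ 2) ⊆ Ici 0 := by
    rw [uIcc_of_le hs.le]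
    exact fun r hr => hr.1
  have h1 : HasDerivAt (fun u => ∫ x in (0 : ℝ)..u, p.Gam1 Fx llBase x) (p.Gam1 Fx llBase (t / p.ell ^ 2)) (t / p.ell ^ 2) :=
    intervalIntegral.integral_hasDerivAt_right ((hc.mono hsub).intervalIntegrable (μ := volume))
      ((hc.mono Ioi_subset_Ici_self).stronglyMeasurableAtFilter isOpen_Ioi _ hs) (hc.continuousAt (Ici_mem_nhds hs))
  have h2 : p.Gam Fx llBase =ᶠ[𝓝 (t / p.ell ^ 2)] fun u => ∫ x in (0 : ℝ)..u, p.Gam1 Fx llBase x := by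
    filter_upwards [Ioi_mem_nhds hs] with u hu
    have := P.ref.gam_ftc 0 u le_rfl (le_of_lt hu)
    rwa [P.ref.gam_zero, sub_zero] at this
  have h3 : HasDerivAt (p.Gam Fx llBase) (p.Gam1 Fx llBase (t / p.ell ^ 2)) (t / p.ell ^ 2) := h1.congr_of_eventuallyEq h2
  have h4 : HasDerivAt (fun ξ : ℝ => ξ / p.ell ^ 2) (1 / p.ell ^ 2) t := (hasDerivAt_id t).div_const _
  have h5 := h3.comp t h4
  have e1 : (p.Gam Fx llBase ∘ fun ξ : ℝ => ξ / p.ell ^ 2) = p.GamN Fx llBase := by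
    funext ξ
    show p.GamN Fx llBase (p.ell ^ 2 * (ξ / p.ell ^ 2)) = _
    rw [mul_div_cancel₀ _ hl2.ne']
  have e2 : p.Gam1 Fx llBase (t / p.ell ^ 2) * (1 / p.ell ^ 2) = p.Gam1N Fx llBase t := by
    show p.ell ^ 2 * p.Gam1N Fx llBase (p.ell ^ 2 * (t / p.ell ^ 2)) * (1 / p.ell ^ 2) = _
    rw [mul_div_cancel₀ _ hl2.ne']
    field_simp
  rwa [e1, e2] at h5

/-- **`Γ_*' = Γ̂'`** at positive times -/
theorem bi11_gam_deriv (h : BikOf llBase Fx p hd Fr) (P : Bi11Pt Fx k p hd) (t : ℝ) (ht : 0 < t) :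
    HasDerivAt (skWorld.Gam Fr.K) (p.Gam1N Fx llBase t) t := by
  refine (bi11_gamN_deriv P t ht).congr_of_eventuallyEq ?_
  filter_upwards [Ioi_mem_nhds ht] with u hu
  exact bi11_gam_eq h P u (le_of_lt hu)

/-- `Γ̂'(0) = 1/T_m`, `T_m = ℓ² b_∘` -/
theorem bi11_g1_zero (P : Bi11Pt Fx k p hd) : p.Gam1N Fx llBase 0 = 1 / (p.ell ^ 2 * p.b0 Fx llBase) := by
  have hl := bi11_ell_pos P
  have h0 := P.ref.g1_pos 0 le_rfl
  have e : p.Gam1 Fx llBase 0 = p.ell ^ 2 * p.Gam1N Fx llBase 0 := by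
    show p.ell ^ 2 * p.Gam1N Fx llBase (p.ell ^ 2 * 0) = _
    rw [mul_zero]
  have hg : 0 < p.Gam1N Fx llBase 0 := by
    rw [e] at h0
    exact (pos_iff_pos_of_mul_pos h0).1 (by positivity)
  unfold LlPt.b0
  rw [e]
  field_simp

/-- (P2) differentiated, in normalised time -/
theorem bi11_g1_lip (P : Bi11Pt Fx k p hd) (ξ ξ' : ℝ) (h0 : 0 ≤ ξ) (h1 : ξ ≤ ξ') (h2 : ξ' ≤ k.vD) :
    |p.Gam1N Fx llBase ξ' - p.Gam1N Fx llBase ξ| ≤ |k.CD| * p.lam * ξ' * (ξ' - ξ) := by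
  have hl := bi11_ell_pos P
  have hl1 : 1 ≤ p.ell ^ 2 := one_le_pow₀ P.ok.ell1
  have hl2 : 0 < p.ell ^ 2 := by positivity
  have hlam := (bik_lam_pos P.ok).le
  have h0' : 0 ≤ ξ' := h0.trans h1
  have hle : ξ' / p.ell ^ 2 ≤ ξ' := div_le_self h0' hl1
  have hg := P.refd.g1_lip (ξ / p.ell ^ 2) (ξ' / p.ell ^ 2) (by positivity) (div_le_div_of_nonneg_right h1 hl2.le) (hle.trans h2)
  have e : ∀ s : ℝ, p.Gam1 Fx llBase (s / p.ell ^ 2) = p.ell ^ 2 * p.Gam1N Fx llBase s := fun s => by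
    show p.ell ^ 2 * p.Gam1N Fx llBase (p.ell ^ 2 * (s / p.ell ^ 2)) = _
    rw [mul_div_cancel₀ _ hl2.ne']
  rw [e, e, ← mul_sub, abs_mul, abs_of_pos hl2] at hg
  have hd' : ξ' / p.ell ^ 2 - ξ / p.ell ^ 2 ≤ ξ' - ξ := by
    rw [← sub_div]
    exact div_le_self (by linarith) hl1
  have hd0 : 0 ≤ ξ' / p.ell ^ 2 - ξ / p.ell ^ 2 := by
    rw [← sub_div]
    exact div_nonneg (by linarith) hl2.le
  have hA : 0 ≤ |p.Gam1N Fx llBase ξ' - p.Gam1N Fx llBase ξ| := abs_nonneg _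
  calc |p.Gam1N Fx llBase ξ' - p.Gam1N Fx llBase ξ| ≤ p.ell ^ 2 * |p.Gam1N Fx llBase ξ' - p.Gam1N Fx llBase ξ| :=
        le_mul_of_one_le_left hA hl1
    _ ≤ k.CD * p.lam * (ξ' / p.ell ^ 2) * (ξ' / p.ell ^ 2 - ξ / p.ell ^ 2) := hg
    _ ≤ |k.CD| * p.lam * (ξ' / p.ell ^ 2) * (ξ' / p.ell ^ 2 - ξ / p.ell ^ 2) :=
        mul_le_mul_of_nonneg_right (mul_le_mul_of_nonneg_right (mul_le_mul_of_nonneg_right (le_abs_self _) hlam) (by positivity)) hd0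
    _ ≤ |k.CD| * p.lam * ξ' * (ξ' - ξ) :=
        mul_le_mul (mul_le_mul_of_nonneg_left hle (by positivity)) hd' hd0 (by positivity)

/-- (P2) + (P9): `Γ̂'` is close to `1/T` near the origin -/
theorem bi11_g1_near (P : Bi11Pt Fx k p hd) (hT : 1 < Fx.T) (hs : |k.C| * p.lam ≤ 1 / 2) (ξ : ℝ) (h0 : 0 ≤ ξ) (h2 : ξ ≤ k.vD) :
    |p.Gam1N Fx llBase ξ - 1 / Fx.T| ≤ (|k.CD| * ξ ^ 2 + 2 * |k.C|) * p.lam := by
  have hlam := (bik_lam_pos P.ok).le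
  have h1 := bi11_g1_lip P 0 ξ le_rfl h0 h2
  have hb := P.ref.b0_T
  have hb' : |p.ell ^ 2 * p.b0 Fx llBase - Fx.T| ≤ |k.C| * p.lam := hb.trans (mul_le_mul_of_nonneg_right (le_abs_self _) hlam)
  have hTm : 1 / 2 ≤ p.ell ^ 2 * p.b0 Fx llBase := by
    have := (abs_le.1 hb').1
    linarith
  have hTm0 : 0 < p.ell ^ 2 * p.b0 Fx llBase := by linarith
  have hT0 : 0 < Fx.T := by linarith
  have e : 1 / (p.ell ^ 2 * p.b0 Fx llBase) - 1 / Fx.T = -(p.ell ^ 2 * p.b0 Fx llBase - Fx.T) / (p.ell ^ 2 * p.b0 Fx llBase * Fx.T) := by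
    rw [div_sub_div _ _ hTm0.ne' hT0.ne']
    congr 1
    ring
  have h3 : |1 / (p.ell ^ 2 * p.b0 Fx llBase) - 1 / Fx.T| ≤ 2 * |k.C| * p.lam := by
    rw [e, abs_div, abs_neg, abs_of_pos (mul_pos hTm0 hT0), div_le_iff₀ (mul_pos hTm0 hT0)]
    have h4 : (1 : ℝ) / 2 ≤ p.ell ^ 2 * p.b0 Fx llBase * Fx.T := by nlinarith
    have h5 : 0 ≤ 2 * |k.C| * p.lam := by positivity
    nlinarith
  rw [bi11_g1_zero P] at h1
  have h6 : p.Gam1N Fx llBase ξ - 1 / Fx.T = (p.Gam1N Fx llBase ξ - 1 / (p.ell ^ 2 * p.b0 Fx llBase))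
      + (1 / (p.ell ^ 2 * p.b0 Fx llBase) - 1 / Fx.T) := by ring
  rw [h6]
  refine (abs_add_le _ _).trans ?_
  have h7 : |k.CD| * p.lam * ξ * (ξ - 0) = |k.CD| * ξ ^ 2 * p.lam := by ring
  rw [h7] at h1
  linarith

/-- the constant of `K_*(v) ≤ CK v` -/
def Bi11C.CK (k : Bi11C) (Fx : LlFix) : ℝ := max (8 * k.C) (2 * llBase.xiS Fx.T / k.v0)

theorem bi11_eqns_cite : True := by
  have := @Bi11C.CK.eq_1
  trivial

theorem bi11_K_le (hk : k.Ok) (h : BikOf llBase Fx p hd Fr) (P : Bi11Pt Fx k p hd) {w : ℝ} (hw : w ∈ Ioo (0 : ℝ) 1) :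
    Fr.K w ≤ k.CK Fx * w :=
  (h.K_le P.ok P.sm P.ref hk.c0 hk.v00 (bi11_xiS_nonneg P) hw).1

/-- `0 ≤ h_* ≤ K_*` at `g = 0` -/
theorem bi11_hS_mem (hk : k.Ok) (h : BikOf llBase Fx p hd Fr) (P : Bi11Pt Fx k p hd) {w : ℝ} (hw : w ∈ Ioo (0 : ℝ) 1) :
    0 ≤ Fr.K w - Fr.b 0 w * Fr.q w ∧ Fr.K w - Fr.b 0 w * Fr.q w ≤ Fr.K w := by
  obtain ⟨_, _, _, _, _, a6⟩ := P.adm 0 bi11_zero_mem
  rw [bik_a_eq P.sm] at a6
  obtain ⟨b1, -, -, b4, -⟩ := a6 _ (bik_mem_a P.ok.ell1 ⟨hw.1.le, hw.2.le⟩)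
  have hq := (bik_q_mem llBase P.ref (bik_K_nonneg llBase Fx p (p.ell * w))).1
  have e : Fr.K w - Fr.b 0 w * Fr.q w = p.ell ^ 2 * (p.loc hd 0 0).hS Fx llBase (p.ell * w) := by
    rw [h.K_apply, h.b_apply, h.q_apply]
    show _ = p.ell ^ 2 * (p.K Fx llBase (p.ell * w) - (p.loc hd 0 0).b Fx llBase (p.ell * w) * p.q Fx llBase (p.ell * w))
    ring
  constructor
  · rw [e]; exact mul_nonneg (sq_nonneg _) b4
  · have : 0 ≤ Fr.b 0 w * Fr.q w := by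
      rw [h.b_apply, h.q_apply]
      exact mul_nonneg (mul_nonneg (sq_nonneg _) (hk.ca0.le.trans b1)) hq
    linarith

/-- **`|d(v)| ≤ Cd v`**: `d = h - h_*`, `0 ≤ h ≤ C x^κ v³` (P9), `0 ≤ h_* ≤ K_*`; on the mask `d = -h_*` -/
theorem bi11_d_abs (hk : k.Ok) (h : BikOf llBase Fx p hd Fr) (P : Bi11Pt Fx k p hd) {w : ℝ} (hw : w ∈ Ioo (0 : ℝ) 1) :
    |Fr.d w| ≤ (max k.C9 0 + k.CK Fx) * w := by
  have hl := bi11_ell_pos P
  obtain ⟨s1, s2⟩ := bi11_hS_mem hk h P hw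
  have hK := bi11_K_le hk h P hw
  have hM : 0 ≤ max k.C9 0 * w := mul_nonneg (le_max_right _ _) hw.1.le
  rcases lt_or_ge w Fr.xm with hm | hm
  · have hxw : p.ell * w < p.x := by
      rw [h.xm, lt_div_iff₀ hl] at hm
      linarith
    have e : Fr.d w = -(Fr.K w - Fr.b 0 w * Fr.q w) := by
      rw [h.d_apply, bik_loc_d_mask hd hxw, h.K_apply, h.b_apply, h.q_apply]
      show p.ell ^ 2 * -(p.K Fx llBase (p.ell * w) - (p.loc hd 0 0).b Fx llBase (p.ell * w) * p.q Fx llBase (p.ell * w)) = _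
      ring
    rw [e, abs_neg, abs_of_nonneg s1]
    linarith
  · have e := h.K_eq hl 0 hm
    have hh := h.h_le P.ok (g := 0) hk.kap0.le P.p9 hw
    obtain ⟨_, _, _, _, _, a6⟩ := P.adm 0 bi11_zero_mem
    rw [bik_a_eq P.sm] at a6
    obtain ⟨-, -, b3, -, -⟩ := a6 _ (bik_mem_a P.ok.ell1 ⟨hw.1.le, hw.2.le⟩)
    have hh0 : 0 ≤ Fr.h 0 w := by
      rw [h.h_apply]
      exact mul_nonneg (sq_nonneg _) b3
    rw [abs_le]
    constructor <;> linarith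

end one

/-! ## 2. smallness on the frames -/

/-- `λ ≤ ε` and `u ≤ ε` on the frames of large size -/
theorem bi11_small (hX : X.Ok) {ε : ℝ} (hε : 0 < ε) : ∃ N0 : ℕ, ∀ Fr : BdFr, Fr.Ok X → N0 ≤ Fr.N → Fr.lam ≤ ε ∧ Fr.u ≤ ε := by
  obtain ⟨Na, ha⟩ := bi43_lam_small hX (ε := ε) (e := 1) hε one_pos
  obtain ⟨Nb, hb⟩ := bi43_lam_small hX (ε := ε) (e := X.bl) hε hX.bl_pos
  refine ⟨max Na Nb, fun Fr hO hN => ⟨?_, ?_⟩⟩
  · have := ha Fr hO ((le_max_left _ _).trans hN)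
    rwa [Real.rpow_one] at this
  · exact hO.u_hi.trans (hb Fr hO ((le_max_right _ _).trans hN))

/-- the mask is far below the tested band: `x ≤ ε u` -/
theorem bi11_x_le_u (hX : X.Ok) {ε : ℝ} (hε : 0 < ε) : ∃ N0 : ℕ, ∀ Fr : BdFr, Fr.Ok X → N0 ≤ Fr.N → Fr.x ≤ ε * Fr.u := by
  have hs : 0 < X.sS / 2 := by
    have := hX.tau_le
    unfold BdFix.sS
    linarith
  obtain ⟨Na, ha⟩ := bi43_lam_small hX (ε := ε / X.CU) (e := X.sS / 2) (div_pos hε hX.CU_pos) hs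
  refine ⟨Na, fun Fr hO hN => ?_⟩
  have hl := BdFr.bds_lam_pos hO
  have hu := BdFr.bds_u_pos hO hX
  have hx := BdFr.bds_x_pos hO
  have h1 := ha Fr hO hN
  have h2 := hO.u_lo
  unfold BdFr.U at h2
  have hp : 0 < Fr.lam ^ (X.sS / 2) := Real.rpow_pos_of_pos hl _
  have e : Fr.x = Fr.x * Fr.lam ^ (-(X.sS / 2)) * Fr.lam ^ (X.sS / 2) := by
    rw [mul_assoc, ← Real.rpow_add hl]
    simp
  calc Fr.x = Fr.x * Fr.lam ^ (-(X.sS / 2)) * Fr.lam ^ (X.sS / 2) := e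
    _ ≤ X.CU * Fr.u * (ε / X.CU) := mul_le_mul h2 h1 hp.le (mul_nonneg hX.CU_pos.le hu.le)
    _ = ε * Fr.u := by
        have := hX.CU_pos.ne'
        field_simp

/-! ## 3. the fields of `BdP11` which are asymptotic -/

section asy

variable {k : Bi11C}

/-- the hypothesis "every frame of the family of size `≥ N0` has a point" -/
def Bi11Has (Fx : LlFix) (k : Bi11C) (N0 : ℕ) : Prop :=
  ∀ Fr, BtFam llBase Fx Fr → N0 ≤ Fr.N → ∃ (p : LlPt) (hd : ℕ), BikOf llBase Fx p hd Fr ∧ Bi11Pt Fx k p hd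

theorem bi11_has_eqns_cite : True := by
  have := @Bi11Has.eq_1
  trivial

/-- l.1353: near the tested band the defect is the logarithmic seed -/
theorem bi11_seed (hf : BiFix Fx X K c C v0 sg Cu) (hk : k.Ok) {Np : ℕ} (hH : Bi11Has Fx k Np) (N1 : ℕ) (c1 C1 : ℝ) (hc1 : 0 < c1) :
    BdSub (fun i : BdFr × ℝ => i.1.N) (fun i => BiFam Fx X N1 i.1 ∧ i.2 ∈ Icc (c1 * i.1.u) (C1 * i.1.u))
      (fun i => |i.1.d i.2|) (fun i => i.1.lam1 X * i.1.U X ^ 3) := by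
  have hG : ∀ i : BdFr × ℝ, (BiFam Fx X N1 i.1 ∧ i.2 ∈ Icc (c1 * i.1.u) (C1 * i.1.u)) → 0 ≤ i.1.lam1 X * i.1.U X ^ 3 := by
    intro i hi
    have hl := BdFr.bds_lam_pos hi.1.2.1
    have hU := BdFr.bds_U_pos (X := X) hi.1.2.1
    unfold BdFr.lam1
    positivity
  rw [bd_sub_iff (fun i _ => abs_nonneg _) hG]
  intro ε hε
  obtain ⟨Na, ha⟩ := bi11_x_le_u hf.ok hc1
  obtain ⟨Nb, hb⟩ := bi11_small hf.ok (ε := k.vS / (2 * (|C1| + 1))) (div_pos hk.vS0 (by positivity))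
  refine ⟨8 * (1 + 1 / (6 * ε)), max Np (max Na Nb), fun i hi hN => ?_⟩
  obtain ⟨⟨hFam, hO, -⟩, hv⟩ := hi
  have hNp : Np ≤ i.1.N := (le_max_left _ _).trans hN
  have hNa : Na ≤ i.1.N := ((le_max_left _ _).trans (le_max_right _ _)).trans hN
  have hNb : Nb ≤ i.1.N := ((le_max_right _ _).trans (le_max_right _ _)).trans hN
  obtain ⟨p, hd, h, P⟩ := hH i.1 hFam hNp
  have hl := bi11_ell_pos P
  have hl1 := P.ok.ell1
  have hl2 := bik_ell_le_two P.ok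
  have hu := BdFr.bds_u_pos hO hf.ok
  have hx := bik_x_pos P.ok
  have hx1 := bik_x_le_one P.ok
  have hv0' : 0 < i.2 := lt_of_lt_of_le (mul_pos hc1 hu) hv.1
  have hxv : p.x ≤ p.ell * i.2 := by
    have h1 := ha i.1 hO hNa
    rw [h.x] at h1
    calc p.x ≤ c1 * i.1.u := h1
      _ ≤ i.2 := hv.1
      _ ≤ p.ell * i.2 := le_mul_of_one_le_left hv0'.le hl1
  have hvS : p.ell * i.2 ≤ k.vS := by
    have h1 := (hb i.1 hO hNb).2
    rw [le_div_iff₀ (by positivity)] at h1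
    have h2 : i.2 ≤ (|C1| + 1) * i.1.u := hv.2.trans (mul_le_mul_of_nonneg_right (by linarith [le_abs_self C1]) hu.le)
    calc p.ell * i.2 ≤ 2 * ((|C1| + 1) * i.1.u) := mul_le_mul hl2 h2 hv0'.le (by norm_num)
      _ = i.1.u * (2 * (|C1| + 1)) := by ring
      _ ≤ k.vS := h1
  have h4 : p.ell ^ 2 ≤ 4 := by nlinarith
  have hU0 := (lce_U_pos P.ok).le
  have hl10 : 0 ≤ p.lam1 Fx := (Real.rpow_pos_of_pos (bik_lam_pos P.ok) _).le
  have hlog := lcd_log_le (6 * ε) (by positivity) p.x hx hx1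
  have hxe : p.x ^ (-(6 * ε)) = (i.1.N : ℝ) ^ ε := by
    unfold LlPt.x
    rw [h.N, ← Real.rpow_mul (Nat.cast_nonneg _)]
    congr 1
    ring
  have hlog' : Real.log (1 / p.x) ≤ (1 + 1 / (6 * ε)) * (i.1.N : ℝ) ^ ε := by
    rw [← hxe]
    linarith
  have hS : p.lam1 Fx * p.U Fx ^ 3 ≤ i.1.lam1 X * i.1.U X ^ 3 := by
    rw [h.lam1 hf.tie]
    exact mul_le_mul_of_nonneg_left (pow_le_pow_left₀ hU0 (h.U_le hf.tie) 3) hl10
  have hS0 : 0 ≤ p.lam1 Fx * p.U Fx ^ 3 := mul_nonneg hl10 (pow_nonneg hU0 3)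
  show |i.1.d i.2| ≤ _
  rw [h.d_apply, P.seed _ hxv hvS, abs_mul, abs_of_nonneg (sq_nonneg _)]
  have h1 := bik_Hlo_seed P.ok hxv
  calc p.ell ^ 2 * |p.Hlo Fx (p.ell * i.2)| ≤ 4 * (2 * (p.lam1 Fx * p.U Fx ^ 3 * Real.log (1 / p.x))) :=
        mul_le_mul h4 h1 (abs_nonneg _) (by norm_num)
    _ ≤ 4 * (2 * ((i.1.lam1 X * i.1.U X ^ 3) * ((1 + 1 / (6 * ε)) * (i.1.N : ℝ) ^ ε))) := by
        have := mul_le_mul hS hlog' (bik_log_nonneg P.ok) (hS0.trans hS)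
        linarith
    _ = _ := by ring

/-- (P8) on the frames -/
theorem bi11_p8 (h3 : LlSec3 llBase Fx) (hf : BiFix Fx X K c C v0 sg Cu) (hk : k.Ok) {Np : ℕ} (hH : Bi11Has Fx k Np) {N1 : ℕ} (hN1 : Np ≤ N1) :
    BdSub (fun F : BdFr => F.N) (BiFam Fx X N1) (fun F => ∫ v in (0 : ℝ)..1, F.d v ^ 2 / F.cg v)
      (fun F => F.lam ^ (1 + 2 * X.eta) * F.U X ^ (5 : ℝ) + F.chiE ^ 2 * F.lam ^ (1 + 2 * X.eta) * F.U X ^ (4 : ℝ)
        + F.chiL ^ 2 * F.x ^ (6 : ℝ) / F.lam) := by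
  have hFn : ∀ F : BdFr, BiFam Fx X N1 F → 0 ≤ ∫ v in (0 : ℝ)..1, F.d v ^ 2 / F.cg v := by
    intro F hF
    obtain ⟨p, hd, h, P⟩ := hH F hF.1 (hN1.trans hF.2.2)
    refine intervalIntegral.integral_nonneg zero_le_one fun v _ => div_nonneg (sq_nonneg _) ?_
    rw [h.cg]
    exact mul_nonneg (sq_nonneg _) ((bik_cg_pos hf.fx P.ok (p.ell * v)).2.le.trans (bik_cg_pos hf.fx P.ok (p.ell * v)).1)
  have hGn : ∀ F : BdFr, BiFam Fx X N1 F → 0 ≤ F.lam ^ (1 + 2 * X.eta) * F.U X ^ (5 : ℝ)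
      + F.chiE ^ 2 * F.lam ^ (1 + 2 * X.eta) * F.U X ^ (4 : ℝ) + F.chiL ^ 2 * F.x ^ (6 : ℝ) / F.lam := by
    intro F hF
    obtain ⟨p, hd, h, P⟩ := hH F hF.1 (hN1.trans hF.2.2)
    exact (h.p8B_le P.ok hf.tie).1.trans (h.p8B_le P.ok hf.tie).2
  rw [bd_sub_iff hFn hGn]
  intro ε hε
  obtain ⟨C8, N8, h8⟩ := h3.p8 (6 * ε) (by positivity)
  refine ⟨2 * max C8 0, N8, fun F hF hN => ?_⟩
  obtain ⟨p, hd, h, P⟩ := hH F hF.1 (hN1.trans hF.2.2)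
  have hl := bi11_ell_pos P
  have hl1 := P.ok.ell1
  have hx := bik_x_pos P.ok
  have h8' := h8 (p.loc hd 0 0) (bik_loc_ok P.ok hd bi11_zero_mem) (by show N8 ≤ p.N; rw [← h.N]; exact hN) trivial
  have hxe : p.x ^ (-(6 * ε)) = (F.N : ℝ) ^ ε := by
    unfold LlPt.x
    rw [h.N, ← Real.rpow_mul (Nat.cast_nonneg _)]
    congr 1
    ring
  obtain ⟨B0, B1⟩ := h.p8B_le P.ok hf.tie
  have hD : ∀ y ∈ Ioo 0 p.ell, |(p.loc hd 0 0).d Fx llBase y| ≤ max k.C9 0 + k.CK Fx := by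
    intro y hy
    have hw : y / p.ell ∈ Ioo (0 : ℝ) 1 := ⟨div_pos hy.1 hl, (div_lt_one hl).2 hy.2⟩
    have h1 := bi11_d_abs hk h P hw
    rw [h.d_apply, mul_div_cancel₀ _ hl.ne', abs_mul, abs_of_nonneg (sq_nonneg _)] at h1
    have h2 : 0 ≤ max k.C9 0 + k.CK Fx := by
      by_contra hcon
      push Not at hcon
      have := (mul_nonneg (sq_nonneg p.ell) (abs_nonneg ((p.loc hd 0 0).d Fx llBase y))).trans h1
      nlinarith [hw.1]
    calc |(p.loc hd 0 0).d Fx llBase y| ≤ p.ell ^ 2 * |(p.loc hd 0 0).d Fx llBase y| :=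
          le_mul_of_one_le_left (abs_nonneg _) (one_le_pow₀ hl1)
      _ ≤ (max k.C9 0 + k.CK Fx) * (y / p.ell) := h1
      _ ≤ (max k.C9 0 + k.CK Fx) * 1 := mul_le_mul_of_nonneg_left hw.2.le h2
      _ = _ := mul_one _
  have hA : ∫ v in (0 : ℝ)..p.ell, (p.loc hd 0 0).d Fx llBase v ^ 2 / p.cg Fx v
      ≤ max C8 0 * ((F.N : ℝ) ^ ε * BudB.p8B X F) := by
    have e1 : (p.loc hd 0 0).a = p.ell := bik_a_eq P.sm 0 0
    have e2 : (p.loc hd 0 0).x = p.x := rfl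
    simp only [] at h8'
    rw [e1, e2, hxe] at h8'
    have hNe : 0 ≤ (F.N : ℝ) ^ ε := Real.rpow_nonneg (Nat.cast_nonneg _) _
    refine h8'.trans ?_
    calc C8 * (F.N : ℝ) ^ ε * _ ≤ max C8 0 * (F.N : ℝ) ^ ε * _ :=
          mul_le_mul_of_nonneg_right (mul_le_mul_of_nonneg_right (le_max_left _ _) hNe) B0
      _ ≤ max C8 0 * (F.N : ℝ) ^ ε * BudB.p8B X F := mul_le_mul_of_nonneg_left B1 (mul_nonneg (le_max_right _ _) hNe)
      _ = _ := by ring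
  have := h.p8 hf.fx P.ok P.ref hD hA le_rfl zero_le_one
  calc _ ≤ 2 * (max C8 0 * ((F.N : ℝ) ^ ε * BudB.p8B X F)) := this
    _ = _ := by unfold BudB.p8B; ring

/-- (P2) + (P9): `Γ_*' → 1/T` at times `O(u)` -/
theorem bi11_gam1 (hf : BiFix Fx X K c C v0 sg Cu) (hk : k.Ok) {Np : ℕ} (hH : Bi11Has Fx k Np) (C1 ε : ℝ) (hε : 0 < ε) :
    ∃ N0 : ℕ, ∀ Fr, BtFam llBase Fx Fr → Fr.Ok X → N0 ≤ Fr.N →
      ∀ t ∈ Ioc (0 : ℝ) (C1 * Fr.u), |deriv (skWorld.Gam Fr.K) t - 1 / X.T| ≤ ε := by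
  obtain ⟨Na, ha⟩ := bi11_small hf.ok (ε := min (k.vD / (|C1| + 1)) (min (1 / (2 * (|k.C| + 1))) (ε / (|k.CD| * k.vD ^ 2 + 2 * |k.C| + 1))))
    (lt_min (div_pos hk.vD0 (by positivity)) (lt_min (by positivity) (div_pos hε (by positivity))))
  refine ⟨max Np Na, fun Fr hFam hO hN t ht => ?_⟩
  obtain ⟨p, hd, h, P⟩ := hH Fr hFam ((le_max_left _ _).trans hN)
  obtain ⟨s1, s2⟩ := ha Fr hO ((le_max_right _ _).trans hN)
  have hu := BdFr.bds_u_pos hO hf.ok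
  have hlam := bik_lam_pos P.ok
  rw [h.lam] at s1
  have htD : t ≤ k.vD := by
    have h1 := s2.trans (min_le_left _ _)
    rw [le_div_iff₀ (by positivity)] at h1
    calc t ≤ C1 * Fr.u := ht.2
      _ ≤ (|C1| + 1) * Fr.u := mul_le_mul_of_nonneg_right (by linarith [le_abs_self C1]) hu.le
      _ ≤ k.vD := by linarith
  have hs : |k.C| * p.lam ≤ 1 / 2 := by
    have h1 := s1.trans ((min_le_right _ _).trans (min_le_left _ _))
    rw [le_div_iff₀ (by positivity)] at h1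
    nlinarith [abs_nonneg k.C]
  rw [(bi11_gam_deriv h P t ht.1).deriv, hf.tie.T]
  refine (bi11_g1_near P hf.fx.T1 hs t ht.1.le htD).trans ?_
  have h1 := s1.trans ((min_le_right _ _).trans (min_le_right _ _))
  rw [le_div_iff₀ (by positivity)] at h1
  have h2 : |k.CD| * t ^ 2 ≤ |k.CD| * k.vD ^ 2 := mul_le_mul_of_nonneg_left (pow_le_pow_left₀ ht.1.le htD 2) (abs_nonneg _)
  calc (|k.CD| * t ^ 2 + 2 * |k.C|) * p.lam ≤ (|k.CD| * k.vD ^ 2 + 2 * |k.C| + 1) * p.lam :=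
        mul_le_mul_of_nonneg_right (by linarith) hlam.le
    _ ≤ ε := by linarith

/-- (P2) differentiated: `Γ_*'' = O(λ u)` at times `O(u)` -/
theorem bi11_gam2 (hf : BiFix Fx X K c C v0 sg Cu) (hk : k.Ok) {Np : ℕ} (hH : Bi11Has Fx k Np) (C1 : ℝ) :
    ∃ N0 : ℕ, ∀ Fr, BtFam llBase Fx Fr → Fr.Ok X → N0 ≤ Fr.N → ∀ t1 ∈ Ioc (0 : ℝ) (C1 * Fr.u), ∀ t2 ∈ Ioc (0 : ℝ) (C1 * Fr.u),
      |deriv (skWorld.Gam Fr.K) t2 - deriv (skWorld.Gam Fr.K) t1| ≤ |k.CD| * |C1| * (Fr.lam * Fr.u) * |t2 - t1| := by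
  obtain ⟨Na, ha⟩ := bi11_small hf.ok (ε := k.vD / (|C1| + 1)) (div_pos hk.vD0 (by positivity))
  refine ⟨max Np Na, fun Fr hFam hO hN => ?_⟩
  obtain ⟨p, hd, h, P⟩ := hH Fr hFam ((le_max_left _ _).trans hN)
  obtain ⟨-, s2⟩ := ha Fr hO ((le_max_right _ _).trans hN)
  have hu := BdFr.bds_u_pos hO hf.ok
  have hlam := bik_lam_pos P.ok
  have hD : ∀ t ∈ Ioc (0 : ℝ) (C1 * Fr.u), t ≤ k.vD ∧ t ≤ |C1| * Fr.u := by
    intro t ht
    have h1 := s2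
    rw [le_div_iff₀ (by positivity)] at h1
    have h2 : C1 * Fr.u ≤ |C1| * Fr.u := mul_le_mul_of_nonneg_right (le_abs_self C1) hu.le
    exact ⟨by nlinarith [ht.2], ht.2.trans h2⟩
  have key : ∀ s ∈ Ioc (0 : ℝ) (C1 * Fr.u), ∀ s' ∈ Ioc (0 : ℝ) (C1 * Fr.u), s ≤ s' →
      |p.Gam1N Fx llBase s' - p.Gam1N Fx llBase s| ≤ |k.CD| * |C1| * (Fr.lam * Fr.u) * |s' - s| := by
    intro s hs s' hs' hss
    refine (bi11_g1_lip P s s' hs.1.le hss (hD s' hs').1).trans ?_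
    rw [abs_of_nonneg (sub_nonneg.2 hss), h.lam]
    have : |k.CD| * p.lam * s' ≤ |k.CD| * p.lam * (|C1| * Fr.u) :=
      mul_le_mul_of_nonneg_left (hD s' hs').2 (by positivity)
    calc |k.CD| * p.lam * s' * (s' - s) ≤ |k.CD| * p.lam * (|C1| * Fr.u) * (s' - s) :=
          mul_le_mul_of_nonneg_right this (sub_nonneg.2 hss)
      _ = _ := by ring
  intro t1 ht1 t2 ht2
  rw [(bi11_gam_deriv h P t1 ht1.1).deriv, (bi11_gam_deriv h P t2 ht2.1).deriv]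
  rcases le_total t1 t2 with hle | hle
  · exact key t1 ht1 t2 ht2 hle
  · rw [abs_sub_comm, abs_sub_comm t2 t1]
    exact key t2 ht2 t1 ht1 hle

end asy

/-! ## 4. THE PRODUCER -/

/-- **PRODUCER of `BdP11`** on the SK objects; the constants are fixed before `X` -/
theorem bi11_p11 (h3 : LlSec3 llBase Fx) (hr : LlRef llBase Fx c C v0) (hc : 0 < c) (hv0 : 0 < v0) :
    ∃ c11 : BdP11C, ∀ (X : BdFix) (K : BdCst) (sg Cu : ℝ), BiFix Fx X K c C v0 sg Cu →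
      ∃ N0 : ℕ, ∀ N1, N0 ≤ N1 → BdP11 X skWorld (BiFam Fx X N1) c11 := by
  obtain ⟨k, hk, Np, hH⟩ := bi11_pt h3 hr hc hv0
  refine ⟨⟨max 1 (max k.C9 0 + k.CK Fx), max (4 * k.Ca) 0⟩, fun X K sg Cu hf => ⟨Np, fun N1 hN => ?_⟩⟩
  have hpt : ∀ F, BiFam Fx X N1 F → ∃ (p : LlPt) (hd : ℕ), BikOf llBase Fx p hd F ∧ Bi11Pt Fx k p hd :=
    fun F hF => hH F hF.1 (hN.trans hF.2.2)
  have hC9 : (0 : ℝ) ≤ max k.C9 0 := le_max_right _ _
  exact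
    { CK1 := le_max_left _ _
      bmax0 := le_max_right _ _
      K_clk := fun F hF => by
        obtain ⟨p, hd, h, P⟩ := hpt F hF
        exact bi11_K_clk h P
      K_le := fun F hF v hv => by
        obtain ⟨p, hd, h, P⟩ := hpt F hF
        refine (bi11_K_le hk h P hv).trans (mul_le_mul_of_nonneg_right ?_ hv.1.le)
        exact le_trans (by linarith) (le_max_right _ _)
      q_tie := fun F hF v _ => by
        obtain ⟨p, hd, h, P⟩ := hpt F hF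
        exact bi11_q_tie h P v
      h_dec := fun F hF g _ v hv => by
        obtain ⟨p, hd, h, P⟩ := hpt F hF
        have := h.K_eq (bi11_ell_pos P) g hv.1
        linarith
      b_le := fun F hF g hg v hv => by
        obtain ⟨p, hd, h, P⟩ := hpt F hF
        exact (h.b_bd P.ok P.sm hk.ca0.le (P.adm g ⟨hf.g_lo.trans hg.1, hg.2.trans hf.g_hi⟩) hv).2.trans (le_max_left _ _)
      d_meas := fun F hF => by
        obtain ⟨p, hd, h, P⟩ := hpt F hF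
        exact h.d_meas hf.fx P.ok P.ref
      d_le := ⟨0, fun F hF _ v hv => by
        obtain ⟨p, hd, h, P⟩ := hpt F hF
        have h1 := bi11_d_abs hk h P hv
        have hw : 0 ≤ F.wc X := by
          have hxp := BdFr.bds_x_pos hF.2.1
          have hup := BdFr.bds_u_pos hF.2.1 hf.ok
          have hlp := BdFr.bds_lam_pos hF.2.1
          unfold BdFr.wc BdFr.yc BdFr.Xr BdFr.Lam
          positivity
        calc |F.d v| ≤ (max k.C9 0 + k.CK Fx) * v := h1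
          _ ≤ max 1 (max k.C9 0 + k.CK Fx) * v := mul_le_mul_of_nonneg_right (le_max_right _ _) hv.1.le
          _ ≤ max 1 (max k.C9 0 + k.CK Fx) * (v + F.wc X) :=
              mul_le_mul_of_nonneg_left (by linarith) (zero_le_one.trans (le_max_left _ _))⟩
      seed := fun c1 C1 hc1 => bi11_seed hf hk hH N1 c1 C1 hc1
      p8 := bi11_p8 h3 hf hk hH hN
      gam1 := fun C1 ε hε => by
        obtain ⟨N0, h⟩ := bi11_gam1 hf hk hH C1 ε hε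
        exact ⟨N0, fun F hF hN0 => h F hF.1 hF.2.1 hN0⟩
      gam2 := fun C1 => by
        obtain ⟨N0, h⟩ := bi11_gam2 hf hk hH C1
        exact ⟨_, N0, fun F hF hN0 => h F hF.1 hF.2.1 hN0⟩ }

/-- **PRODUCER of `BdP11X`** (record of helper6, `Bud/N11X` sec. F = what `BudB.PathStd` lacks for N11, N12), in the form consumed by `Exit/Bud` (`bx_loc`) -/
theorem bi_p11x (h3 : LlSec3 llBase Fx) (hr : LlRef llBase Fx c C v0) (hf : BiFix Fx X K c C v0 sg Cu) :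
    ∃ (Cm : ℝ) (N0 : ℕ), ∀ N1, N0 ≤ N1 → BdP11X X skWorld (BiFam Fx X N1) Cm := by
  obtain ⟨k, hk, Np, hH⟩ := bi11_pt h3 hr hf.c_pos hf.v0_pos
  refine ⟨max k.C9 0 + k.CK Fx, Np, fun N1 hN => ?_⟩
  exact
    { d_mask := fun F hF v hv => by
        obtain ⟨p, hd, h, P⟩ := hH F hF.1 (hN.trans hF.2.2)
        have hxm : F.xm < 1 := by
          rw [h.xm]
          exact lt_of_le_of_lt (div_le_self (bik_x_pos P.ok).le P.ok.ell1) (by rw [← h.x]; exact BdFr.bds_x_lt_one hF.2.1)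
        exact bi11_d_abs hk h P ⟨hv.1, hv.2.trans hxm⟩
      p8 := bi11_p8 h3 hf hk hH hN
      gam1 := fun C1 ε hε => by
        obtain ⟨N0, h⟩ := bi11_gam1 hf hk hH C1 ε hε
        exact ⟨N0, fun F hF hN0 => h F hF.1 hF.2.1 hN0⟩
      gam2 := fun C1 => by
        obtain ⟨N0, h⟩ := bi11_gam2 hf hk hH C1
        exact ⟨_, N0, fun F hF hN0 => h F hF.1 hF.2.1 hN0⟩ }

end

end Claimed.Agent.R286
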