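import Claimed.Agent.R286.Bud.Inst
import Claimed.Agent.R286.Bud.RigHyp
import Claimed.Agent.R286.LL.PathsRefD
import Claimed.Agent.R286.Exit.BaseProf

/-!
# Row 286 (S0533), LL sec. 7: THE INSTANCE of `BdRhP` (request of N18a to LL 03)      OWNER helper143 (prefix `bir_`, type `BirPt`)

`bi_rhp : LlSec3 llBase Fx → LlRef llBase Fx c C v0 → BiFix .. → ∃ cR, ∀ N1 ≥ cR.N0, BdRhP X skWorld (BiFam Fx X N1) cR`   (`LlRefD` = field `refd` of `LlSec3`).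
* `BirPt .. Fr p hd`  everything that is known at a frame `Fr = btFr llBase Fx p hd ..` of large size: dictionary frame ↔ point, `LlPt.Ref`, `LlPt.RefD`, `LlAdm` and (P5) at the localised points `p.loc hd g 0`, smallness.
  PRODUCER `bir_pt`.
* dictionary: normalised mass `w`, physical mass `v = ℓ w`;   `Fr.K w = ℓ² K(ℓ w) = ξ(ℓ w)`;   `Fr.q w = q(ℓ w)`;   `skWorld.Gam Fr.K = p.GamN` on `[0,∞)` (`bir_tie`);   `deriv (skWorld.Gam Fr.K) t = p.Gam1N t = Γ'(t/ℓ²)/ℓ²` (`bir_gam_deriv`).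
* the masses `(0, v_I)` are `≤ vs/ℓ`, `ℓ v_I ≤ (c_I/c) u` (`bir_vI`).
-/

set_option autoImplicit false

namespace Claimed.Agent.R286

open MeasureTheory Set Filter Topology

noncomputable section

/-! ## 0. the generalised inverse of a bi-Lipschitz differentiable function      (helper106) -/

/-- the generalised inverse of a bi-Lipschitz function: it is Lipschitz -/
theorem bi43_inv_lip {φ : ℝ → ℝ} {s1 lo hi : ℝ} (hs1 : 0 ≤ s1) (hlo : 0 < lo) (h0 : φ 0 = 0)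
    (hL : ∀ s s', 0 ≤ s → s ≤ s' → s' ≤ s1 → lo * (s' - s) ≤ φ s' - φ s ∧ φ s' - φ s ≤ hi * (s' - s))
    {r r' : ℝ} (hr : r ∈ Icc 0 (φ s1)) (hr' : r' ∈ Icc 0 (φ s1)) : |bdInv φ r' - bdInv φ r| ≤ |r' - r| / lo := by
  obtain ⟨m1, e1⟩ := bi43_inv hs1 hlo h0 hL hr.1 hr.2
  obtain ⟨m2, e2⟩ := bi43_inv hs1 hlo h0 hL hr'.1 hr'.2
  rw [le_div_iff₀ hlo]
  rcases le_total (bdInv φ r) (bdInv φ r') with h | h
  · have a := (hL _ _ m1.1 h m2.2).1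
    rw [e1, e2] at a
    rw [abs_of_nonneg (sub_nonneg.2 h)]
    exact (by linarith : (bdInv φ r' - bdInv φ r) * lo ≤ r' - r).trans (le_abs_self _)
  · have a := (hL _ _ m2.1 h m1.2).1
    rw [e1, e2] at a
    rw [abs_sub_comm, abs_of_nonneg (sub_nonneg.2 h), abs_sub_comm]
    exact (by linarith : (bdInv φ r - bdInv φ r') * lo ≤ r - r').trans (le_abs_self _)

/-- the derivative of a function with slopes `≥ lo` on a right neighbourhood -/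
theorem bi43_deriv_ge {φ : ℝ → ℝ} {s s1 lo f' : ℝ} (hs : s < s1) (hL : ∀ s', s ≤ s' → s' ≤ s1 → lo * (s' - s) ≤ φ s' - φ s)
    (hd : HasDerivAt φ f' s) : lo ≤ f' := by
  have h1 : Tendsto (slope φ s) (𝓝[>] s) (𝓝 f') := (hasDerivAt_iff_tendsto_slope_left_right.1 hd).2
  refine ge_of_tendsto h1 ?_
  filter_upwards [Ioo_mem_nhdsGT hs] with s' hs'
  rw [slope_def_field, le_div_iff₀ (by linarith [hs'.1])]
  exact hL s' hs'.1.le hs'.2.le

/-- **inverse function theorem for the generalised inverse** of a bi-Lipschitz function which is differentiable inside -/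
theorem bi43_inv_deriv {φ : ℝ → ℝ} {s1 lo hi : ℝ} (hs1 : 0 ≤ s1) (hlo : 0 < lo) (h0 : φ 0 = 0)
    (hL : ∀ s s', 0 ≤ s → s ≤ s' → s' ≤ s1 → lo * (s' - s) ≤ φ s' - φ s ∧ φ s' - φ s ≤ hi * (s' - s))
    (hd : ∀ s ∈ Ioo 0 s1, DifferentiableAt ℝ φ s) {r : ℝ} (hr : r ∈ Ioo 0 (φ s1)) :
    bdInv φ r ∈ Ioo 0 s1 ∧ lo ≤ deriv φ (bdInv φ r) ∧ HasDerivAt (bdInv φ) (deriv φ (bdInv φ r))⁻¹ r := by
  obtain ⟨m1, e1⟩ := bi43_inv hs1 hlo h0 hL hr.1.le hr.2.le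
  have hm : bdInv φ r ∈ Ioo 0 s1 := by
    refine ⟨lt_of_le_of_ne m1.1 fun h => ?_, lt_of_le_of_ne m1.2 fun h => ?_⟩
    · rw [← h, h0] at e1; exact hr.1.ne e1
    · rw [h] at e1; exact hr.2.ne e1.symm
  have hD := (hd _ hm).hasDerivAt
  have hge : lo ≤ deriv φ (bdInv φ r) :=
    bi43_deriv_ge hm.2 (fun s' h1 h2 => (hL _ s' hm.1.le h1 h2).1) hD
  refine ⟨hm, hge, ?_⟩
  have hnb : Ioo 0 (φ s1) ∈ 𝓝 r := isOpen_Ioo.mem_nhds hr
  have hcont : ContinuousAt (bdInv φ) r := by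
    rw [Metric.continuousAt_iff]
    intro ε hε
    obtain ⟨δ, hδ, hball⟩ := Metric.mem_nhds_iff.1 hnb
    refine ⟨min δ (ε * lo), lt_min hδ (mul_pos hε hlo), fun y hy => ?_⟩
    have hy1 : y ∈ Ioo 0 (φ s1) := hball (lt_of_lt_of_le hy (min_le_left _ _))
    have h2 := bi43_inv_lip hs1 hlo h0 hL ⟨hr.1.le, hr.2.le⟩ ⟨hy1.1.le, hy1.2.le⟩
    rw [Real.dist_eq] at hy ⊢
    refine lt_of_le_of_lt h2 ?_
    rw [div_lt_iff₀ hlo]
    exact lt_of_lt_of_le hy (min_le_right _ _)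
  refine HasDerivAt.of_local_left_inverse hcont hD (hlo.trans_le hge).ne' ?_
  filter_upwards [hnb] with y hy
  exact (bi43_inv hs1 hlo h0 hL hy.1.le hy.2.le).2

/-- `|a - 1/cβ| ≤ ε`, `a ≥ lo` ⟹ `|a⁻¹ - cβ| ≤ cβ ε / lo` -/
theorem bi43_inv_near {a cβ lo ε : ℝ} (hc : 0 < cβ) (hlo : 0 < lo) (ha : lo ≤ a) (h : |a - 1 / cβ| ≤ ε) : |a⁻¹ - cβ| ≤ cβ * ε / lo := by
  have ha0 : 0 < a := hlo.trans_le ha
  have e : a⁻¹ - cβ = -(cβ * (a - 1 / cβ)) / a := by field_simp; ring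
  have hε : 0 ≤ ε := (abs_nonneg _).trans h
  rw [e, abs_div, abs_neg, abs_mul, abs_of_pos hc, abs_of_pos ha0]
  calc cβ * |a - 1 / cβ| / a ≤ cβ * ε / a := by gcongr
    _ ≤ cβ * ε / lo := by gcongr

/-- **all that is known at a frame of large size** -/
structure BirPt (Fx : LlFix) (X : BdFix) (c C v0 CD v1 ca Ca c5 vs : ℝ) (Fr : BdFr) (p : LlPt) (hd : ℕ) : Prop where
  fx : Fx.Ok
  xok : X.Ok
  ok : p.Ok Fx
  sm : p.sm = false
  frO : Fr.Ok X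
  el : Fr.lam = p.lam
  eK : Fr.K = btResc p.ell (p.K Fx llBase)
  eq : Fr.q = fun w => p.q Fx llBase (p.ell * w)
  ed : Fr.d = btResc p.ell ((p.loc hd 0 0).d Fx llBase)
  eb : Fr.b = fun g => btResc p.ell ((p.loc hd g 0).b Fx llBase)
  eh : Fr.h = fun g => btResc p.ell ((p.loc hd g 0).h Fx llBase)
  exm : Fr.xm = p.x / p.ell
  eU : p.U Fx ≤ X.CU * Fr.u
  c_pos : 0 < c
  ca_pos : 0 < ca
  c5_pos : 0 < c5
  ref : p.Ref Fx llBase c C v0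
  refd : p.RefD Fx llBase CD v1
  K0 : p.K Fx llBase 0 = 0
  Kmono : MonotoneOn (p.K Fx llBase) (Icc 0 p.ell)
  bmono : ∀ g ∈ Icc (-4 : ℝ) 4, MonotoneOn ((p.loc hd g 0).b Fx llBase) (Icc 0 p.ell)
  bbd : ∀ g ∈ Icc (-4 : ℝ) 4, ∀ v ∈ Icc 0 p.ell, ca ≤ (p.loc hd g 0).b Fx llBase v ∧ (p.loc hd g 0).b Fx llBase v ≤ Ca
  binc : ∀ g ∈ Icc (-4 : ℝ) 4, ∀ v ∈ Icc 0 p.ell, ∀ v' ∈ Icc 0 p.ell, v ≤ v' →
    (p.loc hd g 0).b Fx llBase v' - (p.loc hd g 0).b Fx llBase v ≤ Ca * Fx.cb * p.lam * v' * (v' - v)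
  /-- (P5) at `z = q(v)` -/
  p5 : ∀ g ∈ Icc (-4 : ℝ) 4, ∀ v ∈ Ioo 0 p.ell,
    c5 * p.lam * (v ^ 2 + p.U Fx ^ 2) ≤ 1 - (p.loc hd g 0).b Fx llBase v * p.Gam1 Fx llBase (p.K Fx llBase v)
  vs_pos : 0 < vs
  vs0 : vs ≤ v0
  vs1 : vs ≤ v1
  vsC : C * vs ≤ v1
  vsh : vs ≤ 1 / 2
  lam_s : C * p.lam * (C * vs) ^ 2 ≤ 1 / 2
  u_s : X.cI * Fr.u ≤ c * vs

section pt

variable {Fx : LlFix} {X : BdFix} {c C v0 CD v1 ca Ca c5 vs : ℝ} {Fr : BdFr} {p : LlPt} {hd : ℕ}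
  (h : BirPt Fx X c C v0 CD v1 ca Ca c5 vs Fr p hd)

include h

/-! ## 1. scales, dictionary -/

theorem bir_ell : 1 ≤ p.ell ∧ 0 < p.ell ∧ p.ell ≤ 2 ∧ p.ell ^ 2 ≤ 2 ∧ 1 ≤ p.ell ^ 2 ∧ p.ell ^ 3 ≤ 2 := by
  have h1 := h.ok.ell1
  have h2 := bi43_ell_sq h.ok.ell1 h.ok.ell2
  exact ⟨h1, by linarith, by nlinarith, h2, one_le_pow₀ h1, lkk_ell3 h.ok⟩

theorem bir_C_pos : 0 < C := h.c_pos.trans_le (h.ref.b0_lo.trans h.ref.b0_hi)

theorem bir_lam_pos : 0 < p.lam := lkk_lam_pos h.ok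

theorem bir_u_pos : 0 < Fr.u := BdFr.bds_u_pos h.frO h.xok

theorem bir_K_eq (w : ℝ) : Fr.K w = p.ell ^ 2 * p.K Fx llBase (p.ell * w) := by rw [h.eK]; rfl

theorem bir_q_eq (w : ℝ) : Fr.q w = p.q Fx llBase (p.ell * w) := by rw [h.eq]

theorem bir_b_eq (g w : ℝ) : Fr.b g w = p.ell ^ 2 * (p.loc hd g 0).b Fx llBase (p.ell * w) := by rw [h.eb]; rfl

theorem bir_a : p.a = p.ell := bi43_a h.sm

theorem bir_K_nonneg (v : ℝ) (hv : v ∈ Icc 0 p.ell) : 0 ≤ p.K Fx llBase v := by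
  have := h.Kmono (left_mem_Icc.2 (bir_ell h).2.1.le) hv hv.1
  rwa [h.K0] at this

theorem bir_clock : IsClock 1 Fr.K := by
  rw [h.eK]
  exact bi43_clock (bir_ell h).2.1 h.Kmono (bir_K_nonneg h)

/-! ## 2. the scalar tie, as functions -/

/-- **`Γ_*` of the frame is the normalised response of the path** -/
theorem bir_tie (t : ℝ) (ht : 0 ≤ t) : skWorld.Gam Fr.K t = p.GamN Fx llBase t := by
  have hclk := bir_clock h
  have ej : p.j = 1 := by simp [LlPt.j, h.sm]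
  have hxs : 0 ≤ llBase.xiS Fx.T := Real.sInf_nonneg fun _ hx => hx.1
  have hd1 : ∀ ξ, 0 ≤ ξ → llDist 1 Fr.K ξ = p.Aprof Fx llBase ξ := fun ξ hξ => by
    rw [h.eK]; exact h.refd.dist ξ hξ
  have p1 : LscProf 1 (llBase.xiS Fx.T) (p.Aprof Fx llBase) := ⟨h.refd.A_mono, h.refd.A_zero.ge, h.refd.A_top, hxs⟩
  have p2 : LscProf 1 (llBase.xiS Fx.T) (llDist 1 Fr.K) := by
    refine ⟨fun x hx y hy hxy => ?_, ENNReal.toReal_nonneg, fun ξ hξ => ?_, hxs⟩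
    · rw [hd1 x hx, hd1 y hy]; exact h.refd.A_mono hx hy hxy
    · rw [hd1 ξ (hxs.trans hξ)]; exact h.refd.A_top ξ hξ
  show bmGam Fr.K t = llMod.Gam (p.Aprof Fx llBase) p.j t
  rw [bi_gam_link Fr.K hclk t ht, ej]
  exact bi43_gam_congr p2 p1 hd1 ht

theorem bir_GamN (s : ℝ) : p.GamN Fx llBase s = p.Gam Fx llBase (s / p.ell ^ 2) := by
  have hl2 : (0 : ℝ) < p.ell ^ 2 := pow_pos (bir_ell h).2.1 2
  unfold LlPt.Gam
  rw [mul_div_cancel₀ _ hl2.ne']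

theorem bir_Gam1N (s : ℝ) : p.Gam1N Fx llBase s = p.Gam1 Fx llBase (s / p.ell ^ 2) / p.ell ^ 2 := by
  have hl2 : (0 : ℝ) < p.ell ^ 2 := pow_pos (bir_ell h).2.1 2
  unfold LlPt.Gam1
  rw [mul_div_cancel₀ _ hl2.ne', mul_div_cancel_left₀ _ hl2.ne']

/-- `Γ' = Γ_1` at positive times -/
theorem bir_Gam_deriv (t : ℝ) (ht : 0 < t) : HasDerivAt (p.Gam Fx llBase) (p.Gam1 Fx llBase t) t := by
  have hc := h.ref.g1_cont
  have e : ∀ s, 0 ≤ s → p.Gam Fx llBase s = ∫ r in (0 : ℝ)..s, p.Gam1 Fx llBase r := fun s hs => by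
    have := h.ref.gam_ftc 0 s le_rfl hs
    rw [h.ref.gam_zero, sub_zero] at this
    exact this
  have hsub : uIcc 0 t ⊆ Ici 0 := by
    rw [uIcc_of_le ht.le]
    exact fun r hr => hr.1
  have h1 := intervalIntegral.integral_hasDerivAt_right ((hc.mono hsub).intervalIntegrable (μ := volume))
    ((hc.mono Ioi_subset_Ici_self).stronglyMeasurableAtFilter isOpen_Ioi t ht)
    (hc.continuousAt (Ici_mem_nhds ht))
  refine h1.congr_of_eventuallyEq ?_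
  filter_upwards [Ioi_mem_nhds ht] with s hs
  exact e s (le_of_lt hs)

/-- **`deriv Γ_* = Γ̂'`** at positive times -/
theorem bir_gam_deriv (t : ℝ) (ht : 0 < t) : HasDerivAt (skWorld.Gam Fr.K) (p.Gam1N Fx llBase t) t := by
  have hl2 : (0 : ℝ) < p.ell ^ 2 := pow_pos (bir_ell h).2.1 2
  have h1 := bir_Gam_deriv h (t / p.ell ^ 2) (div_pos ht hl2)
  have h2 : HasDerivAt (fun s : ℝ => s / p.ell ^ 2) ((p.ell ^ 2)⁻¹) t := by
    simpa [div_eq_mul_inv] using (hasDerivAt_id t).mul_const ((p.ell ^ 2)⁻¹)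
  have h3 := h1.comp t h2
  rw [← div_eq_mul_inv, ← bir_Gam1N h] at h3
  refine h3.congr_of_eventuallyEq ?_
  filter_upwards [Ioi_mem_nhds ht] with s hs
  rw [bir_tie h s (le_of_lt hs), bir_GamN h]
  rfl

/-! ## 3. the range of masses and times -/

theorem bir_vs_mem : vs ∈ Ioo 0 p.a := by
  rw [bir_a h]
  exact ⟨h.vs_pos, by linarith [h.vsh, (bir_ell h).1]⟩

/-- bounds of `Γ'` and of the gap at the times `s ≤ K(vs)` -/
theorem bir_G1_bd (s : ℝ) (hs0 : 0 ≤ s) (hs : s ≤ p.K Fx llBase vs) :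
    1 / (2 * C) ≤ p.Gam1 Fx llBase s ∧ p.Gam1 Fx llBase s ≤ 1 / c ∧ 0 ≤ p.gap Fx llBase s ∧ p.gap Fx llBase s ≤ C * p.lam * s ^ 2 := by
  have hc := h.c_pos
  have hC := bir_C_pos h
  have hl0 := (bir_lam_pos h).le
  have hR := h.ref
  have hKtop : p.ell ^ 2 * p.K Fx llBase vs ≤ llBase.xiS Fx.T := by
    have := hR.K_top vs (bir_vs_mem h)
    simpa [h.sm] using this
  have hKv' : p.K Fx llBase vs ≤ C * vs := hR.K_hi0 vs h.vs_pos h.vs0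
  have g1 : 0 ≤ p.gap Fx llBase s :=
    (mul_nonneg (mul_nonneg hc.le hl0) (le_min (sq_nonneg _) zero_le_one)).trans (hR.gap_lo s hs0)
  have g3 : p.gap Fx llBase s ≤ C * p.lam * s ^ 2 :=
    hR.gap_hi s hs0 ((mul_le_mul_of_nonneg_left hs (sq_nonneg _)).trans hKtop)
  have g2 : p.gap Fx llBase s ≤ 1 / 2 := by
    have h2 : s ^ 2 ≤ (C * vs) ^ 2 := pow_le_pow_left₀ hs0 (hs.trans hKv') 2
    exact (g3.trans (mul_le_mul_of_nonneg_left h2 (mul_nonneg hC.le hl0))).trans h.lam_s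
  have e : p.b0 Fx llBase * p.Gam1 Fx llBase s = 1 - p.gap Fx llBase s := by unfold LlPt.gap; ring
  have hGp := hR.g1_pos s hs0
  refine ⟨?_, ?_, g1, g3⟩
  · rw [div_le_iff₀ (by positivity)]
    have : p.b0 Fx llBase * p.Gam1 Fx llBase s ≤ C * p.Gam1 Fx llBase s := mul_le_mul_of_nonneg_right hR.b0_hi hGp.le
    nlinarith
  · rw [le_div_iff₀ hc]
    have : c * p.Gam1 Fx llBase s ≤ p.b0 Fx llBase * p.Gam1 Fx llBase s := mul_le_mul_of_nonneg_right hR.b0_lo hGp.le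
    nlinarith

/-- increments of `q` of the frame -/
theorem bir_q_incr (s s' : ℝ) (h0 : 0 ≤ s) (hss : s ≤ s') (hs' : s' ≤ vs / p.ell) :
    c / (2 * C) * (s' - s) ≤ Fr.q s' - Fr.q s ∧ Fr.q s' - Fr.q s ≤ 2 * C / c * (s' - s) := by
  obtain ⟨hl1, hl0, hl2, -⟩ := bir_ell h
  have hc := h.c_pos
  have hC := bir_C_pos h
  have h1 := bi43_q_incr h.sm h.ok hc h.ref h.K0 h.vs0 (by linarith [h.vsh]) h.lam_s (p.ell * s) (p.ell * s') (mul_nonneg hl0.le h0)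
    (mul_le_mul_of_nonneg_left hss hl0.le) (by rw [le_div_iff₀ hl0] at hs'; linarith)
  rw [bir_q_eq h, bir_q_eq h]
  have hd0 : 0 ≤ s' - s := by linarith
  have e : p.ell * s' - p.ell * s = p.ell * (s' - s) := by ring
  rw [e] at h1
  have k1 : 0 ≤ c / (2 * C) := by positivity
  have k2 : 0 ≤ C / c := by positivity
  constructor
  · refine le_trans ?_ h1.1
    exact mul_le_mul_of_nonneg_left (le_mul_of_one_le_left hd0 hl1) k1
  · refine le_trans h1.2 ?_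
    calc C / c * (p.ell * (s' - s)) ≤ C / c * (2 * (s' - s)) :=
          mul_le_mul_of_nonneg_left (mul_le_mul_of_nonneg_right hl2 hd0) k2
      _ = 2 * C / c * (s' - s) := by ring

theorem bir_q_zero : Fr.q 0 = 0 := by
  rw [bir_q_eq h, mul_zero]
  show p.Gam Fx llBase (p.K Fx llBase 0) = 0
  rw [h.K0, h.ref.gam_zero]

/-- `β_0` inverts `q` on `[0, c_I u]` -/
theorem bir_inv (r : ℝ) (h0 : 0 ≤ r) (h1 : r ≤ X.cI * Fr.u) : Fr.beta0 r ∈ Icc 0 (vs / p.ell) ∧ Fr.q (Fr.beta0 r) = r := by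
  obtain ⟨hl1, hl0, hl2, -⟩ := bir_ell h
  have hc := h.c_pos
  have hC := bir_C_pos h
  have htop : c * vs ≤ Fr.q (vs / p.ell) := by
    rw [bir_q_eq h, mul_div_cancel₀ _ hl0.ne']
    exact h.ref.q_lo vs (bir_vs_mem h)
  exact bi43_inv (div_nonneg h.vs_pos.le hl0.le) (by positivity) (bir_q_zero h) (bir_q_incr h) h0 ((h1.trans h.u_s).trans htop)

/-- `β_0` is bi-Lipschitz on `[0, c_I u]` -/
theorem bir_beta_incr (r1 r2 : ℝ) (h0 : 0 ≤ r1) (h12 : r1 ≤ r2) (h2 : r2 ≤ X.cI * Fr.u) :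
    c / (2 * C) * (r2 - r1) ≤ Fr.beta0 r2 - Fr.beta0 r1 ∧ Fr.beta0 r2 - Fr.beta0 r1 ≤ 2 * C / c * (r2 - r1) := by
  have hc := h.c_pos
  have hC := bir_C_pos h
  obtain ⟨m1, e1⟩ := bir_inv h r1 h0 (h12.trans h2)
  obtain ⟨m2, e2⟩ := bir_inv h r2 (h0.trans h12) h2
  have hle : Fr.beta0 r1 ≤ Fr.beta0 r2 := by
    by_contra hlt
    rw [not_le] at hlt
    have a := (bir_q_incr h _ _ m2.1 hlt.le m1.2).1
    rw [e1, e2] at a
    have b : 0 < c / (2 * C) * (Fr.beta0 r1 - Fr.beta0 r2) := mul_pos (by positivity) (by linarith)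
    linarith
  have a := bir_q_incr h _ _ m1.1 hle m2.2
  rw [e1, e2] at a
  constructor
  · have := a.2
    rw [div_mul_eq_mul_div, le_div_iff₀ hc] at this
    rw [div_mul_eq_mul_div, div_le_iff₀ (by positivity)]
    nlinarith
  · have := a.1
    rw [div_mul_eq_mul_div, div_le_iff₀ (by positivity)] at this
    rw [div_mul_eq_mul_div, le_div_iff₀ hc]
    nlinarith

/-- the top mass `v_I` -/
theorem bir_vI : Fr.vI X ∈ Icc 0 (vs / p.ell) ∧ Fr.q (Fr.vI X) = X.cI * Fr.u ∧ c * (p.ell * Fr.vI X) ≤ X.cI * Fr.u := by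
  obtain ⟨hl1, hl0, hl2, -⟩ := bir_ell h
  have hcu : 0 ≤ X.cI * Fr.u := mul_nonneg h.xok.cI_pos.le (bir_u_pos h).le
  obtain ⟨m, e⟩ := bir_inv h (X.cI * Fr.u) hcu le_rfl
  refine ⟨m, e, ?_⟩
  rcases eq_or_lt_of_le m.1 with h0 | h0
  · have : Fr.vI X = 0 := h0.symm
    rw [this, mul_zero, mul_zero]; exact hcu
  · have hm : p.ell * Fr.vI X ∈ Ioo 0 p.a := by
      rw [bir_a h]
      have h2 : Fr.vI X ≤ vs / p.ell := m.2
      rw [le_div_iff₀ hl0] at h2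
      exact ⟨mul_pos hl0 h0, by nlinarith [h.vsh]⟩
    have := h.ref.q_lo _ hm
    rw [← bir_q_eq h] at this
    exact this.trans e.le

/-- a mass of `(0, v_I)` in physical units -/
theorem bir_mass (w : ℝ) (hw : w ∈ Ioo 0 (Fr.vI X)) :
    0 < p.ell * w ∧ p.ell * w < vs ∧ p.ell * w ∈ Ioo 0 p.ell ∧ c * (p.ell * w) ≤ X.cI * Fr.u := by
  obtain ⟨hl1, hl0, hl2, -⟩ := bir_ell h
  obtain ⟨m, -, e⟩ := bir_vI h
  have h2 : Fr.vI X ≤ vs / p.ell := m.2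
  rw [le_div_iff₀ hl0] at h2
  have h3 : p.ell * w < p.ell * Fr.vI X := mul_lt_mul_of_pos_left hw.2 hl0
  refine ⟨mul_pos hl0 hw.1, by linarith, ⟨mul_pos hl0 hw.1, by linarith [h.vsh]⟩, ?_⟩
  have := mul_le_mul_of_nonneg_left h3.le h.c_pos.le
  linarith

/-- increments of the physical clock on `[0, vs]` -/
theorem bir_Kinc (v v' : ℝ) (h0 : 0 ≤ v) (hvv : v ≤ v') (hv' : v' ≤ vs) :
    c * (v' - v) ≤ p.K Fx llBase v' - p.K Fx llBase v ∧ p.K Fx llBase v' - p.K Fx llBase v ≤ C * (v' - v) := by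
  have hR := h.ref
  rcases eq_or_lt_of_le (h0.trans hvv) with e0 | hpos
  · have e1 : v = 0 := le_antisymm (by rw [e0]; exact hvv) h0
    rw [← e0, e1]; simp
  rcases eq_or_lt_of_le h0 with e | hv
  · rw [← e, h.K0, sub_zero, sub_zero]
    exact ⟨hR.K_lo0 v' hpos (hv'.trans h.vs0), hR.K_hi0 v' hpos (hv'.trans h.vs0)⟩
  · exact ⟨hR.K_lo v v' hv hvv (hv'.trans h.vs0), hR.K_hi v v' hv hvv (hv'.trans h.vs0)⟩

/-- a time of `(0, t_I)` in physical units -/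
theorem bir_time (t : ℝ) (ht : t ∈ Ioo 0 (Fr.tI X)) :
    0 < t / p.ell ^ 2 ∧ t / p.ell ^ 2 ≤ p.K Fx llBase vs ∧ t / p.ell ^ 2 ≤ C * (X.cI * Fr.u / c) ∧ t / p.ell ^ 2 ≤ v1 := by
  obtain ⟨hl1, hl0, hl2, -⟩ := bir_ell h
  have hl2 : (0 : ℝ) < p.ell ^ 2 := pow_pos hl0 2
  have hC := bir_C_pos h
  obtain ⟨m, -, e⟩ := bir_vI h
  have h2 : Fr.vI X ≤ vs / p.ell := m.2
  rw [le_div_iff₀ hl0] at h2
  have hv0 : 0 ≤ p.ell * Fr.vI X := mul_nonneg hl0.le m.1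
  have e1 : Fr.tI X = p.ell ^ 2 * p.K Fx llBase (p.ell * Fr.vI X) := bir_K_eq h _
  have h3 : t / p.ell ^ 2 < p.K Fx llBase (p.ell * Fr.vI X) := by
    rw [div_lt_iff₀ hl2, mul_comm]
    rw [← e1]; exact ht.2
  have k1 := (bir_Kinc h (p.ell * Fr.vI X) vs hv0 (by linarith) le_rfl).1
  have k2 := (bir_Kinc h 0 (p.ell * Fr.vI X) le_rfl hv0 (by linarith)).2
  have k3 := (bir_Kinc h 0 vs le_rfl h.vs_pos.le le_rfl).2
  rw [h.K0, sub_zero, sub_zero] at k2 k3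
  have k4 : 0 ≤ c * (vs - p.ell * Fr.vI X) := mul_nonneg h.c_pos.le (by linarith)
  have k5 : p.ell * Fr.vI X ≤ X.cI * Fr.u / c := by
    rw [le_div_iff₀ h.c_pos]; linarith
  refine ⟨div_pos ht.1 hl2, by linarith, ?_, by linarith [h.vsC]⟩
  have := mul_le_mul_of_nonneg_left k5 hC.le
  linarith

/-! ## 4. the fields -/

theorem bir_f_q_eq (v : ℝ) (hv : v ∈ Icc (0 : ℝ) (Fr.vI X)) : Fr.q v = skWorld.Gam Fr.K (Fr.K v) := by
  obtain ⟨hl1, hl0, hl2, -⟩ := bir_ell h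
  obtain ⟨m, -, -⟩ := bir_vI h
  have h2 : Fr.vI X ≤ vs / p.ell := m.2
  rw [le_div_iff₀ hl0] at h2
  have hm : p.ell * v ∈ Icc 0 p.ell := ⟨mul_nonneg hl0.le hv.1, by nlinarith [hv.2, h.vsh]⟩
  have hK : 0 ≤ Fr.K v := by
    rw [bir_K_eq h]; exact mul_nonneg (sq_nonneg _) (bir_K_nonneg h _ hm)
  rw [bir_tie h _ hK, bir_K_eq h, bir_q_eq h]
  rfl

theorem bir_f_h_eq (g v : ℝ) (hv : v ∈ Icc Fr.xm 1) : Fr.h g v = Fr.K v - Fr.b g v * Fr.q v + Fr.d v := by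
  obtain ⟨hl1, hl0, hl2, -⟩ := bir_ell h
  have hx : ¬ p.ell * v < p.x := by
    have := hv.1
    rw [h.exm, div_le_iff₀ hl0] at this
    rw [not_lt]; linarith
  have e1 : ∀ g', (p.loc hd g' 0).h Fx llBase (p.ell * v) = if p.ell * v < p.x then 0 else
      (p.K Fx llBase (p.ell * v) - (p.loc hd g' 0).b Fx llBase (p.ell * v) * p.q Fx llBase (p.ell * v)) + p.Hlo Fx (p.ell * v)
        + p.chiL * p.Hlin Fx (p.ell * v) + p.chiE * p.He Fx llBase (p.ell * v) := fun _ => rfl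
  have e2 : (p.loc hd 0 0).d Fx llBase (p.ell * v) = (p.loc hd 0 0).h Fx llBase (p.ell * v)
      - (p.K Fx llBase (p.ell * v) - (p.loc hd 0 0).b Fx llBase (p.ell * v) * p.q Fx llBase (p.ell * v)) := rfl
  have e3 : Fr.h g v = p.ell ^ 2 * (p.loc hd g 0).h Fx llBase (p.ell * v) := by rw [h.eh]; rfl
  have e4 : Fr.d v = p.ell ^ 2 * (p.loc hd 0 0).d Fx llBase (p.ell * v) := by rw [h.ed]; rfl
  rw [e3, e4, e2, e1 g, e1 0, if_neg hx, if_neg hx, bir_K_eq h, bir_b_eq h, bir_q_eq h]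
  ring

theorem bir_f_K_zero : 0 ≤ Fr.K 0 := by
  rw [bir_K_eq h, mul_zero, h.K0, mul_zero]

theorem bir_f_K_slope (w₁ w₂ : ℝ) (h0 : 0 ≤ w₁) (h12 : w₁ ≤ w₂) (h2 : w₂ ≤ Fr.vI X) :
    c * (w₂ - w₁) ≤ Fr.K w₂ - Fr.K w₁ ∧ Fr.K w₂ - Fr.K w₁ ≤ 2 * C * (w₂ - w₁) := by
  obtain ⟨hl1, hl0, -, -, -, hl3⟩ := bir_ell h
  have hC := bir_C_pos h
  obtain ⟨m, -, -⟩ := bir_vI h
  have h3 : Fr.vI X ≤ vs / p.ell := m.2
  rw [le_div_iff₀ hl0] at h3
  have k := bir_Kinc h (p.ell * w₁) (p.ell * w₂) (mul_nonneg hl0.le h0) (mul_le_mul_of_nonneg_left h12 hl0.le)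
    (by nlinarith)
  have hd0 : 0 ≤ w₂ - w₁ := by linarith
  have hl31 : 1 ≤ p.ell ^ 3 := one_le_pow₀ hl1
  have hsq : 0 ≤ p.ell ^ 2 := sq_nonneg _
  rw [bir_K_eq h, bir_K_eq h, ← mul_sub]
  constructor
  · calc c * (w₂ - w₁) ≤ p.ell ^ 3 * (c * (w₂ - w₁)) := le_mul_of_one_le_left (mul_nonneg h.c_pos.le hd0) hl31
      _ = p.ell ^ 2 * (c * (p.ell * w₂ - p.ell * w₁)) := by ring
      _ ≤ _ := mul_le_mul_of_nonneg_left k.1 hsq
  · calc p.ell ^ 2 * (p.K Fx llBase (p.ell * w₂) - p.K Fx llBase (p.ell * w₁))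
        ≤ p.ell ^ 2 * (C * (p.ell * w₂ - p.ell * w₁)) := mul_le_mul_of_nonneg_left k.2 hsq
      _ = p.ell ^ 3 * (C * (w₂ - w₁)) := by ring
      _ ≤ 2 * (C * (w₂ - w₁)) := mul_le_mul_of_nonneg_right hl3 (mul_nonneg hC.le hd0)
      _ = _ := by ring

theorem bir_f_G_mono : MonotoneOn (skWorld.Gam Fr.K) (Ici 0) := by
  intro a ha b hb hab
  have hl2 : (0 : ℝ) < p.ell ^ 2 := pow_pos (bir_ell h).2.1 2
  have ha' : (0 : ℝ) ≤ a := ha
  rw [bir_tie h a ha, bir_tie h b hb, bir_GamN h, bir_GamN h]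
  have hab' : a / p.ell ^ 2 ≤ b / p.ell ^ 2 := div_le_div_of_nonneg_right hab hl2.le
  have h1 := h.ref.gam_ftc (a / p.ell ^ 2) (b / p.ell ^ 2) (div_nonneg ha' hl2.le) hab'
  have h2 : 0 ≤ ∫ s in (a / p.ell ^ 2)..(b / p.ell ^ 2), p.Gam1 Fx llBase s :=
    intervalIntegral.integral_nonneg hab' fun t ht => (h.ref.g1_pos t ((div_nonneg ha' hl2.le).trans ht.1)).le
  linarith

theorem bir_f_G_slope (t : ℝ) (ht : t ∈ Ioo (0 : ℝ) (Fr.tI X)) :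
    1 / (4 * C) ≤ deriv (skWorld.Gam Fr.K) t ∧ deriv (skWorld.Gam Fr.K) t ≤ 1 / c := by
  obtain ⟨-, hl0, -, hs2, hs1, -⟩ := bir_ell h
  have hl2 : (0 : ℝ) < p.ell ^ 2 := pow_pos hl0 2
  have hC := bir_C_pos h
  obtain ⟨t0, t1, -, -⟩ := bir_time h t ht
  obtain ⟨g1, g2, -, -⟩ := bir_G1_bd h _ t0.le t1
  rw [(bir_gam_deriv h t ht.1).deriv, bir_Gam1N h]
  constructor
  · rw [le_div_iff₀ hl2]
    calc 1 / (4 * C) * p.ell ^ 2 ≤ 1 / (4 * C) * 2 := mul_le_mul_of_nonneg_left hs2 (by positivity)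
      _ = 1 / (2 * C) := by field_simp; ring
      _ ≤ _ := g1
  · rw [div_le_iff₀ hl2]
    calc p.Gam1 Fx llBase (t / p.ell ^ 2) ≤ 1 / c := g2
      _ ≤ 1 / c * p.ell ^ 2 := le_mul_of_one_le_right (by have := h.c_pos; positivity) hs1

theorem bir_f_G_lip (t₁ : ℝ) (ht₁ : t₁ ∈ Ioo (0 : ℝ) (Fr.tI X)) (t₂ : ℝ) (ht₂ : t₂ ∈ Ioo (0 : ℝ) (Fr.tI X)) :
    |deriv (skWorld.Gam Fr.K) t₂ - deriv (skWorld.Gam Fr.K) t₁| ≤ |CD| * C * X.cI / c * Fr.lam * Fr.u * |t₂ - t₁| := by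
  wlog h12 : t₁ ≤ t₂ generalizing t₁ t₂
  · rw [abs_sub_comm, abs_sub_comm t₂ t₁]; exact this t₂ ht₂ t₁ ht₁ (le_of_not_ge h12)
  obtain ⟨-, hl0, -, hs2, hs1, -⟩ := bir_ell h
  have hl2 : (0 : ℝ) < p.ell ^ 2 := pow_pos hl0 2
  have hC := bir_C_pos h
  have hlam := (bir_lam_pos h).le
  obtain ⟨a0, -, -, -⟩ := bir_time h t₁ ht₁
  obtain ⟨b0, -, b2, b3⟩ := bir_time h t₂ ht₂
  have hss : t₁ / p.ell ^ 2 ≤ t₂ / p.ell ^ 2 := div_le_div_of_nonneg_right h12 hl2.le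
  have key := h.refd.g1_lip _ _ a0.le hss b3
  rw [(bir_gam_deriv h t₁ ht₁.1).deriv, (bir_gam_deriv h t₂ ht₂.1).deriv, bir_Gam1N h, bir_Gam1N h, ← sub_div, abs_div,
    abs_of_pos hl2, abs_of_nonneg (by linarith : 0 ≤ t₂ - t₁), h.el]
  have hd0 : 0 ≤ t₂ - t₁ := by linarith
  have e1 : t₂ / p.ell ^ 2 - t₁ / p.ell ^ 2 = (t₂ - t₁) / p.ell ^ 2 := by ring
  have e2 : (t₂ - t₁) / p.ell ^ 2 ≤ t₂ - t₁ := div_le_self hd0 hs1
  have e3 : 0 ≤ (t₂ - t₁) / p.ell ^ 2 := div_nonneg hd0 hl2.le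
  have hcu : 0 ≤ C * (X.cI * Fr.u / c) := b0.le.trans b2
  calc |p.Gam1 Fx llBase (t₂ / p.ell ^ 2) - p.Gam1 Fx llBase (t₁ / p.ell ^ 2)| / p.ell ^ 2
      ≤ |p.Gam1 Fx llBase (t₂ / p.ell ^ 2) - p.Gam1 Fx llBase (t₁ / p.ell ^ 2)| := div_le_self (abs_nonneg _) hs1
    _ ≤ CD * p.lam * (t₂ / p.ell ^ 2) * (t₂ / p.ell ^ 2 - t₁ / p.ell ^ 2) := key
    _ = CD * (p.lam * (t₂ / p.ell ^ 2) * ((t₂ - t₁) / p.ell ^ 2)) := by rw [e1]; ring
    _ ≤ |CD| * (p.lam * (t₂ / p.ell ^ 2) * ((t₂ - t₁) / p.ell ^ 2)) :=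
        mul_le_mul_of_nonneg_right (le_abs_self _) (mul_nonneg (mul_nonneg hlam b0.le) e3)
    _ ≤ |CD| * (p.lam * (C * (X.cI * Fr.u / c)) * (t₂ - t₁)) := by
        refine mul_le_mul_of_nonneg_left ?_ (abs_nonneg _)
        exact mul_le_mul (mul_le_mul_of_nonneg_left b2 hlam) e2 e3 (mul_nonneg hlam hcu)
    _ = _ := by ring

theorem bir_f_b_bd (g : ℝ) (hg : g ∈ Icc (-4 : ℝ) 4) (v : ℝ) (hv : v ∈ Ioo (0 : ℝ) (Fr.vI X)) :
    0 ≤ Fr.b g v ∧ Fr.b g v ≤ 2 * Ca := by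
  obtain ⟨-, hl0, -, hs2, hs1, -⟩ := bir_ell h
  obtain ⟨-, -, m, -⟩ := bir_mass h v hv
  obtain ⟨b1, b2⟩ := h.bbd g hg _ (Ioo_subset_Icc_self m)
  have hca := h.ca_pos
  rw [bir_b_eq h]
  constructor
  · exact mul_nonneg (sq_nonneg _) (by linarith)
  · calc p.ell ^ 2 * (p.loc hd g 0).b Fx llBase (p.ell * v) ≤ 2 * (p.loc hd g 0).b Fx llBase (p.ell * v) :=
          mul_le_mul_of_nonneg_right hs2 (by linarith)
      _ ≤ 2 * Ca := by linarith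

theorem bir_f_b_lip (g : ℝ) (hg : g ∈ Icc (-4 : ℝ) 4) (v₁ : ℝ) (hv₁ : v₁ ∈ Ioo (0 : ℝ) (Fr.vI X)) (v₂ : ℝ)
    (hv₂ : v₂ ∈ Ioo (0 : ℝ) (Fr.vI X)) :
    |Fr.b g v₂ - Fr.b g v₁| ≤ 2 * Ca * Fx.cb * X.cI / c * Fr.lam * Fr.u * |v₂ - v₁| := by
  wlog h12 : v₁ ≤ v₂ generalizing v₁ v₂
  · rw [abs_sub_comm, abs_sub_comm v₂ v₁]; exact this v₂ hv₂ v₁ hv₁ (le_of_not_ge h12)
  obtain ⟨-, hl0, -, hs2, hs1, hl3⟩ := bir_ell h
  have hlam := (bir_lam_pos h).le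
  have hc := h.c_pos
  obtain ⟨-, -, m1, -⟩ := bir_mass h v₁ hv₁
  obtain ⟨p2, -, m2, q2⟩ := bir_mass h v₂ hv₂
  have hle : p.ell * v₁ ≤ p.ell * v₂ := mul_le_mul_of_nonneg_left h12 hl0.le
  have k1 := h.bmono g hg (Ioo_subset_Icc_self m1) (Ioo_subset_Icc_self m2) hle
  have k2 := h.binc g hg _ (Ioo_subset_Icc_self m1) _ (Ioo_subset_Icc_self m2) hle
  have hCa : 0 < Ca := lt_of_lt_of_le h.ca_pos ((h.bbd g hg _ (Ioo_subset_Icc_self m1)).1.trans (h.bbd g hg _ (Ioo_subset_Icc_self m1)).2)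
  have hcb := h.fx.cb0
  have hd0 : 0 ≤ v₂ - v₁ := by linarith
  have q3 : p.ell * v₂ ≤ X.cI * Fr.u / c := by rw [le_div_iff₀ hc]; linarith
  rw [bir_b_eq h, bir_b_eq h, ← mul_sub, abs_mul, abs_of_nonneg (sq_nonneg _), abs_of_nonneg (by linarith), abs_of_nonneg hd0, h.el]
  calc p.ell ^ 2 * ((p.loc hd g 0).b Fx llBase (p.ell * v₂) - (p.loc hd g 0).b Fx llBase (p.ell * v₁))
      ≤ p.ell ^ 2 * (Ca * Fx.cb * p.lam * (p.ell * v₂) * (p.ell * v₂ - p.ell * v₁)) := mul_le_mul_of_nonneg_left k2 (sq_nonneg _)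
    _ = p.ell ^ 3 * (Ca * Fx.cb * p.lam * (v₂ - v₁)) * (p.ell * v₂) := by ring
    _ ≤ 2 * (Ca * Fx.cb * p.lam * (v₂ - v₁)) * (X.cI * Fr.u / c) := by
        refine mul_le_mul (mul_le_mul_of_nonneg_right hl3 (by positivity)) q3 p2.le (by positivity)
    _ = _ := by ring

/-- the product `b Γ_*'` in physical units -/
theorem bir_bG (g v : ℝ) (hv : v ∈ Ioo (0 : ℝ) (Fr.vI X)) :
    Fr.b g v * deriv (skWorld.Gam Fr.K) (Fr.K v)
      = (p.loc hd g 0).b Fx llBase (p.ell * v) * p.Gam1 Fx llBase (p.K Fx llBase (p.ell * v)) := by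
  obtain ⟨-, hl0, -, hs2, hs1, hl3⟩ := bir_ell h
  have hl2 : (0 : ℝ) < p.ell ^ 2 := pow_pos hl0 2
  obtain ⟨p1, p2, -, -⟩ := bir_mass h v hv
  have hK : 0 < p.K Fx llBase (p.ell * v) :=
    lt_of_lt_of_le (mul_pos h.c_pos p1) (h.ref.K_lo0 _ p1 (p2.le.trans h.vs0))
  have hK' : 0 < Fr.K v := by rw [bir_K_eq h]; exact mul_pos hl2 hK
  rw [(bir_gam_deriv h _ hK').deriv, bir_Gam1N h, bir_K_eq h, bir_b_eq h, mul_div_cancel_left₀ _ hl2.ne']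
  field_simp

theorem bir_f_D_lo (g : ℝ) (hg : g ∈ Icc (-4 : ℝ) 4) (v : ℝ) (hv : v ∈ Ioo (0 : ℝ) (Fr.vI X)) :
    c5 * Fr.lam * v ^ 2 ≤ 1 - Fr.b g v * deriv (skWorld.Gam Fr.K) (Fr.K v) := by
  obtain ⟨hl1, hl0, -⟩ := bir_ell h
  obtain ⟨p1, -, m, -⟩ := bir_mass h v hv
  rw [bir_bG h g v hv, h.el]
  refine le_trans ?_ (h.p5 g hg _ m)
  have h1 : v ^ 2 ≤ (p.ell * v) ^ 2 := pow_le_pow_left₀ hv.1.le (le_mul_of_one_le_left hv.1.le hl1) 2
  exact mul_le_mul_of_nonneg_left (by nlinarith [sq_nonneg (p.U Fx)]) (mul_nonneg h.c5_pos.le (bir_lam_pos h).le)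

/-- the matrix clock at the origin -/
theorem bir_b_zero (g : ℝ) :
    (p.loc hd g 0).b Fx llBase 0 = p.b0 Fx llBase - Fx.cb * p.lam * p.U Fx ^ 2 * (1 + Fx.c1 * g) := by
  have e1 : (p.loc hd g 0).b Fx llBase 0 = p.b0 Fx llBase + Fx.cb * p.lam * (p.G Fx 0 - p.U Fx ^ 2 - Fx.c1 * g * (p.G Fx 0 + p.U Fx ^ 2)
      - Fx.c1 * (p.loc hd 0 0).dySum Fx 0) := rfl
  have hG : p.G Fx 0 = 0 := by
    unfold LlPt.G
    rw [if_pos h.fx.vb0.le, zero_div, h.fx.G0_zero 0 zero_le_one, mul_zero]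
  have hphi : Fx.phi 0 = 0 := h.fx.phi_supp 0 (by rintro ⟨h1, -⟩; norm_num at h1)
  have hS : (p.loc hd 0 0).dySum Fx 0 = 0 := by
    unfold LlPt.dySum
    refine finsum_eq_zero_of_forall_eq_zero fun k => ?_
    rw [zero_div, hphi, mul_zero, ite_self]
  rw [e1, hG, hS]
  ring

theorem bir_f_D_hi (g : ℝ) (hg : g ∈ Icc (-4 : ℝ) 4) (v : ℝ) (hv : v ∈ Ioo (0 : ℝ) (Fr.vI X)) :
    1 - Fr.b g v * deriv (skWorld.Gam Fr.K) (Fr.K v)
      ≤ (C * (C * X.cI / c) ^ 2 + Fx.cb * (1 + 4 * Fx.c1) * X.CU ^ 2 / c) * Fr.lam * Fr.u ^ 2 := by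
  obtain ⟨hl1, hl0, -⟩ := bir_ell h
  have hc := h.c_pos
  have hC := bir_C_pos h
  have hlam := (bir_lam_pos h).le
  have hu := (bir_u_pos h).le
  obtain ⟨p1, p2, m, q2⟩ := bir_mass h v hv
  have k := bir_Kinc h 0 (p.ell * v) le_rfl p1.le p2.le
  rw [h.K0, sub_zero, sub_zero] at k
  have kv := (bir_Kinc h (p.ell * v) vs p1.le p2.le le_rfl).1
  have hK0 : 0 ≤ p.K Fx llBase (p.ell * v) := (mul_nonneg hc.le p1.le).trans k.1
  have hKs : p.K Fx llBase (p.ell * v) ≤ p.K Fx llBase vs := by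
    have : 0 ≤ c * (vs - p.ell * v) := mul_nonneg hc.le (by linarith)
    linarith
  obtain ⟨-, g2, -, g4⟩ := bir_G1_bd h _ hK0 hKs
  have hGp := (h.ref.g1_pos _ hK0).le
  have hb := h.bmono g hg (left_mem_Icc.2 hl0.le) (Ioo_subset_Icc_self m) p1.le
  rw [bir_b_zero h] at hb
  rw [bir_bG h g v hv, h.el]
  set G := p.Gam1 Fx llBase (p.K Fx llBase (p.ell * v)) with hG
  set bb := (p.loc hd g 0).b Fx llBase (p.ell * v) with hbb
  have e : 1 - bb * G = p.gap Fx llBase (p.K Fx llBase (p.ell * v)) + (p.b0 Fx llBase - bb) * G := by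
    unfold LlPt.gap; ring
  have hU0 : 0 ≤ p.U Fx := by
    unfold LlPt.U
    exact le_min zero_le_one (mul_nonneg (lkk_x_pos h.ok.N2).le (Real.rpow_nonneg hlam _))
  have hU2 : p.U Fx ^ 2 ≤ X.CU ^ 2 * Fr.u ^ 2 := by
    rw [← mul_pow]; exact pow_le_pow_left₀ hU0 h.eU 2
  have hcb := h.fx.cb0
  have hc1 := h.fx.c10
  -- the matrix part
  have y0 : 0 ≤ Fx.cb * p.lam * (X.CU ^ 2 * Fr.u ^ 2) * (1 + 4 * Fx.c1) := by positivity
  have y1 : p.b0 Fx llBase - bb ≤ Fx.cb * p.lam * (X.CU ^ 2 * Fr.u ^ 2) * (1 + 4 * Fx.c1) := by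
    have a1 : Fx.cb * p.lam * p.U Fx ^ 2 * (1 + Fx.c1 * g) ≤ Fx.cb * p.lam * p.U Fx ^ 2 * (1 + 4 * Fx.c1) :=
      mul_le_mul_of_nonneg_left (by nlinarith [hg.2]) (by positivity)
    have a2 : Fx.cb * p.lam * p.U Fx ^ 2 * (1 + 4 * Fx.c1) ≤ Fx.cb * p.lam * (X.CU ^ 2 * Fr.u ^ 2) * (1 + 4 * Fx.c1) :=
      mul_le_mul_of_nonneg_right (mul_le_mul_of_nonneg_left hU2 (by positivity)) (by positivity)
    linarith
  have y2 : (p.b0 Fx llBase - bb) * G ≤ Fx.cb * p.lam * (X.CU ^ 2 * Fr.u ^ 2) * (1 + 4 * Fx.c1) * (1 / c) :=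
    (mul_le_mul_of_nonneg_right y1 hGp).trans (mul_le_mul_of_nonneg_left g2 y0)
  -- the scalar gap
  have q3 : p.ell * v ≤ X.cI * Fr.u / c := by rw [le_div_iff₀ hc]; linarith
  have z1 : p.K Fx llBase (p.ell * v) ≤ C * X.cI / c * Fr.u := by
    calc p.K Fx llBase (p.ell * v) ≤ C * (p.ell * v) := k.2
      _ ≤ C * (X.cI * Fr.u / c) := mul_le_mul_of_nonneg_left q3 hC.le
      _ = _ := by ring
  have z2 : p.K Fx llBase (p.ell * v) ^ 2 ≤ (C * X.cI / c * Fr.u) ^ 2 := pow_le_pow_left₀ hK0 z1 2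
  have z3 : C * p.lam * p.K Fx llBase (p.ell * v) ^ 2 ≤ C * p.lam * (C * X.cI / c * Fr.u) ^ 2 :=
    mul_le_mul_of_nonneg_left z2 (by positivity)
  rw [e]
  calc p.gap Fx llBase (p.K Fx llBase (p.ell * v)) + (p.b0 Fx llBase - bb) * G
      ≤ C * p.lam * (C * X.cI / c * Fr.u) ^ 2 + Fx.cb * p.lam * (X.CU ^ 2 * Fr.u ^ 2) * (1 + 4 * Fx.c1) * (1 / c) := by linarith
    _ = _ := by ring

/-! ## 5. `β_0 = q⁻¹` is `C¹`, `β_0' → κ_T`      (leaves: helper106)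
Notation: `v = ℓ w ∈ (0, vs)`, `s = K(v)`, `G = Γ'(s)`, `D = K'(v)`, `q' = G D ℓ`, `κ = κ_T`, `T = Fx.T`.
`b0 G = 1 - gap(s)`, `0 ≤ gap ≤ C λ s²` (`bir_G1_bd`), `|ℓ² b0 - T| ≤ C λ` (`Ref.b0_T`), `|ℓ³ D - T/κ| ≤ CD (v + λ)` (`RefD.K_der`)
⟹ `q' (ℓ² b0) = (1 - gap)(ℓ³ D)`, `q' - 1/κ = [(ℓ³D - T/κ) - gap ℓ³D - (ℓ² b0 - T)/κ]/(ℓ² b0)`, `ℓ² b0 ≥ c`. -/

/-- the slope of `q` of the frame at the normalised mass `w` -/
def birQ1 (Fx : LlFix) (p : LlPt) (w : ℝ) : ℝ :=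
  p.Gam1 Fx llBase (p.K Fx llBase (p.ell * w)) * (deriv (p.K Fx llBase) (p.ell * w) * p.ell)

/-- chain rule: `Fr.q w = Γ(K(ℓ w))` -/
theorem bir_q_deriv (w : ℝ) (hw : 0 < w) (hw' : p.ell * w < vs) : HasDerivAt Fr.q (birQ1 Fx p w) w := by
  obtain ⟨hl1, hl0, hl2, -⟩ := bir_ell h
  have hv : 0 < p.ell * w := mul_pos hl0 hw
  have hK : 0 < p.K Fx llBase (p.ell * w) := (mul_pos h.c_pos hv).trans_le (h.ref.K_lo0 _ hv (hw'.le.trans h.vs0))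
  have h1 := (bir_Gam_deriv h _ hK).comp (p.ell * w) (h.refd.K_diff _ ⟨hv, lt_of_lt_of_le hw' h.vs1⟩).hasDerivAt
  have h2 : HasDerivAt (fun w : ℝ => p.ell * w) p.ell w := by
    simpa using (hasDerivAt_id w).const_mul p.ell
  have h3 := h1.comp w h2
  rw [h.eq]
  unfold birQ1
  rw [← mul_assoc]
  exact h3

/-- the slope is bounded below (limit of the slopes of `bir_q_incr`) -/
theorem bir_q1_lo (w : ℝ) (hw : 0 < w) (hw' : p.ell * w < vs) : c / (2 * C) ≤ birQ1 Fx p w := by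
  obtain ⟨hl1, hl0, hl2, -⟩ := bir_ell h
  refine bi43_deriv_ge (s := w) (s1 := vs / p.ell) ?_ (fun s' h1 h2 => (bir_q_incr h w s' hw.le h1 h2).1) (bir_q_deriv h w hw hw')
  rw [lt_div_iff₀ hl0]
  linarith

/-- the constant of `bir_q1_near` -/
def birM (Fx : LlFix) (c C CD : ℝ) : ℝ :=
  (|CD| + C ^ 3 * (Fx.T / llBase.kapT Fx.T + 2 * |CD|) + C / llBase.kapT Fx.T) / c

/-- `q' → 1/κ_T` with a rate -/
theorem bir_q1_near (w : ℝ) (hw : 0 < w) (hw' : p.ell * w < vs) :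
    |birQ1 Fx p w - 1 / llBase.kapT Fx.T| ≤ birM Fx c C CD * (p.ell * w + p.lam) := by
  obtain ⟨hell, hell0, -, -⟩ := bir_ell h
  have hc := h.c_pos
  have hC := bir_C_pos h
  have hR := h.ref
  have hκ : 0 < llBase.kapT Fx.T := (exit_baseprof Fx.T h.fx.T1).kap_pos
  have hl0 : 0 ≤ p.lam := (bir_lam_pos h).le
  have hl1 : p.lam ≤ 1 :=
    h.ok.lam_hi.trans (Real.rpow_le_one (lkk_x_pos h.ok.N2).le (lkk_x_lt_one h.ok.N2).le h.fx.pS0.le)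
  have hT : 0 < Fx.T := by linarith [h.fx.T1]
  have hv : 0 < p.ell * w := mul_pos hell0 hw
  have hv0 : p.ell * w ≤ v0 := hw'.le.trans h.vs0
  have hv1 : p.ell * w < v1 := lt_of_lt_of_le hw' h.vs1
  have hv2 : p.ell * w < 1 := by linarith [h.vsh]
  unfold birQ1 birM
  set v := p.ell * w with hvd
  set κ := llBase.kapT Fx.T with hκd
  set t := p.K Fx llBase v with htd
  set G := p.Gam1 Fx llBase t with hGd
  set K' := deriv (p.K Fx llBase) v with hK'd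
  set b0 := p.b0 Fx llBase with hb0d
  have ht0 : 0 ≤ t := (mul_nonneg hc.le hv.le).trans (hR.K_lo0 v hv hv0)
  have htC : t ≤ C * v := hR.K_hi0 v hv hv0
  have hmem : v ∈ Ioo 0 p.a := by rw [bir_a h]; exact ⟨hv, by linarith⟩
  have hKtop : p.ell ^ 2 * t ≤ llBase.xiS Fx.T := by
    have := hR.K_top v hmem
    simpa [h.sm] using this
  have g1 : 0 ≤ p.gap Fx llBase t :=
    (mul_nonneg (mul_nonneg hc.le hl0) (le_min (sq_nonneg _) zero_le_one)).trans (hR.gap_lo t ht0)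
  have g2 : p.gap Fx llBase t ≤ C ^ 3 * p.lam := by
    refine (hR.gap_hi t ht0 hKtop).trans ?_
    have h1 : t ^ 2 ≤ C ^ 2 := by
      refine pow_le_pow_left₀ ht0 (htC.trans ?_) 2
      nlinarith
    calc C * p.lam * t ^ 2 ≤ C * p.lam * C ^ 2 := mul_le_mul_of_nonneg_left h1 (mul_nonneg hC.le hl0)
      _ = C ^ 3 * p.lam := by ring
  have e : b0 * G = 1 - p.gap Fx llBase t := by rw [hb0d, hGd]; unfold LlPt.gap; ring
  have hb0 : c ≤ b0 := hR.b0_lo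
  have hb0p : 0 < b0 := hc.trans_le hb0
  have hx := hR.b0_T
  have hy := h.refd.K_der v ⟨hv, hv1⟩
  rw [← hb0d] at hx
  rw [← hK'd, ← hκd] at hy
  set x := p.ell ^ 2 * b0 with hxd
  set y := p.ell ^ 3 * K' with hyd
  have hxc : c ≤ x := by
    have : (1 : ℝ) ≤ p.ell ^ 2 := one_le_pow₀ hell
    nlinarith
  have hx0 : 0 < x := hc.trans_le hxc
  have hvl : 0 < v + p.lam := by linarith
  have hCD : 0 ≤ CD := by
    have h0 : 0 ≤ CD * (v + p.lam) := (abs_nonneg _).trans hy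
    exact nonneg_of_mul_nonneg_left h0 hvl
  rw [abs_of_nonneg hCD]
  have hyb : |y| ≤ Fx.T / κ + 2 * CD := by
    have h1 : |y| ≤ |y - Fx.T / κ| + |Fx.T / κ| := by
      have := abs_add_le (y - Fx.T / κ) (Fx.T / κ)
      simpa using this
    rw [abs_of_pos (div_pos hT hκ)] at h1
    have h2 : CD * (v + p.lam) ≤ CD * 2 := mul_le_mul_of_nonneg_left (by linarith) hCD
    linarith
  have key : G * (K' * p.ell) - 1 / κ = ((y - Fx.T / κ) - y * p.gap Fx llBase t + (Fx.T - x) / κ) / x := by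
    have hG : G = (1 - p.gap Fx llBase t) / b0 := by rw [← e]; field_simp
    rw [hG, hxd, hyd]
    field_simp
    ring
  rw [key, abs_div, abs_of_pos hx0, div_mul_eq_mul_div]
  have hnum : |(y - Fx.T / κ) - y * p.gap Fx llBase t + (Fx.T - x) / κ|
      ≤ (CD + C ^ 3 * (Fx.T / κ + 2 * CD) + C / κ) * (v + p.lam) := by
    have a1 : |y * p.gap Fx llBase t| ≤ (Fx.T / κ + 2 * CD) * (C ^ 3 * p.lam) := by
      rw [abs_mul, abs_of_nonneg g1]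
      exact mul_le_mul hyb g2 g1 ((abs_nonneg _).trans hyb)
    have a2 : |(Fx.T - x) / κ| ≤ C * p.lam / κ := by
      rw [abs_div, abs_of_pos hκ, abs_sub_comm]
      exact div_le_div_of_nonneg_right hx hκ.le
    have a3 := abs_add_le ((y - Fx.T / κ) - y * p.gap Fx llBase t) ((Fx.T - x) / κ)
    have a4 := abs_sub (y - Fx.T / κ) (y * p.gap Fx llBase t)
    have a5 : (Fx.T / κ + 2 * CD) * (C ^ 3 * p.lam) ≤ (Fx.T / κ + 2 * CD) * C ^ 3 * (v + p.lam) := by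
      have : 0 ≤ (Fx.T / κ + 2 * CD) * C ^ 3 := by positivity
      nlinarith
    have a6 : C * p.lam / κ ≤ C / κ * (v + p.lam) := by
      have : 0 ≤ C / κ := by positivity
      have e2 : C * p.lam / κ = C / κ * p.lam := by ring
      rw [e2]; nlinarith
    have e3 : (CD + C ^ 3 * (Fx.T / κ + 2 * CD) + C / κ) * (v + p.lam)
        = CD * (v + p.lam) + (Fx.T / κ + 2 * CD) * C ^ 3 * (v + p.lam) + C / κ * (v + p.lam) := by ring
    rw [e3]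
    linarith
  have hnn : 0 ≤ (CD + C ^ 3 * (Fx.T / κ + 2 * CD) + C / κ) * (v + p.lam) := (abs_nonneg _).trans hnum
  calc _ ≤ (CD + C ^ 3 * (Fx.T / κ + 2 * CD) + C / κ) * (v + p.lam) / x := div_le_div_of_nonneg_right hnum hx0.le
    _ ≤ (CD + C ^ 3 * (Fx.T / κ + 2 * CD) + C / κ) * (v + p.lam) / c := div_le_div_of_nonneg_left hnn hc hxc

/-- the mass `β_0(r)`, `r ∈ (0, c_I u)`, is interior -/
theorem bir_beta_mem (r : ℝ) (hr : r ∈ Ioo (0 : ℝ) (X.cI * Fr.u)) :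
    0 < Fr.beta0 r ∧ p.ell * Fr.beta0 r < vs ∧ c * (p.ell * Fr.beta0 r) ≤ X.cI * Fr.u := by
  obtain ⟨hl1, hl0, hl2, -⟩ := bir_ell h
  obtain ⟨m, e⟩ := bir_inv h r hr.1.le hr.2.le
  have htop : c * vs ≤ Fr.q (vs / p.ell) := by
    rw [bir_q_eq h, mul_div_cancel₀ _ hl0.ne']
    exact h.ref.q_lo vs (bir_vs_mem h)
  have h1 : 0 < Fr.beta0 r := by
    refine lt_of_le_of_ne m.1 fun h0 => ?_
    rw [← h0, bir_q_zero h] at e
    exact hr.1.ne e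
  have h2 : Fr.beta0 r < vs / p.ell := by
    refine lt_of_le_of_ne m.2 fun h0 => ?_
    rw [h0] at e
    linarith [hr.2, h.u_s]
  rw [lt_div_iff₀ hl0] at h2
  have h3 : p.ell * Fr.beta0 r < vs := by linarith
  refine ⟨h1, h3, ?_⟩
  have hm : p.ell * Fr.beta0 r ∈ Ioo 0 p.a := by
    rw [bir_a h]
    exact ⟨mul_pos hl0 h1, by linarith [h.vsh]⟩
  have := h.ref.q_lo _ hm
  rw [← bir_q_eq h, e] at this
  exact this.trans hr.2.le

/-- inverse function theorem (`HasDerivAt.of_local_left_inverse`; continuity from `bir_beta_incr`, `q ∘ β_0 = id` from `bir_inv`) -/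
theorem bir_beta_deriv (r : ℝ) (hr : r ∈ Ioo (0 : ℝ) (X.cI * Fr.u)) :
    HasDerivAt Fr.beta0 (birQ1 Fx p (Fr.beta0 r))⁻¹ r := by
  obtain ⟨hl1, hl0, hl2, -⟩ := bir_ell h
  have hc := h.c_pos
  have hC := bir_C_pos h
  have htop : c * vs ≤ Fr.q (vs / p.ell) := by
    rw [bir_q_eq h, mul_div_cancel₀ _ hl0.ne']
    exact h.ref.q_lo vs (bir_vs_mem h)
  have hder : ∀ s ∈ Ioo 0 (vs / p.ell), HasDerivAt Fr.q (birQ1 Fx p s) s := fun s hs =>
    bir_q_deriv h s hs.1 (by have := hs.2; rw [lt_div_iff₀ hl0] at this; linarith)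
  obtain ⟨hm, -, hD⟩ := bi43_inv_deriv (div_nonneg h.vs_pos.le hl0.le) (by positivity : 0 < c / (2 * C)) (bir_q_zero h) (bir_q_incr h)
    (fun s hs => (hder s hs).differentiableAt) (r := r) ⟨hr.1, lt_of_lt_of_le hr.2 (h.u_s.trans htop)⟩
  rw [(hder _ hm).deriv] at hD
  exact hD

/-- `|β_0' - κ_T| ≤ 2 κ_T² M (c_I u/c + λ)` as soon as `M (c_I u/c + λ) ≤ 1/(2 κ_T)` -/
theorem bir_beta_near (hs : birM Fx c C CD * (X.cI * Fr.u / c + p.lam) ≤ 1 / (2 * llBase.kapT Fx.T)) (r : ℝ)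
    (hr : r ∈ Ioo (0 : ℝ) (X.cI * Fr.u)) :
    |deriv Fr.beta0 r - llBase.kapT Fx.T| ≤ 2 * llBase.kapT Fx.T ^ 2 * (birM Fx c C CD * (X.cI * Fr.u / c + p.lam)) := by
  have hc := h.c_pos
  have hC := bir_C_pos h
  have hκ : 0 < llBase.kapT Fx.T := (exit_baseprof Fx.T h.fx.T1).kap_pos
  have hT : 0 < Fx.T := by linarith [h.fx.T1]
  have hM : 0 ≤ birM Fx c C CD := by unfold birM; positivity
  obtain ⟨m1, m2, m3⟩ := bir_beta_mem h r hr
  rw [(bir_beta_deriv h r hr).deriv]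
  have h1 := bir_q1_near h _ m1 m2
  have h2 : p.ell * Fr.beta0 r ≤ X.cI * Fr.u / c := by rw [le_div_iff₀ hc]; linarith
  have h3 : |birQ1 Fx p (Fr.beta0 r) - 1 / llBase.kapT Fx.T| ≤ birM Fx c C CD * (X.cI * Fr.u / c + p.lam) :=
    h1.trans (mul_le_mul_of_nonneg_left (by linarith) hM)
  have h4 : 1 / (2 * llBase.kapT Fx.T) ≤ birQ1 Fx p (Fr.beta0 r) := by
    have a := (abs_le.1 (h3.trans hs)).1
    have b : 1 / llBase.kapT Fx.T = 1 / (2 * llBase.kapT Fx.T) + 1 / (2 * llBase.kapT Fx.T) := by field_simp; ring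
    linarith
  refine (bi43_inv_near hκ (by positivity) h4 h3).trans (le_of_eq ?_)
  field_simp

end pt

/-! ## 6. the producers -/

section prod

variable {Fx : LlFix} {X : BdFix} {K : BdCst} {c C v0 sg Cu : ℝ}

/-- **PRODUCER of `BirPt`** -/
theorem bir_pt (h3 : LlSec3 llBase Fx) (hr : LlRef llBase Fx c C v0) (hf : BiFix Fx X K c C v0 sg Cu) {CD v1 : ℝ} (hv1 : 0 < v1)
    (hD : LlRefD llBase Fx CD v1) :
    ∃ (ca Ca c5 vs : ℝ) (N0 : ℕ), 0 < c5 ∧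
      ∀ Fr, BiFam Fx X N0 Fr → ∃ (p : LlPt) (hd : ℕ), BirPt Fx X c C v0 CD v1 ca Ca c5 vs Fr p hd := by
  have hc := hf.c_pos
  have hC : 0 < C := hc.trans_le hf.c_le
  obtain ⟨ca, Ca, hca, Nb, hb⟩ := h3.adm
  obtain ⟨c5, hc5, Ne, he⟩ := h3.p5
  obtain ⟨Na, ha⟩ := hr
  obtain ⟨Nd, hd'⟩ := hD
  obtain ⟨vs, hvs⟩ : ∃ vs : ℝ, vs = min (min v0 (1 / 2)) (min v1 (v1 / C)) := ⟨_, rfl⟩
  have hvsp : 0 < vs := by
    rw [hvs]; exact lt_min (lt_min hf.v0_pos (by norm_num)) (lt_min hv1 (div_pos hv1 hC))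
  obtain ⟨Nf, hf1⟩ := bi43_lam_small hf.ok (ε := 1 / (2 * (C * (C * vs) ^ 2))) (e := 1) (by positivity) one_pos
  obtain ⟨Ng, hg1⟩ := bi43_lam_small hf.ok (ε := c * vs / X.cI) (div_pos (mul_pos hc hvsp) hf.ok.cI_pos) hf.ok.bl_pos
  refine ⟨ca, Ca, c5, vs, Na + Nb + Nd + Ne + Nf + Ng, hc5, fun Fr hF => ?_⟩
  obtain ⟨hFam, hO, hN⟩ := hF
  obtain ⟨p, hd, hp, hs, hdy, eN, el, eu, eell, eK, eq, ed, eb, eh, ecu⟩ := bi43_unf hFam
  have hNa : Na ≤ p.N := by rw [← eN]; omega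
  have hNb : Nb ≤ p.N := by rw [← eN]; omega
  have hNd : Nd ≤ p.N := by rw [← eN]; omega
  have hNe : Ne ≤ p.N := by rw [← eN]; omega
  have hR := ha p hp hNa
  refine ⟨p, hd, ?_⟩
  have hloc : ∀ g ∈ Icc (-4 : ℝ) 4, (p.loc hd g 0).Ok Fx := fun g hg => bi43_loc_ok hp hd hg
  have hA := fun (g : ℝ) (hg : g ∈ Icc (-4 : ℝ) 4) => hb (p.loc hd g 0) (hloc g hg) hNb
  have hKm : MonotoneOn (p.K Fx llBase) (Icc 0 p.ell) := by
    have := (hb p hp hNb).2.2.2.1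
    rwa [bi43_a hs] at this
  exact
    { fx := hf.fx
      xok := hf.ok
      ok := hp
      sm := hs
      frO := hO
      el := el
      eK := eK
      eq := eq
      ed := ed
      eb := eb
      eh := eh
      exm := by unfold BdFr.xm BdFr.x LlPt.x; rw [eN, eell]
      eU := by
        refine le_trans ?_ hO.u_lo
        unfold LlPt.U BdFr.U BdFr.x LlPt.x
        rw [eN, el, hf.tie.sS]
        exact min_le_right _ _
      c_pos := hc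
      ca_pos := hca
      c5_pos := hc5
      ref := hR
      refd := hd' p hp hNd hs
      K0 := bi43_K0 hs hp hf.fx
      Kmono := hKm
      bmono := fun g hg => by
        have := (hA g hg).1
        rwa [bi43_loc_a hs] at this
      bbd := fun g hg v hv => by
        have := (hA g hg).2.2.2.2.2.1 v (by rw [bi43_loc_a hs]; exact hv)
        exact ⟨this.1, this.2.1⟩
      binc := fun g hg v hv v' hv' hvv =>
        (hA g hg).2.2.2.2.2.2.1 v (by rw [bi43_loc_a hs]; exact hv) v' (by rw [bi43_loc_a hs]; exact hv') hvv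
      p5 := fun g hg v hv => by
        have hq0 : 0 ≤ (p.loc hd g 0).q Fx llBase v :=
          (mul_nonneg hc.le hv.1.le).trans (hR.q_lo v (by rw [bi43_a hs]; exact hv))
        have := (he (p.loc hd g 0) (hloc g hg) hNe v (by rw [bi43_loc_a hs]; exact hv) _ hq0).1
        simp only [sub_self, mul_zero, add_zero, intervalIntegral.integral_const, smul_eq_mul, sub_zero, one_mul] at this
        exact this
      vs_pos := hvsp
      vs0 := by rw [hvs]; exact (min_le_left _ _).trans (min_le_left _ _)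
      vs1 := by rw [hvs]; exact (min_le_right _ _).trans (min_le_left _ _)
      vsC := by
        have : vs ≤ v1 / C := by rw [hvs]; exact (min_le_right _ _).trans (min_le_right _ _)
        rw [le_div_iff₀ hC] at this
        linarith
      vsh := by rw [hvs]; exact (min_le_left _ _).trans (min_le_right _ _)
      lam_s := by
        have h1 := hf1 Fr hO (by omega)
        rw [Real.rpow_one, el, le_div_iff₀ (by positivity)] at h1
        linarith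
      u_s := by
        have h1 := hO.u_hi.trans (hg1 Fr hO (by omega))
        rw [le_div_iff₀ hf.ok.cI_pos] at h1
        linarith }

/-- `BdRhP` on the SK objects, constants of `LlRefD` explicit -/
theorem bir_rhp_of (h3 : LlSec3 llBase Fx) (hr : LlRef llBase Fx c C v0) (hf : BiFix Fx X K c C v0 sg Cu) {CD v1 : ℝ} (hv1 : 0 < v1)
    (hD : LlRefD llBase Fx CD v1) :
    ∃ cR : BdRhCst, ∀ N1, cR.N0 ≤ N1 → BdRhP X skWorld (BiFam Fx X N1) cR := by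
  obtain ⟨ca, Ca, c5, vs, N0, hc5, hpt⟩ := bir_pt h3 hr hf hv1 hD
  have hc := hf.c_pos
  have hC : 0 < C := hc.trans_le hf.c_le
  have hT : 0 < Fx.T := by linarith [hf.fx.T1]
  have hκ : 0 < llBase.kapT Fx.T := (exit_baseprof Fx.T hf.fx.T1).kap_pos
  have hg4 : ∀ g ∈ Icc (X.glo 0) (X.ghi 0), g ∈ Icc (-4 : ℝ) 4 := fun g hg => ⟨hf.g_lo.trans hg.1, hg.2.trans hf.g_hi⟩
  refine ⟨⟨N0, llBase.kapT Fx.T, 1 / (4 * C), 1 / c, |CD| * C * X.cI / c, c, 2 * C, 2 * Ca, 2 * Ca * Fx.cb * X.cI / c, c5,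
    C * (C * X.cI / c) ^ 2 + Fx.cb * (1 + 4 * Fx.c1) * X.CU ^ 2 / c⟩, fun N1 hN1 => ?_⟩
  have P : ∀ F, BiFam Fx X N1 F → ∃ (p : LlPt) (hd : ℕ), BirPt Fx X c C v0 CD v1 ca Ca c5 vs F p hd :=
    fun F hF => hpt F (bi_fam_mono hN1 hF)
  exact
    { cβ_pos := hκ
      cG_pos := by positivity
      cK_pos := hc
      cD_pos := hc5
      q_eq := fun F hF _ v hv => by
        obtain ⟨p, hd, h⟩ := P F hF
        exact bir_f_q_eq h v hv
      h_eq := fun F hF _ g v hv => by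
        obtain ⟨p, hd, h⟩ := P F hF
        exact bir_f_h_eq h g v hv
      q_beta := fun F hF _ r hr => by
        obtain ⟨p, hd, h⟩ := P F hF
        exact (bir_inv h r hr.1 hr.2).2
      beta_diff := fun F hF _ r hr => by
        obtain ⟨p, hd, h⟩ := P F hF
        exact (bir_beta_deriv h r hr).differentiableAt
      beta_lim := fun ε hε => by
        have hM : 0 ≤ birM Fx c C CD := by
          unfold birM
          positivity
        obtain ⟨δ, hδ⟩ : ∃ δ : ℝ, δ = min (1 / (2 * llBase.kapT Fx.T * (birM Fx c C CD + 1)))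
            (ε / (2 * llBase.kapT Fx.T ^ 2 * (birM Fx c C CD + 1))) := ⟨_, rfl⟩
        have hδ0 : 0 < δ := by rw [hδ]; exact lt_min (by positivity) (by positivity)
        obtain ⟨Na, ha⟩ := bi43_lam_small hf.ok (ε := δ / 2) (e := 1) (by positivity) one_pos
        obtain ⟨Nb, hb⟩ := bi43_lam_small hf.ok (ε := δ / 2 * c / X.cI)
          (div_pos (by positivity) hf.ok.cI_pos) hf.ok.bl_pos
        refine ⟨max Na Nb, fun F hF hN r hr => ?_⟩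
        obtain ⟨p, hd, h⟩ := P F hF
        have h1 := ha F h.frO ((le_max_left _ _).trans hN)
        rw [Real.rpow_one, h.el] at h1
        have h2 := h.frO.u_hi.trans (hb F h.frO ((le_max_right _ _).trans hN))
        rw [le_div_iff₀ hf.ok.cI_pos] at h2
        have h3' : X.cI * F.u / c ≤ δ / 2 := by rw [div_le_iff₀ hc]; linarith
        have h4 : X.cI * F.u / c + p.lam ≤ δ := by linarith
        have h5 : birM Fx c C CD * (X.cI * F.u / c + p.lam) ≤ (birM Fx c C CD + 1) * δ :=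
          mul_le_mul (by linarith) h4 (add_nonneg (div_nonneg (mul_nonneg hf.ok.cI_pos.le (bir_u_pos h).le) hc.le)
            (bir_lam_pos h).le) (by linarith)
        have d1 : δ ≤ 1 / (2 * llBase.kapT Fx.T * (birM Fx c C CD + 1)) := by rw [hδ]; exact min_le_left _ _
        have d2 : δ ≤ ε / (2 * llBase.kapT Fx.T ^ 2 * (birM Fx c C CD + 1)) := by rw [hδ]; exact min_le_right _ _
        have s1 : (birM Fx c C CD + 1) * δ ≤ 1 / (2 * llBase.kapT Fx.T) := by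
          rw [le_div_iff₀ (by positivity)] at d1 ⊢
          nlinarith
        have s2 : 2 * llBase.kapT Fx.T ^ 2 * ((birM Fx c C CD + 1) * δ) ≤ ε := by
          rw [le_div_iff₀ (by positivity)] at d2
          nlinarith
        refine (bir_beta_near h (h5.trans s1) r hr).trans (le_trans ?_ s2)
        exact mul_le_mul_of_nonneg_left h5 (by positivity)
      K_zero := fun F hF _ => by
        obtain ⟨p, hd, h⟩ := P F hF
        exact bir_f_K_zero h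
      K_slope := fun F hF _ v₁ v₂ h0 h12 h2 => by
        obtain ⟨p, hd, h⟩ := P F hF
        exact bir_f_K_slope h v₁ v₂ h0 h12 h2
      G_mono := fun F hF _ => by
        obtain ⟨p, hd, h⟩ := P F hF
        exact bir_f_G_mono h
      G_diff := fun F hF _ t ht => by
        obtain ⟨p, hd, h⟩ := P F hF
        exact (bir_gam_deriv h t ht.1).differentiableAt
      G_slope := fun F hF _ t ht => by
        obtain ⟨p, hd, h⟩ := P F hF
        exact bir_f_G_slope h t ht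
      G_lip := fun F hF _ t₁ ht₁ t₂ ht₂ => by
        obtain ⟨p, hd, h⟩ := P F hF
        exact bir_f_G_lip h t₁ ht₁ t₂ ht₂
      b_bd := fun F hF _ g hg v hv => by
        obtain ⟨p, hd, h⟩ := P F hF
        exact bir_f_b_bd h g (hg4 g hg) v hv
      b_lip := fun F hF _ g hg v₁ hv₁ v₂ hv₂ => by
        obtain ⟨p, hd, h⟩ := P F hF
        exact bir_f_b_lip h g (hg4 g hg) v₁ hv₁ v₂ hv₂
      D_lo := fun F hF _ g hg v hv => by
        obtain ⟨p, hd, h⟩ := P F hF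
        exact bir_f_D_lo h g (hg4 g hg) v hv
      D_hi := fun F hF _ g hg v hv => by
        obtain ⟨p, hd, h⟩ := P F hF
        exact bir_f_D_hi h g (hg4 g hg) v hv }

/-- **PRODUCER of `BdRhP`** on the SK objects -/
theorem bi_rhp (h3 : LlSec3 llBase Fx) (hr : LlRef llBase Fx c C v0) (hf : BiFix Fx X K c C v0 sg Cu) :
    ∃ cR : BdRhCst, ∀ N1, cR.N0 ≤ N1 → BdRhP X skWorld (BiFam Fx X N1) cR := by
  obtain ⟨CD, v1, hv1, hD⟩ := h3.refd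
  exact bir_rhp_of h3 hr hf hv1 hD

end prod

end

end Claimed.Agent.R286
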