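import Claimed.Agent.R286.Bud.Defs

/-!
# Row 286, LL sec. 7 (budgets), package L07 = `07-budgets.tex` l.549-1150: CONTRACT AND TOP CUT      (head helper12, ADV helper186; prefix `bd7_`, types `Bd7*`)

EXITS (the only statements of l.549-1150 used elsewhere; consumer = L08, l.1151 ff):
* `Bd7C7a`   (C7), first half : `cL v ≤ r(v) ≤ CL v` for `w_c ≤ v ≤ 1`, every optimiser of (C5), uniformly;
* `Bd7C7b`   (C7), second half: `sup_{cu ≤ v ≤ Cu} |r(v) - q(v)| = o(u)`;
* `Bd7C7c`   l.1146-1149      : `S_{α(ρ)} - ρ = o(u)` on compact positive radius bands of scale `u` inside the constant region.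
Prop. 7.7 (modified closure, N8) is used ONLY inside Step 2 of the proof of (C7): `Bd7Clo` below is internal to the package.

FORM.  `Fam : BdFr → Prop` = the family of frames under consideration (at the top: the frames cut out of the actual LL paths); it is a PARAMETER of every contract, the
facts about the bare paths are contracts on `Fam` (`Bd7P9`, ...).      An INSTANCE `Bd7I X` = (frame, global parameter, feasible quantile, test scale).
All statements are UNIFORM (`∃ N0, ∀ instance with N0 ≤ N`); sequences / ultrafilters only inside proofs.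

TOP CUT (proved here): `bd7_C7a_of_excl : Bd7Weak → Bd7Strong → Bd7C7a`   (offending scale within a factor 2 of the supremum ⇒ outer regularity above `2w`; split `C(w) ≤ om0 w²` / `C(w) ≥ om0 w²`).
* `Bd7Weak`   Step 1 (l.889-985)   weak removal: cut in `Bud/L07W*.lean`
* `Bd7Strong` Step 2 (l.990-1105)  strong removal: cut in `Bud/L07S*.lean` (= RIG of helper24 applied to the rescaled optimiser; needs `Bd7Clo`)
-/

set_option autoImplicit false

namespace Claimed.Agent.R286

open MeasureTheory Set Filter Topology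

noncomputable section

/-- the interval of the global parameter on which everything is uniform -/
def BdFix.G0 (X : BdFix) : Set ℝ := Icc (X.glo 0) (X.ghi 0)

/-- **an instance**: frame, global parameter, feasible quantile, test scale -/
structure Bd7I (X : BdFix) where
  F : BdFr
  g : ℝ
  Q : BdQ F X
  w : ℝ

namespace Bd7I

variable {X : BdFix} (i : Bd7I X) (W : BdWorld) (Fam : BdFr → Prop)

/-- standing hypotheses: the frame belongs to the family, the quantile is an optimiser of (C5) at the parameter `g` -/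
structure Std : Prop where
  fam : Fam i.F
  ok : i.F.Ok X
  g_mem : i.g ∈ X.G0
  opt : i.Q.IsOpt W i.g

/-- comparability at the test scale -/
def Good (cL CL : ℝ) : Prop := cL * i.w ≤ i.Q.r i.w ∧ i.Q.r i.w ≤ CL * i.w

/-- the hypotheses of the comparability contradiction: `w ∈ [w_c,1]`, outer regularity above `2w` with the loose constants -/
structure Out (cL CL : ℝ) : Prop extends i.Std W Fam where
  w_lo : i.F.wc X ≤ i.w
  w_hi : i.w ≤ 1
  reg : i.Q.OuterReg i.w cL CL 2

end Bd7I

section exits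

variable (X : BdFix) (W : BdWorld) (Fam : BdFr → Prop)

/-- **(C7), first half**, with the loose constants `cL < CL` -/
def Bd7C7a (cL CL : ℝ) : Prop :=
  ∃ N0 : ℕ, ∀ i : Bd7I X, i.Std W Fam → N0 ≤ i.F.N → i.w ∈ Icc (i.F.wc X) 1 → i.Good cL CL

/-- **(C7), second half** (`i.w` = the tested mass) -/
def Bd7C7b : Prop :=
  ∀ c C η : ℝ, 0 < c → c ≤ C → 0 < η → ∃ N0 : ℕ, ∀ i : Bd7I X, i.Std W Fam → N0 ≤ i.F.N →
    i.w ∈ Icc (c * i.F.u) (C * i.F.u) → |i.Q.r i.w - i.F.q i.w| ≤ η * i.F.u

/-- **l.1146-1149** (`i.w` = the tested RADIUS) -/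
def Bd7C7c : Prop :=
  ∀ c C η : ℝ, 0 < c → c ≤ C → C < X.cI → 0 < η → ∃ N0 : ℕ, ∀ i : Bd7I X, i.Std W Fam → N0 ≤ i.F.N →
    i.w ∈ Icc (c * i.F.u) (C * i.F.u) → |i.Q.Sq W i.g (i.Q.al i.w) - i.w| ≤ η * i.F.u

/-- **Step 1**: a weak-removal violation is impossible -/
def Bd7Weak (cL CL : ℝ) : Prop :=
  ∃ om0 : ℝ, 0 < om0 ∧ ∃ N0 : ℕ, ∀ i : Bd7I X, i.Out W Fam cL CL → N0 ≤ i.F.N →
    i.F.C X i.w ≤ om0 * i.w ^ 2 → i.Good cL CL

/-- **Step 2**: a strong-removal violation is impossible -/
def Bd7Strong (cL CL : ℝ) : Prop :=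
  ∀ cs : ℝ, 0 < cs → ∃ N0 : ℕ, ∀ i : Bd7I X, i.Out W Fam cL CL → N0 ≤ i.F.N →
    i.F.Strong X i.w cs → i.Good cL CL

end exits

/-! ### positivity of the scales -/

namespace BdFr

variable {F : BdFr} {X : BdFix}

theorem x_pos' (h : F.Ok X) : 0 < F.x := by
  have : (0 : ℝ) < F.N := by
    have := h.N2
    exact_mod_cast (by omega : 0 < F.N)
  exact Real.rpow_pos_of_pos this _

theorem lam_pos' (h : F.Ok X) : 0 < F.lam :=
  lt_of_lt_of_le (Real.rpow_pos_of_pos (x_pos' h) _) h.lam_lo

theorem u_pos' (hX : X.Ok) (h : F.Ok X) : 0 < F.u := by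
  have hU : 0 < F.U X := mul_pos (x_pos' h) (Real.rpow_pos_of_pos (lam_pos' h) _)
  have := lt_of_lt_of_le hU h.u_lo
  exact (pos_iff_pos_of_mul_pos this).mp hX.CU_pos

theorem wc_pos' (hX : X.Ok) (h : F.Ok X) : 0 < F.wc X := by
  have hx := x_pos' h
  have hl := lam_pos' h
  have hu := u_pos' hX h
  have hXr : 0 < F.Xr := div_pos hx hu
  have hLam : 0 < F.Lam := Real.rpow_pos_of_pos hl _
  unfold BdFr.wc BdFr.yc
  have h1 : 0 < F.x ^ (-(10 * X.zeta)) := Real.rpow_pos_of_pos hx _
  have h2 : 0 < F.Xr * F.Lam ^ (-(1 / 6) : ℝ) := mul_pos hXr (Real.rpow_pos_of_pos hLam _)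
  have h3 : 0 < F.Xr ^ (3 / 4 : ℝ) * F.lam ^ (0.12 : ℝ) :=
    mul_pos (Real.rpow_pos_of_pos hXr _) (Real.rpow_pos_of_pos hl _)
  positivity

end BdFr

/-! ### the top cut -/

/-- **(C7a) from the two exclusions** (l.874-888: offending mass comparable to the supremum of the offending masses) -/
theorem bd7_C7a_of_excl {X : BdFix} {W : BdWorld} {Fam : BdFr → Prop} {cL CL : ℝ} (hX : X.Ok)
    (hw : Bd7Weak X W Fam cL CL) (hs : Bd7Strong X W Fam cL CL) : Bd7C7a X W Fam cL CL := by
  obtain ⟨om0, hom0, N1, hw⟩ := hw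
  obtain ⟨N2, hs⟩ := hs om0 hom0
  refine ⟨max N1 N2, fun i hi hN hwi => ?_⟩
  by_contra hbad
  -- the set of offending masses
  set Off : Set ℝ := {v | v ∈ Icc (i.F.wc X) 1 ∧ ¬ (cL * v ≤ i.Q.r v ∧ i.Q.r v ≤ CL * v)} with hOff
  have hmem : i.w ∈ Off := ⟨hwi, hbad⟩
  have hbdd : BddAbove Off := ⟨1, fun v hv => hv.1.2⟩
  have hwc : 0 < i.F.wc X := BdFr.wc_pos' hX hi.ok
  set s := sSup Off with hs'
  have hs0 : 0 < s := lt_of_lt_of_le (lt_of_lt_of_le hwc hwi.1) (le_csSup hbdd hmem)
  obtain ⟨w, hwOff, hlt⟩ := exists_lt_of_lt_csSup ⟨i.w, hmem⟩ (show s / 2 < s by linarith)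
  -- the instance at the offending scale
  let j : Bd7I X := ⟨i.F, i.g, i.Q, w⟩
  have hj : j.Out W Fam cL CL :=
    { fam := hi.fam
      ok := hi.ok
      g_mem := hi.g_mem
      opt := hi.opt
      w_lo := hwOff.1.1
      w_hi := hwOff.1.2
      reg := by
        intro v hv1 hv2
        by_contra hv
        have hw0 : 0 < w := lt_of_lt_of_le hwc hwOff.1.1
        have : v ∈ Off := ⟨⟨by
          have : w ≤ v := by
            have : (2:ℝ) * w ≤ v := hv1
            linarith
          exact hwOff.1.1.trans this, hv2⟩, hv⟩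
        have h1 := le_csSup hbdd this
        have h2 : (2:ℝ) * w ≤ v := hv1
        linarith }
  have hgood : j.Good cL CL := by
    rcases le_total (j.F.C X j.w) (om0 * j.w ^ 2) with h | h
    · exact hw j hj ((le_max_left _ _).trans hN) h
    · exact hs j hj ((le_max_right _ _).trans hN) h
  exact hwOff.2 hgood

end

end Claimed.Agent.R286
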