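import Claimed.Agent.R286.Bud.L07C
import Claimed.Agent.R286.Bud.Star
import Claimed.Agent.R286.Bud.StarX
import Claimed.Agent.R286.Cav.Gam
import Claimed.Agent.R286.Exit.ScBd7

/-!
# Row 286, LL sec. 7, package L07, node N8 = PROP. 7.7, layer 2: THE SUPPLY `Bd7CSup` OF THE CAVITY INPUTS      (owner helper33; chief of N8 helper76; prefix `bd7ca_`, types `Bd7C*`)
TEX[LL:bud:modified-closure]  `07-budgets.tex` l.573-612 (item (i) of the proof: "verify the replacement inputs").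

TARGET: `Bd7CSup` of `Bud/L07C.lean` = the changed path of a strong instance satisfies `CavP.Ok`, `CavP.Star` (76, `Cav/Lim.lean`) at `(n, x, W, T) = (m, w, W, T_m)`.
* sec. 1  `Bd7CF` = the same inputs IN THE MASS COORDINATE (values of `bq`, `hq`, `Sq`, `Dq`; integrals in the mass);  `bd7ca_ok`, `bd7ca_star` : `Bd7CF ⟹ CavP.Ok ∧ CavP.Star`      (dictionary world ↔ Hub; PROVED)
* sec. 2  THE ASKS (each a `def … : Prop`; OWNER in brackets)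
* sec. 3  arithmetic of the scales;   sec. 4  the fields;   sec. 5  `bd7ca_sup : asks ⟹ Bd7CSup` (76; the seven fields of Lemma 7.6 + (C10) come from `bcs_x_cav` of 190, `Bud/StarX`; `Bd7CC10` is no longer an ask).
* sec. 6  `bd7ca_gam : IsHub → Bd7Adm → Bd7CGam` (76): PROVED from `cvg_main` (266) + `sb7_gam` (265).
-/

set_option autoImplicit false

namespace Claimed.Agent.R286

open MeasureTheory Set Filter Topology

noncomputable section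

/-! ## 0. clocks at positions -/

theorem bd7ca_at_le {c : ℝ → ℝ} (hc : GhClk1 1 c) {p : GhPos} (hp : p.Ok 1) {u : ℝ} (hu : p.u < u) (hu1 : u ≤ 1) :
    ghAt 1 c p ≤ c u := by
  have hm := gh_os_clamp_mono zero_le_one hc
  have h1 := gh_os_at_le_right zero_le_one hc hp.2.2.2
  have h2 : Function.rightLim (ghClamp 1 c) p.u ≤ ghClamp 1 c u := hm.rightLim_le hu
  have h3 : ghClamp 1 c u = c u := by
    unfold ghClamp
    rw [if_neg (not_lt.2 (hp.1.trans hu.le)), min_eq_left hu1]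
  linarith

theorem bd7ca_at_ge {c : ℝ → ℝ} (hc : GhClk1 1 c) {p : GhPos} (hp : p.Ok 1) {u : ℝ} (hu0 : 0 ≤ u) (hu : u < p.u) :
    c u ≤ ghAt 1 c p := by
  have hm := gh_os_clamp_mono zero_le_one hc
  have h1 := gh_os_at_ge_left zero_le_one hc hp.2.2.1
  have h2 : ghClamp 1 c u ≤ Function.leftLim (ghClamp 1 c) p.u := hm.le_leftLim hu
  have h3 : ghClamp 1 c u = c u := by
    unfold ghClamp
    rw [if_neg (not_lt.2 hu0), min_eq_left (hu.le.trans hp.2.1)]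
  linarith

theorem bd7ca_atA_ge {c : ℝ → ℝ} (hc : GhClk1 1 c) {u : ℝ} (hu0 : 0 ≤ u) (hu1 : u ≤ 1) : c u ≤ ghAt 1 c (ghPosA u) := by
  have hm := gh_os_clamp_mono zero_le_one hc
  rw [gh_os_at_posA]
  have h2 : ghClamp 1 c u ≤ Function.rightLim (ghClamp 1 c) u := hm.le_rightLim le_rfl
  have h3 : ghClamp 1 c u = c u := by
    unfold ghClamp
    rw [if_neg (not_lt.2 hu0), min_eq_left hu1]
  linarith

theorem bd7ca_ext_eq (c : ℝ → ℝ) {u : ℝ} (hu : u ∈ Ioo (0 : ℝ) 1) : bmExt c u = c u := by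
  unfold bmExt
  rw [if_neg (not_le.2 hu.1), if_pos hu.2]

theorem bd7ca_ext_one_le {c : ℝ → ℝ} {K : ℝ} (h : ∀ v ∈ Ioo (0 : ℝ) 1, c v ≤ K) : bmExt c 1 ≤ K := by
  unfold bmExt
  rw [if_neg (by norm_num), if_neg (by norm_num)]
  refine csSup_le ⟨c (1 / 2), ⟨1 / 2, ⟨by norm_num, by norm_num⟩, rfl⟩⟩ ?_
  rintro _ ⟨v, hv, rfl⟩
  exact h v hv

theorem bd7ca_posA_u (v : ℝ) : (ghPosA v).u = v := rfl

theorem bd7ca_posA_lt {v : ℝ} {p : GhPos} (hp : p.Ok 1) (h : ghPosA v < p) : v < p.u := by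
  rcases (gh_os_pos_lt_iff _ _).1 h with h | ⟨-, h⟩
  · exact h
  · exact absurd hp.2.2.2 (not_le.2 h)

theorem bd7ca_posA_lt' {v v' : ℝ} (h : v < v') : ghPosA v < ghPosA v' := (gh_os_pos_lt_iff _ _).2 (Or.inl h)

theorem bd7ca_lt_of_u {p q : GhPos} (h : p.u < q.u) : p < q := (gh_os_pos_lt_iff _ _).2 (Or.inl h)

/-! ## 1. the inputs in the mass coordinate -/

namespace Bd7I

variable {X : BdFix} (i : Bd7I X)

/-- `E (R - c)^{2k}` for a pair of the changed path which splits at the position `p` -/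
def mom (p : GhPos) (c : ℝ) (k : ℕ) : ℝ :=
  skCNu i.F.m 1 (i.Q.bE i.g) (i.Q.hE i.g) 2 (ghR2 p) fun σ => (skOv (σ 0) (σ 1) - c) ^ (2 * k)

/-- `E (R_01 - R_02)^{2k}`: the label `0` leaves `1, 2` at `p0`; `1, 2` split at `pv` -/
def res (p0 pv : GhPos) (k : ℕ) : ℝ :=
  skCNu i.F.m 1 (i.Q.bE i.g) (i.Q.hE i.g) 3 (cvlR3 p0 pv) fun σ => (skOv (σ 0) (σ 1) - skOv (σ 0) (σ 2)) ^ (2 * k)

end Bd7I

/-- **the cavity inputs of one strong instance in the mass coordinate**: `vX = U_x`, `vs = *`, `vU = U` are MASSES -/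
structure Bd7CF {X : BdFix} (i : Bd7I X) (W : BdWorld) (C c' C' ρ : ℝ) (Cp : ℕ → ℝ) (kM : ℕ) (sv et vX vs vU : ℝ) : Prop where
  m2 : 2 ≤ i.F.m
  clkb : IsClock 1 (i.Q.bq i.g)
  clkh : IsClock 1 (i.Q.hq i.g)
  w0 : 0 < i.w
  WC : i.F.Wsc X i.w ≤ C'
  sv0 : 0 < sv
  sv1 : sv ≤ i.w ^ ρ
  et0 : 0 < et
  nx : 1 ≤ sv ^ 2 * i.F.m * i.w ^ 6
  Cp0 : ∀ k, 0 < Cp k
  tot : ∀ v ∈ Ioo (0 : ℝ) 1, i.Q.bq i.g v ≤ C' ∧ i.Q.hq i.g v ≤ C'
  raw : ∀ p : GhPos, p.Ok 1 → ∀ k, 1 ≤ k → k ≤ kM → i.mom p 0 k ≤ (Cp k * (p.u + i.w)) ^ (2 * k)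
  C0 : 0 ≤ C
  CX : C * i.w ≤ vX
  band : C < C'
  XLo : c' * i.w ≤ vX
  XHi : vX < C' * i.w
  hHi : ∀ v ∈ Ioo (0 : ℝ) 1, vX ≤ v → i.Q.hq i.g v ≤ C' / 2 * v
  low : ∫ v in (0 : ℝ)..vU, i.Q.Dq W i.g v < et * i.w ^ 2
  highX : ∀ v : ℝ, vX ≤ v → v ≤ 1 → 2 * ∫ t in vX..v, i.Q.Dq2 W i.g t ≤ v * (sv * i.w) ^ 2
  Bs : C * i.w < vs
  sU : vs ≤ vU
  XU : vX ≤ vU
  ULo : c' * i.F.Wsc X i.w ≤ vU
  UHi : vU < C' * i.F.Wsc X i.w
  U1 : vU < 1
  SLo : c' * i.F.Wsc X i.w < i.Q.Sq W i.g vs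
  Dst : i.Q.Dq W i.g vs < sv * i.w ^ 2 / i.F.Wsc X i.w
  mom : ∀ k, 1 ≤ k → k ≤ kM → i.mom (ghPosA vs) (i.Q.Sq W i.g vs) k ≤ (Cp k * sv * i.F.Wsc X i.w) ^ (2 * k)
  T1 : 1 ≤ i.F.Tm
  TC : i.F.Tm ≤ C'
  vs2 : 2 * vs < 1
  bst : ∀ v, vs ≤ v → v ≤ 2 * vs → |i.Q.bq i.g v - i.F.Tm| ≤ C' * i.F.Wsc X i.w ^ 2
  hst : i.Q.hq i.g (2 * vs) ≤ C' * i.F.Wsc X i.w ^ 3
  highU : ∀ v : ℝ, vU ≤ v → v ≤ 1 → 2 * ∫ t in vU..v, i.Q.Dq2 W i.g t ≤ v * (sv * i.w ^ 2 / i.F.Wsc X i.w) ^ 2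
  resU : ∀ p0 pv : GhPos, p0.Ok 1 → pv.Ok 1 → (p0 ≤ ghPosA (C * i.w) ∨ p0 = ghPosA vs) → ghPosA vU < pv → ∀ k, 1 ≤ k → k ≤ kM →
    i.res p0 pv k ≤ (Cp k * (sv * (i.w ^ 3 / (i.F.Wsc X i.w * Real.sqrt (i.F.Wsc X i.w)))) / Real.sqrt pv.u) ^ (2 * k)
  /-- field length: masses `vs ≤ v1 < v2 ≤ v3 < u` -/
  fld : ∀ u : ℝ, vU < u → u ≤ 1 → ∃ v1 v2 v3 : ℝ, vs ≤ v1 ∧ v1 < v2 ∧ v2 ≤ v3 ∧ v3 < u ∧
    (i.F.Wsc X i.w * Real.sqrt (i.F.Wsc X i.w) * u) ^ 2 ≤ (sv * i.w ^ 3) ^ 2 * (v1 ^ 2 * (i.F.m * (i.Q.hq i.g v3 - i.Q.hq i.g v2)))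

theorem bd7ca_eqns_cite : True := by
  have := @Bd7I.mom.eq_1
  have := @Bd7I.res.eq_1
  trivial

section dict

variable {X : BdFix} {i : Bd7I X} {W : BdWorld} {C c' C' ρ : ℝ} {Cp : ℕ → ℝ} {kM : ℕ} {sv et vX vs vU : ℝ}

theorem bd7ca_S_eq (hW : W.IsHub) (hm : 0 < i.F.m) (hb : IsClock 1 (i.Q.bq i.g)) (hh : IsClock 1 (i.Q.hq i.g)) {v : ℝ}
    (hv : v ∈ Ioo (0 : ℝ) 1) : skCS i.F.m 1 (i.Q.bE i.g) (i.Q.hE i.g) (ghPosA v) = i.Q.Sq W i.g v :=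
  (hW.S _ hm _ _ hb hh v hv).symm

theorem bd7ca_D_eq (hW : W.IsHub) (hm : 0 < i.F.m) (hb : IsClock 1 (i.Q.bq i.g)) (hh : IsClock 1 (i.Q.hq i.g)) {v : ℝ}
    (hv : v ∈ Ioo (0 : ℝ) 1) : cvDC i.F.m (i.Q.bE i.g) (i.Q.hE i.g) (ghPosA v) = i.Q.Dq W i.g v := by
  have eB : skCB i.F.m 1 (i.Q.bE i.g) (i.Q.hE i.g) (ghPosA v) = i.Q.Bq W i.g v := (hW.B _ hm _ _ hb hh v hv).symm
  unfold cvDC BdQ.Dq BdQ.Dq2
  rw [bd7ca_S_eq hW hm hb hh hv, eB]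

/-- integrability of `D` -/
theorem bd7ca_int_D (hst : Bd7CSt i W) : IntegrableOn (i.Q.Dq W i.g) (Ioc 0 1) := by
  rw [integrableOn_Ioc_iff_integrableOn_Ioo]
  have h1 : AEMeasurable (i.Q.Sq W i.g) (volume.restrict (Ioo 0 1)) := aemeasurable_restrict_of_monotoneOn measurableSet_Ioo hst.Sm
  have h2 : AEMeasurable (i.Q.Bq W i.g) (volume.restrict (Ioo 0 1)) := aemeasurable_restrict_of_monotoneOn measurableSet_Ioo hst.Bm
  have hc : IntegrableOn (fun _ : ℝ => (1 : ℝ)) (Ioo (0 : ℝ) 1) := integrableOn_const (by simp)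
  refine Integrable.mono' hc (h2.sub (h1.pow_const 2)).sqrt.aestronglyMeasurable ?_
  refine (ae_restrict_iff' measurableSet_Ioo).2 (Eventually.of_forall fun v hv => ?_)
  rw [Real.norm_eq_abs]
  unfold BdQ.Dq
  rw [abs_of_nonneg (Real.sqrt_nonneg _)]
  exact Real.sqrt_le_one.2 (hst.D1 v hv)

/-- integrability of `D²` -/
theorem bd7ca_int_D2 (hst : Bd7CSt i W) : IntegrableOn (i.Q.Dq2 W i.g) (Ioc 0 1) := by
  rw [integrableOn_Ioc_iff_integrableOn_Ioo]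
  refine bd7c_int_D2 measurableSet_Ioo (by simp) hst.Sm hst.Bm fun v hv => ?_
  exact abs_le.2 ⟨by have := hst.D0 v hv; unfold BdQ.Dq2 at this; linarith, hst.D1 v hv⟩

theorem bd7ca_int_congr {f g : ℝ → ℝ} {a b : ℝ} (ha : 0 ≤ a) (hab : a ≤ b) (hb : b ≤ 1) (h : ∀ v ∈ Ioo (0 : ℝ) 1, f v = g v) :
    ∫ v in a..b, f v = ∫ v in a..b, g v := by
  rw [intervalIntegral.integral_of_le hab, intervalIntegral.integral_of_le hab, integral_Ioc_eq_integral_Ioo,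
    integral_Ioc_eq_integral_Ioo]
  exact setIntegral_congr_fun measurableSet_Ioo fun v hv => h v ⟨lt_of_le_of_lt ha hv.1, lt_of_lt_of_le hv.2 hb⟩

theorem bd7ca_D2_eq (hW : W.IsHub) (hm : 0 < i.F.m) (hb : IsClock 1 (i.Q.bq i.g)) (hh : IsClock 1 (i.Q.hq i.g)) (hst : Bd7CSt i W) {v : ℝ}
    (hv : v ∈ Ioo (0 : ℝ) 1) : cvDC i.F.m (i.Q.bE i.g) (i.Q.hE i.g) (ghPosA v) ^ 2 = i.Q.Dq2 W i.g v := by
  rw [bd7ca_D_eq hW hm hb hh hv]
  exact Real.sq_sqrt (hst.D0 v hv)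

theorem bd7ca_hE_le (h : Bd7CF i W C c' C' ρ Cp kM sv et vX vs vU) {p : GhPos} (hp : p.Ok 1) (hX : vX < p.u) :
    ghAt 1 (i.Q.hE i.g) p ≤ C' * p.u := by
  have hc : GhClk1 1 (i.Q.hE i.g) := bd7c_ext_clk h.clkh
  have hvX : 0 ≤ vX := (mul_nonneg h.C0 h.w0.le).trans h.CX
  have hu0 : 0 < p.u := lt_of_le_of_lt hvX hX
  have hC' : 0 ≤ C' := h.C0.trans h.band.le
  rcases hp.2.1.lt_or_eq with h1 | h1
  · -- `u < 1`: look at `u' = min (2u) ((1+u)/2)`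
    set u' := min (2 * p.u) ((1 + p.u) / 2) with hu'
    have a1 : p.u < u' := lt_min (by linarith) (by linarith)
    have a2 : u' < 1 := lt_of_le_of_lt (min_le_right _ _) (by linarith)
    have a3 : u' ≤ 2 * p.u := min_le_left _ _
    have hI : u' ∈ Ioo (0 : ℝ) 1 := ⟨hu0.trans a1, a2⟩
    have b1 := bd7ca_at_le hc hp a1 a2.le
    have b2 : i.Q.hE i.g u' = i.Q.hq i.g u' := bd7ca_ext_eq _ hI
    have b3 := h.hHi u' hI (hX.le.trans a1.le)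
    have b4 : C' / 2 * u' ≤ C' / 2 * (2 * p.u) := mul_le_mul_of_nonneg_left a3 (by linarith)
    calc ghAt 1 (i.Q.hE i.g) p ≤ i.Q.hq i.g u' := b2 ▸ b1
      _ ≤ C' / 2 * (2 * p.u) := b3.trans b4
      _ = C' * p.u := by ring
  · have b1 := (gh_pk_at_bd zero_le_one hc hp).2
    have b2 : i.Q.hE i.g 1 ≤ C' := by
      refine bd7ca_ext_one_le fun v hv => (h.tot v hv).2
    rw [h1, mul_one]
    exact b1.trans b2

/-- **dictionary, scale `w`** -/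
theorem bd7ca_ok (hW : W.IsHub) (h : Bd7CF i W C c' C' ρ Cp kM sv et vX vs vU) :
    (i.cav C sv et (ghPosA vX) (ghPosA vs) (ghPosA vU)).Ok c' C' ρ Cp kM := by
  have hm : 0 < i.F.m := lt_of_lt_of_le (by norm_num) h.m2
  have hst := bd7c_stat i W (hW.a1 _) h.clkb h.clkh
  have hCw : 0 ≤ C * i.w := mul_nonneg h.C0 h.w0.le
  have hvX : 0 ≤ vX := hCw.trans h.CX
  have hX1 : vX < 1 := lt_of_le_of_lt h.XU h.U1
  have hD : ∀ v ∈ Ioo (0 : ℝ) 1, cvDC i.F.m (i.Q.bE i.g) (i.Q.hE i.g) (ghPosA v) = i.Q.Dq W i.g v :=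
    fun v hv => bd7ca_D_eq hW hm h.clkb h.clkh hv
  have hDi := bd7ca_int_D hst
  exact
    { n2 := h.m2
      clk := ⟨bd7c_ext_clk h.clkb, bd7c_ext_clk h.clkh⟩
      x0 := h.w0
      xW := le_max_left _ _
      WC := h.WC
      sv0 := h.sv0
      sv1 := h.sv1
      et0 := h.et0
      nx := h.nx
      Cp0 := h.Cp0
      totB := by
        have e : ghAt 1 (i.Q.bE i.g) (ghPosA 1) ≤ C' := by
          rw [gh_os_at_top 1 _ zero_le_one]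
          exact bd7ca_ext_one_le fun v hv => (h.tot v hv).1
        exact e
      totH := by
        have e : ghAt 1 (i.Q.hE i.g) (ghPosA 1) ≤ C' := by
          rw [gh_os_at_top 1 _ zero_le_one]
          exact bd7ca_ext_one_le fun v hv => (h.tot v hv).2
        exact e
      raw := h.raw
      pBok := gh_os_posA_ok hCw (h.CX.trans hX1.le)
      pXok := gh_os_posA_ok hvX hX1.le
      pBX := bd7c_posA_le h.CX
      band := mul_lt_mul_of_pos_right h.band h.w0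
      UxLo := h.XLo
      UxHi := h.XHi
      Ux1 := hX1
      hHi := fun p hp hpX => bd7ca_hE_le h hp (bd7ca_posA_lt hp hpX)
      lowX := by
        have e1 : ∫ v in (0 : ℝ)..vX, cvDC i.F.m (i.Q.bE i.g) (i.Q.hE i.g) (ghPosA v) = ∫ v in (0 : ℝ)..vX, i.Q.Dq W i.g v :=
          bd7ca_int_congr le_rfl hvX hX1.le hD
        have e2 : ∫ v in (0 : ℝ)..vX, i.Q.Dq W i.g v ≤ ∫ v in (0 : ℝ)..vU, i.Q.Dq W i.g v := by
          refine intervalIntegral.integral_mono_interval le_rfl hvX h.XU ?_ ?_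
          · exact (ae_restrict_iff' measurableSet_Ioc).2 (Eventually.of_forall fun v _ => Real.sqrt_nonneg _)
          · rw [intervalIntegrable_iff_integrableOn_Ioc_of_le (hvX.trans h.XU)]
            exact hDi.mono_set (Ioc_subset_Ioc_right h.U1.le)
        have e : ∫ v in (0 : ℝ)..vX, cvDC i.F.m (i.Q.bE i.g) (i.Q.hE i.g) (ghPosA v) < et * i.w ^ 2 := by
          rw [e1]; exact lt_of_le_of_lt e2 h.low
        exact e
      highX := by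
        intro v h1 h2
        have e1 : ∫ t in vX..v, cvDC i.F.m (i.Q.bE i.g) (i.Q.hE i.g) (ghPosA t) ^ 2 = ∫ t in vX..v, i.Q.Dq2 W i.g t :=
          bd7ca_int_congr hvX h1 h2 fun t ht => bd7ca_D2_eq hW hm h.clkb h.clkh hst ht
        have e : 2 * ∫ t in vX..v, cvDC i.F.m (i.Q.bE i.g) (i.Q.hE i.g) (ghPosA t) ^ 2 ≤ v * (sv * i.w) ^ 2 := by
          rw [e1]; exact h.highX v h1 h2
        exact e }

/-- **dictionary, scale `W`** -/
theorem bd7ca_star (hW : W.IsHub) (h : Bd7CF i W C c' C' ρ Cp kM sv et vX vs vU) :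
    (i.cav C sv et (ghPosA vX) (ghPosA vs) (ghPosA vU)).Star c' C' Cp kM := by
  have hm : 0 < i.F.m := lt_of_lt_of_le (by norm_num) h.m2
  have hst := bd7c_stat i W (hW.a1 _) h.clkb h.clkh
  have hCw : 0 ≤ C * i.w := mul_nonneg h.C0 h.w0.le
  have hvX : 0 ≤ vX := hCw.trans h.CX
  have hvs : 0 < vs := lt_of_le_of_lt hCw h.Bs
  have hvU : 0 < vU := lt_of_lt_of_le hvs h.sU
  have hs1 : vs < 1 := lt_of_le_of_lt h.sU h.U1
  have hsI : vs ∈ Ioo (0 : ℝ) 1 := ⟨hvs, hs1⟩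
  have h2I : 2 * vs ∈ Ioo (0 : ℝ) 1 := ⟨by linarith, h.vs2⟩
  have hcb : GhClk1 1 (i.Q.bE i.g) := bd7c_ext_clk h.clkb
  have hch : GhClk1 1 (i.Q.hE i.g) := bd7c_ext_clk h.clkh
  have hsok : (ghPosA vs).Ok 1 := gh_os_posA_ok hvs.le hs1.le
  exact
    { psok := hsok
      pUok := gh_os_posA_ok hvU.le h.U1.le
      pBs := bd7ca_posA_lt' h.Bs
      psU := bd7c_posA_le h.sU
      pXU := bd7c_posA_le h.XU
      ULo := h.ULo
      UHi := h.UHi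
      U1 := h.U1
      SLo := by
        have e : c' * i.F.Wsc X i.w < skCS i.F.m 1 (i.Q.bE i.g) (i.Q.hE i.g) (ghPosA vs) := by
          rw [bd7ca_S_eq hW hm h.clkb h.clkh hsI]; exact h.SLo
        exact e
      Dst := by
        have e : cvDC i.F.m (i.Q.bE i.g) (i.Q.hE i.g) (ghPosA vs) < sv * i.w ^ 2 / i.F.Wsc X i.w := by
          rw [bd7ca_D_eq hW hm h.clkb h.clkh hsI]; exact h.Dst
        exact e
      mom := by
        intro k hk1 hk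
        have e : i.mom (ghPosA vs) (skCS i.F.m 1 (i.Q.bE i.g) (i.Q.hE i.g) (ghPosA vs)) k ≤ (Cp k * sv * i.F.Wsc X i.w) ^ (2 * k) := by
          rw [bd7ca_S_eq hW hm h.clkb h.clkh hsI]; exact h.mom k hk1 hk
        exact e
      T1 := h.T1
      TC := h.TC
      bst := by
        have a1 : i.Q.bq i.g vs ≤ ghAt 1 (i.Q.bE i.g) (ghPosA vs) := by
          have := bd7ca_atA_ge hcb hvs.le hs1.le
          rwa [show i.Q.bE i.g vs = i.Q.bq i.g vs from bd7ca_ext_eq _ hsI] at this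
        have a2 : ghAt 1 (i.Q.bE i.g) (ghPosA vs) ≤ i.Q.bq i.g (2 * vs) := by
          have := bd7ca_at_le hcb hsok (u := 2 * vs) (by rw [bd7ca_posA_u]; linarith) h.vs2.le
          rwa [show i.Q.bE i.g (2 * vs) = i.Q.bq i.g (2 * vs) from bd7ca_ext_eq _ h2I] at this
        have b1 := abs_le.1 (h.bst vs le_rfl (by linarith))
        have b2 := abs_le.1 (h.bst (2 * vs) (by linarith) le_rfl)
        have e : |ghAt 1 (i.Q.bE i.g) (ghPosA vs) - i.F.Tm| ≤ C' * i.F.Wsc X i.w ^ 2 :=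
          abs_le.2 ⟨by linarith [b1.1], by linarith [b2.2]⟩
        exact e
      hst := by
        have a2 : ghAt 1 (i.Q.hE i.g) (ghPosA vs) ≤ i.Q.hq i.g (2 * vs) := by
          have := bd7ca_at_le hch hsok (u := 2 * vs) (by rw [bd7ca_posA_u]; linarith) h.vs2.le
          rwa [show i.Q.hE i.g (2 * vs) = i.Q.hq i.g (2 * vs) from bd7ca_ext_eq _ h2I] at this
        exact a2.trans h.hst
      lowU := by
        have e1 : ∫ v in (0 : ℝ)..vU, cvDC i.F.m (i.Q.bE i.g) (i.Q.hE i.g) (ghPosA v) = ∫ v in (0 : ℝ)..vU, i.Q.Dq W i.g v :=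
          bd7ca_int_congr le_rfl hvU.le h.U1.le fun v hv => bd7ca_D_eq hW hm h.clkb h.clkh hv
        have e : ∫ v in (0 : ℝ)..vU, cvDC i.F.m (i.Q.bE i.g) (i.Q.hE i.g) (ghPosA v) < et * i.w ^ 2 := by
          rw [e1]; exact h.low
        exact e
      highU := by
        intro v h1 h2
        have e1 : ∫ t in vU..v, cvDC i.F.m (i.Q.bE i.g) (i.Q.hE i.g) (ghPosA t) ^ 2 = ∫ t in vU..v, i.Q.Dq2 W i.g t :=
          bd7ca_int_congr hvU.le h1 h2 fun t ht => bd7ca_D2_eq hW hm h.clkb h.clkh hst ht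
        have e : 2 * ∫ t in vU..v, cvDC i.F.m (i.Q.bE i.g) (i.Q.hE i.g) (ghPosA t) ^ 2 ≤ v * (sv * i.w ^ 2 / i.F.Wsc X i.w) ^ 2 := by
          rw [e1]; exact h.highU v h1 h2
        exact e
      resU := h.resU
      fld := by
        intro p hp hpU
        have hu : vU < p.u := bd7ca_posA_lt hp hpU
        obtain ⟨v1, v2, v3, a1, a2, a3, a4, a5⟩ := h.fld p.u hu hp.2.1
        have hv1 : 0 < v1 := lt_of_lt_of_le hvs a1
        have hv31 : v3 < 1 := lt_of_lt_of_le a4 hp.2.1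
        have h2I' : v2 ∈ Ioo (0 : ℝ) 1 := ⟨hv1.trans a2, lt_of_le_of_lt a3 hv31⟩
        have h3I' : v3 ∈ Ioo (0 : ℝ) 1 := ⟨lt_of_lt_of_le h2I'.1 a3, hv31⟩
        have h1ok : (ghPosA v1).Ok 1 := gh_os_posA_ok hv1.le (a2.le.trans h2I'.2.le)
        refine ⟨ghPosA v1, h1ok, bd7c_posA_le a1, bd7ca_lt_of_u (by rw [bd7ca_posA_u]; linarith), ?_⟩
        have b1 : ghAt 1 (i.Q.hE i.g) (ghPosA v1) ≤ i.Q.hq i.g v2 := by
          have := bd7ca_at_le hch h1ok (u := v2) (by rw [bd7ca_posA_u]; exact a2) h2I'.2.le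
          rwa [show i.Q.hE i.g v2 = i.Q.hq i.g v2 from bd7ca_ext_eq _ h2I'] at this
        have b2 : i.Q.hq i.g v3 ≤ ghAt 1 (i.Q.hE i.g) p := by
          have := bd7ca_at_ge hch hp h3I'.1.le a4
          rwa [show i.Q.hE i.g v3 = i.Q.hq i.g v3 from bd7ca_ext_eq _ h3I'] at this
        have b3 : (sv * i.w ^ 3) ^ 2 * (v1 ^ 2 * (i.F.m * (i.Q.hq i.g v3 - i.Q.hq i.g v2)))
            ≤ (sv * i.w ^ 3) ^ 2 * (v1 ^ 2 * (i.F.m * (ghAt 1 (i.Q.hE i.g) p - ghAt 1 (i.Q.hE i.g) (ghPosA v1)))) := by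
          refine mul_le_mul_of_nonneg_left (mul_le_mul_of_nonneg_left (mul_le_mul_of_nonneg_left (by linarith) (Nat.cast_nonneg _))
            (sq_nonneg _)) (sq_nonneg _)
        exact a5.trans b3 }

end dict

/-! ## 2. THE ASKS -/

section asks

variable (X : BdFix) (W : BdWorld) (Fam : BdFr → Prop)

/-- **(C8), all even moments, at EVERY position** (LL Lemma 7.4, l.236-241: "at every specified revelation cut and fork"; = `exit_cmp_raw` for the class (C5)).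
ORDER: the constants `Cr k` before the sizes.      [OWNER: N5, helper109/helper7, `Bud/RawExit.lean`]      TEX[LL:bud:outer-moments] -/
def Bd7CRaw (cL CL : ℝ) : Prop :=
  ∀ cs : ℝ, 0 < cs → ∃ Cr : ℕ → ℝ, (∀ k, 0 < Cr k) ∧ ∀ k, 1 ≤ k → ∃ N0 : ℕ, ∀ i : Bd7I X, i.Str W Fam cL CL cs → N0 ≤ i.F.N →
    ∀ p : GhPos, p.Ok 1 → i.mom p 0 k ≤ (Cr k * (p.u + i.w)) ^ (2 * k)

/-- **the post-projection bound (16)** (LL Lemma 7.4, l.247-249: "when a preceding regular projection interval of comparable scale fits, the synchronized two-branch residual has norm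
`O_{p,∘}(x³/(v √C(v)))`"; = `exit_cmp_res_u` for the class (C5)).   The threshold `Kr` does not depend on the moment order; `x^(-ε)` = the subpower loss.
[OWNER: N5, helper109/helper7, `Bud/RawExit.lean`]      TEX[LL:bud:outer-moments] -/
def Bd7CRes (cL CL : ℝ) : Prop :=
  ∀ cs : ℝ, 0 < cs → ∃ Kr : ℝ, 1 ≤ Kr ∧ ∀ k, 1 ≤ k → ∀ ε : ℝ, 0 < ε → ∃ (K : ℝ) (N0 : ℕ), 0 < K ∧
    ∀ i : Bd7I X, i.Str W Fam cL CL cs → N0 ≤ i.F.N → ∀ p0 pv : GhPos, p0.Ok 1 → pv.Ok 1 → Kr * (p0.u + i.w) ≤ pv.u →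
      i.res p0 pv k ≤ (K * i.F.x ^ (-ε) * (i.F.x ^ 3 / (pv.u * Real.sqrt (i.F.C X pv.u)))) ^ (2 * k)

end asks

/-- **(C10) on ALL the regular mass dyads** `Kr w ≤ v ≤ 1/2` (`BcsC10` of 190 stops at `v ≤ u`; (18) needs all of them).      [OWNER: N6, helper111: `bos_c10_core` covers `4w ≤ v ≤ 1/2`]      TEX[LL:bud:outer-second] -/
def Bd7CC10 {X : BdFix} (W : BdWorld) (P : BcsIn X → Prop) : Prop :=
  ∃ Kr clo chi : ℝ, 1 ≤ Kr ∧ 0 < clo ∧ clo ≤ chi ∧ ∀ ε : ℝ, 0 < ε → ∃ (Cc : ℝ) (N0 : ℕ), 0 < Cc ∧ ∀ I, P I → N0 ≤ I.F.N →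
    ∀ v : ℝ, Kr * I.w ≤ v → 2 * v ≤ 1 →
      ∫ t in v..(2 * v), I.D2 W t ≤ v * (Cc * I.F.x ^ (-ε) * bcsR10 I.F X clo chi v) ^ 2

theorem bd7ca_asks_eqns_cite : True := by
  have := @Bd7CRaw.eq_1
  have := @Bd7CRes.eq_1
  have := @Bd7CC10.eq_1
  trivial

/-! ## 3. arithmetic of the scales -/

section arith

variable {X : BdFix} {F : BdFr}

theorem bd7ca_x_pow_le (h : F.Ok X) {a b : ℝ} (hab : b ≤ a) : F.x ^ a ≤ F.x ^ b :=
  Real.rpow_le_rpow_of_exponent_ge (BdFr.x_pos' h) (bd7_ar_x_lt_one h).le hab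

/-- `w ≥ w_c ≥ x^(1-10ζ)` -/
theorem bd7ca_w_ge (hX : X.Ok) (h : F.Ok X) {w : ℝ} (hw : F.wc X ≤ w) : F.x ^ (1 - 10 * X.zeta) ≤ w := by
  have hx := BdFr.x_pos' h
  refine le_trans ?_ ((bd7_ar_wc_ge hX h).trans hw)
  have h2 : 1 ≤ F.Lam ^ (-(1 / 6) : ℝ) :=
    Real.one_le_rpow_of_pos_of_le_one_of_nonpos (bd7_ar_Lam_pos h) (bd7_ar_Lam_le_one hX h) (by norm_num)
  have e : F.x ^ (1 - 10 * X.zeta) = F.x ^ (-(10 * X.zeta)) * (F.x * 1) := by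
    rw [mul_one, ← Real.rpow_add_one hx.ne']
    congr 1; ring
  rw [e]
  have := Real.rpow_pos_of_pos hx (-(10 * X.zeta))
  gcongr

/-- `x³ ≤ x^(30ζ) w³` -/
theorem bd7ca_xw3 (hX : X.Ok) (h : F.Ok X) {w : ℝ} (hw : F.wc X ≤ w) : F.x ^ 3 ≤ F.x ^ (30 * X.zeta) * w ^ 3 := by
  have hx := BdFr.x_pos' h
  have h1 := bd7ca_w_ge hX h hw
  have h2 : (F.x ^ (1 - 10 * X.zeta)) ^ 3 ≤ w ^ 3 := pow_le_pow_left₀ (Real.rpow_pos_of_pos hx _).le h1 3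
  have e : F.x ^ 3 = F.x ^ (30 * X.zeta) * (F.x ^ (1 - 10 * X.zeta)) ^ 3 := by
    rw [← Real.rpow_natCast (F.x ^ (1 - 10 * X.zeta)) 3, ← Real.rpow_mul hx.le, ← Real.rpow_add hx, ← Real.rpow_natCast F.x 3]
    congr 1; push_cast; ring
  rw [e]
  exact mul_le_mul_of_nonneg_left h2 (Real.rpow_pos_of_pos hx _).le

/-- `x^(3ζ) m w⁶ → ∞` -/
theorem bd7ca_big (hX : X.Ok) (A : ℝ) :
    ∃ N0 : ℕ, ∀ F : BdFr, F.Ok X → N0 ≤ F.N → ∀ w : ℝ, F.wc X ≤ w → A ≤ F.x ^ (3 * X.zeta) * F.m * w ^ 6 := by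
  have hz := hX.zeta_pos
  obtain ⟨N0, hN0⟩ := bd7_ar_x_small X (a := 57 * X.zeta) (ε := 1 / (2 * (|A| + 1))) (by positivity) (by positivity)
  refine ⟨N0, fun F h hN w hw => ?_⟩
  have hx := BdFr.x_pos' h
  have h1 := bd7ca_w_ge hX h hw
  have h2 : (F.x ^ (1 - 10 * X.zeta)) ^ 6 ≤ w ^ 6 := pow_le_pow_left₀ (Real.rpow_pos_of_pos hx _).le h1 6
  have hNpos : (0 : ℝ) < F.N := by
    have := h.N2
    exact_mod_cast (by omega : 0 < F.N)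
  have hNx : (F.N : ℝ) = F.x ^ (-(6 : ℝ)) := by
    unfold BdFr.x
    rw [← Real.rpow_mul hNpos.le]
    norm_num
  have h3 : F.x ^ (-(6 : ℝ)) / 2 ≤ F.m := by rw [← hNx]; exact h.m_lo
  have h4 := hN0 F h hN
  have hp57 : 0 < F.x ^ (57 * X.zeta) := Real.rpow_pos_of_pos hx _
  have h5 : |A| + 1 ≤ F.x ^ (-(57 * X.zeta)) / 2 := by
    rw [Real.rpow_neg hx.le, le_div_iff₀ (by norm_num : (0 : ℝ) < 2), ← one_div, le_div_iff₀ hp57]
    have : F.x ^ (57 * X.zeta) * (2 * (|A| + 1)) ≤ 1 := by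
      rw [← le_div_iff₀ (by positivity)]; exact h4
    linarith
  have e : F.x ^ (3 * X.zeta) * (F.x ^ (-(6 : ℝ)) / 2) * (F.x ^ (1 - 10 * X.zeta)) ^ 6 = F.x ^ (-(57 * X.zeta)) / 2 := by
    rw [← Real.rpow_natCast (F.x ^ (1 - 10 * X.zeta)) 6, ← Real.rpow_mul hx.le]
    have : F.x ^ (3 * X.zeta) * (F.x ^ (-(6 : ℝ)) / 2) * F.x ^ ((1 - 10 * X.zeta) * ((6 : ℕ) : ℝ))
        = F.x ^ (3 * X.zeta) * F.x ^ (-(6 : ℝ)) * F.x ^ ((1 - 10 * X.zeta) * ((6 : ℕ) : ℝ)) / 2 := by ring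
    rw [this, ← Real.rpow_add hx, ← Real.rpow_add hx]
    congr 2; push_cast; ring
  have hp3 : 0 < F.x ^ (3 * X.zeta) := Real.rpow_pos_of_pos hx _
  calc A ≤ |A| + 1 := by linarith [le_abs_self A]
    _ ≤ F.x ^ (-(57 * X.zeta)) / 2 := h5
    _ = F.x ^ (3 * X.zeta) * (F.x ^ (-(6 : ℝ)) / 2) * (F.x ^ (1 - 10 * X.zeta)) ^ 6 := e.symm
    _ ≤ F.x ^ (3 * X.zeta) * F.m * w ^ 6 := by
        have hm0 : (0 : ℝ) ≤ F.m := Nat.cast_nonneg _
        gcongr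

end arith

section arith2

variable {X : BdFix} {F : BdFr}

/-- `v C(v) ≥ min(1,cs) W³` above `W`   (`r C(r)` is nondecreasing; `C(W) = C0 ≥ min(1,cs) W²`) -/
theorem bd7ca_vC (hX : X.Ok) (h : F.Ok X) {cs i0 Kb w : ℝ} (hcs : 0 < cs) (hKb : 1 ≤ Kb) (hS : BcsScale F X cs i0 Kb w) {v : ℝ}
    (hv : F.Wsc X w ≤ v) : min 1 cs * F.Wsc X w ^ 3 ≤ v * F.C X v := by
  have hW0 : 0 < F.Wsc X w := lt_of_lt_of_le hS.w0 hS.wW
  have hmono := cm_re_mono (F.call X) (bd7_ar_dPE_pos hX h) (bd7_ar_C0_pos hX h).le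
  have h1 : F.Wsc X w * F.C X (F.Wsc X w) ≤ v * F.C X v := hmono (mem_Ici.2 hW0.le) (mem_Ici.2 (hW0.le.trans hv)) hv
  have h2 : F.C X (F.Wsc X w) = F.C0 := hS.flat _ (by nlinarith)
  have hmm : min 1 cs * max 1 (1 / cs) = 1 := by
    rcases le_total 1 cs with hc | hc
    · rw [min_eq_left hc, max_eq_left (by rw [div_le_one hcs]; exact hc), one_mul]
    · rw [min_eq_right hc, max_eq_right (by rw [le_div_iff₀ hcs]; linarith)]
      field_simp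
  have hmin : 0 < min 1 cs := lt_min one_pos hcs
  have h3 : min 1 cs * F.Wsc X w ^ 2 ≤ F.C0 := by
    calc min 1 cs * F.Wsc X w ^ 2 ≤ min 1 cs * (max 1 (1 / cs) * F.C0) := mul_le_mul_of_nonneg_left hS.W_hi hmin.le
      _ = F.C0 := by rw [← mul_assoc, hmm, one_mul]
  calc min 1 cs * F.Wsc X w ^ 3 = F.Wsc X w * (min 1 cs * F.Wsc X w ^ 2) := by ring
    _ ≤ F.Wsc X w * F.C0 := mul_le_mul_of_nonneg_left h3 hW0.le
    _ = F.Wsc X w * F.C X (F.Wsc X w) := by rw [h2]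
    _ ≤ _ := h1

/-- the logarithmic loss of the field slope -/
def BdFr.lgC (F : BdFr) (X : BdFix) : ℝ := 1 + Real.log (1 + F.C0 / F.dPE X ^ 3)

theorem bd7ca_lg_eqns_cite : True := by
  have := @BdFr.lgC.eq_1
  trivial

theorem bd7ca_lg_ge (hX : X.Ok) (h : F.Ok X) : 1 ≤ F.lgC X := by
  unfold BdFr.lgC
  have h1 : 0 ≤ F.C0 / F.dPE X ^ 3 := div_nonneg (bd7_ar_C0_pos hX h).le (pow_pos (bd7_ar_dPE_pos hX h) 3).le
  have := Real.log_nonneg (by linarith : (1 : ℝ) ≤ 1 + F.C0 / F.dPE X ^ 3)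
  linarith

/-- `1 + log(1 + C0/d³) ≤ K x^(-ζ)` -/
theorem bd7ca_lg_le (hX : X.Ok) : ∃ K : ℝ, 0 < K ∧ ∀ F : BdFr, F.Ok X → F.lgC X ≤ K * F.x ^ (-X.zeta) := by
  have hz := hX.zeta_pos
  have hcd := hX.cd_pos
  have hCU := hX.CU_pos
  have hB : 0 < 1 + X.CU / X.cd ^ 3 := by positivity
  refine ⟨1 + (1 + X.CU / X.cd ^ 3) ^ X.zeta / X.zeta, by positivity, fun F h => ?_⟩
  have hx := BdFr.x_pos' h
  have hx1 := (bd7_ar_x_lt_one h).le
  have hu := BdFr.u_pos' hX h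
  have hl := BdFr.lam_pos' h
  have hC0 := bd7_ar_C0_pos hX h
  have hxU : F.x ≤ F.U X := by
    unfold BdFr.U
    have hs : 0 ≤ X.sS / 2 := by
      unfold BdFix.sS
      have := hX.tau_le
      linarith
    have : 1 ≤ F.lam ^ (-(X.sS / 2)) :=
      Real.one_le_rpow_of_pos_of_le_one_of_nonpos hl (bd7_ar_lam_le_one hX h) (by linarith)
    nlinarith
  have hxu : F.x ≤ X.CU * F.u := hxU.trans h.u_lo
  have e1 : F.C0 / F.dPE X ^ 3 = 1 / (X.cd ^ 3 * F.u) := by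
    rw [bud_gb_d_cube h]; field_simp
  have h2 : 1 / (X.cd ^ 3 * F.u) ≤ X.CU / X.cd ^ 3 / F.x := by
    rw [div_div, div_le_div_iff₀ (by positivity) (by positivity)]
    nlinarith [pow_pos hcd 3]
  have h3 : 1 + F.C0 / F.dPE X ^ 3 ≤ (1 + X.CU / X.cd ^ 3) / F.x := by
    rw [e1, add_div]
    have : 1 ≤ 1 / F.x := by rw [le_div_iff₀ hx]; linarith
    linarith
  have h4 : 0 < 1 + F.C0 / F.dPE X ^ 3 := by
    have : 0 ≤ F.C0 / F.dPE X ^ 3 := by rw [e1]; positivity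
    linarith
  have h5 : Real.log (1 + F.C0 / F.dPE X ^ 3) ≤ (1 + F.C0 / F.dPE X ^ 3) ^ X.zeta / X.zeta := Real.log_le_rpow_div h4.le hz
  have h6 : (1 + F.C0 / F.dPE X ^ 3) ^ X.zeta ≤ (1 + X.CU / X.cd ^ 3) ^ X.zeta * F.x ^ (-X.zeta) := by
    calc (1 + F.C0 / F.dPE X ^ 3) ^ X.zeta ≤ ((1 + X.CU / X.cd ^ 3) / F.x) ^ X.zeta := Real.rpow_le_rpow h4.le h3 hz.le
      _ = (1 + X.CU / X.cd ^ 3) ^ X.zeta * F.x ^ (-X.zeta) := by
          rw [Real.div_rpow hB.le hx.le, Real.rpow_neg hx.le, div_eq_mul_inv]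
  have h7 : 1 ≤ F.x ^ (-X.zeta) := Real.one_le_rpow_of_pos_of_le_one_of_nonpos hx hx1 (by linarith)
  unfold BdFr.lgC
  calc 1 + Real.log (1 + F.C0 / F.dPE X ^ 3) ≤ F.x ^ (-X.zeta) + (1 + X.CU / X.cd ^ 3) ^ X.zeta * F.x ^ (-X.zeta) / X.zeta := by
        have := div_le_div_of_nonneg_right h6 hz.le
        linarith
    _ = _ := by ring

/-- **length of the field clock** on a radius interval `[r1, r2]`, `4 r1 ≤ r2`: `(3/4) r2 C(r2) ≤ lg (r2 C(r2) - r1 C(r1))` -/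
theorem bd7ca_len (hX : X.Ok) (h : F.Ok X) {r1 r2 : ℝ} (h1 : 0 ≤ r1) (h12 : 4 * r1 ≤ r2) (h2 : r2 ≤ 1) :
    3 / 4 * (r2 * F.C X r2) ≤ F.lgC X * (r2 * F.C X r2 - r1 * F.C X r1) := by
  have hd := bd7_ar_dPE_pos hX h
  have hC0 := bd7_ar_C0_pos hX h
  have hL := bd7ca_lg_ge hX h
  have hL0 : 0 < F.lgC X := by linarith
  have hr12 : r1 ≤ r2 := by linarith
  have e : r2 * F.C X r2 - r1 * F.C X r1 = ∫ r in r1..r2, (1 - (F.call X).pp F.C0 r) * (F.call X).e F.C0 r :=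
    cm_re_integral (F.call X) hd hC0.le h1 hr12
  have hcont : Continuous fun r => (1 - (F.call X).pp F.C0 r) * (F.call X).e F.C0 r :=
    (continuous_const.sub (cm_pp_cont (F.call X) F.C0)).mul (cm_e_cont (F.call X) F.C0)
  have hlow : ∫ _r in r1..r2, (1 / F.lgC X * F.C X r2) ≤ ∫ r in r1..r2, (1 - (F.call X).pp F.C0 r) * (F.call X).e F.C0 r := by
    refine intervalIntegral.integral_mono_on hr12 (continuous_const.intervalIntegrable _ _) (hcont.intervalIntegrable _ _) fun r hr => ?_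
    have a1 : 1 / F.lgC X ≤ 1 - (F.call X).pp F.C0 r := by
      unfold BdFr.lgC CmCall.pp
      refine cm_p_gap_of_le ?_ ?_
      · have : F.C0 * r / (F.call X).d ^ 3 ≤ F.C0 * 1 / (F.call X).d ^ 3 := by
          have := hr.2.trans h2
          gcongr
        have e2 : F.C0 * 1 / (F.call X).d ^ 3 = F.C0 / F.dPE X ^ 3 := by rw [mul_one]; rfl
        linarith
      · have : 0 ≤ F.C0 / F.dPE X ^ 3 := by positivity
        linarith
    have a2 : F.C X r2 ≤ (F.call X).e F.C0 r := cm_e_anti (F.call X) hd hC0.le hr.2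
    exact mul_le_mul a1 a2 (bd7_ar_C_pos hX h r2).le (cm_pp_gap_pos (F.call X) F.C0 r).le
  rw [intervalIntegral.integral_const, smul_eq_mul] at hlow
  rw [e]
  have hC2 := (bd7_ar_C_pos hX h r2).le
  have h3 : 3 / 4 * r2 ≤ r2 - r1 := by linarith
  calc 3 / 4 * (r2 * F.C X r2) = F.lgC X * (3 / 4 * r2 * (1 / F.lgC X * F.C X r2)) := by field_simp
    _ ≤ F.lgC X * ((r2 - r1) * (1 / F.lgC X * F.C X r2)) := by
        refine mul_le_mul_of_nonneg_left (mul_le_mul_of_nonneg_right h3 (by positivity)) hL0.le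
    _ ≤ _ := mul_le_mul_of_nonneg_left hlow hL0.le

end arith2

/-! ## 4. the fields -/

section fields

variable {X : BdFix} {W : BdWorld} {Fam : BdFr → Prop} {Kb cL CL cs i0 : ℝ}

/-- **FIELD LENGTH** (l.586-592): before the mass `u ≥ (16 C_L/c_L) v_*` the radius interval `[r(c_L u/(8 C_L)), r(u/2)]` carries the field clock `≥ (3/4) min(1,cs) W³/lg` -/
theorem bd7ca_f_fld (hX : X.Ok) (hcL : 0 < cL) (hcL1 : cL ≤ 1) (hCL : 1 ≤ CL) (hcs : 0 < cs) (hi0 : 0 < i0) (hadm : Bd7Adm X W Fam Kb)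
    {c1 : ℝ} (hc1 : c1 ≤ X.zeta) :
    ∃ N0 : ℕ, ∀ i : Bd7I X, i.Str W Fam cL CL cs → N0 ≤ i.F.N → ∀ vs u : ℝ, i.F.Wsc X i.w ≤ vs → 16 * CL / cL * vs ≤ u → u ≤ 1 →
      ∃ v1 v2 v3 : ℝ, vs ≤ v1 ∧ v1 < v2 ∧ v2 ≤ v3 ∧ v3 < u ∧
        (i.F.Wsc X i.w * Real.sqrt (i.F.Wsc X i.w) * u) ^ 2
          ≤ (i.F.x ^ c1 * i.w ^ 3) ^ 2 * (v1 ^ 2 * (i.F.m * (i.Q.hq i.g v3 - i.Q.hq i.g v2))) := by
  obtain ⟨K, hK, hlg⟩ := bd7ca_lg_le hX
  have hμ : 0 < min 1 cs := lt_min one_pos hcs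
  have hκ : 0 < cL / (16 * CL) := by positivity
  obtain ⟨N1, h1⟩ := bd7ca_big hX (4 * K / (3 * (cL / (16 * CL)) ^ 2 * min 1 cs))
  obtain ⟨N2, h2⟩ := hadm
  obtain ⟨N3, h3⟩ := bcs_num_scale X hX cs i0 1 hcs hi0 le_rfl
  refine ⟨N1 + N2 + N3, fun i hi hN vs u hvs hu hu1 => ?_⟩
  have hF := hi.ok
  have hS := h3 i.F hF (by omega) i.w hi.w_lo hi.strong
  have hbig := h1 i.F hF (by omega) i.w hi.w_lo
  obtain ⟨-, hclkh, -, -, -⟩ := h2 i hi.toOut.toStd (by omega)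
  have hx := BdFr.x_pos' hF
  have hw0 := hS.w0
  have hW0 : 0 < i.F.Wsc X i.w := lt_of_lt_of_le hw0 hS.wW
  have hvs0 : 0 < vs := lt_of_lt_of_le hW0 hvs
  have hu0 : 0 < u := lt_of_lt_of_le (by positivity) hu
  have e1 : cL / (16 * CL) * (16 * CL / cL * vs) = vs := by field_simp
  have hv1 : vs ≤ cL / (16 * CL) * u := by
    calc vs = cL / (16 * CL) * (16 * CL / cL * vs) := e1.symm
      _ ≤ _ := mul_le_mul_of_nonneg_left hu hκ.le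
  have hκ8 : cL / (16 * CL) ≤ 1 / 16 := by
    rw [div_le_div_iff₀ (by positivity) (by norm_num)]
    nlinarith
  set v1 := cL / (16 * CL) * u with hv1def
  have hv10 : 0 < v1 := lt_of_lt_of_le hvs0 hv1
  have hv1u : v1 ≤ u / 16 := by
    rw [hv1def]; nlinarith
  have h2I : 2 * v1 ∈ Ioo (0 : ℝ) 1 := ⟨by linarith, by linarith⟩
  have h3I : u / 2 ∈ Ioo (0 : ℝ) 1 := ⟨by linarith, by linarith⟩
  refine ⟨v1, 2 * v1, u / 2, hv1, by linarith, by linarith, by linarith, ?_⟩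
  -- the radii
  have hreg := hi.reg
  have hw2 : 2 * i.w ≤ 2 * v1 := by linarith [hS.wW]
  obtain ⟨-, r2hi⟩ := hreg (2 * v1) hw2 h2I.2.le
  obtain ⟨r3lo, -⟩ := hreg (u / 2) (by linarith) h3I.2.le
  have r2mem := i.Q.r_mem (2 * v1) ⟨h2I.1.le, h2I.2.le⟩
  have r3mem := i.Q.r_mem (u / 2) ⟨h3I.1.le, h3I.2.le⟩
  have e2 : CL * (2 * v1) = cL * u / 8 := by rw [hv1def]; field_simp; ring
  have h4r : 4 * i.Q.r (2 * v1) ≤ i.Q.r (u / 2) := by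
    have : cL * (u / 2) = 4 * (cL * u / 8) := by ring
    linarith
  have hr3W : i.F.Wsc X i.w ≤ i.Q.r (u / 2) := by
    have a1 : 16 * CL * vs ≤ cL * u := by
      have := mul_le_mul_of_nonneg_left hu hcL.le
      have e3 : cL * (16 * CL / cL * vs) = 16 * CL * vs := by field_simp
      linarith
    nlinarith
  have hlen := bd7ca_len hX hF r2mem.1 h4r r3mem.2
  have hvC := bd7ca_vC hX hF hcs le_rfl hS hr3W
  -- the field clock
  have hmono : i.F.h i.g (2 * v1) ≤ i.F.h i.g (u / 2) := hclkh.mono h2I h3I (by linarith)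
  set Δ := i.Q.hq i.g (u / 2) - i.Q.hq i.g (2 * v1) with hΔ
  have hΔge : i.Q.r (u / 2) * i.F.C X (i.Q.r (u / 2)) - i.Q.r (2 * v1) * i.F.C X (i.Q.r (2 * v1)) ≤ Δ := by
    rw [hΔ]; unfold BdQ.hq; nlinarith
  have hL0 : 0 < i.F.lgC X := by linarith [bd7ca_lg_ge hX hF]
  have hxz : 0 < i.F.x ^ (-X.zeta) := Real.rpow_pos_of_pos hx _
  have hΔ0 : 0 ≤ Δ := by
    have : 0 ≤ 3 / 4 * (i.Q.r (u / 2) * i.F.C X (i.Q.r (u / 2))) :=
      by have := bd7_ar_C_pos hX hF (i.Q.r (u / 2)); have := r3mem.1; positivity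
    have h5 : 0 ≤ i.F.lgC X * (i.Q.r (u / 2) * i.F.C X (i.Q.r (u / 2)) - i.Q.r (2 * v1) * i.F.C X (i.Q.r (2 * v1))) := this.trans hlen
    have := nonneg_of_mul_nonneg_right h5 hL0
    linarith
  have k1 : 3 / 4 * (min 1 cs * i.F.Wsc X i.w ^ 3) ≤ K * (i.F.x ^ (-X.zeta) * Δ) := by
    calc 3 / 4 * (min 1 cs * i.F.Wsc X i.w ^ 3) ≤ 3 / 4 * (i.Q.r (u / 2) * i.F.C X (i.Q.r (u / 2))) := by linarith
      _ ≤ i.F.lgC X * (i.Q.r (u / 2) * i.F.C X (i.Q.r (u / 2)) - i.Q.r (2 * v1) * i.F.C X (i.Q.r (2 * v1))) := hlen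
      _ ≤ i.F.lgC X * Δ := mul_le_mul_of_nonneg_left hΔge hL0.le
      _ ≤ K * i.F.x ^ (-X.zeta) * Δ := mul_le_mul_of_nonneg_right (hlg i.F hF) hΔ0
      _ = _ := by ring
  have k3 : i.F.x ^ (2 * X.zeta) = i.F.x ^ (3 * X.zeta) * i.F.x ^ (-X.zeta) := by
    rw [← Real.rpow_add hx]; congr 1; ring
  have k4 : i.F.x ^ (2 * X.zeta) ≤ (i.F.x ^ c1) ^ 2 := by
    rw [← Real.rpow_natCast (i.F.x ^ c1) 2, ← Real.rpow_mul hx.le]
    exact bd7ca_x_pow_le hF (by push_cast; linarith)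
  have k5 : 3 / 4 * (min 1 cs * i.F.Wsc X i.w ^ 3) / K ≤ i.F.x ^ (-X.zeta) * Δ := by
    rw [div_le_iff₀ hK]; linarith
  have hm0 : (0 : ℝ) ≤ i.F.m := Nat.cast_nonneg _
  calc (i.F.Wsc X i.w * Real.sqrt (i.F.Wsc X i.w) * u) ^ 2 = i.F.Wsc X i.w ^ 3 * u ^ 2 := by
        rw [mul_pow, mul_pow, Real.sq_sqrt hW0.le]; ring
    _ = (cL / (16 * CL)) ^ 2 * u ^ 2 * (4 * K / (3 * (cL / (16 * CL)) ^ 2 * min 1 cs) * (3 / 4 * (min 1 cs * i.F.Wsc X i.w ^ 3) / K)) := by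
        field_simp
    _ ≤ (cL / (16 * CL)) ^ 2 * u ^ 2 * (i.F.x ^ (3 * X.zeta) * i.F.m * i.w ^ 6 * (i.F.x ^ (-X.zeta) * Δ)) := by
        refine mul_le_mul_of_nonneg_left (mul_le_mul hbig k5 (by positivity) ?_) (by positivity)
        have := Real.rpow_pos_of_pos hx (3 * X.zeta)
        positivity
    _ = i.F.x ^ (2 * X.zeta) * ((i.w ^ 3) ^ 2 * (v1 ^ 2 * (i.F.m * Δ))) := by rw [k3, hv1def]; ring
    _ ≤ (i.F.x ^ c1) ^ 2 * ((i.w ^ 3) ^ 2 * (v1 ^ 2 * (i.F.m * Δ))) := mul_le_mul_of_nonneg_right k4 (by positivity)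
    _ = _ := by ring

end fields

/-! ### (18): dyadic summation -/

theorem bd7ca_ae_ne_one : ∀ᵐ x : ℝ, x ≠ 1 := by
  have : ({1}ᶜ : Set ℝ) ∈ ae (volume : Measure ℝ) := compl_mem_ae_iff.2 (by simp)
  filter_upwards [this] with x hx using hx

/-- cumulative form of a bound on all the dyads -/
theorem bd7ca_dyad {f : ℝ → ℝ} {a A : ℝ} (ha : 0 < a) (hA : 0 ≤ A) (hf0 : ∀ v ∈ Ioo (0 : ℝ) 1, 0 ≤ f v) (hfi : IntegrableOn f (Ioc 0 1))
    (hdy : ∀ v, a / 2 ≤ v → 2 * v ≤ 1 → ∫ t in v..(2 * v), f t ≤ v * A) :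
    ∀ v, a ≤ v → v ≤ 1 → ∫ t in a..v, f t ≤ v * A := by
  have hii : ∀ s t : ℝ, 0 ≤ s → s ≤ t → t ≤ 1 → IntervalIntegrable f volume s t := by
    intro s t hs hst ht
    rw [intervalIntegrable_iff_integrableOn_Ioc_of_le hst]
    exact hfi.mono_set (Ioc_subset_Ioc hs ht)
  have hnn : ∀ s t : ℝ, 0 ≤ s → t ≤ 1 → 0 ≤ᵐ[volume.restrict (Ioc s t)] f := by
    intro s t hs ht
    refine (ae_restrict_iff' measurableSet_Ioc).2 ?_
    filter_upwards [bd7ca_ae_ne_one] with x hx hx'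
    exact hf0 x ⟨lt_of_le_of_lt hs hx'.1, lt_of_le_of_ne (hx'.2.trans ht) hx⟩
  have key : ∀ n : ℕ, ∀ v, a ≤ v → v ≤ 2 ^ n * a → v ≤ 1 → ∫ t in a..v, f t ≤ v * A := by
    intro n
    induction n with
    | zero =>
      intro v h1 h2 _
      have : v = a := le_antisymm (by simpa using h2) h1
      rw [this, intervalIntegral.integral_same]
      positivity
    | succ n ih =>
      intro v h1 h2 h3
      have hv0 : 0 < v := lt_of_lt_of_le ha h1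
      have hd := hdy (v / 2) (by linarith) (by linarith)
      rw [show 2 * (v / 2) = v by ring] at hd
      by_cases hv2 : v / 2 ≤ a
      · have := intervalIntegral.integral_mono_interval hv2 h1 le_rfl (hnn (v / 2) v (by linarith) h3) (hii (v / 2) v (by linarith) (by linarith) h3)
        nlinarith
      · push Not at hv2
        have h4 := ih (v / 2) hv2.le (by rw [pow_succ] at h2; linarith) (by linarith)
        have h5 := intervalIntegral.integral_add_adjacent_intervals (hii a (v / 2) ha.le hv2.le (by linarith))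
          (hii (v / 2) v (by linarith) (by linarith) h3)
        rw [← h5]
        linarith
  intro v h1 h2
  obtain ⟨n, hn⟩ := pow_unbounded_of_one_lt (v / a) one_lt_two
  exact key n v h1 (by rw [div_lt_iff₀ ha] at hn; exact hn.le) h2

section fields2

variable {X : BdFix} {W : BdWorld} {Fam : BdFr → Prop} {Kb cL CL cs i0 : ℝ}

theorem bd7ca_R10_nonneg (hX : X.Ok) {F : BdFr} (h : F.Ok X) (clo chi : ℝ) {v : ℝ} (hv : 0 < v) : 0 ≤ bcsR10 F X clo chi v := by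
  have hx := BdFr.x_pos' h
  have hC := bd7_ar_C_pos hX h v
  have hu := BdFr.u_pos' hX h
  have h1 : 0 ≤ (F.x ^ 6 / (F.C X v * v)) ^ (1 / 3 : ℝ) := Real.rpow_nonneg (by positivity) _
  have h2 : 0 ≤ F.x ^ 3 / (v * Real.sqrt (F.C X v)) := by positivity
  have h3 : 0 ≤ (F.m : ℝ) ^ (X.dPEexp / 2) * F.vs X :=
    mul_nonneg (Real.rpow_nonneg (Nat.cast_nonneg _) _) (bud_gb_us_pos hX h).le
  have h4 : 0 ≤ (if clo * F.u ≤ v ∧ v ≤ chi * F.u then F.u * F.Bf X else 0) := by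
    split_ifs
    · unfold BdFr.Bf
      have hXr : 0 < F.Xr := div_pos hx hu
      have hl := BdFr.lam_pos' h
      have hL := bd7_ar_Lam_pos h
      positivity
    · exact le_rfl
  unfold bcsR10
  linarith

/-- absorbing the constant and the subpower loss of (C10) -/
theorem bd7ca_absorb (hX : X.Ok) (Cc : ℝ) (hCc : 0 < Cc) :
    ∃ N0 : ℕ, ∀ F : BdFr, F.Ok X → N0 ≤ F.N → ∀ c1 R y : ℝ, c1 ≤ X.zeta → 0 ≤ R → R ≤ F.x ^ (12 * X.zeta) * y →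
      2 * (Cc * F.x ^ (-X.zeta) * R) ^ 2 ≤ (F.x ^ c1 * y) ^ 2 := by
  have hz := hX.zeta_pos
  obtain ⟨N0, hN0⟩ := bd7_ar_x_small X (a := 20 * X.zeta) (ε := 1 / (2 * Cc ^ 2)) (by positivity) (by positivity)
  refine ⟨N0, fun F h hN c1 R y hc1 hR hRy => ?_⟩
  have hx := BdFr.x_pos' h
  have h1 := hN0 F h hN
  have hxz : 0 < F.x ^ (-X.zeta) := Real.rpow_pos_of_pos hx _
  have h2 : Cc * F.x ^ (-X.zeta) * R ≤ Cc * F.x ^ (-X.zeta) * (F.x ^ (12 * X.zeta) * y) :=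
    mul_le_mul_of_nonneg_left hRy (by positivity)
  have h3 : (Cc * F.x ^ (-X.zeta) * R) ^ 2 ≤ (Cc * F.x ^ (-X.zeta) * (F.x ^ (12 * X.zeta) * y)) ^ 2 :=
    pow_le_pow_left₀ (by positivity) h2 2
  have e1 : F.x ^ (-X.zeta) * F.x ^ (12 * X.zeta) = F.x ^ (11 * X.zeta) := by
    rw [← Real.rpow_add hx]; congr 1; ring
  have e2 : (F.x ^ (11 * X.zeta)) ^ 2 = F.x ^ (20 * X.zeta) * F.x ^ (2 * X.zeta) := by
    rw [← Real.rpow_natCast (F.x ^ (11 * X.zeta)) 2, ← Real.rpow_mul hx.le, ← Real.rpow_add hx]; congr 1; push_cast; ring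
  have k4 : F.x ^ (2 * X.zeta) ≤ (F.x ^ c1) ^ 2 := by
    rw [← Real.rpow_natCast (F.x ^ c1) 2, ← Real.rpow_mul hx.le]
    exact bd7ca_x_pow_le h (by push_cast; linarith)
  have h5 : 2 * Cc ^ 2 * F.x ^ (20 * X.zeta) ≤ 1 := by
    have := mul_le_mul_of_nonneg_left h1 (by positivity : 0 ≤ 2 * Cc ^ 2)
    have e : 2 * Cc ^ 2 * (1 / (2 * Cc ^ 2)) = 1 := by field_simp
    linarith
  have hp2 : 0 ≤ F.x ^ (2 * X.zeta) := (Real.rpow_pos_of_pos hx _).le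
  calc 2 * (Cc * F.x ^ (-X.zeta) * R) ^ 2 ≤ 2 * (Cc * F.x ^ (-X.zeta) * (F.x ^ (12 * X.zeta) * y)) ^ 2 := by linarith
    _ = 2 * (Cc * (F.x ^ (-X.zeta) * F.x ^ (12 * X.zeta)) * y) ^ 2 := by ring
    _ = (2 * Cc ^ 2 * F.x ^ (20 * X.zeta)) * (F.x ^ (2 * X.zeta) * y ^ 2) := by rw [e1, mul_pow, mul_pow, e2]; ring
    _ ≤ 1 * (F.x ^ (2 * X.zeta) * y ^ 2) := mul_le_mul_of_nonneg_right h5 (by positivity)
    _ ≤ (F.x ^ c1) ^ 2 * y ^ 2 := by rw [one_mul]; exact mul_le_mul_of_nonneg_right k4 (sq_nonneg _)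
    _ = _ := by ring

/-- the right side of (C10) above `w`: a power saving relative to `w`; above `W`: relative to `w²/W` -/
theorem bd7ca_R10_le (hX : X.Ok) (hcs : 0 < cs) (hi0 : 0 < i0) {clo chi : ℝ} (hclo : 0 < clo) (hchi : clo ≤ chi) :
    ∃ N0 : ℕ, ∀ F : BdFr, F.Ok X → N0 ≤ F.N → ∀ w : ℝ, F.wc X ≤ w → F.Strong X w cs → ∀ v : ℝ, v ≤ 1 →
      (w ≤ v → bcsR10 F X clo chi v ≤ F.x ^ (12 * X.zeta) * w) ∧
      (F.Wsc X w ≤ v → bcsR10 F X clo chi v ≤ F.x ^ (12 * X.zeta) * (w ^ 2 / F.Wsc X w)) := by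
  obtain ⟨N1, h1⟩ := bcs_num_mid X hX cs clo chi 1 hcs hclo hchi le_rfl
  obtain ⟨N2, h2⟩ := bcs_num_high X hX cs clo chi 1 hcs hclo hchi one_pos
  obtain ⟨N3, h3⟩ := bcs_num_scale X hX cs i0 1 hcs hi0 le_rfl
  refine ⟨N1 + N2 + N3, fun F h hN w hw hs v hv1 => ?_⟩
  have hS := h3 F h (by omega) w hw hs
  have hx := BdFr.x_pos' h
  have hw0 := hS.w0
  have hW0 : 0 < F.Wsc X w := lt_of_lt_of_le hw0 hS.wW
  have hp : 0 ≤ F.x ^ (12 * X.zeta) := (Real.rpow_pos_of_pos hx _).le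
  have hhigh : F.Wsc X w ≤ v → bcsR10 F X clo chi v ≤ F.x ^ (12 * X.zeta) * (w ^ 2 / F.Wsc X w) := fun hv =>
    h2 F h (by omega) w hw hs v (by linarith) hv1
  have hwW : w ^ 2 / F.Wsc X w ≤ w := by
    rw [div_le_iff₀ hW0]; nlinarith [hS.wW]
  refine ⟨fun hv => ?_, hhigh⟩
  rcases le_total v (F.Wsc X w) with hvW | hvW
  · refine (h1 F h (by omega) w hw hs v hv (by linarith)).trans (mul_le_mul_of_nonneg_left ?_ hp)
    have a1 : w ^ 3 ≤ F.Wsc X w ^ 2 * v := by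
      have : w ^ 2 ≤ F.Wsc X w ^ 2 := pow_le_pow_left₀ hw0.le hS.wW 2
      calc w ^ 3 = w ^ 2 * w := by ring
        _ ≤ F.Wsc X w ^ 2 * v := mul_le_mul this hv hw0.le (by positivity)
    have a2 : w ≤ (F.Wsc X w ^ 2 * v) ^ (1 / 3 : ℝ) := by
      have : (w ^ 3) ^ (1 / 3 : ℝ) ≤ (F.Wsc X w ^ 2 * v) ^ (1 / 3 : ℝ) := Real.rpow_le_rpow (by positivity) a1 (by norm_num)
      rwa [← Real.rpow_natCast w 3, ← Real.rpow_mul hw0.le, show ((3 : ℕ) : ℝ) * (1 / 3 : ℝ) = 1 by norm_num, Real.rpow_one] at this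
    rw [div_le_iff₀ (lt_of_lt_of_le hw0 a2)]
    nlinarith
  · exact (hhigh hvW).trans (mul_le_mul_of_nonneg_left hwW hp)

end fields2

section fields3

variable {X : BdFix} {W : BdWorld} {Fam : BdFr → Prop} {Kb cL CL cs i0 : ℝ}

/-- (16) against `z_v = w³/(W^{3/2} √v)` (l.593-600): `x³/(v √C(v)) ≲ (x/w)³ z_v`, and `(x/w)³` is power small -/
theorem bd7ca_res_num (hX : X.Ok) (hcs : 0 < cs) (hi0 : 0 < i0) (K : ℝ) (hK : 0 < K) :
    ∃ N0 : ℕ, ∀ F : BdFr, F.Ok X → N0 ≤ F.N → ∀ w : ℝ, F.wc X ≤ w → F.Strong X w cs → ∀ c1 v : ℝ, c1 ≤ X.zeta → F.Wsc X w ≤ v →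
      K * F.x ^ (-X.zeta) * (F.x ^ 3 / (v * Real.sqrt (F.C X v)))
        ≤ F.x ^ c1 * (w ^ 3 / (F.Wsc X w * Real.sqrt (F.Wsc X w))) / Real.sqrt v := by
  have hz := hX.zeta_pos
  have hμ : 0 < min 1 cs := lt_min one_pos hcs
  have hsμ : 0 < Real.sqrt (min 1 cs) := Real.sqrt_pos.2 hμ
  obtain ⟨N1, h1⟩ := bd7_ar_x_small X (a := 28 * X.zeta) (ε := Real.sqrt (min 1 cs) / K) (by positivity) (by positivity)
  obtain ⟨N3, h3⟩ := bcs_num_scale X hX cs i0 1 hcs hi0 le_rfl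
  refine ⟨N1 + N3, fun F h hN w hw hs c1 v hc1 hv => ?_⟩
  have hS := h3 F h (by omega) w hw hs
  have hx := BdFr.x_pos' h
  have hw0 := hS.w0
  have hW0 : 0 < F.Wsc X w := lt_of_lt_of_le hw0 hS.wW
  have hv0 : 0 < v := lt_of_lt_of_le hW0 hv
  have hsW : 0 < Real.sqrt (F.Wsc X w) := Real.sqrt_pos.2 hW0
  have hsv : 0 < Real.sqrt v := Real.sqrt_pos.2 hv0
  have hC := bd7_ar_C_pos hX h v
  have hvC := bd7ca_vC hX h hcs le_rfl hS hv
  have a1 : Real.sqrt (min 1 cs) * (F.Wsc X w * Real.sqrt (F.Wsc X w)) ≤ Real.sqrt (v * F.C X v) := by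
    refine Real.le_sqrt_of_sq_le ?_
    rw [mul_pow, mul_pow, Real.sq_sqrt hμ.le, Real.sq_sqrt hW0.le]
    calc min 1 cs * (F.Wsc X w ^ 2 * F.Wsc X w) = min 1 cs * F.Wsc X w ^ 3 := by ring
      _ ≤ _ := hvC
  have e1 : v * Real.sqrt (F.C X v) = Real.sqrt v * Real.sqrt (v * F.C X v) := by
    rw [Real.sqrt_mul hv0.le, ← mul_assoc, Real.mul_self_sqrt hv0.le]
  have a2 : F.x ^ 3 / (v * Real.sqrt (F.C X v)) ≤ F.x ^ 3 / (Real.sqrt v * (Real.sqrt (min 1 cs) * (F.Wsc X w * Real.sqrt (F.Wsc X w)))) := by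
    rw [e1]
    exact div_le_div_of_nonneg_left (by positivity) (by positivity) (mul_le_mul_of_nonneg_left a1 hsv.le)
  have a3 := bd7ca_xw3 hX h hw
  have a4 : K * F.x ^ (28 * X.zeta) ≤ Real.sqrt (min 1 cs) := by
    have := mul_le_mul_of_nonneg_left (h1 F h (by omega)) hK.le
    have e : K * (Real.sqrt (min 1 cs) / K) = Real.sqrt (min 1 cs) := by field_simp
    linarith
  have hxz : 0 < F.x ^ (-X.zeta) := Real.rpow_pos_of_pos hx _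
  have e2 : F.x ^ (-X.zeta) * F.x ^ (30 * X.zeta) = F.x ^ (28 * X.zeta) * F.x ^ X.zeta := by
    rw [← Real.rpow_add hx, ← Real.rpow_add hx]; congr 1; ring
  have a5 : K * F.x ^ (-X.zeta) * F.x ^ 3 ≤ F.x ^ c1 * w ^ 3 * Real.sqrt (min 1 cs) := by
    calc K * F.x ^ (-X.zeta) * F.x ^ 3 ≤ K * F.x ^ (-X.zeta) * (F.x ^ (30 * X.zeta) * w ^ 3) :=
          mul_le_mul_of_nonneg_left a3 (by positivity)
      _ = (K * F.x ^ (28 * X.zeta)) * (F.x ^ X.zeta * w ^ 3) := by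
          rw [show K * F.x ^ (-X.zeta) * (F.x ^ (30 * X.zeta) * w ^ 3) = K * (F.x ^ (-X.zeta) * F.x ^ (30 * X.zeta)) * w ^ 3 by ring, e2]; ring
      _ ≤ Real.sqrt (min 1 cs) * (F.x ^ c1 * w ^ 3) := by
          refine mul_le_mul a4 (mul_le_mul_of_nonneg_right (bd7ca_x_pow_le h hc1) (by positivity)) ?_ hsμ.le
          have := Real.rpow_pos_of_pos hx X.zeta
          positivity
      _ = _ := by ring
  calc K * F.x ^ (-X.zeta) * (F.x ^ 3 / (v * Real.sqrt (F.C X v)))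
      ≤ K * F.x ^ (-X.zeta) * (F.x ^ 3 / (Real.sqrt v * (Real.sqrt (min 1 cs) * (F.Wsc X w * Real.sqrt (F.Wsc X w))))) :=
        mul_le_mul_of_nonneg_left a2 (by positivity)
    _ = (K * F.x ^ (-X.zeta) * F.x ^ 3) / (Real.sqrt v * (Real.sqrt (min 1 cs) * (F.Wsc X w * Real.sqrt (F.Wsc X w)))) := by ring
    _ ≤ (F.x ^ c1 * w ^ 3 * Real.sqrt (min 1 cs)) / (Real.sqrt v * (Real.sqrt (min 1 cs) * (F.Wsc X w * Real.sqrt (F.Wsc X w)))) :=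
        div_le_div_of_nonneg_right a5 (by positivity)
    _ = _ := by field_simp

/-- (P9) for the changed clocks above `2w` -/
theorem bd7ca_f_p9 (hX : X.Ok) (hp9 : Bd7P9 X Fam) :
    ∃ N0 : ℕ, ∀ i : Bd7I X, i.Out W Fam cL CL → N0 ≤ i.F.N →
      1 ≤ i.F.Tm ∧ i.F.Tm ≤ 2 * X.T ∧ ∀ v ∈ Ioo (0 : ℝ) 1, 2 * i.w ≤ v →
        |i.Q.bq i.g v - i.F.Tm| ≤ v ^ 2 + i.F.C0 ∧ i.Q.hq i.g v ≤ v ^ 3 + i.F.C0 * (CL * v) := by
  have hT := hX.T1
  obtain ⟨N0, h0⟩ := hp9 1 (min 1 (X.T - 1)) one_pos (lt_min one_pos (by linarith))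
  refine ⟨N0, fun i hi hN => ?_⟩
  have hF := hi.ok
  obtain ⟨hTm, hv⟩ := h0 i.F hi.fam hF hN
  have hTm' := abs_le.1 hTm
  have hmin1 : min 1 (X.T - 1) ≤ 1 := min_le_left _ _
  have hmin2 : min 1 (X.T - 1) ≤ X.T - 1 := min_le_right _ _
  refine ⟨by linarith [hTm'.1], by linarith [hTm'.2], fun v hvI hwv => ?_⟩
  have hxw : i.F.x ≤ i.w := (bd7_ar_x_le_wc hX hF).trans hi.w_lo
  have hw0 : 0 < i.w := lt_of_lt_of_le (BdFr.x_pos' hF) hxw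
  obtain ⟨hb, hh⟩ := hv i.g hi.g_mem v ⟨by linarith, hvI.2⟩
  obtain ⟨-, rhi⟩ := hi.reg v hwv hvI.2.le
  have rmem := i.Q.r_mem v ⟨hvI.1.le, hvI.2.le⟩
  have hC0 := bd7_ar_C_pos hX hF (i.Q.r v)
  have hC1 := bd7_ar_C_le hX hF (i.Q.r v)
  have hv2 : min 1 (X.T - 1) * v ^ 2 ≤ v ^ 2 := by nlinarith [sq_nonneg v]
  have hv3 : min 1 (X.T - 1) * v ^ 3 ≤ v ^ 3 := by nlinarith [pow_pos hvI.1 3]
  constructor
  · have hb' := abs_le.1 hb
    unfold BdQ.bq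
    exact abs_le.2 ⟨by linarith [hb'.1], by linarith [hb'.2]⟩
  · have hh' := (abs_le.1 hh).2
    unfold BdQ.hq
    have : i.F.C X (i.Q.r v) * i.Q.r v ≤ i.F.C0 * (CL * v) := mul_le_mul hC1 rhi rmem.1 (hC0.le.trans hC1)
    linarith

/-- the moments of `Bud/Defs` are the moments at positions -/
theorem bd7ca_mom_eq (hW : W.IsHub) {i : Bd7I X} (hb : IsClock 1 (i.Q.bq i.g)) (hh : IsClock 1 (i.Q.hq i.g)) (v c : ℝ) (k : ℕ) :
    i.Q.mQ W i.g ((2 * k : ℕ) : ℝ) v c = i.mom (ghPosA v) c k := by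
  unfold BdQ.mQ Bd7I.mom
  rw [hW.nu _ _ _ hb hh]
  have e1 : bmTree (fun _ _ => v) = ghR2 (ghPosA v) := rfl
  rw [e1]
  congr 1
  funext σ
  unfold bmTest
  show |(if h : 0 < 2 ∧ 1 < 2 then skOv (σ ⟨0, h.1⟩) (σ ⟨1, h.2⟩) else 0) - c| ^ ((2 * k : ℕ) : ℝ) = _
  rw [dif_pos ⟨by norm_num, by norm_num⟩, Real.rpow_natCast, (even_two_mul k).pow_abs]
  rfl

theorem bd7ca_mom_le (hW : W.IsHub) {i : Bd7I X} (hb : IsClock 1 (i.Q.bq i.g)) (hh : IsClock 1 (i.Q.hq i.g)) {v c B : ℝ} {k : ℕ} (hk : 1 ≤ k)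
    (hB : 0 ≤ B) (h : i.Q.nQ W i.g ((2 * k : ℕ) : ℝ) v c ≤ B) : i.mom (ghPosA v) c k ≤ B ^ (2 * k) := by
  rw [← bd7ca_mom_eq hW hb hh]
  unfold BdQ.nQ at h
  rcases le_or_gt (i.Q.mQ W i.g ((2 * k : ℕ) : ℝ) v c) 0 with h0 | h0
  · exact h0.trans (by positivity)
  · have hp : ((2 * k : ℕ) : ℝ) ≠ 0 := by
      have : 0 < 2 * k := by omega
      exact_mod_cast this.ne'
    have e : (i.Q.mQ W i.g ((2 * k : ℕ) : ℝ) v c ^ (1 / ((2 * k : ℕ) : ℝ))) ^ (2 * k) = i.Q.mQ W i.g ((2 * k : ℕ) : ℝ) v c := by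
      rw [← Real.rpow_natCast, ← Real.rpow_mul h0.le, one_div, inv_mul_cancel₀ hp, Real.rpow_one]
    rw [← e]
    exact pow_le_pow_left₀ (Real.rpow_nonneg h0.le _) h _

/-- finitely many moment orders -/
theorem bd7ca_unif {α : Type} (f : α → ℕ) (Q : ℕ → α → Prop) (h : ∀ k, 1 ≤ k → ∃ N0 : ℕ, ∀ a, N0 ≤ f a → Q k a) (kM : ℕ) :
    ∃ N0 : ℕ, ∀ a, N0 ≤ f a → ∀ k, 1 ≤ k → k ≤ kM → Q k a := by
  induction kM with
  | zero => exact ⟨0, fun a _ k h1 h0 => by omega⟩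
  | succ n ih =>
    obtain ⟨N1, h1⟩ := ih
    obtain ⟨N2, h2⟩ := h (n + 1) (by omega)
    refine ⟨N1 + N2, fun a ha k hk1 hk => ?_⟩
    rcases Nat.lt_or_ge k (n + 1) with hlt | hge
    · exact h1 a (by omega) k hk1 (by omega)
    · have : k = n + 1 := by omega
      rw [this]; exact h2 a (by omega)

end fields3

/-! ## 5. THE ASSEMBLY      (helper76) -/

section sup

variable {X : BdFix} {W : BdWorld} {Fam : BdFr → Prop} {Kb cL CL i0 : ℝ}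

/-- (16) for finitely many orders, against `z_v`: `Bd7CRes` + `bd7ca_res_num` -/
theorem bd7ca_f_res (hX : X.Ok) {cs : ℝ} (hcs : 0 < cs) (hi0 : 0 < i0) (hres : Bd7CRes X W Fam cL CL) :
    ∃ Kr : ℝ, 1 ≤ Kr ∧ ∀ kM : ℕ, ∃ N0 : ℕ, ∀ i : Bd7I X, N0 ≤ i.F.N → ∀ k, 1 ≤ k → k ≤ kM → i.Str W Fam cL CL cs →
      ∀ c1 : ℝ, c1 ≤ X.zeta → ∀ p0 pv : GhPos, p0.Ok 1 → pv.Ok 1 → Kr * (p0.u + i.w) ≤ pv.u → i.F.Wsc X i.w ≤ pv.u →
        i.res p0 pv k ≤ (i.F.x ^ c1 * (i.w ^ 3 / (i.F.Wsc X i.w * Real.sqrt (i.F.Wsc X i.w))) / Real.sqrt pv.u) ^ (2 * k) := by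
  obtain ⟨Kr, hKr, hres⟩ := hres cs hcs
  refine ⟨Kr, hKr, fun kM => ?_⟩
  refine bd7ca_unif (fun i : Bd7I X => i.F.N) (fun k i => i.Str W Fam cL CL cs →
      ∀ c1 : ℝ, c1 ≤ X.zeta → ∀ p0 pv : GhPos, p0.Ok 1 → pv.Ok 1 → Kr * (p0.u + i.w) ≤ pv.u → i.F.Wsc X i.w ≤ pv.u →
        i.res p0 pv k ≤ (i.F.x ^ c1 * (i.w ^ 3 / (i.F.Wsc X i.w * Real.sqrt (i.F.Wsc X i.w))) / Real.sqrt pv.u) ^ (2 * k)) ?_ kM
  intro k hk
  obtain ⟨K, N1, hK, h1⟩ := hres k hk X.zeta hX.zeta_pos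
  obtain ⟨N2, h2⟩ := bd7ca_res_num hX hcs hi0 K hK
  refine ⟨N1 + N2, fun i hN hi c1 hc1 p0 pv hp0 hpv hle hWv => ?_⟩
  refine (h1 i hi (by omega) p0 pv hp0 hpv hle).trans (pow_le_pow_left₀ ?_ (h2 i.F hi.ok (by omega) i.w hi.w_lo hi.strong c1 pv.u hc1 hWv) _)
  have hx := BdFr.x_pos' hi.ok
  have h3 := Real.rpow_pos_of_pos hx (-X.zeta)
  have h4 : 0 ≤ i.F.x ^ 3 / (pv.u * Real.sqrt (i.F.C X pv.u)) :=
    div_nonneg (by positivity) (mul_nonneg hpv.1 (Real.sqrt_nonneg _))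
  positivity

/-- (C8) for finitely many orders -/
theorem bd7ca_f_raw {cs : ℝ} (hcs : 0 < cs) (hraw : Bd7CRaw X W Fam cL CL) :
    ∃ Cr : ℕ → ℝ, (∀ k, 0 < Cr k) ∧ ∀ kM : ℕ, ∃ N0 : ℕ, ∀ i : Bd7I X, N0 ≤ i.F.N → ∀ k, 1 ≤ k → k ≤ kM → i.Str W Fam cL CL cs →
      ∀ p : GhPos, p.Ok 1 → i.mom p 0 k ≤ (Cr k * (p.u + i.w)) ^ (2 * k) := by
  obtain ⟨Cr, hCr, hraw⟩ := hraw cs hcs
  refine ⟨Cr, hCr, fun kM => ?_⟩
  refine bd7ca_unif (fun i : Bd7I X => i.F.N) (fun k i => i.Str W Fam cL CL cs →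
      ∀ p : GhPos, p.Ok 1 → i.mom p 0 k ≤ (Cr k * (p.u + i.w)) ^ (2 * k)) ?_ kM
  intro k hk
  obtain ⟨N0, h⟩ := hraw k hk
  exact ⟨N0, fun i hN hi => h i hi hN⟩

/-- **THE SUPPLY** (item (i) of the proof of Prop. 7.7): all the cavity inputs of PE Sec. 4 for the changed path of a strong instance.
INPUTS: N5 in the three forms (`Bd7CRaw`, `Bd7CRes`: all orders, positions; `BcsRaw`, `BcsC9`, `BcsRes`: forms of 190), (P9), admissibility, the base facts of the family. -/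
theorem bd7ca_sup (hX : X.Ok) (hW : W.IsHub) (hc : 0 < cL) (hc1 : cL ≤ 1) (hC : 1 ≤ CL) (hi0 : 0 < i0)
    (hb : BcsBase X W Fam) (hadm : Bd7Adm X W Fam Kb) (hilo : ∀ F, Fam F → i0 ≤ F.Ilo) (hp9 : Bd7P9 X Fam)
    (hraw : Bd7CRaw X W Fam cL CL) (hres : Bd7CRes X W Fam cL CL)
    (h8 : ∀ cs, 0 < cs → BcsRaw W (BcsIn.Cls (X := X) · W Fam ⟨cL, CL, cs, i0⟩))
    (h9 : ∀ cs, 0 < cs → BcsC9 W (BcsIn.Cls (X := X) · W Fam ⟨cL, CL, cs, i0⟩) ⟨cL, CL, cs, i0⟩)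
    (hrs : ∀ cs, 0 < cs → BcsRes W (BcsIn.Cls (X := X) · W Fam ⟨cL, CL, cs, i0⟩)) :
    Bd7CSup X W Fam cL CL := by
  intro cs c C hcs hc0 hcC
  have hC0 : 0 ≤ C := hc0.le.trans hcC
  obtain ⟨cst, K0, hcst, hK0, hcav⟩ := bcs_x_cav hX hW hc hc1 hC hcs hi0 hb hadm hilo (h8 cs hcs) (h9 cs hcs) (hrs cs hcs)
  obtain ⟨Cr, hCr, hraw⟩ := bd7ca_f_raw hcs hraw
  obtain ⟨Kr, hKr, hres⟩ := bd7ca_f_res hX hcs hi0 hres
  obtain ⟨Kx, hKx⟩ : ∃ Kx, Kx = max K0 (max C 2) := ⟨_, rfl⟩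
  have hKx0 : K0 ≤ Kx := hKx ▸ le_max_left _ _
  have hKxC : C ≤ Kx := hKx ▸ (le_max_left _ _).trans (le_max_right _ _)
  have hKx2 : 2 ≤ Kx := hKx ▸ (le_max_right _ _).trans (le_max_right _ _)
  obtain ⟨Kup, CpS, hCpS, hcav⟩ := hcav Kx (C + 2) hKx0 (by linarith)
  obtain ⟨KU, hKU⟩ : ∃ KU, KU = max (max K0 Kx) (max (16 * CL / cL * Kup) (Kr * (max C Kup + 1))) := ⟨_, rfl⟩
  have hKU0 : K0 ≤ KU := hKU ▸ (le_max_left _ _).trans (le_max_left _ _)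
  have hKUx : Kx ≤ KU := hKU ▸ (le_max_right _ _).trans (le_max_left _ _)
  have hKU16 : 16 * CL / cL * Kup ≤ KU := hKU ▸ (le_max_left _ _).trans (le_max_right _ _)
  have hKUr : Kr * (max C Kup + 1) ≤ KU := hKU ▸ (le_max_right _ _).trans (le_max_right _ _)
  have hT := hX.T1
  have hz := hX.zeta_pos
  obtain ⟨C', hC'⟩ : ∃ C', C' = C + Kx + KU + 1 + |Kb| + 2 * (1 + CL) + 2 * X.T + (4 * Kup ^ 2 + 1) + |8 * Kup ^ 3 + 2 * CL * Kup| := ⟨_, rfl⟩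
  have hKb := abs_nonneg Kb
  have hKb' := le_abs_self Kb
  have hK3 := abs_nonneg (8 * Kup ^ 3 + 2 * CL * Kup)
  have hK3' := le_abs_self (8 * Kup ^ 3 + 2 * CL * Kup)
  have hK2 := sq_nonneg Kup
  have hKU1 : 1 ≤ KU := hK0.trans hKU0
  obtain ⟨c1, hc1d⟩ : ∃ c1, c1 = min cst X.zeta := ⟨_, rfl⟩
  have hc1p : 0 < c1 := hc1d ▸ lt_min hcst hz
  have hc1c : c1 ≤ cst := hc1d ▸ min_le_left _ _
  have hc1z : c1 ≤ X.zeta := hc1d ▸ min_le_right _ _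
  have hcm : 0 < cL * (C + 2) / 4 := by positivity
  refine ⟨min c (min (cL * (C + 2) / 4) 1), C', c1, fun k => Cr k + CpS k + 1, lt_min hc0 (lt_min hcm one_pos), min_le_left _ _, hc1p,
    fun kM δ hδ => ?_⟩
  have hc'1 : min c (min (cL * (C + 2) / 4) 1) ≤ 1 := (min_le_right _ _).trans (min_le_right _ _)
  have hc'm : min c (min (cL * (C + 2) / 4) 1) ≤ cL * (C + 2) / 4 := (min_le_right _ _).trans (min_le_left _ _)
  obtain ⟨N1, hcav⟩ := hcav KU δ hKU0 hδ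
  obtain ⟨N2, hraw⟩ := hraw kM
  obtain ⟨N3, hres⟩ := hres kM
  obtain ⟨N4, hfld⟩ := bd7ca_f_fld (W := W) (Fam := Fam) (Kb := Kb) hX hc hc1 hC hcs hi0 hadm hc1z
  obtain ⟨N5, hp9⟩ := bd7ca_f_p9 (W := W) (cL := cL) (CL := CL) hX hp9
  obtain ⟨N6, hadm⟩ := hadm
  obtain ⟨N7, hsc⟩ := bcs_num_scale X hX cs i0 (max 1 (1 / (4 * δ))) hcs hi0 (le_max_left _ _)
  obtain ⟨N8, hxs⟩ := bd7_ar_x_small X hc1p hδ
  obtain ⟨N9, hbig⟩ := bd7ca_big hX 1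
  refine ⟨N1 + N2 + N3 + N4 + N5 + N6 + N7 + N8 + N9 + 4, fun i hi hN => ?_⟩
  have hF := hi.ok
  obtain ⟨hw0, hwW, hKxw, hKUW, hx0, hx1, vs, hs1, hs2, hs3, hcav⟩ := hcav i hi (by omega)
  have hBF := hcav (i.F.x ^ c1) C (Real.rpow_le_rpow_of_exponent_ge hx0 hx1.le hc1c)
  have hraw := hraw i (by omega)
  have hres := hres i (by omega)
  have hfld := hfld i hi (by omega)
  obtain ⟨hT1, hT2, hp9⟩ := hp9 i hi.toOut (by omega)
  obtain ⟨-, -, hcb, hch, htot⟩ := hadm i hi.toOut.toStd (by omega)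
  have sc := hsc i.F hF (by omega) i.w hi.w_lo hi.strong
  have hxs := hxs i.F hF (by omega)
  have hbig := hbig i.F hF (by omega) i.w hi.w_lo
  have hW0 : 0 < (i.F.Wsc X i.w) := hw0.trans_le hwW
  have hW14 : (i.F.Wsc X i.w) ≤ 1 / 4 := by
    have h1 : 1 * (i.F.Wsc X i.w) ≤ max 1 (1 / (4 * δ)) * (i.F.Wsc X i.w) := mul_le_mul_of_nonneg_right (le_max_left _ _) hW0.le
    linarith [sc.W1]
  have hWδ : (i.F.Wsc X i.w) ≤ δ := by
    have h1 : 1 / (4 * δ) * (i.F.Wsc X i.w) ≤ max 1 (1 / (4 * δ)) * (i.F.Wsc X i.w) := mul_le_mul_of_nonneg_right (le_max_right _ _) hW0.le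
    have h2 : 1 / (4 * δ) * (i.F.Wsc X i.w) ≤ 1 / 4 := h1.trans sc.W1
    rw [div_mul_eq_mul_div, one_mul, div_le_iff₀ (by positivity)] at h2
    linarith
  have hKup : 0 < Kup := by
    have h1 : (C + 2) * (i.F.Wsc X i.w) ≤ Kup * (i.F.Wsc X i.w) := hs1.trans hs2
    have h2 : C + 2 ≤ Kup := le_of_mul_le_mul_right h1 hW0
    linarith
  have hvs0 : 0 < vs := lt_of_lt_of_le (by positivity) hs1
  have hC2W : 2 * (i.F.Wsc X i.w) ≤ (C + 2) * (i.F.Wsc X i.w) := mul_le_mul_of_nonneg_right (by linarith) hW0.le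
  have hvsW : (i.F.Wsc X i.w) ≤ vs := by linarith
  have hvs2w : 2 * i.w ≤ vs := by linarith
  have h16 : 16 ≤ 16 * CL / cL := by
    rw [le_div_iff₀ hc]; linarith
  have hKupU : 16 * Kup ≤ KU := (mul_le_mul_of_nonneg_right h16 hKup.le).trans hKU16
  have hvsU : 16 * vs ≤ KU * (i.F.Wsc X i.w) := by
    have h1 : 16 * Kup * (i.F.Wsc X i.w) ≤ KU * (i.F.Wsc X i.w) := mul_le_mul_of_nonneg_right hKupU hW0.le
    linarith
  have hm2 : 2 ≤ i.F.m := by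
    have h1 : (4 : ℝ) ≤ i.F.N := by exact_mod_cast (by omega : 4 ≤ i.F.N)
    have h2 : (2 : ℝ) ≤ i.F.m := by linarith [hF.m_lo]
    exact_mod_cast h2
  have hm : 0 < i.F.m := by omega
  have hst := bd7c_stat i W (hW.a1 _) hcb hch
  have hsv0 : 0 < i.F.x ^ c1 := Real.rpow_pos_of_pos hx0 _
  have hxw : i.F.x ≤ i.w := (bd7_ar_x_le_wc hX hF).trans hi.w_lo
  have hsI : vs ∈ Ioo (0 : ℝ) 1 := ⟨hvs0, hs3⟩
  have hKxw0 : 0 ≤ Kx * i.w := by positivity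
  have hKUW0 : 0 < KU * (i.F.Wsc X i.w) := by positivity
  have hC01 := bd7_ar_C0_le_one hX hF
  have hC00 := sc.C00
  have hCF : Bd7CF i W C (min c (min (cL * (C + 2) / 4) 1)) C' c1 (fun k => Cr k + CpS k + 1) kM (i.F.x ^ c1) δ (Kx * i.w) vs (KU * (i.F.Wsc X i.w)) :=
    { m2 := hm2
      clkb := hcb
      clkh := hch
      w0 := hw0
      WC := by rw [hC']; linarith
      sv0 := hsv0
      sv1 := Real.rpow_le_rpow hx0.le hxw hc1p.le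
      et0 := hδ
      nx := by
        have h1 : i.F.x ^ (3 * X.zeta) ≤ (i.F.x ^ c1) ^ 2 := by
          rw [← Real.rpow_natCast (i.F.x ^ c1) 2, ← Real.rpow_mul hx0.le]
          exact bd7ca_x_pow_le hF (by push_cast; linarith)
        have h2 : 0 ≤ (i.F.m : ℝ) * i.w ^ 6 := by positivity
        calc (1 : ℝ) ≤ i.F.x ^ (3 * X.zeta) * i.F.m * i.w ^ 6 := hbig
          _ = i.F.x ^ (3 * X.zeta) * (i.F.m * i.w ^ 6) := by ring
          _ ≤ (i.F.x ^ c1) ^ 2 * (i.F.m * i.w ^ 6) := mul_le_mul_of_nonneg_right h1 h2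
          _ = _ := by ring
      Cp0 := fun k => by have := hCr k; have := hCpS k; positivity
      tot := fun v hv => ⟨(htot v hv).1.trans (by rw [hC']; linarith), (htot v hv).2.trans (by rw [hC']; linarith)⟩
      raw := by
        intro p hp k hk1 hk
        refine (hraw k hk1 hk hi p hp).trans (pow_le_pow_left₀ ?_ ?_ _)
        · exact mul_nonneg (hCr k).le (add_nonneg hp.1 hw0.le)
        · exact mul_le_mul_of_nonneg_right (by have := hCpS k; linarith) (add_nonneg hp.1 hw0.le)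
      C0 := hC0
      CX := mul_le_mul_of_nonneg_right hKxC hw0.le
      band := by rw [hC']; linarith
      XLo := mul_le_mul_of_nonneg_right (by linarith) hw0.le
      XHi := mul_lt_mul_of_pos_right (by rw [hC']; linarith) hw0
      hHi := by
        intro v hv hXv
        have h2w : 2 * i.w ≤ v := (mul_le_mul_of_nonneg_right hKx2 hw0.le).trans hXv
        have h1 := (hp9 v hv h2w).2
        have h2 : v ^ 3 ≤ v := by
          have := pow_le_of_le_one hv.1.le hv.2.le (show (3 : ℕ) ≠ 0 by norm_num)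
          exact this
        have h3 : i.F.C0 * (CL * v) ≤ 1 * (CL * v) := mul_le_mul_of_nonneg_right hC01 (by have := hv.1; positivity)
        have h4 : (1 + CL) * v ≤ C' / 2 * v := mul_le_mul_of_nonneg_right (by rw [hC']; linarith) hv.1.le
        linarith
      low := by
        have e1 : ∫ v in (0 : ℝ)..(KU * (i.F.Wsc X i.w)), cvDC i.F.m (i.Q.bE i.g) (i.Q.hE i.g) (ghPosA v) = ∫ v in (0 : ℝ)..(KU * (i.F.Wsc X i.w)), i.Q.Dq W i.g v :=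
          bd7ca_int_congr le_rfl hKUW0.le hKUW.le fun v hv => bd7ca_D_eq hW hm hcb hch hv
        rw [← e1]
        exact hBF.lowU
      highX := by
        intro v h1 h2
        have e1 : ∫ t in (Kx * i.w)..v, cvDC i.F.m (i.Q.bE i.g) (i.Q.hE i.g) (ghPosA t) ^ 2 = ∫ t in (Kx * i.w)..v, i.Q.Dq2 W i.g t :=
          bd7ca_int_congr hKxw0 h1 h2 fun t ht => bd7ca_D2_eq hW hm hcb hch hst ht
        rw [← e1]
        exact hBF.highX v h1 h2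
      Bs := by
        have h1 : C * i.w ≤ C * (i.F.Wsc X i.w) := mul_le_mul_of_nonneg_left hwW hC0
        have h2 : (C + 2) * (i.F.Wsc X i.w) = C * (i.F.Wsc X i.w) + 2 * (i.F.Wsc X i.w) := by ring
        linarith
      sU := by linarith
      XU := by
        calc Kx * i.w ≤ KU * i.w := mul_le_mul_of_nonneg_right hKUx hw0.le
          _ ≤ KU * (i.F.Wsc X i.w) := mul_le_mul_of_nonneg_left hwW (by linarith)
      ULo := mul_le_mul_of_nonneg_right (by linarith) hW0.le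
      UHi := mul_lt_mul_of_pos_right (by rw [hC']; linarith) hW0
      U1 := hKUW
      SLo := by
        rw [← bd7ca_S_eq hW hm hcb hch hsI]
        exact lt_of_le_of_lt (mul_le_mul_of_nonneg_right hc'm hW0.le) hBF.SLo
      Dst := by
        rw [← bd7ca_D_eq hW hm hcb hch hsI]
        exact hBF.Dst
      mom := by
        intro k hk1 _
        rw [← bd7ca_S_eq hW hm hcb hch hsI]
        refine (hBF.mom k hk1).trans (pow_le_pow_left₀ ?_ ?_ _)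
        · exact mul_nonneg (mul_nonneg (hCpS k).le hsv0.le) hW0.le
        · exact mul_le_mul_of_nonneg_right (mul_le_mul_of_nonneg_right (by have := hCr k; linarith) hsv0.le) hW0.le
      T1 := hT1
      TC := hT2.trans (by rw [hC']; linarith)
      vs2 := by linarith
      bst := by
        intro v h1 h2
        have hvI : v ∈ Ioo (0 : ℝ) 1 := ⟨hvs0.trans_le h1, by linarith⟩
        have h3 := (hp9 v hvI (hvs2w.trans h1)).1
        have h4 : v ≤ 2 * Kup * (i.F.Wsc X i.w) := by linarith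
        have h5 : v ^ 2 ≤ (2 * Kup * (i.F.Wsc X i.w)) ^ 2 := pow_le_pow_left₀ hvI.1.le h4 2
        have h6 : (4 * Kup ^ 2 + 1) * (i.F.Wsc X i.w) ^ 2 ≤ C' * (i.F.Wsc X i.w) ^ 2 := mul_le_mul_of_nonneg_right (by rw [hC']; linarith) (sq_nonneg _)
        have h7 := sc.W_lo
        have h8 : (2 * Kup * (i.F.Wsc X i.w)) ^ 2 + (i.F.Wsc X i.w) ^ 2 = (4 * Kup ^ 2 + 1) * (i.F.Wsc X i.w) ^ 2 := by ring
        linarith
      hst := by
        have hvI : 2 * vs ∈ Ioo (0 : ℝ) 1 := ⟨by linarith, by linarith⟩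
        have h3 := (hp9 (2 * vs) hvI (by linarith)).2
        have h4 : 2 * vs ≤ 2 * Kup * (i.F.Wsc X i.w) := by linarith
        have h5 : (2 * vs) ^ 3 ≤ (2 * Kup * (i.F.Wsc X i.w)) ^ 3 := pow_le_pow_left₀ hvI.1.le h4 3
        have h6 : (8 * Kup ^ 3 + 2 * CL * Kup) * (i.F.Wsc X i.w) ^ 3 ≤ C' * (i.F.Wsc X i.w) ^ 3 := mul_le_mul_of_nonneg_right (by rw [hC']; linarith) (by positivity)
        have h7 : i.F.C0 * (CL * (2 * vs)) ≤ (i.F.Wsc X i.w) ^ 2 * (CL * (2 * Kup * (i.F.Wsc X i.w))) :=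
          mul_le_mul sc.W_lo (mul_le_mul_of_nonneg_left h4 (by linarith)) (by positivity) (sq_nonneg _)
        have h8 : (2 * Kup * (i.F.Wsc X i.w)) ^ 3 + (i.F.Wsc X i.w) ^ 2 * (CL * (2 * Kup * (i.F.Wsc X i.w))) = (8 * Kup ^ 3 + 2 * CL * Kup) * (i.F.Wsc X i.w) ^ 3 := by ring
        linarith
      highU := by
        intro v h1 h2
        have e1 : ∫ t in (KU * (i.F.Wsc X i.w))..v, cvDC i.F.m (i.Q.bE i.g) (i.Q.hE i.g) (ghPosA t) ^ 2 = ∫ t in (KU * (i.F.Wsc X i.w))..v, i.Q.Dq2 W i.g t :=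
          bd7ca_int_congr hKUW0.le h1 h2 fun t ht => bd7ca_D2_eq hW hm hcb hch hst ht
        rw [← e1]
        exact hBF.highU v h1 h2
      resU := by
        intro p0 pv hp0 hpv hp hUv k hk1 hk
        have hu : KU * (i.F.Wsc X i.w) < pv.u := bd7ca_posA_lt hpv hUv
        have hp0u : p0.u ≤ max C Kup * (i.F.Wsc X i.w) := by
          rcases hp with hp | hp
          · have h1 : p0.u ≤ C * i.w := cvlb_u_mono hp
            calc p0.u ≤ C * i.w := h1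
              _ ≤ C * (i.F.Wsc X i.w) := mul_le_mul_of_nonneg_left hwW hC0
              _ ≤ _ := mul_le_mul_of_nonneg_right (le_max_left _ _) hW0.le
          · rw [hp]
            exact hs2.trans (mul_le_mul_of_nonneg_right (le_max_right _ _) hW0.le)
        have hle : Kr * (p0.u + i.w) ≤ pv.u := by
          have h1 : p0.u + i.w ≤ (max C Kup + 1) * (i.F.Wsc X i.w) := by linarith
          calc Kr * (p0.u + i.w) ≤ Kr * ((max C Kup + 1) * (i.F.Wsc X i.w)) := mul_le_mul_of_nonneg_left h1 (by linarith)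
            _ = Kr * (max C Kup + 1) * (i.F.Wsc X i.w) := by ring
            _ ≤ KU * (i.F.Wsc X i.w) := mul_le_mul_of_nonneg_right hKUr hW0.le
            _ ≤ _ := hu.le
        have hWv : (i.F.Wsc X i.w) ≤ pv.u := by
          have h1 : 1 * (i.F.Wsc X i.w) ≤ KU * (i.F.Wsc X i.w) := mul_le_mul_of_nonneg_right hKU1 hW0.le
          linarith
        refine (hres k hk1 hk hi c1 hc1z p0 pv hp0 hpv hle hWv).trans (pow_le_pow_left₀ ?_ ?_ _)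
        · have : 0 ≤ i.w ^ 3 / ((i.F.Wsc X i.w) * Real.sqrt (i.F.Wsc X i.w)) := by positivity
          exact div_nonneg (mul_nonneg hsv0.le this) (Real.sqrt_nonneg _)
        · have h0 : 0 ≤ i.F.x ^ c1 * (i.w ^ 3 / ((i.F.Wsc X i.w) * Real.sqrt (i.F.Wsc X i.w))) := by positivity
          refine div_le_div_of_nonneg_right ?_ (Real.sqrt_nonneg _)
          have h1 : (1 : ℝ) ≤ Cr k + CpS k + 1 := by have := hCr k; have := hCpS k; linarith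
          exact le_mul_of_one_le_left h0 h1
      fld := by
        intro u hu hu1
        refine hfld vs u hvsW ?_ hu1
        have h1 : 16 * CL / cL * vs ≤ 16 * CL / cL * (Kup * (i.F.Wsc X i.w)) := mul_le_mul_of_nonneg_left hs2 (by linarith)
        have h2 : 16 * CL / cL * (Kup * (i.F.Wsc X i.w)) = 16 * CL / cL * Kup * (i.F.Wsc X i.w) := by ring
        have h3 : 16 * CL / cL * Kup * (i.F.Wsc X i.w) ≤ KU * (i.F.Wsc X i.w) := mul_le_mul_of_nonneg_right hKU16 hW0.le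
        linarith }
  exact ⟨hwW.trans hWδ, hWδ, i.F.x ^ c1, δ, ghPosA (Kx * i.w), ghPosA vs, ghPosA (KU * (i.F.Wsc X i.w)), hxs, le_rfl, bd7ca_ok hW hCF, bd7ca_star hW hCF⟩

end sup

/-! ## 6. THE BRIDGE `Bd7CGam`      (helper76) -/

section gam

/-- two clocks which interlace on `(0,1)` have the same mass profile in variance time -/
theorem bd7ca_alK_eq {K Kp : ℝ → ℝ} (h1 : ∀ v ∈ Ioo (0 : ℝ) 1, K v ≤ Kp v) (h2 : ∀ v ∈ Ioo (0 : ℝ) 1, ∀ v' ∈ Ioo (0 : ℝ) 1, v < v' → Kp v ≤ K v') :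
    scAlK 1 Kp = scAlK 1 K := by
  funext s
  unfold scAlK
  congr 1
  refine measure_eq_measure_of_null_sdiff (fun v hv => ⟨hv.1, (h1 v hv.1).trans hv.2⟩) ?_
  refine Set.Subsingleton.measure_zero ?_ _
  have key : ∀ v v' : ℝ, v ∈ {v : ℝ | v ∈ Ioo (0 : ℝ) 1 ∧ K v ≤ s} \ {v : ℝ | v ∈ Ioo (0 : ℝ) 1 ∧ Kp v ≤ s} →
      v' ∈ {v : ℝ | v ∈ Ioo (0 : ℝ) 1 ∧ K v ≤ s} \ {v : ℝ | v ∈ Ioo (0 : ℝ) 1 ∧ Kp v ≤ s} → ¬ v < v' := by
    intro v v' hv hv' hlt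
    exact hv.2 ⟨hv.1.1, (h2 v hv.1.1 v' hv'.1.1 hlt).trans hv'.1.2⟩
  intro v hv v' hv'
  exact le_antisymm (not_lt.1 (key v' v hv' hv)) (not_lt.1 (key v v' hv hv'))

/-- a clock of `Bud/PSys` at the position after a point of right continuity -/
theorem bd7ca_atA_eq {c : ℝ → ℝ} {v : ℝ} (hv : v ∈ Ioo (0 : ℝ) 1) (hc : ContinuousWithinAt c (Ioi v) v) :
    ghAt 1 (bmExt c) (ghPosA v) = c v := by
  rw [gh_os_at_posA]
  apply rightLim_eq_of_tendsto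
  refine Tendsto.congr' ?_ hc
  filter_upwards [Ioo_mem_nhdsGT hv.2] with u hu
  have huI : u ∈ Ioo (0 : ℝ) 1 := ⟨hv.1.trans hu.1, hu.2⟩
  rw [slc_clamp_eq _ huI.1.le huI.2.le, bd7ca_ext_eq _ huI]

variable {X : BdFix} {W : BdWorld} {Fam : BdFr → Prop} {Kb : ℝ}

/-- **THE BRIDGE**: `cvGamC` (223: limit of the step numbers; `= Γ` of the scalar library at the time `K(p)` by `cvg_main` of 266) is `bmGam` (198; `= Γ` of the scalar library by `sb7_gam` of 265).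
The two mass profiles coincide: `pfKu` is the right-continuous version of `K_s` on `(0,1)`. -/
theorem bd7ca_gam (hW : W.IsHub) (hadm : Bd7Adm X W Fam Kb) : Bd7CGam X W Fam := by
  obtain ⟨N0, hadm⟩ := hadm
  refine ⟨N0, fun i hi hN v hv hcb hch => ?_⟩
  obtain ⟨-, -, hb, hh, -⟩ := hadm i hi hN
  have hm : 0 < i.F.m := by
    have h1 := hi.ok.N2
    have h2 := hi.ok.m_lo
    have h3 : (2 : ℝ) ≤ i.F.N := by exact_mod_cast h1
    have h4 : (0 : ℝ) < i.F.m := by linarith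
    exact_mod_cast h4
  have hst := bd7c_stat i W (hW.a1 _) hb hh
  have hbE : GhClk1 1 (i.Q.bE i.g) := bd7c_ext_clk hb
  have hhE : GhClk1 1 (i.Q.hE i.g) := bd7c_ext_clk hh
  -- `K_s` is the function clock `cvKf` on `(0,1)`
  have eK : ∀ u ∈ Ioo (0 : ℝ) 1, cvKf i.F.m (i.Q.bE i.g) (i.Q.hE i.g) u = i.Q.Ks W i.g u := by
    intro u hu
    unfold cvKf BdQ.Ks
    rw [bd7ca_S_eq hW hm hb hh hu, show i.Q.hE i.g u = i.Q.hq i.g u from bd7ca_ext_eq _ hu,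
      show i.Q.bE i.g u = i.Q.bq i.g u from bd7ca_ext_eq _ hu]
  have eal : scAlK 1 (pfKu i.F.m (i.Q.bE i.g) (i.Q.hE i.g)) = scAlK 1 (i.Q.Ks W i.g) := by
    refine bd7ca_alK_eq (fun u hu => ?_) (fun u hu u' hu' hlt => ?_)
    · rw [← eK u hu]
      exact cvg_Kf_le hm hbE hhE hu.1.le hu.2.le
    · rw [← eK u' hu']
      exact cvg_Ku_le hm hbE hhE hu.1.le hlt hu'.2.le
  -- the time
  have et : pfKp i.F.m (i.Q.bE i.g) (i.Q.hE i.g) (ghPosA v) = i.Q.Ks W i.g v := by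
    unfold pfKp BdQ.Ks
    rw [bd7ca_S_eq hW hm hb hh hv, show ghAt 1 (i.Q.hE i.g) (ghPosA v) = i.Q.hq i.g v from bd7ca_atA_eq hv hch,
      show ghAt 1 (i.Q.bE i.g) (ghPosA v) = i.Q.bq i.g v from bd7ca_atA_eq hv hcb]
  -- the horizon
  have hb1 : 0 ≤ i.Q.bE i.g 1 := hbE.2.trans (hbE.1 ⟨le_rfl, zero_le_one⟩ ⟨zero_le_one, le_rfl⟩ zero_le_one)
  have hh1 : 0 ≤ i.Q.hE i.g 1 := hhE.2.trans (hhE.1 ⟨le_rfl, zero_le_one⟩ ⟨zero_le_one, le_rfl⟩ zero_le_one)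
  set τ := i.Q.hE i.g 1 + i.Q.bE i.g 1 + 1 with hτ
  have hτ0 : 0 < τ := by linarith
  have hτ1 : pfKp i.F.m (i.Q.bE i.g) (i.Q.hE i.g) (ghPosA 1) ≤ τ :=
    (cvg_Kp_le hm hbE hhE (gh_os_posA_ok zero_le_one le_rfl)).trans (by linarith)
  have hKτ : ∀ u ∈ Ioo (0 : ℝ) 1, i.Q.Ks W i.g u ≤ τ := by
    intro u hu
    rw [← eK u hu]
    refine (cvg_Kf_le hm hbE hhE hu.1.le hu.2.le).trans ?_
    exact (cvg_Kp_le hm hbE hhE (gh_os_posA_ok hu.1.le hu.2.le)).trans (by linarith)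
  rw [(cvg_main hm hbE hhE hτ0 hτ1 (gh_os_posA_ok hv.1.le hv.2.le)).2, et,
    sb7_gam hst.Kc hKτ (hst.Kc.nonneg v hv) (hKτ v hv) hτ0]
  unfold pfGh pfAl
  rw [eal]

end gam

end

end Claimed.Agent.R286
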