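import Claimed.Agent.R286.Bud.L07Ca

/-!
# Row 286, LL sec. 7, package L07, node N8 = PROP. 7.7, layer 2, file b: ASSEMBLY OF THE SUPPLY      (owner helper33; chief of N8 helper76; prefix `bd7cb_`)
TEX[LL:bud:modified-closure]  `07-budgets.tex` l.573-612.

`bd7cb_sup : asks ⟹ Bd7CSup`  (the changed path of a strong instance satisfies `CavP.Ok`, `CavP.Star` at `(m, w, W, T_m)`).      CHOICE OF THE CUTS AND CONSTANTS (all before the sizes):
`* = v_*` of Lemma 7.6 above `(C+2) W`, `v_* ≤ Kup W`;   `U_x = KX w`, `KX = max (C+2) (2 Kr10)`;   `U = KU W`, `KU = max KX (16 C_L/c_L Kup) (Kr16 (Kup+1))`;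
`sv = x^c1`, `c1 = min ζ (c_*/2)`, `ρ = c1`;   `et = δ`.
-/

set_option autoImplicit false

namespace Claimed.Agent.R286

open MeasureTheory Set Filter Topology

noncomputable section

variable {X : BdFix} {W : BdWorld} {Fam : BdFr → Prop} {Kb cL CL i0 : ℝ}

/-- **THE SUPPLY**      TEX[LL:bud:modified-closure] -/
theorem bd7cb_sup (hX : X.Ok) (hW : W.IsHub) (hcL : 0 < cL) (hcL1 : cL ≤ 1) (hCL : 1 ≤ CL) (hi0 : 0 < i0)
    (hb : BcsBase X W Fam) (hadm : Bd7Adm X W Fam Kb) (hilo : ∀ F, Fam F → i0 ≤ F.Ilo) (hp9 : Bd7P9 X Fam)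
    (hraw : Bd7CRaw X W Fam cL CL) (hres : Bd7CRes X W Fam cL CL)
    (h10 : ∀ cs : ℝ, 0 < cs → Bd7CC10 W (BcsIn.Cls (X := X) · W Fam ⟨cL, CL, cs, i0⟩))
    (hS3 : ∀ cs : ℝ, 0 < cs → BcsS3 W (BcsIn.Cls (X := X) · W Fam ⟨cL, CL, cs, i0⟩))
    (hcut : ∀ cs : ℝ, 0 < cs → BcsCut W (BcsIn.Cls (X := X) · W Fam ⟨cL, CL, cs, i0⟩) ⟨cL, CL, cs, i0⟩) :
    Bd7CSup X W Fam cL CL := by
  intro cs c C hcs hc hcC
  have hC0 : 0 < C := lt_of_lt_of_le hc hcC
  have hz := hX.zeta_pos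
  have hT := hX.T1
  -- the constants
  obtain ⟨cst, hcst, hcut⟩ := hcut cs hcs
  obtain ⟨Kup0, CpS, Ncut, hcut⟩ := hcut (C + 2) (by linarith)
  obtain ⟨Kr10, clo, chi, hKr10, hclo, hchi, h10⟩ := h10 cs hcs
  obtain ⟨Kr16, hKr16, hres⟩ := hres cs hcs
  obtain ⟨Cr, hCr0, hraw⟩ := hraw cs hcs
  obtain ⟨Kup, hKup⟩ : ∃ K, K = max Kup0 (C + 2) := ⟨_, rfl⟩
  have hKup1 : Kup0 ≤ Kup := hKup ▸ le_max_left _ _
  have hKup2 : C + 2 ≤ Kup := hKup ▸ le_max_right _ _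
  obtain ⟨KX, hKX⟩ : ∃ K, K = max (C + 2) (2 * Kr10) := ⟨_, rfl⟩
  have hKX1 : C + 2 ≤ KX := hKX ▸ le_max_left _ _
  have hKX2 : 2 * Kr10 ≤ KX := hKX ▸ le_max_right _ _
  obtain ⟨KU, hKU⟩ : ∃ K, K = max (max KX (16 * CL / cL * Kup)) (Kr16 * (Kup + 1)) := ⟨_, rfl⟩
  have hKU1 : KX ≤ KU := hKU ▸ (le_max_left _ _).trans (le_max_left _ _)
  have hKU2 : 16 * CL / cL * Kup ≤ KU := hKU ▸ (le_max_right _ _).trans (le_max_left _ _)
  have hKU3 : Kr16 * (Kup + 1) ≤ KU := hKU ▸ le_max_right _ _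
  have hKup0 : 0 < Kup := by linarith
  have h16 : 1 ≤ 16 * CL / cL := by rw [le_div_iff₀ hcL]; linarith
  have hKupKU : Kup ≤ KU := le_trans (by nlinarith only [h16, hKup0]) hKU2
  obtain ⟨c1, hc1⟩ : ∃ c1, c1 = min X.zeta (cst / 2) := ⟨_, rfl⟩
  have hc10 : 0 < c1 := hc1 ▸ lt_min hz (by linarith)
  have hc1z : c1 ≤ X.zeta := hc1 ▸ min_le_left _ _
  have hc1s : c1 < cst := lt_of_le_of_lt (hc1 ▸ min_le_right _ _) (by linarith)
  obtain ⟨C', hC'⟩ : ∃ C', C' = KX + KU + |Kb| + 2 * X.T + 2 * (1 + CL) + (4 * Kup ^ 2 + 1) + (8 * Kup ^ 3 + 2 * CL * Kup) + 1 := ⟨_, rfl⟩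
  have hKb := abs_nonneg Kb
  have hq2 : 0 ≤ Kup ^ 2 := by positivity
  have hq3 : 0 ≤ Kup ^ 3 := by positivity
  have hq4 : 0 ≤ CL * Kup := by positivity
  have hCa : KX + 1 ≤ C' := by rw [hC']; linarith
  have hCb : KU + 1 ≤ C' := by rw [hC']; linarith
  have hCc : |Kb| ≤ C' := by rw [hC']; linarith
  have hCd : 2 * X.T ≤ C' := by rw [hC']; linarith
  have hCe : 2 * (1 + CL) ≤ C' := by rw [hC']; linarith
  have hCf : 4 * Kup ^ 2 + 1 ≤ C' := by rw [hC']; linarith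
  have hCg : 8 * Kup ^ 3 + 2 * CL * Kup ≤ C' := by rw [hC']; linarith
  have hCh : 1 ≤ C' := by rw [hC']; linarith
  refine ⟨min c (cL / 4), C', c1, fun k => Cr k + |CpS ((2 * k : ℕ) : ℝ)| + 1, lt_min hc (by linarith), min_le_left _ _, hc10,
    fun kM δ hδ => ?_⟩
  -- the thresholds
  obtain ⟨Nl, hlift⟩ := bcs_cls_of_str (K := ⟨cL, CL, cs, i0⟩) hX hb hadm hilo
  obtain ⟨Na, hadm'⟩ := hadm
  have hδ4 : 0 < 1 / (4 * δ) := by positivity
  obtain ⟨Ns, hscale⟩ := bcs_num_scale X hX cs i0 (KU + 1 / (4 * δ) + 1) hcs hi0 (by linarith)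
  obtain ⟨Nb, hbig⟩ := bd7ca_big hX 1
  obtain ⟨Nv, hsv⟩ := bd7_ar_x_small X hc10 hδ
  obtain ⟨Np, hp9'⟩ := bd7ca_f_p9 (W := W) (cL := cL) (CL := CL) hX hp9
  have hrawk : ∀ k, 1 ≤ k → ∃ N0 : ℕ, ∀ i : Bd7I X, N0 ≤ i.F.N → (i.Str W Fam cL CL cs → ∀ p : GhPos, p.Ok 1 →
      i.mom p 0 k ≤ (Cr k * (p.u + i.w)) ^ (2 * k)) := fun k hk => by
    obtain ⟨N0, h⟩ := hraw k hk
    exact ⟨N0, fun i hN hi => h i hi hN⟩
  obtain ⟨Nr, hraw'⟩ := bd7ca_unif (fun i : Bd7I X => i.F.N) _ hrawk kM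
  obtain ⟨N3, hS3'⟩ := hS3 cs hcs KU (by linarith) (δ / 2) (by linarith)
  obtain ⟨Cc, N10, hCc0, h10'⟩ := h10 X.zeta hz
  obtain ⟨Nab, habs⟩ := bd7ca_absorb hX Cc hCc0
  obtain ⟨NR, hR10⟩ := bd7ca_R10_le (cs := cs) (i0 := i0) hX hcs hi0 hclo hchi
  have hresk : ∀ k, 1 ≤ k → ∃ N0 : ℕ, ∀ i : Bd7I X, N0 ≤ i.F.N → (i.Str W Fam cL CL cs → ∀ p0 pv : GhPos, p0.Ok 1 → pv.Ok 1 →
      Kr16 * (p0.u + i.w) ≤ pv.u → i.F.Wsc X i.w ≤ pv.u →
      i.res p0 pv k ≤ (i.F.x ^ c1 * (i.w ^ 3 / (i.F.Wsc X i.w * Real.sqrt (i.F.Wsc X i.w))) / Real.sqrt pv.u) ^ (2 * k)) := fun k hk => by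
    obtain ⟨K, N1, hK, h1⟩ := hres k hk X.zeta hz
    obtain ⟨N2, h2⟩ := bd7ca_res_num (cs := cs) (i0 := i0) hX hcs hi0 K hK
    refine ⟨N1 + N2, fun i hN hi p0 pv hp0 hpv h3 h4 => ?_⟩
    refine (h1 i hi (by omega) p0 pv hp0 hpv h3).trans
      (pow_le_pow_left₀ ?_ (h2 i.F hi.ok (by omega) i.w hi.w_lo hi.strong c1 pv.u hc1z h4) _)
    have hx := BdFr.x_pos' hi.ok
    have := Real.rpow_pos_of_pos hx (-X.zeta)
    have := hpv.1
    positivity
  obtain ⟨Nres, hres'⟩ := bd7ca_unif (fun i : Bd7I X => i.F.N) _ hresk kM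
  obtain ⟨Nf, hfld⟩ := bd7ca_f_fld (W := W) (Fam := Fam) (Kb := Kb) (i0 := i0) hX hcL hcL1 hCL hcs hi0 ⟨Na, hadm'⟩ hc1z
  refine ⟨Nl + Na + Ns + Nb + Nv + Np + Nr + N3 + N10 + Nab + NR + Nres + Nf + Ncut + 4, fun i hi hN => ?_⟩
  -- one instance
  have hF := hi.ok
  have hx := BdFr.x_pos' hF
  have hx1 := bd7_ar_x_lt_one hF
  obtain ⟨c0, hcls⟩ := hlift i hi (by omega)
  obtain ⟨-, -, hclkb, hclkh, htot⟩ := hadm' i hi.toOut.toStd (by omega)
  have hS := hscale i.F hF (by omega) i.w hi.w_lo hi.strong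
  have hw0 := hS.w0
  have hwW := hS.wW
  obtain ⟨Ws, hWs⟩ : ∃ Ws, Ws = i.F.Wsc X i.w := ⟨_, rfl⟩
  rw [← hWs] at hwW
  have hW0 : 0 < Ws := lt_of_lt_of_le hw0 hwW
  have hW1 : (KU + 1 / (4 * δ) + 1) * Ws ≤ 1 / 4 := hWs ▸ hS.W1
  have hKU0 : 0 < KU := by linarith only [hKU1, hKX1, hC0]
  have hp1 : 0 ≤ KU * Ws := (mul_pos hKU0 hW0).le
  have hp2 : 0 ≤ 1 / (4 * δ) * Ws := (mul_pos hδ4 hW0).le
  have hW1' : KU * Ws + 1 / (4 * δ) * Ws + Ws ≤ 1 / 4 := by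
    have e : (KU + 1 / (4 * δ) + 1) * Ws = KU * Ws + 1 / (4 * δ) * Ws + Ws := by ring
    linarith only [e, hW1]
  have hKUW : KU * Ws ≤ 1 / 4 := by linarith only [hW1', hp2, hW0]
  have hWδ : Ws ≤ δ := by
    have h1 : 1 / (4 * δ) * Ws ≤ 1 / 4 := by linarith only [hW1', hp1, hW0]
    rw [div_mul_eq_mul_div, one_mul, div_le_iff₀ (by positivity)] at h1
    linarith only [h1]
  have hW14 : Ws ≤ 1 / 4 := by linarith only [hW1', hp1, hp2]
  have hC0W : i.F.C0 ≤ Ws ^ 2 := hWs ▸ hS.W_lo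
  have hC01 := bd7_ar_C0_le_one hX hF
  have hC00 := bd7_ar_C0_pos hX hF
  have hxw : i.F.x ≤ i.w := (bd7_ar_x_le_wc hX hF).trans hi.w_lo
  obtain ⟨hT1, hT2, hp9i⟩ := hp9' i hi.toOut (by omega)
  obtain ⟨vst, hv1, hv2, hv3, -, -, hSlo, -, hDst, hmomS⟩ := hcut ⟨i, c0⟩ hcls (show Ncut ≤ i.F.N by omega)
  have hv1 : (C + 2) * Ws ≤ vst := hWs ▸ hv1
  have hv2 : vst ≤ Kup0 * Ws := hWs ▸ hv2
  have hSlo : cL / 2 * vst ≤ i.Q.Sq W i.g vst := hSlo
  have hDst : i.Q.Dq W i.g vst ≤ i.F.x ^ cst * i.w ^ 2 / Ws := hWs ▸ hDst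
  have hmomS : ∀ p : ℝ, 2 ≤ p → i.Q.nQ W i.g p vst (i.Q.Sq W i.g vst) ≤ CpS p * i.F.x ^ cst * Ws := hWs ▸ hmomS
  have hvK : vst ≤ Kup * Ws := hv2.trans (mul_le_mul_of_nonneg_right hKup1 hW0.le)
  have hvU : vst ≤ KU * Ws := hvK.trans (mul_le_mul_of_nonneg_right hKupKU hW0.le)
  have hCW : 0 ≤ C * Ws := (mul_pos hC0 hW0).le
  have hv1' : C * Ws + 2 * Ws ≤ vst := by
    have e : (C + 2) * Ws = C * Ws + 2 * Ws := by ring
    linarith only [e, hv1]
  have hvW : Ws ≤ vst := by linarith only [hv1', hCW, hW0]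
  have hv2w : 2 * i.w ≤ vst := by linarith only [hv1', hCW, hwW]
  have hvs0 : 0 < vst := lt_of_lt_of_le hW0 hvW
  have hst := bd7c_stat i W (hW.a1 _) hclkb hclkh
  have hsv0 : 0 < i.F.x ^ c1 := Real.rpow_pos_of_pos hx _
  have hXw : KX * i.w ≤ KU * Ws := mul_le_mul hKU1 hwW hw0.le hKU0.le
  have h10i : ∀ v : ℝ, Kr10 * i.w ≤ v → 2 * v ≤ 1 →
      ∫ t in v..(2 * v), i.Q.Dq2 W i.g t ≤ v * (Cc * i.F.x ^ (-X.zeta) * bcsR10 i.F X clo chi v) ^ 2 :=
    h10' ⟨i, c0⟩ hcls (show N10 ≤ i.F.N by omega)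
  have hRi := hR10 i.F hF (by omega) i.w hi.w_lo hi.strong
  have habsi := habs i.F hF (by omega) c1
  have hCF : Bd7CF i W C (min c (cL / 4)) C' c1 (fun k => Cr k + |CpS ((2 * k : ℕ) : ℝ)| + 1) kM (i.F.x ^ c1) δ (KX * i.w) vst (KU * Ws) := by
    have hCp1 : ∀ k, 1 ≤ Cr k + |CpS ((2 * k : ℕ) : ℝ)| + 1 := fun k => by
      have := (hCr0 k).le; have := abs_nonneg (CpS ((2 * k : ℕ) : ℝ)); linarith
    have hmin1 : min c (cL / 4) ≤ C := (min_le_left _ _).trans hcC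
    have hmin2 : min c (cL / 4) ≤ cL / 4 := min_le_right _ _
    have hKX0 : 0 < KX := by linarith only [hKX1, hC0]
    have hwsq : 0 < i.w ^ 2 / Ws := by positivity
    refine
      { m2 := ?_, clkb := hclkb, clkh := hclkh, w0 := hw0, WC := ?_, sv0 := hsv0, sv1 := ?_, et0 := hδ, nx := ?_, Cp0 := ?_, tot := ?_,
        raw := ?_, C0 := hC0.le, CX := ?_, band := ?_, XLo := ?_, XHi := ?_, hHi := ?_, low := ?_, highX := ?_, Bs := ?_, sU := hvU, XU := hXw,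
        ULo := ?_, UHi := ?_, U1 := ?_, SLo := ?_, Dst := ?_, mom := ?_, T1 := hT1, TC := ?_, vs2 := ?_, bst := ?_, hst := ?_, highU := ?_,
        resU := ?_, fld := ?_ }
    · -- m2
      have h1 := hF.m_lo
      have h2 : (4 : ℝ) ≤ i.F.N := by exact_mod_cast (show 4 ≤ i.F.N by omega)
      have h3 : (2 : ℝ) ≤ i.F.m := by linarith only [h1, h2]
      exact_mod_cast h3
    · rw [← hWs]; linarith only [hW14, hCh]
    · exact Real.rpow_le_rpow hx.le hxw hc10.le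
    · -- nx
      have h1 := hbig i.F hF (by omega) i.w hi.w_lo
      have h2 : i.F.x ^ (3 * X.zeta) ≤ (i.F.x ^ c1) ^ 2 := by
        rw [← Real.rpow_natCast (i.F.x ^ c1) 2, ← Real.rpow_mul hx.le]
        exact bd7ca_x_pow_le hF (by push_cast; linarith only [hc1z, hz])
      have hm0 : (0 : ℝ) ≤ i.F.m := Nat.cast_nonneg _
      calc (1 : ℝ) ≤ i.F.x ^ (3 * X.zeta) * i.F.m * i.w ^ 6 := h1
        _ ≤ (i.F.x ^ c1) ^ 2 * i.F.m * i.w ^ 6 := by gcongr
    · intro k; linarith only [hCp1 k]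
    · intro v hv
      have := htot v hv
      have h3 := le_abs_self Kb
      exact ⟨by linarith only [this.1, h3, hCc], by linarith only [this.2, h3, hCc]⟩
    · -- raw
      intro p hp k hk1 hk
      refine (hraw' i (by omega) k hk1 hk hi p hp).trans (pow_le_pow_left₀ ?_ ?_ _)
      · have := (hCr0 k).le; have := hp.1; positivity
      · refine mul_le_mul_of_nonneg_right ?_ (by have := hp.1; linarith only [this, hw0])
        have := abs_nonneg (CpS ((2 * k : ℕ) : ℝ)); linarith only [this]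
    · exact mul_le_mul_of_nonneg_right (by linarith only [hKX1]) hw0.le
    · linarith only [hKX1, hCa]
    · exact mul_le_mul_of_nonneg_right (by linarith only [hmin1, hKX1]) hw0.le
    · exact mul_lt_mul_of_pos_right (by linarith only [hCa]) hw0
    · -- hHi
      intro v hv hXv
      have h2w : 2 * i.w ≤ v := le_trans (by nlinarith only [hKX1, hC0, hw0]) hXv
      have h1 := (hp9i v hv h2w).2
      have h3 : v ^ 3 ≤ v := by
        have : v ^ 2 ≤ 1 := by nlinarith only [hv.1, hv.2]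
        nlinarith only [this, hv.1]
      have h4 : i.F.C0 * (CL * v) ≤ 1 * (CL * v) := mul_le_mul_of_nonneg_right hC01 (by have := hv.1; positivity)
      have h5 : (1 + CL) * v ≤ C' / 2 * v := mul_le_mul_of_nonneg_right (by linarith only [hCe]) hv.1.le
      linarith only [h1, h3, h4, h5]
    · -- low
      have h1 : ∫ v in (0 : ℝ)..(KU * Ws), i.Q.Dq W i.g v ≤ δ / 2 * i.w ^ 2 := hWs ▸ hS3' ⟨i, c0⟩ hcls (show N3 ≤ i.F.N by omega)
      have h2 : δ / 2 * i.w ^ 2 < δ * i.w ^ 2 := mul_lt_mul_of_pos_right (by linarith only [hδ]) (by positivity)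
      exact lt_of_le_of_lt h1 h2
    · -- highX
      intro v hv hv1
      have key := bd7ca_dyad (f := i.Q.Dq2 W i.g) (a := KX * i.w) (A := (i.F.x ^ c1 * i.w) ^ 2 / 2) (by positivity) (by positivity)
        hst.D0 (bd7ca_int_D2 hst) (fun t ht ht1 => by
          have a1 : Kr10 * i.w ≤ t := le_trans (by nlinarith only [hKX2, hw0]) ht
          have a2 : i.w ≤ t := le_trans (by nlinarith only [hKX1, hC0, hw0]) ht
          have t0 : 0 < t := lt_of_lt_of_le hw0 a2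
          have a3 := habsi _ i.w hc1z (bd7ca_R10_nonneg hX hF clo chi t0) ((hRi t (by linarith only [ht1, t0])).1 a2)
          refine (h10i t a1 ht1).trans (mul_le_mul_of_nonneg_left (by linarith only [a3]) t0.le)) v hv hv1
      linarith only [key]
    · -- Bs
      have : C * i.w ≤ C * Ws := mul_le_mul_of_nonneg_left hwW hC0.le
      linarith only [this, hv1', hW0]
    · rw [← hWs]; exact mul_le_mul_of_nonneg_right (by linarith only [hmin1, hKX1, hKU1]) hW0.le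
    · rw [← hWs]; exact mul_lt_mul_of_pos_right (by linarith only [hCb]) hW0
    · linarith only [hKUW]
    · -- SLo
      rw [← hWs]
      have h1 : min c (cL / 4) * Ws ≤ cL / 4 * Ws := mul_le_mul_of_nonneg_right hmin2 hW0.le
      have h2 : cL / 2 * Ws ≤ cL / 2 * vst := mul_le_mul_of_nonneg_left hvW (by linarith only [hcL])
      have h3 : cL / 4 * Ws < cL / 2 * Ws := mul_lt_mul_of_pos_right (by linarith only [hcL]) hW0
      linarith only [h1, h2, h3, hSlo]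
    · -- Dst
      rw [← hWs]
      have h1 : i.F.x ^ cst < i.F.x ^ c1 := Real.rpow_lt_rpow_of_exponent_gt hx hx1 hc1s
      have e1 : i.F.x ^ cst * i.w ^ 2 / Ws = i.F.x ^ cst * (i.w ^ 2 / Ws) := by ring
      have e2 : i.F.x ^ c1 * i.w ^ 2 / Ws = i.F.x ^ c1 * (i.w ^ 2 / Ws) := by ring
      rw [e2]
      exact lt_of_le_of_lt (e1 ▸ hDst) (mul_lt_mul_of_pos_right h1 hwsq)
    · -- mom
      intro k hk1 hk
      rw [← hWs]
      have hp2 : (2 : ℝ) ≤ ((2 * k : ℕ) : ℝ) := by exact_mod_cast (show 2 ≤ 2 * k by omega)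
      have h1 := hmomS _ hp2
      have h2 : i.F.x ^ cst ≤ i.F.x ^ c1 := bd7ca_x_pow_le hF hc1s.le
      have habs0 := abs_nonneg (CpS ((2 * k : ℕ) : ℝ))
      have h3 : CpS ((2 * k : ℕ) : ℝ) * i.F.x ^ cst * Ws ≤ |CpS ((2 * k : ℕ) : ℝ)| * i.F.x ^ c1 * Ws := by
        have hxc : 0 ≤ i.F.x ^ cst := (Real.rpow_pos_of_pos hx _).le
        refine mul_le_mul_of_nonneg_right ?_ hW0.le
        exact (mul_le_mul_of_nonneg_right (le_abs_self _) hxc).trans (mul_le_mul_of_nonneg_left h2 habs0)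
      refine (bd7ca_mom_le hW hclkb hclkh hk1 (by positivity) (h1.trans h3)).trans (pow_le_pow_left₀ (by positivity) ?_ _)
      refine mul_le_mul_of_nonneg_right (mul_le_mul_of_nonneg_right ?_ hsv0.le) hW0.le
      linarith only [(hCr0 k).le]
    · linarith only [hT2, hCd]
    · linarith only [hvU, hKUW]
    · -- bst
      intro v hv hv'
      rw [← hWs]
      have hvI : v ∈ Ioo (0 : ℝ) 1 := ⟨lt_of_lt_of_le hvs0 hv, by linarith only [hv', hvU, hKUW]⟩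
      have h1 := (hp9i v hvI (hv2w.trans hv)).1
      have h2 : v ≤ 2 * Kup * Ws := by linarith only [hv', hvK]
      have h3 : v ^ 2 ≤ (2 * Kup * Ws) ^ 2 := pow_le_pow_left₀ hvI.1.le h2 2
      have h4 : (4 * Kup ^ 2 + 1) * Ws ^ 2 ≤ C' * Ws ^ 2 := mul_le_mul_of_nonneg_right hCf (by positivity)
      have e : (2 * Kup * Ws) ^ 2 + Ws ^ 2 = (4 * Kup ^ 2 + 1) * Ws ^ 2 := by ring
      linarith only [h1, h3, h4, e, hC0W]
    · -- hst
      rw [← hWs]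
      have hvI : 2 * vst ∈ Ioo (0 : ℝ) 1 := ⟨by linarith only [hvs0], by linarith only [hvU, hKUW]⟩
      have h1 := (hp9i (2 * vst) hvI (by linarith only [hv2w, hvs0])).2
      have h2 : 2 * vst ≤ 2 * Kup * Ws := by linarith only [hvK]
      have h3 : (2 * vst) ^ 3 ≤ (2 * Kup * Ws) ^ 3 := pow_le_pow_left₀ hvI.1.le h2 3
      have h5 : i.F.C0 * (CL * (2 * vst)) ≤ Ws ^ 2 * (CL * (2 * Kup * Ws)) :=
        mul_le_mul hC0W (mul_le_mul_of_nonneg_left h2 (by linarith only [hCL])) (by have := hvI.1; positivity) (by positivity)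
      have h4 : (8 * Kup ^ 3 + 2 * CL * Kup) * Ws ^ 3 ≤ C' * Ws ^ 3 := mul_le_mul_of_nonneg_right hCg (by positivity)
      have e : (2 * Kup * Ws) ^ 3 + Ws ^ 2 * (CL * (2 * Kup * Ws)) = (8 * Kup ^ 3 + 2 * CL * Kup) * Ws ^ 3 := by ring
      linarith only [h1, h3, h4, h5, e]
    · -- highU
      intro v hv hv1
      rw [← hWs]
      have key := bd7ca_dyad (f := i.Q.Dq2 W i.g) (a := KU * Ws) (A := (i.F.x ^ c1 * (i.w ^ 2 / Ws)) ^ 2 / 2) (by positivity) (by positivity)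
        hst.D0 (bd7ca_int_D2 hst) (fun t ht ht1 => by
          have a0 : KX * i.w / 2 ≤ t := le_trans (by linarith only [hXw]) ht
          have a1 : Kr10 * i.w ≤ t := le_trans (by nlinarith only [hKX2, hw0]) a0
          have a2 : Ws ≤ t := le_trans (by nlinarith only [hKX1, hKU1, hC0, hW0]) ht
          have t0 : 0 < t := lt_of_lt_of_le hW0 a2
          have a3 := habsi _ (i.w ^ 2 / Ws) hc1z (bd7ca_R10_nonneg hX hF clo chi t0)
            (by have := (hRi t (by linarith only [ht1, t0])).2 (hWs ▸ a2); rwa [← hWs] at this)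
          refine (h10i t a1 ht1).trans (mul_le_mul_of_nonneg_left (by linarith only [a3]) t0.le)) v hv hv1
      have e : i.F.x ^ c1 * i.w ^ 2 / Ws = i.F.x ^ c1 * (i.w ^ 2 / Ws) := by ring
      rw [e]
      linarith only [key]
    · -- resU
      intro p0 pv hp0 hpv h0 hU k hk1 hk
      have hu : KU * Ws < pv.u := bd7ca_posA_lt hpv hU
      have hp0u : p0.u ≤ Kup * Ws := by
        rcases h0 with h | h
        · have h1 : p0.u ≤ C * i.w := cvl_u_mono h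
          have h2 : C * i.w ≤ C * Ws := mul_le_mul_of_nonneg_left hwW hC0.le
          have h3 : C * Ws ≤ Kup * Ws := mul_le_mul_of_nonneg_right (by linarith only [hKup2]) hW0.le
          linarith only [h1, h2, h3]
        · rw [h]; exact hvK
      have h1 : Kr16 * (p0.u + i.w) ≤ pv.u := by
        have a1 : Kr16 * (p0.u + i.w) ≤ Kr16 * ((Kup + 1) * Ws) :=
          mul_le_mul_of_nonneg_left (by linarith only [hp0u, hwW]) (by linarith only [hKr16])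
        have a2 : Kr16 * (Kup + 1) * Ws ≤ KU * Ws := mul_le_mul_of_nonneg_right hKU3 hW0.le
        have e : Kr16 * ((Kup + 1) * Ws) = Kr16 * (Kup + 1) * Ws := by ring
        linarith only [a1, a2, e, hu]
      have h2 : i.F.Wsc X i.w ≤ pv.u := by
        rw [← hWs]
        have : 1 * Ws ≤ KU * Ws := mul_le_mul_of_nonneg_right (by linarith only [hKU1, hKX1, hC0]) hW0.le
        linarith only [this, hu]
      refine (hres' i (by omega) k hk1 hk hi p0 pv hp0 hpv h1 h2).trans (pow_le_pow_left₀ ?_ ?_ _)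
      · have := hpv.1; rw [← hWs]; positivity
      · rw [← hWs]
        have hnn : 0 ≤ i.F.x ^ c1 * (i.w ^ 3 / (Ws * Real.sqrt Ws)) := by positivity
        refine div_le_div_of_nonneg_right ?_ (Real.sqrt_nonneg _)
        calc i.F.x ^ c1 * (i.w ^ 3 / (Ws * Real.sqrt Ws)) = 1 * (i.F.x ^ c1 * (i.w ^ 3 / (Ws * Real.sqrt Ws))) := (one_mul _).symm
          _ ≤ _ := mul_le_mul_of_nonneg_right (hCp1 k) hnn
    · -- fld
      intro u hu hu1
      refine hfld i hi (by omega) vst u (hWs ▸ hvW) ?_ hu1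
      have a1 : 16 * CL / cL * vst ≤ 16 * CL / cL * (Kup * Ws) := mul_le_mul_of_nonneg_left hvK (by linarith only [h16])
      have a2 : 16 * CL / cL * Kup * Ws ≤ KU * Ws := mul_le_mul_of_nonneg_right hKU2 hW0.le
      have e : 16 * CL / cL * (Kup * Ws) = 16 * CL / cL * Kup * Ws := by ring
      linarith only [a1, a2, e, hu]
  refine ⟨hwW.trans hWδ, hWs ▸ hWδ, i.F.x ^ c1, δ, ghPosA (KX * i.w), ghPosA vst, ghPosA (KU * Ws), hsv i.F hF (by omega), le_rfl,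
    bd7ca_ok hW hCF, bd7ca_star hW hCF⟩

end

end Claimed.Agent.R286
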