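import Claimed.Agent.R286.Lib.BarrierMv
import Claimed.Agent.R286.Bud.PSysB

/-!
# Row 286, LL 07-budgets Step 1 (l.889-985), node T7 : THE MOVEMENT INEQUALITY on an abstract pressure system      owner helper186, prefix `bud_mv_`

PE Lemma 6.3 "Movement using admissible paths", in the form LL needs it (l.899-901: "its proof only uses feasibility, optimality, the slope bound on `C` and the square interpolation"):
no class of quantiles appears; the trial enters through the ONE inequality `hmin` (optimality against the trial).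

* `skbar_mv_point`   the pointwise inequality written with the trial `rh` (no `ω`): `e(r)(rh - r)(z - r) ≤ e r² + D z² - ê rh² - c²/a`, `a = e + D - ê > 0`.
* `skbar_frac_up`, `skbar_frac_dn`   the strict movement fraction from thresholds (PE l.380-396, 448-455; LL l.947-957).
* `bud_mv_main`      `∫ e(r) (rh - r)(z - r) ≤ 4 err`     (`= ∫ e(r) ω (z-r)²`).
-/

set_option autoImplicit false

namespace Claimed.Agent.R286

open MeasureTheory Set

/-- the admissible moves of PE Lemma 6.3, written without `ω` -/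
def SkMove (e D r z rh : ℝ) : Prop :=
  rh = r ∨ (r ≤ rh ∧ r < z ∧ (rh - r) * (e + D) < (z - r) * D) ∨ (rh ≤ r ∧ z < r ∧ (r - rh) * (e + D) < (r - z) * D)

theorem skbar_mv_omega {e D r z rh : ℝ} (he : 0 < e) (hD : 0 < D) (h : SkMove e D r z rh) :
    ∃ om : ℝ, 0 ≤ om ∧ om < D / (e + D) ∧ rh = r + om * (z - r) := by
  have hs : 0 < e + D := by linarith
  rcases h with h | ⟨h1, h2, h3⟩ | ⟨h1, h2, h3⟩
  · exact ⟨0, le_rfl, by positivity, by rw [h]; ring⟩
  · have hzr : 0 < z - r := by linarith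
    refine ⟨(rh - r) / (z - r), div_nonneg (by linarith) hzr.le, ?_, ?_⟩
    · rw [div_lt_div_iff₀ hzr hs]; linarith
    · field_simp; ring
  · have hzr : 0 < r - z := by linarith
    refine ⟨(r - rh) / (r - z), div_nonneg (by linarith) hzr.le, ?_, ?_⟩
    · rw [div_lt_div_iff₀ hzr hs]; linarith
    · field_simp; ring

/-- **the pointwise movement inequality in terms of the trial** -/
theorem skbar_mv_point {ef : ℝ → ℝ} (hanti : AntitoneOn ef (Ici 0))
    (hmono : MonotoneOn (fun t => t * ef t) (Ici 0)) (hpos : ∀ t, 0 ≤ t → 0 < ef t)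
    {D r z rh : ℝ} (hD : 0 < D) (hr : 0 ≤ r) (hz : 0 ≤ z) (hmove : SkMove (ef r) D r z rh) :
    0 < ef r + D - ef rh ∧
      ef r * (rh - r) * (z - r) ≤ ef r * r ^ 2 + D * z ^ 2 - ef rh * rh ^ 2
        - (ef r * r + D * z - ef rh * rh) ^ 2 / (ef r + D - ef rh) := by
  have he := hpos r hr
  obtain ⟨om, h0, h1, hrh⟩ := skbar_mv_omega he hD hmove
  have hom1 := skbar_mv_om_lt_one he hD h1
  have heh := skbar_mv_eh (ef := ef) hanti hmono (fun t ht => (hpos t ht).le) h0 hom1 hr hz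
  have hrh0 : 0 ≤ r + om * (z - r) := by nlinarith
  have heh0 := (hpos _ hrh0).le
  rw [hrh]
  refine ⟨skbar_mv_a_pos he hD h1 heh, ?_⟩
  have := skbar_mv_main (r := r) (z := z) he hD h0 h1 heh0 heh
  have e1 : ef r * (r + om * (z - r) - r) * (z - r) = ef r * om * (z - r) ^ 2 := by ring
  rw [e1]
  exact this

/-- `c²/a ≤ e + D` for the same data -/
theorem skbar_mv_point_ratio {ef : ℝ → ℝ} (hanti : AntitoneOn ef (Ici 0))
    (hmono : MonotoneOn (fun t => t * ef t) (Ici 0)) (hpos : ∀ t, 0 ≤ t → 0 < ef t)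
    {D r z rh : ℝ} (hD : 0 < D) (hr : r ∈ Icc (0 : ℝ) 1) (hz : z ∈ Icc (0 : ℝ) 1) (hmove : SkMove (ef r) D r z rh) :
    (ef r * r + D * z - ef rh * rh) ^ 2 / (ef r + D - ef rh) ≤ ef r + D := by
  have he := hpos r hr.1
  obtain ⟨om, h0, h1, hrh⟩ := skbar_mv_omega he hD hmove
  have hom1 := skbar_mv_om_lt_one he hD h1
  have heh := skbar_mv_eh (ef := ef) hanti hmono (fun t ht => (hpos t ht).le) h0 hom1 hr.1 hz.1
  have hrh0 : 0 ≤ r + om * (z - r) := by nlinarith [hr.1, hz.1]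
  have heh0 := (hpos _ hrh0).le
  rw [hrh]
  exact skbar_mv_ratio he hD h0 h1 heh0 heh hr hz

/-- **strict fraction, upward** : `r ≤ θm < θ2 ≤ z`, displacement `≤ τ`, `τ (𝒟(θ2) + emax) < (θ2 - θm) 𝒟(θ2)`; no upper bound on `z`. -/
theorem skbar_frac_up {Df : ℝ → ℝ} (hDanti : AntitoneOn Df (Ici 0))
    (hDmono : MonotoneOn (fun t => t * Df t) (Ici 0)) (hDpos : ∀ t, 0 ≤ t → 0 < Df t)
    {e emax r rh z θm θ2 τ : ℝ} (he : 0 < e) (hemax : e ≤ emax) (hθm : 0 ≤ θm) (hm : θm < θ2)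
    (hrθ : r ≤ θm) (hz : θ2 ≤ z) (h0 : r ≤ rh) (hτ : rh - r ≤ τ)
    (hfr : τ * (Df θ2 + emax) < (θ2 - θm) * Df θ2) : SkMove e (Df z) r z rh := by
  right; left
  have hθ2 : 0 < θ2 := by linarith
  have hz0 : 0 ≤ z := by linarith
  have hDz := hDpos z hz0
  have hD2 := hDpos θ2 hθ2.le
  refine ⟨h0, by linarith, ?_⟩
  have a1 : Df z ≤ Df θ2 := hDanti (mem_Ici.2 hθ2.le) (mem_Ici.2 hz0) hz
  have a2 : θ2 * Df θ2 ≤ z * Df z := hDmono (mem_Ici.2 hθ2.le) (mem_Ici.2 hz0) hz
  -- (z - θm) 𝒟 z ≥ (θ2 - θm) 𝒟 θ2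
  have a3 : (θ2 - θm) * Df θ2 ≤ (z - θm) * Df z := by
    have b1 : θm * Df z ≤ θm * Df θ2 := mul_le_mul_of_nonneg_left a1 hθm
    nlinarith
  have a4 : (z - θm) * Df z ≤ (z - r) * Df z := mul_le_mul_of_nonneg_right (by linarith) hDz.le
  have hτ0 : 0 ≤ τ := by linarith
  have a5 : (rh - r) * (e + Df z) ≤ τ * (Df θ2 + emax) :=
    mul_le_mul hτ (by linarith) (by linarith) hτ0
  linarith

/-- **strict fraction, downward** : `z ≤ θ1 < θm ≤ rh ≤ r`, `(r - rh)(e + 𝒟(θ1)) < (θm - θ1) 𝒟(θ1)`. -/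
theorem skbar_frac_dn {Df : ℝ → ℝ} (hDanti : AntitoneOn Df (Ici 0)) (hDpos : ∀ t, 0 ≤ t → 0 < Df t)
    {e r rh z θ1 θm : ℝ} (he : 0 < e) (hz0 : 0 ≤ z) (hz : z ≤ θ1) (hm : θ1 < θm) (hrh : θm ≤ rh) (h0 : rh ≤ r)
    (hfr : (r - rh) * (e + Df θ1) < (r - θ1) * Df θ1) : SkMove e (Df z) r z rh := by
  right; right
  have hθ1 : 0 ≤ θ1 := hz0.trans hz
  have hDz := hDpos z hz0
  have hD1 := hDpos θ1 hθ1
  have a1 : Df θ1 ≤ Df z := hDanti (mem_Ici.2 hz0) (mem_Ici.2 hθ1) hz
  refine ⟨h0, by linarith, ?_⟩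
  -- (r - rh) e < (rh - θ1) 𝒟(θ1) ≤ (rh - z) 𝒟 z
  have b1 : (r - rh) * e < (rh - θ1) * Df θ1 := by nlinarith
  have b2 : (rh - θ1) * Df θ1 ≤ (rh - z) * Df z :=
    mul_le_mul (by linarith) a1 hD1.le (by linarith)
  nlinarith

/-- **the movement inequality** (PE Lemma 6.3) on an abstract pressure system.
`(b - er, h + er r)` = parent changed path, `(b - eh, h + eh rh)` = trial, `(b - er - D, h + er r + D z)` = doubly changed path. -/
theorem bud_mv_main (P : PSys) {b h er eh D r rh z : ℝ → ℝ} {err : ℝ}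
    (hb1 : IsClock P.a (fun v => b v - eh v)) (hh1 : IsClock P.a (fun v => h v + eh v * rh v))
    (hbQ : IsClock P.a (fun v => b v - er v - D v)) (hhQ : IsClock P.a (fun v => h v + er v * r v + D v * z v))
    (hmin : P.f (fun v => b v - er v) (fun v => h v + er v * r v) + (1 / 4) * ∫ v in Ioo 0 P.a, er v * r v ^ 2
      ≤ P.f (fun v => b v - eh v) (fun v => h v + eh v * rh v) + (1 / 4) * ∫ v in Ioo 0 P.a, eh v * rh v ^ 2)
    (hchild : P.f (fun v => b v - er v - D v) (fun v => h v + er v * r v + D v * z v)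
        + (1 / 4) * ∫ v in Ioo 0 P.a, D v * z v ^ 2
      ≤ P.f (fun v => b v - er v) (fun v => h v + er v * r v) + err)
    (hpt : ∀ v ∈ Ioo 0 P.a, 0 < er v + D v - eh v ∧
      er v * (rh v - r v) * (z v - r v) ≤ er v * r v ^ 2 + D v * z v ^ 2 - eh v * rh v ^ 2
        - (er v * r v + D v * z v - eh v * rh v) ^ 2 / (er v + D v - eh v))
    (i1 : IntegrableOn (fun v => er v * r v ^ 2) (Ioo 0 P.a))
    (i2 : IntegrableOn (fun v => D v * z v ^ 2) (Ioo 0 P.a))
    (i3 : IntegrableOn (fun v => eh v * rh v ^ 2) (Ioo 0 P.a))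
    (i4 : IntegrableOn (fun v => (er v * r v + D v * z v - eh v * rh v) ^ 2 / (er v + D v - eh v)) (Ioo 0 P.a))
    (i5 : IntegrableOn (fun v => er v * (rh v - r v) * (z v - r v)) (Ioo 0 P.a)) :
    ∫ v in Ioo 0 P.a, er v * (rh v - r v) * (z v - r v) ≤ 4 * err := by
  -- square interpolation from the trial to the doubly changed path
  set a : ℝ → ℝ := fun v => er v + D v - eh v with ha
  set c : ℝ → ℝ := fun v => er v * r v + D v * z v - eh v * rh v with hc
  have hbQ' : IsClock P.a (fun v => (b v - eh v) - a v) := by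
    refine hbQ.congr fun v _ => ?_
    simp only [ha]; ring
  have hhQ' : IsClock P.a (fun v => (h v + eh v * rh v) + a v * (c v / a v)) := by
    refine hhQ.congr fun v hv => ?_
    have := (hpt v hv).1
    have hne : a v ≠ 0 := this.ne'
    rw [mul_div_cancel₀ _ hne]
    simp only [hc]; ring
  have hint : IntegrableOn (fun v => a v * (c v / a v) ^ 2) (Ioo 0 P.a) := by
    refine i4.congr_fun (fun v hv => ?_) measurableSet_Ioo
    have hne : a v ≠ 0 := (hpt v hv).1.ne'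
    simp only [ha, hc] at hne ⊢
    field_simp
  have sq := bud_sqInterp P (fun v => b v - eh v) (fun v => h v + eh v * rh v) a (fun v => c v / a v)
    hb1 hh1 hbQ' hhQ' (fun v hv => (hpt v hv).1.le) hint
  have f1 : P.f (fun v => (b v - eh v) - a v) (fun v => (h v + eh v * rh v) + a v * (c v / a v))
      = P.f (fun v => b v - er v - D v) (fun v => h v + er v * r v + D v * z v) := by
    apply P.f_congr
    · intro v _; simp only [ha]; ring
    · intro v hv
      have hne : a v ≠ 0 := (hpt v hv).1.ne'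
      rw [mul_div_cancel₀ _ hne]
      simp only [hc]; ring
  have f2 : (∫ v in Ioo 0 P.a, a v * (c v / a v) ^ 2) = ∫ v in Ioo 0 P.a, c v ^ 2 / a v := by
    refine setIntegral_congr_fun measurableSet_Ioo fun v hv => ?_
    have hne : a v ≠ 0 := (hpt v hv).1.ne'
    field_simp
  rw [f1, f2] at sq
  -- integrate the pointwise inequality
  have mono : ∫ v in Ioo 0 P.a, er v * (rh v - r v) * (z v - r v)
      ≤ ∫ v in Ioo 0 P.a, (er v * r v ^ 2 + D v * z v ^ 2 - eh v * rh v ^ 2 - c v ^ 2 / a v) := by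
    refine setIntegral_mono_on i5 (((i1.add i2).sub i3).sub i4) measurableSet_Ioo fun v hv => ?_
    exact (hpt v hv).2
  have split : (∫ v in Ioo 0 P.a, (er v * r v ^ 2 + D v * z v ^ 2 - eh v * rh v ^ 2 - c v ^ 2 / a v))
      = (∫ v in Ioo 0 P.a, er v * r v ^ 2) + (∫ v in Ioo 0 P.a, D v * z v ^ 2)
        - (∫ v in Ioo 0 P.a, eh v * rh v ^ 2) - ∫ v in Ioo 0 P.a, c v ^ 2 / a v := by
    have j12 : IntegrableOn (fun v => er v * r v ^ 2 + D v * z v ^ 2) (Ioo 0 P.a) := i1.add i2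
    have j123 : IntegrableOn (fun v => er v * r v ^ 2 + D v * z v ^ 2 - eh v * rh v ^ 2) (Ioo 0 P.a) := j12.sub i3
    have i4' : IntegrableOn (fun v => c v ^ 2 / a v) (Ioo 0 P.a) := i4
    have s1 := integral_sub j123 i4'
    have s2 := integral_sub j12 i3
    have s3 := integral_add i1 i2
    rw [s1, s2, s3]
  rw [split] at mono
  linarith

end Claimed.Agent.R286
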