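import Claimed.Agent.R286.Bud.L07S
import Claimed.Agent.R286.Cmp.Prof

/-!
# Row 286, LL sec. 7, package L07, STEP 2 (l.990-1105), file R: the structural facts `RgDat.Ok` of one rescaled instance      (helper12; prefix `bd7_`, `Bd7I.`)

`Bd7I.Ctx` = the facts on ONE instance that are used; `bd7_rg_ok` : `Ctx` + potential ⇒ `(i.rg W Sc H).Ok (1/CL) (1/cL) (2 CL + 1) 1`;  `bd7_ctx` : strong instances of large size have a `Ctx`.
-/

set_option autoImplicit false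

namespace Claimed.Agent.R286

open MeasureTheory Set Filter Topology
open scoped Pointwise

noncomputable section

/-- the facts on one instance used in the verification of `RgDat.Ok` -/
structure Bd7I.Ctx {X : BdFix} (i : Bd7I X) (W : BdWorld) (Sc : Bd7Sc) (k : Bd7ScC) (cL CL : ℝ) : Prop where
  hX : X.Ok
  ok : i.F.Ok X
  cL_pos : 0 < cL
  CL_pos : 0 < CL
  w_pos : 0 < i.w
  w_small : 2 * (2 * CL + 1) * i.w ≤ 1
  Tm_pos : 0 < i.F.Tm
  Tm_le : i.F.Tm ≤ 2 * k.Tmax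
  a1 : (W.ps i.F.m).a = 1
  hb : IsClock 1 (i.F.b i.g)
  hh : IsClock 1 (i.F.h i.g)
  hbq : IsClock 1 (i.Q.bq i.g)
  hhq : IsClock 1 (i.Q.hq i.g)
  hK : IsClock 1 (i.Kh W)
  hKle : ∀ v ∈ Ioo (0 : ℝ) 1, i.Kh W v ≤ k.Kmax
  reg : i.Q.OuterReg i.w cL CL 2
  sc : Sc.Ok W k

namespace Bd7I

variable {X : BdFix} {i : Bd7I X} {W : BdWorld} {Sc : Bd7Sc} {k : Bd7ScC} {cL CL : ℝ}

theorem rad_mem (i : Bd7I X) (t : ℝ) : i.rad t ∈ Icc (0 : ℝ) (1 / 2) :=
  ⟨le_max_left _ _, max_le (by norm_num) (min_le_right _ _)⟩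

theorem rad_mem' (i : Bd7I X) (t : ℝ) : i.rad t ∈ Icc (0 : ℝ) 1 :=
  ⟨(i.rad_mem t).1, (i.rad_mem t).2.trans (by norm_num)⟩

theorem rad_mono (hw : 0 < i.w) : Monotone i.rad := by
  intro t t' h
  exact max_le_max le_rfl (min_le_min (mul_le_mul_of_nonneg_left h hw.le) le_rfl)

theorem rad_eq (hw : 0 < i.w) {t : ℝ} (h0 : 0 ≤ t) (h1 : t ≤ 1 / (2 * i.w)) : i.rad t = i.w * t := by
  have h2 : i.w * t ≤ 1 / 2 := by
    rw [le_div_iff₀ (by positivity)] at h1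
    linarith
  unfold rad
  rw [min_eq_left h2, max_eq_right (by positivity)]

theorem rad_pos (hw : 0 < i.w) {t : ℝ} (h0 : 0 < t) : 0 < i.rad t :=
  lt_max_of_lt_right (lt_min (by positivity) (by norm_num))

theorem rad_nonpos (hw : 0 < i.w) {t : ℝ} (h0 : t ≤ 0) : i.rad t = 0 := by
  unfold rad
  have : i.w * t ≤ 0 := mul_nonpos_of_nonneg_of_nonpos hw.le h0
  exact max_eq_left ((min_le_left _ _).trans this)

theorem Ctx.mas_mem (c : i.Ctx W Sc k cL CL) {t : ℝ} (h0 : 0 < t) : i.mas t ∈ Ioo (0 : ℝ) 1 :=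
  bd7_q_al_mem_Ioo i.Q c.ok ⟨rad_pos c.w_pos h0, lt_of_le_of_lt (i.rad_mem t).2 (by norm_num)⟩

theorem Ctx.mas_mono (c : i.Ctx W Sc k cL CL) : Monotone i.mas := fun t t' h =>
  bd7_q_al_mono i.Q c.ok (i.rad_mem' t) (i.rad_mem' t') (rad_mono c.w_pos h)

theorem Ctx.mas_nonneg (c : i.Ctx W Sc k cL CL) (t : ℝ) : 0 ≤ i.mas t :=
  (bd7_q_al_mem i.Q c.ok (i.rad_mem' t)).1

theorem Ctx.r_mas (c : i.Ctx W Sc k cL CL) (t : ℝ) : i.Q.r (i.mas t) = i.rad t := i.Q.r_al _ (i.rad_mem' t)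

theorem Ctx.S_mono (c : i.Ctx W Sc k cL CL) : MonotoneOn (i.Q.Sq W i.g) (Ioo 0 1) := by
  have := (W.ps i.F.m).S_mono _ _ (by rw [c.a1]; exact c.hbq) (by rw [c.a1]; exact c.hhq)
  rw [c.a1] at this; exact this

theorem Ctx.B_mono (c : i.Ctx W Sc k cL CL) : MonotoneOn (i.Q.Bq W i.g) (Ioo 0 1) := by
  have := (W.ps i.F.m).B_mono _ _ (by rw [c.a1]; exact c.hbq) (by rw [c.a1]; exact c.hhq)
  rw [c.a1] at this; exact this

theorem Ctx.S_nonneg (c : i.Ctx W Sc k cL CL) : ∀ v ∈ Ioo (0 : ℝ) 1, 0 ≤ i.Q.Sq W i.g v := by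
  have := (W.ps i.F.m).S_nonneg _ _ (by rw [c.a1]; exact c.hbq) (by rw [c.a1]; exact c.hhq)
  rw [c.a1] at this; exact this

theorem Ctx.S_sq_le (c : i.Ctx W Sc k cL CL) : ∀ v ∈ Ioo (0 : ℝ) 1, i.Q.Sq W i.g v ^ 2 ≤ i.Q.Bq W i.g v := by
  have := (W.ps i.F.m).S_sq_le _ _ (by rw [c.a1]; exact c.hbq) (by rw [c.a1]; exact c.hhq)
  rw [c.a1] at this; exact this

theorem Ctx.B_nonneg (c : i.Ctx W Sc k cL CL) : ∀ v ∈ Ioo (0 : ℝ) 1, 0 ≤ i.Q.Bq W i.g v :=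
  fun v hv => (sq_nonneg _).trans (c.S_sq_le v hv)

theorem Ctx.D_sq (c : i.Ctx W Sc k cL CL) {v : ℝ} (hv : v ∈ Ioo (0 : ℝ) 1) :
    i.Q.Dq W i.g v ^ 2 = i.Q.Bq W i.g v - i.Q.Sq W i.g v ^ 2 := by
  unfold BdQ.Dq BdQ.Dq2
  exact Real.sq_sqrt (by linarith [c.S_sq_le v hv])

/-- a function of the mass, read at the rescaled radius, with the value `0` for `t ≤ 0` -/
def lift (i : Bd7I X) (f : ℝ → ℝ) (t : ℝ) : ℝ := if t ≤ 0 then 0 else f (i.mas t)

theorem Ctx.lift_mono (c : i.Ctx W Sc k cL CL) {f : ℝ → ℝ} (hf : MonotoneOn f (Ioo 0 1))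
    (h0 : ∀ v ∈ Ioo (0 : ℝ) 1, 0 ≤ f v) : Monotone (i.lift f) := by
  intro t t' h
  unfold lift
  by_cases ht : t ≤ 0
  · rw [if_pos ht]
    split_ifs
    · exact le_rfl
    · exact h0 _ (c.mas_mem (by linarith))
  · rw [not_le] at ht
    rw [if_neg (by linarith), if_neg (by linarith)]
    exact hf (c.mas_mem ht) (c.mas_mem (by linarith)) (c.mas_mono h)

theorem Ctx.lift_nonneg (c : i.Ctx W Sc k cL CL) {f : ℝ → ℝ}
    (h0 : ∀ v ∈ Ioo (0 : ℝ) 1, 0 ≤ f v) (t : ℝ) : 0 ≤ i.lift f t := by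
  unfold lift
  split_ifs with ht
  · exact le_rfl
  · exact h0 _ (c.mas_mem (by linarith))

/-! ### the fields of `rg` through `lift` -/

theorem rg_s (i : Bd7I X) (W : BdWorld) (Sc : Bd7Sc) (H : ℝ → ℝ) (t : ℝ) :
    (i.rg W Sc H).s t = i.lift (i.Q.Sq W i.g) t / i.w := by
  simp only [rg, lift]; split_ifs <;> simp

theorem rg_dl (i : Bd7I X) (W : BdWorld) (Sc : Bd7Sc) (H : ℝ → ℝ) (t : ℝ) :
    (i.rg W Sc H).dl t = i.lift (i.Q.Dq W i.g) t / i.w := by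
  simp only [rg, lift]; split_ifs <;> simp

theorem rg_k (i : Bd7I X) (W : BdWorld) (Sc : Bd7Sc) (H : ℝ → ℝ) (t : ℝ) :
    (i.rg W Sc H).k t = i.lift (i.Kh W) t / (i.F.Tm * i.w) := by
  simp only [rg, lift]; split_ifs <;> simp

theorem rg_z (i : Bd7I X) (W : BdWorld) (Sc : Bd7Sc) (H : ℝ → ℝ) (t : ℝ) :
    (i.rg W Sc H).z t = ((i.lift (i.F.b i.g) t - i.F.Tm) * i.lift (i.Q.Sq W i.g) t + i.lift (i.F.h i.g) t) / i.w ^ 3 := by
  simp only [rg, lift]; split_ifs <;> simp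

theorem Ctx.lift_D (c : i.Ctx W Sc k cL CL) (t : ℝ) :
    i.lift (i.Q.Dq W i.g) t = Real.sqrt (i.lift (i.Q.Bq W i.g) t - i.lift (i.Q.Sq W i.g) t ^ 2) := by
  unfold lift
  split_ifs
  · simp
  · rfl

theorem Ctx.dl_meas (c : i.Ctx W Sc k cL CL) (H : ℝ → ℝ) : Measurable (i.rg W Sc H).dl := by
  have e : (i.rg W Sc H).dl = fun t =>
      Real.sqrt (i.lift (i.Q.Bq W i.g) t - i.lift (i.Q.Sq W i.g) t ^ 2) / i.w := by
    funext t; rw [rg_dl, c.lift_D]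
  rw [e]
  have h1 := (c.lift_mono c.B_mono c.B_nonneg).measurable
  have h2 := (c.lift_mono c.S_mono c.S_nonneg).measurable
  exact ((h1.sub (h2.pow_const 2)).sqrt).div_const _

theorem Ctx.z_meas (c : i.Ctx W Sc k cL CL) (H : ℝ → ℝ) : Measurable (i.rg W Sc H).z := by
  have e : (i.rg W Sc H).z = fun t =>
      ((i.lift (i.F.b i.g) t - i.F.Tm) * i.lift (i.Q.Sq W i.g) t + i.lift (i.F.h i.g) t) / i.w ^ 3 := by
    funext t; rw [rg_z]
  rw [e]
  have h1 := (c.lift_mono c.hb.mono c.hb.nonneg).measurable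
  have h2 := (c.lift_mono c.S_mono c.S_nonneg).measurable
  have h3 := (c.lift_mono c.hh.mono c.hh.nonneg).measurable
  exact ((((h1.sub_const _).mul h2).add h3)).div_const _

theorem e_meas (i : Bd7I X) (W : BdWorld) (Sc : Bd7Sc) (H : ℝ → ℝ) : Measurable (i.rg W Sc H).e := by
  have : Continuous (i.rg W Sc H).e := by
    simp only [rg, BdFr.C]
    exact ((cm_e_cont (P := i.F.call X) i.F.C0).comp (continuous_const.mul continuous_id)).div_const _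
  exact this.measurable

theorem p_meas (i : Bd7I X) (W : BdWorld) (Sc : Bd7Sc) (H : ℝ → ℝ) : Measurable (i.rg W Sc H).p := by
  have : Continuous (i.rg W Sc H).p := by
    simp only [rg, BdFr.pC]
    exact (cm_pp_cont (P := i.F.call X) i.F.C0).comp (continuous_const.mul continuous_id)
  exact this.measurable

theorem Ctx.a_mono (c : i.Ctx W Sc k cL CL) (H : ℝ → ℝ) : Monotone (i.rg W Sc H).a := fun t t' h =>
  div_le_div_of_nonneg_right (c.mas_mono h) c.w_pos.le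

theorem Ctx.s_mono (c : i.Ctx W Sc k cL CL) (H : ℝ → ℝ) : Monotone (i.rg W Sc H).s := fun t t' h => by
  rw [rg_s, rg_s]
  exact div_le_div_of_nonneg_right (c.lift_mono c.S_mono c.S_nonneg h) c.w_pos.le

theorem Ctx.k_mono (c : i.Ctx W Sc k cL CL) (H : ℝ → ℝ) : Monotone (i.rg W Sc H).k := fun t t' h => by
  rw [rg_k, rg_k]
  exact div_le_div_of_nonneg_right (c.lift_mono c.hK.mono c.hK.nonneg h) (mul_pos c.Tm_pos c.w_pos).le

end Bd7I

/-! ### the time distribution of a clock -/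

theorem bd7_dist_fin (K : ℝ → ℝ) (t : ℝ) : volume {v : ℝ | v ∈ Ioo (0 : ℝ) 1 ∧ K v ≤ t} ≠ ⊤ := by
  have h1 : volume {v : ℝ | v ∈ Ioo (0 : ℝ) 1 ∧ K v ≤ t} ≤ volume (Ioo (0 : ℝ) 1) :=
    measure_mono fun v hv => hv.1
  have h2 : volume (Ioo (0 : ℝ) 1) < ⊤ := by simp
  exact (lt_of_le_of_lt h1 h2).ne

theorem bd7_dist_nonneg (K : ℝ → ℝ) (t : ℝ) : 0 ≤ bdDist K t := ENNReal.toReal_nonneg

theorem bd7_dist_mono (K : ℝ → ℝ) : Monotone (bdDist K) := fun t t' h =>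
  ENNReal.toReal_mono (bd7_dist_fin K t') (measure_mono fun _ hv => ⟨hv.1, hv.2.trans h⟩)

theorem bd7_dist_le_one (K : ℝ → ℝ) (t : ℝ) : bdDist K t ≤ 1 := by
  have h1 : volume {v : ℝ | v ∈ Ioo (0 : ℝ) 1 ∧ K v ≤ t} ≤ volume (Ioo (0 : ℝ) 1) :=
    measure_mono fun v hv => hv.1
  have := ENNReal.toReal_mono (by simp) h1
  simpa [bdDist] using this

theorem bd7_dist_ge {K : ℝ → ℝ} (hK : MonotoneOn K (Ioo 0 1)) {v0 t : ℝ} (hv : v0 ∈ Ioo (0 : ℝ) 1)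
    (h : K v0 ≤ t) : v0 ≤ bdDist K t := by
  have h1 : volume (Ioc (0 : ℝ) v0) ≤ volume {v : ℝ | v ∈ Ioo (0 : ℝ) 1 ∧ K v ≤ t} :=
    measure_mono fun v hv' => ⟨⟨hv'.1, lt_of_le_of_lt hv'.2 hv.2⟩,
      (hK ⟨hv'.1, lt_of_le_of_lt hv'.2 hv.2⟩ hv hv'.2).trans h⟩
  have := ENNReal.toReal_mono (bd7_dist_fin K t) h1
  rw [Real.volume_Ioc, sub_zero, ENNReal.toReal_ofReal hv.1.le] at this
  exact this

theorem bd7_dist_le {K : ℝ → ℝ} (hK : MonotoneOn K (Ioo 0 1)) {v0 t : ℝ} (hv : v0 ∈ Ioo (0 : ℝ) 1)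
    (h : t < K v0) : bdDist K t ≤ v0 := by
  have h1 : volume {v : ℝ | v ∈ Ioo (0 : ℝ) 1 ∧ K v ≤ t} ≤ volume (Ioo (0 : ℝ) v0) :=
    measure_mono fun v hv' => ⟨hv'.1.1, by
      by_contra hc
      rw [not_lt] at hc
      have := hK hv hv'.1 hc
      linarith [hv'.2]⟩
  have := ENNReal.toReal_mono (by simp) h1
  rw [Real.volume_Ioo, sub_zero, ENNReal.toReal_ofReal hv.1.le] at this
  exact this

theorem bd7_dist_neg {K : ℝ → ℝ} (hK : ∀ v ∈ Ioo (0 : ℝ) 1, 0 ≤ K v) {t : ℝ} (h : t < 0) : bdDist K t = 0 := by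
  have : {v : ℝ | v ∈ Ioo (0 : ℝ) 1 ∧ K v ≤ t} = ∅ := by
    refine eq_empty_iff_forall_notMem.2 fun v hv => ?_
    have := hK v hv.1
    linarith [hv.2]
  unfold bdDist
  rw [this]
  simp

namespace Bd7I

variable {X : BdFix} {i : Bd7I X} {W : BdWorld} {Sc : Bd7Sc} {k : Bd7ScC} {cL CL : ℝ}

theorem Ctx.aK_mono (c : i.Ctx W Sc k cL CL) (H : ℝ → ℝ) : Monotone (i.rg W Sc H).aK := fun τ τ' h =>
  div_le_div_of_nonneg_right
    (bd7_dist_mono _ (mul_le_mul_of_nonneg_left h (mul_pos c.Tm_pos c.w_pos).le)) c.w_pos.le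

theorem Ctx.aK_ge (c : i.Ctx W Sc k cL CL) (H : ℝ → ℝ) (t τ : ℝ) (h0 : 0 ≤ t)
    (h : (i.rg W Sc H).k t ≤ τ) : (i.rg W Sc H).a t ≤ (i.rg W Sc H).aK τ := by
  have hTw := mul_pos c.Tm_pos c.w_pos
  refine div_le_div_of_nonneg_right ?_ c.w_pos.le
  rcases h0.eq_or_lt with rfl | h0
  · have : i.mas 0 = 0 := by
      unfold mas; rw [rad_nonpos c.w_pos le_rfl, i.Q.al_zero]
    rw [this]; exact bd7_dist_nonneg _ _
  · refine bd7_dist_ge c.hK.mono (c.mas_mem h0) ?_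
    rw [rg_k, lift, if_neg (by linarith), div_le_iff₀ hTw] at h
    linarith

theorem Ctx.aK_le (c : i.Ctx W Sc k cL CL) (H : ℝ → ℝ) (t τ : ℝ) (h0 : 0 ≤ t)
    (h : τ < (i.rg W Sc H).k t) : (i.rg W Sc H).aK τ ≤ (i.rg W Sc H).a t := by
  have hTw := mul_pos c.Tm_pos c.w_pos
  refine div_le_div_of_nonneg_right ?_ c.w_pos.le
  rcases h0.eq_or_lt with rfl | h0
  · rw [rg_k, lift, if_pos le_rfl, zero_div] at h
    rw [bd7_dist_neg c.hK.nonneg (mul_neg_of_pos_of_neg hTw h)]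
    exact c.mas_nonneg _
  · refine bd7_dist_le c.hK.mono (c.mas_mem h0) ?_
    rw [rg_k, lift, if_neg (by linarith), lt_div_iff₀ hTw] at h
    linarith

/-- `R = 1/(2w)` -/
theorem rg_R (i : Bd7I X) (W : BdWorld) (Sc : Bd7Sc) (H : ℝ → ℝ) : (i.rg W Sc H).R = 1 / (2 * i.w) := rfl

theorem Ctx.outer (c : i.Ctx W Sc k cL CL) (H : ℝ → ℝ) (t : ℝ) (h1 : 2 * CL + 1 ≤ t)
    (h2 : t ≤ (i.rg W Sc H).R) :
    1 / CL * t ≤ (i.rg W Sc H).a t ∧ (i.rg W Sc H).a t ≤ 1 / cL * t := by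
  have hw := c.w_pos
  have hCL := c.CL_pos
  have ht0 : 0 ≤ t := by linarith
  have hrad : i.rad t = i.w * t := rad_eq hw ht0 h2
  have hle : i.w * t ≤ 1 := by rw [← hrad]; exact (i.rad_mem' t).2
  have h2w : 2 * i.w ≤ 1 := by nlinarith [c.w_small]
  have := bd7_q_outer i.Q c.ok hw h2w c.cL_pos hCL c.reg (ρ := i.w * t) (by nlinarith) hle
  have ea : (i.rg W Sc H).a t = i.Q.al (i.w * t) / i.w := by
    simp only [rg, mas, hrad]
  rw [ea]
  constructor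
  · rw [le_div_iff₀ hw]
    calc 1 / CL * t * i.w = i.w * t / CL := by ring
      _ ≤ _ := this.1
  · rw [div_le_iff₀ hw]
    calc i.Q.al (i.w * t) ≤ i.w * t / cL := this.2
      _ = 1 / cL * t * i.w := by ring

theorem Ctx.quant (c : i.Ctx W Sc k cL CL) (H : ℝ → ℝ) (v : ℝ) (h1 : (i.rg W Sc H).a 0 < v)
    (h2 : v ≤ (i.rg W Sc H).a (i.rg W Sc H).R) :
    0 ≤ (i.rg W Sc H).r v ∧ (i.rg W Sc H).r v ≤ (i.rg W Sc H).R ∧ (i.rg W Sc H).a ((i.rg W Sc H).r v) = v := by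
  have hw := c.w_pos
  have e0 : (i.rg W Sc H).a 0 = 0 := by
    simp only [rg, mas]; rw [rad_nonpos hw le_rfl, i.Q.al_zero, zero_div]
  rw [e0] at h1
  have hR0 : (0 : ℝ) ≤ 1 / (2 * i.w) := by positivity
  have eR : (i.rg W Sc H).a (i.rg W Sc H).R = i.Q.al (1 / 2) / i.w := by
    simp only [rg, mas]
    rw [rad_eq hw hR0 le_rfl]
    congr 2
    field_simp
  rw [eR, le_div_iff₀ hw] at h2
  have hhalf : (1 / 2 : ℝ) ∈ Icc (0 : ℝ) 1 := by constructor <;> norm_num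
  have hwv0 : 0 < i.w * v := by positivity
  have hwv1 : i.w * v ≤ 1 := by
    have := (bd7_q_al_mem i.Q c.ok hhalf).2
    linarith
  have hmem : i.w * v ∈ Icc (0 : ℝ) 1 := ⟨hwv0.le, hwv1⟩
  have er : (i.rg W Sc H).r v = i.Q.r (i.w * v) / i.w := by
    simp only [rg]
    rw [min_eq_left hwv1, max_eq_right hwv0.le]
  have hr0 := (i.Q.r_mem _ hmem).1
  have hrh : i.Q.r (i.w * v) ≤ 1 / 2 := by
    have := bd7_q_r_mono i.Q c.ok hmem (bd7_q_al_mem i.Q c.ok hhalf) (by linarith)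
    rwa [i.Q.r_al _ hhalf] at this
  rw [er]
  refine ⟨by positivity, ?_, ?_⟩
  · rw [rg_R, div_le_div_iff₀ hw (by positivity)]
    nlinarith
  · have hle : i.Q.r (i.w * v) / i.w ≤ 1 / (2 * i.w) := by
      rw [div_le_div_iff₀ hw (by positivity)]
      nlinarith
    simp only [rg, mas]
    rw [rad_eq hw (by positivity) hle, mul_div_cancel₀ _ hw.ne', i.Q.al_r _ hmem]
    field_simp

/-- positivity of `t` from `a 0 < a t` -/
theorem Ctx.t_pos (c : i.Ctx W Sc k cL CL) (H : ℝ → ℝ) {t : ℝ} (h0 : 0 ≤ t)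
    (h : (i.rg W Sc H).a 0 < (i.rg W Sc H).a t) : 0 < t := by
  rcases h0.eq_or_lt with rfl | h0
  · exact absurd h (lt_irrefl _)
  · exact h0

theorem Ctx.k_eq (c : i.Ctx W Sc k cL CL) (H : ℝ → ℝ) (t : ℝ) (ht : 0 < t) (h1 : t ≤ (i.rg W Sc H).R) :
    (i.rg W Sc H).k t = t + (1 - (i.rg W Sc H).x ^ 2 * (i.rg W Sc H).e t / (i.rg W Sc H).T) *
      ((i.rg W Sc H).s t - t) + (i.rg W Sc H).x ^ 2 * (i.rg W Sc H).z t / (i.rg W Sc H).T := by
  have hw := c.w_pos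
  have hT := c.Tm_pos
  have hv : i.Q.r (i.mas t) = i.w * t := by rw [c.r_mas, rad_eq hw ht.le h1]
  simp only [rg, if_neg (not_le.2 ht)]
  unfold Kh BdQ.Ks BdQ.hq BdQ.bq
  rw [hv]
  field_simp
  ring

/-- the first-variation density of the instance -/
def Gd (i : Bd7I X) (W : BdWorld) (ρ : ℝ) : ℝ :=
  i.F.C X ρ * cmBr (i.F.pC X ρ) ρ (i.Q.Sq W i.g (i.Q.al ρ)) (i.Q.Bq W i.g (i.Q.al ρ))

theorem Ctx.gam_eq (c : i.Ctx W Sc k cL CL) (H : ℝ → ℝ) (t : ℝ) (ht : 0 < t) (h1 : t ≤ (i.rg W Sc H).R) :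
    (i.rg W Sc H).gam t = i.Gd W (i.w * t) / i.w ^ 3 := by
  have hw := c.w_pos
  have hm : i.mas t = i.Q.al (i.w * t) := by unfold mas; rw [rad_eq hw ht.le h1]
  have hD := c.D_sq (c.mas_mem ht)
  have e1 : (i.Q.Sq W i.g (i.mas t) / i.w) ^ 2 + (i.Q.Dq W i.g (i.mas t) / i.w) ^ 2
      = i.Q.Bq W i.g (i.mas t) / i.w ^ 2 := by
    rw [div_pow, div_pow, hD]; ring
  unfold RgDat.gam
  simp only [rg, if_neg (not_le.2 ht)]
  rw [e1, hm]
  unfold Gd cmBr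
  field_simp

theorem Ctx.H_int (c : i.Ctx W Sc k cL CL) {H : ℝ → ℝ} (hH : i.Pot W H) (t t' : ℝ) (ht : 0 < t) (htt : t ≤ t')
    (h1 : t' ≤ (i.rg W Sc H).R) :
    IntervalIntegrable (fun τ => (i.rg W Sc H).J τ * (i.rg W Sc H).gam τ) volume t t' := by
  have hw := c.w_pos
  have hR : i.w * (1 / (2 * i.w)) = 1 / 2 := by field_simp
  have hwt' : i.w * t' ≤ 1 / 2 := by
    rw [← hR]; exact mul_le_mul_of_nonneg_left h1 hw.le
  have hG : IntervalIntegrable (i.Gd W) volume (i.w * t) (i.w * t') := by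
    refine hH.int.mono_set ?_
    rw [uIcc_of_le (mul_le_mul_of_nonneg_left htt hw.le), uIcc_of_le zero_le_one]
    exact Icc_subset_Icc (by positivity) (by linarith)
  have h2 := hG.comp_mul_left (c := i.w)
  rw [mul_div_cancel_left₀ _ hw.ne', mul_div_cancel_left₀ _ hw.ne'] at h2
  refine IntervalIntegrable.congr ?_ (h2.div_const (i.w ^ 3))
  intro τ hτ
  rw [uIoc_of_le htt] at hτ
  have : (i.rg W Sc H).J τ = 1 := rfl
  simp only [this, one_mul]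
  exact (c.gam_eq H τ (by linarith [hτ.1]) (hτ.2.trans h1)).symm

theorem Ctx.H_eq (c : i.Ctx W Sc k cL CL) {H : ℝ → ℝ} (hH : i.Pot W H) (t t' : ℝ) (ht : 0 < t) (htt : t ≤ t')
    (h1 : t' ≤ (i.rg W Sc H).R) :
    (i.rg W Sc H).H t' - (i.rg W Sc H).H t = ∫ τ in t..t', (i.rg W Sc H).J τ * (i.rg W Sc H).gam τ := by
  have hw := c.w_pos
  have e : ∫ τ in t..t', (i.rg W Sc H).J τ * (i.rg W Sc H).gam τ = ∫ τ in t..t', i.Gd W (i.w * τ) / i.w ^ 3 := by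
    refine intervalIntegral.integral_congr fun τ hτ => ?_
    rw [uIcc_of_le htt] at hτ
    have : (i.rg W Sc H).J τ = 1 := rfl
    simp only [this, one_mul]
    exact c.gam_eq H τ (by linarith [hτ.1]) (hτ.2.trans h1)
  rw [e, intervalIntegral.integral_div, intervalIntegral.integral_comp_mul_left _ hw.ne']
  have hr : i.rad t = i.w * t := rad_eq hw ht.le (htt.trans h1)
  have hr' : i.rad t' = i.w * t' := rad_eq hw (ht.le.trans htt) h1
  have := hH.pot.int (i.rad t) (i.rad_mem' t) (i.rad t') (i.rad_mem' t')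
  rw [hr, hr'] at this
  simp only [rg]
  rw [hr, hr']
  have e2 : (∫ x in i.w * t..i.w * t', i.Gd W x) = H (i.w * t') - H (i.w * t) := this.symm
  rw [e2, smul_eq_mul]
  field_simp

theorem Ctx.cap (c : i.Ctx W Sc k cL CL) {H : ℝ → ℝ} (hH : i.Pot W H) (t : ℝ) (h0 : 0 ≤ t)
    (h1 : t + (i.rg W Sc H).ell < (i.rg W Sc H).R) (hneg : (i.rg W Sc H).H t < 0) :
    ∃ t', t < t' ∧ t' ≤ t + (i.rg W Sc H).ell ∧ (i.rg W Sc H).H t' = 0 := by
  have hw := c.w_pos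
  have hM := bd7_ar_Mj_pos c.ok
  have hell : (i.rg W Sc H).ell = 1 / (i.F.Mj * i.w) := rfl
  have hell0 : 0 < (i.rg W Sc H).ell := by rw [hell]; positivity
  have htR : t ≤ 1 / (2 * i.w) := by
    have : (i.rg W Sc H).R = 1 / (2 * i.w) := rfl
    linarith
  have hr : i.rad t = i.w * t := rad_eq hw h0 htR
  have hw4 : 0 < i.w ^ 4 := by positivity
  have hneg' : H (i.w * t) < 0 := by
    have : (i.rg W Sc H).H t = H (i.w * t) / i.w ^ 4 := by simp only [rg, hr]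
    rw [this, div_lt_iff₀ hw4, zero_mul] at hneg
    exact hneg
  have hsum : i.w * (t + 1 / (i.F.Mj * i.w)) = i.w * t + 1 / i.F.Mj := by field_simp
  have hlt : i.w * t + 1 / i.F.Mj < 1 / 2 := by
    have h2 : i.w * (t + (i.rg W Sc H).ell) < i.w * (i.rg W Sc H).R := mul_lt_mul_of_pos_left h1 hw
    rw [hell, hsum] at h2
    have : i.w * (i.rg W Sc H).R = 1 / 2 := by
      simp only [rg]; field_simp
    linarith
  obtain ⟨ρ', h3, h4, h5⟩ := hH.capz (i.w * t) (by positivity) (by linarith) hneg'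
  have hρ0 : 0 < ρ' := lt_of_le_of_lt (by positivity) h3
  refine ⟨ρ' / i.w, by rw [lt_div_iff₀ hw]; linarith, ?_, ?_⟩
  · rw [div_le_iff₀ hw, hell]
    calc ρ' ≤ i.w * t + 1 / i.F.Mj := h4
      _ = (t + 1 / (i.F.Mj * i.w)) * i.w := by rw [← hsum]; ring
  · have hle : ρ' / i.w ≤ 1 / (2 * i.w) := by
      rw [div_le_div_iff₀ hw (by positivity)]
      nlinarith
    have hr' : i.rad (ρ' / i.w) = ρ' := by
      rw [rad_eq hw (by positivity) hle, mul_div_cancel₀ _ hw.ne']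
    simp only [rg, hr', h5, zero_div]

/-! ### the scalar part -/

/-- the time `T_m w t` stays in the horizon -/
theorem Ctx.time_mem (c : i.Ctx W Sc k cL CL) {t : ℝ} (h0 : 0 ≤ t) (h1 : t ≤ 1 / (2 * i.w)) :
    i.F.Tm * i.w * t ∈ Icc 0 k.Tmax := by
  have hw := c.w_pos
  have hT := c.Tm_pos
  refine ⟨by positivity, ?_⟩
  have h2 : i.w * t ≤ 1 / 2 := by
    rw [le_div_iff₀ (by positivity)] at h1
    linarith
  have : i.F.Tm * i.w * t = i.F.Tm * (i.w * t) := by ring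
  rw [this]
  have := mul_le_mul_of_nonneg_left h2 hT.le
  linarith [c.Tm_le]

theorem Ctx.time_maps (c : i.Ctx W Sc k cL CL) :
    MapsTo (fun t => i.F.Tm * i.w * t) (Icc 0 (1 / (2 * i.w))) (Icc 0 k.Tmax) :=
  fun _ ht => c.time_mem ht.1 ht.2

theorem Ctx.P_cont (c : i.Ctx W Sc k cL CL) (H : ℝ → ℝ) :
    ContinuousOn (i.rg W Sc H).P (Icc 0 (i.rg W Sc H).R) := by
  have h1 := (c.sc.P3_cont _ c.hK c.hKle).comp
    (continuous_const.mul continuous_id : Continuous fun t : ℝ => i.F.Tm * i.w * t).continuousOn c.time_maps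
  exact (h1.const_mul (i.F.Tm ^ 2)).div_const _

theorem Ctx.Bc_cont (c : i.Ctx W Sc k cL CL) (H : ℝ → ℝ) :
    ContinuousOn (i.rg W Sc H).Bc (Icc 0 (i.rg W Sc H).R) := by
  have h1 := (c.sc.B2_cont _ c.hK c.hKle).comp
    (continuous_const.mul continuous_id : Continuous fun t : ℝ => i.F.Tm * i.w * t).continuousOn c.time_maps
  exact h1.const_mul (i.F.Tm ^ 2)

/-- `Γ'' = E V_zzz² - 2 α E V_zz³` -/
def G2 (i : Bd7I X) (W : BdWorld) (Sc : Bd7Sc) (τ : ℝ) : ℝ :=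
  Sc.P3 (i.Kh W) τ - Sc.B2 (i.Kh W) τ * bdDist (i.Kh W) τ

theorem Ctx.G2_int (c : i.Ctx W Sc k cL CL) {a b : ℝ} (ha : a ∈ Icc 0 k.Tmax) (hb : b ∈ Icc 0 k.Tmax) :
    IntervalIntegrable (i.G2 W Sc) volume a b := by
  have hsub : uIcc a b ⊆ Icc 0 k.Tmax := by
    intro x hx
    rw [mem_uIcc] at hx
    rcases hx with hx | hx
    · exact ⟨ha.1.trans hx.1, hx.2.trans hb.2⟩
    · exact ⟨hb.1.trans hx.1, hx.2.trans ha.2⟩
  have h1 : IntervalIntegrable (Sc.P3 (i.Kh W)) volume a b :=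
    ((c.sc.P3_cont _ c.hK c.hKle).mono hsub).intervalIntegrable
  have h2 : IntervalIntegrable (fun τ => Sc.B2 (i.Kh W) τ * bdDist (i.Kh W) τ) volume a b :=
    (bd7_dist_mono (i.Kh W)).intervalIntegrable.continuousOn_mul ((c.sc.B2_cont _ c.hK c.hKle).mono hsub)
  exact h1.sub h2

theorem Ctx.G1_cont (c : i.Ctx W Sc k cL CL) : ContinuousOn (Sc.G1 (i.Kh W)) (Icc 0 k.Tmax) := by
  by_cases hT : 0 ≤ k.Tmax
  · have h1 : ContinuousOn (fun x => ∫ t in (0 : ℝ)..x, i.G2 W Sc t) (uIcc 0 k.Tmax) := by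
      refine intervalIntegral.continuousOn_primitive_interval ?_
      have := c.G2_int (a := 0) (b := k.Tmax) ⟨le_rfl, hT⟩ ⟨hT, le_rfl⟩
      rw [intervalIntegrable_iff_integrableOn_Icc_of_le hT] at this
      rwa [uIcc_of_le hT]
    rw [uIcc_of_le hT] at h1
    refine (h1.const_add (Sc.G1 (i.Kh W) 0)).congr fun t ht => ?_
    exact c.sc.gam1 _ c.hK c.hKle t ht
  · rw [Icc_eq_empty hT]
    exact continuousOn_empty _

theorem Ctx.g_eq (c : i.Ctx W Sc k cL CL) (H : ℝ → ℝ) (t : ℝ) (h0 : 0 ≤ t) (h1 : t ≤ (i.rg W Sc H).R) :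
    (i.rg W Sc H).g t = ∫ τ in (0 : ℝ)..t, (i.rg W Sc H).g1 τ := by
  have hw := c.w_pos
  have hT := c.Tm_pos
  have hθ : i.F.Tm * i.w ≠ 0 := (mul_pos hT hw).ne'
  have hcont : ContinuousOn (fun τ => Sc.G1 (i.Kh W) (i.F.Tm * i.w * τ)) (Icc 0 (1 / (2 * i.w))) :=
    c.G1_cont.comp (continuous_const.mul continuous_id : Continuous fun t : ℝ => i.F.Tm * i.w * t).continuousOn
      c.time_maps
  have hint : IntervalIntegrable (fun τ => Sc.G1 (i.Kh W) (i.F.Tm * i.w * τ)) volume 0 t := by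
    refine (hcont.mono ?_).intervalIntegrable
    rw [uIcc_of_le h0]
    exact Icc_subset_Icc le_rfl h1
  have e1 : ∫ τ in (0 : ℝ)..t, (i.rg W Sc H).g1 τ
      = (i.F.Tm * (∫ τ in (0 : ℝ)..t, Sc.G1 (i.Kh W) (i.F.Tm * i.w * τ)) - t) / i.w ^ 2 := by
    simp only [rg]
    rw [intervalIntegral.integral_div, intervalIntegral.integral_sub (hint.const_mul _) intervalIntegrable_const,
      intervalIntegral.integral_const_mul]
    simp
  rw [e1, intervalIntegral.integral_comp_mul_left _ hθ, mul_zero,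
    ← c.sc.gam _ c.hK c.hKle _ (c.time_mem h0 h1), smul_eq_mul]
  simp only [rg]
  field_simp

theorem Ctx.g1_eq (c : i.Ctx W Sc k cL CL) (H : ℝ → ℝ) (t : ℝ) (h0 : 0 ≤ t) (h1 : t ≤ (i.rg W Sc H).R) :
    (i.rg W Sc H).g1 t = (i.rg W Sc H).g1 0 +
      ∫ τ in (0 : ℝ)..t, ((i.rg W Sc H).P τ - (i.rg W Sc H).Bc τ * (i.rg W Sc H).aK τ) := by
  have hw := c.w_pos
  have hT := c.Tm_pos
  have hθ : i.F.Tm * i.w ≠ 0 := (mul_pos hT hw).ne'
  have e1 : ∫ τ in (0 : ℝ)..t, ((i.rg W Sc H).P τ - (i.rg W Sc H).Bc τ * (i.rg W Sc H).aK τ)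
      = ∫ τ in (0 : ℝ)..t, i.F.Tm ^ 2 / i.w * i.G2 W Sc (i.F.Tm * i.w * τ) := by
    refine intervalIntegral.integral_congr fun τ _ => ?_
    simp only [rg, G2]
    field_simp
  have e2 := c.sc.gam1 _ c.hK c.hKle _ (c.time_mem h0 h1)
  have e3 : (∫ τ in (0 : ℝ)..(i.F.Tm * i.w * t), i.G2 W Sc τ)
      = Sc.G1 (i.Kh W) (i.F.Tm * i.w * t) - Sc.G1 (i.Kh W) 0 := by
    rw [e2]; unfold G2; ring
  rw [e1, intervalIntegral.integral_const_mul, intervalIntegral.integral_comp_mul_left _ hθ, mul_zero, e3,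
    smul_eq_mul]
  simp only [rg, mul_zero]
  field_simp
  ring

/-- **the structural facts** -/
theorem Ctx.rg_ok (c : i.Ctx W Sc k cL CL) {H : ℝ → ℝ} (hH : i.Pot W H) :
    (i.rg W Sc H).Ok (1 / CL) (1 / cL) (2 * CL + 1) 1 where
  x_pos := c.w_pos
  T_pos := c.Tm_pos
  ell_nn := by
    have := bd7_ar_Mj_pos c.ok
    have := c.w_pos
    show 0 ≤ 1 / (i.F.Mj * i.w)
    positivity
  R_ge := by
    have := c.w_pos
    show 2 * CL + 1 ≤ 1 / (2 * i.w)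
    rw [le_div_iff₀ (by positivity)]
    linarith [c.w_small]
  a_mono := c.a_mono H
  a_nn := fun t => div_nonneg (c.mas_nonneg t) c.w_pos.le
  s_mono := c.s_mono H
  s_nn := fun t => by rw [rg_s]; exact div_nonneg (c.lift_nonneg c.S_nonneg t) c.w_pos.le
  k_mono := c.k_mono H
  k_nn := fun t => by
    rw [rg_k]; exact div_nonneg (c.lift_nonneg c.hK.nonneg t) (mul_pos c.Tm_pos c.w_pos).le
  aK_mono := c.aK_mono H
  aK_nn := fun t => div_nonneg (bd7_dist_nonneg _ _) c.w_pos.le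
  dl_nn := fun t => by
    rw [rg_dl, c.lift_D]; exact div_nonneg (Real.sqrt_nonneg _) c.w_pos.le
  dl_meas := c.dl_meas H
  e_meas := e_meas i W Sc H
  p_meas := p_meas i W Sc H
  z_meas := c.z_meas H
  J_meas := measurable_const
  outer := c.outer H
  quant := c.quant H
  e_pos := fun t _ _ => div_pos (bd7_ar_C_pos c.hX c.ok _) (by have := c.w_pos; positivity)
  e_le := fun t _ _ => by
    have hw := c.w_pos
    show i.w ^ 2 * (i.F.C X (i.w * t) / i.w ^ 2) ≤ 1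
    rw [mul_div_cancel₀ _ (by positivity)]
    exact (bd7_ar_C_le c.hX c.ok _).trans (bd7_ar_C0_le_one c.hX c.ok)
  p_nn := fun t => cm_pp_nonneg _ _ _
  p_le := fun t => (cm_pp_lt_one _ _ _).le
  k_eq := fun t h0 h1 ha => c.k_eq H t (c.t_pos H h0 ha) h1
  aK_ge := fun t τ h0 _ h => c.aK_ge H t τ h0 h
  aK_le := fun t τ h0 _ h => c.aK_le H t τ h0 h
  P_cont := c.P_cont H
  Bc_cont := c.Bc_cont H
  g_eq := c.g_eq H
  g1_eq := c.g1_eq H
  J_pos := fun _ => one_pos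
  J_mono := fun _ _ _ _ _ => le_rfl
  H_int := fun t t' h0 htt h1 ha => c.H_int hH t t' (c.t_pos H h0 ha) htt h1
  H_eq := fun t t' h0 htt h1 ha => c.H_eq hH t t' (c.t_pos H h0 ha) htt h1
  cap := c.cap hH

end Bd7I

/-! ### dictionary between the rescaled bands and the bands of the instance -/

namespace Bd7I

variable {X : BdFix} {i : Bd7I X} {W : BdWorld} {Sc : Bd7Sc} {k : Bd7ScC} {cL CL : ℝ}

theorem Ctx.mas_eq (c : i.Ctx W Sc k cL CL) {t : ℝ} (h0 : 0 ≤ t) (h1 : t ≤ 1 / (2 * i.w)) :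
    i.mas t = i.Q.al (i.w * t) := by unfold mas; rw [rad_eq c.w_pos h0 h1]

/-- a point of a rescaled band -/
theorem Ctx.band_mem (c : i.Ctx W Sc k cL CL) (H : ℝ → ℝ) {c0 C t : ℝ} (hc0 : 0 < c0) (hC : C ≤ 1 / (2 * i.w))
    (ht : t ∈ (i.rg W Sc H).band c0 C) :
    0 < t ∧ t ≤ 1 / (2 * i.w) ∧ i.mas t ∈ Ioo (0 : ℝ) 1 ∧ i.mas t ∈ i.bandM c0 C ∧ i.w * t ∈ i.bandR c0 C := by
  have hw := c.w_pos
  obtain ⟨h0, h1, h2, h3⟩ := ht
  have ea : (i.rg W Sc H).a t = i.mas t / i.w := rfl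
  rw [ea] at h2 h3
  rw [le_div_iff₀ hw] at h2
  rw [div_le_iff₀ hw] at h3
  have htp : 0 < t := by
    rcases h0.eq_or_lt with rfl | h
    · exfalso
      have : i.mas 0 = 0 := by unfold mas; rw [rad_nonpos hw le_rfl, i.Q.al_zero]
      rw [this] at h2
      nlinarith
    · exact h
  have htR := h1.trans hC
  have hr : i.Q.r (i.mas t) = i.w * t := by rw [c.r_mas, rad_eq hw h0 htR]
  refine ⟨htp, htR, c.mas_mem htp, ⟨h2, h3, ?_⟩, ⟨by positivity, ?_, ?_, ?_⟩⟩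
  · rw [hr]; nlinarith
  · nlinarith
  · rw [← c.mas_eq h0 htR]; exact h2
  · rw [← c.mas_eq h0 htR]; exact h3

/-- `D.rho t = (S_v - Γ(K_s(v)))/w³` -/
theorem Ctx.rho_eq (c : i.Ctx W Sc k cL CL) (H : ℝ → ℝ) {t : ℝ} (ht : 0 < t) (h1 : t ≤ 1 / (2 * i.w)) :
    (i.rg W Sc H).rho t = i.clo W (i.mas t) / i.w ^ 3 := by
  have hw := c.w_pos
  have hT := c.Tm_pos
  have hv : i.Q.r (i.mas t) = i.w * t := by rw [c.r_mas, rad_eq hw ht.le h1]
  have hk : i.F.Tm * i.w * (i.Kh W (i.mas t) / (i.F.Tm * i.w)) = i.Kh W (i.mas t) := by field_simp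
  unfold RgDat.rho
  simp only [rg, if_neg (not_le.2 ht)]
  rw [hk]
  unfold clo BdQ.Gs
  have hK : i.Kh W (i.mas t) = i.F.h i.g (i.mas t) + i.F.C X (i.w * t) * (i.w * t)
      + (i.F.b i.g (i.mas t) - i.F.C X (i.w * t)) * i.Q.Sq W i.g (i.mas t) := by
    unfold Kh BdQ.Ks BdQ.hq BdQ.bq
    rw [hv]
  have hKs : i.Q.Ks W i.g = i.Kh W := rfl
  rw [hKs]
  generalize W.Gam (i.Kh W) (i.Kh W (i.mas t)) = Γ
  rw [hK]
  field_simp
  ring

/-- the rescaled radius band is the radius band of the instance -/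
theorem Ctx.smul_band (c : i.Ctx W Sc k cL CL) (H : ℝ → ℝ) {c0 C : ℝ} (hc0 : 0 < c0) (hC : C ≤ 1 / (2 * i.w)) :
    i.w • (i.rg W Sc H).band c0 C = i.bandR c0 C := by
  have hw := c.w_pos
  ext ρ
  constructor
  · rintro ⟨t, ht, rfl⟩
    exact (c.band_mem H hc0 hC ht).2.2.2.2
  · rintro ⟨h0, h1, h2, h3⟩
    refine ⟨ρ / i.w, ?_, by simp [mul_div_cancel₀ _ hw.ne']⟩
    have ht0 : 0 ≤ ρ / i.w := by positivity
    have htC : ρ / i.w ≤ C := by rw [div_le_iff₀ hw]; linarith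
    have ea : (i.rg W Sc H).a (ρ / i.w) = i.Q.al ρ / i.w := by
      show i.mas (ρ / i.w) / i.w = _
      rw [c.mas_eq ht0 (htC.trans hC), mul_div_cancel₀ _ hw.ne']
    refine ⟨ht0, htC, ?_, ?_⟩
    · rw [ea, le_div_iff₀ hw]; exact h2
    · rw [ea, div_le_iff₀ hw]; exact h3

theorem Ctx.band_meas (c : i.Ctx W Sc k cL CL) (H : ℝ → ℝ) (c0 C : ℝ) :
    MeasurableSet ((i.rg W Sc H).band c0 C) := by
  have ha := (c.a_mono H).measurable
  unfold RgDat.band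
  exact (measurableSet_le measurable_const measurable_id).inter
    ((measurableSet_le measurable_id measurable_const).inter
      ((measurableSet_le measurable_const ha).inter (measurableSet_le ha measurable_const)))

/-- a point of the mass band -/
theorem Ctx.bandM_mem (c : i.Ctx W Sc k cL CL) {c0 C v : ℝ} (hc0 : 0 < c0) (hC : C ≤ 1 / (2 * i.w))
    (hv : v ∈ i.bandM c0 C) :
    v ∈ Ioo (0 : ℝ) 1 ∧ 0 < i.Q.r v / i.w ∧ i.Q.r v / i.w ≤ 1 / (2 * i.w) ∧ i.mas (i.Q.r v / i.w) = v := by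
  have hw := c.w_pos
  obtain ⟨h1, h2, h3⟩ := hv
  have hCw : C * i.w ≤ 1 / 2 := by
    rw [le_div_iff₀ (by positivity)] at hC
    linarith
  have hv0 : 0 < v := lt_of_lt_of_le (by positivity) h1
  have hvm : v ∈ Icc (0 : ℝ) 1 := ⟨hv0.le, by linarith⟩
  have hr0 : 0 < i.Q.r v := by
    rcases (i.Q.r_mem v hvm).1.eq_or_lt with h | h
    · exfalso
      have := i.Q.al_r v hvm
      rw [← h, i.Q.al_zero] at this
      linarith
    · exact h
  have hle : i.Q.r v / i.w ≤ 1 / (2 * i.w) := by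
    rw [div_le_div_iff₀ hw (by positivity)]
    nlinarith
  refine ⟨⟨hv0, by linarith⟩, by positivity, hle, ?_⟩
  rw [c.mas_eq (by positivity) hle, mul_div_cancel₀ _ hw.ne', i.Q.al_r v hvm]

theorem Ctx.bandM_meas (c : i.Ctx W Sc k cL CL) {c0 C : ℝ} (hc0 : 0 < c0) (hC : C ≤ 1 / (2 * i.w)) :
    MeasurableSet (i.bandM c0 C) := by
  have hw := c.w_pos
  have hCw : C * i.w ≤ 1 / 2 := by
    rw [le_div_iff₀ (by positivity)] at hC
    linarith
  refine Set.OrdConnected.measurableSet ⟨fun v1 h1 v2 h2 v hv => ?_⟩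
  have hc0w : 0 < c0 * i.w := by positivity
  refine ⟨h1.1.trans hv.1, hv.2.trans h2.2.1, ?_⟩
  refine (bd7_q_r_mono i.Q c.ok ⟨by linarith [h1.1, hv.1], by linarith [hv.2, h2.2.1]⟩
    ⟨by linarith [h2.1], by linarith [h2.2.1]⟩ hv.2).trans h2.2.2

/-- the rescaled mass sets are preimages under the scaling -/
theorem Ctx.mset_eq (c : i.Ctx W Sc k cL CL) (H : ℝ → ℝ) {c0 C : ℝ} (hc0 : 0 < c0) (hC : C ≤ 1 / (2 * i.w))
    (Qp : ℝ → Prop) :
    (i.rg W Sc H).mset c0 C Qp = (fun v => i.w * v) ⁻¹' {v | v ∈ i.bandM c0 C ∧ Qp (i.Q.r v / i.w)} := by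
  have hw := c.w_pos
  have hCw : C * i.w ≤ 1 / 2 := by
    rw [le_div_iff₀ (by positivity)] at hC
    linarith
  have er : ∀ v, c0 ≤ v → v ≤ C → (i.rg W Sc H).r v = i.Q.r (i.w * v) / i.w := by
    intro v h1 h2
    have h3 : 0 ≤ i.w * v := by have : 0 < v := lt_of_lt_of_le hc0 h1; positivity
    have h4 : i.w * v ≤ 1 := by nlinarith
    simp only [rg]
    rw [min_eq_left h4, max_eq_right h3]
  ext v
  simp only [RgDat.mset, bandM, mem_preimage]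
  constructor
  · rintro ⟨h1, h2, h3, h4⟩
    rw [er v h1 h2] at h3 h4
    rw [div_le_iff₀ hw] at h3
    exact ⟨⟨by nlinarith, by nlinarith, h3⟩, h4⟩
  · rintro ⟨⟨h1, h2, h3⟩, h4⟩
    have h1' : c0 ≤ v := by nlinarith
    have h2' : v ≤ C := by nlinarith
    refine ⟨h1', h2', ?_, ?_⟩
    · rw [er v h1' h2', div_le_iff₀ hw]; exact h3
    · rw [er v h1' h2']; exact h4

/-- volume of a rescaled mass set -/
theorem Ctx.mset_vol (c : i.Ctx W Sc k cL CL) (H : ℝ → ℝ) {c0 C : ℝ} (hc0 : 0 < c0) (hC : C ≤ 1 / (2 * i.w))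
    (Qp : ℝ → Prop) :
    volume ((i.rg W Sc H).mset c0 C Qp)
      = ENNReal.ofReal (1 / i.w) * volume {v | v ∈ i.bandM c0 C ∧ Qp (i.Q.r v / i.w)} := by
  rw [c.mset_eq H hc0 hC, Real.volume_preimage_mul_left c.w_pos.ne', abs_of_pos (inv_pos.2 c.w_pos), one_div]

end Bd7I

/-! ### integrals and measures on the bands -/

/-- Markov's inequality on a set -/
theorem bd7_markov {s : Set ℝ} (hs : MeasurableSet s) (hfin : volume s ≠ ⊤) {f : ℝ → ℝ} (hf0 : ∀ v ∈ s, 0 ≤ f v)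
    (hfi : IntegrableOn f s) {a : ℝ} (ha : 0 < a) :
    volume {v | v ∈ s ∧ a < f v} ≤ ENNReal.ofReal ((∫ v in s, f v) / a) := by
  have h1 := mul_meas_ge_le_integral_of_nonneg (μ := volume.restrict s) (f := f)
    (ae_restrict_of_forall_mem hs hf0) hfi a
  have hsub : {v | v ∈ s ∧ a < f v} ⊆ {x | a ≤ f x} ∩ s := fun v hv => ⟨hv.2.le, hv.1⟩
  have hfin2 : volume ({x | a ≤ f x} ∩ s) ≠ ⊤ :=
    (lt_of_le_of_lt (measure_mono inter_subset_right) (lt_top_iff_ne_top.2 hfin)).ne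
  have h2 : (volume.restrict s).real {x | a ≤ f x} = (volume ({x | a ≤ f x} ∩ s)).toReal := by
    rw [measureReal_def, Measure.restrict_apply' hs]
  rw [h2] at h1
  have h3 : (volume ({x | a ≤ f x} ∩ s)).toReal ≤ (∫ v in s, f v) / a := by
    rw [le_div_iff₀ ha]; linarith
  calc volume {v | v ∈ s ∧ a < f v} ≤ volume ({x | a ≤ f x} ∩ s) := measure_mono hsub
    _ = ENNReal.ofReal (volume ({x | a ≤ f x} ∩ s)).toReal := (ENNReal.ofReal_toReal hfin2).symm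
    _ ≤ _ := ENNReal.ofReal_le_ofReal h3

namespace Bd7I

variable {X : BdFix} {i : Bd7I X} {W : BdWorld} {Sc : Bd7Sc} {k : Bd7ScC} {cL CL : ℝ}

theorem bandM_fin (i : Bd7I X) (c0 C : ℝ) : volume (i.bandM c0 C) ≠ ⊤ := by
  have : volume (i.bandM c0 C) ≤ volume (Icc (c0 * i.w) (C * i.w)) := measure_mono fun v hv => ⟨hv.1, hv.2.1⟩
  exact (lt_of_le_of_lt this (by simp)).ne

theorem Ctx.bandM_sub (c : i.Ctx W Sc k cL CL) {c0 C : ℝ} (hc0 : 0 < c0) (hC : C ≤ 1 / (2 * i.w)) :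
    i.bandM c0 C ⊆ Ioo (0 : ℝ) 1 := fun _ hv => (c.bandM_mem hc0 hC hv).1

theorem Ctx.B_le (c : i.Ctx W Sc k cL CL) : ∀ v ∈ Ioo (0 : ℝ) 1, i.Q.Bq W i.g v ≤ 1 := by
  have := (W.ps i.F.m).B_le _ _ (by rw [c.a1]; exact c.hbq) (by rw [c.a1]; exact c.hhq)
  rw [c.a1] at this; exact this

theorem Ctx.S_aem (c : i.Ctx W Sc k cL CL) {s : Set ℝ} (hs : s ⊆ Ioo (0 : ℝ) 1) :
    AEMeasurable (i.Q.Sq W i.g) (volume.restrict s) :=
  (aemeasurable_restrict_of_monotoneOn measurableSet_Ioo c.S_mono).mono_set hs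

theorem Ctx.B_aem (c : i.Ctx W Sc k cL CL) {s : Set ℝ} (hs : s ⊆ Ioo (0 : ℝ) 1) :
    AEMeasurable (i.Q.Bq W i.g) (volume.restrict s) :=
  (aemeasurable_restrict_of_monotoneOn measurableSet_Ioo c.B_mono).mono_set hs

theorem Ctx.D2_int (c : i.Ctx W Sc k cL CL) {c0 C : ℝ} (hc0 : 0 < c0) (hC : C ≤ 1 / (2 * i.w)) :
    IntegrableOn (i.Q.Dq2 W i.g) (i.bandM c0 C) := by
  have hsub := c.bandM_sub hc0 hC
  have : IsFiniteMeasure (volume.restrict (i.bandM c0 C)) :=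
    ⟨by rw [Measure.restrict_apply_univ]; exact lt_top_iff_ne_top.2 (i.bandM_fin c0 C)⟩
  refine Integrable.of_bound (C := 1) ?_ ?_
  · exact ((c.B_aem hsub).sub ((c.S_aem hsub).pow_const 2)).aestronglyMeasurable
  · refine ae_restrict_of_forall_mem (c.bandM_meas hc0 hC) fun v hv => ?_
    have h1 := c.S_sq_le v (hsub hv)
    have h2 := c.B_le v (hsub hv)
    unfold BdQ.Dq2
    rw [Real.norm_eq_abs, abs_of_nonneg (by linarith)]
    nlinarith [sq_nonneg (i.Q.Sq W i.g v)]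

theorem Ctx.Gam_cont (c : i.Ctx W Sc k cL CL) : ContinuousOn (W.Gam (i.Kh W)) (Icc 0 k.Tmax) := by
  by_cases hT : 0 ≤ k.Tmax
  · have h1 : ContinuousOn (fun x => ∫ t in (0 : ℝ)..x, Sc.G1 (i.Kh W) t) (uIcc 0 k.Tmax) := by
      refine intervalIntegral.continuousOn_primitive_interval ?_
      rw [uIcc_of_le hT]
      exact c.G1_cont.integrableOn_Icc
    rw [uIcc_of_le hT] at h1
    exact h1.congr fun t ht => c.sc.gam _ c.hK c.hKle t ht
  · rw [Icc_eq_empty hT]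
    exact continuousOn_empty _

theorem Ctx.clo_aem (c : i.Ctx W Sc k cL CL) (hKT : k.Kmax ≤ k.Tmax) {s : Set ℝ} (hsm : MeasurableSet s)
    (hs : s ⊆ Ioo (0 : ℝ) 1) : AEMeasurable (i.clo W) (volume.restrict s) := by
  have hK : AEMeasurable (i.Kh W) (volume.restrict s) :=
    (aemeasurable_restrict_of_monotoneOn measurableSet_Ioo c.hK.mono).mono_set hs
  by_cases hne : s.Nonempty
  · obtain ⟨v0, hv0⟩ := hne
    have hT : 0 ≤ k.Tmax := ((c.hK.nonneg v0 (hs hv0)).trans (c.hKle v0 (hs hv0))).trans hKT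
    have hcont : Continuous (fun t => W.Gam (i.Kh W) (max 0 (min t k.Tmax))) :=
      c.Gam_cont.comp_continuous (continuous_const.max (continuous_id.min continuous_const))
        fun t => ⟨le_max_left _ _, max_le hT (min_le_right _ _)⟩
    have h1 : AEMeasurable (fun v => W.Gam (i.Kh W) (max 0 (min (i.Kh W v) k.Tmax))) (volume.restrict s) :=
      hcont.measurable.comp_aemeasurable hK
    refine ((c.S_aem hs).sub h1).congr ?_
    refine ae_restrict_of_forall_mem hsm fun v hv => ?_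
    have h2 := c.hK.nonneg v (hs hv)
    have h3 := (c.hKle v (hs hv)).trans hKT
    show i.Q.Sq W i.g v - W.Gam (i.Kh W) (max 0 (min (i.Kh W v) k.Tmax)) = i.clo W v
    rw [min_eq_left h3, max_eq_right h2]
    rfl
  · rw [not_nonempty_iff_eq_empty] at hne
    rw [hne, Measure.restrict_empty]
    exact aemeasurable_zero_measure

theorem Ctx.clo_int (c : i.Ctx W Sc k cL CL) (hKT : k.Kmax ≤ k.Tmax) {c0 C C' : ℝ} (hc0 : 0 < c0)
    (hC : C ≤ 1 / (2 * i.w)) (hb : ∀ v ∈ i.bandM c0 C, |i.clo W v| ≤ C') :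
    IntegrableOn (fun v => |i.clo W v|) (i.bandM c0 C) := by
  have hsub := c.bandM_sub hc0 hC
  have : IsFiniteMeasure (volume.restrict (i.bandM c0 C)) :=
    ⟨by rw [Measure.restrict_apply_univ]; exact lt_top_iff_ne_top.2 (i.bandM_fin c0 C)⟩
  refine Integrable.of_bound (C := C') ?_ ?_
  · have := (c.clo_aem hKT (c.bandM_meas hc0 hC) hsub).aestronglyMeasurable.norm
    simpa [Real.norm_eq_abs] using this
  · refine ae_restrict_of_forall_mem (c.bandM_meas hc0 hC) fun v hv => ?_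
    rw [Real.norm_eq_abs, abs_abs]
    exact hb v hv

/-- radius integral of `dl²` -/
theorem Ctx.int_dl_rad (c : i.Ctx W Sc k cL CL) (H : ℝ → ℝ) {c0 C : ℝ} (hc0 : 0 < c0) (hC : C ≤ 1 / (2 * i.w)) :
    ∫ t in (i.rg W Sc H).band c0 C, (i.rg W Sc H).dl t ^ 2
      = (∫ ρ in i.bandR c0 C, i.Q.Dq2 W i.g (i.Q.al ρ)) / i.w ^ 3 := by
  have hw := c.w_pos
  have e1 : ∫ t in (i.rg W Sc H).band c0 C, (i.rg W Sc H).dl t ^ 2
      = ∫ t in (i.rg W Sc H).band c0 C, (fun ρ => i.Q.Dq2 W i.g (i.Q.al ρ) / i.w ^ 2) (i.w • t) := by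
    refine setIntegral_congr_fun (c.band_meas H c0 C) fun t ht => ?_
    obtain ⟨h0, h1, h2, -, -⟩ := c.band_mem H hc0 hC ht
    have : (i.rg W Sc H).dl t = i.Q.Dq W i.g (i.mas t) / i.w := by
      simp only [rg, if_neg (not_le.2 h0)]
    simp only [this, smul_eq_mul]
    rw [div_pow, c.D_sq h2, ← c.mas_eq h0.le h1]
    rfl
  have e2 := Measure.setIntegral_comp_smul_of_pos volume (fun ρ => i.Q.Dq2 W i.g (i.Q.al ρ) / i.w ^ 2)
    ((i.rg W Sc H).band c0 C) hw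
  rw [e1, e2, c.smul_band H hc0 hC, integral_div]
  simp only [Module.finrank_self, pow_one, smul_eq_mul]
  field_simp

/-- radius integral of `|rho|` -/
theorem Ctx.int_rho_rad (c : i.Ctx W Sc k cL CL) (H : ℝ → ℝ) {c0 C : ℝ} (hc0 : 0 < c0) (hC : C ≤ 1 / (2 * i.w)) :
    ∫ t in (i.rg W Sc H).band c0 C, |(i.rg W Sc H).rho t|
      = (∫ ρ in i.bandR c0 C, |i.clo W (i.Q.al ρ)|) / i.w ^ 4 := by
  have hw := c.w_pos
  have e1 : ∫ t in (i.rg W Sc H).band c0 C, |(i.rg W Sc H).rho t|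
      = ∫ t in (i.rg W Sc H).band c0 C, (fun ρ => |i.clo W (i.Q.al ρ)| / i.w ^ 3) (i.w • t) := by
    refine setIntegral_congr_fun (c.band_meas H c0 C) fun t ht => ?_
    obtain ⟨h0, h1, -, -, -⟩ := c.band_mem H hc0 hC ht
    simp only [smul_eq_mul]
    rw [c.rho_eq H h0 h1, abs_div, abs_of_pos (by positivity : 0 < i.w ^ 3), c.mas_eq h0.le h1]
  have e2 := Measure.setIntegral_comp_smul_of_pos volume (fun ρ => |i.clo W (i.Q.al ρ)| / i.w ^ 3)
    ((i.rg W Sc H).band c0 C) hw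
  rw [e1, e2, c.smul_band H hc0 hC, integral_div]
  simp only [Module.finrank_self, pow_one, smul_eq_mul]
  field_simp

end Bd7I

/-- strong instances of large size have a `Ctx` -/
theorem bd7_ctx {X : BdFix} {W : BdWorld} {Fam : BdFr → Prop} {Sc : Bd7Sc} {k : Bd7ScC} {Kb cL CL : ℝ}
    (h : Bd7SIn X W Fam Sc k Kb cL CL) {cs : ℝ} (hcs : 0 < cs) :
    ∃ N0 : ℕ, ∀ i : Bd7I X, i.Str W Fam cL CL cs → N0 ≤ i.F.N → i.Ctx W Sc k cL CL := by
  have hCL : 0 < CL := lt_of_lt_of_le h.cL_pos h.cL_le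
  obtain ⟨N1, hadm⟩ := h.adm
  obtain ⟨N2, hKh⟩ := bd7_Kh_clock h
  obtain ⟨N3, hp9⟩ := h.p9 1 (1 / 2) one_pos (by norm_num)
  obtain ⟨N4, hws⟩ := bd7_ar_w_small h.hX hcs (ε := 1 / (2 * (2 * CL + 1))) (by positivity)
  refine ⟨max (max N1 N2) (max N3 N4), fun i hi hN => ?_⟩
  have hN1 : N1 ≤ i.F.N := ((le_max_left _ _).trans (le_max_left _ _)).trans hN
  have hN2 : N2 ≤ i.F.N := ((le_max_right _ _).trans (le_max_left _ _)).trans hN
  have hN3 : N3 ≤ i.F.N := ((le_max_left _ _).trans (le_max_right _ _)).trans hN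
  have hN4 : N4 ≤ i.F.N := ((le_max_right _ _).trans (le_max_right _ _)).trans hN
  have hstd : i.Std W Fam := hi.toStd
  obtain ⟨hb, hh, hbq, hhq, -⟩ := hadm i hstd hN1
  have hw0 : 0 < i.w := lt_of_lt_of_le (BdFr.wc_pos' h.hX hi.ok) hi.w_lo
  have hTm := abs_le.1 (hp9 i.F hi.fam hi.ok hN3).1
  have hT1 := h.hX.T1
  exact
  { hX := h.hX
    ok := hi.ok
    cL_pos := h.cL_pos
    CL_pos := hCL
    w_pos := hw0
    w_small := by
      have h1 := hws i.F hi.ok hN4 i.w hw0 hi.strong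
      have h2 := bd7_ar_u_le_one h.hX hi.ok
      have h3 : i.w ≤ 1 / (2 * (2 * CL + 1)) := by
        refine h1.trans ?_
        have : (0 : ℝ) ≤ 1 / (2 * (2 * CL + 1)) := by positivity
        nlinarith
      rw [le_div_iff₀ (by positivity)] at h3
      linarith
    Tm_pos := by linarith [hTm.1]
    Tm_le := by linarith [hTm.2, h.Tmax]
    a1 := h.a1 _
    hb := hb
    hh := hh
    hbq := hbq
    hhq := hhq
    hK := (hKh i hstd hN2).1
    hKle := (hKh i hstd hN2).2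
    reg := hi.reg
    sc := h.sc }

end

end Claimed.Agent.R286
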