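import Claimed.Agent.R286.Bud.L07
import Claimed.Agent.R286.Rig.Main
import Claimed.Agent.R286.Tool.ULim
import Claimed.Agent.R286.Cmp.Fwd

/-!
# Row 286, LL sec. 7, package L07, STEP 2 of the proof of (C7) (`07-budgets.tex` l.990-1105): strong removal      (head helper12, ADV helper186; prefix `bd7_`)

Step 2 = the abstract rigidity theorem RIG of helper24 (`Rig/Main.lean`, `rg_main`) applied to the optimiser rescaled by the offending scale `w`.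

IMPORTS (each a `def … : Prop` on `(X, W, Fam)`; OWNER in brackets), bundled in `Bd7SIn`:
* `Bd7Adm`   changed clocks are clocks, bounded by `Kb`                                     [L06 / N3-N4, helper109]
* `Bd7Geo`   Lemma 7.2 (C6): potential, zero of the potential right of a cap point, floor mass, `|S - r| ≤ 1/M_j` off the floor in the constant region   [L06 / N4, helper109]
* `Bd7Raw`   (C8): `S_v, D_v ≤ C (v + w)`                                                    [L06 / N5, helper109]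
* `Bd7Band`  Lemma 7.6 / PE (19): band integrals of `D²`, mass AND radius, `= o(w³)`          [L06 / N7, helper109]
* `Bd7P9`    (P9) for the frames of the family, `T_m → T`                                    [L03, helper272]
* `Bd7Sc.Ok` scalar API: `Γ_K' , Γ_K'' = E V_zzz² - 2 α_K E V_zz³`, expansions at time `0`, PE Lemma 5.3      [BOX-C, helper183]
* `Bd7Clo`   Prop. 7.7 (modified closure) in the form used here (ADV note g1): sup bound `O(w³)` + both normalised `L¹` norms `o(1)`      [L07 / N8: `Bud/L07C*.lean`]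

CUT:  this file = vocabulary, imports, deterministic facts on one instance (`bd7_q_*`, `bd7_ar_*`, `bd7_rg_ok`);
      `Bud/L07T.lean` = the fields of `RgHyp` along a sequence (`bd7_sq_*`), `bd7_rig_inst` (T3), `bd7_strong` (T4 = Step 2).
-/

set_option autoImplicit false

namespace Claimed.Agent.R286

open MeasureTheory Set Filter Topology

noncomputable section

/-! ## 1. strong instances, imports -/

/-- a strong instance -/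
structure Bd7I.Str {X : BdFix} (i : Bd7I X) (W : BdWorld) (Fam : BdFr → Prop) (cL CL cs : ℝ) : Prop
    extends i.Out W Fam cL CL where
  strong : i.F.Strong X i.w cs

/-- what Step 2 uses of Lemma 7.2 -/
structure Bd7I.Pot {X : BdFix} (i : Bd7I X) (W : BdWorld) (H : ℝ → ℝ) : Prop where
  pot : i.Q.IsPot W i.g H
  int : IntervalIntegrable (fun r => i.F.C X r *
    cmBr (i.F.pC X r) r (i.Q.Sq W i.g (i.Q.al r)) (i.Q.Bq W i.g (i.Q.al r))) volume 0 1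
  /-- a point of a cap has a zero of the potential within `1/M_j` on its right -/
  capz : ∀ r, 0 ≤ r → r + 1 / i.F.Mj < 1 → H r < 0 → ∃ r', r < r' ∧ r' ≤ r + 1 / i.F.Mj ∧ H r' = 0
  /-- `α' = k̄` on the floor, as a bound of the floor mass in every radius interval -/
  fl_mass : ∀ s t, 0 ≤ s → s ≤ t → t ≤ 1 →
    volume (i.Q.al '' ({r | 0 < H r} ∩ Icc s t)) ≤ ENNReal.ofReal (∫ r in s..t, i.F.kbar X r)
  /-- off the floor, well inside the constant region (mass coordinate) -/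
  flat_m : ∀ᵐ v : ℝ, v ∈ Ioo (0 : ℝ) 1 → i.Q.r v ≤ X.cI * i.F.u / 2 → H (i.Q.r v) ≤ 0 →
    |i.Q.Sq W i.g v - i.Q.r v| ≤ 1 / i.F.Mj

/-- scalar data: `G1 K t = Γ_K'(t) = E V_zz²`, `P3 K t = E V_zzz²`, `B2 K t = 2 E V_zz³`, `a2 K = V_zz(0,0)`, `a4 K = V_zzzz(0,0)` -/
structure Bd7Sc where
  G1 : (ℝ → ℝ) → ℝ → ℝ
  P3 : (ℝ → ℝ) → ℝ → ℝ
  B2 : (ℝ → ℝ) → ℝ → ℝ
  a2 : (ℝ → ℝ) → ℝ
  a4 : (ℝ → ℝ) → ℝ

/-- the constants of the scalar API: clock bound, time horizon, bounds of PE Lemma 5.3, remainder constant -/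
structure Bd7ScC where
  Kmax : ℝ
  Tmax : ℝ
  c2 : ℝ
  C2 : ℝ
  c4 : ℝ
  C4 : ℝ
  Csc : ℝ

/-- **the scalar API** used by Step 2; the scalar response is extended beyond the end of the clock with mass `1` (`bdDist K t = 1` there) -/
structure Bd7Sc.Ok (Sc : Bd7Sc) (W : BdWorld) (k : Bd7ScC) : Prop where
  c2_pos : 0 < k.c2
  c4_pos : 0 < k.c4
  gam : ∀ K, IsClock 1 K → (∀ v ∈ Ioo (0 : ℝ) 1, K v ≤ k.Kmax) → ∀ t ∈ Icc 0 k.Tmax,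
    W.Gam K t = ∫ τ in (0 : ℝ)..t, Sc.G1 K τ
  gam1 : ∀ K, IsClock 1 K → (∀ v ∈ Ioo (0 : ℝ) 1, K v ≤ k.Kmax) → ∀ t ∈ Icc 0 k.Tmax,
    Sc.G1 K t = Sc.G1 K 0 + ∫ τ in (0 : ℝ)..t, (Sc.P3 K τ - Sc.B2 K τ * bdDist K τ)
  P3_cont : ∀ K, IsClock 1 K → (∀ v ∈ Ioo (0 : ℝ) 1, K v ≤ k.Kmax) → ContinuousOn (Sc.P3 K) (Icc 0 k.Tmax)
  B2_cont : ∀ K, IsClock 1 K → (∀ v ∈ Ioo (0 : ℝ) 1, K v ≤ k.Kmax) → ContinuousOn (Sc.B2 K) (Icc 0 k.Tmax)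
  P3_exp : ∀ K, IsClock 1 K → (∀ v ∈ Ioo (0 : ℝ) 1, K v ≤ k.Kmax) → ∀ t ∈ Icc 0 k.Tmax,
    |Sc.P3 K t - Sc.a4 K ^ 2 * t| ≤ k.Csc * (t * Real.sqrt t)
  B2_exp : ∀ K, IsClock 1 K → (∀ v ∈ Ioo (0 : ℝ) 1, K v ≤ k.Kmax) → ∀ t ∈ Icc 0 k.Tmax,
    |Sc.B2 K t - 2 * Sc.a2 K ^ 3| ≤ k.Csc * Real.sqrt t
  a2_mem : ∀ K, IsClock 1 K → (∀ v ∈ Ioo (0 : ℝ) 1, K v ≤ k.Kmax) → Sc.a2 K ∈ Icc k.c2 k.C2
  a4_mem : ∀ K, IsClock 1 K → (∀ v ∈ Ioo (0 : ℝ) 1, K v ≤ k.Kmax) → -Sc.a4 K ∈ Icc k.c4 k.C4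

section imports

variable (X : BdFix) (W : BdWorld) (Fam : BdFr → Prop)

/-- admissibility of the bare and of the changed clocks -/
def Bd7Adm (Kb : ℝ) : Prop :=
  ∃ N0 : ℕ, ∀ i : Bd7I X, i.Std W Fam → N0 ≤ i.F.N →
    IsClock 1 (i.F.b i.g) ∧ IsClock 1 (i.F.h i.g) ∧ IsClock 1 (i.Q.bq i.g) ∧ IsClock 1 (i.Q.hq i.g) ∧
    ∀ v ∈ Ioo (0 : ℝ) 1, i.Q.bq i.g v ≤ Kb ∧ i.Q.hq i.g v ≤ Kb

/-- Lemma 7.2 -/
def Bd7Geo : Prop :=
  ∃ N0 : ℕ, ∀ i : Bd7I X, i.Std W Fam → N0 ≤ i.F.N → ∃ H : ℝ → ℝ, i.Pot W H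

/-- (C8), first two moments -/
def Bd7Raw (cL CL : ℝ) : Prop :=
  ∀ cs : ℝ, 0 < cs → ∃ C' : ℝ, ∃ N0 : ℕ, ∀ i : Bd7I X, i.Str W Fam cL CL cs → N0 ≤ i.F.N →
    ∀ v ∈ Ioo (0 : ℝ) 1, i.Q.Sq W i.g v ≤ C' * (v + i.w) ∧ i.Q.Dq W i.g v ≤ C' * (v + i.w)

end imports

namespace Bd7I

variable {X : BdFix} (i : Bd7I X)

/-- the mass band `{v ∈ [c w, C w] : r(v) ≤ C w}` -/
def bandM (c C : ℝ) : Set ℝ := {v | c * i.w ≤ v ∧ v ≤ C * i.w ∧ i.Q.r v ≤ C * i.w}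
/-- the radius band `{ρ ∈ [0, C w] : α(ρ) ∈ [c w, C w]}` -/
def bandR (c C : ℝ) : Set ℝ := {ρ | 0 ≤ ρ ∧ ρ ≤ C * i.w ∧ c * i.w ≤ i.Q.al ρ ∧ i.Q.al ρ ≤ C * i.w}
/-- the closure error `S_v - Γ_{K_s}(K_s(v))` -/
def clo (W : BdWorld) (v : ℝ) : ℝ := i.Q.Sq W i.g v - i.Q.Gs W i.g (i.Q.Ks W i.g v)

end Bd7I

section imports2

variable (X : BdFix) (W : BdWorld) (Fam : BdFr → Prop)

/-- band integrals of `D²` in both coordinates -/
def Bd7Band (cL CL : ℝ) : Prop :=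
  ∀ cs c C ε : ℝ, 0 < cs → 0 < c → 0 < ε → ∃ N0 : ℕ, ∀ i : Bd7I X, i.Str W Fam cL CL cs → N0 ≤ i.F.N →
    (∫ v in i.bandM c C, i.Q.Dq2 W i.g v) ≤ ε * i.w ^ 3 ∧
    (∫ ρ in i.bandR c C, i.Q.Dq2 W i.g (i.Q.al ρ)) ≤ ε * i.w ^ 3

/-- (P9) and the convergence of the base temperature -/
def Bd7P9 : Prop :=
  ∀ κ ε : ℝ, 0 < κ → 0 < ε → ∃ N0 : ℕ, ∀ F : BdFr, Fam F → F.Ok X → N0 ≤ F.N →
    |F.Tm - X.T| ≤ ε ∧ ∀ g ∈ X.G0, ∀ v ∈ Ico (κ * F.x) 1, |F.b g v - F.Tm| ≤ ε * v ^ 2 ∧ |F.h g v| ≤ ε * v ^ 3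

/-- **Prop. 7.7 (modified closure)**, in the form consumed by Step 2 -/
structure Bd7Clo (cL CL : ℝ) : Prop where
  sup : ∀ cs c C : ℝ, 0 < cs → 0 < c → ∃ C' : ℝ, ∃ N0 : ℕ, ∀ i : Bd7I X, i.Str W Fam cL CL cs → N0 ≤ i.F.N →
    ∀ v ∈ i.bandM c C, |i.clo W v| ≤ C' * i.w ^ 3
  mass : ∀ cs c C ε : ℝ, 0 < cs → 0 < c → 0 < ε → ∃ N0 : ℕ, ∀ i : Bd7I X, i.Str W Fam cL CL cs → N0 ≤ i.F.N →
    (∫ v in i.bandM c C, |i.clo W v|) ≤ ε * i.w ^ 4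
  rad : ∀ cs c C ε : ℝ, 0 < cs → 0 < c → 0 < ε → ∃ N0 : ℕ, ∀ i : Bd7I X, i.Str W Fam cL CL cs → N0 ≤ i.F.N →
    (∫ ρ in i.bandR c C, |i.clo W (i.Q.al ρ)|) ≤ ε * i.w ^ 4

/-- all the imports of Step 2 -/
structure Bd7SIn (Sc : Bd7Sc) (k : Bd7ScC) (Kb cL CL : ℝ) : Prop where
  hX : X.Ok
  a1 : ∀ m, (W.ps m).a = 1
  cL_pos : 0 < cL
  cL_le : cL ≤ CL
  Kb_le : 2 * Kb ≤ k.Kmax
  Tmax : X.T + 1 ≤ k.Tmax
  Kmax_le : k.Kmax ≤ k.Tmax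
  /-- the patches `I/u` stay away from `0`, uniformly in the family -/
  Ilo_lb : ∃ c0 : ℝ, 0 < c0 ∧ ∀ F, Fam F → c0 ≤ F.Ilo
  adm : Bd7Adm X W Fam Kb
  geo : Bd7Geo X W Fam
  raw : Bd7Raw X W Fam cL CL
  band : Bd7Band X W Fam cL CL
  p9 : Bd7P9 X Fam
  sc : Sc.Ok W k
  clo : Bd7Clo X W Fam cL CL

end imports2

/-! ## 2. the rescaled data -/

namespace Bd7I

variable {X : BdFix} (i : Bd7I X) (W : BdWorld) (Sc : Bd7Sc) (H : ℝ → ℝ)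

/-- the radius at the rescaled radius `t`, stopped at `0` and at `1/2` -/
def rad (t : ℝ) : ℝ := max 0 (min (i.w * t) (1 / 2))
/-- the mass at the rescaled radius `t` -/
def mas (t : ℝ) : ℝ := i.Q.al (i.rad t)
/-- the scalar clock `K_s = \widehat K` of the instance -/
def Kh : ℝ → ℝ := i.Q.Ks W i.g

/-- **the rescaled data of an instance** (dictionary: header of `Rig/Defs.lean`, with `x = w`, `T = T_m`, `J = 1`, `ell = 1/(M_j w)`, `R = 1/(2w)`) -/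
def rg : RgDat where
  x := i.w
  T := i.F.Tm
  R := 1 / (2 * i.w)
  ell := 1 / (i.F.Mj * i.w)
  a := fun t => i.mas t / i.w
  r := fun v => i.Q.r (max 0 (min (i.w * v) 1)) / i.w
  s := fun t => if t ≤ 0 then 0 else i.Q.Sq W i.g (i.mas t) / i.w
  dl := fun t => if t ≤ 0 then 0 else i.Q.Dq W i.g (i.mas t) / i.w
  e := fun t => i.F.C X (i.w * t) / i.w ^ 2
  p := fun t => i.F.pC X (i.w * t)
  z := fun t => if t ≤ 0 then 0 else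
    ((i.F.b i.g (i.mas t) - i.F.Tm) * i.Q.Sq W i.g (i.mas t) + i.F.h i.g (i.mas t)) / i.w ^ 3
  k := fun t => if t ≤ 0 then 0 else i.Kh W (i.mas t) / (i.F.Tm * i.w)
  aK := fun τ => bdDist (i.Kh W) (i.F.Tm * i.w * τ) / i.w
  g := fun t => (W.Gam (i.Kh W) (i.F.Tm * i.w * t) - i.w * t) / i.w ^ 3
  g1 := fun t => (i.F.Tm * Sc.G1 (i.Kh W) (i.F.Tm * i.w * t) - 1) / i.w ^ 2
  P := fun τ => i.F.Tm ^ 2 * Sc.P3 (i.Kh W) (i.F.Tm * i.w * τ) / i.w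
  Bc := fun τ => i.F.Tm ^ 2 * Sc.B2 (i.Kh W) (i.F.Tm * i.w * τ)
  H := fun t => H (i.rad t) / i.w ^ 4
  J := fun _ => 1

/-- `A_n = T_m³ a_4²` -/
def rgA : ℝ := i.F.Tm ^ 3 * Sc.a4 (i.Kh W) ^ 2
/-- `B_n = 2 T_m² a_2³` -/
def rgB : ℝ := 2 * i.F.Tm ^ 2 * Sc.a2 (i.Kh W) ^ 3

end Bd7I

/-! ## 3. the cut -/

section cut

variable {X : BdFix} {W : BdWorld} {Fam : BdFr → Prop} {Sc : Bd7Sc} {k : Bd7ScC} {Kb cL CL : ℝ}

/-- the scalar clock of a standard instance is a clock bounded by `Kmax`   [leaf, `Bud/L07Sa.lean`] -/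
theorem bd7_Kh_clock (h : Bd7SIn X W Fam Sc k Kb cL CL) :
    ∃ N0 : ℕ, ∀ i : Bd7I X, i.Std W Fam → N0 ≤ i.F.N →
      IsClock 1 (i.Kh W) ∧ ∀ v ∈ Ioo (0 : ℝ) 1, i.Kh W v ≤ k.Kmax := by
  obtain ⟨N0, hadm⟩ := h.adm
  refine ⟨N0, fun i hi hN => ?_⟩
  obtain ⟨-, -, hb, hh, hbd⟩ := hadm i hi hN
  have ha := h.a1 i.F.m
  have hb' : IsClock (W.ps i.F.m).a (i.Q.bq i.g) := by rw [ha]; exact hb
  have hh' : IsClock (W.ps i.F.m).a (i.Q.hq i.g) := by rw [ha]; exact hh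
  have hSm : MonotoneOn (i.Q.Sq W i.g) (Ioo 0 1) := by
    have := (W.ps i.F.m).S_mono _ _ hb' hh'
    rw [ha] at this; exact this
  have hS0 : ∀ v ∈ Ioo (0 : ℝ) 1, 0 ≤ i.Q.Sq W i.g v := by
    have := (W.ps i.F.m).S_nonneg _ _ hb' hh'
    rw [ha] at this; exact this
  have hS1 : ∀ v ∈ Ioo (0 : ℝ) 1, i.Q.Sq W i.g v ≤ 1 := by
    intro v hv
    have h1 := (W.ps i.F.m).S_sq_le _ _ hb' hh' v (by rw [ha]; exact hv)
    have h2 := (W.ps i.F.m).B_le _ _ hb' hh' v (by rw [ha]; exact hv)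
    have h3 : i.Q.Sq W i.g v ^ 2 ≤ 1 := h1.trans h2
    nlinarith [hS0 v hv]
  have hbound : ∀ v ∈ Ioo (0 : ℝ) 1, i.Kh W v ≤ k.Kmax := by
    intro v hv
    have h1 := hbd v hv
    have h2 : i.Q.bq i.g v * i.Q.Sq W i.g v ≤ Kb * 1 :=
      mul_le_mul h1.1 (hS1 v hv) (hS0 v hv) ((hb.nonneg v hv).trans h1.1)
    have : i.Kh W v = i.Q.hq i.g v + i.Q.bq i.g v * i.Q.Sq W i.g v := rfl
    rw [this]
    linarith [h1.2, h.Kb_le]
  refine ⟨⟨?_, ?_, ⟨k.Kmax, hbound⟩⟩, hbound⟩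
  · intro v hv v' hv' hvv
    have e : ∀ v, i.Kh W v = i.Q.hq i.g v + i.Q.bq i.g v * i.Q.Sq W i.g v := fun _ => rfl
    rw [e, e]
    have h1 := hh.mono hv hv' hvv
    have h2 : i.Q.bq i.g v * i.Q.Sq W i.g v ≤ i.Q.bq i.g v' * i.Q.Sq W i.g v' :=
      mul_le_mul (hb.mono hv hv' hvv) (hSm hv hv' hvv) (hS0 v hv) (hb.nonneg v' hv')
    linarith
  · intro v hv
    have : i.Kh W v = i.Q.hq i.g v + i.Q.bq i.g v * i.Q.Sq W i.g v := rfl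
    rw [this]
    have := mul_nonneg (hb.nonneg v hv) (hS0 v hv)
    linarith [hh.nonneg v hv]

end cut

/-! ## 4. deterministic facts on a feasible quantile -/

section quant

variable {F : BdFr} {X : BdFix}

theorem bd7_q_kbar_nonneg (hF : F.Ok X) (r : ℝ) : 0 ≤ F.kbar X r := by
  unfold BdFr.kbar BdFr.k CmCall.k
  have h1 : 0 ≤ (F.call X).N ^ (F.call X).dl * (F.call X).us ^ 2 /
      (r + (F.call X).N ^ (2 * (F.call X).dl) * (F.call X).us) ^ 2 := by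
    have : 0 ≤ (F.call X).N := by unfold CmCall.N; positivity
    have := Real.rpow_nonneg this (F.call X).dl
    positivity
  have h2 : (0 : ℝ) ≤ if r ∈ Icc (F.Ilo * F.u) (F.Ihi * F.u) then F.kap else 0 := by
    split_ifs
    · exact hF.kap0
    · exact le_rfl
  linarith

variable (Q : BdQ F X)

theorem bd7_q_al_mono (hF : F.Ok X) : MonotoneOn Q.al (Icc 0 1) := by
  intro r1 h1 r2 h2 h12
  have := Q.lo r1 r2 h1.1 h12 h2.2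
  have h0 : 0 ≤ ∫ t in r1..r2, F.kbar X t :=
    intervalIntegral.integral_nonneg h12 fun t _ => bd7_q_kbar_nonneg hF t
  linarith

theorem bd7_q_al_strict (hF : F.Ok X) : StrictMonoOn Q.al (Icc 0 1) := by
  intro r1 h1 r2 h2 h12
  refine lt_of_le_of_ne (bd7_q_al_mono Q hF h1 h2 h12.le) fun he => ?_
  have e1 := Q.r_al r1 h1
  have e2 := Q.r_al r2 h2
  rw [he, e2] at e1
  exact h12.ne e1.symm

theorem bd7_q_al_mem (hF : F.Ok X) {r : ℝ} (hr : r ∈ Icc (0 : ℝ) 1) : Q.al r ∈ Icc (0 : ℝ) 1 := by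
  constructor
  · have := bd7_q_al_mono Q hF (left_mem_Icc.2 zero_le_one) hr hr.1
    rwa [Q.al_zero] at this
  · have := bd7_q_al_mono Q hF hr (right_mem_Icc.2 zero_le_one) hr.2
    rwa [Q.al_one] at this

theorem bd7_q_al_mem_Ioo (hF : F.Ok X) {r : ℝ} (hr : r ∈ Ioo (0 : ℝ) 1) : Q.al r ∈ Ioo (0 : ℝ) 1 := by
  constructor
  · have := bd7_q_al_strict Q hF (left_mem_Icc.2 zero_le_one) (Ioo_subset_Icc_self hr) hr.1
    rwa [Q.al_zero] at this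
  · have := bd7_q_al_strict Q hF (Ioo_subset_Icc_self hr) (right_mem_Icc.2 zero_le_one) hr.2
    rwa [Q.al_one] at this

theorem bd7_q_r_mono (hF : F.Ok X) : MonotoneOn Q.r (Icc 0 1) := by
  intro v1 h1 v2 h2 h12
  by_contra hc
  rw [not_le] at hc
  have := bd7_q_al_strict Q hF (Q.r_mem v2 h2) (Q.r_mem v1 h1) hc
  rw [Q.al_r v1 h1, Q.al_r v2 h2] at this
  linarith

/-- outer regularity in the radius coordinate -/
theorem bd7_q_outer (hF : F.Ok X) {w cL CL : ℝ} (hw : 0 < w) (hw1 : 2 * w ≤ 1) (hcL : 0 < cL) (hCL : 0 < CL)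
    (hreg : Q.OuterReg w cL CL 2) {ρ : ℝ} (h1 : 2 * CL * w < ρ) (h2 : ρ ≤ 1) :
    ρ / CL ≤ Q.al ρ ∧ Q.al ρ ≤ ρ / cL := by
  have hρ0 : 0 ≤ ρ := by
    have : 0 < 2 * CL * w := by positivity
    linarith
  have hρ : ρ ∈ Icc (0 : ℝ) 1 := ⟨hρ0, h2⟩
  have hv := bd7_q_al_mem Q hF hρ
  have hr := Q.r_al ρ hρ
  have h2w : 2 * w ≤ Q.al ρ := by
    by_contra hc
    rw [not_le] at hc
    have hm := bd7_q_r_mono Q hF hv ⟨by positivity, hw1⟩ hc.le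
    have := (hreg (2 * w) le_rfl hw1).2
    rw [hr] at hm
    nlinarith
  have := hreg (Q.al ρ) h2w hv.2
  rw [hr] at this
  constructor
  · rw [div_le_iff₀ hCL]; linarith [this.2]
  · rw [le_div_iff₀ hcL]; linarith [this.1]

end quant

/-! ## 5. arithmetic of the scales      [PROVER: see the header of each leaf; pure `Real.rpow` arithmetic on `Bud/Defs`] -/

section arith

variable {X : BdFix} {F : BdFr}

theorem bd7_ar_Lam_pos (h : F.Ok X) : 0 < F.Lam := Real.rpow_pos_of_pos (BdFr.lam_pos' h) _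

theorem bd7_ar_x_lt_one (h : F.Ok X) : F.x < 1 := by
  have hN2 : (2 : ℝ) ≤ F.N := by exact_mod_cast h.N2
  exact Real.rpow_lt_one_of_one_lt_of_neg (by linarith) (by norm_num)

theorem bd7_ar_lam_le_one (hX : X.Ok) (h : F.Ok X) : F.lam ≤ 1 :=
  h.lam_hi.trans (Real.rpow_le_one (BdFr.x_pos' h).le (bd7_ar_x_lt_one h).le hX.pS_pos.le)

theorem bd7_ar_u_le_one (hX : X.Ok) (h : F.Ok X) : F.u ≤ 1 :=
  h.u_hi.trans (Real.rpow_le_one (BdFr.lam_pos' h).le (bd7_ar_lam_le_one hX h) hX.bl_pos.le)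

theorem bd7_ar_Lam_le_one (hX : X.Ok) (h : F.Ok X) : F.Lam ≤ 1 :=
  Real.rpow_le_one (BdFr.lam_pos' h).le (bd7_ar_lam_le_one hX h) (by norm_num)

theorem bd7_ar_C0_pos (hX : X.Ok) (h : F.Ok X) : 0 < F.C0 := by
  have := BdFr.u_pos' hX h
  have := bd7_ar_Lam_pos h
  unfold BdFr.C0; positivity

theorem bd7_ar_C0_le_one (hX : X.Ok) (h : F.Ok X) : F.C0 ≤ 1 := by
  have hu := BdFr.u_pos' hX h
  have hu1 := bd7_ar_u_le_one hX h
  have hL := bd7_ar_Lam_pos h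
  have hL1 := bd7_ar_Lam_le_one hX h
  unfold BdFr.C0
  have h1 : F.u ^ 2 ≤ 1 := pow_le_one₀ hu.le hu1
  calc F.u ^ 2 * F.Lam ≤ 1 * 1 := mul_le_mul h1 hL1 hL.le zero_le_one
    _ = 1 := one_mul 1

theorem bd7_ar_dPE_pos (hX : X.Ok) (h : F.Ok X) : 0 < F.dPE X := by
  have := BdFr.u_pos' hX h
  have := bd7_ar_Lam_pos h
  have := hX.cd_pos
  unfold BdFr.dPE; positivity

theorem bd7_ar_Mj_pos (h : F.Ok X) : 0 < F.Mj := by
  have := Real.rpow_pos_of_pos (BdFr.x_pos' h) (-(100 : ℝ))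
  unfold BdFr.Mj; positivity

/-- `M_j ≥ x^(-100)` -/
theorem bd7_ar_Mj_ge (h : F.Ok X) : F.x ^ (-(100 : ℝ)) ≤ F.Mj := by
  have h1 := Real.rpow_pos_of_pos (BdFr.x_pos' h) (-(100 : ℝ))
  have h2 : (1 : ℝ) ≤ 2 ^ F.st := one_le_pow₀ (by norm_num)
  unfold BdFr.Mj
  nlinarith

/-- every positive power of `x` is small for large sizes -/
theorem bd7_ar_x_small (X : BdFix) {a ε : ℝ} (ha : 0 < a) (hε : 0 < ε) :
    ∃ N0 : ℕ, ∀ F : BdFr, F.Ok X → N0 ≤ F.N → F.x ^ a ≤ ε := by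
  refine ⟨⌈ε ^ (-(6 / a))⌉₊, fun F h hN => ?_⟩
  have hNpos : (0 : ℝ) < F.N := by
    have := h.N2
    exact_mod_cast (by omega : 0 < F.N)
  have h0 : 0 < ε ^ (-(6 / a)) := Real.rpow_pos_of_pos hε _
  have h1 : ε ^ (-(6 / a)) ≤ F.N := (Nat.le_ceil _).trans (by exact_mod_cast hN)
  unfold BdFr.x
  rw [← Real.rpow_mul hNpos.le]
  have h2 : (F.N : ℝ) ^ (-(1 / 6) * a) ≤ (ε ^ (-(6 / a))) ^ (-(1 / 6) * a) :=
    Real.rpow_le_rpow_of_nonpos h0 h1 (by nlinarith)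
  refine h2.trans (le_of_eq ?_)
  rw [← Real.rpow_mul hε.le]
  have : -(6 / a) * (-(1 / 6) * a) = 1 := by field_simp
  rw [this, Real.rpow_one]

/-- the first term of `w_c` -/
theorem bd7_ar_wc_ge (hX : X.Ok) (h : F.Ok X) :
    F.x ^ (-(10 * X.zeta)) * (F.x * F.Lam ^ (-(1 / 6) : ℝ)) ≤ F.wc X := by
  have hx := BdFr.x_pos' h
  have hl := BdFr.lam_pos' h
  have hu := BdFr.u_pos' hX h
  unfold BdFr.wc BdFr.yc
  have hXr : F.Xr * F.u = F.x := by unfold BdFr.Xr; field_simp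
  have b1 : 0 ≤ F.Xr ^ (3 / 4 : ℝ) * F.lam ^ (0.12 : ℝ) := by
    have : 0 < F.Xr := div_pos hx hu
    positivity
  have b2 : 0 < F.x ^ (-(10 * X.zeta)) := Real.rpow_pos_of_pos hx _
  calc F.x ^ (-(10 * X.zeta)) * (F.x * F.Lam ^ (-(1 / 6) : ℝ))
      = F.x ^ (-(10 * X.zeta)) * (F.Xr * F.Lam ^ (-(1 / 6) : ℝ)) * F.u := by rw [← hXr]; ring
    _ ≤ F.x ^ (-(10 * X.zeta)) * (F.Xr * F.Lam ^ (-(1 / 6) : ℝ) + F.Xr ^ (3 / 4 : ℝ) * F.lam ^ (0.12 : ℝ)) * F.u := by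
        gcongr
        linarith

/-- `x ≤ w_c`  (`y_c ≥ X` because `x, Λ ≤ 1`) -/
theorem bd7_ar_x_le_wc (hX : X.Ok) (h : F.Ok X) : F.x ≤ F.wc X := by
  have hx := BdFr.x_pos' h
  have hz := hX.zeta_pos
  refine le_trans ?_ (bd7_ar_wc_ge hX h)
  have h1 : 1 ≤ F.x ^ (-(10 * X.zeta)) :=
    Real.one_le_rpow_of_pos_of_le_one_of_nonpos hx (bd7_ar_x_lt_one h).le (by linarith)
  have h2 : 1 ≤ F.Lam ^ (-(1 / 6) : ℝ) :=
    Real.one_le_rpow_of_pos_of_le_one_of_nonpos (bd7_ar_Lam_pos h) (bd7_ar_Lam_le_one hX h) (by norm_num)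
  calc F.x = 1 * (F.x * 1) := by ring
    _ ≤ F.x ^ (-(10 * X.zeta)) * (F.x * F.Lam ^ (-(1 / 6) : ℝ)) := by gcongr

theorem bd7_ar_C_pos (hX : X.Ok) (h : F.Ok X) (ρ : ℝ) : 0 < F.C X ρ :=
  cm_e_pos (F.call X) (bd7_ar_C0_pos hX h) ρ

theorem bd7_ar_C_le (hX : X.Ok) (h : F.Ok X) (ρ : ℝ) : F.C X ρ ≤ F.C0 :=
  cm_e_le (F.call X) (bd7_ar_C0_pos hX h).le ρ

/-- strong removal forces `w = o(u)`:  `cs w² ≤ C(w) ≤ C0 = u² Λ`, `Λ ≤ x^(0.03 p_*)` -/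
theorem bd7_ar_w_small (hX : X.Ok) {cs ε : ℝ} (hcs : 0 < cs) (hε : 0 < ε) :
    ∃ N0 : ℕ, ∀ F : BdFr, F.Ok X → N0 ≤ F.N → ∀ w : ℝ, 0 < w → F.Strong X w cs → w ≤ ε * F.u := by
  obtain ⟨N0, hN0⟩ := bd7_ar_x_small X (a := 0.03 * X.pS) (ε := cs * ε ^ 2)
    (by have := hX.pS_pos; positivity) (by positivity)
  refine ⟨N0, fun F h hN w hw hs => ?_⟩
  have hx := BdFr.x_pos' h
  have hl := BdFr.lam_pos' h
  have hu := BdFr.u_pos' hX h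
  have h1 : cs * w ^ 2 ≤ F.C0 := le_trans hs (bd7_ar_C_le hX h w)
  have h2 : F.Lam ≤ F.x ^ (0.03 * X.pS) := by
    unfold BdFr.Lam
    have : F.lam ^ (0.03 : ℝ) ≤ (F.x ^ X.pS) ^ (0.03 : ℝ) :=
      Real.rpow_le_rpow hl.le h.lam_hi (by norm_num)
    rw [← Real.rpow_mul hx.le, mul_comm] at this
    exact this
  have h3 := hN0 F h hN
  have h4 : cs * w ^ 2 ≤ cs * (ε * F.u) ^ 2 := by
    calc cs * w ^ 2 ≤ F.u ^ 2 * F.Lam := h1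
      _ ≤ F.u ^ 2 * (cs * ε ^ 2) := by gcongr; exact h2.trans h3
      _ = cs * (ε * F.u) ^ 2 := by ring
  have h5 : w ^ 2 ≤ (ε * F.u) ^ 2 := le_of_mul_le_mul_left h4 hcs
  exact (pow_le_pow_iff_left₀ hw.le (by positivity) (by norm_num)).1 h5

/-- the constant part of the removal profile: `C0 ρ ≤ d_PE³ ⟺ ρ ≤ c_d³ u`   (`cm_e_eq`, `cm_pp_of_le` of `Cmp/Prof`) -/
theorem bd7_ar_flat (hX : X.Ok) (h : F.Ok X) {ρ : ℝ} (hρ : ρ ≤ X.cd ^ 3 * F.u) :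
    F.C X ρ = F.C0 ∧ F.pC X ρ = 0 := by
  have hu := BdFr.u_pos' hX h
  have hL := bd7_ar_Lam_pos h
  have hd : 0 < (F.call X).d := bd7_ar_dPE_pos hX h
  have hd3 : (F.call X).d ^ 3 = X.cd ^ 3 * F.u ^ 3 * F.Lam := by
    show (F.dPE X) ^ 3 = _
    unfold BdFr.dPE
    rw [mul_pow, mul_pow, ← Real.rpow_natCast (F.Lam ^ (1 / 3 : ℝ)) 3, ← Real.rpow_mul hL.le]
    norm_num
  have key : F.C0 * ρ ≤ (F.call X).d ^ 3 := by
    rw [hd3]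
    unfold BdFr.C0
    have : F.u ^ 2 * F.Lam * ρ ≤ F.u ^ 2 * F.Lam * (X.cd ^ 3 * F.u) := by gcongr
    refine this.trans (le_of_eq ?_)
    ring
  refine ⟨cm_e_eq (F.call X) hd key, cm_pp_of_le (F.call X) ?_⟩
  rw [div_le_one (by positivity)]
  exact key

/-- the floor mass below the patch is `o(w_c)`:  `∫_0^y k ≤ m^(-δ) v_* ≤ v_*`  (`cm_fw_k_int` of `Cmp/Fwd`),
`v_*/w_c ≤ (2 C_U/c_d) x^(11 ζ)`  (`m ≥ N/2 = x^(-6)/2`, `X ≤ C_U λ^(s_*/2)`, `s_*/2 ≥ 0.005`) -/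
theorem bd7_ar_floor (hX : X.Ok) {ε : ℝ} (hε : 0 < ε) :
    ∃ N0 : ℕ, ∀ F : BdFr, F.Ok X → N0 ≤ F.N → ∀ y : ℝ, 0 ≤ y → y < F.Ilo * F.u →
      ∫ ρ in (0 : ℝ)..y, F.kbar X ρ ≤ ε * F.wc X := by
  have hcd := hX.cd_pos
  have hCU := hX.CU_pos
  have hz := hX.zeta_pos
  obtain ⟨N0, hN0⟩ := bd7_ar_x_small X (a := 11 * X.zeta) (ε := ε * X.cd / (2 * X.CU))
    (by positivity) (by positivity)
  refine ⟨N0, fun F h hN y hy0 hy => ?_⟩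
  have hx := BdFr.x_pos' h
  have hl := BdFr.lam_pos' h
  have hl1 := bd7_ar_lam_le_one hX h
  have hu := BdFr.u_pos' hX h
  have hL := bd7_ar_Lam_pos h
  have hd := bd7_ar_dPE_pos hX h
  have hNpos : (0 : ℝ) < F.N := by
    have := h.N2
    exact_mod_cast (by omega : 0 < F.N)
  have hN2 : (2 : ℝ) ≤ F.N := by exact_mod_cast h.N2
  have hm1 : (1 : ℝ) ≤ F.m := by linarith [h.m_lo]
  have hE : 0 < F.E X := by
    unfold BdFr.E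
    exact mul_pos (Real.rpow_pos_of_pos hx _) hd
  set P := F.call X with hP
  have hPN : P.N = (F.m : ℝ) := rfl
  have hPE : P.E = F.E X := rfl
  have hdl : 0 ≤ P.dl := by
    show 0 ≤ X.mPE / 10000
    have := hX.mPE_pos
    positivity
  have hus : 0 < P.us := by
    unfold CmCall.us
    rw [hPN, hPE]
    positivity
  have hNd : 0 < P.N ^ P.dl := Real.rpow_pos_of_pos (by rw [hPN]; linarith) _
  have hN2d : 0 < P.N ^ (2 * P.dl) := Real.rpow_pos_of_pos (by rw [hPN]; linarith) _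
  have hB : 0 < P.Bk := by unfold CmCall.Bk; positivity
  have hA : 0 < P.Ak := by unfold CmCall.Ak; positivity
  -- the integrand is the PE floor
  have e1 : ∫ ρ in (0 : ℝ)..y, F.kbar X ρ = ∫ ρ in (0 : ℝ)..y, P.k ρ := by
    apply intervalIntegral.integral_congr
    intro ρ hρ
    rw [uIcc_of_le hy0] at hρ
    have : ρ ∉ Icc (F.Ilo * F.u) (F.Ihi * F.u) := fun hh => by linarith [hh.1, hρ.2]
    simp only [BdFr.kbar, if_neg this, add_zero]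
    rfl
  rw [e1, cm_fw_k_int hB le_rfl hy0]
  have e2 : P.dpsi 0 y ≤ P.us := by
    unfold CmCall.dpsi
    have a1 : 0 ≤ 1 / (y + P.Bk) := by positivity
    have a2 : P.Ak * (1 / (0 + P.Bk) - 1 / (y + P.Bk)) ≤ P.Ak * (1 / P.Bk) := by
      rw [zero_add]
      apply mul_le_mul_of_nonneg_left _ hA.le
      linarith
    refine a2.trans ?_
    unfold CmCall.Ak CmCall.Bk
    have a3 : P.N ^ P.dl ≤ P.N ^ (2 * P.dl) :=
      Real.rpow_le_rpow_of_exponent_le (by rw [hPN]; exact hm1) (by linarith)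
    rw [mul_one_div, div_le_iff₀ (by positivity)]
    nlinarith [mul_le_mul_of_nonneg_right a3 (by positivity : 0 ≤ P.us ^ 2)]
  refine e2.trans ?_
  -- `us ≤ ε wc`
  unfold CmCall.us
  rw [hPN, hPE, div_le_iff₀ (by positivity)]
  -- lower bounds
  have hNx : (F.N : ℝ) = F.x ^ (-(6 : ℝ)) := by
    unfold BdFr.x
    rw [← Real.rpow_mul hNpos.le]
    norm_num
  have hm : F.x ^ (-(6 : ℝ)) / 2 ≤ F.m := by rw [← hNx]; exact h.m_lo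
  have hwc : F.x ^ (-(10 * X.zeta)) * (F.x * F.Lam ^ (-(1 / 6) : ℝ)) ≤ F.wc X := by
    unfold BdFr.wc BdFr.yc
    have hXr : F.Xr * F.u = F.x := by unfold BdFr.Xr; field_simp
    have b1 : 0 ≤ F.Xr ^ (3 / 4 : ℝ) * F.lam ^ (0.12 : ℝ) := by
      have : 0 < F.Xr := div_pos hx hu
      positivity
    have b2 : 0 < F.x ^ (-(10 * X.zeta)) := Real.rpow_pos_of_pos hx _
    calc F.x ^ (-(10 * X.zeta)) * (F.x * F.Lam ^ (-(1 / 6) : ℝ))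
        = F.x ^ (-(10 * X.zeta)) * (F.Xr * F.Lam ^ (-(1 / 6) : ℝ)) * F.u := by rw [← hXr]; ring
      _ ≤ F.x ^ (-(10 * X.zeta)) * (F.Xr * F.Lam ^ (-(1 / 6) : ℝ) + F.Xr ^ (3 / 4 : ℝ) * F.lam ^ (0.12 : ℝ)) * F.u := by
          gcongr
          linarith
  have huU : F.x * F.lam ^ (-(X.sS / 2)) / X.CU ≤ F.u := by
    rw [div_le_iff₀ hCU]
    have := h.u_lo
    unfold BdFr.U at this
    linarith
  have hx11 := hN0 F h hN
  -- assemble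
  have c1 : F.x ^ (-(10 * X.zeta)) * (F.x * F.Lam ^ (-(1 / 6) : ℝ)) * (F.x ^ (-(6 : ℝ)) / 2 *
      (F.x ^ (4 - X.zeta) * (X.cd * (F.x * F.lam ^ (-(X.sS / 2)) / X.CU) * F.Lam ^ (1 / 3 : ℝ))))
      ≤ F.wc X * (F.m * F.E X) := by
    unfold BdFr.E BdFr.dPE
    have p1 : 0 < F.x ^ (-(10 * X.zeta)) := Real.rpow_pos_of_pos hx _
    have p2 : 0 < F.Lam ^ (-(1 / 6) : ℝ) := Real.rpow_pos_of_pos hL _
    have p3 : 0 < F.x ^ (-(6 : ℝ)) := Real.rpow_pos_of_pos hx _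
    have p4 : 0 < F.x ^ (4 - X.zeta) := Real.rpow_pos_of_pos hx _
    have p5 : 0 < F.Lam ^ (1 / 3 : ℝ) := Real.rpow_pos_of_pos hL _
    have p6 : 0 < F.lam ^ (-(X.sS / 2)) := Real.rpow_pos_of_pos hl _
    have p7 : 0 ≤ F.wc X := (BdFr.wc_pos' hX h).le
    gcongr
  have c2 : F.x ^ (-(10 * X.zeta)) * (F.x * F.Lam ^ (-(1 / 6) : ℝ)) * (F.x ^ (-(6 : ℝ)) / 2 *
      (F.x ^ (4 - X.zeta) * (X.cd * (F.x * F.lam ^ (-(X.sS / 2)) / X.CU) * F.Lam ^ (1 / 3 : ℝ))))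
      = X.cd / (2 * X.CU) * F.x ^ (-(11 * X.zeta)) * F.lam ^ (-(X.sS / 2 - 0.005)) := by
    have q1 : F.x ^ (-(10 * X.zeta)) * F.x * F.x ^ (-(6 : ℝ)) * F.x ^ (4 - X.zeta) * F.x
        = F.x ^ (-(11 * X.zeta)) := by
      have : F.x ^ (-(10 * X.zeta)) * F.x ^ (1 : ℝ) * F.x ^ (-(6 : ℝ)) * F.x ^ (4 - X.zeta) * F.x ^ (1 : ℝ)
          = F.x ^ (-(11 * X.zeta)) := by
        rw [← Real.rpow_add hx, ← Real.rpow_add hx, ← Real.rpow_add hx, ← Real.rpow_add hx]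
        congr 1; ring
      simpa using this
    have q2 : F.Lam ^ (-(1 / 6) : ℝ) * F.Lam ^ (1 / 3 : ℝ) * F.lam ^ (-(X.sS / 2))
        = F.lam ^ (-(X.sS / 2 - 0.005)) := by
      unfold BdFr.Lam
      rw [← Real.rpow_mul hl.le, ← Real.rpow_mul hl.le, ← Real.rpow_add hl, ← Real.rpow_add hl]
      congr 1; ring
    calc _ = X.cd / (2 * X.CU) * (F.x ^ (-(10 * X.zeta)) * F.x * F.x ^ (-(6 : ℝ)) * F.x ^ (4 - X.zeta) * F.x)
          * (F.Lam ^ (-(1 / 6) : ℝ) * F.Lam ^ (1 / 3 : ℝ) * F.lam ^ (-(X.sS / 2))) := by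
          field_simp
      _ = _ := by rw [q1, q2]
  have c3 : 1 ≤ F.lam ^ (-(X.sS / 2 - 0.005)) := by
    apply Real.one_le_rpow_of_pos_of_le_one_of_nonpos hl hl1
    have : X.tau ≤ 1 / 100000 := hX.tau_le
    unfold BdFix.sS
    linarith
  have c4 : 1 ≤ ε * (X.cd / (2 * X.CU)) * F.x ^ (-(11 * X.zeta)) := by
    rw [Real.rpow_neg hx.le]
    have p : 0 < F.x ^ (11 * X.zeta) := Real.rpow_pos_of_pos hx _
    rw [← div_eq_mul_inv, le_div_iff₀ p, one_mul]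
    refine hx11.trans (le_of_eq ?_)
    ring
  have c5 : 0 < X.cd / (2 * X.CU) * F.x ^ (-(11 * X.zeta)) :=
    mul_pos (by positivity) (Real.rpow_pos_of_pos hx _)
  calc (1 : ℝ) ≤ ε * (X.cd / (2 * X.CU)) * F.x ^ (-(11 * X.zeta)) := c4
    _ = ε * (X.cd / (2 * X.CU) * F.x ^ (-(11 * X.zeta)) * 1) := by ring
    _ ≤ ε * (X.cd / (2 * X.CU) * F.x ^ (-(11 * X.zeta)) * F.lam ^ (-(X.sS / 2 - 0.005))) := by gcongr
    _ ≤ ε * (F.wc X * (F.m * F.E X)) := by rw [← c2]; gcongr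
    _ = ε * F.wc X * (F.m * F.E X) := by ring

end arith

end

end Claimed.Agent.R286
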