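import Claimed.Agent.R286.Bud.L07Mv

/-!
# Row 286, LL 07-budgets Step 1 (l.889-985), nodes T6 + T7 : A THRESHOLD SEPARATION COSTS `c min(C(y), 𝒟(y)) y³`      owner helper186, prefix `skpc_`

Fixed size, explicit constants, no asymptotics.
`SkSp` = the data of a separation test: forward class `(Ψ, Λ)` on `[0,1]` (`Lib/Barrier`), parent profile `ef` (LL: `C`, PE: `e`), parent minimiser `r`, child profile `Df` (`𝒟`), child final minimiser `z`, child error `err`.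
`SkSp.Ok` = profile facts + THE MOVEMENT PRINCIPLE (field `move` = PE Lemma 6.3: a feasible trial `ρ` with `SkMove` at every mass gives `∫ e(r)(ρ - r)(z - r) ≤ 4 err`).   Two suppliers of `move`:
   `SkPC.Ok.sp` (this file: abstract pressure system `PSys`, square interpolation)  and  `bd7wb_sp` (`Bud/L07Wb.lean`: abstract pressure `fn` with the chord inequality, `p6_move_core`).
* `SkSp.sep_up`        `r ≤ θ1 < θ2 ≤ z` on `[α0, α2]`   ⇒   `e(θ1) τ (θ2 - θ1)(α2 - α1) ≤ 4 err`                    (capped clipping, concavity of `Ψ` below the barrier)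
* `SkSp.sep_up_full`   the same  ⇒   `e(θ1)(H - θ1)(θ2 - θ1)(α2 - α1) ≤ 4 err`                                        (full clipping, ANY `Ψ`; needs `e ≪ 𝒟`)
* `SkSp.sep_dn`        `z ≤ θ1 < θ2 ≤ r` on `[α0, α2]`   ⇒   `e(R) t (θ2 - H - Λ 1)(θ2 - θ1)(a - α0) ≤ 4 err`          (harmonic move, `Ψ` harmonic on `[H, R]`)
* `SkSp.sep_dn_full`   the same  ⇒   `e(R)(θ2 - H - Λ 1)(θ2 - θ1)(a - α0) ≤ 4 err`                                    (full clipping, ANY `Ψ`; needs `e ≪ 𝒟`)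
Both PE Lemma 6.4 + 6.5(i) and LL l.917-968 are instances (choose `θ, α ~ y`, `τ = η y min(1, 𝒟(y)/e(y))`).
-/

set_option autoImplicit false

namespace Claimed.Agent.R286

open MeasureTheory Set

/-- the data of a separation test at fixed size -/
structure SkSp where
  Ψ : ℝ → ℝ
  Λ : ℝ → ℝ
  ef : ℝ → ℝ
  Df : ℝ → ℝ
  r : ℝ → ℝ
  z : ℝ → ℝ
  err : ℝ

namespace SkSp

variable (d : SkSp)

/-- feasible quantiles -/
def Feas (ρ : ℝ → ℝ) : Prop := SkBar d.Ψ d.Λ 0 ρ ∧ ρ 0 = 0 ∧ ρ 1 = 1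

/-- the standing hypotheses; `move` = the movement principle (PE Lemma 6.3) -/
structure Ok : Prop where
  Λ0 : d.Λ 0 = 0
  Λ_mono : MonotoneOn d.Λ (Icc 0 1)
  ef_anti : AntitoneOn d.ef (Ici 0)
  ef_mono : MonotoneOn (fun t => t * d.ef t) (Ici 0)
  ef_pos : ∀ t, 0 ≤ t → 0 < d.ef t
  Df_anti : AntitoneOn d.Df (Ici 0)
  Df_mono : MonotoneOn (fun t => t * d.Df t) (Ici 0)
  Df_pos : ∀ t, 0 ≤ t → 0 < d.Df t
  feas : d.Feas d.r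
  z_mono : MonotoneOn d.z (Icc 0 1)
  z_rng : ∀ v ∈ Icc (0 : ℝ) 1, d.z v ∈ Icc (0 : ℝ) 1
  move : ∀ ρ, d.Feas ρ → (∀ v ∈ Ioo (0 : ℝ) 1, SkMove (d.ef (d.r v)) (d.Df (d.z v)) (d.r v) (d.z v) (ρ v)) →
    ∫ v in Ioo (0 : ℝ) 1, d.ef (d.r v) * (ρ v - d.r v) * (d.z v - d.r v) ≤ 4 * d.err

variable {d}

theorem Feas.mono (hΛ : MonotoneOn d.Λ (Icc 0 1)) {ρ : ℝ → ℝ} (hρ : d.Feas ρ) : MonotoneOn ρ (Icc 0 1) :=
  skbar_mono hΛ hρ.1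

theorem Feas.rng (hΛ : MonotoneOn d.Λ (Icc 0 1)) {ρ : ℝ → ℝ} (hρ : d.Feas ρ) {v : ℝ} (hv : v ∈ Icc (0 : ℝ) 1) :
    ρ v ∈ Icc (0 : ℝ) 1 := by
  have m0 : (0 : ℝ) ∈ Icc (0 : ℝ) 1 := ⟨le_rfl, zero_le_one⟩
  have m1 : (1 : ℝ) ∈ Icc (0 : ℝ) 1 := ⟨zero_le_one, le_rfl⟩
  constructor
  · rw [← hρ.2.1]; exact hρ.mono hΛ m0 hv hv.1
  · rw [← hρ.2.2]; exact hρ.mono hΛ hv m1 hv.2

end SkSp

/-- a parent/child comparison at fixed size -/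
structure SkPC where
  P : PSys
  Ψ : ℝ → ℝ
  Λ : ℝ → ℝ
  b : ℝ → ℝ
  h : ℝ → ℝ
  ef : ℝ → ℝ
  Df : ℝ → ℝ
  r : ℝ → ℝ
  z : ℝ → ℝ
  err : ℝ

namespace SkPC

variable (d : SkPC)

/-- the separation data -/
def sp : SkSp := ⟨d.Ψ, d.Λ, d.ef, d.Df, d.r, d.z, d.err⟩
/-- feasible quantiles -/
def Feas (ρ : ℝ → ℝ) : Prop := d.sp.Feas ρ
/-- changed matrix clock -/
def bq (ρ : ℝ → ℝ) (v : ℝ) : ℝ := d.b v - d.ef (ρ v)
/-- changed field clock -/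
def hq (ρ : ℝ → ℝ) (v : ℝ) : ℝ := d.h v + d.ef (ρ v) * ρ v
/-- the parent objective -/
noncomputable def obj (ρ : ℝ → ℝ) : ℝ := d.P.f (d.bq ρ) (d.hq ρ) + (1 / 4) * ∫ v in Ioo (0 : ℝ) 1, d.ef (ρ v) * ρ v ^ 2

/-- the standing hypotheses -/
structure Ok : Prop where
  a1 : d.P.a = 1
  Λ0 : d.Λ 0 = 0
  Λ_mono : MonotoneOn d.Λ (Icc 0 1)
  ef_anti : AntitoneOn d.ef (Ici 0)
  ef_mono : MonotoneOn (fun t => t * d.ef t) (Ici 0)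
  ef_pos : ∀ t, 0 ≤ t → 0 < d.ef t
  Df_anti : AntitoneOn d.Df (Ici 0)
  Df_mono : MonotoneOn (fun t => t * d.Df t) (Ici 0)
  Df_pos : ∀ t, 0 ≤ t → 0 < d.Df t
  feas : d.Feas d.r
  clk : ∀ ρ, d.Feas ρ → IsClock 1 (d.bq ρ) ∧ IsClock 1 (d.hq ρ)
  opt : ∀ ρ, d.Feas ρ → d.obj d.r ≤ d.obj ρ
  z_mono : MonotoneOn d.z (Icc 0 1)
  z_rng : ∀ v ∈ Icc (0 : ℝ) 1, d.z v ∈ Icc (0 : ℝ) 1
  clkQb : IsClock 1 (fun v => d.b v - d.ef (d.r v) - d.Df (d.z v))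
  clkQh : IsClock 1 (fun v => d.h v + d.ef (d.r v) * d.r v + d.Df (d.z v) * d.z v)
  child : d.P.f (fun v => d.b v - d.ef (d.r v) - d.Df (d.z v))
        (fun v => d.h v + d.ef (d.r v) * d.r v + d.Df (d.z v) * d.z v)
      + (1 / 4) * ∫ v in Ioo (0 : ℝ) 1, d.Df (d.z v) * d.z v ^ 2
    ≤ d.P.f (d.bq d.r) (d.hq d.r) + d.err

variable {d}

theorem Feas.mono (hd : d.Ok) {ρ : ℝ → ℝ} (hρ : d.Feas ρ) : MonotoneOn ρ (Icc 0 1) :=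
  SkSp.Feas.mono (d := d.sp) hd.Λ_mono hρ

theorem Feas.rng (hd : d.Ok) {ρ : ℝ → ℝ} (hρ : d.Feas ρ) {v : ℝ} (hv : v ∈ Icc (0 : ℝ) 1) : ρ v ∈ Icc (0 : ℝ) 1 :=
  SkSp.Feas.rng (d := d.sp) hd.Λ_mono hρ hv

end SkPC

/-- bounded + a.e. strongly measurable on `(0,1)` ⇒ integrable -/
theorem skpc_int_of_bdd {g : ℝ → ℝ} {C : ℝ} (hm : AEStronglyMeasurable g (volume.restrict (Ioo (0 : ℝ) 1)))
    (hb : ∀ v ∈ Ioo (0 : ℝ) 1, |g v| ≤ C) : IntegrableOn g (Ioo (0 : ℝ) 1) := by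
  refine Integrable.of_bound hm C ?_
  exact (ae_restrict_iff' measurableSet_Ioo).2 (Filter.Eventually.of_forall fun v hv => by
    simpa [Real.norm_eq_abs] using hb v hv)

theorem skpc_aesm_mono {g : ℝ → ℝ} (hm : MonotoneOn g (Icc (0 : ℝ) 1)) :
    AEStronglyMeasurable g (volume.restrict (Ioo (0 : ℝ) 1)) :=
  bud_aesm_of_monoOn (hm.mono Ioo_subset_Icc_self)

/-- an antitone profile composed with a monotone radius -/
theorem skpc_aesm_comp {ef ρ : ℝ → ℝ} (ha : AntitoneOn ef (Ici 0)) (hm : MonotoneOn ρ (Icc (0 : ℝ) 1))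
    (h0 : ∀ v ∈ Icc (0 : ℝ) 1, 0 ≤ ρ v) :
    AEStronglyMeasurable (fun v => ef (ρ v)) (volume.restrict (Ioo (0 : ℝ) 1)) := by
  have h1 : MonotoneOn (fun v => -ef (ρ v)) (Icc (0 : ℝ) 1) := by
    intro u hu v hv huv
    have := ha (mem_Ici.2 (h0 u hu)) (mem_Ici.2 (h0 v hv)) (hm hu hv huv)
    simp only
    linarith
  exact (skpc_aesm_mono h1).neg.congr (Filter.Eventually.of_forall fun v => by simp)

namespace SkPC

variable {d : SkPC}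

/-- **PE Lemma 6.3** for a feasible trial, integrability discharged -/
theorem move (hd : d.Ok) {ρ : ℝ → ℝ} (hρ : d.Feas ρ)
    (hmv : ∀ v ∈ Ioo (0 : ℝ) 1, SkMove (d.ef (d.r v)) (d.Df (d.z v)) (d.r v) (d.z v) (ρ v)) :
    ∫ v in Ioo (0 : ℝ) 1, d.ef (d.r v) * (ρ v - d.r v) * (d.z v - d.r v) ≤ 4 * d.err := by
  have sub : Ioo (0 : ℝ) 1 ⊆ Icc (0 : ℝ) 1 := Ioo_subset_Icc_self
  have hr := hd.feas
  have rr : ∀ v ∈ Ioo (0 : ℝ) 1, d.r v ∈ Icc (0 : ℝ) 1 := fun v hv => hr.rng hd (sub hv)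
  have rρ : ∀ v ∈ Ioo (0 : ℝ) 1, ρ v ∈ Icc (0 : ℝ) 1 := fun v hv => hρ.rng hd (sub hv)
  have rz : ∀ v ∈ Ioo (0 : ℝ) 1, d.z v ∈ Icc (0 : ℝ) 1 := fun v hv => hd.z_rng v (sub hv)
  -- bounds of the profiles
  have e0 : ∀ t, 0 ≤ t → d.ef t ≤ d.ef 0 := fun t ht => hd.ef_anti (mem_Ici.2 le_rfl) (mem_Ici.2 ht) ht
  have D0 : ∀ t, 0 ≤ t → d.Df t ≤ d.Df 0 := fun t ht => hd.Df_anti (mem_Ici.2 le_rfl) (mem_Ici.2 ht) ht
  -- measurability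
  have mr := skpc_aesm_mono (hr.mono hd)
  have mρ := skpc_aesm_mono (hρ.mono hd)
  have mz := skpc_aesm_mono hd.z_mono
  have mer := skpc_aesm_comp hd.ef_anti (hr.mono hd) (fun v hv => (hr.rng hd hv).1)
  have meρ := skpc_aesm_comp hd.ef_anti (hρ.mono hd) (fun v hv => (hρ.rng hd hv).1)
  have mD := skpc_aesm_comp hd.Df_anti hd.z_mono (fun v hv => (hd.z_rng v hv).1)
  -- the pointwise inequality
  have hpt : ∀ v ∈ Ioo (0 : ℝ) d.P.a, 0 < d.ef (d.r v) + d.Df (d.z v) - d.ef (ρ v) ∧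
      d.ef (d.r v) * (ρ v - d.r v) * (d.z v - d.r v) ≤ d.ef (d.r v) * d.r v ^ 2 + d.Df (d.z v) * d.z v ^ 2
        - d.ef (ρ v) * ρ v ^ 2
        - (d.ef (d.r v) * d.r v + d.Df (d.z v) * d.z v - d.ef (ρ v) * ρ v) ^ 2
          / (d.ef (d.r v) + d.Df (d.z v) - d.ef (ρ v)) := by
    intro v hv
    rw [hd.a1] at hv
    exact skbar_mv_point hd.ef_anti hd.ef_mono hd.ef_pos (hd.Df_pos _ (rz v hv).1) (rr v hv).1 (rz v hv).1 (hmv v hv)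
  have sq1 : ∀ x : ℝ, x ∈ Icc (0 : ℝ) 1 → x ^ 2 ≤ 1 := fun x hx => by nlinarith [hx.1, hx.2]
  have i1 : IntegrableOn (fun v => d.ef (d.r v) * d.r v ^ 2) (Ioo 0 d.P.a) := by
    rw [hd.a1]
    refine skpc_int_of_bdd (C := d.ef 0) (mer.mul (mr.pow 2)) fun v hv => ?_
    have h1 := (hd.ef_pos _ (rr v hv).1).le
    rw [abs_of_nonneg (mul_nonneg h1 (sq_nonneg _))]
    calc d.ef (d.r v) * d.r v ^ 2 ≤ d.ef 0 * 1 :=
          mul_le_mul (e0 _ (rr v hv).1) (sq1 _ (rr v hv)) (sq_nonneg _) (hd.ef_pos 0 le_rfl).le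
      _ = d.ef 0 := mul_one _
  have i2 : IntegrableOn (fun v => d.Df (d.z v) * d.z v ^ 2) (Ioo 0 d.P.a) := by
    rw [hd.a1]
    refine skpc_int_of_bdd (C := d.Df 0) (mD.mul (mz.pow 2)) fun v hv => ?_
    have h1 := (hd.Df_pos _ (rz v hv).1).le
    rw [abs_of_nonneg (mul_nonneg h1 (sq_nonneg _))]
    calc d.Df (d.z v) * d.z v ^ 2 ≤ d.Df 0 * 1 :=
          mul_le_mul (D0 _ (rz v hv).1) (sq1 _ (rz v hv)) (sq_nonneg _) (hd.Df_pos 0 le_rfl).le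
      _ = d.Df 0 := mul_one _
  have i3 : IntegrableOn (fun v => d.ef (ρ v) * ρ v ^ 2) (Ioo 0 d.P.a) := by
    rw [hd.a1]
    refine skpc_int_of_bdd (C := d.ef 0) (meρ.mul (mρ.pow 2)) fun v hv => ?_
    have h1 := (hd.ef_pos _ (rρ v hv).1).le
    rw [abs_of_nonneg (mul_nonneg h1 (sq_nonneg _))]
    calc d.ef (ρ v) * ρ v ^ 2 ≤ d.ef 0 * 1 :=
          mul_le_mul (e0 _ (rρ v hv).1) (sq1 _ (rρ v hv)) (sq_nonneg _) (hd.ef_pos 0 le_rfl).le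
      _ = d.ef 0 := mul_one _
  have i4 : IntegrableOn (fun v => (d.ef (d.r v) * d.r v + d.Df (d.z v) * d.z v - d.ef (ρ v) * ρ v) ^ 2
      / (d.ef (d.r v) + d.Df (d.z v) - d.ef (ρ v))) (Ioo 0 d.P.a) := by
    have hpt' := hpt
    rw [hd.a1] at hpt' ⊢
    refine skpc_int_of_bdd (C := d.ef 0 + d.Df 0)
      (((((mer.mul mr).add (mD.mul mz)).sub (meρ.mul mρ)).pow 2).aemeasurable.div
        ((mer.add mD).sub meρ).aemeasurable).aestronglyMeasurable fun v hv => ?_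
    rw [abs_of_nonneg (div_nonneg (sq_nonneg _) (hpt' v hv).1.le)]
    have := skbar_mv_point_ratio hd.ef_anti hd.ef_mono hd.ef_pos (hd.Df_pos _ (rz v hv).1) (rr v hv) (rz v hv) (hmv v hv)
    linarith [e0 _ (rr v hv).1, D0 _ (rz v hv).1]
  have i5 : IntegrableOn (fun v => d.ef (d.r v) * (ρ v - d.r v) * (d.z v - d.r v)) (Ioo 0 d.P.a) := by
    rw [hd.a1]
    refine skpc_int_of_bdd (C := d.ef 0) ((mer.mul (mρ.sub mr)).mul (mz.sub mr)) fun v hv => ?_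
    have h1 := (hd.ef_pos _ (rr v hv).1).le
    have a1 : |ρ v - d.r v| ≤ 1 := by rw [abs_le]; constructor <;> linarith [(rρ v hv).1, (rρ v hv).2, (rr v hv).1, (rr v hv).2]
    have a2 : |d.z v - d.r v| ≤ 1 := by rw [abs_le]; constructor <;> linarith [(rz v hv).1, (rz v hv).2, (rr v hv).1, (rr v hv).2]
    rw [abs_mul, abs_mul, abs_of_nonneg h1]
    calc d.ef (d.r v) * |ρ v - d.r v| * |d.z v - d.r v| ≤ d.ef 0 * 1 * 1 :=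
          mul_le_mul (mul_le_mul (e0 _ (rr v hv).1) a1 (abs_nonneg _) (hd.ef_pos 0 le_rfl).le) a2 (abs_nonneg _)
            (by have := (hd.ef_pos 0 le_rfl).le; positivity)
      _ = d.ef 0 := by ring
  have hclk := hd.clk ρ hρ
  have key := bud_mv_main d.P (b := d.b) (h := d.h) (er := fun v => d.ef (d.r v)) (eh := fun v => d.ef (ρ v))
    (D := fun v => d.Df (d.z v)) (r := d.r) (rh := ρ) (z := d.z) (err := d.err)
    (by rw [hd.a1]; exact hclk.1) (by rw [hd.a1]; exact hclk.2) (by rw [hd.a1]; exact hd.clkQb)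
    (by rw [hd.a1]; exact hd.clkQh)
    (by have := hd.opt ρ hρ; rw [hd.a1]; exact this) (by have := hd.child; rw [hd.a1]; exact this)
    hpt i1 i2 i3 i4 i5
  rw [hd.a1] at key
  exact key

/-- the pressure-system setting supplies the movement principle -/
theorem Ok.sp (hd : d.Ok) : d.sp.Ok where
  Λ0 := hd.Λ0
  Λ_mono := hd.Λ_mono
  ef_anti := hd.ef_anti
  ef_mono := hd.ef_mono
  ef_pos := hd.ef_pos
  Df_anti := hd.Df_anti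
  Df_mono := hd.Df_mono
  Df_pos := hd.Df_pos
  feas := hd.feas
  z_mono := hd.z_mono
  z_rng := hd.z_rng
  move := fun _ hρ hmv => move hd hρ hmv

end SkPC

/-- lower bound of the movement integral -/
theorem skpc_int_ge {g : ℝ → ℝ} {c α1 α2 : ℝ} (hg : IntegrableOn g (Ioo (0 : ℝ) 1)) (h0 : ∀ v ∈ Ioo (0 : ℝ) 1, 0 ≤ g v)
    (hα1 : 0 ≤ α1) (h12 : α1 ≤ α2) (hα2 : α2 ≤ 1) (hc : ∀ v ∈ Ioo α1 α2, c ≤ g v) :
    c * (α2 - α1) ≤ ∫ v in Ioo (0 : ℝ) 1, g v := by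
  have hsub : Ioo α1 α2 ⊆ Ioo (0 : ℝ) 1 := fun v hv => ⟨lt_of_le_of_lt hα1 hv.1, lt_of_lt_of_le hv.2 hα2⟩
  have h1 : ∫ v in Ioo α1 α2, g v ≤ ∫ v in Ioo (0 : ℝ) 1, g v := by
    refine setIntegral_mono_set hg ?_ (Filter.Eventually.of_forall hsub)
    exact (ae_restrict_iff' measurableSet_Ioo).2 (Filter.Eventually.of_forall h0)
  have h2 : ∫ _v in Ioo α1 α2, c ≤ ∫ v in Ioo α1 α2, g v :=
    setIntegral_mono_on (integrableOn_const measure_Ioo_lt_top.ne) (hg.mono_set hsub) measurableSet_Ioo hc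
  have h3 : ∫ _v in Ioo α1 α2, c = c * (α2 - α1) := by
    rw [setIntegral_const]
    simp [Measure.real, Real.volume_Ioo, ENNReal.toReal_ofReal (sub_nonneg.2 h12), mul_comm]
  linarith

namespace SkSp

variable {d : SkSp}

/-- the movement integrand is integrable -/
theorem int_move (hd : d.Ok) {ρ : ℝ → ℝ} (hρ : d.Feas ρ) :
    IntegrableOn (fun v => d.ef (d.r v) * (ρ v - d.r v) * (d.z v - d.r v)) (Ioo (0 : ℝ) 1) := by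
  have sub : Ioo (0 : ℝ) 1 ⊆ Icc (0 : ℝ) 1 := Ioo_subset_Icc_self
  have hr := hd.feas
  have rr : ∀ v ∈ Ioo (0 : ℝ) 1, d.r v ∈ Icc (0 : ℝ) 1 := fun v hv => hr.rng hd.Λ_mono (sub hv)
  have rρ : ∀ v ∈ Ioo (0 : ℝ) 1, ρ v ∈ Icc (0 : ℝ) 1 := fun v hv => hρ.rng hd.Λ_mono (sub hv)
  have rz : ∀ v ∈ Ioo (0 : ℝ) 1, d.z v ∈ Icc (0 : ℝ) 1 := fun v hv => hd.z_rng v (sub hv)
  have e0 : ∀ t, 0 ≤ t → d.ef t ≤ d.ef 0 := fun t ht => hd.ef_anti (mem_Ici.2 le_rfl) (mem_Ici.2 ht) ht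
  have mr := skpc_aesm_mono (hr.mono hd.Λ_mono)
  have mρ := skpc_aesm_mono (hρ.mono hd.Λ_mono)
  have mz := skpc_aesm_mono hd.z_mono
  have mer := skpc_aesm_comp hd.ef_anti (hr.mono hd.Λ_mono) (fun v hv => (hr.rng hd.Λ_mono hv).1)
  refine skpc_int_of_bdd (C := d.ef 0) ((mer.mul (mρ.sub mr)).mul (mz.sub mr)) fun v hv => ?_
  have h1 := (hd.ef_pos _ (rr v hv).1).le
  have a1 : |ρ v - d.r v| ≤ 1 := by rw [abs_le]; constructor <;> linarith [(rρ v hv).1, (rρ v hv).2, (rr v hv).1, (rr v hv).2]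
  have a2 : |d.z v - d.r v| ≤ 1 := by rw [abs_le]; constructor <;> linarith [(rz v hv).1, (rz v hv).2, (rr v hv).1, (rr v hv).2]
  rw [abs_mul, abs_mul, abs_of_nonneg h1]
  calc d.ef (d.r v) * |ρ v - d.r v| * |d.z v - d.r v| ≤ d.ef 0 * 1 * 1 :=
        mul_le_mul (mul_le_mul (e0 _ (rr v hv).1) a1 (abs_nonneg _) (hd.ef_pos 0 le_rfl).le) a2 (abs_nonneg _)
          (by have := (hd.ef_pos 0 le_rfl).le; positivity)
    _ = d.ef 0 := by ring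

/-- **the cost of a trial** : admissible moves everywhere, integrand `≥ c` on `(α1, α2)`. -/
theorem move_ge (hd : d.Ok) {ρ : ℝ → ℝ} (hρ : d.Feas ρ)
    (hmv : ∀ v ∈ Ioo (0 : ℝ) 1, SkMove (d.ef (d.r v)) (d.Df (d.z v)) (d.r v) (d.z v) (ρ v))
    {c α1 α2 : ℝ} (hα1 : 0 ≤ α1) (h12 : α1 ≤ α2) (hα2 : α2 ≤ 1)
    (hc : ∀ v ∈ Ioo α1 α2, c ≤ d.ef (d.r v) * (ρ v - d.r v) * (d.z v - d.r v)) :
    c * (α2 - α1) ≤ 4 * d.err := by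
  refine le_trans (skpc_int_ge (int_move hd hρ) (fun v hv => ?_) hα1 h12 hα2 hc) (hd.move ρ hρ hmv)
  have he := (hd.ef_pos _ (hd.feas.rng hd.Λ_mono (Ioo_subset_Icc_self hv)).1).le
  rcases hmv v hv with h | ⟨h1, h2, _⟩ | ⟨h1, h2, _⟩
  · rw [h]; simp
  · exact mul_nonneg (mul_nonneg he (by linarith)) (by linarith)
  · have : d.ef (d.r v) * (ρ v - d.r v) * (d.z v - d.r v) = d.ef (d.r v) * (d.r v - ρ v) * (d.r v - d.z v) := by ring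
    rw [this]
    exact mul_nonneg (mul_nonneg he (by linarith)) (by linarith)

/-- regularity of the forward class -/
structure Reg (d : SkSp) (ks ls : ℝ) : Prop where
  Ψ_mono : Monotone d.Ψ
  Ψ_cont : Continuous d.Ψ
  ks0 : 0 ≤ ks
  ls0 : 0 ≤ ls
  Ψ_lip : ∀ p q : ℝ, p ≤ q → d.Ψ q - d.Ψ p ≤ ks * (q - p)
  Λ_lip : ∀ u ∈ Icc (0 : ℝ) 1, ∀ v ∈ Icc (0 : ℝ) 1, u ≤ v → d.Λ v - d.Λ u ≤ ls * (v - u)

end SkSp

/-- full clipping from below -/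
theorem skbar_bar_up_full {Ψ Λ r : ℝ → ℝ} {ks ls u0 u1 u2 H : ℝ}
    (hΨ : Monotone Ψ) (hks : 0 ≤ ks) (hΨL : ∀ p q : ℝ, p ≤ q → Ψ q - Ψ p ≤ ks * (q - p))
    (h01 : u0 ≤ u1) (h12 : u1 < u2) (h21 : u2 ≤ 1)
    (hΛ : MonotoneOn Λ (Icc u0 1)) (hΛ0 : Λ u0 = r u0)
    (hΛl : ∀ u ∈ Icc u0 1, ∀ v ∈ Icc u0 1, u ≤ v → Λ v - Λ u ≤ ls * (v - u))
    (hr : SkBar Ψ Λ u0 r) (hr1 : r 1 = 1)
    (hH : 0 ≤ H) (hslope : ks * (ls + H / (u2 - u1)) ≤ 1) (htop : Λ 1 + H ≤ 1) :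
    ∃ rh : ℝ → ℝ, SkBar Ψ Λ u0 rh ∧ rh u0 = r u0 ∧ rh 1 = 1 ∧
      (∀ u ∈ Icc u0 1, r u ≤ rh u) ∧
      (∀ u ∈ Icc u0 1, rh u ≠ r u → u1 < u ∧ r u < rh u ∧ rh u ≤ Λ 1 + H) ∧
      (∀ u ∈ Icc u2 1, Λ u + H ≤ rh u) := by
  have h0mem : u0 ∈ Icc u0 1 := ⟨le_rfl, h01.trans (h12.le.trans h21)⟩
  have h1mem : (1 : ℝ) ∈ Icc u0 1 := ⟨h0mem.2, le_rfl⟩
  have hw : SkBar Ψ Λ u0 (skbarUp Λ H u1 u2) := skbar_up_mem h12 hH hks hΛ hΛl hΨL hslope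
  have hwρ : ∀ u ∈ Icc u0 1, skbarUp Λ H u1 u2 u ≤ Λ 1 + H := by
    intro u hu
    have h1 := skbar_up_le (Λ := Λ) (a := u1) (b := u2) hH u
    have h2 := hΛ hu h1mem hu.2
    linarith
  refine ⟨fun u => max (r u) (skbarUp Λ H u1 u2 u), skbar_max hΨ hr hw, ?_, ?_, ?_, ?_, ?_⟩
  · simp only
    rw [skbar_up_of_le h12 h01, hΛ0, max_self]
  · simp only
    rw [hr1]
    exact max_eq_left (le_trans (hwρ 1 h1mem) htop)
  · intro u _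
    exact le_max_left _ _
  · intro u hu hne
    simp only at hne ⊢
    have hlw : r u < skbarUp Λ H u1 u2 u := by
      by_contra hcon
      exact hne (max_eq_left (not_lt.1 hcon))
    refine ⟨?_, ?_, ?_⟩
    · by_contra hcon
      rw [skbar_up_of_le h12 (not_lt.1 hcon)] at hlw
      have := skbar_ge_line hr hu
      linarith
    · rw [max_eq_right hlw.le]; exact hlw
    · rw [max_eq_right hlw.le]
      exact hwρ u hu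
  · intro u hu
    simp only
    rw [skbar_up_of_ge h12 hu.1]
    exact le_max_right _ _

/-- **strict fraction, upward, full clipping** : `0 ≤ r ≤ rh ≤ θm < θ2 ≤ z`, `θm emax < (θ2 - θm) 𝒟(θ2)`. -/
theorem skbar_frac_up_full {Df : ℝ → ℝ} (hDanti : AntitoneOn Df (Ici 0))
    (hDmono : MonotoneOn (fun t => t * Df t) (Ici 0)) (hDpos : ∀ t, 0 ≤ t → 0 < Df t)
    {e emax r rh z θm θ2 : ℝ} (he : 0 < e) (hemax : e ≤ emax) (hr0 : 0 ≤ r) (h0 : r ≤ rh) (hrh : rh ≤ θm)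
    (hm : θm < θ2) (hz : θ2 ≤ z) (hfr : θm * emax < (θ2 - θm) * Df θ2) : SkMove e (Df z) r z rh := by
  right; left
  have hθm : 0 ≤ θm := hr0.trans (h0.trans hrh)
  have hθ2 : 0 < θ2 := by linarith
  have hz0 : 0 ≤ z := by linarith
  have hDz := hDpos z hz0
  refine ⟨h0, by linarith, ?_⟩
  have a1 : Df z ≤ Df θ2 := hDanti (mem_Ici.2 hθ2.le) (mem_Ici.2 hz0) hz
  have a2 : θ2 * Df θ2 ≤ z * Df z := hDmono (mem_Ici.2 hθ2.le) (mem_Ici.2 hz0) hz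
  have a3 : (θ2 - θm) * Df θ2 ≤ (z - θm) * Df z := by
    have b1 : θm * Df z ≤ θm * Df θ2 := mul_le_mul_of_nonneg_left a1 hθm
    nlinarith
  have a4 : (z - θm) * Df z ≤ (z - rh) * Df z := mul_le_mul_of_nonneg_right (by linarith) hDz.le
  have a5 : (rh - r) * e ≤ θm * emax := mul_le_mul (by linarith) hemax he.le hθm
  nlinarith

namespace SkSp

variable {d : SkSp}

/-- **`z` above `r`, full clipping** (LL l.947). -/
theorem sep_up_full (hd : d.Ok) {ks ls : ℝ} (hR : d.Reg ks ls) {α0 α1 α2 θ1 θ2 H : ℝ}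
    (hα0 : 0 ≤ α0) (h01 : α0 < α1) (h12 : α1 ≤ α2) (hα2 : α2 ≤ 1)
    (hr : d.r α2 ≤ θ1) (hz : θ2 ≤ d.z α0) (hH : θ1 ≤ H) (hm : d.Λ 1 + H < θ2)
    (hslope : ks * (ls + H / (α1 - α0)) ≤ 1)
    (hfr : (d.Λ 1 + H) * d.ef (d.r α0) < (θ2 - (d.Λ 1 + H)) * d.Df θ2) :
    d.ef θ1 * (H - θ1) * (θ2 - θ1) * (α2 - α1) ≤ 4 * d.err := by
  have m0 : (0 : ℝ) ∈ Icc (0 : ℝ) 1 := ⟨le_rfl, zero_le_one⟩
  have m1 : (1 : ℝ) ∈ Icc (0 : ℝ) 1 := ⟨zero_le_one, le_rfl⟩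
  have mα0 : α0 ∈ Icc (0 : ℝ) 1 := ⟨hα0, by linarith⟩
  have mα2 : α2 ∈ Icc (0 : ℝ) 1 := ⟨by linarith, hα2⟩
  have hf := hd.feas
  have hrm := hf.mono hd.Λ_mono
  have hθ1 : 0 ≤ θ1 := (hf.rng hd.Λ_mono mα2).1.trans hr
  have hH0 : 0 ≤ H := hθ1.trans hH
  have hΛ1 : 0 ≤ d.Λ 1 := by rw [← hd.Λ0]; exact hd.Λ_mono m0 m1 zero_le_one
  have htop : d.Λ 1 + H ≤ 1 := by have := (hd.z_rng α0 mα0).2; linarith
  obtain ⟨ρ, hρ, hρ0, hρ1, hge, hne, hval⟩ := skbar_bar_up_full hR.Ψ_mono hR.ks0 hR.Ψ_lip hα0 h01 (h12.trans hα2)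
    hd.Λ_mono (by rw [hd.Λ0, hf.2.1]) hR.Λ_lip hf.1 hf.2.2 hH0 hslope htop
  have hρf : d.Feas ρ := ⟨hρ, by rw [hρ0, hf.2.1], hρ1⟩
  refine move_ge hd hρf (fun v hv => ?_) (by linarith) h12 hα2 (fun v hv => ?_)
  · have hv' : v ∈ Icc (0 : ℝ) 1 := Ioo_subset_Icc_self hv
    by_cases hc : ρ v = d.r v
    · exact Or.inl hc
    · obtain ⟨c1, c2, c3⟩ := hne v hv' hc
      have r0 := (hf.rng hd.Λ_mono hv').1
      exact skbar_frac_up_full hd.Df_anti hd.Df_mono hd.Df_pos (hd.ef_pos _ r0)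
        (hd.ef_anti (mem_Ici.2 (hf.rng hd.Λ_mono mα0).1) (mem_Ici.2 r0) (hrm mα0 hv' c1.le)) r0 c2.le c3 hm
        (hz.trans (hd.z_mono mα0 hv' c1.le)) hfr
  · have hv' : v ∈ Icc (0 : ℝ) 1 := ⟨by linarith [hv.1], by linarith [hv.2]⟩
    have r0 := (hf.rng hd.Λ_mono hv').1
    have r1 : d.r v ≤ θ1 := (hrm hv' mα2 hv.2.le).trans hr
    have z1 : θ2 ≤ d.z v := hz.trans (hd.z_mono mα0 hv' (by linarith [hv.1]))
    have Λ0 : 0 ≤ d.Λ v := by rw [← hd.Λ0]; exact hd.Λ_mono m0 hv' hv'.1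
    have ρ1 : H ≤ ρ v := by have := hval v ⟨hv.1.le, hv'.2⟩; linarith
    have e1 : d.ef θ1 ≤ d.ef (d.r v) := hd.ef_anti (mem_Ici.2 r0) (mem_Ici.2 hθ1) r1
    have e0 := (hd.ef_pos θ1 hθ1).le
    exact mul_le_mul (mul_le_mul e1 (by linarith) (by linarith) (e0.trans e1)) (by linarith) (by linarith)
      (mul_nonneg (e0.trans e1) (by linarith))

/-- **`z` above `r`, capped clipping** (PE Lemma 6.4, LL l.951-957). -/
theorem sep_up (hd : d.Ok) {ks ls : ℝ} (hR : d.Reg ks ls) {α0 α1 α2 θ1 θ2 H τ : ℝ}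
    (hα0 : 0 ≤ α0) (h01 : α0 < α1) (h12 : α1 ≤ α2) (hα2 : α2 ≤ 1)
    (hr : d.r α2 ≤ θ1) (hz : θ2 ≤ d.z α0) (hτ : 0 ≤ τ) (hH : θ1 + τ ≤ H) (hm : d.Λ 1 + H < θ2)
    (hslope : ks * (ls + H / (α1 - α0)) ≤ 1)
    (hconc : ∀ p q : ℝ, 0 ≤ p → p ≤ q → q + τ ≤ d.Λ 1 + H → d.Ψ (q + τ) - d.Ψ (p + τ) ≤ d.Ψ q - d.Ψ p)
    (hfr : τ * (d.Df θ2 + d.ef (d.r α0)) < (θ2 - (d.Λ 1 + H)) * d.Df θ2) :
    d.ef θ1 * τ * (θ2 - θ1) * (α2 - α1) ≤ 4 * d.err := by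
  have m0 : (0 : ℝ) ∈ Icc (0 : ℝ) 1 := ⟨le_rfl, zero_le_one⟩
  have m1 : (1 : ℝ) ∈ Icc (0 : ℝ) 1 := ⟨zero_le_one, le_rfl⟩
  have mα0 : α0 ∈ Icc (0 : ℝ) 1 := ⟨hα0, by linarith⟩
  have mα2 : α2 ∈ Icc (0 : ℝ) 1 := ⟨by linarith, hα2⟩
  have hf := hd.feas
  have hrm := hf.mono hd.Λ_mono
  have hθ1 : 0 ≤ θ1 := (hf.rng hd.Λ_mono mα2).1.trans hr
  have hH0 : 0 ≤ H := by linarith
  have hΛ1 : 0 ≤ d.Λ 1 := by rw [← hd.Λ0]; exact hd.Λ_mono m0 m1 zero_le_one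
  have htop : d.Λ 1 + H ≤ 1 := by have := (hd.z_rng α0 mα0).2; linarith
  obtain ⟨ρ, hρ, hρ0, hρ1, hge, hne, hval⟩ := skbar_bar_up hR.Ψ_mono hR.ks0 hR.Ψ_lip hconc hα0 h01 (h12.trans hα2)
    hd.Λ_mono (by rw [hd.Λ0, hf.2.1]) hR.Λ_lip hf.1 (by rw [hf.2.1]) hf.2.2 hH0 hτ hslope htop
  have hρf : d.Feas ρ := ⟨hρ, by rw [hρ0, hf.2.1], hρ1⟩
  refine move_ge hd hρf (fun v hv => ?_) (by linarith) h12 hα2 (fun v hv => ?_)
  · have hv' : v ∈ Icc (0 : ℝ) 1 := Ioo_subset_Icc_self hv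
    by_cases hc : ρ v = d.r v
    · exact Or.inl hc
    · obtain ⟨c1, c2, c3⟩ := hne v hv' hc
      have r0 := (hf.rng hd.Λ_mono hv').1
      exact skbar_frac_up hd.Df_anti hd.Df_mono hd.Df_pos (hd.ef_pos _ r0)
        (hd.ef_anti (mem_Ici.2 (hf.rng hd.Λ_mono mα0).1) (mem_Ici.2 r0) (hrm mα0 hv' c1.le)) (by linarith) hm
        (by linarith) (hz.trans (hd.z_mono mα0 hv' c1.le)) c2.le (by have := (hge v hv').2; linarith) hfr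
  · have hv' : v ∈ Icc (0 : ℝ) 1 := ⟨by linarith [hv.1], by linarith [hv.2]⟩
    have r0 := (hf.rng hd.Λ_mono hv').1
    have r1 : d.r v ≤ θ1 := (hrm hv' mα2 hv.2.le).trans hr
    have z1 : θ2 ≤ d.z v := hz.trans (hd.z_mono mα0 hv' (by linarith [hv.1]))
    have Λ0 : 0 ≤ d.Λ v := by rw [← hd.Λ0]; exact hd.Λ_mono m0 hv' hv'.1
    have ρ1 : ρ v = d.r v + τ := hval v ⟨hv.1.le, hv'.2⟩ (by linarith)
    have e1 : d.ef θ1 ≤ d.ef (d.r v) := hd.ef_anti (mem_Ici.2 r0) (mem_Ici.2 hθ1) r1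
    have e0 := (hd.ef_pos θ1 hθ1).le
    rw [ρ1]
    exact mul_le_mul (mul_le_mul e1 (by linarith) hτ (e0.trans e1)) (by linarith) (by linarith)
      (mul_nonneg (e0.trans e1) (by linarith))

/-- **`z` below `r`, full clipping** (LL l.947). -/
theorem sep_dn_full (hd : d.Ok) {ks ls : ℝ} (hR : d.Reg ks ls) {α0 a α2 θ1 θ2 H R : ℝ}
    (hα0 : 0 ≤ α0) (h0a : α0 ≤ a) (ha1 : a < 1) (hramp : a + (d.Ψ 1 - d.Ψ (H + d.Λ a)) ≤ α2) (hα2 : α2 ≤ 1)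
    (hz : d.z α2 ≤ θ1) (hr : θ2 ≤ d.r α0) (hθH : θ1 < H) (hHθ : H + d.Λ 1 ≤ θ2) (hs : ks * ls ≤ 1)
    (hrR : d.r α2 ≤ R) (hfr : (R - H) * d.ef H < (H - θ1) * d.Df θ1) :
    d.ef R * (θ2 - H - d.Λ 1) * (θ2 - θ1) * (a - α0) ≤ 4 * d.err := by
  have m0 : (0 : ℝ) ∈ Icc (0 : ℝ) 1 := ⟨le_rfl, zero_le_one⟩
  have m1 : (1 : ℝ) ∈ Icc (0 : ℝ) 1 := ⟨zero_le_one, le_rfl⟩
  have ma : a ∈ Icc (0 : ℝ) 1 := ⟨hα0.trans h0a, ha1.le⟩
  have mα0 : α0 ∈ Icc (0 : ℝ) 1 := ⟨hα0, h0a.trans ha1.le⟩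
  have hf := hd.feas
  have hrm := hf.mono hd.Λ_mono
  have hΛ1 : 0 ≤ d.Λ 1 := by rw [← hd.Λ0]; exact hd.Λ_mono m0 m1 zero_le_one
  have htop : H + d.Λ 1 ≤ 1 := by have := (hf.rng hd.Λ_mono mα0).2; linarith
  have hq : H + d.Λ a ≤ 1 := by have := hd.Λ_mono ma m1 ma.2; linarith
  have hΨ1 : 0 ≤ d.Ψ 1 - d.Ψ (H + d.Λ a) := by have := hR.Ψ_mono hq; linarith
  have haα2 : a ≤ α2 := by linarith
  have mα2 : α2 ∈ Icc (0 : ℝ) 1 := ⟨ma.1.trans haα2, hα2⟩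
  have hθ1 : 0 ≤ θ1 := (hd.z_rng α2 mα2).1.trans hz
  have hH0 : 0 ≤ H := by linarith
  have hR0 : 0 ≤ R := (hf.rng hd.Λ_mono mα2).1.trans hrR
  obtain ⟨ρ, hρ, hρ0, hρ1, hle, hne, hval⟩ := skbar_bar_dn_full hR.Ψ_mono hR.Ψ_cont hR.ks0 hR.ls0 hR.Ψ_lip hs ma ha1
    (hramp.trans hα2) hd.Λ_mono hR.Λ_lip hf.1 hf.2.2 (by rw [hf.2.1, hd.Λ0]; linarith) htop
  have hρf : d.Feas ρ := ⟨hρ, by rw [hρ0, hf.2.1], hρ1⟩
  refine move_ge hd hρf (fun v hv => ?_) hα0 h0a ha1.le (fun v hv => ?_)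
  · have hv' : v ∈ Icc (0 : ℝ) 1 := Ioo_subset_Icc_self hv
    by_cases hc : ρ v = d.r v
    · exact Or.inl hc
    · obtain ⟨c1, c2⟩ := hne v hv' hc
      have r0 := (hf.rng hd.Λ_mono hv').1
      have Λ0 : 0 ≤ d.Λ v := by rw [← hd.Λ0]; exact hd.Λ_mono m0 hv' hv'.1
      have c3 : H ≤ ρ v := by linarith
      have c4 := hle v hv'
      have c5 : d.r v ≤ R := (hrm hv' mα2 (c1.trans hramp)).trans hrR
      have c6 : d.ef (d.r v) ≤ d.ef H := hd.ef_anti (mem_Ici.2 hH0) (mem_Ici.2 r0) (c3.trans c4)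
      have he := hd.ef_pos _ r0
      have hD1 := hd.Df_pos θ1 hθ1
      refine skbar_frac_dn hd.Df_anti hd.Df_pos he (hd.z_rng v hv').1
        ((hd.z_mono hv' mα2 (c1.trans hramp)).trans hz) hθH c3 c4 ?_
      have b1 : (d.r v - ρ v) * d.ef (d.r v) ≤ (R - H) * d.ef H :=
        mul_le_mul (by linarith) c6 he.le (by linarith)
      have b2 : (d.r v - ρ v) * d.Df θ1 ≤ (d.r v - H) * d.Df θ1 := mul_le_mul_of_nonneg_right (by linarith) hD1.le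
      nlinarith
  · have hv' : v ∈ Icc (0 : ℝ) 1 := ⟨by linarith [hv.1], by linarith [hv.2]⟩
    have r0 := (hf.rng hd.Λ_mono hv').1
    have r1 : θ2 ≤ d.r v := hr.trans (hrm mα0 hv' hv.1.le)
    have r2 : d.r v ≤ R := (hrm hv' mα2 (hv.2.le.trans haα2)).trans hrR
    have z1 : d.z v ≤ θ1 := (hd.z_mono hv' mα2 (hv.2.le.trans haα2)).trans hz
    have Λ1 : d.Λ v ≤ d.Λ 1 := hd.Λ_mono hv' m1 hv'.2
    have ρ1 : ρ v = H + d.Λ v := by rw [hval v ⟨hv'.1, hv.2.le⟩]; exact min_eq_right (by linarith)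
    have e1 : d.ef R ≤ d.ef (d.r v) := hd.ef_anti (mem_Ici.2 r0) (mem_Ici.2 hR0) r2
    have e0 := (hd.ef_pos R hR0).le
    have : d.ef (d.r v) * (ρ v - d.r v) * (d.z v - d.r v) = d.ef (d.r v) * (d.r v - ρ v) * (d.r v - d.z v) := by ring
    rw [this, ρ1]
    exact mul_le_mul (mul_le_mul e1 (by linarith) (by linarith) (e0.trans e1)) (by linarith) (by linarith)
      (mul_nonneg (e0.trans e1) (by linarith))

/-- **`z` below `r`, harmonic partial move** (PE Lemma 6.4, LL l.951-957). -/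
theorem sep_dn (hd : d.Ok) {ks ls : ℝ} (hR : d.Reg ks ls) {α0 a α2 θ1 θ2 H R B0 t : ℝ}
    (hα0 : 0 ≤ α0) (h0a : α0 ≤ a) (ha1 : a < 1) (hramp : a + (d.Ψ 1 - d.Ψ (H + d.Λ a)) ≤ α2) (hα2 : α2 ≤ 1)
    (hz : d.z α2 ≤ θ1) (hr : θ2 ≤ d.r α0) (hθH : θ1 < H) (hHθ : H + d.Λ 1 ≤ θ2) (hs : ks * ls ≤ 1)
    (hrR : d.r α2 ≤ R) (hB : 0 < B0) (ht0 : 0 ≤ t) (ht1 : t ≤ 1)
    (haff : ∀ x y : ℝ, H ≤ y → y ≤ x → x ≤ R → d.Ψ (skbarHm B0 t x y) = (1 - t) * d.Ψ x + t * d.Ψ y)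
    (hfr : t * ((R + B0) / (H + B0)) * (d.ef H + d.Df θ1) < d.Df θ1) :
    d.ef R * (t * (θ2 - H - d.Λ 1)) * (θ2 - θ1) * (a - α0) ≤ 4 * d.err := by
  have m0 : (0 : ℝ) ∈ Icc (0 : ℝ) 1 := ⟨le_rfl, zero_le_one⟩
  have m1 : (1 : ℝ) ∈ Icc (0 : ℝ) 1 := ⟨zero_le_one, le_rfl⟩
  have ma : a ∈ Icc (0 : ℝ) 1 := ⟨hα0.trans h0a, ha1.le⟩
  have mα0 : α0 ∈ Icc (0 : ℝ) 1 := ⟨hα0, h0a.trans ha1.le⟩
  have hf := hd.feas
  have hrm := hf.mono hd.Λ_mono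
  have hΛ1 : 0 ≤ d.Λ 1 := by rw [← hd.Λ0]; exact hd.Λ_mono m0 m1 zero_le_one
  have htop : H + d.Λ 1 ≤ 1 := by have := (hf.rng hd.Λ_mono mα0).2; linarith
  have hq : H + d.Λ a ≤ 1 := by have := hd.Λ_mono ma m1 ma.2; linarith
  have hΨ1 : 0 ≤ d.Ψ 1 - d.Ψ (H + d.Λ a) := by have := hR.Ψ_mono hq; linarith
  have haα2 : a ≤ α2 := by linarith
  have mα2 : α2 ∈ Icc (0 : ℝ) 1 := ⟨ma.1.trans haα2, hα2⟩
  have mub : a + (d.Ψ 1 - d.Ψ (H + d.Λ a)) ∈ Icc (0 : ℝ) 1 := ⟨by linarith [ma.1], hramp.trans hα2⟩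
  have hθ1 : 0 ≤ θ1 := (hd.z_rng α2 mα2).1.trans hz
  have hH0 : 0 ≤ H := by linarith
  have hR0 : 0 ≤ R := (hf.rng hd.Λ_mono mα2).1.trans hrR
  obtain ⟨ρ, hρ, hρ0, hρ1, hle, hne, hval⟩ := skbar_bar_dn (B0 := B0) (t := t) hR.Ψ_mono hR.Ψ_cont hR.ks0 hR.ls0 hR.Ψ_lip hs
    ma ha1 (hramp.trans hα2) hd.Λ_mono hR.Λ_lip hf.1 (by rw [hf.2.1]) hf.2.2 (by rw [hf.2.1, hd.Λ0]; linarith) htop
    hB ht0 ht1 (fun x y h1 h2 h3 => haff x y (by rw [hd.Λ0] at h1; linarith) h2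
      (h3.trans ((hrm mub mα2 hramp).trans hrR)))
  have hρf : d.Feas ρ := ⟨hρ, by rw [hρ0, hf.2.1], hρ1⟩
  refine move_ge hd hρf (fun v hv => ?_) hα0 h0a ha1.le (fun v hv => ?_)
  · have hv' : v ∈ Icc (0 : ℝ) 1 := Ioo_subset_Icc_self hv
    by_cases hc : ρ v = d.r v
    · exact Or.inl hc
    · obtain ⟨c1, c2, c7⟩ := hne v hv' hc
      have r0 := (hf.rng hd.Λ_mono hv').1
      have Λ0 : 0 ≤ d.Λ v := by rw [← hd.Λ0]; exact hd.Λ_mono m0 hv' hv'.1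
      have c3 : H ≤ ρ v := by linarith
      have c4 := hle v hv'
      have c5 : d.r v ≤ R := (hrm hv' mα2 (c1.trans hramp)).trans hrR
      have c6 : d.ef (d.r v) ≤ d.ef H := hd.ef_anti (mem_Ici.2 hH0) (mem_Ici.2 r0) (c3.trans c4)
      have he := hd.ef_pos _ r0
      have hD1 := hd.Df_pos θ1 hθ1
      refine skbar_frac_dn hd.Df_anti hd.Df_pos he (hd.z_rng v hv').1
        ((hd.z_mono hv' mα2 (c1.trans hramp)).trans hz) hθH c3 c4 ?_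
      have hrθ : 0 < d.r v - θ1 := by linarith
      have q1 : (d.r v + B0) / (H + d.Λ v + B0) ≤ (R + B0) / (H + B0) :=
        div_le_div₀ (by linarith) (by linarith) (by linarith) (by linarith)
      have q0 : 0 ≤ (d.r v + B0) / (H + d.Λ v + B0) := div_nonneg (by linarith) (by linarith)
      have b1 : d.r v - ρ v ≤ (d.r v - θ1) * (t * ((R + B0) / (H + B0))) := by
        refine c7.trans ?_
        have : t * (d.r v - (H + d.Λ v)) * ((d.r v + B0) / (H + d.Λ v + B0))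
            ≤ t * (d.r v - θ1) * ((R + B0) / (H + B0)) :=
          mul_le_mul (mul_le_mul_of_nonneg_left (by linarith) ht0) q1 q0 (mul_nonneg ht0 hrθ.le)
        linarith
      have b2 : (d.r v - ρ v) * (d.ef (d.r v) + d.Df θ1)
          ≤ (d.r v - θ1) * (t * ((R + B0) / (H + B0))) * (d.ef H + d.Df θ1) :=
        mul_le_mul b1 (by linarith) (by linarith) (le_trans (by linarith) b1)
      have b3 : (d.r v - θ1) * (t * ((R + B0) / (H + B0)) * (d.ef H + d.Df θ1)) < (d.r v - θ1) * d.Df θ1 :=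
        mul_lt_mul_of_pos_left hfr hrθ
      linarith
  · have hv' : v ∈ Icc (0 : ℝ) 1 := ⟨by linarith [hv.1], by linarith [hv.2]⟩
    have r0 := (hf.rng hd.Λ_mono hv').1
    have r1 : θ2 ≤ d.r v := hr.trans (hrm mα0 hv' hv.1.le)
    have r2 : d.r v ≤ R := (hrm hv' mα2 (hv.2.le.trans haα2)).trans hrR
    have z1 : d.z v ≤ θ1 := (hd.z_mono hv' mα2 (hv.2.le.trans haα2)).trans hz
    have Λ1 : d.Λ v ≤ d.Λ 1 := hd.Λ_mono hv' m1 hv'.2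
    have ρ1 : t * (d.r v - (H + d.Λ v)) ≤ d.r v - ρ v := hval v ⟨hv'.1, hv.2.le⟩
    have ρ2 : t * (θ2 - H - d.Λ 1) ≤ d.r v - ρ v :=
      le_trans (mul_le_mul_of_nonneg_left (by linarith) ht0) ρ1
    have e1 : d.ef R ≤ d.ef (d.r v) := hd.ef_anti (mem_Ici.2 r0) (mem_Ici.2 hR0) r2
    have e0 := (hd.ef_pos R hR0).le
    have : d.ef (d.r v) * (ρ v - d.r v) * (d.z v - d.r v) = d.ef (d.r v) * (d.r v - ρ v) * (d.r v - d.z v) := by ring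
    rw [this]
    have t0 : 0 ≤ t * (θ2 - H - d.Λ 1) := mul_nonneg ht0 (by linarith)
    exact mul_le_mul (mul_le_mul e1 ρ2 t0 (e0.trans e1)) (by linarith) (by linarith)
      (mul_nonneg (e0.trans e1) (t0.trans ρ2))

end SkSp

end Claimed.Agent.R286
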