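import Claimed.Agent.R286.Bud.L07R

/-!
# Row 286, LL sec. 7, package L07, STEP 2 (l.990-1105), second file: the hypotheses of RIG along a sequence of strong instances      (head helper12; prefix `bd7_sq_`)

`Bd7Seq` = a sequence of strong instances with potentials, sizes tending to infinity along an ultrafilter.      `D n = (i n).rg W Sc (H n)`.
Each field of `RgHyp` (`Rig/Defs.lean`) is ONE leaf `bd7_sq_<field>`; `bd7_rig_inst` (T3) assembles them; `bd7_strong` (T4 = Step 2 of the proof of (C7)) is proved from T3 and `rg_main`.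
Dictionary: `ρ = w t`, `v = α(ρ) = (i n).mas t`;  `D.rho t = (S_v - Γ(K_s(v)))/w³ = (i n).clo W v / w³` (`bd7_rg_rho`);  `D.band c C = w⁻¹ • bandR c C`;  `D.mset c C Q = (w * ·)⁻¹' {v ∈ bandM c C | Q (r v / w)}`.
-/

set_option autoImplicit false

namespace Claimed.Agent.R286

open MeasureTheory Set Filter Topology

noncomputable section

/-- a sequence of strong instances -/
structure Bd7Seq (X : BdFix) (W : BdWorld) (Fam : BdFr → Prop) (Sc : Bd7Sc) (k : Bd7ScC) (Kb cL CL cs : ℝ)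
    (𝒰 : Ultrafilter ℕ) (i : ℕ → Bd7I X) (H : ℕ → ℝ → ℝ) : Prop where
  inp : Bd7SIn X W Fam Sc k Kb cL CL
  cs_pos : 0 < cs
  str : ∀ n, (i n).Str W Fam cL CL cs
  pot : ∀ n, (i n).Pot W (H n)
  N_lim : Tendsto (fun n => (i n).F.N) (𝒰 : Filter ℕ) atTop

section leaves

variable {X : BdFix} {W : BdWorld} {Fam : BdFr → Prop} {Sc : Bd7Sc} {k : Bd7ScC} {Kb cL CL cs : ℝ}
  {𝒰 : Ultrafilter ℕ} {i : ℕ → Bd7I X} {H : ℕ → ℝ → ℝ}

/-- "for all large sizes" along the sequence -/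
theorem Bd7Seq.ev (S : Bd7Seq X W Fam Sc k Kb cL CL cs 𝒰 i H) (N0 : ℕ) :
    ∀ᶠ n in (𝒰 : Filter ℕ), N0 ≤ (i n).F.N := S.N_lim.eventually_ge_atTop N0

theorem Bd7Seq.w_pos (S : Bd7Seq X W Fam Sc k Kb cL CL cs 𝒰 i H) (n : ℕ) : 0 < (i n).w :=
  lt_of_lt_of_le (BdFr.wc_pos' S.inp.hX (S.str n).ok) (S.str n).w_lo

/-- eventually the instances have a `Ctx` -/
theorem Bd7Seq.ctx (S : Bd7Seq X W Fam Sc k Kb cL CL cs 𝒰 i H) :
    ∀ᶠ n in (𝒰 : Filter ℕ), (i n).Ctx W Sc k cL CL := by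
  obtain ⟨N0, h⟩ := bd7_ctx S.inp S.cs_pos
  filter_upwards [S.ev N0] with n hn
  exact h (i n) (S.str n) hn

theorem bd7_sq_T_lim (S : Bd7Seq X W Fam Sc k Kb cL CL cs 𝒰 i H) :
    Tendsto (fun n => (i n).F.Tm) (𝒰 : Filter ℕ) (𝓝 X.T) := by
  rw [Metric.tendsto_nhds]
  intro ε hε
  obtain ⟨N0, hp9⟩ := S.inp.p9 1 (ε / 2) one_pos (by linarith)
  filter_upwards [S.ev N0] with n hn
  have := (hp9 (i n).F (S.str n).fam (S.str n).ok hn).1
  rw [Real.dist_eq]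
  linarith

/-- `w/u → 0` -/
theorem bd7_sq_wu (S : Bd7Seq X W Fam Sc k Kb cL CL cs 𝒰 i H) {ε : ℝ} (hε : 0 < ε) :
    ∀ᶠ n in (𝒰 : Filter ℕ), (i n).w ≤ ε * (i n).F.u := by
  obtain ⟨N0, h⟩ := bd7_ar_w_small S.inp.hX S.cs_pos hε
  filter_upwards [S.ev N0] with n hn
  exact h (i n).F (S.str n).ok hn _ (S.w_pos n) (S.str n).strong

theorem bd7_sq_x_lim (S : Bd7Seq X W Fam Sc k Kb cL CL cs 𝒰 i H) :
    Tendsto (fun n => (i n).w) (𝒰 : Filter ℕ) (𝓝 0) := by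
  rw [Metric.tendsto_nhds]
  intro ε hε
  filter_upwards [bd7_sq_wu S (ε := ε / 2) (by linarith)] with n hn
  have hu := bd7_ar_u_le_one S.inp.hX (S.str n).ok
  have hw := S.w_pos n
  rw [Real.dist_eq, sub_zero, abs_of_pos hw]
  nlinarith

theorem bd7_sq_R_lim (S : Bd7Seq X W Fam Sc k Kb cL CL cs 𝒰 i H) :
    Tendsto (fun n => 1 / (2 * (i n).w)) (𝒰 : Filter ℕ) atTop := by
  have h0 : Tendsto (fun n => 2 * (i n).w) (𝒰 : Filter ℕ) (𝓝[>] 0) := by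
    rw [tendsto_nhdsWithin_iff]
    refine ⟨by simpa using (bd7_sq_x_lim S).const_mul 2, Eventually.of_forall fun n => ?_⟩
    have := S.w_pos n
    simp only [mem_Ioi]; positivity
  refine h0.inv_tendsto_nhdsGT_zero.congr fun n => ?_
  simp [one_div]

/-- `1/(M_j w) ≤ x^99 → 0`   (`bd7_ar_Mj_ge`, `bd7_ar_x_le_wc`, `bd7_ar_x_small`) -/
theorem bd7_sq_ell_lim (S : Bd7Seq X W Fam Sc k Kb cL CL cs 𝒰 i H) :
    Tendsto (fun n => 1 / ((i n).F.Mj * (i n).w)) (𝒰 : Filter ℕ) (𝓝 0) := by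
  rw [Metric.tendsto_nhds]
  intro ε hε
  obtain ⟨N0, h⟩ := bd7_ar_x_small X (a := 99) (ε := ε / 2) (by norm_num) (by linarith)
  filter_upwards [S.ev N0] with n hn
  have hok := (S.str n).ok
  have hx := BdFr.x_pos' hok
  have h1 := bd7_ar_Mj_ge hok
  have h2 := (bd7_ar_x_le_wc S.inp.hX hok).trans (S.str n).w_lo
  have h3 := h (i n).F hok hn
  have hw := S.w_pos n
  have hp : 0 < (i n).F.x ^ (-(100 : ℝ)) := Real.rpow_pos_of_pos hx _
  have hM : 0 < (i n).F.Mj := lt_of_lt_of_le hp h1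
  have h4 : (i n).F.x ^ (-(100 : ℝ)) * (i n).F.x ≤ (i n).F.Mj * (i n).w :=
    mul_le_mul h1 h2 hx.le hM.le
  have h5 : (i n).F.x ^ (-(100 : ℝ)) * (i n).F.x = (i n).F.x ^ (-(99 : ℝ)) := by
    nth_rewrite 2 [← Real.rpow_one (i n).F.x]
    rw [← Real.rpow_add hx]
    norm_num
  rw [h5] at h4
  have h6 : 0 < (i n).F.x ^ (-(99 : ℝ)) := Real.rpow_pos_of_pos hx _
  have h7 : 1 / ((i n).F.Mj * (i n).w) ≤ 1 / (i n).F.x ^ (-(99 : ℝ)) := one_div_le_one_div_of_le h6 h4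
  have h8 : 1 / (i n).F.x ^ (-(99 : ℝ)) = (i n).F.x ^ (99 : ℝ) := by
    rw [Real.rpow_neg hx.le, one_div, inv_inv]
  rw [Real.dist_eq, sub_zero, abs_of_pos (by positivity)]
  rw [h8] at h7
  linarith

/-- the structural facts, eventually   (`bd7_rg_ok`) -/
theorem bd7_sq_ok (S : Bd7Seq X W Fam Sc k Kb cL CL cs 𝒰 i H) :
    ∀ᶠ n in (𝒰 : Filter ℕ), ((i n).rg W Sc (H n)).Ok (1 / CL) (1 / cL) (2 * CL + 1) 1 := by
  filter_upwards [S.ctx] with n hn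
  exact hn.rg_ok (S.pot n)

/-- a point of a rescaled band -/
theorem bd7_band_pt {i : Bd7I X} (c : i.Ctx W Sc k cL CL) (H : ℝ → ℝ) {cc C t : ℝ} (hcc : 0 < cc)
    (ht : t ∈ (i.rg W Sc H).band cc C) :
    0 < t ∧ i.mas t ∈ Ioo (0 : ℝ) 1 ∧ cc * i.w ≤ i.mas t ∧ i.mas t ≤ C * i.w ∧ i.mas t ∈ i.bandM cc C := by
  obtain ⟨h0, hC, ha, hb⟩ := ht
  have hw := c.w_pos
  have ea : (i.rg W Sc H).a t = i.mas t / i.w := rfl
  rw [ea] at ha hb
  rw [le_div_iff₀ hw] at ha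
  rw [div_le_iff₀ hw] at hb
  have htpos : 0 < t := by
    rcases h0.lt_or_eq with h | h
    · exact h
    · exfalso
      have : i.mas t = 0 := by
        unfold Bd7I.mas
        rw [Bd7I.rad_nonpos hw (by linarith), i.Q.al_zero]
      rw [this] at ha
      have : 0 < cc * i.w := by positivity
      linarith
  refine ⟨htpos, c.mas_mem htpos, ha, hb, ha, hb, ?_⟩
  rw [c.r_mas]
  have h1 : i.rad t ≤ i.w * t := max_le (by positivity) (min_le_left _ _)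
  have h2 : i.w * t ≤ i.w * C := mul_le_mul_of_nonneg_left hC hw.le
  linarith

/-- R2 -/
theorem bd7_sq_raw (S : Bd7Seq X W Fam Sc k Kb cL CL cs 𝒰 i H) (c C : ℝ) (hc : 0 < c) :
    ∃ C' : ℝ, ∀ᶠ n in (𝒰 : Filter ℕ), ∀ t ∈ ((i n).rg W Sc (H n)).band c C,
      ((i n).rg W Sc (H n)).s t ≤ C' ∧ ((i n).rg W Sc (H n)).dl t ≤ C' := by
  obtain ⟨C', N0, hraw⟩ := S.inp.raw cs S.cs_pos
  refine ⟨|C'| * (C + 1), ?_⟩
  filter_upwards [S.ctx, S.ev N0] with n hctx hN t ht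
  obtain ⟨htpos, hv, hlo, hhi, -⟩ := bd7_band_pt hctx (H n) hc ht
  have hw := hctx.w_pos
  obtain ⟨r1, r2⟩ := hraw (i n) (S.str n) hN _ hv
  have hb : C' * ((i n).mas t + (i n).w) ≤ |C'| * (C + 1) * (i n).w := by
    have h1 : C' * ((i n).mas t + (i n).w) ≤ |C'| * ((i n).mas t + (i n).w) :=
      mul_le_mul_of_nonneg_right (le_abs_self _) (by linarith [hv.1])
    have h2 : |C'| * ((i n).mas t + (i n).w) ≤ |C'| * (C * (i n).w + (i n).w) :=
      mul_le_mul_of_nonneg_left (by linarith) (abs_nonneg _)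
    calc _ ≤ _ := h1
      _ ≤ _ := h2
      _ = |C'| * (C + 1) * (i n).w := by ring
  have es : ((i n).rg W Sc (H n)).s t = (i n).Q.Sq W (i n).g ((i n).mas t) / (i n).w := by
    simp only [Bd7I.rg]; rw [if_neg (by linarith)]
  have ed : ((i n).rg W Sc (H n)).dl t = (i n).Q.Dq W (i n).g ((i n).mas t) / (i n).w := by
    simp only [Bd7I.rg]; rw [if_neg (by linarith)]
  rw [es, ed, div_le_iff₀ hw, div_le_iff₀ hw]
  exact ⟨r1.trans hb, r2.trans hb⟩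

/-- the closure identity: `rho = (S_v - Γ(K_s(v)))/w³` -/
theorem bd7_rg_rho {i : Bd7I X} (c : i.Ctx W Sc k cL CL) (H : ℝ → ℝ) {t : ℝ} (ht : 0 < t)
    (h1 : t ≤ 1 / (2 * i.w)) : (i.rg W Sc H).rho t = i.clo W (i.mas t) / i.w ^ 3 := by
  have hw := c.w_pos
  have hT := c.Tm_pos
  have hrad := Bd7I.rad_eq hw ht.le h1
  have hr := c.r_mas t
  rw [hrad] at hr
  have hK : i.Kh W (i.mas t) = i.F.h i.g (i.mas t) + i.F.C X (i.w * t) * (i.w * t)
      + (i.F.b i.g (i.mas t) - i.F.C X (i.w * t)) * i.Q.Sq W i.g (i.mas t) := by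
    unfold Bd7I.Kh BdQ.Ks BdQ.hq BdQ.bq
    rw [hr]
  have hk : (i.rg W Sc H).k t = i.Kh W (i.mas t) / (i.F.Tm * i.w) := by
    simp only [Bd7I.rg]; rw [if_neg (by linarith)]
  have hg : (i.rg W Sc H).g ((i.rg W Sc H).k t)
      = (W.Gam (i.Kh W) (i.Kh W (i.mas t)) - i.Kh W (i.mas t) / i.F.Tm) / i.w ^ 3 := by
    rw [hk]
    simp only [Bd7I.rg]
    have e1 : i.F.Tm * i.w * (i.Kh W (i.mas t) / (i.F.Tm * i.w)) = i.Kh W (i.mas t) := by field_simp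
    have e2 : i.w * (i.Kh W (i.mas t) / (i.F.Tm * i.w)) = i.Kh W (i.mas t) / i.F.Tm := by field_simp
    rw [e1, e2]
  have hclo : i.clo W (i.mas t) = i.Q.Sq W i.g (i.mas t) - W.Gam (i.Kh W) (i.Kh W (i.mas t)) := rfl
  unfold RgDat.rho
  rw [hg, hclo]
  have es : (i.rg W Sc H).s t = i.Q.Sq W i.g (i.mas t) / i.w := by
    simp only [Bd7I.rg]; rw [if_neg (by linarith)]
  have ez : (i.rg W Sc H).z t = ((i.F.b i.g (i.mas t) - i.F.Tm) * i.Q.Sq W i.g (i.mas t)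
      + i.F.h i.g (i.mas t)) / i.w ^ 3 := by
    simp only [Bd7I.rg]; rw [if_neg (by linarith)]
  have ee : (i.rg W Sc H).e t = i.F.C X (i.w * t) / i.w ^ 2 := rfl
  have eT : (i.rg W Sc H).T = i.F.Tm := rfl
  rw [es, ez, ee, eT, hK]
  field_simp
  ring

/-- eventually `C ≤ 1/(2w)` -/
theorem bd7_sq_R_ge (S : Bd7Seq X W Fam Sc k Kb cL CL cs 𝒰 i H) (C : ℝ) :
    ∀ᶠ n in (𝒰 : Filter ℕ), C ≤ 1 / (2 * (i n).w) := (bd7_sq_R_lim S).eventually_ge_atTop C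

/-- R4, uniform bound -/
theorem bd7_sq_rho_bd (S : Bd7Seq X W Fam Sc k Kb cL CL cs 𝒰 i H) (c C : ℝ) (hc : 0 < c) :
    ∃ C' : ℝ, ∀ᶠ n in (𝒰 : Filter ℕ), ∀ t ∈ ((i n).rg W Sc (H n)).band c C,
      |((i n).rg W Sc (H n)).rho t| ≤ C' := by
  obtain ⟨C', N0, hsup⟩ := S.inp.clo.sup cs c C S.cs_pos hc
  refine ⟨C', ?_⟩
  filter_upwards [S.ctx, S.ev N0, bd7_sq_R_ge S C] with n hctx hN hR t ht
  obtain ⟨htpos, hv, hlo, hhi, hband⟩ := bd7_band_pt hctx (H n) hc ht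
  have hw := hctx.w_pos
  rw [bd7_rg_rho hctx (H n) htpos (ht.2.1.trans hR), abs_div, abs_of_pos (by positivity : 0 < (i n).w ^ 3),
    div_le_iff₀ (by positivity)]
  exact hsup (i n) (S.str n) hN _ hband

/-- R5 -/
theorem bd7_sq_z_lim (S : Bd7Seq X W Fam Sc k Kb cL CL cs 𝒰 i H) (c C ε : ℝ) (hc : 0 < c) (hε : 0 < ε) :
    ∀ᶠ n in (𝒰 : Filter ℕ), ∀ t ∈ ((i n).rg W Sc (H n)).band c C, |((i n).rg W Sc (H n)).z t| ≤ ε := by
  obtain ⟨C', N0, hraw⟩ := S.inp.raw cs S.cs_pos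
  obtain ⟨M, hM⟩ : ∃ M, M = |C| ^ 2 * (|C'| * (|C| + 1)) + |C| ^ 3 + 1 := ⟨_, rfl⟩
  have hM0 : 0 < M := by rw [hM]; positivity
  obtain ⟨N1, hp9⟩ := S.inp.p9 c (ε / M) hc (by positivity)
  filter_upwards [S.ctx, S.ev N0, S.ev N1] with n hctx hN0 hN1 t ht
  obtain ⟨htpos, hv, hlo, hhi, -⟩ := bd7_band_pt hctx (H n) hc ht
  have hw := hctx.w_pos
  obtain ⟨r1, -⟩ := hraw (i n) (S.str n) hN0 _ hv
  have hS0 := hctx.S_nonneg _ hv
  have hxw : (i n).F.x ≤ (i n).w := (bd7_ar_x_le_wc S.inp.hX (S.str n).ok).trans (S.str n).w_lo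
  have hvmem : (i n).mas t ∈ Ico (c * (i n).F.x) 1 :=
    ⟨(mul_le_mul_of_nonneg_left hxw hc.le).trans hlo, hv.2⟩
  obtain ⟨p1, p2⟩ := (hp9 (i n).F (S.str n).fam (S.str n).ok hN1).2 (i n).g (S.str n).g_mem _ hvmem
  have ez : ((i n).rg W Sc (H n)).z t = (((i n).F.b (i n).g ((i n).mas t) - (i n).F.Tm) * (i n).Q.Sq W (i n).g ((i n).mas t)
      + (i n).F.h (i n).g ((i n).mas t)) / (i n).w ^ 3 := by
    simp only [Bd7I.rg]; rw [if_neg (by linarith)]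
  obtain ⟨v, hvd⟩ : ∃ v, v = (i n).mas t := ⟨_, rfl⟩
  rw [← hvd] at hv hlo hhi r1 hS0 p1 p2 ez
  obtain ⟨w, hwd⟩ : ∃ w, w = (i n).w := ⟨_, rfl⟩
  rw [← hwd] at hw hlo hhi r1 ez
  have hvC : v ≤ |C| * w := hhi.trans (mul_le_mul_of_nonneg_right (le_abs_self _) hw.le)
  have hv2 : v ^ 2 ≤ (|C| * w) ^ 2 := pow_le_pow_left₀ hv.1.le hvC 2
  have hv3 : v ^ 3 ≤ (|C| * w) ^ 3 := pow_le_pow_left₀ hv.1.le hvC 3
  have hS : (i n).Q.Sq W (i n).g v ≤ |C'| * (|C| + 1) * w := by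
    have h1 : C' * (v + w) ≤ |C'| * (v + w) := mul_le_mul_of_nonneg_right (le_abs_self _) (by linarith [hv.1])
    have h2 : |C'| * (v + w) ≤ |C'| * (|C| * w + w) := mul_le_mul_of_nonneg_left (by linarith) (abs_nonneg _)
    calc _ ≤ _ := r1
      _ ≤ _ := h1
      _ ≤ _ := h2
      _ = |C'| * (|C| + 1) * w := by ring
  have hε' : 0 < ε / M := by positivity
  rw [ez, abs_div, abs_of_pos (by positivity : 0 < w ^ 3), div_le_iff₀ (by positivity)]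
  have a1 : |((i n).F.b (i n).g v - (i n).F.Tm) * (i n).Q.Sq W (i n).g v|
      ≤ (ε / M * (|C| * w) ^ 2) * (|C'| * (|C| + 1) * w) := by
    rw [abs_mul, abs_of_nonneg hS0]
    exact mul_le_mul (p1.trans (mul_le_mul_of_nonneg_left hv2 hε'.le)) hS hS0 (by positivity)
  have a2 : |(i n).F.h (i n).g v| ≤ ε / M * (|C| * w) ^ 3 := p2.trans (mul_le_mul_of_nonneg_left hv3 hε'.le)
  have a3 := abs_add_le (((i n).F.b (i n).g v - (i n).F.Tm) * (i n).Q.Sq W (i n).g v) ((i n).F.h (i n).g v)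
  have a4 : (ε / M * (|C| * w) ^ 2) * (|C'| * (|C| + 1) * w) + ε / M * (|C| * w) ^ 3
      = ε / M * (M - 1) * w ^ 3 := by rw [hM]; ring
  have a5 : ε / M * (M - 1) * w ^ 3 ≤ ε * w ^ 3 := by
    apply mul_le_mul_of_nonneg_right _ (by positivity)
    rw [div_mul_eq_mul_div, div_le_iff₀ hM0]
    nlinarith
  linarith

/-- the rescaled band is measurable -/
theorem bd7_band_meas {i : Bd7I X} (c : i.Ctx W Sc k cL CL) (H : ℝ → ℝ) (cc C : ℝ) :
    MeasurableSet ((i.rg W Sc H).band cc C) := by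
  have h : (i.rg W Sc H).band cc C = Icc 0 C ∩ (i.rg W Sc H).a ⁻¹' Icc cc C := by
    ext t
    simp only [RgDat.band, mem_setOf_eq, mem_inter_iff, mem_Icc, mem_preimage]
    tauto
  rw [h]
  exact measurableSet_Icc.inter ((c.a_mono H).measurable measurableSet_Icc)

open scoped Pointwise in
theorem bd7_band_smul {i : Bd7I X} (c : i.Ctx W Sc k cL CL) (H : ℝ → ℝ) {cc C : ℝ}
    (hR : C ≤ 1 / (2 * i.w)) : i.w • (i.rg W Sc H).band cc C = i.bandR cc C := by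
  have hw := c.w_pos
  ext ρ
  rw [mem_smul_set_iff_inv_smul_mem₀ hw.ne', smul_eq_mul]
  have ea : ∀ t, (i.rg W Sc H).a t = i.mas t / i.w := fun _ => rfl
  simp only [RgDat.band, Bd7I.bandR, mem_setOf_eq, ea]
  have e0 : 0 ≤ i.w⁻¹ * ρ ↔ 0 ≤ ρ := by
    constructor
    · intro h
      have := mul_nonneg hw.le h
      rwa [mul_inv_cancel_left₀ hw.ne'] at this
    · intro h; positivity
  have e1 : i.w⁻¹ * ρ ≤ C ↔ ρ ≤ C * i.w := by
    rw [inv_mul_le_iff₀ hw, mul_comm]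
  rw [e0, e1]
  constructor
  · rintro ⟨h0, h1, h2, h3⟩
    have hm : i.mas (i.w⁻¹ * ρ) = i.Q.al ρ := by
      unfold Bd7I.mas
      rw [Bd7I.rad_eq hw (e0.2 h0) ((e1.2 h1).trans hR), mul_inv_cancel_left₀ hw.ne']
    rw [hm] at h2 h3
    rw [le_div_iff₀ hw] at h2
    rw [div_le_iff₀ hw] at h3
    exact ⟨h0, h1, h2, h3⟩
  · rintro ⟨h0, h1, h2, h3⟩
    have hm : i.mas (i.w⁻¹ * ρ) = i.Q.al ρ := by
      unfold Bd7I.mas
      rw [Bd7I.rad_eq hw (e0.2 h0) ((e1.2 h1).trans hR), mul_inv_cancel_left₀ hw.ne']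
    rw [hm, le_div_iff₀ hw, div_le_iff₀ hw]
    exact ⟨h0, h1, h2, h3⟩

/-- change of variables `ρ = w t` in a band integral -/
theorem bd7_band_int {i : Bd7I X} (c : i.Ctx W Sc k cL CL) (H : ℝ → ℝ) {cc C : ℝ}
    (hR : C ≤ 1 / (2 * i.w)) (f : ℝ → ℝ) :
    ∫ t in (i.rg W Sc H).band cc C, f (i.mas t) = i.w⁻¹ * ∫ ρ in i.bandR cc C, f (i.Q.al ρ) := by
  have hw := c.w_pos
  have h1 : ∫ t in (i.rg W Sc H).band cc C, f (i.mas t)
      = ∫ t in (i.rg W Sc H).band cc C, (fun ρ => f (i.Q.al ρ)) (i.w • t) := by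
    refine setIntegral_congr_fun (bd7_band_meas c H cc C) fun t ht => ?_
    simp only [smul_eq_mul]
    unfold Bd7I.mas
    rw [Bd7I.rad_eq hw ht.1 (ht.2.1.trans hR)]
  have h2 := Measure.setIntegral_comp_smul_of_pos volume (fun ρ => f (i.Q.al ρ))
    ((i.rg W Sc H).band cc C) hw
  rw [h1, h2, bd7_band_smul c H hR]
  simp

theorem bd7_sq_dl_rad (S : Bd7Seq X W Fam Sc k Kb cL CL cs 𝒰 i H) (c C : ℝ) (hc : 0 < c) :
    Tendsto (fun n => ∫ t in ((i n).rg W Sc (H n)).band c C, ((i n).rg W Sc (H n)).dl t ^ 2)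
      (𝒰 : Filter ℕ) (𝓝 0) := by
  rw [Metric.tendsto_nhds]
  intro ε hε
  obtain ⟨N0, hband⟩ := S.inp.band cs c C (ε / 2) S.cs_pos hc (by linarith)
  filter_upwards [S.ctx, S.ev N0, bd7_sq_R_ge S C] with n hctx hN hR
  have hw := hctx.w_pos
  have h1 : ∫ t in ((i n).rg W Sc (H n)).band c C, ((i n).rg W Sc (H n)).dl t ^ 2
      = ∫ t in ((i n).rg W Sc (H n)).band c C, (fun v => (i n).Q.Dq2 W (i n).g v / (i n).w ^ 2) ((i n).mas t) := by
    refine setIntegral_congr_fun (bd7_band_meas hctx (H n) c C) fun t ht => ?_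
    obtain ⟨htpos, hv, -, -, -⟩ := bd7_band_pt hctx (H n) hc ht
    have ed : ((i n).rg W Sc (H n)).dl t = (i n).Q.Dq W (i n).g ((i n).mas t) / (i n).w := by
      simp only [Bd7I.rg]; rw [if_neg (by linarith)]
    simp only []
    rw [ed, div_pow, hctx.D_sq hv]
    rfl
  have h0 : 0 ≤ ∫ t in ((i n).rg W Sc (H n)).band c C, ((i n).rg W Sc (H n)).dl t ^ 2 :=
    integral_nonneg fun t => sq_nonneg _
  rw [Real.dist_eq, sub_zero, abs_of_nonneg h0, h1,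
    bd7_band_int hctx (H n) hR (fun v => (i n).Q.Dq2 W (i n).g v / (i n).w ^ 2), integral_div]
  have h2 := (hband (i n) (S.str n) hN).2
  have h3 : (i n).w⁻¹ * ((∫ ρ in (i n).bandR c C, (i n).Q.Dq2 W (i n).g ((i n).Q.al ρ)) / (i n).w ^ 2)
      ≤ (i n).w⁻¹ * ((ε / 2 * (i n).w ^ 3) / (i n).w ^ 2) := by
    apply mul_le_mul_of_nonneg_left _ (by positivity)
    exact div_le_div_of_nonneg_right h2 (by positivity)
  have h4 : (i n).w⁻¹ * ((ε / 2 * (i n).w ^ 3) / (i n).w ^ 2) = ε / 2 := by field_simp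
  linarith

theorem bd7_sq_rho_rad (S : Bd7Seq X W Fam Sc k Kb cL CL cs 𝒰 i H) (c C : ℝ) (hc : 0 < c) :
    Tendsto (fun n => ∫ t in ((i n).rg W Sc (H n)).band c C, |((i n).rg W Sc (H n)).rho t|)
      (𝒰 : Filter ℕ) (𝓝 0) := by
  rw [Metric.tendsto_nhds]
  intro ε hε
  obtain ⟨N0, hrad⟩ := S.inp.clo.rad cs c C (ε / 2) S.cs_pos hc (by linarith)
  filter_upwards [S.ctx, S.ev N0, bd7_sq_R_ge S C] with n hctx hN hR
  have hw := hctx.w_pos
  have h1 : ∫ t in ((i n).rg W Sc (H n)).band c C, |((i n).rg W Sc (H n)).rho t|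
      = ∫ t in ((i n).rg W Sc (H n)).band c C, (fun v => |(i n).clo W v| / (i n).w ^ 3) ((i n).mas t) := by
    refine setIntegral_congr_fun (bd7_band_meas hctx (H n) c C) fun t ht => ?_
    obtain ⟨htpos, hv, -, -, -⟩ := bd7_band_pt hctx (H n) hc ht
    simp only []
    rw [bd7_rg_rho hctx (H n) htpos (ht.2.1.trans hR), abs_div, abs_of_pos (by positivity : 0 < (i n).w ^ 3)]
  have h0 : 0 ≤ ∫ t in ((i n).rg W Sc (H n)).band c C, |((i n).rg W Sc (H n)).rho t| :=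
    integral_nonneg fun t => abs_nonneg _
  rw [Real.dist_eq, sub_zero, abs_of_nonneg h0, h1,
    bd7_band_int hctx (H n) hR (fun v => |(i n).clo W v| / (i n).w ^ 3), integral_div]
  have h2 := hrad (i n) (S.str n) hN
  have h3 : (i n).w⁻¹ * ((∫ ρ in (i n).bandR c C, |(i n).clo W ((i n).Q.al ρ)|) / (i n).w ^ 3)
      ≤ (i n).w⁻¹ * ((ε / 2 * (i n).w ^ 4) / (i n).w ^ 3) := by
    apply mul_le_mul_of_nonneg_left _ (by positivity)
    exact div_le_div_of_nonneg_right h2 (by positivity)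
  have h4 : (i n).w⁻¹ * ((ε / 2 * (i n).w ^ 4) / (i n).w ^ 3) = ε / 2 := by field_simp
  linarith

/-- convergence to `0` in `ℝ≥0∞` through real bounds -/
theorem bd7_tendsto_zero {l : Filter ℕ} {f : ℕ → ENNReal}
    (h : ∀ η : ℝ, 0 < η → ∀ᶠ n in l, f n ≤ ENNReal.ofReal η) : Tendsto f l (𝓝 0) := by
  rw [ENNReal.tendsto_nhds_zero]
  intro δ hδ
  by_cases hT : δ = ⊤
  · exact Eventually.of_forall fun n => by rw [hT]; exact le_top
  · have h1 : 0 < δ.toReal := ENNReal.toReal_pos hδ.ne' hT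
    filter_upwards [h _ h1] with n hn
    rwa [ENNReal.ofReal_toReal hT] at hn

/-- a point of the mass band, read in the rescaled radius -/
theorem bd7_bandM_pt {i : Bd7I X} (c : i.Ctx W Sc k cL CL) {cc C v : ℝ} (hcc : 0 < cc)
    (hR : C ≤ 1 / (2 * i.w)) (hv : v ∈ i.bandM cc C) :
    v ∈ Ioo (0 : ℝ) 1 ∧ 0 < i.Q.r v / i.w ∧ i.Q.r v / i.w ≤ 1 / (2 * i.w) ∧ i.rad (i.Q.r v / i.w) = i.Q.r v ∧
      i.mas (i.Q.r v / i.w) = v := by
  have hw := c.w_pos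
  obtain ⟨h1, h2, h3⟩ := hv
  have hCw : C * i.w ≤ 1 / 2 := by
    rw [le_div_iff₀ (by positivity)] at hR
    linarith
  have hv0 : 0 < v := lt_of_lt_of_le (by positivity) h1
  have hv1 : v < 1 := by linarith
  have hvI : v ∈ Icc (0 : ℝ) 1 := ⟨hv0.le, hv1.le⟩
  have hr := i.Q.r_mem v hvI
  have hal := i.Q.al_r v hvI
  have hr0 : 0 < i.Q.r v := by
    rcases hr.1.lt_or_eq with h | h
    · exact h
    · exfalso
      rw [← h, i.Q.al_zero] at hal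
      linarith
  have ht1 : i.Q.r v / i.w ≤ 1 / (2 * i.w) := by
    refine le_trans ?_ hR
    rw [div_le_iff₀ hw]; exact h3
  have hrad : i.rad (i.Q.r v / i.w) = i.Q.r v := by
    rw [Bd7I.rad_eq hw (by positivity) ht1, mul_div_cancel₀ _ hw.ne']
  refine ⟨⟨hv0, hv1⟩, by positivity, ht1, hrad, ?_⟩
  unfold Bd7I.mas
  rw [hrad, hal]

/-- the volume of a rescaled mass set -/
theorem bd7_mset_vol {i : Bd7I X} (c : i.Ctx W Sc k cL CL) (H : ℝ → ℝ) {cc C : ℝ} (hcc : 0 < cc)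
    (hR : C ≤ 1 / (2 * i.w)) (P : ℝ → Prop) :
    volume ((i.rg W Sc H).mset cc C P)
      ≤ ENNReal.ofReal i.w⁻¹ * volume {v | v ∈ i.bandM cc C ∧ P (i.Q.r v / i.w)} := by
  have hw := c.w_pos
  have hCw : C * i.w ≤ 1 / 2 := by
    rw [le_div_iff₀ (by positivity)] at hR
    linarith
  have hsub : (i.rg W Sc H).mset cc C P ⊆ (i.w * ·) ⁻¹' {v | v ∈ i.bandM cc C ∧ P (i.Q.r v / i.w)} := by
    rintro v ⟨h1, h2, h3, h4⟩
    have hv0 : 0 < v := lt_of_lt_of_le hcc h1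
    have hwv : i.w * v ≤ 1 / 2 := by nlinarith
    have er : (i.rg W Sc H).r v = i.Q.r (i.w * v) / i.w := by
      simp only [Bd7I.rg]
      rw [min_eq_left (by linarith), max_eq_right (by positivity)]
    rw [er] at h3 h4
    rw [div_le_iff₀ hw] at h3
    refine ⟨⟨by nlinarith, by nlinarith, h3⟩, h4⟩
  refine (measure_mono hsub).trans ?_
  rw [Real.volume_preimage_mul_left hw.ne', abs_of_pos (by positivity)]

/-- the mass band is an interval -/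
theorem bd7_bandM_meas {i : Bd7I X} (c : i.Ctx W Sc k cL CL) {cc C : ℝ} (hcc : 0 < cc)
    (hR : C ≤ 1 / (2 * i.w)) : MeasurableSet (i.bandM cc C) := by
  have hw := c.w_pos
  have hCw : C * i.w ≤ 1 / 2 := by
    rw [le_div_iff₀ (by positivity)] at hR
    linarith
  have hoc : (i.bandM cc C).OrdConnected := by
    refine ⟨fun v1 h1 v2 h2 v hv => ?_⟩
    have h0 : 0 < cc * i.w := by positivity
    refine ⟨h1.1.trans hv.1, hv.2.trans h2.2.1, ?_⟩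
    refine le_trans (bd7_q_r_mono i.Q c.ok ⟨?_, ?_⟩ ⟨?_, ?_⟩ hv.2) h2.2.2
    · linarith [h1.1, hv.1]
    · linarith [hv.2, h2.2.1]
    · linarith [h2.1]
    · linarith [h2.2.1]
  exact hoc.measurableSet

theorem bd7_bandM_sub {i : Bd7I X} (c : i.Ctx W Sc k cL CL) {cc C : ℝ} (hcc : 0 < cc)
    (hR : C ≤ 1 / (2 * i.w)) : i.bandM cc C ⊆ Ioo (0 : ℝ) 1 :=
  fun _ hv => (bd7_bandM_pt c hcc hR hv).1

/-- Markov's inequality on the mass band -/
theorem bd7_bandM_markov {i : Bd7I X} (c : i.Ctx W Sc k cL CL) {cc C : ℝ} (hcc : 0 < cc)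
    (hR : C ≤ 1 / (2 * i.w)) {f : ℝ → ℝ} (hf : IntegrableOn f (i.bandM cc C))
    (hf0 : ∀ v ∈ i.bandM cc C, 0 ≤ f v) {a b : ℝ} (ha : 0 < a) (hb : ∫ v in i.bandM cc C, f v ≤ b) :
    volume {v | v ∈ i.bandM cc C ∧ a < f v} ≤ ENNReal.ofReal (b / a) := by
  have hm := bd7_bandM_meas c hcc hR
  have hfin : volume (i.bandM cc C) < ⊤ :=
    lt_of_le_of_lt (measure_mono (bd7_bandM_sub c hcc hR)) measure_Ioo_lt_top
  haveI : IsFiniteMeasure (volume.restrict (i.bandM cc C)) := ⟨by rwa [Measure.restrict_apply_univ]⟩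
  have h0 : 0 ≤ᵐ[volume.restrict (i.bandM cc C)] f :=
    (ae_restrict_iff' hm).2 (Eventually.of_forall hf0)
  have hmk := mul_meas_ge_le_integral_of_nonneg h0 hf a
  have hsub : {v | v ∈ i.bandM cc C ∧ a < f v} ⊆ {v | a ≤ f v} ∩ i.bandM cc C :=
    fun v hv => ⟨hv.2.le, hv.1⟩
  refine (measure_mono hsub).trans ?_
  rw [← Measure.restrict_apply' hm, ← ENNReal.ofReal_toReal (measure_ne_top _ _)]
  apply ENNReal.ofReal_le_ofReal
  rw [le_div_iff₀ ha]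
  have : (volume.restrict (i.bandM cc C)).real {x | a ≤ f x}
      = ((volume.restrict (i.bandM cc C)) {v | a ≤ f v}).toReal := rfl
  rw [this] at hmk
  linarith

/-- a bounded monotone function on `(0,1)` is integrable there -/
theorem bd7_int_mono {g : ℝ → ℝ} {K : ℝ} (hm : MonotoneOn g (Ioo 0 1)) (hb : ∀ v ∈ Ioo (0 : ℝ) 1, |g v| ≤ K) :
    IntegrableOn g (Ioo 0 1) := by
  have h1 : IntegrableOn (fun _ : ℝ => (1 : ℝ)) (Ioo 0 1) := integrableOn_const measure_Ioo_lt_top.ne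
  have h2 : IntegrableOn (fun v => g v * 1) (Ioo 0 1) := by
    refine Integrable.bdd_mul (c := K) h1
      (aemeasurable_restrict_of_monotoneOn measurableSet_Ioo hm).aestronglyMeasurable ?_
    exact (ae_restrict_iff' measurableSet_Ioo).2 (Eventually.of_forall fun v hv => by
      simpa [Real.norm_eq_abs] using hb v hv)
  simpa using h2

theorem Bd7I.Ctx.B_le_one {i : Bd7I X} (c : i.Ctx W Sc k cL CL) : ∀ v ∈ Ioo (0 : ℝ) 1, i.Q.Bq W i.g v ≤ 1 := by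
  have := (W.ps i.F.m).B_le _ _ (by rw [c.a1]; exact c.hbq) (by rw [c.a1]; exact c.hhq)
  rw [c.a1] at this; exact this

theorem Bd7I.Ctx.S_le_one {i : Bd7I X} (c : i.Ctx W Sc k cL CL) : ∀ v ∈ Ioo (0 : ℝ) 1, i.Q.Sq W i.g v ≤ 1 := by
  intro v hv
  have h1 := (c.S_sq_le v hv).trans (c.B_le_one v hv)
  nlinarith [c.S_nonneg v hv]

theorem Bd7I.Ctx.S_int {i : Bd7I X} (c : i.Ctx W Sc k cL CL) : IntegrableOn (i.Q.Sq W i.g) (Ioo 0 1) :=
  bd7_int_mono (K := 1) c.S_mono fun v hv => by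
    rw [abs_of_nonneg (c.S_nonneg v hv)]; exact c.S_le_one v hv

theorem Bd7I.Ctx.D2_int01 {i : Bd7I X} (c : i.Ctx W Sc k cL CL) : IntegrableOn (i.Q.Dq2 W i.g) (Ioo 0 1) := by
  have h1 : IntegrableOn (i.Q.Bq W i.g) (Ioo 0 1) :=
    bd7_int_mono (K := 1) c.B_mono fun v hv => by
      rw [abs_of_nonneg (c.B_nonneg v hv)]; exact c.B_le_one v hv
  have h2 : IntegrableOn (fun v => i.Q.Sq W i.g v ^ 2) (Ioo 0 1) := by
    refine bd7_int_mono (K := 1) ?_ fun v hv => ?_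
    · intro v hv v' hv' h
      exact pow_le_pow_left₀ (c.S_nonneg v hv) (c.S_mono hv hv' h) 2
    · rw [abs_of_nonneg (sq_nonneg _)]
      exact (c.S_sq_le v hv).trans (c.B_le_one v hv)
  exact h1.sub h2

theorem bd7_sq_dl_mass (S : Bd7Seq X W Fam Sc k Kb cL CL cs 𝒰 i H) (c C ε : ℝ) (hc : 0 < c) (hε : 0 < ε) :
    Tendsto (fun n => volume (((i n).rg W Sc (H n)).mset c C (fun t => ε < ((i n).rg W Sc (H n)).dl t)))
      (𝒰 : Filter ℕ) (𝓝 0) := by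
  apply bd7_tendsto_zero
  intro η hη
  obtain ⟨N0, hband⟩ := S.inp.band cs c C (η * ε ^ 2) S.cs_pos hc (by positivity)
  filter_upwards [S.ctx, S.ev N0, bd7_sq_R_ge S C] with n hctx hN hR
  have hw := hctx.w_pos
  refine (bd7_mset_vol hctx (H n) hc hR _).trans ?_
  have hsub : {v | v ∈ (i n).bandM c C ∧ ε < ((i n).rg W Sc (H n)).dl ((i n).Q.r v / (i n).w)}
      ⊆ {v | v ∈ (i n).bandM c C ∧ (ε * (i n).w) ^ 2 < (i n).Q.Dq2 W (i n).g v} := by
    rintro v ⟨hv, h2⟩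
    obtain ⟨hv01, ht0, ht1, hrad, hmas⟩ := bd7_bandM_pt hctx hc hR hv
    refine ⟨hv, ?_⟩
    have ed : ((i n).rg W Sc (H n)).dl ((i n).Q.r v / (i n).w) = (i n).Q.Dq W (i n).g v / (i n).w := by
      simp only [Bd7I.rg]; rw [if_neg (by linarith), hmas]
    rw [ed, lt_div_iff₀ hw] at h2
    have h3 : (ε * (i n).w) ^ 2 < (i n).Q.Dq W (i n).g v ^ 2 := pow_lt_pow_left₀ h2 (by positivity) (by norm_num)
    rw [hctx.D_sq hv01] at h3
    exact h3
  have hmk := bd7_bandM_markov hctx hc hR (f := (i n).Q.Dq2 W (i n).g)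
    (hctx.D2_int01.mono_set (bd7_bandM_sub hctx hc hR))
    (fun v hv => by
      have := hctx.S_sq_le v (bd7_bandM_sub hctx hc hR hv)
      unfold BdQ.Dq2; linarith)
    (a := (ε * (i n).w) ^ 2) (by positivity) (hband (i n) (S.str n) hN).1
  calc ENNReal.ofReal (i n).w⁻¹ * volume {v | v ∈ (i n).bandM c C ∧ ε < ((i n).rg W Sc (H n)).dl ((i n).Q.r v / (i n).w)}
      ≤ ENNReal.ofReal (i n).w⁻¹ * ENNReal.ofReal (η * ε ^ 2 * (i n).w ^ 3 / (ε * (i n).w) ^ 2) := by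
        gcongr
        exact (measure_mono hsub).trans hmk
    _ = ENNReal.ofReal ((i n).w⁻¹ * (η * ε ^ 2 * (i n).w ^ 3 / (ε * (i n).w) ^ 2)) :=
        (ENNReal.ofReal_mul (by positivity)).symm
    _ = ENNReal.ofReal η := by
        congr 1
        field_simp

theorem bd7_sq_rho_mass (S : Bd7Seq X W Fam Sc k Kb cL CL cs 𝒰 i H) (c C ε : ℝ) (hc : 0 < c) (hε : 0 < ε) :
    Tendsto (fun n => volume (((i n).rg W Sc (H n)).mset c C (fun t => ε < |((i n).rg W Sc (H n)).rho t|)))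
      (𝒰 : Filter ℕ) (𝓝 0) := by
  apply bd7_tendsto_zero
  intro η hη
  obtain ⟨N0, hmass⟩ := S.inp.clo.mass cs c C (η * ε) S.cs_pos hc (by positivity)
  obtain ⟨C', N1, hsup⟩ := S.inp.clo.sup cs c C S.cs_pos hc
  filter_upwards [S.ctx, S.ev N0, S.ev N1, bd7_sq_R_ge S C] with n hctx hN hN1 hR
  have hw := hctx.w_pos
  refine (bd7_mset_vol hctx (H n) hc hR _).trans ?_
  have hsub : {v | v ∈ (i n).bandM c C ∧ ε < |((i n).rg W Sc (H n)).rho ((i n).Q.r v / (i n).w)|}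
      ⊆ {v | v ∈ (i n).bandM c C ∧ ε * (i n).w ^ 3 < |(i n).clo W v|} := by
    rintro v ⟨hv, h2⟩
    obtain ⟨hv01, ht0, ht1, hrad, hmas⟩ := bd7_bandM_pt hctx hc hR hv
    refine ⟨hv, ?_⟩
    rw [bd7_rg_rho hctx (H n) ht0 ht1, hmas, abs_div, abs_of_pos (by positivity : 0 < (i n).w ^ 3),
      lt_div_iff₀ (by positivity)] at h2
    exact h2
  have hmk := bd7_bandM_markov hctx hc hR (f := fun v => |(i n).clo W v|)
    (hctx.clo_int S.inp.Kmax_le hc hR (hsup (i n) (S.str n) hN1))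
    (fun v _ => abs_nonneg _)
    (a := ε * (i n).w ^ 3) (by positivity) (hmass (i n) (S.str n) hN)
  calc ENNReal.ofReal (i n).w⁻¹ * volume {v | v ∈ (i n).bandM c C ∧ ε < |((i n).rg W Sc (H n)).rho ((i n).Q.r v / (i n).w)|}
      ≤ ENNReal.ofReal (i n).w⁻¹ * ENNReal.ofReal (η * ε * (i n).w ^ 4 / (ε * (i n).w ^ 3)) := by
        gcongr
        exact (measure_mono hsub).trans hmk
    _ = ENNReal.ofReal ((i n).w⁻¹ * (η * ε * (i n).w ^ 4 / (ε * (i n).w ^ 3))) :=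
        (ENNReal.ofReal_mul (by positivity)).symm
    _ = ENNReal.ofReal η := by
        congr 1
        field_simp

theorem bd7_sq_floor_mass (S : Bd7Seq X W Fam Sc k Kb cL CL cs 𝒰 i H) (c C : ℝ) (hc : 0 < c) :
    Tendsto (fun n => volume (((i n).rg W Sc (H n)).mset c C (fun t => 0 < ((i n).rg W Sc (H n)).H t)))
      (𝒰 : Filter ℕ) (𝓝 0) := by
  apply bd7_tendsto_zero
  intro η hη
  obtain ⟨N0, hfl⟩ := bd7_ar_floor S.inp.hX hη
  obtain ⟨c0, hc0, hIlo⟩ := S.inp.Ilo_lb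
  filter_upwards [S.ctx, S.ev N0, bd7_sq_R_ge S C, bd7_sq_wu S (ε := c0 / (2 * (|C| + 1))) (by positivity)]
    with n hctx hN hR hwu
  have hw := hctx.w_pos
  have hu := BdFr.u_pos' S.inp.hX (S.str n).ok
  refine (bd7_mset_vol hctx (H n) hc hR _).trans ?_
  have hCw : C * (i n).w ≤ 1 / 2 := by
    rw [le_div_iff₀ (by positivity)] at hR
    linarith
  by_cases hC : 0 ≤ C
  · have hsub : {v | v ∈ (i n).bandM c C ∧ 0 < ((i n).rg W Sc (H n)).H ((i n).Q.r v / (i n).w)}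
        ⊆ (i n).Q.al '' ({r | 0 < H n r} ∩ Icc 0 (C * (i n).w)) := by
      rintro v ⟨hv, h2⟩
      obtain ⟨hv01, ht0, ht1, hrad, hmas⟩ := bd7_bandM_pt hctx hc hR hv
      have eH : ((i n).rg W Sc (H n)).H ((i n).Q.r v / (i n).w) = H n ((i n).Q.r v) / (i n).w ^ 4 := by
        simp only [Bd7I.rg]; rw [hrad]
      rw [eH] at h2
      have h3 : 0 < H n ((i n).Q.r v) := by
        by_contra hcon
        rw [not_lt] at hcon
        have := div_nonpos_of_nonpos_of_nonneg hcon (by positivity : (0:ℝ) ≤ (i n).w ^ 4)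
        linarith
      have hvI : v ∈ Icc (0 : ℝ) 1 := ⟨hv01.1.le, hv01.2.le⟩
      exact ⟨(i n).Q.r v, ⟨h3, ((i n).Q.r_mem v hvI).1, hv.2.2⟩, (i n).Q.al_r v hvI⟩
    have h1 := (S.pot n).fl_mass 0 (C * (i n).w) le_rfl (by positivity) (by linarith)
    have hy : C * (i n).w < (i n).F.Ilo * (i n).F.u := by
      have a1 : C * (i n).w ≤ (|C| + 1) * (c0 / (2 * (|C| + 1)) * (i n).F.u) :=
        mul_le_mul ((le_abs_self C).trans (by linarith)) hwu hw.le (by positivity)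
      have a2 : (|C| + 1) * (c0 / (2 * (|C| + 1)) * (i n).F.u) = c0 / 2 * (i n).F.u := by
        field_simp
      have a3 : c0 / 2 * (i n).F.u < c0 * (i n).F.u := by nlinarith
      have a4 : c0 * (i n).F.u ≤ (i n).F.Ilo * (i n).F.u :=
        mul_le_mul_of_nonneg_right (hIlo _ (S.str n).fam) hu.le
      linarith
    have h2 := hfl (i n).F (S.str n).ok hN (C * (i n).w) (by positivity) hy
    have h3 : η * (i n).F.wc X ≤ η * (i n).w := mul_le_mul_of_nonneg_left (S.str n).w_lo hη.le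
    calc ENNReal.ofReal (i n).w⁻¹ * volume {v | v ∈ (i n).bandM c C ∧ 0 < ((i n).rg W Sc (H n)).H ((i n).Q.r v / (i n).w)}
        ≤ ENNReal.ofReal (i n).w⁻¹ * ENNReal.ofReal (η * (i n).w) := by
          gcongr
          exact (measure_mono hsub).trans (h1.trans (ENNReal.ofReal_le_ofReal (h2.trans h3)))
      _ = ENNReal.ofReal ((i n).w⁻¹ * (η * (i n).w)) := (ENNReal.ofReal_mul (by positivity)).symm
      _ = ENNReal.ofReal η := by
          congr 1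
          field_simp
  · have hemp : {v | v ∈ (i n).bandM c C ∧ 0 < ((i n).rg W Sc (H n)).H ((i n).Q.r v / (i n).w)} = ∅ := by
      ext v
      simp only [mem_setOf_eq, mem_empty_iff_false, iff_false, not_and]
      intro hv
      exfalso
      rw [not_le] at hC
      have h1 : 0 < c * (i n).w := by positivity
      have h2 : C * (i n).w < 0 := mul_neg_of_neg_of_pos hC hw
      linarith [hv.1, hv.2.1]
    rw [hemp]
    simp

/-- eventually: the scalar clock is admissible, `|T_m - T| ≤ 1/2`, `w ≤ δ` -/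
theorem bd7_sq_basic (S : Bd7Seq X W Fam Sc k Kb cL CL cs 𝒰 i H) {δ : ℝ} (hδ : 0 < δ) :
    ∀ᶠ n in (𝒰 : Filter ℕ), (IsClock 1 ((i n).Kh W) ∧ ∀ v ∈ Ioo (0 : ℝ) 1, (i n).Kh W v ≤ k.Kmax) ∧
      |(i n).F.Tm - X.T| ≤ 1 / 2 ∧ (i n).w ≤ δ := by
  obtain ⟨Nk, hKh⟩ := bd7_Kh_clock S.inp
  have hT := (Metric.tendsto_nhds.1 (bd7_sq_T_lim S)) (1 / 2) (by norm_num)
  have hw := (Metric.tendsto_nhds.1 (bd7_sq_x_lim S)) δ hδ
  filter_upwards [S.ev Nk, hT, hw] with n h1 h2 h3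
  refine ⟨hKh _ (S.str n).toStd h1, ?_, ?_⟩
  · rw [Real.dist_eq] at h2; exact h2.le
  · rw [Real.dist_eq, sub_zero, abs_of_pos (S.w_pos n)] at h3; exact h3.le

theorem bd7_sq_P_lim (S : Bd7Seq X W Fam Sc k Kb cL CL cs 𝒰 i H) {A : ℝ}
    (hA : Tendsto (fun n => (i n).rgA W Sc) (𝒰 : Filter ℕ) (𝓝 A)) (C : ℝ) :
    TendstoUniformlyOn (fun n => ((i n).rg W Sc (H n)).P) (fun τ => A * τ) (𝒰 : Filter ℕ) (Icc 0 C) := by
  rw [Metric.tendstoUniformlyOn_iff]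
  intro ε hε
  have hT1 : 1 < X.T := S.inp.hX.T1
  -- constants
  obtain ⟨T', hT'⟩ : ∃ T', T' = X.T + 1 := ⟨_, rfl⟩
  have hT'0 : 0 < T' := by rw [hT']; linarith
  obtain ⟨C', hC'⟩ : ∃ C', C' = |C| + 1 := ⟨_, rfl⟩
  have hC'0 : 0 < C' := by rw [hC']; positivity
  obtain ⟨M, hM⟩ : ∃ M, M = T' ^ 3 * (|k.Csc| + 1) * C' * Real.sqrt (T' * C') := ⟨_, rfl⟩
  have hM0 : 0 < M := by
    rw [hM]
    have : 0 < Real.sqrt (T' * C') := Real.sqrt_pos.2 (by positivity)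
    positivity
  obtain ⟨δ, hδ⟩ : ∃ δ, δ = min (1 / C') ((ε / (4 * M)) ^ 2) := ⟨_, rfl⟩
  have hδ0 : 0 < δ := by rw [hδ]; exact lt_min (by positivity) (by positivity)
  have hAe := (Metric.tendsto_nhds.1 hA) (ε / (4 * C')) (by positivity)
  filter_upwards [bd7_sq_basic S hδ0, hAe] with n hb hAn τ hτ
  obtain ⟨⟨hclk, hKm⟩, hTm, hwδ⟩ := hb
  have hw := S.w_pos n
  rw [abs_le] at hTm
  have hTm0 : 0 < (i n).F.Tm := by linarith [hTm.1]
  have hTm1 : (i n).F.Tm ≤ T' := by rw [hT']; linarith [hTm.2]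
  have hτC : τ ≤ C' := by rw [hC']; exact hτ.2.trans ((le_abs_self C).trans (by linarith))
  obtain ⟨t, ht⟩ : ∃ t, t = (i n).F.Tm * (i n).w * τ := ⟨_, rfl⟩
  have ht0 : 0 ≤ t := by rw [ht]; exact mul_nonneg (by positivity) hτ.1
  have hwτ : (i n).w * τ ≤ 1 := by
    have h1 : (i n).w ≤ 1 / C' := hwδ.trans (hδ ▸ min_le_left _ _)
    calc (i n).w * τ ≤ (1 / C') * C' := mul_le_mul h1 hτC hτ.1 (by positivity)
      _ = 1 := by field_simp
  have htT : t ≤ k.Tmax := by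
    have : t ≤ T' * 1 := by
      rw [ht, mul_assoc]
      exact mul_le_mul hTm1 hwτ (mul_nonneg hw.le hτ.1) hT'0.le
    rw [hT'] at this
    linarith [S.inp.Tmax]
  have hexp := S.inp.sc.P3_exp _ hclk hKm t ⟨ht0, htT⟩
  -- the value
  have hP : ((i n).rg W Sc (H n)).P τ = (i n).F.Tm ^ 2 * Sc.P3 ((i n).Kh W) t / (i n).w := by
    rw [ht]; rfl
  have hdiff : ((i n).rg W Sc (H n)).P τ - (i n).rgA W Sc * τ
      = (i n).F.Tm ^ 2 * (Sc.P3 ((i n).Kh W) t - Sc.a4 ((i n).Kh W) ^ 2 * t) / (i n).w := by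
    rw [hP, ht]
    unfold Bd7I.rgA
    field_simp
  have hsq : Real.sqrt t ≤ Real.sqrt (T' * C') * (ε / (4 * M)) := by
    have h1 : t ≤ (T' * C') * (ε / (4 * M)) ^ 2 := by
      have hw2 : (i n).w ≤ (ε / (4 * M)) ^ 2 := hwδ.trans (hδ ▸ min_le_right _ _)
      have : t = ((i n).F.Tm * τ) * (i n).w := by rw [ht]; ring
      rw [this]
      exact mul_le_mul (mul_le_mul hTm1 hτC hτ.1 hT'0.le) hw2 hw.le (by positivity)
    calc Real.sqrt t ≤ Real.sqrt ((T' * C') * (ε / (4 * M)) ^ 2) := Real.sqrt_le_sqrt h1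
      _ = Real.sqrt (T' * C') * (ε / (4 * M)) := by
          rw [Real.sqrt_mul (by positivity), Real.sqrt_sq (by positivity)]
  have hb1 : |((i n).rg W Sc (H n)).P τ - (i n).rgA W Sc * τ| ≤ ε / 4 := by
    rw [hdiff, abs_div, abs_mul, abs_of_pos hw, abs_of_nonneg (by positivity : (0:ℝ) ≤ (i n).F.Tm ^ 2),
      div_le_iff₀ hw]
    have h1 : k.Csc * (t * Real.sqrt t) ≤ (|k.Csc| + 1) * (t * Real.sqrt t) :=
      mul_le_mul_of_nonneg_right ((le_abs_self _).trans (by linarith)) (mul_nonneg ht0 (Real.sqrt_nonneg _))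
    have h2 : t ≤ T' * C' * (i n).w := by
      have : t = ((i n).F.Tm * τ) * (i n).w := by rw [ht]; ring
      rw [this]
      exact mul_le_mul_of_nonneg_right (mul_le_mul hTm1 hτC hτ.1 hT'0.le) hw.le
    have h3 : t * Real.sqrt t ≤ (T' * C' * (i n).w) * (Real.sqrt (T' * C') * (ε / (4 * M))) :=
      mul_le_mul h2 hsq (Real.sqrt_nonneg _) (by positivity)
    have h4 : (i n).F.Tm ^ 2 ≤ T' ^ 2 := pow_le_pow_left₀ hTm0.le hTm1 2
    calc (i n).F.Tm ^ 2 * |Sc.P3 ((i n).Kh W) t - Sc.a4 ((i n).Kh W) ^ 2 * t|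
        ≤ T' ^ 2 * ((|k.Csc| + 1) * ((T' * C' * (i n).w) * (Real.sqrt (T' * C') * (ε / (4 * M))))) := by
          apply mul_le_mul h4 _ (abs_nonneg _) (by positivity)
          exact (hexp.trans h1).trans (mul_le_mul_of_nonneg_left h3 (by positivity))
      _ = M * (ε / (4 * M)) * (i n).w := by rw [hM]; ring
      _ = ε / 4 * (i n).w := by
          congr 1
          field_simp
  have hb2 : |(i n).rgA W Sc * τ - A * τ| ≤ ε / 4 := by
    rw [← sub_mul, abs_mul, abs_of_nonneg hτ.1]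
    rw [Real.dist_eq] at hAn
    calc |(i n).rgA W Sc - A| * τ ≤ (ε / (4 * C')) * C' := mul_le_mul hAn.le hτC hτ.1 (by positivity)
      _ = ε / 4 := by field_simp
  rw [Real.dist_eq, abs_sub_comm]
  have := abs_add_le (((i n).rg W Sc (H n)).P τ - (i n).rgA W Sc * τ) ((i n).rgA W Sc * τ - A * τ)
  have e : ((i n).rg W Sc (H n)).P τ - (i n).rgA W Sc * τ + ((i n).rgA W Sc * τ - A * τ)
      = ((i n).rg W Sc (H n)).P τ - A * τ := by ring
  rw [e] at this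
  linarith

theorem bd7_sq_Bc_lim (S : Bd7Seq X W Fam Sc k Kb cL CL cs 𝒰 i H) {B : ℝ}
    (hB : Tendsto (fun n => (i n).rgB W Sc) (𝒰 : Filter ℕ) (𝓝 B)) (C : ℝ) :
    TendstoUniformlyOn (fun n => ((i n).rg W Sc (H n)).Bc) (fun _ => B) (𝒰 : Filter ℕ) (Icc 0 C) := by
  rw [Metric.tendstoUniformlyOn_iff]
  intro ε hε
  have hT1 : 1 < X.T := S.inp.hX.T1
  obtain ⟨T', hT'⟩ : ∃ T', T' = X.T + 1 := ⟨_, rfl⟩
  have hT'0 : 0 < T' := by rw [hT']; linarith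
  obtain ⟨C', hC'⟩ : ∃ C', C' = |C| + 1 := ⟨_, rfl⟩
  have hC'0 : 0 < C' := by rw [hC']; positivity
  obtain ⟨M, hM⟩ : ∃ M, M = T' ^ 2 * (|k.Csc| + 1) * Real.sqrt (T' * C') := ⟨_, rfl⟩
  have hM0 : 0 < M := by
    rw [hM]
    have : 0 < Real.sqrt (T' * C') := Real.sqrt_pos.2 (by positivity)
    positivity
  obtain ⟨δ, hδ⟩ : ∃ δ, δ = min (1 / C') ((ε / (4 * M)) ^ 2) := ⟨_, rfl⟩
  have hδ0 : 0 < δ := by rw [hδ]; exact lt_min (by positivity) (by positivity)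
  have hBe := (Metric.tendsto_nhds.1 hB) (ε / 4) (by positivity)
  filter_upwards [bd7_sq_basic S hδ0, hBe] with n hb hBn τ hτ
  obtain ⟨⟨hclk, hKm⟩, hTm, hwδ⟩ := hb
  have hw := S.w_pos n
  rw [abs_le] at hTm
  have hTm0 : 0 < (i n).F.Tm := by linarith [hTm.1]
  have hTm1 : (i n).F.Tm ≤ T' := by rw [hT']; linarith [hTm.2]
  have hτC : τ ≤ C' := by rw [hC']; exact hτ.2.trans ((le_abs_self C).trans (by linarith))
  obtain ⟨t, ht⟩ : ∃ t, t = (i n).F.Tm * (i n).w * τ := ⟨_, rfl⟩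
  have ht0 : 0 ≤ t := by rw [ht]; exact mul_nonneg (by positivity) hτ.1
  have hwτ : (i n).w * τ ≤ 1 := by
    have h1 : (i n).w ≤ 1 / C' := hwδ.trans (hδ ▸ min_le_left _ _)
    calc (i n).w * τ ≤ (1 / C') * C' := mul_le_mul h1 hτC hτ.1 (by positivity)
      _ = 1 := by field_simp
  have htT : t ≤ k.Tmax := by
    have : t ≤ T' * 1 := by
      rw [ht, mul_assoc]
      exact mul_le_mul hTm1 hwτ (mul_nonneg hw.le hτ.1) hT'0.le
    rw [hT'] at this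
    linarith [S.inp.Tmax]
  have hexp := S.inp.sc.B2_exp _ hclk hKm t ⟨ht0, htT⟩
  have hdiff : ((i n).rg W Sc (H n)).Bc τ - (i n).rgB W Sc
      = (i n).F.Tm ^ 2 * (Sc.B2 ((i n).Kh W) t - 2 * Sc.a2 ((i n).Kh W) ^ 3) := by
    have hP : ((i n).rg W Sc (H n)).Bc τ = (i n).F.Tm ^ 2 * Sc.B2 ((i n).Kh W) t := by rw [ht]; rfl
    rw [hP]
    unfold Bd7I.rgB
    ring
  have hsq : Real.sqrt t ≤ Real.sqrt (T' * C') * (ε / (4 * M)) := by
    have h1 : t ≤ (T' * C') * (ε / (4 * M)) ^ 2 := by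
      have hw2 : (i n).w ≤ (ε / (4 * M)) ^ 2 := hwδ.trans (hδ ▸ min_le_right _ _)
      have : t = ((i n).F.Tm * τ) * (i n).w := by rw [ht]; ring
      rw [this]
      exact mul_le_mul (mul_le_mul hTm1 hτC hτ.1 hT'0.le) hw2 hw.le (by positivity)
    calc Real.sqrt t ≤ Real.sqrt ((T' * C') * (ε / (4 * M)) ^ 2) := Real.sqrt_le_sqrt h1
      _ = Real.sqrt (T' * C') * (ε / (4 * M)) := by
          rw [Real.sqrt_mul (by positivity), Real.sqrt_sq (by positivity)]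
  have hb1 : |((i n).rg W Sc (H n)).Bc τ - (i n).rgB W Sc| ≤ ε / 4 := by
    rw [hdiff, abs_mul, abs_of_nonneg (by positivity : (0:ℝ) ≤ (i n).F.Tm ^ 2)]
    have h1 : k.Csc * Real.sqrt t ≤ (|k.Csc| + 1) * Real.sqrt t :=
      mul_le_mul_of_nonneg_right ((le_abs_self _).trans (by linarith)) (Real.sqrt_nonneg _)
    have h4 : (i n).F.Tm ^ 2 ≤ T' ^ 2 := pow_le_pow_left₀ hTm0.le hTm1 2
    calc (i n).F.Tm ^ 2 * |Sc.B2 ((i n).Kh W) t - 2 * Sc.a2 ((i n).Kh W) ^ 3|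
        ≤ T' ^ 2 * ((|k.Csc| + 1) * (Real.sqrt (T' * C') * (ε / (4 * M)))) := by
          apply mul_le_mul h4 _ (abs_nonneg _) (by positivity)
          exact (hexp.trans h1).trans (mul_le_mul_of_nonneg_left hsq (by positivity))
      _ = M * (ε / (4 * M)) := by rw [hM]; ring
      _ = ε / 4 := by field_simp
  rw [Real.dist_eq] at hBn
  rw [Real.dist_eq, abs_sub_comm]
  have := abs_add_le (((i n).rg W Sc (H n)).Bc τ - (i n).rgB W Sc) ((i n).rgB W Sc - B)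
  have e : ((i n).rg W Sc (H n)).Bc τ - (i n).rgB W Sc + ((i n).rgB W Sc - B)
      = ((i n).rg W Sc (H n)).Bc τ - B := by ring
  rw [e] at this
  linarith

/-- the removal profile is constant on compact rescaled radii: `e = C0/w²`, `p = 0` -/
theorem bd7_sq_flat (S : Bd7Seq X W Fam Sc k Kb cL CL cs 𝒰 i H) (C : ℝ) :
    ∀ᶠ n in (𝒰 : Filter ℕ), ∀ t, 0 ≤ t → t ≤ C →
      ((i n).rg W Sc (H n)).e t = (i n).F.C0 / (i n).w ^ 2 ∧ ((i n).rg W Sc (H n)).p t = 0 := by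
  have hcd := S.inp.hX.cd_pos
  filter_upwards [bd7_sq_wu S (ε := X.cd ^ 3 / (|C| + 1)) (by positivity)] with n hn t h0 hC
  have hw := S.w_pos n
  have hu := BdFr.u_pos' S.inp.hX (S.str n).ok
  have h1 : (i n).w * t ≤ X.cd ^ 3 * (i n).F.u := by
    have h2 : t ≤ |C| + 1 := hC.trans ((le_abs_self C).trans (by linarith))
    calc (i n).w * t ≤ (X.cd ^ 3 / (|C| + 1) * (i n).F.u) * (|C| + 1) := mul_le_mul hn h2 h0 (by positivity)
      _ = X.cd ^ 3 * (i n).F.u := by field_simp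
  obtain ⟨e1, e2⟩ := bd7_ar_flat S.inp.hX (S.str n).ok h1
  refine ⟨?_, e2⟩
  show (i n).F.C X ((i n).w * t) / (i n).w ^ 2 = _
  rw [e1]

/-- off the floor the mismatch is at most a cap width, for almost every mass of a band (eventually) -/
theorem bd7_sq_rel (S : Bd7Seq X W Fam Sc k Kb cL CL cs 𝒰 i H) (c C : ℝ) (hc : 0 < c) :
    ∀ᶠ n in (𝒰 : Filter ℕ), volume (((i n).rg W Sc (H n)).mset c C (fun t => ((i n).rg W Sc (H n)).H t ≤ 0 ∧
      ((i n).rg W Sc (H n)).ell < |((i n).rg W Sc (H n)).s t - t|)) = 0 := by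
  have hcI := S.inp.hX.cI_pos
  filter_upwards [S.ctx, bd7_sq_R_ge S C, bd7_sq_wu S (ε := X.cI / (2 * (|C| + 1))) (by positivity)]
    with n hctx hR hwu
  have hw := hctx.w_pos
  have hu := BdFr.u_pos' S.inp.hX (S.str n).ok
  have hM := bd7_ar_Mj_pos (S.str n).ok
  rw [hctx.mset_vol (H n) hc hR]
  have hnull : volume {v | v ∈ (i n).bandM c C ∧ (((i n).rg W Sc (H n)).H ((i n).Q.r v / (i n).w) ≤ 0 ∧
      ((i n).rg W Sc (H n)).ell < |((i n).rg W Sc (H n)).s ((i n).Q.r v / (i n).w) - (i n).Q.r v / (i n).w|)} = 0 := by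
    refine measure_mono_null ?_ (ae_iff.1 (S.pot n).flat_m)
    rintro v ⟨hb, hH, hs⟩
    obtain ⟨hv01, htpos, htle, hmas⟩ := hctx.bandM_mem hc hR hb
    have hrad : (i n).rad ((i n).Q.r v / (i n).w) = (i n).Q.r v := by
      rw [Bd7I.rad_eq hw htpos.le htle, mul_div_cancel₀ _ hw.ne']
    have eH : ((i n).rg W Sc (H n)).H ((i n).Q.r v / (i n).w) = H n ((i n).Q.r v) / (i n).w ^ 4 := by
      show H n ((i n).rad ((i n).Q.r v / (i n).w)) / (i n).w ^ 4 = _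
      rw [hrad]
    have es : ((i n).rg W Sc (H n)).s ((i n).Q.r v / (i n).w) = (i n).Q.Sq W (i n).g v / (i n).w := by
      simp only [Bd7I.rg]; rw [if_neg (by linarith), hmas]
    have el : ((i n).rg W Sc (H n)).ell = 1 / ((i n).F.Mj * (i n).w) := rfl
    rw [eH] at hH
    rw [es, el, ← sub_div, abs_div, abs_of_pos hw, lt_div_iff₀ hw] at hs
    have h1 : (i n).Q.r v ≤ X.cI * (i n).F.u / 2 := by
      have h2 : C ≤ |C| + 1 := (le_abs_self C).trans (by linarith)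
      calc (i n).Q.r v ≤ C * (i n).w := hb.2.2
        _ ≤ (|C| + 1) * (X.cI / (2 * (|C| + 1)) * (i n).F.u) := mul_le_mul h2 hwu hw.le (by positivity)
        _ = X.cI * (i n).F.u / 2 := by field_simp
    have h2 : H n ((i n).Q.r v) ≤ 0 := by
      by_contra hcon
      push Not at hcon
      have : 0 < H n ((i n).Q.r v) / (i n).w ^ 4 := by positivity
      linarith
    have h3 : 1 / (i n).F.Mj < |(i n).Q.Sq W (i n).g v - (i n).Q.r v| := by
      have e : 1 / ((i n).F.Mj * (i n).w) * (i n).w = 1 / (i n).F.Mj := by field_simp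
      rwa [e] at hs
    intro hcon
    exact absurd (hcon hv01 h1 h2) (not_le.2 h3)
  rw [hnull, mul_zero]

/-- `C0/w² ≥ cs` -/
theorem bd7_sq_lam_ge (S : Bd7Seq X W Fam Sc k Kb cL CL cs 𝒰 i H) (n : ℕ) :
    cs ≤ (i n).F.C0 / (i n).w ^ 2 := by
  have hw := S.w_pos n
  rw [le_div_iff₀ (by positivity)]
  exact le_trans (S.str n).strong (bd7_ar_C_le S.inp.hX (S.str n).ok _)

/-- `(C0/w²) / (M_j w) ≤ x^97 → 0` -/
theorem bd7_sq_lam_ell (S : Bd7Seq X W Fam Sc k Kb cL CL cs 𝒰 i H) :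
    Tendsto (fun n => (i n).F.C0 / (i n).w ^ 2 * ((i n).rg W Sc (H n)).ell) (𝒰 : Filter ℕ) (𝓝 0) := by
  rw [Metric.tendsto_nhds]
  intro ε hε
  obtain ⟨N0, h⟩ := bd7_ar_x_small X (a := 97) (ε := ε / 2) (by norm_num) (by linarith)
  filter_upwards [S.ev N0] with n hn
  have hok := (S.str n).ok
  have hx := BdFr.x_pos' hok
  have h1 := bd7_ar_Mj_ge hok
  have h2 := (bd7_ar_x_le_wc S.inp.hX hok).trans (S.str n).w_lo
  have h3 := h (i n).F hok hn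
  have hw := S.w_pos n
  have hC0 := bd7_ar_C0_pos S.inp.hX hok
  have hC1 := bd7_ar_C0_le_one S.inp.hX hok
  have hp : 0 < (i n).F.x ^ (-(100 : ℝ)) := Real.rpow_pos_of_pos hx _
  have hM : 0 < (i n).F.Mj := lt_of_lt_of_le hp h1
  have el : ((i n).rg W Sc (H n)).ell = 1 / ((i n).F.Mj * (i n).w) := rfl
  have e1 : (i n).F.C0 / (i n).w ^ 2 * ((i n).rg W Sc (H n)).ell = (i n).F.C0 / ((i n).F.Mj * (i n).w ^ 3) := by
    rw [el]; field_simp
  have h4 : (i n).F.x ^ (-(100 : ℝ)) * (i n).F.x ^ 3 ≤ (i n).F.Mj * (i n).w ^ 3 :=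
    mul_le_mul h1 (pow_le_pow_left₀ hx.le h2 3) (by positivity) hM.le
  have h5 : (i n).F.x ^ (-(100 : ℝ)) * (i n).F.x ^ 3 = (i n).F.x ^ (-(97 : ℝ)) := by
    rw [← Real.rpow_natCast (i n).F.x 3, ← Real.rpow_add hx]
    norm_num
  rw [h5] at h4
  have h6 : 0 < (i n).F.x ^ (-(97 : ℝ)) := Real.rpow_pos_of_pos hx _
  have h7 : (i n).F.C0 / ((i n).F.Mj * (i n).w ^ 3) ≤ 1 / (i n).F.x ^ (-(97 : ℝ)) :=
    div_le_div₀ zero_le_one hC1 h6 h4
  have h8 : 1 / (i n).F.x ^ (-(97 : ℝ)) = (i n).F.x ^ (97 : ℝ) := by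
    rw [Real.rpow_neg hx.le, one_div, inv_inv]
  rw [Real.dist_eq, sub_zero, e1, abs_of_pos (by positivity)]
  rw [h8] at h7
  linarith

/-- R8: along the ultrafilter `C0/w²` tends to infinity or to a positive number -/
theorem bd7_sq_regime (S : Bd7Seq X W Fam Sc k Kb cL CL cs 𝒰 i H) :
    RgDiv (𝒰 : Filter ℕ) (fun n => (i n).rg W Sc (H n)) ∨ RgBdd (𝒰 : Filter ℕ) (fun n => (i n).rg W Sc (H n)) := by
  have hpos : ∀ᶠ n in (𝒰 : Filter ℕ), 0 ≤ (i n).F.C0 / (i n).w ^ 2 :=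
    Eventually.of_forall fun n => S.cs_pos.le.trans (bd7_sq_lam_ge S n)
  rcases tl_114_pos_trichotomy 𝒰 hpos with h0 | ⟨l, hl, hlim⟩ | hinf
  · exfalso
    have : cs ≤ 0 := ge_of_tendsto h0 (Eventually.of_forall (bd7_sq_lam_ge S))
    linarith [S.cs_pos]
  · right
    refine ⟨⟨fun _ => l, fun _ => 0, 1, one_pos, continuous_const, continuous_const, fun _ _ => hl, ?_, ?_, ?_⟩, ?_⟩
    · intro C
      rw [Metric.tendstoUniformlyOn_iff]
      intro ε hε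
      filter_upwards [bd7_sq_flat S C, Metric.tendsto_nhds.1 hlim ε hε] with n h1 h2 t ht
      rw [(h1 t ht.1 ht.2).1, dist_comm]
      exact h2
    · intro C
      rw [Metric.tendstoUniformlyOn_iff]
      intro ε hε
      filter_upwards [bd7_sq_flat S C] with n h1 t ht
      rw [(h1 t ht.1 ht.2).2, dist_self]
      exact hε
    · filter_upwards [bd7_sq_flat S 1] with n h1 t h0 ht
      exact (h1 t h0 ht).2
    · intro c C hc
      refine ⟨1, one_pos, ?_⟩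
      refine tendsto_const_nhds.congr' ?_
      filter_upwards [bd7_sq_rel S c C hc, bd7_sq_ok S] with n hn hok
      symm
      refine measure_mono_null ?_ hn
      intro v hv
      refine ⟨hv.1, hv.2.1, hv.2.2.1, hv.2.2.2.1, lt_of_le_of_lt ?_ hv.2.2.2.2⟩
      have := hok.dl_nn (((i n).rg W Sc (H n)).r v)
      linarith
  · left
    refine ⟨⟨fun n => (i n).F.C0 / (i n).w ^ 2, hinf, bd7_sq_lam_ell S, fun C => bd7_sq_flat S C⟩, fun c C hc => ?_⟩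
    refine tendsto_const_nhds.congr' ?_
    filter_upwards [bd7_sq_rel S c C hc] with n hn
    exact hn.symm

theorem bd7_sq_A_pos (S : Bd7Seq X W Fam Sc k Kb cL CL cs 𝒰 i H) {A : ℝ}
    (hA : Tendsto (fun n => (i n).rgA W Sc) (𝒰 : Filter ℕ) (𝓝 A)) : 0 < A := by
  have hc4 := S.inp.sc.c4_pos
  have hT1 : 1 < X.T := S.inp.hX.T1
  have hle : (1 / 2) ^ 3 * k.c4 ^ 2 ≤ A := by
    refine ge_of_tendsto hA ?_
    filter_upwards [bd7_sq_basic S one_pos] with n hb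
    obtain ⟨⟨hclk, hKm⟩, hTm, -⟩ := hb
    rw [abs_le] at hTm
    have h4 := S.inp.sc.a4_mem _ hclk hKm
    have h1 : (1 / 2 : ℝ) ^ 3 ≤ (i n).F.Tm ^ 3 := pow_le_pow_left₀ (by norm_num) (by linarith [hTm.1]) 3
    have h2 : k.c4 ^ 2 ≤ Sc.a4 ((i n).Kh W) ^ 2 := by
      have := pow_le_pow_left₀ hc4.le h4.1 2
      rwa [neg_sq] at this
    unfold Bd7I.rgA
    exact mul_le_mul h1 h2 (by positivity) (by linarith [hTm.1, pow_pos (by linarith [hTm.1] : 0 < (i n).F.Tm) 3])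
  have : 0 < (1 / 2 : ℝ) ^ 3 * k.c4 ^ 2 := by positivity
  linarith

theorem bd7_sq_B_pos (S : Bd7Seq X W Fam Sc k Kb cL CL cs 𝒰 i H) {B : ℝ}
    (hB : Tendsto (fun n => (i n).rgB W Sc) (𝒰 : Filter ℕ) (𝓝 B)) : 0 < B := by
  have hc2 := S.inp.sc.c2_pos
  have hT1 : 1 < X.T := S.inp.hX.T1
  have hle : 2 * (1 / 2) ^ 2 * k.c2 ^ 3 ≤ B := by
    refine ge_of_tendsto hB ?_
    filter_upwards [bd7_sq_basic S one_pos] with n hb
    obtain ⟨⟨hclk, hKm⟩, hTm, -⟩ := hb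
    rw [abs_le] at hTm
    have h4 := S.inp.sc.a2_mem _ hclk hKm
    have h1 : (1 / 2 : ℝ) ^ 2 ≤ (i n).F.Tm ^ 2 := pow_le_pow_left₀ (by norm_num) (by linarith [hTm.1]) 2
    have h2 : k.c2 ^ 3 ≤ Sc.a2 ((i n).Kh W) ^ 3 := pow_le_pow_left₀ hc2.le h4.1 3
    unfold Bd7I.rgB
    exact mul_le_mul (by linarith) h2 (by positivity) (by positivity)
  have : 0 < 2 * (1 / 2 : ℝ) ^ 2 * k.c2 ^ 3 := by positivity
  linarith

end leaves

section cut

variable {X : BdFix} {W : BdWorld} {Fam : BdFr → Prop} {Sc : Bd7Sc} {k : Bd7ScC} {Kb cL CL : ℝ}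

/-- **T3: the rescaled strong instances satisfy the hypotheses of RIG** -/
theorem bd7_rig_inst (h : Bd7SIn X W Fam Sc k Kb cL CL) {cs : ℝ} (hcs : 0 < cs) (𝒰 : Ultrafilter ℕ)
    (i : ℕ → Bd7I X) (H : ℕ → ℝ → ℝ) (hi : ∀ n, (i n).Str W Fam cL CL cs) (hH : ∀ n, (i n).Pot W (H n))
    (hN : Tendsto (fun n => (i n).F.N) (𝒰 : Filter ℕ) atTop) {A B : ℝ}
    (hA : Tendsto (fun n => (i n).rgA W Sc) (𝒰 : Filter ℕ) (𝓝 A))
    (hB : Tendsto (fun n => (i n).rgB W Sc) (𝒰 : Filter ℕ) (𝓝 B)) :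
    RgHyp (𝒰 : Filter ℕ) (fun n => (i n).rg W Sc (H n)) X.T A B := by
  have S : Bd7Seq X W Fam Sc k Kb cL CL cs 𝒰 i H := ⟨h, hcs, hi, hH, hN⟩
  have hCL : 0 < CL := lt_of_lt_of_le h.cL_pos h.cL_le
  exact
  { T_pos := by linarith [h.hX.T1]
    A_pos := bd7_sq_A_pos S hA
    B_pos := bd7_sq_B_pos S hB
    ok := ⟨1 / CL, 1 / cL, 2 * CL + 1, 1, by positivity, by have := h.cL_pos; positivity, by positivity,
      one_pos, bd7_sq_ok S⟩
    x_lim := bd7_sq_x_lim S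
    T_lim := bd7_sq_T_lim S
    R_lim := bd7_sq_R_lim S
    ell_lim := bd7_sq_ell_lim S
    a0_lim := by
      have : (fun n => ((i n).rg W Sc (H n)).a 0) = fun _ => (0 : ℝ) := by
        funext n
        simp [Bd7I.rg, Bd7I.mas, Bd7I.rad, (i n).Q.al_zero]
      rw [this]
      exact tendsto_const_nhds
    raw := bd7_sq_raw S
    rho_bd := bd7_sq_rho_bd S
    z_lim := bd7_sq_z_lim S
    dl_rad := bd7_sq_dl_rad S
    rho_rad := bd7_sq_rho_rad S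
    dl_mass := bd7_sq_dl_mass S
    rho_mass := bd7_sq_rho_mass S
    floor_mass := bd7_sq_floor_mass S
    J_dist := fun c C _ => ⟨1, Eventually.of_forall fun n t _ t' _ => by simp [Bd7I.rg]⟩
    P_lim := bd7_sq_P_lim S hA
    Bc_lim := bd7_sq_Bc_lim S hB
    regime := bd7_sq_regime S }

/-- **T4 = Step 2**: no strong-removal violation, provided the loose constants lie strictly outside the bounds of the limiting slope `B/A = 2 a_2³/(T a_4²)` -/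
theorem bd7_strong (h : Bd7SIn X W Fam Sc k Kb cL CL)
    (hlo : cL < 2 * k.c2 ^ 3 / (X.T * k.C4 ^ 2)) (hhi : 2 * k.C2 ^ 3 / (X.T * k.c4 ^ 2) < CL) :
    Bd7Strong X W Fam cL CL := by
  intro cs hcs
  by_contra hcon
  have hcon' : ∀ N0 : ℕ, ∃ i : Bd7I X, i.Out W Fam cL CL ∧ N0 ≤ i.F.N ∧ i.F.Strong X i.w cs ∧ ¬ i.Good cL CL := by
    intro N0
    by_contra hc
    exact hcon ⟨N0, fun i h1 h2 h3 => by
      by_contra h4
      exact hc ⟨i, h1, h2, h3, h4⟩⟩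
  obtain ⟨Ng, hgeo⟩ := h.geo
  obtain ⟨Nk, hKh⟩ := bd7_Kh_clock h
  choose i hi1 hi2 hi3 hi4 using fun n : ℕ => hcon' (max n (max Ng Nk))
  have hstr : ∀ n, (i n).Str W Fam cL CL cs := fun n => { toOut := hi1 n, strong := hi3 n }
  have hstd : ∀ n, (i n).Std W Fam := fun n => (hi1 n).toStd
  have hNg : ∀ n, Ng ≤ (i n).F.N := fun n => ((le_max_left _ _).trans (le_max_right _ _)).trans (hi2 n)
  have hNk : ∀ n, Nk ≤ (i n).F.N := fun n => ((le_max_right _ _).trans (le_max_right _ _)).trans (hi2 n)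
  choose H hH using fun n => hgeo (i n) (hstd n) (hNg n)
  let 𝒰 : Ultrafilter ℕ := Filter.hyperfilter ℕ
  have hU : (𝒰 : Filter ℕ) ≤ atTop := Nat.hyperfilter_le_atTop
  have hN : Tendsto (fun n => (i n).F.N) (𝒰 : Filter ℕ) atTop := by
    refine Tendsto.mono_left ?_ hU
    exact tendsto_atTop_mono (fun n => (le_max_left _ _).trans (hi2 n)) tendsto_id
  have hT1 : 1 < X.T := h.hX.T1
  have hT0 : 0 < X.T := by linarith
  -- limits of the scalar coefficients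
  have hTm : Tendsto (fun n => (i n).F.Tm) (𝒰 : Filter ℕ) (𝓝 X.T) := by
    rw [Metric.tendsto_nhds]
    intro ε hε
    obtain ⟨N0, hp9⟩ := h.p9 1 (ε / 2) one_pos (by linarith)
    filter_upwards [hN.eventually_ge_atTop N0] with n hn
    have := (hp9 (i n).F (hstd n).fam (hstd n).ok hn).1
    rw [Real.dist_eq]
    linarith
  obtain ⟨a2, ha2m, ha2⟩ := tl_114_lim_Icc 𝒰 (a := fun n => Sc.a2 ((i n).Kh W)) (lo := k.c2) (hi := k.C2)
    (Eventually.of_forall fun n => h.sc.a2_mem _ (hKh _ (hstd n) (hNk n)).1 (hKh _ (hstd n) (hNk n)).2)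
  obtain ⟨a4, ha4m, ha4⟩ := tl_114_lim_Icc 𝒰 (a := fun n => -Sc.a4 ((i n).Kh W)) (lo := k.c4) (hi := k.C4)
    (Eventually.of_forall fun n => h.sc.a4_mem _ (hKh _ (hstd n) (hNk n)).1 (hKh _ (hstd n) (hNk n)).2)
  have hA : Tendsto (fun n => (i n).rgA W Sc) (𝒰 : Filter ℕ) (𝓝 (X.T ^ 3 * a4 ^ 2)) := by
    have := (hTm.pow 3).mul (ha4.pow 2)
    refine this.congr fun n => ?_
    simp only [Bd7I.rgA]
    ring
  have hB : Tendsto (fun n => (i n).rgB W Sc) (𝒰 : Filter ℕ) (𝓝 (2 * X.T ^ 2 * a2 ^ 3)) :=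
    ((hTm.pow 2).const_mul 2).mul (ha2.pow 3)
  have hyp := bd7_rig_inst h hcs 𝒰 i H hstr hH hN hA hB
  have hmain := (rg_main hyp).2 1 1 one_pos le_rfl
  have hr1 : Tendsto (fun n => ((i n).rg W Sc (H n)).r 1) (𝒰 : Filter ℕ)
      (𝓝 (2 * X.T ^ 2 * a2 ^ 3 / (X.T ^ 3 * a4 ^ 2) * 1)) :=
    hmain.tendsto_at (by simp)
  -- the slope lies strictly between the loose constants
  have hc2 := h.sc.c2_pos
  have hc4 := h.sc.c4_pos
  have ha2p : 0 < a2 := lt_of_lt_of_le hc2 ha2m.1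
  have ha4p : 0 < a4 := lt_of_lt_of_le hc4 ha4m.1
  have hslope : 2 * X.T ^ 2 * a2 ^ 3 / (X.T ^ 3 * a4 ^ 2) * 1 = 2 * a2 ^ 3 / (X.T * a4 ^ 2) := by
    field_simp
  rw [hslope] at hr1
  have hlo' : cL < 2 * a2 ^ 3 / (X.T * a4 ^ 2) := by
    refine lt_of_lt_of_le hlo ?_
    have h1 : k.c2 ^ 3 ≤ a2 ^ 3 := pow_le_pow_left₀ hc2.le ha2m.1 3
    have h2 : a4 ^ 2 ≤ k.C4 ^ 2 := pow_le_pow_left₀ ha4p.le ha4m.2 2
    exact div_le_div₀ (by positivity) (by linarith) (by positivity) (mul_le_mul_of_nonneg_left h2 hT0.le)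
  have hhi' : 2 * a2 ^ 3 / (X.T * a4 ^ 2) < CL := by
    refine lt_of_le_of_lt ?_ hhi
    have h1 : a2 ^ 3 ≤ k.C2 ^ 3 := pow_le_pow_left₀ ha2p.le ha2m.2 3
    have h2 : k.c4 ^ 2 ≤ a4 ^ 2 := pow_le_pow_left₀ hc4.le ha4m.1 2
    have hC2 : 0 < k.C2 := lt_of_lt_of_le ha2p ha2m.2
    exact div_le_div₀ (by positivity) (by linarith) (by positivity) (mul_le_mul_of_nonneg_left h2 hT0.le)
  have hev := (hr1.eventually (lt_mem_nhds hlo')).and (hr1.eventually (gt_mem_nhds hhi'))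
  obtain ⟨n, hn1, hn2⟩ := hev.exists
  apply hi4 n
  have hw0 : 0 < (i n).w := lt_of_lt_of_le (BdFr.wc_pos' h.hX (hstd n).ok) (hi1 n).w_lo
  have hw1 : (i n).w ≤ 1 := (hi1 n).w_hi
  have e : ((i n).rg W Sc (H n)).r 1 = (i n).Q.r (i n).w / (i n).w := by
    simp only [Bd7I.rg, mul_one]
    rw [min_eq_left hw1, max_eq_right hw0.le]
  rw [e] at hn1 hn2
  rw [lt_div_iff₀ hw0] at hn1
  rw [div_lt_iff₀ hw0] at hn2
  exact ⟨hn1.le, hn2.le⟩

end cut

end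

end Claimed.Agent.R286
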