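import Claimed.Agent.R286.Bud.L07Sep
import Claimed.Agent.R286.Bud.Cp
import Claimed.Agent.R286.Bud.GeoBr

/-!
# Row 286, LL 07-budgets Step 1 (l.902-960), node T8 : NO THRESHOLD SEPARATION      owner helper186, prefix `skns_` (abstract), `bd7wb_` (LL instance)
TEX[LL:bud:modified-closure]#902-960

EXIT = `BcpNoSep X W Fam c0 cL CL` of `Bud/Cp.lean` (helper286).

* sec. 1  profiles (`φ` antitone, `t φ(t)` monotone): `skns_prof_ge, _le, _cube`.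
* sec. 2  FIXED SIZE, thresholds at a scale `y`: `SkSp.ns_up_full`, `ns_up`, `ns_dn_full`, `ns_dn`  (= `SkSp.sep_*` of `Bud/L07Sep.lean` with `θ y, c y`).
* sec. 3  FIXED SIZE, ratios of strengths: `skns_ratA` (regime A: `e(1) ≪ x 𝒟(x)`), `skns_ratL` (`y ≲ x`: `e(0) ≪ 𝒟(x)`), `skns_ratB` (`t_y e(ρ) ≲ 𝒟(y)`).
* sec. 4  SEQUENCES: `SkNs U d x Y ks ls cl Ch C0` (no model, no call: only the profiles `ef`, `Df`), **`skns_main : SkNs … → BcpNS U r z x Y`**.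
          regime A (LL l.947: `w ≥ λ^{k_c/4} u`): full clipping;   regime B (LL l.951: all active radii below the patch): capped / harmonic partial moves.
* sec. 5  LL INSTANCE: `Bd7I.sp`, …, **`bd7wb_nosep`**.
-/

set_option autoImplicit false

namespace Claimed.Agent.R286

open MeasureTheory Set Filter Topology

/-! ## 1. profiles -/

section prof

variable {φ : ℝ → ℝ}

theorem skns_prof_ge (ha : AntitoneOn φ (Ici 0)) (hm : MonotoneOn (fun t => t * φ t) (Ici 0)) (hp : ∀ t, 0 ≤ t → 0 < φ t)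
    {s y : ℝ} (hs : 0 < s) (hy : 0 ≤ y) : min 1 (1 / s) * φ y ≤ φ (s * y) := by
  have hsy : 0 ≤ s * y := mul_nonneg hs.le hy
  have py := (hp y hy).le
  rcases le_total s 1 with h | h
  · have h1 : s * y ≤ y := by nlinarith
    have h2 : φ y ≤ φ (s * y) := ha (mem_Ici.2 hsy) (mem_Ici.2 hy) h1
    have h3 : min 1 (1 / s) * φ y ≤ 1 * φ y := mul_le_mul_of_nonneg_right (min_le_left _ _) py
    linarith
  · have h3 : min 1 (1 / s) * φ y ≤ 1 / s * φ y := mul_le_mul_of_nonneg_right (min_le_right _ _) py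
    refine h3.trans ?_
    rcases hy.eq_or_lt with h0 | h0
    · rw [← h0, mul_zero]
      have : 1 / s ≤ 1 := by rw [div_le_one hs]; exact h
      have p0 := (hp 0 le_rfl).le
      nlinarith
    · have h1 : y ≤ s * y := by nlinarith
      have h2 : y * φ y ≤ s * y * φ (s * y) := hm (mem_Ici.2 hy) (mem_Ici.2 hsy) h1
      rw [div_mul_eq_mul_div, one_mul, div_le_iff₀ hs]
      have h4 : y * φ y ≤ y * (φ (s * y) * s) := by linarith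
      exact le_of_mul_le_mul_left h4 h0

theorem skns_prof_le (ha : AntitoneOn φ (Ici 0)) (hm : MonotoneOn (fun t => t * φ t) (Ici 0)) (hp : ∀ t, 0 ≤ t → 0 < φ t)
    {s y : ℝ} (hs : 0 < s) (hy : 0 ≤ y) : φ (s * y) ≤ max 1 (1 / s) * φ y := by
  have hsy : 0 ≤ s * y := mul_nonneg hs.le hy
  have py := (hp y hy).le
  rcases le_total 1 s with h | h
  · have h1 : y ≤ s * y := by nlinarith
    have h2 : φ (s * y) ≤ φ y := ha (mem_Ici.2 hy) (mem_Ici.2 hsy) h1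
    have h3 : 1 * φ y ≤ max 1 (1 / s) * φ y := mul_le_mul_of_nonneg_right (le_max_left _ _) py
    linarith
  · have h3 : 1 / s * φ y ≤ max 1 (1 / s) * φ y := mul_le_mul_of_nonneg_right (le_max_right _ _) py
    refine le_trans ?_ h3
    rcases hy.eq_or_lt with h0 | h0
    · rw [← h0, mul_zero]
      have : 1 ≤ 1 / s := by rw [le_div_iff₀ hs]; linarith
      have p0 := (hp 0 le_rfl).le
      nlinarith
    · have h1 : s * y ≤ y := by nlinarith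
      have h2 : s * y * φ (s * y) ≤ y * φ y := hm (mem_Ici.2 hsy) (mem_Ici.2 hy) h1
      rw [div_mul_eq_mul_div, one_mul, le_div_iff₀ hs]
      have h4 : y * (φ (s * y) * s) ≤ y * φ y := by linarith
      exact le_of_mul_le_mul_left h4 h0

theorem skns_prof_cube (ha : AntitoneOn φ (Ici 0)) (hm : MonotoneOn (fun t => t * φ t) (Ici 0)) (hp : ∀ t, 0 ≤ t → 0 < φ t)
    {G x y : ℝ} (hG : 1 ≤ G) (hx : 0 ≤ x) (hy : 0 ≤ y) (hxy : x ≤ G * y) : φ x * x ^ 3 ≤ G ^ 3 * (φ y * y ^ 3) := by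
  have hG0 : 0 < G := by linarith
  have hGy : 0 ≤ G * y := mul_nonneg hG0.le hy
  have h1 : x * φ x ≤ G * y * φ (G * y) := hm (mem_Ici.2 hx) (mem_Ici.2 hGy) hxy
  have h2 : φ (G * y) ≤ φ y := ha (mem_Ici.2 hy) (mem_Ici.2 hGy) (by nlinarith)
  have h3 : x * φ x ≤ G * y * φ y := h1.trans (mul_le_mul_of_nonneg_left h2 hGy)
  have h4 : x ^ 2 ≤ (G * y) ^ 2 := pow_le_pow_left₀ hx hxy 2
  have py := (hp y hy).le
  calc φ x * x ^ 3 = (x * φ x) * x ^ 2 := by ring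
    _ ≤ (G * y * φ y) * (G * y) ^ 2 := mul_le_mul h3 h4 (sq_nonneg _) (mul_nonneg hGy py)
    _ = G ^ 3 * (φ y * y ^ 3) := by ring

end prof

/-! ## 2. fixed size: thresholds at a scale `y` -/

namespace SkSp

variable {d : SkSp}

/-- `z` above `r` at the scale `y`, full clipping -/
theorem ns_up_full (hd : d.Ok) {ks ls : ℝ} (hR : d.Reg ks ls) {y θ1 θ2 c1 c2 : ℝ} (hθ1 : 0 < θ1) (hθ : θ1 < θ2) (hc1 : 0 < c1)
    (hc : c1 < c2) (hy : 0 < y) (hy1 : c2 * y ≤ 1) (hsep : P6SepUp d.r d.z y θ1 θ2 c1 c2)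
    (hΛ : d.Λ 1 ≤ (θ2 - θ1) / 4 * y) (hslope : ks * (ls + (θ1 + θ2) / (c2 - c1)) ≤ 1)
    (hratio : (θ1 + 3 * θ2) / 4 * d.ef (d.r (c1 * y)) < (θ2 - θ1) / 4 * d.Df (θ2 * y)) :
    min 1 (1 / θ1) * ((θ2 - θ1) ^ 2 * (c2 - c1) / 4) * (d.ef y * y ^ 3) ≤ 4 * d.err := by
  have hcy : c1 * y < c2 * y := mul_lt_mul_of_pos_right hc hy
  have hθ2 : 0 < θ2 := by linarith
  have m0 : c1 * y ∈ Icc (0 : ℝ) 1 := ⟨by positivity, by linarith⟩
  have e0 := hd.ef_pos _ (hd.feas.rng hd.Λ_mono m0).1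
  have D0 := hd.Df_pos (θ2 * y) (by positivity)
  have key := sep_up_full hd hR (α0 := c1 * y) (α1 := (c1 + c2) / 2 * y) (α2 := c2 * y) (θ1 := θ1 * y) (θ2 := θ2 * y)
    (H := (θ1 + θ2) / 2 * y) (by positivity) (by nlinarith) (by nlinarith) hy1
    (hsep (c2 * y) hcy.le le_rfl).1 (hsep (c1 * y) le_rfl hcy.le).2 (by nlinarith) (by nlinarith)
    (by
      have : (θ1 + θ2) / 2 * y / ((c1 + c2) / 2 * y - c1 * y) = (θ1 + θ2) / (c2 - c1) := by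
        have h1 : c2 - c1 ≠ 0 := by linarith
        have h2 : (c1 + c2) / 2 * y - c1 * y = (c2 - c1) / 2 * y := by ring
        rw [h2]; field_simp
      rw [this]; exact hslope)
    (by
      have a1 : (d.Λ 1 + (θ1 + θ2) / 2 * y) * d.ef (d.r (c1 * y)) ≤ ((θ1 + 3 * θ2) / 4 * y) * d.ef (d.r (c1 * y)) :=
        mul_le_mul_of_nonneg_right (by linarith) e0.le
      have a2 : ((θ2 - θ1) / 4 * y) * d.Df (θ2 * y) ≤ (θ2 * y - (d.Λ 1 + (θ1 + θ2) / 2 * y)) * d.Df (θ2 * y) :=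
        mul_le_mul_of_nonneg_right (by linarith) D0.le
      have a3 := mul_lt_mul_of_pos_left hratio hy
      nlinarith)
  have h1 := skns_prof_ge hd.ef_anti hd.ef_mono hd.ef_pos hθ1 hy.le
  have h2 : 0 ≤ (θ2 - θ1) ^ 2 * (c2 - c1) / 4 * y ^ 3 := by
    have : 0 < c2 - c1 := by linarith
    positivity
  calc min 1 (1 / θ1) * ((θ2 - θ1) ^ 2 * (c2 - c1) / 4) * (d.ef y * y ^ 3)
      = (min 1 (1 / θ1) * d.ef y) * ((θ2 - θ1) ^ 2 * (c2 - c1) / 4 * y ^ 3) := by ring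
    _ ≤ d.ef (θ1 * y) * ((θ2 - θ1) ^ 2 * (c2 - c1) / 4 * y ^ 3) := mul_le_mul_of_nonneg_right h1 h2
    _ = d.ef (θ1 * y) * ((θ1 + θ2) / 2 * y - θ1 * y) * (θ2 * y - θ1 * y) * (c2 * y - (c1 + c2) / 2 * y) := by ring
    _ ≤ _ := key

/-- `z` above `r` at the scale `y`, capped clipping by `τ` -/
theorem ns_up (hd : d.Ok) {ks ls : ℝ} (hR : d.Reg ks ls) {y θ1 θ2 c1 c2 τ : ℝ} (hθ1 : 0 < θ1) (hθ : θ1 < θ2) (hc1 : 0 < c1)
    (hc : c1 < c2) (hy : 0 < y) (hy1 : c2 * y ≤ 1) (hsep : P6SepUp d.r d.z y θ1 θ2 c1 c2)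
    (hΛ : d.Λ 1 ≤ (θ2 - θ1) / 4 * y) (hslope : ks * (ls + (θ1 + θ2) / (c2 - c1)) ≤ 1)
    (hτ0 : 0 ≤ τ) (hτ : τ ≤ (θ2 - θ1) / 2 * y)
    (hconc : ∀ p q : ℝ, 0 ≤ p → p ≤ q → q + τ ≤ (θ1 + 3 * θ2) / 4 * y → d.Ψ (q + τ) - d.Ψ (p + τ) ≤ d.Ψ q - d.Ψ p)
    (hratio : τ * (d.Df (θ2 * y) + d.ef (d.r (c1 * y))) < (θ2 - θ1) / 4 * y * d.Df (θ2 * y)) :
    min 1 (1 / θ1) * ((θ2 - θ1) * (c2 - c1) / 2) * (d.ef y * τ * y ^ 2) ≤ 4 * d.err := by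
  have hcy : c1 * y < c2 * y := mul_lt_mul_of_pos_right hc hy
  have hθ2 : 0 < θ2 := by linarith
  have D0 := hd.Df_pos (θ2 * y) (by positivity)
  have key := sep_up hd hR (α0 := c1 * y) (α1 := (c1 + c2) / 2 * y) (α2 := c2 * y) (θ1 := θ1 * y) (θ2 := θ2 * y)
    (H := (θ1 + θ2) / 2 * y) (τ := τ) (by positivity) (by nlinarith) (by nlinarith) hy1
    (hsep (c2 * y) hcy.le le_rfl).1 (hsep (c1 * y) le_rfl hcy.le).2 hτ0 (by nlinarith) (by nlinarith)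
    (by
      have : (θ1 + θ2) / 2 * y / ((c1 + c2) / 2 * y - c1 * y) = (θ1 + θ2) / (c2 - c1) := by
        have h1 : c2 - c1 ≠ 0 := by linarith
        have h2 : (c1 + c2) / 2 * y - c1 * y = (c2 - c1) / 2 * y := by ring
        rw [h2]; field_simp
      rw [this]; exact hslope)
    (fun p q h0 h1 h2 => hconc p q h0 h1 (by linarith))
    (by
      have a2 : ((θ2 - θ1) / 4 * y) * d.Df (θ2 * y) ≤ (θ2 * y - (d.Λ 1 + (θ1 + θ2) / 2 * y)) * d.Df (θ2 * y) :=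
        mul_le_mul_of_nonneg_right (by linarith) D0.le
      linarith)
  have h1 := skns_prof_ge hd.ef_anti hd.ef_mono hd.ef_pos hθ1 hy.le
  have h2 : 0 ≤ (θ2 - θ1) * (c2 - c1) / 2 * (τ * y ^ 2) := by
    have : 0 < c2 - c1 := by linarith
    have : 0 < θ2 - θ1 := by linarith
    positivity
  calc min 1 (1 / θ1) * ((θ2 - θ1) * (c2 - c1) / 2) * (d.ef y * τ * y ^ 2)
      = (min 1 (1 / θ1) * d.ef y) * ((θ2 - θ1) * (c2 - c1) / 2 * (τ * y ^ 2)) := by ring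
    _ ≤ d.ef (θ1 * y) * ((θ2 - θ1) * (c2 - c1) / 2 * (τ * y ^ 2)) := mul_le_mul_of_nonneg_right h1 h2
    _ = d.ef (θ1 * y) * τ * (θ2 * y - θ1 * y) * (c2 * y - (c1 + c2) / 2 * y) := by ring
    _ ≤ _ := key

/-- common facts of a downward separation -/
theorem ns_dn_aux (hd : d.Ok) {ks ls : ℝ} (hR : d.Reg ks ls) {y θ1 θ2 c1 c2 : ℝ} (hθ1 : 0 < θ1) (hθ : θ1 < θ2) (hc1 : 0 < c1)
    (hc : c1 < c2) (hy : 0 < y) (hy1 : c2 * y ≤ 1) (hΨ : d.Ψ 1 - d.Ψ 0 ≤ (c2 - c1) / 2 * y) :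
    (c1 + c2) / 2 * y + (d.Ψ 1 - d.Ψ ((θ1 + θ2) / 2 * y + d.Λ ((c1 + c2) / 2 * y))) ≤ c2 * y := by
  have hθ2 : 0 < θ2 := by linarith
  have hc2 : 0 < c2 := by linarith
  have ma : (c1 + c2) / 2 * y ∈ Icc (0 : ℝ) 1 := ⟨by positivity, by nlinarith⟩
  have m0 : (0 : ℝ) ∈ Icc (0 : ℝ) 1 := ⟨le_rfl, zero_le_one⟩
  have h1 : 0 ≤ d.Λ ((c1 + c2) / 2 * y) := by rw [← hd.Λ0]; exact hd.Λ_mono m0 ma ma.1
  have h2 : d.Ψ 0 ≤ d.Ψ ((θ1 + θ2) / 2 * y + d.Λ ((c1 + c2) / 2 * y)) := hR.Ψ_mono (by positivity)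
  linarith

/-- `z` below `r` at the scale `y`, full clipping -/
theorem ns_dn_full (hd : d.Ok) {ks ls : ℝ} (hR : d.Reg ks ls) {y θ1 θ2 c1 c2 Cr : ℝ} (hθ1 : 0 < θ1) (hθ : θ1 < θ2) (hc1 : 0 < c1)
    (hc : c1 < c2) (hy : 0 < y) (hy1 : c2 * y ≤ 1) (hsep : P6SepDn d.r d.z y θ1 θ2 c1 c2 Cr)
    (hΛ : d.Λ 1 ≤ (θ2 - θ1) / 4 * y) (hΨ : d.Ψ 1 - d.Ψ 0 ≤ (c2 - c1) / 2 * y) (hs : ks * ls ≤ 1)
    (hratio : (Cr - (θ1 + θ2) / 2) * d.ef ((θ1 + θ2) / 2 * y) < (θ2 - θ1) / 2 * d.Df (θ1 * y)) :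
    min 1 (1 / Cr) * ((θ2 - θ1) ^ 2 * (c2 - c1) / 8) * (d.ef y * y ^ 3) ≤ 4 * d.err := by
  have hcy : c1 * y < c2 * y := mul_lt_mul_of_pos_right hc hy
  have s1 := hsep (c1 * y) le_rfl hcy.le
  have s2 := hsep (c2 * y) hcy.le le_rfl
  have hCr : 0 < Cr := by
    have : θ2 * y ≤ Cr * y := s1.2.1.trans s1.2.2
    have : θ2 ≤ Cr := le_of_mul_le_mul_right this hy
    linarith
  have key := sep_dn_full hd hR (α0 := c1 * y) (a := (c1 + c2) / 2 * y) (α2 := c2 * y) (θ1 := θ1 * y) (θ2 := θ2 * y)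
    (H := (θ1 + θ2) / 2 * y) (R := Cr * y) (by positivity) (by nlinarith) (by nlinarith)
    (ns_dn_aux hd hR hθ1 hθ hc1 hc hy hy1 hΨ) hy1 s2.1 s1.2.1 (by nlinarith) (by nlinarith) hs s2.2.2
    (by
      have a3 := mul_lt_mul_of_pos_left hratio hy
      nlinarith)
  have h1 := skns_prof_ge hd.ef_anti hd.ef_mono hd.ef_pos hCr hy.le
  have eR := (hd.ef_pos (Cr * y) (by positivity)).le
  have hcc : 0 < c2 - c1 := by linarith
  have hθθ : 0 < θ2 - θ1 := by linarith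
  have h2 : 0 ≤ (θ2 - θ1) ^ 2 * (c2 - c1) / 8 * y ^ 3 := by positivity
  calc min 1 (1 / Cr) * ((θ2 - θ1) ^ 2 * (c2 - c1) / 8) * (d.ef y * y ^ 3)
      = (min 1 (1 / Cr) * d.ef y) * ((θ2 - θ1) ^ 2 * (c2 - c1) / 8 * y ^ 3) := by ring
    _ ≤ d.ef (Cr * y) * ((θ2 - θ1) ^ 2 * (c2 - c1) / 8 * y ^ 3) := mul_le_mul_of_nonneg_right h1 h2
    _ = d.ef (Cr * y) * ((θ2 - θ1) / 4 * y) * (θ2 * y - θ1 * y) * ((c1 + c2) / 2 * y - c1 * y) := by ring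
    _ ≤ d.ef (Cr * y) * (θ2 * y - (θ1 + θ2) / 2 * y - d.Λ 1) * (θ2 * y - θ1 * y) * ((c1 + c2) / 2 * y - c1 * y) := by
        have b1 : d.ef (Cr * y) * ((θ2 - θ1) / 4 * y) ≤ d.ef (Cr * y) * (θ2 * y - (θ1 + θ2) / 2 * y - d.Λ 1) :=
          mul_le_mul_of_nonneg_left (by linarith) eR
        have b2 : 0 ≤ θ2 * y - θ1 * y := by nlinarith
        have b3 : 0 ≤ (c1 + c2) / 2 * y - c1 * y := by nlinarith
        exact mul_le_mul_of_nonneg_right (mul_le_mul_of_nonneg_right b1 b2) b3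
    _ ≤ _ := key

/-- `z` below `r` at the scale `y`, harmonic partial move with the fraction `t` -/
theorem ns_dn (hd : d.Ok) {ks ls : ℝ} (hR : d.Reg ks ls) {y θ1 θ2 c1 c2 Cr B0 t : ℝ} (hθ1 : 0 < θ1) (hθ : θ1 < θ2) (hc1 : 0 < c1)
    (hc : c1 < c2) (hy : 0 < y) (hy1 : c2 * y ≤ 1) (hsep : P6SepDn d.r d.z y θ1 θ2 c1 c2 Cr)
    (hΛ : d.Λ 1 ≤ (θ2 - θ1) / 4 * y) (hΨ : d.Ψ 1 - d.Ψ 0 ≤ (c2 - c1) / 2 * y) (hs : ks * ls ≤ 1)
    (hB : 0 < B0) (ht0 : 0 ≤ t) (ht1 : t ≤ 1)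
    (haff : ∀ a b : ℝ, 0 ≤ b → b ≤ a → a ≤ Cr * y → d.Ψ (skbarHm B0 t a b) = (1 - t) * d.Ψ a + t * d.Ψ b)
    (hratio : t * (Cr / ((θ1 + θ2) / 2)) * (d.ef ((θ1 + θ2) / 2 * y) + d.Df (θ1 * y)) < d.Df (θ1 * y)) :
    min 1 (1 / Cr) * ((θ2 - θ1) ^ 2 * (c2 - c1) / 8) * (d.ef y * t * y ^ 3) ≤ 4 * d.err := by
  have hcy : c1 * y < c2 * y := mul_lt_mul_of_pos_right hc hy
  have s1 := hsep (c1 * y) le_rfl hcy.le
  have s2 := hsep (c2 * y) hcy.le le_rfl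
  have hθCr : θ2 ≤ Cr := le_of_mul_le_mul_right (s1.2.1.trans s1.2.2) hy
  have hCr : 0 < Cr := by linarith
  have hm : 0 < (θ1 + θ2) / 2 := by linarith
  have eH := hd.ef_pos ((θ1 + θ2) / 2 * y) (by positivity)
  have D1 := hd.Df_pos (θ1 * y) (by positivity)
  have key := sep_dn hd hR (α0 := c1 * y) (a := (c1 + c2) / 2 * y) (α2 := c2 * y) (θ1 := θ1 * y) (θ2 := θ2 * y)
    (H := (θ1 + θ2) / 2 * y) (R := Cr * y) (B0 := B0) (t := t) (by positivity) (by nlinarith) (by nlinarith)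
    (ns_dn_aux hd hR hθ1 hθ hc1 hc hy hy1 hΨ) hy1 s2.1 s1.2.1 (by nlinarith) (by nlinarith) hs s2.2.2 hB ht0 ht1
    (fun a b h1 h2 h3 => haff a b (le_trans (by positivity) h1) h2 h3)
    (by
      refine lt_of_le_of_lt ?_ hratio
      have q : (Cr * y + B0) / ((θ1 + θ2) / 2 * y + B0) ≤ Cr / ((θ1 + θ2) / 2) := by
        rw [div_le_div_iff₀ (by positivity) hm]
        have : (θ1 + θ2) / 2 ≤ Cr := by linarith
        nlinarith
      exact mul_le_mul_of_nonneg_right (mul_le_mul_of_nonneg_left q ht0) (by linarith))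
  have h1 := skns_prof_ge hd.ef_anti hd.ef_mono hd.ef_pos hCr hy.le
  have eR := (hd.ef_pos (Cr * y) (by positivity)).le
  have hcc : 0 < c2 - c1 := by linarith
  have hθθ : 0 < θ2 - θ1 := by linarith
  have h2 : 0 ≤ (θ2 - θ1) ^ 2 * (c2 - c1) / 8 * (t * y ^ 3) := by positivity
  calc min 1 (1 / Cr) * ((θ2 - θ1) ^ 2 * (c2 - c1) / 8) * (d.ef y * t * y ^ 3)
      = (min 1 (1 / Cr) * d.ef y) * ((θ2 - θ1) ^ 2 * (c2 - c1) / 8 * (t * y ^ 3)) := by ring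
    _ ≤ d.ef (Cr * y) * ((θ2 - θ1) ^ 2 * (c2 - c1) / 8 * (t * y ^ 3)) := mul_le_mul_of_nonneg_right h1 h2
    _ = d.ef (Cr * y) * (t * ((θ2 - θ1) / 4 * y)) * (θ2 * y - θ1 * y) * ((c1 + c2) / 2 * y - c1 * y) := by ring
    _ ≤ d.ef (Cr * y) * (t * (θ2 * y - (θ1 + θ2) / 2 * y - d.Λ 1)) * (θ2 * y - θ1 * y) * ((c1 + c2) / 2 * y - c1 * y) := by
        have b1 : d.ef (Cr * y) * (t * ((θ2 - θ1) / 4 * y)) ≤ d.ef (Cr * y) * (t * (θ2 * y - (θ1 + θ2) / 2 * y - d.Λ 1)) :=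
          mul_le_mul_of_nonneg_left (mul_le_mul_of_nonneg_left (by linarith) ht0) eR
        have b2 : 0 ≤ θ2 * y - θ1 * y := by nlinarith
        have b3 : 0 ≤ (c1 + c2) / 2 * y - c1 * y := by nlinarith
        exact mul_le_mul_of_nonneg_right (mul_le_mul_of_nonneg_right b1 b2) b3
    _ ≤ _ := key

/-! ## 3. fixed size: ratios of strengths, the final contradiction -/

/-- regime A: `e(ρ) ≤ ε 𝒟(θ y)` for `s y ≤ ρ ≤ 1` -/
theorem ratA (hd : d.Ok) {x y ρ ε s θ : ℝ} (hx : 0 < x) (hε : 0 < ε) (hs : 0 < s) (hθ : 0 < θ) (hy : 0 < y)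
    (h0 : d.ef 0 ≤ ε * d.Df x) (h1 : d.ef 1 ≤ ε * (s / θ) * (x * d.Df x)) (hρ : s * y ≤ ρ) (hρ1 : ρ ≤ 1) :
    d.ef ρ ≤ ε * d.Df (θ * y) := by
  have hsy : 0 < s * y := by positivity
  have hρ0 : 0 < ρ := lt_of_lt_of_le hsy hρ
  have hθy : 0 < θ * y := by positivity
  rcases le_total (θ * y) x with hc | hc
  · have a1 : d.Df x ≤ d.Df (θ * y) := hd.Df_anti (mem_Ici.2 hθy.le) (mem_Ici.2 hx.le) hc
    have a2 : d.ef ρ ≤ d.ef 0 := hd.ef_anti (mem_Ici.2 le_rfl) (mem_Ici.2 hρ0.le) hρ0.le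
    have a3 : ε * d.Df x ≤ ε * d.Df (θ * y) := mul_le_mul_of_nonneg_left a1 hε.le
    linarith
  · have a1 : x * d.Df x ≤ θ * y * d.Df (θ * y) := hd.Df_mono (mem_Ici.2 hx.le) (mem_Ici.2 hθy.le) hc
    have a2 : ρ * d.ef ρ ≤ 1 * d.ef 1 := hd.ef_mono (mem_Ici.2 hρ0.le) (mem_Ici.2 zero_le_one) hρ1
    have e0 := (hd.ef_pos ρ hρ0.le).le
    have a3 : s * y * d.ef ρ ≤ ρ * d.ef ρ := mul_le_mul_of_nonneg_right hρ e0
    have a4 : ε * (s / θ) * (x * d.Df x) ≤ ε * (s / θ) * (θ * y * d.Df (θ * y)) :=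
      mul_le_mul_of_nonneg_left a1 (by positivity)
    have a5 : ε * (s / θ) * (θ * y * d.Df (θ * y)) = s * y * (ε * d.Df (θ * y)) := by field_simp
    have a6 : s * y * d.ef ρ ≤ s * y * (ε * d.Df (θ * y)) := by linarith
    exact le_of_mul_le_mul_left a6 hsy

/-- scales `t ≲ x`: `e(ρ) ≤ ε 𝒟(t)` -/
theorem ratL (hd : d.Ok) {x t ρ ε M : ℝ} (hx : 0 < x) (hε : 0 ≤ ε) (hM : 0 < M)
    (h0 : d.ef 0 ≤ ε * (min 1 (1 / M) * d.Df x)) (ht0 : 0 ≤ t) (ht : t ≤ M * x) (hρ : 0 ≤ ρ) : d.ef ρ ≤ ε * d.Df t := by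
  have a1 : d.ef ρ ≤ d.ef 0 := hd.ef_anti (mem_Ici.2 le_rfl) (mem_Ici.2 hρ) hρ
  have a2 := skns_prof_ge hd.Df_anti hd.Df_mono hd.Df_pos hM hx.le
  have a3 : d.Df (M * x) ≤ d.Df t := hd.Df_anti (mem_Ici.2 ht0) (mem_Ici.2 (by positivity)) ht
  have a4 : ε * (min 1 (1 / M) * d.Df x) ≤ ε * d.Df t := mul_le_mul_of_nonneg_left (a2.trans a3) hε
  linarith

/-- the fraction `t_y = min(1, 𝒟(y)/e(y))` -/
noncomputable def ty (d : SkSp) (y : ℝ) : ℝ := min 1 (d.Df y / d.ef y)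

theorem ty_le_one (d : SkSp) (y : ℝ) : d.ty y ≤ 1 := min_le_left _ _

theorem ty_pos (hd : d.Ok) {y : ℝ} (hy : 0 ≤ y) : 0 < d.ty y :=
  lt_min one_pos (div_pos (hd.Df_pos y hy) (hd.ef_pos y hy))

theorem ty_mul (hd : d.Ok) {y : ℝ} (hy : 0 ≤ y) : d.ty y * d.ef y = min (d.ef y) (d.Df y) := by
  have he := hd.ef_pos y hy
  unfold ty
  rw [min_mul_of_nonneg _ _ he.le, one_mul, div_mul_cancel₀ _ he.ne']

theorem ty_mul_le (hd : d.Ok) {y : ℝ} (hy : 0 ≤ y) : d.ty y * d.ef y ≤ d.Df y := by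
  rw [ty_mul hd hy]; exact min_le_right _ _

/-- `t_y e(ρ) ≤ max(1, 1/s) 𝒟(y)`  if `ρ ≥ s y`, or if `y ≤ M x` and `e(0) ≤ min(1,1/M) 𝒟(x)` -/
theorem ratB (hd : d.Ok) {x y ρ s M : ℝ} (hx : 0 < x) (hs : 0 < s) (hM : 0 < M) (hy : 0 < y) (hρ0 : 0 ≤ ρ)
    (h0 : d.ef 0 ≤ min 1 (1 / M) * d.Df x) (hcase : s * y ≤ ρ ∨ y ≤ M * x) :
    d.ty y * d.ef ρ ≤ max 1 (1 / s) * d.Df y := by
  have t0 := (ty_pos hd hy.le).le
  have D0 := (hd.Df_pos y hy.le).le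
  rcases hcase with hc | hc
  · have a1 : d.ef ρ ≤ d.ef (s * y) := hd.ef_anti (mem_Ici.2 (by positivity)) (mem_Ici.2 hρ0) hc
    have a2 := skns_prof_le hd.ef_anti hd.ef_mono hd.ef_pos hs hy.le
    calc d.ty y * d.ef ρ ≤ d.ty y * (max 1 (1 / s) * d.ef y) := mul_le_mul_of_nonneg_left (a1.trans a2) t0
      _ = max 1 (1 / s) * (d.ty y * d.ef y) := by ring
      _ ≤ max 1 (1 / s) * d.Df y :=
          mul_le_mul_of_nonneg_left (ty_mul_le hd hy.le) (le_trans zero_le_one (le_max_left _ _))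
  · have a1 : d.ef ρ ≤ 1 * d.Df y := ratL hd hx zero_le_one hM (by linarith) hy.le hc hρ0
    have e0 := (hd.ef_pos ρ hρ0).le
    calc d.ty y * d.ef ρ ≤ 1 * d.ef ρ := mul_le_mul_of_nonneg_right (ty_le_one d y) e0
      _ ≤ 1 * d.Df y := by linarith
      _ ≤ max 1 (1 / s) * d.Df y := mul_le_mul_of_nonneg_right (le_max_left _ _) D0

theorem contraA (hd : d.Ok) {x y G κ : ℝ} (hG : 1 ≤ G) (hx : 0 < x) (hy : 0 < y) (hxy : x ≤ G * y) (hκ : 0 < κ)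
    (herr : d.err ≤ κ / (8 * G ^ 3) * (d.ef x * x ^ 3)) (hgain : κ * (d.ef y * y ^ 3) ≤ 4 * d.err) : False := by
  have h1 := skns_prof_cube hd.ef_anti hd.ef_mono hd.ef_pos hG hx.le hy.le hxy
  have hA : 0 < d.ef y * y ^ 3 := mul_pos (hd.ef_pos y hy.le) (by positivity)
  have hG3 : 0 < G ^ 3 := by positivity
  have h2 : κ / (8 * G ^ 3) * (d.ef x * x ^ 3) ≤ κ / (8 * G ^ 3) * (G ^ 3 * (d.ef y * y ^ 3)) :=
    mul_le_mul_of_nonneg_left h1 (by positivity)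
  have h3 : κ / (8 * G ^ 3) * (G ^ 3 * (d.ef y * y ^ 3)) = κ / 8 * (d.ef y * y ^ 3) := by field_simp
  nlinarith

theorem contraB (hd : d.Ok) {x y G κ : ℝ} (hG : 1 ≤ G) (hx : 0 < x) (hy : 0 < y) (hxy : x ≤ G * y) (hκ : 0 < κ)
    (hw : d.ef 0 ≤ d.Df x) (herr : d.err ≤ κ / (8 * G ^ 3) * (d.ef x * x ^ 3))
    (hgain : κ * (min (d.ef y) (d.Df y) * y ^ 3) ≤ 4 * d.err) : False := by
  have h1 := skns_prof_cube hd.ef_anti hd.ef_mono hd.ef_pos hG hx.le hy.le hxy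
  have h1' := skns_prof_cube hd.Df_anti hd.Df_mono hd.Df_pos hG hx.le hy.le hxy
  have hex : d.ef x ≤ d.Df x := (hd.ef_anti (mem_Ici.2 le_rfl) (mem_Ici.2 hx.le) hx.le).trans hw
  have hx3 : 0 < x ^ 3 := by positivity
  have h4 : d.ef x * x ^ 3 ≤ G ^ 3 * (min (d.ef y) (d.Df y) * y ^ 3) := by
    rcases le_total (d.ef y) (d.Df y) with hm | hm
    · rw [min_eq_left hm]; exact h1
    · rw [min_eq_right hm]; exact (mul_le_mul_of_nonneg_right hex hx3.le).trans h1'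
  have hA : 0 < min (d.ef y) (d.Df y) * y ^ 3 :=
    mul_pos (lt_min (hd.ef_pos y hy.le) (hd.Df_pos y hy.le)) (by positivity)
  have hG3 : 0 < G ^ 3 := by positivity
  have h2 : κ / (8 * G ^ 3) * (d.ef x * x ^ 3) ≤ κ / (8 * G ^ 3) * (G ^ 3 * (min (d.ef y) (d.Df y) * y ^ 3)) :=
    mul_le_mul_of_nonneg_left h4 (by positivity)
  have h3 : κ / (8 * G ^ 3) * (G ^ 3 * (min (d.ef y) (d.Df y) * y ^ 3)) = κ / 8 * (min (d.ef y) (d.Df y) * y ^ 3) := by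
    field_simp
  nlinarith

/-! ### the four cases at fixed size -/

/-- UP, regime A -/
theorem case_up_A (hd : d.Ok) {ks ls : ℝ} (hR : d.Reg ks ls) {x y G θ1 θ2 c1 c2 cl Ch C0 : ℝ} (hθ1 : 0 < θ1) (hθ : θ1 < θ2)
    (hc1 : 0 < c1) (hc : c1 < c2) (hcl : 0 < cl) (hC0 : 0 < C0) (hG : 1 ≤ G) (hx : 0 < x) (hy : 0 < y) (hxy : x ≤ G * y)
    (hy1 : c2 * y ≤ 1) (hsep : P6SepUp d.r d.z y θ1 θ2 c1 c2) (hout : P6Reg 0 d.r cl Ch C0 x)
    (hΛ : d.Λ 1 ≤ (θ2 - θ1) / 4 * y) (hslope : ks * (ls + (θ1 + θ2) / (c2 - c1)) ≤ 1)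
    (hw : d.ef 0 ≤ (θ2 - θ1) / (2 * (θ1 + 3 * θ2)) * (min 1 (1 / (θ2 * C0 / c1)) * d.Df x))
    (hA : d.ef 1 ≤ (θ2 - θ1) / (2 * (θ1 + 3 * θ2)) * (cl * c1 / θ2) * (x * d.Df x))
    (herr : d.err ≤ (min 1 (1 / θ1) * ((θ2 - θ1) ^ 2 * (c2 - c1) / 4)) / (8 * G ^ 3) * (d.ef x * x ^ 3)) : False := by
  have hθ2 : 0 < θ2 := by linarith
  have hθθ : 0 < θ2 - θ1 := by linarith
  have hcc : 0 < c2 - c1 := by linarith
  set ε := (θ2 - θ1) / (2 * (θ1 + 3 * θ2)) with hε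
  have hε0 : 0 < ε := by positivity
  have hcy : c1 * y < c2 * y := mul_lt_mul_of_pos_right hc hy
  have m0 : c1 * y ∈ Icc (0 : ℝ) 1 := ⟨by positivity, by linarith⟩
  have hr := hd.feas.rng hd.Λ_mono m0
  have Dx := (hd.Df_pos x hx.le).le
  have D2 := hd.Df_pos (θ2 * y) (by positivity)
  have key : d.ef (d.r (c1 * y)) ≤ ε * d.Df (θ2 * y) := by
    rcases le_total (C0 * x) (c1 * y) with hcase | hcase
    · have h1 := (hout (c1 * y) hcase m0.2 m0.1).1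
      refine ratA hd hx hε0 (s := cl * c1) (by positivity) hθ2 hy ?_ hA (by linarith) hr.2
      refine hw.trans (mul_le_mul_of_nonneg_left ?_ hε0.le)
      calc min 1 (1 / (θ2 * C0 / c1)) * d.Df x ≤ 1 * d.Df x := mul_le_mul_of_nonneg_right (min_le_left _ _) Dx
        _ = d.Df x := one_mul _
    · refine ratL hd hx hε0.le (M := θ2 * C0 / c1) (by positivity) hw (by positivity) ?_ hr.1
      rw [div_mul_eq_mul_div, le_div_iff₀ hc1]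
      nlinarith
  refine contraA hd hG hx hy hxy (κ := min 1 (1 / θ1) * ((θ2 - θ1) ^ 2 * (c2 - c1) / 4))
    (mul_pos (lt_min one_pos (by positivity)) (by positivity)) herr
    (ns_up_full hd hR hθ1 hθ hc1 hc hy hy1 hsep hΛ hslope ?_)
  have e1 : (θ1 + 3 * θ2) / 4 * (ε * d.Df (θ2 * y)) = (θ2 - θ1) / 8 * d.Df (θ2 * y) := by
    rw [hε]; field_simp; ring
  have e2 : (θ1 + 3 * θ2) / 4 * d.ef (d.r (c1 * y)) ≤ (θ1 + 3 * θ2) / 4 * (ε * d.Df (θ2 * y)) :=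
    mul_le_mul_of_nonneg_left key (by positivity)
  nlinarith

/-- DOWN, regime A -/
theorem case_dn_A (hd : d.Ok) {ks ls : ℝ} (hR : d.Reg ks ls) {x y G θ1 θ2 c1 c2 Cr : ℝ} (hθ1 : 0 < θ1) (hθ : θ1 < θ2)
    (hc1 : 0 < c1) (hc : c1 < c2) (hG : 1 ≤ G) (hx : 0 < x) (hy : 0 < y) (hxy : x ≤ G * y)
    (hy1 : c2 * y ≤ 1) (hsep : P6SepDn d.r d.z y θ1 θ2 c1 c2 Cr)
    (hΛ : d.Λ 1 ≤ (θ2 - θ1) / 4 * y) (hΨ : d.Ψ 1 - d.Ψ 0 ≤ (c2 - c1) / 2 * y) (hs : ks * ls ≤ 1)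
    (hw : d.ef 0 ≤ (θ2 - θ1) / (4 * Cr) * d.Df x)
    (hA : d.ef 1 ≤ (θ2 - θ1) / (4 * Cr) * ((θ1 + θ2) / 2 / θ1) * (x * d.Df x))
    (herr : d.err ≤ (min 1 (1 / Cr) * ((θ2 - θ1) ^ 2 * (c2 - c1) / 8)) / (8 * G ^ 3) * (d.ef x * x ^ 3)) : False := by
  have hθ2 : 0 < θ2 := by linarith
  have hθθ : 0 < θ2 - θ1 := by linarith
  have hcc : 0 < c2 - c1 := by linarith
  have hcy : c1 * y < c2 * y := mul_lt_mul_of_pos_right hc hy
  have s1 := hsep (c1 * y) le_rfl hcy.le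
  have hθCr : θ2 ≤ Cr := le_of_mul_le_mul_right (s1.2.1.trans s1.2.2) hy
  have hCr : 0 < Cr := by linarith
  have m0 : c1 * y ∈ Icc (0 : ℝ) 1 := ⟨by positivity, by linarith⟩
  have hr := hd.feas.rng hd.Λ_mono m0
  have D1 := hd.Df_pos (θ1 * y) (by positivity)
  have key : d.ef ((θ1 + θ2) / 2 * y) ≤ (θ2 - θ1) / (4 * Cr) * d.Df (θ1 * y) :=
    ratA hd hx (by positivity) (s := (θ1 + θ2) / 2) (by positivity) hθ1 hy hw hA le_rfl (by nlinarith [hr.2, s1.2.1])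
  refine contraA hd hG hx hy hxy (κ := min 1 (1 / Cr) * ((θ2 - θ1) ^ 2 * (c2 - c1) / 8))
    (mul_pos (lt_min one_pos (by positivity)) (by positivity)) herr
    (ns_dn_full hd hR hθ1 hθ hc1 hc hy hy1 hsep hΛ hΨ hs ?_)
  have a0 : 0 ≤ Cr - (θ1 + θ2) / 2 := by linarith
  have e2 : (Cr - (θ1 + θ2) / 2) * d.ef ((θ1 + θ2) / 2 * y) ≤ Cr * ((θ2 - θ1) / (4 * Cr) * d.Df (θ1 * y)) :=
    mul_le_mul (by linarith) key (hd.ef_pos _ (by positivity)).le hCr.le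
  have e1 : Cr * ((θ2 - θ1) / (4 * Cr) * d.Df (θ1 * y)) = (θ2 - θ1) / 4 * d.Df (θ1 * y) := by field_simp
  nlinarith

/-- UP, regime B -/
theorem case_up_B (hd : d.Ok) {ks ls : ℝ} (hR : d.Reg ks ls) {x y G θ1 θ2 c1 c2 cl Ch C0 i0 η : ℝ} (hθ1 : 0 < θ1) (hθ : θ1 < θ2)
    (hc1 : 0 < c1) (hc : c1 < c2) (hcl : 0 < cl) (hC0 : 0 < C0) (hG : 1 ≤ G) (hx : 0 < x) (hy : 0 < y) (hxy : x ≤ G * y)
    (hy1 : c2 * y ≤ 1) (hsep : P6SepUp d.r d.z y θ1 θ2 c1 c2) (hout : P6Reg 0 d.r cl Ch C0 x)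
    (hΛ : d.Λ 1 ≤ (θ2 - θ1) / 4 * y) (hslope : ks * (ls + (θ1 + θ2) / (c2 - c1)) ≤ 1)
    (hi0 : (θ1 + 3 * θ2) / 4 * y ≤ i0)
    (hconc : ∀ τ p q : ℝ, 0 ≤ τ → 0 ≤ p → p ≤ q → q + τ ≤ i0 → d.Ψ (q + τ) - d.Ψ (p + τ) ≤ d.Ψ q - d.Ψ p)
    (hη0 : 0 < η) (hη1 : η ≤ (θ2 - θ1) / 2) (hη2 : η * (1 + max 1 (1 / (cl * c1)) * max 1 θ2) ≤ (θ2 - θ1) / 8)
    (hw : d.ef 0 ≤ min 1 (1 / (C0 / c1)) * d.Df x)
    (herr : d.err ≤ (min 1 (1 / θ1) * ((θ2 - θ1) * (c2 - c1) / 2) * η) / (8 * G ^ 3) * (d.ef x * x ^ 3)) : False := by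
  have hθ2 : 0 < θ2 := by linarith
  have hθθ : 0 < θ2 - θ1 := by linarith
  have hcc : 0 < c2 - c1 := by linarith
  have hcy : c1 * y < c2 * y := mul_lt_mul_of_pos_right hc hy
  have m0 : c1 * y ∈ Icc (0 : ℝ) 1 := ⟨by positivity, by linarith⟩
  have hr := hd.feas.rng hd.Λ_mono m0
  have Dx := (hd.Df_pos x hx.le).le
  have D2 := hd.Df_pos (θ2 * y) (by positivity)
  have t0 := ty_pos hd hy.le
  have t1 := ty_le_one d y
  set C3 := max 1 (1 / (cl * c1)) with hC3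
  have hC30 : 0 < C3 := lt_of_lt_of_le one_pos (le_max_left _ _)
  have hB : d.ty y * d.ef (d.r (c1 * y)) ≤ C3 * d.Df y := by
    refine ratB hd hx (s := cl * c1) (by positivity) (M := C0 / c1) (by positivity) hy hr.1 hw ?_
    rcases le_total (C0 * x) (c1 * y) with hcase | hcase
    · left
      have h1 := (hout (c1 * y) hcase m0.2 m0.1).1
      linarith
    · right
      rw [div_mul_eq_mul_div, le_div_iff₀ hc1]; linarith
  have hDy : d.Df y ≤ max 1 θ2 * d.Df (θ2 * y) := by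
    have := skns_prof_le hd.Df_anti hd.Df_mono hd.Df_pos (s := 1 / θ2) (y := θ2 * y) (by positivity) (by positivity)
    have e : 1 / θ2 * (θ2 * y) = y := by field_simp
    rw [e, one_div_one_div] at this
    exact this
  have hw' : d.ef 0 ≤ d.Df x := hw.trans (by
    calc min 1 (1 / (C0 / c1)) * d.Df x ≤ 1 * d.Df x := mul_le_mul_of_nonneg_right (min_le_left _ _) Dx
      _ = d.Df x := one_mul _)
  have gain := ns_up hd hR (τ := η * d.ty y * y) hθ1 hθ hc1 hc hy hy1 hsep hΛ hslope (by positivity)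
    (by
      have : η * d.ty y ≤ (θ2 - θ1) / 2 * 1 := mul_le_mul hη1 t1 t0.le (by positivity)
      nlinarith)
    (fun p q h0 h1 h2 => hconc _ p q (by positivity) h0 h1 (h2.trans hi0))
    (by
      have b1 : d.ty y * d.Df (θ2 * y) ≤ 1 * d.Df (θ2 * y) := mul_le_mul_of_nonneg_right t1 D2.le
      have b2 : C3 * d.Df y ≤ C3 * (max 1 θ2 * d.Df (θ2 * y)) := mul_le_mul_of_nonneg_left hDy hC30.le
      have b3 : d.ty y * (d.Df (θ2 * y) + d.ef (d.r (c1 * y))) ≤ (1 + C3 * max 1 θ2) * d.Df (θ2 * y) := by nlinarith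
      have b4 : η * (d.ty y * (d.Df (θ2 * y) + d.ef (d.r (c1 * y)))) ≤ η * ((1 + C3 * max 1 θ2) * d.Df (θ2 * y)) :=
        mul_le_mul_of_nonneg_left b3 hη0.le
      have b5 : η * ((1 + C3 * max 1 θ2) * d.Df (θ2 * y)) ≤ (θ2 - θ1) / 8 * d.Df (θ2 * y) := by
        rw [← mul_assoc]; exact mul_le_mul_of_nonneg_right hη2 D2.le
      have b6 : η * d.ty y * y * (d.Df (θ2 * y) + d.ef (d.r (c1 * y)))
          = y * (η * (d.ty y * (d.Df (θ2 * y) + d.ef (d.r (c1 * y))))) := by ring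
      rw [b6]
      have b7 : y * (η * (d.ty y * (d.Df (θ2 * y) + d.ef (d.r (c1 * y))))) ≤ y * ((θ2 - θ1) / 8 * d.Df (θ2 * y)) :=
        mul_le_mul_of_nonneg_left (b4.trans b5) hy.le
      have b8 : 0 < y * ((θ2 - θ1) / 8 * d.Df (θ2 * y)) := by positivity
      nlinarith)
  refine contraB hd hG hx hy hxy (κ := min 1 (1 / θ1) * ((θ2 - θ1) * (c2 - c1) / 2) * η)
    (mul_pos (mul_pos (lt_min one_pos (by positivity)) (by positivity)) hη0) hw' herr ?_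
  rw [← ty_mul hd hy.le]
  calc min 1 (1 / θ1) * ((θ2 - θ1) * (c2 - c1) / 2) * η * (d.ty y * d.ef y * y ^ 3)
      = min 1 (1 / θ1) * ((θ2 - θ1) * (c2 - c1) / 2) * (d.ef y * (η * d.ty y * y) * y ^ 2) := by ring
    _ ≤ _ := gain

/-- DOWN, regime B -/
theorem case_dn_B (hd : d.Ok) {ks ls : ℝ} (hR : d.Reg ks ls) {x y G θ1 θ2 c1 c2 Cr i0 B0 η : ℝ} (hθ1 : 0 < θ1) (hθ : θ1 < θ2)
    (hc1 : 0 < c1) (hc : c1 < c2) (hG : 1 ≤ G) (hx : 0 < x) (hy : 0 < y) (hxy : x ≤ G * y)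
    (hy1 : c2 * y ≤ 1) (hsep : P6SepDn d.r d.z y θ1 θ2 c1 c2 Cr)
    (hΛ : d.Λ 1 ≤ (θ2 - θ1) / 4 * y) (hΨ : d.Ψ 1 - d.Ψ 0 ≤ (c2 - c1) / 2 * y) (hs : ks * ls ≤ 1)
    (hi0 : Cr * y ≤ i0) (hB : 0 < B0)
    (haff : ∀ t a b : ℝ, 0 ≤ t → t ≤ 1 → 0 ≤ b → b ≤ a → a ≤ i0 → d.Ψ (skbarHm B0 t a b) = (1 - t) * d.Ψ a + t * d.Ψ b)
    (hη0 : 0 < η) (hη1 : η ≤ 1)
    (hη2 : η * (Cr / ((θ1 + θ2) / 2)) * (max 1 (1 / ((θ1 + θ2) / 2)) * max 1 θ1 + 1) ≤ 1 / 2)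
    (hw : d.ef 0 ≤ d.Df x)
    (herr : d.err ≤ (min 1 (1 / Cr) * ((θ2 - θ1) ^ 2 * (c2 - c1) / 8) * η) / (8 * G ^ 3) * (d.ef x * x ^ 3)) : False := by
  have hθ2 : 0 < θ2 := by linarith
  have hθθ : 0 < θ2 - θ1 := by linarith
  have hcc : 0 < c2 - c1 := by linarith
  have hm : 0 < (θ1 + θ2) / 2 := by linarith
  have hcy : c1 * y < c2 * y := mul_lt_mul_of_pos_right hc hy
  have s1 := hsep (c1 * y) le_rfl hcy.le
  have hθCr : θ2 ≤ Cr := le_of_mul_le_mul_right (s1.2.1.trans s1.2.2) hy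
  have hCr : 0 < Cr := by linarith
  have D1 := hd.Df_pos (θ1 * y) (by positivity)
  have t0 := ty_pos hd hy.le
  have t1 := ty_le_one d y
  set K1 := max 1 (1 / ((θ1 + θ2) / 2)) with hK1
  have hK10 : 0 < K1 := lt_of_lt_of_le one_pos (le_max_left _ _)
  have hDy : d.Df y ≤ max 1 θ1 * d.Df (θ1 * y) := by
    have := skns_prof_le hd.Df_anti hd.Df_mono hd.Df_pos (s := 1 / θ1) (y := θ1 * y) (by positivity) (by positivity)
    have e : 1 / θ1 * (θ1 * y) = y := by field_simp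
    rw [e, one_div_one_div] at this
    exact this
  have hem : d.ty y * d.ef ((θ1 + θ2) / 2 * y) ≤ K1 * max 1 θ1 * d.Df (θ1 * y) := by
    have a2 := skns_prof_le hd.ef_anti hd.ef_mono hd.ef_pos hm hy.le
    calc d.ty y * d.ef ((θ1 + θ2) / 2 * y) ≤ d.ty y * (K1 * d.ef y) := mul_le_mul_of_nonneg_left a2 t0.le
      _ = K1 * (d.ty y * d.ef y) := by ring
      _ ≤ K1 * d.Df y := mul_le_mul_of_nonneg_left (ty_mul_le hd hy.le) hK10.le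
      _ ≤ K1 * (max 1 θ1 * d.Df (θ1 * y)) := mul_le_mul_of_nonneg_left hDy hK10.le
      _ = _ := by ring
  have gain := ns_dn hd hR (B0 := B0) (t := η * d.ty y) hθ1 hθ hc1 hc hy hy1 hsep hΛ hΨ hs hB (by positivity)
    (by nlinarith)
    (fun a b h1 h2 h3 => haff _ a b (by positivity) (by nlinarith) h1 h2 (h3.trans hi0))
    (by
      have b1 : d.ty y * d.Df (θ1 * y) ≤ 1 * d.Df (θ1 * y) := mul_le_mul_of_nonneg_right t1 D1.le
      have b3 : d.ty y * (d.ef ((θ1 + θ2) / 2 * y) + d.Df (θ1 * y)) ≤ (K1 * max 1 θ1 + 1) * d.Df (θ1 * y) := by nlinarith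
      have q0 : 0 ≤ η * (Cr / ((θ1 + θ2) / 2)) := by positivity
      have b4 : η * (Cr / ((θ1 + θ2) / 2)) * (d.ty y * (d.ef ((θ1 + θ2) / 2 * y) + d.Df (θ1 * y)))
          ≤ η * (Cr / ((θ1 + θ2) / 2)) * ((K1 * max 1 θ1 + 1) * d.Df (θ1 * y)) := mul_le_mul_of_nonneg_left b3 q0
      have b5 : η * (Cr / ((θ1 + θ2) / 2)) * ((K1 * max 1 θ1 + 1) * d.Df (θ1 * y)) ≤ 1 / 2 * d.Df (θ1 * y) := by
        rw [← mul_assoc]; exact mul_le_mul_of_nonneg_right hη2 D1.le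
      have b6 : η * d.ty y * (Cr / ((θ1 + θ2) / 2)) * (d.ef ((θ1 + θ2) / 2 * y) + d.Df (θ1 * y))
          = η * (Cr / ((θ1 + θ2) / 2)) * (d.ty y * (d.ef ((θ1 + θ2) / 2 * y) + d.Df (θ1 * y))) := by ring
      rw [b6]
      linarith)
  refine contraB hd hG hx hy hxy (κ := min 1 (1 / Cr) * ((θ2 - θ1) ^ 2 * (c2 - c1) / 8) * η)
    (mul_pos (mul_pos (lt_min one_pos (by positivity)) (by positivity)) hη0) hw herr ?_
  rw [← ty_mul hd hy.le]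
  calc min 1 (1 / Cr) * ((θ2 - θ1) ^ 2 * (c2 - c1) / 8) * η * (d.ty y * d.ef y * y ^ 3)
      = min 1 (1 / Cr) * ((θ2 - θ1) ^ 2 * (c2 - c1) / 8) * (d.ef y * (η * d.ty y) * y ^ 3) := by ring
    _ ≤ _ := gain

end SkSp

/-! ## 4. sequences -/

/-- regime B: below `i0` the floor primitive is concave and harmonic (`= ψ_{A0,B0}` up to a constant), and all tested masses are `≪ i0` -/
def SkNsB (U : Ultrafilter ℕ) (d : ℕ → SkSp) (Y : ℕ → ℝ) : Prop :=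
  ∃ i0 B0 : ℕ → ℝ, (∀ C : ℝ, ∀ᶠ k in U, C * Y k ≤ i0 k) ∧ ∀ᶠ k in U, 0 < B0 k ∧
    (∀ τ p q : ℝ, 0 ≤ τ → 0 ≤ p → p ≤ q → q + τ ≤ i0 k → (d k).Ψ (q + τ) - (d k).Ψ (p + τ) ≤ (d k).Ψ q - (d k).Ψ p) ∧
    (∀ t a b : ℝ, 0 ≤ t → t ≤ 1 → 0 ≤ b → b ≤ a → a ≤ i0 k →
      (d k).Ψ (skbarHm (B0 k) t a b) = (1 - t) * (d k).Ψ a + t * (d k).Ψ b)

/-- **the hypotheses of the no-separation theorem along a sequence** (no model, no call: only the two profiles and the forward class) -/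
structure SkNs (U : Ultrafilter ℕ) (d : ℕ → SkSp) (x Y ks ls : ℕ → ℝ) (cl Ch C0 : ℝ) : Prop where
  ok : ∀ᶠ k in U, (d k).Ok
  reg : ∀ᶠ k in U, (d k).Reg (ks k) (ls k)
  x_pos : ∀ᶠ k in U, 0 < x k
  Y_le : ∀ᶠ k in U, Y k ≤ 1
  /-- weak removal: `e(0) = o(𝒟(x))` -/
  weak : ∀ ε : ℝ, 0 < ε → ∀ᶠ k in U, (d k).ef 0 ≤ ε * (d k).Df (x k)
  outer : ∀ᶠ k in U, P6Reg 0 (d k).r cl Ch C0 (x k)
  /-- the child error is negligible: `err = o(e(x) x³)` -/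
  err : ∀ ε : ℝ, 0 < ε → ∀ᶠ k in U, (d k).err ≤ ε * ((d k).ef (x k) * x k ^ 3)
  ks0 : ∀ ε : ℝ, 0 < ε → ∀ᶠ k in U, ks k ≤ ε
  ls1 : ∀ᶠ k in U, ls k ≤ 1
  /-- forced rise `o(x)` -/
  Λ1 : ∀ ε : ℝ, 0 < ε → ∀ᶠ k in U, (d k).Λ 1 ≤ ε * x k
  /-- floor mass `o(x)` -/
  Ψ1 : ∀ ε : ℝ, 0 < ε → ∀ᶠ k in U, (d k).Ψ 1 - (d k).Ψ 0 ≤ ε * x k
  /-- regime A: `e(1) = o(x 𝒟(x))`, or regime B -/
  regime : (∀ ε : ℝ, 0 < ε → ∀ᶠ k in U, (d k).ef 1 ≤ ε * (x k * (d k).Df (x k))) ∨ SkNsB U d Y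

section seq

variable {U : Ultrafilter ℕ} {d : ℕ → SkSp} {x Y ks ls : ℕ → ℝ} {cl Ch C0 : ℝ}

/-- the facts which are common to the four cases -/
theorem skns_common (h : SkNs U d x Y ks ls cl Ch C0) {y : ℕ → ℝ} {G : ℝ} (hG : 0 < G)
    (hxy : ∀ᶠ k in U, x k ≤ G * y k ∧ y k ≤ 1) {c2 : ℝ} (hY : ∀ᶠ k in U, c2 * y k ≤ Y k) {a b K : ℝ} (ha : 0 < a) (hb : 0 < b)
    (hK : 0 ≤ K) :
    ∀ᶠ k in U, (d k).Ok ∧ (d k).Reg (ks k) (ls k) ∧ 0 < x k ∧ 0 < y k ∧ x k ≤ max 1 G * y k ∧ c2 * y k ≤ 1 ∧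
      (d k).Λ 1 ≤ a * y k ∧ (d k).Ψ 1 - (d k).Ψ 0 ≤ b * y k ∧ ks k * (ls k + K) ≤ 1 ∧ ks k * ls k ≤ 1 := by
  filter_upwards [h.ok, h.reg, h.x_pos, h.Y_le, hxy, hY, h.Λ1 (a / G) (by positivity), h.Ψ1 (b / G) (by positivity),
    h.ks0 (1 / (1 + K)) (by positivity), h.ls1] with k ok reg hx hY1 hxy hY hΛ hΨ hks hls
  have hy : 0 < y k := by
    have : 0 < G * y k := lt_of_lt_of_le hx hxy.1
    exact (pos_iff_pos_of_mul_pos this).1 hG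
  have e1 : ∀ c : ℝ, 0 < c → c / G * x k ≤ c * y k := by
    intro c hc
    rw [div_mul_eq_mul_div, div_le_iff₀ hG]
    have := mul_le_mul_of_nonneg_left hxy.1 hc.le
    linarith
  have hks0 := reg.ks0
  have hls0 := reg.ls0
  have s1 : ks k * (ls k + K) ≤ 1 := by
    calc ks k * (ls k + K) ≤ 1 / (1 + K) * (1 + K) := mul_le_mul hks (by linarith) (by linarith) (by positivity)
      _ = 1 := by field_simp
  refine ⟨ok, reg, hx, hy, hxy.1.trans (mul_le_mul_of_nonneg_right (le_max_right _ _) hy.le), hY.trans hY1,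
    hΛ.trans (e1 a ha), hΨ.trans (e1 b hb), s1, ?_⟩
  exact le_trans (mul_le_mul_of_nonneg_left (by linarith) hks0) s1

/-- **NO THRESHOLD SEPARATION** below `Y` -/
theorem skns_main (hcl : 0 < cl) (hC0 : 0 < C0) (h : SkNs U d x Y ks ls cl Ch C0) :
    BcpNS U (fun k => (d k).r) (fun k => (d k).z) x Y := by
  intro y G hG hxy
  have hG1 : (1 : ℝ) ≤ max 1 G := le_max_left _ _
  have hG3 : 0 < 8 * max 1 G ^ 3 := by positivity
  refine ⟨fun θ1 θ2 c1 c2 hθ1 hθ hc1 hc hY hsep => ?_, fun θ1 θ2 c1 c2 Cr hθ1 hθ hc1 hc hY hsep => ?_⟩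
  · -- upward separation
    have hθ2 : 0 < θ2 := by linarith
    have hθθ : 0 < θ2 - θ1 := by linarith
    have hcc : 0 < c2 - c1 := by linarith
    have hc2 : 0 < c2 := by linarith
    have com := skns_common h hG hxy hY (a := (θ2 - θ1) / 4) (b := 1) (K := (θ1 + θ2) / (c2 - c1)) (by positivity) one_pos
      (by positivity)
    rcases h.regime with hA | ⟨i0, B0, hi0, hB⟩
    · have hm : 0 < min 1 (1 / (θ2 * C0 / c1)) := lt_min one_pos (by positivity)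
      have hκ : 0 < min 1 (1 / θ1) * ((θ2 - θ1) ^ 2 * (c2 - c1) / 4) :=
        mul_pos (lt_min one_pos (by positivity)) (by positivity)
      have ev : ∀ᶠ _k : ℕ in (U : Filter ℕ), False := by
        filter_upwards [com, hsep, h.outer,
          h.weak ((θ2 - θ1) / (2 * (θ1 + 3 * θ2)) * min 1 (1 / (θ2 * C0 / c1))) (by positivity),
          hA ((θ2 - θ1) / (2 * (θ1 + 3 * θ2)) * (cl * c1 / θ2)) (by positivity),
          h.err ((min 1 (1 / θ1) * ((θ2 - θ1) ^ 2 * (c2 - c1) / 4)) / (8 * max 1 G ^ 3)) (by positivity)]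
          with k c sep out hw hA herr
        obtain ⟨ok, reg, hx, hy, hxy, hy1, hΛ, -, hsl, -⟩ := c
        exact SkSp.case_up_A ok reg hθ1 hθ hc1 hc hcl hC0 hG1 hx hy hxy hy1 sep out hΛ hsl (by rw [← mul_assoc]; exact hw) hA herr
      exact p6_ag_false ev
    · set η := min ((θ2 - θ1) / 2) ((θ2 - θ1) / 8 / (1 + max 1 (1 / (cl * c1)) * max 1 θ2)) with hη
      have hden : 0 < 1 + max 1 (1 / (cl * c1)) * max 1 θ2 := by positivity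
      have hη0 : 0 < η := lt_min (by positivity) (by positivity)
      have hη2 : η * (1 + max 1 (1 / (cl * c1)) * max 1 θ2) ≤ (θ2 - θ1) / 8 := by
        have := min_le_right ((θ2 - θ1) / 2) ((θ2 - θ1) / 8 / (1 + max 1 (1 / (cl * c1)) * max 1 θ2))
        rw [← hη, le_div_iff₀ hden] at this
        exact this
      have hκ : 0 < min 1 (1 / θ1) * ((θ2 - θ1) * (c2 - c1) / 2) * η :=
        mul_pos (mul_pos (lt_min one_pos (by positivity)) (by positivity)) hη0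
      have ev : ∀ᶠ _k : ℕ in (U : Filter ℕ), False := by
        filter_upwards [com, hsep, h.outer, hB, hi0 ((θ1 + 3 * θ2) / 4 / c2), hY,
          h.weak (min 1 (1 / (C0 / c1))) (lt_min one_pos (by positivity)),
          h.err ((min 1 (1 / θ1) * ((θ2 - θ1) * (c2 - c1) / 2) * η) / (8 * max 1 G ^ 3)) (by positivity)]
          with k c sep out hB hi0 hY hw herr
        obtain ⟨ok, reg, hx, hy, hxy, hy1, hΛ, -, hsl, -⟩ := c
        refine SkSp.case_up_B ok reg (i0 := i0 k) (η := η) hθ1 hθ hc1 hc hcl hC0 hG1 hx hy hxy hy1 sep out hΛ hsl ?_ hB.2.1 hη0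
          (min_le_left _ _) hη2 hw herr
        refine le_trans ?_ hi0
        have : (θ1 + 3 * θ2) / 4 / c2 * (c2 * y k) ≤ (θ1 + 3 * θ2) / 4 / c2 * Y k :=
          mul_le_mul_of_nonneg_left hY (by positivity)
        have e : (θ1 + 3 * θ2) / 4 / c2 * (c2 * y k) = (θ1 + 3 * θ2) / 4 * y k := by field_simp
        linarith
      exact p6_ag_false ev
  · -- downward separation
    have hθ2 : 0 < θ2 := by linarith
    have hθθ : 0 < θ2 - θ1 := by linarith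
    have hcc : 0 < c2 - c1 := by linarith
    have hc2 : 0 < c2 := by linarith
    have com := skns_common h hG hxy hY (a := (θ2 - θ1) / 4) (b := (c2 - c1) / 2) (K := 0) (by positivity) (by positivity) le_rfl
    -- `Cr ≥ θ2 > 0`
    have hCr : 0 < Cr := by
      obtain ⟨k, c, sep⟩ := (com.and hsep).exists
      obtain ⟨-, -, -, hy, -⟩ := c
      have hcy : c1 * y k < c2 * y k := mul_lt_mul_of_pos_right hc hy
      have s1 := sep (c1 * y k) le_rfl hcy.le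
      have : θ2 ≤ Cr := le_of_mul_le_mul_right (s1.2.1.trans s1.2.2) hy
      linarith
    rcases h.regime with hA | ⟨i0, B0, hi0, hB⟩
    · have ev : ∀ᶠ _k : ℕ in (U : Filter ℕ), False := by
        filter_upwards [com, hsep, h.weak ((θ2 - θ1) / (4 * Cr)) (by positivity),
          hA ((θ2 - θ1) / (4 * Cr) * ((θ1 + θ2) / 2 / θ1)) (by positivity),
          h.err ((min 1 (1 / Cr) * ((θ2 - θ1) ^ 2 * (c2 - c1) / 8)) / (8 * max 1 G ^ 3))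
            (div_pos (mul_pos (lt_min one_pos (by positivity)) (by positivity)) hG3)]
          with k c sep hw hA herr
        obtain ⟨ok, reg, hx, hy, hxy, hy1, hΛ, hΨ, -, hs⟩ := c
        exact SkSp.case_dn_A ok reg hθ1 hθ hc1 hc hG1 hx hy hxy hy1 sep hΛ hΨ hs hw hA herr
      exact p6_ag_false ev
    · set Kd := Cr / ((θ1 + θ2) / 2) * (max 1 (1 / ((θ1 + θ2) / 2)) * max 1 θ1 + 1) with hKd
      have hKd0 : 0 < Kd := by positivity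
      set η := min 1 (1 / 2 / Kd) with hη
      have hη0 : 0 < η := lt_min one_pos (by positivity)
      have hη2 : η * (Cr / ((θ1 + θ2) / 2)) * (max 1 (1 / ((θ1 + θ2) / 2)) * max 1 θ1 + 1) ≤ 1 / 2 := by
        have := min_le_right (1 : ℝ) (1 / 2 / Kd)
        rw [← hη, le_div_iff₀ hKd0] at this
        rw [mul_assoc]
        exact this
      have ev : ∀ᶠ _k : ℕ in (U : Filter ℕ), False := by
        filter_upwards [com, hsep, hB, hi0 (Cr / c2), hY, h.weak 1 one_pos,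
          h.err ((min 1 (1 / Cr) * ((θ2 - θ1) ^ 2 * (c2 - c1) / 8) * η) / (8 * max 1 G ^ 3))
            (div_pos (mul_pos (mul_pos (lt_min one_pos (by positivity)) (by positivity)) hη0) hG3)]
          with k c sep hB hi0 hY hw herr
        obtain ⟨ok, reg, hx, hy, hxy, hy1, hΛ, hΨ, -, hs⟩ := c
        refine SkSp.case_dn_B ok reg (i0 := i0 k) (B0 := B0 k) (η := η) hθ1 hθ hc1 hc hG1 hx hy hxy hy1 sep hΛ hΨ hs ?_ hB.1 hB.2.2
          hη0 (min_le_left _ _) hη2 (by linarith) herr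
        refine le_trans ?_ hi0
        have : Cr / c2 * (c2 * y k) ≤ Cr / c2 * Y k := mul_le_mul_of_nonneg_left hY (by positivity)
        have e : Cr / c2 * (c2 * y k) = Cr * y k := by field_simp
        linarith
      exact p6_ag_false ev

end seq

end Claimed.Agent.R286
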