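import Claimed.Agent.R286.Bud.MomBoxFr

/-!
# Row 286, LL sec. 7, node N13 = Lemma `bud:box-moments`, THIRD ASSERTION (C15c) "The alias error" (07-budgets.tex l.1581-1588)      (owner helper167; prefix `bud_bm_ae_`, defs `bmAe*`, `BmAe*`)

EXIT  `bud_bm_c15c`, then the exit of N13 `bud_bm_c15_in` (glue of helper9, moved here from `Bud/MomBoxFr.lean`; consumer `Bud/L8.lean`).      TEX[LL:bud:box-moments]

ROUTE.   `alErr v = B_v - E|X_v|⁴ = 2 E XᵀCX + E tr C²` ((A1)'s covariance convention).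
* PATH LEVEL, POINTWISE (`bud_bm_ae_pt`): on every fine chain which contains the positions of the radii `x - T0/2^j` (`j < Kl`) and `x`: `bud_bm_alias_pt` (176), costs `1/(v0² m C0 T0/2^j)` (field slope `C0` per unit
  radius: `bos_num_hgain`, `ckm_hck_slope`; (A3) = `l8i_proj 1`, ABSOLUTE constant `cq`), `E|layer|² = ΔS`; limits of the chain numbers `exit_clk_lim_stat`.   Result: `alErr(α x) ≤ 2 (Kl+1) Lay(x) + TC(α x)`,
  `Lay = bmAeLay (S∘α)` = anchor + dyadic past oscillations `S(α x) - S(α(x - T0/2^j))` + last increment.      We take `T0 = b_buf/4` (the anchor costs `λ^{-ρ} u²A³`; no layer leaves the buffer, (C8) is not needed).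
* NUMBER LEVEL (`BmAe`, `bud_bm_ae_rad`, `bud_bm_ae_mass`; vocabulary `BosGeo` of 111): radius = sliding the `S` variation (`t ≤ d0`), pointwise oscillation (`t ≥ d0`); mass = floor (density `≤ 1` against the radius
  estimate, `bos_floor_int`) + nonfloor (`BudGeo.flat_S_near`: around a nonfloor point the oscillation of `S` at distance `t` is `≤ 3t + 5/M_j`); traces `bos_ut_rad`, `bos_bx_tr`.
* PRODUCER `bud_bm_ae_prod` from `BudBuf` (N11) on the FULL buffer; numerics `bud_bm_ae_room`, `bud_bm_ae_num`.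
`hX : BudBmStX` and `BufGeo` are NOT used.      Every `sorry` is ONE LEAF: claim it in claim286 by its Lean name, prove IN PLACE, land directly; a false/awkward statement: one line to 167.
-/

set_option autoImplicit false

namespace Claimed.Agent.R286

open MeasureTheory Set Filter Topology

noncomputable section

/-! ## 0. Vocabulary -/

/-- **the layer majorant** of `E XᵀCX` at the radius `x`, for the profile `φ = S∘α`: anchor projected from the distance `T0`, dyadic past oscillations at the distances `T0/2^j`, `j < Kl`, last increment;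
`A0 = cq/(v0² m C0)` -/
def bmAeLay (φ : ℝ → ℝ) (A0 T0 : ℝ) (Kl : ℕ) (x : ℝ) : ℝ :=
  A0 / T0 * φ x + (∑ j ∈ Finset.range Kl, 2 * A0 / (T0 / 2 ^ j) * (φ x - φ (x - T0 / 2 ^ j))) + 4 * (φ x - φ (x - T0 / 2 ^ (Kl - 1)))

/-- its value when `φ ≤ Φ` and the past oscillation at the distance `t` is `≤ E t` -/
def bmAeC (A0 T0 Φ E : ℝ) (Kl : ℕ) : ℝ := A0 / T0 * Φ + (2 * A0 * Kl + 4 * (T0 / 2 ^ (Kl - 1))) * E

/-- the bound of the radius integral -/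
def bmAeR (A0 T0 Φ E d c1 ℓ sg cn e0 v0 : ℝ) (Kl : ℕ) : ℝ :=
  c1 * (A0 / T0 * Φ * ℓ + (2 * A0 * Kl + 4 * (T0 / 2 ^ (Kl - 1))) * E * d) + sg / (cn * e0 * v0 ^ 2)

/-- **the hypotheses of the alias estimate on a box** `[a,b]` of a `BosGeo` (first 16 fields = fields of `BosBx` of 111): `sl` = integrated past oscillation, `nf` = past oscillation at the nonfloor points -/
structure BmAe (al r kb ef : ℝ → ℝ) (M cn Lp : ℝ) (X : CmNum) (Z : CmCaps) (a b ra rb v0 e0 sg Δ kM T0 Φ E d : ℝ) (Kl : ℕ) : Prop where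
  num : X.Ok
  geo : BosGeo al r kb ef M cn Lp X Z
  ra0 : 0 ≤ ra
  raa : ra ≤ a
  ab : a ≤ b
  brb : b ≤ rb
  rb1 : rb ≤ 1
  v00 : 0 < v0
  v0a : v0 ≤ al a
  e00 : 0 < e0
  e0e : ∀ x ∈ Icc ra rb, e0 ≤ ef x
  osc : X.S (al b) - X.S (al a) ≤ sg
  cap : ∀ i, Z.cL i < Z.cR i → (Ioo (Z.cL i) (Z.cR i) ∩ Icc a b).Nonempty → ra ≤ Z.cL i ∧ Z.cR i ≤ rb
  mass : al rb - al ra ≤ Δ
  kM0 : 0 ≤ kM
  kMk : ∀ x ∈ Icc a b, kb x ≤ kM
  Kl1 : 1 ≤ Kl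
  T00 : 0 < T0
  T0a : T0 ≤ a
  Sb : X.S (al b) ≤ Φ
  E0 : 0 ≤ E
  d0 : 0 ≤ d
  sl : ∀ j < Kl, ∫ x in a..b, (X.S (al x) - X.S (al (x - T0 / 2 ^ j))) ≤ E * (T0 / 2 ^ j) * d
  nf : ∀ x ∈ Icc a b, x ∉ Z.Fl → ∀ j < Kl, X.S (al x) - X.S (al (x - T0 / 2 ^ j)) ≤ E * (T0 / 2 ^ j)

/-- number of dyadic layers from `b_buf/4` down to `x⁴⁰` -/
def BdVI.aeK {X : BdFix} {W : BdWorld} (i : BdVI X W) : ℕ := ⌊Real.logb 2 (i.V.bbuf / 4 / i.F.x ^ 40)⌋₊ + 1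

/-- the cost constant `A0 = cq/(v0² m C0)`, `v0 = cv u` -/
def BdVI.aeA {X : BdFix} {W : BdWorld} (i : BdVI X W) (cq cv : ℝ) : ℝ := cq / ((cv * i.F.u) ^ 2 * i.F.m * i.F.C0)

/-- the uniform smallness used by the producer -/
structure BmAeRoom {X : BdFix} {W : BdWorld} (i : BdVI X W) (K : BdCst) (n : ℕ) : Prop where
  bx : BosBxRoom i K n (1 / 2)
  /-- room above the buffer inside the constant part of the removal -/
  M5 : 5 / i.F.Mj ≤ (X.cI - X.phi n) / 2 * i.F.u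
  Mx : 1 / i.F.Mj ≤ i.F.x ^ 40
  xb : i.F.x ^ 40 ≤ i.V.bbuf / 4
  cIu : X.cI * i.F.u < 1

theorem bud_bm_ae_eqns_cite : True := by
  have := @bmAeLay.eq_1; have := @bmAeC.eq_1; have := @bmAeR.eq_1; have := @BdVI.aeK.eq_1; have := @BdVI.aeA.eq_1
  trivial

/-! ## 1. Abstract layer (numbers) -/

section abs

variable {al r kb ef : ℝ → ℝ} {M cn Lp : ℝ} {X : CmNum} {Z : CmCaps}

/-- LEAF: **splitting a mass integral into floor and nonfloor**.      PLAN: as `bos_bx_main`: `integral_inter_add_diff` with `al '' Z.Fl` (`bos_al_meas`); floor: `bos_floor_int` at `u1 = al a`, `u2 = al b` (`r_al`),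
`kb ≤ kM` under the integral (`intervalIntegral.integral_mono_on`, integrability `bos_al_slope_int`). -/
theorem bud_bm_ae_ms (hG : BosGeo al r kb ef M cn Lp X Z) {a b kM : ℝ} (ha : 0 ≤ a) (hab : a ≤ b) (hb : b ≤ 1) (hkM : ∀ x ∈ Icc a b, kb x ≤ kM)
    {F : ℝ → ℝ} (hFm : Measurable F) (hF0 : ∀ u, 0 ≤ F u) (hFb : ∃ B : ℝ, ∀ u, F u ≤ B) :
    ∫ u in Icc (al a) (al b), F u ≤ kM * (∫ x in a..b, F (al x)) + ∫ u in Icc (al a) (al b) \ al '' Z.Fl, F u := by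
  obtain ⟨B, hB⟩ := hFb
  have ham : a ∈ Icc (0 : ℝ) 1 := ⟨ha, hab.trans hb⟩
  have hbm : b ∈ Icc (0 : ℝ) 1 := ⟨ha.trans hab, hb⟩
  have hmono := (bos_al_strictMono hG).monotoneOn ham hbm hab
  have hm : MeasurableSet (al '' Z.Fl) := bos_al_meas hG hG.fl_sub hG.fl_meas
  have hsub : Icc (al a) (al b) ⊆ Icc (0 : ℝ) 1 := Icc_subset_Icc (bos_al_mem hG ham).1 (bos_al_mem hG hbm).2
  have hint : IntegrableOn F (Icc (al a) (al b)) := cm_g_intOn hFm (fun u _ => hF0 u) (fun u _ => hB u) hsub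
  have hsplit := integral_inter_add_diff (μ := volume) (f := F) (s := Icc (al a) (al b)) hm hint
  have h1 := bos_floor_int hG (bos_al_mem hG ham).1 hmono (bos_al_mem hG hbm).2 F hFm hF0 ⟨B, hB⟩
  rw [hG.r_al a ham, hG.r_al b hbm, inter_comm] at h1
  obtain ⟨kmin, hk1, hk2⟩ := hG.kb_pos
  have hM0 : 0 < M := lt_trans one_pos hG.M1
  have hB0 : 0 ≤ B := (hF0 0).trans (hB 0)
  have hdm : Measurable fun x => F (al x) := hFm.comp hG.al_meas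
  have h2 : ∫ x in a..b, F (al x) * kb x ≤ kM * ∫ x in a..b, F (al x) := by
    rw [← intervalIntegral.integral_const_mul]
    refine intervalIntegral.integral_mono_on hab ?_ ?_ fun x hx => ?_
    · exact bos_al_slope_int (hdm.mul hG.kb_meas) (B := B * M) (fun x hx => mul_nonneg (hF0 _) (hk1.le.trans (hk2 x hx)))
        (fun x hx => mul_le_mul (hB _) (hG.kb_le x hx) (hk1.le.trans (hk2 x hx)) hB0) ha hab hb
    · exact (bos_al_slope_int hdm (B := B) (fun x _ => hF0 _) (fun x _ => hB _) ha hab hb).const_mul _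
    · rw [mul_comm]
      exact mul_le_mul_of_nonneg_right (hkM x hx) (hF0 _)
  linarith

variable {a b ra rb v0 e0 sg Δ kM T0 Φ E d : ℝ} {Kl : ℕ}

/-- LEAF: the majorant in the radius coordinate: nonnegative, bounded by `bmAeC` at the nonfloor points, interval integrable.
PLAN: `s = X.S ∘ al` is monotone on `[0,1]` (`S_mono`, `bos_al_strictMono`, `bos_al_mem`), all arguments `x`, `x - T0/2^j` lie in `[a - T0, b] ⊆ [0,1]`; integrability: `MonotoneOn.intervalIntegrable` termwise. -/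
theorem bud_bm_ae_lay (H : BmAe al r kb ef M cn Lp X Z a b ra rb v0 e0 sg Δ kM T0 Φ E d Kl) {A0 : ℝ} (hA0 : 0 ≤ A0) :
    (∀ x ∈ Icc a b, 0 ≤ bmAeLay (fun y => X.S (al y)) A0 T0 Kl x) ∧
    (∀ x ∈ Icc a b, x ∉ Z.Fl → bmAeLay (fun y => X.S (al y)) A0 T0 Kl x ≤ bmAeC A0 T0 Φ E Kl) ∧
    IntervalIntegrable (bmAeLay (fun y => X.S (al y)) A0 T0 Kl) volume a b ∧
    ∫ x in a..b, bmAeLay (fun y => X.S (al y)) A0 T0 Kl x ≤ A0 / T0 * Φ * (b - a) + (2 * A0 * Kl + 4 * (T0 / 2 ^ (Kl - 1))) * E * d := by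
  have hG := H.geo
  have hX := H.num
  have ha0 : 0 ≤ a := H.ra0.trans H.raa
  have hb1 : b ≤ 1 := H.brb.trans H.rb1
  have hbm : b ∈ Icc (0 : ℝ) 1 := ⟨ha0.trans H.ab, hb1⟩
  have hT0 := H.T00
  have hKl : Kl - 1 < Kl := by have := H.Kl1; omega
  have hmo := (bos_al_strictMono hG).monotoneOn
  obtain ⟨φ, hφ⟩ : ∃ φ : ℝ → ℝ, φ = fun y => X.S (al y) := ⟨_, rfl⟩
  have hsl : ∀ j < Kl, ∫ x in a..b, (φ x - φ (x - T0 / 2 ^ j)) ≤ E * (T0 / 2 ^ j) * d := by rw [hφ]; exact H.sl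
  have hnf : ∀ x ∈ Icc a b, x ∉ Z.Fl → ∀ j < Kl, φ x - φ (x - T0 / 2 ^ j) ≤ E * (T0 / 2 ^ j) := by rw [hφ]; exact H.nf
  rw [← hφ]
  have hφm : Measurable φ := by rw [hφ]; exact hX.S_meas.comp hG.al_meas
  have hφmono : MonotoneOn φ (Icc 0 1) := fun x hx y hy hxy => by
    rw [hφ]; exact hX.S_mono (bos_al_mem hG hx) (bos_al_mem hG hy) (hmo hx hy hxy)
  have hφ0 : ∀ x ∈ Icc (0 : ℝ) 1, 0 ≤ φ x := fun x hx => by rw [hφ]; exact hX.S_nn _ (bos_al_mem hG hx)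
  have hφ1 : ∀ x ∈ Icc (0 : ℝ) 1, φ x ≤ 1 := fun x hx => by rw [hφ]; exact hX.S_le _ (bos_al_mem hG hx)
  have hφΦ : ∀ x ∈ Icc a b, φ x ≤ Φ := fun x hx =>
    (hφmono ⟨ha0.trans hx.1, hx.2.trans hb1⟩ hbm hx.2).trans (by rw [hφ]; exact H.Sb)
  have hx01 : ∀ x ∈ Icc a b, x ∈ Icc (0 : ℝ) 1 := fun x hx => ⟨ha0.trans hx.1, hx.2.trans hb1⟩
  have ht0 : ∀ j : ℕ, 0 < T0 / 2 ^ j := fun j => by positivity
  have hy01 : ∀ x ∈ Icc a b, ∀ j : ℕ, x - T0 / 2 ^ j ∈ Icc (0 : ℝ) 1 := fun x hx j => by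
    have h2 : T0 / 2 ^ j ≤ T0 := div_le_self hT0.le (one_le_pow₀ (by norm_num))
    exact ⟨by linarith [hx.1, H.T0a], by linarith [(hx01 x hx).2, ht0 j]⟩
  have hd0 : ∀ x ∈ Icc a b, ∀ j : ℕ, 0 ≤ φ x - φ (x - T0 / 2 ^ j) := fun x hx j =>
    sub_nonneg.2 (hφmono (hy01 x hx j) (hx01 x hx) (by linarith [ht0 j]))
  have hd1 : ∀ x ∈ Icc a b, ∀ j : ℕ, φ x - φ (x - T0 / 2 ^ j) ≤ 1 := fun x hx j => by
    linarith [hφ1 x (hx01 x hx), hφ0 _ (hy01 x hx j)]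
  have hint : ∀ f : ℝ → ℝ, Measurable f → (∀ x ∈ Icc a b, |f x| ≤ 1) → IntervalIntegrable f volume a b := by
    intro f hf hb
    rw [intervalIntegrable_iff_integrableOn_Icc_of_le H.ab]
    refine Integrable.of_bound hf.aestronglyMeasurable 1 ?_
    rw [ae_restrict_iff' measurableSet_Icc]
    exact Eventually.of_forall fun x hx => by rw [Real.norm_eq_abs]; exact hb x hx
  have iφ : IntervalIntegrable φ volume a b :=
    hint φ hφm fun x hx => abs_le.2 ⟨by linarith [hφ0 x (hx01 x hx)], hφ1 x (hx01 x hx)⟩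
  have iD : ∀ j : ℕ, IntervalIntegrable (fun x => φ x - φ (x - T0 / 2 ^ j)) volume a b := fun j =>
    hint _ (hφm.sub (hφm.comp (measurable_id.sub_const _))) fun x hx => abs_le.2 ⟨by linarith [hd0 x hx j], hd1 x hx j⟩
  have hc0 : 0 ≤ A0 / T0 := by positivity
  have hcj : ∀ j : ℕ, 0 ≤ 2 * A0 / (T0 / 2 ^ j) := fun j => by have := ht0 j; positivity
  have i1 : IntervalIntegrable (fun x => A0 / T0 * φ x) volume a b := iφ.const_mul _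
  have i2 : IntervalIntegrable (fun x => ∑ j ∈ Finset.range Kl, 2 * A0 / (T0 / 2 ^ j) * (φ x - φ (x - T0 / 2 ^ j))) volume a b := by
    have := IntervalIntegrable.sum (μ := volume) (a := a) (b := b) (Finset.range Kl)
      (f := fun j x => 2 * A0 / (T0 / 2 ^ j) * (φ x - φ (x - T0 / 2 ^ j))) fun j _ => (iD j).const_mul _
    have e : (∑ j ∈ Finset.range Kl, fun x => 2 * A0 / (T0 / 2 ^ j) * (φ x - φ (x - T0 / 2 ^ j)))
        = fun x => ∑ j ∈ Finset.range Kl, 2 * A0 / (T0 / 2 ^ j) * (φ x - φ (x - T0 / 2 ^ j)) := by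
      funext x; exact Finset.sum_apply _ _ _
    rwa [e] at this
  have i3 : IntervalIntegrable (fun x => 4 * (φ x - φ (x - T0 / 2 ^ (Kl - 1)))) volume a b := (iD _).const_mul _
  have ecj : ∀ j : ℕ, 2 * A0 / (T0 / 2 ^ j) * (E * (T0 / 2 ^ j)) = 2 * A0 * E := fun j => by
    have := (ht0 j).ne'
    field_simp
  refine ⟨fun x hx => ?_, fun x hx hfl => ?_, ?_, ?_⟩
  · unfold bmAeLay
    exact add_nonneg (add_nonneg (mul_nonneg hc0 (hφ0 x (hx01 x hx)))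
      (Finset.sum_nonneg fun j _ => mul_nonneg (hcj j) (hd0 x hx j))) (mul_nonneg (by norm_num) (hd0 x hx _))
  · unfold bmAeLay bmAeC
    have h1 : A0 / T0 * φ x ≤ A0 / T0 * Φ := mul_le_mul_of_nonneg_left (hφΦ x hx) hc0
    have h2 : ∑ j ∈ Finset.range Kl, 2 * A0 / (T0 / 2 ^ j) * (φ x - φ (x - T0 / 2 ^ j)) ≤ ∑ _j ∈ Finset.range Kl, 2 * A0 * E :=
      Finset.sum_le_sum fun j hj => by
        rw [← ecj j]
        exact mul_le_mul_of_nonneg_left (hnf x hx hfl j (Finset.mem_range.1 hj)) (hcj j)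
    rw [Finset.sum_const, Finset.card_range, nsmul_eq_mul] at h2
    have h3 := hnf x hx hfl (Kl - 1) hKl
    nlinarith
  · show IntervalIntegrable (fun x => bmAeLay φ A0 T0 Kl x) volume a b
    unfold bmAeLay
    exact (i1.add i2).add i3
  · have e : ∫ x in a..b, bmAeLay φ A0 T0 Kl x
        = A0 / T0 * (∫ x in a..b, φ x) + (∑ j ∈ Finset.range Kl, 2 * A0 / (T0 / 2 ^ j) * ∫ x in a..b, (φ x - φ (x - T0 / 2 ^ j)))
          + 4 * ∫ x in a..b, (φ x - φ (x - T0 / 2 ^ (Kl - 1))) := by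
      unfold bmAeLay
      rw [intervalIntegral.integral_add (i1.add i2) i3, intervalIntegral.integral_add i1 i2, intervalIntegral.integral_const_mul,
        intervalIntegral.integral_const_mul, intervalIntegral.integral_finsetSum fun j _ => (iD j).const_mul _]
      congr 2
      exact Finset.sum_congr rfl fun j _ => intervalIntegral.integral_const_mul _ _
    rw [e]
    have h1 : ∫ x in a..b, φ x ≤ Φ * (b - a) := by
      have := intervalIntegral.integral_mono_on H.ab iφ (intervalIntegrable_const (c := Φ)) hφΦ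
      rwa [intervalIntegral.integral_const, smul_eq_mul, mul_comm] at this
    have h1' := mul_le_mul_of_nonneg_left h1 hc0
    have h2 : ∑ j ∈ Finset.range Kl, 2 * A0 / (T0 / 2 ^ j) * ∫ x in a..b, (φ x - φ (x - T0 / 2 ^ j)) ≤ ∑ _j ∈ Finset.range Kl, 2 * A0 * E * d :=
      Finset.sum_le_sum fun j hj => by
        rw [← ecj j]
        have := mul_le_mul_of_nonneg_left (hsl j (Finset.mem_range.1 hj)) (hcj j)
        linarith
    rw [Finset.sum_const, Finset.card_range, nsmul_eq_mul] at h2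
    have h3 := hsl (Kl - 1) hKl
    nlinarith

/-- LEAF: **traces on a box**, radius and nonfloor mass.      PLAN: `bos_ut_rad` on `[a,b]`, `bos_bx_tr`; `TC u ≤ TH u/v0²` for `u ≥ al a ≥ v0` (`tc_th`); integrability: bounded measurable. -/
theorem bud_bm_ae_tr (H : BmAe al r kb ef M cn Lp X Z a b ra rb v0 e0 sg Δ kM T0 Φ E d Kl) :
    IntervalIntegrable (fun x => X.TC (al x)) volume a b ∧
    ∫ x in a..b, X.TC (al x) ≤ sg / (cn * e0 * v0 ^ 2) ∧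
    ∫ u in Icc (al a) (al b) \ al '' Z.Fl, X.TC u ≤ 3 * Lp / (cn * e0) * Δ / v0 ^ 2 := by
  have hG := H.geo
  have hX := H.num
  have ha0 : 0 ≤ a := H.ra0.trans H.raa
  have hb1 : b ≤ 1 := H.brb.trans H.rb1
  have ham : a ∈ Icc (0 : ℝ) 1 := ⟨ha0, H.ab.trans hb1⟩
  have hbm : b ∈ Icc (0 : ℝ) 1 := ⟨ha0.trans H.ab, hb1⟩
  have hv0 := H.v00
  have he0 := H.e00
  have hcn := hG.cn0
  have hLp : 0 < Lp := lt_of_lt_of_le one_pos hG.Lp1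
  have hmo := (bos_al_strictMono hG).monotoneOn
  have hIsub : Icc (al a) (al b) ⊆ Icc (0 : ℝ) 1 := Icc_subset_Icc (bos_al_mem hG ham).1 (bos_al_mem hG hbm).2
  have hpt : ∀ u ∈ Icc (al a) (al b), X.TC u ≤ X.TH u / v0 ^ 2 := fun u hu => by
    have hu1 := hIsub hu
    rw [le_div_iff₀ (by positivity)]
    have h1 : v0 ^ 2 ≤ u ^ 2 := pow_le_pow_left₀ hv0.le (H.v0a.trans hu.1) 2
    have h2 := hX.tc_th u hu1
    have h3 := mul_le_mul_of_nonneg_right h1 (hX.TC_nn u hu1)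
    linarith
  have i1 : IntervalIntegrable (fun x => X.TC (al x)) volume a b :=
    bos_al_slope_int (hX.TC_meas.comp hG.al_meas) (B := 1) (fun x hx => hX.TC_nn _ (bos_al_mem hG hx))
      (fun x hx => hX.TC_le _ (bos_al_mem hG hx)) ha0 H.ab hb1
  have i2 : IntervalIntegrable (fun x => X.TH (al x)) volume a b :=
    bos_al_slope_int (hX.TH_meas.comp hG.al_meas) (B := 1) (fun x hx => hX.TH_nn _ (bos_al_mem hG hx))
      (fun x hx => hX.TH_le _ (bos_al_mem hG hx)) ha0 H.ab hb1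
  refine ⟨i1, ?_, ?_⟩
  · have h1 : ∫ x in a..b, X.TC (al x) ≤ ∫ x in a..b, X.TH (al x) / v0 ^ 2 := by
      refine intervalIntegral.integral_mono_on H.ab i1 (i2.div_const _) fun x hx => ?_
      have hx1 : x ∈ Icc (0 : ℝ) 1 := ⟨ha0.trans hx.1, hx.2.trans hb1⟩
      exact hpt _ ⟨hmo ham hx1 hx.1, hmo hx1 hbm hx.2⟩
    rw [intervalIntegral.integral_div] at h1
    have h2 := bos_ut_rad hX hG ha0 H.ab hb1 he0 (fun x hx => H.e0e x ⟨H.raa.trans hx.1, hx.2.trans H.brb⟩)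
    have h3 : (X.S (al b) - X.S (al a)) / (cn * e0) ≤ sg / (cn * e0) := div_le_div_of_nonneg_right H.osc (by positivity)
    calc _ ≤ (∫ x in a..b, X.TH (al x)) / v0 ^ 2 := h1
      _ ≤ sg / (cn * e0) / v0 ^ 2 := div_le_div_of_nonneg_right (h2.trans h3) (by positivity)
      _ = _ := by rw [div_div]
  · obtain ⟨s, hs⟩ : ∃ s, s = Icc (al a) (al b) \ al '' Z.Fl := ⟨_, rfl⟩
    have h2 := bos_bx_tr hX hG H.ra0 H.raa H.ab H.brb H.rb1 H.cap he0 H.e0e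
    rw [← hs] at h2 ⊢
    have hsI : s ⊆ Icc (al a) (al b) := by rw [hs]; exact sdiff_subset
    have hsm : MeasurableSet s := by
      rw [hs]; exact measurableSet_Icc.diff (bos_al_meas hG hG.fl_sub hG.fl_meas)
    have hTCi : IntegrableOn X.TC s := cm_g_intOn hX.TC_meas hX.TC_nn hX.TC_le (hsI.trans hIsub)
    have hTHi : IntegrableOn X.TH s := cm_g_intOn hX.TH_meas hX.TH_nn hX.TH_le (hsI.trans hIsub)
    have h1 : ∫ u in s, X.TC u ≤ ∫ u in s, X.TH u / v0 ^ 2 :=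
      setIntegral_mono_on hTCi (hTHi.div_const _) hsm fun u hu => hpt u (hsI hu)
    rw [integral_div] at h1
    have h3 : 3 * Lp / (cn * e0) * (al rb - al ra) ≤ 3 * Lp / (cn * e0) * Δ :=
      mul_le_mul_of_nonneg_left H.mass (by positivity)
    exact h1.trans (div_le_div_of_nonneg_right (h2.trans h3) (by positivity))

/-- **EXIT of the abstract layer, radius** -/
theorem bud_bm_ae_rad (H : BmAe al r kb ef M cn Lp X Z a b ra rb v0 e0 sg Δ kM T0 Φ E d Kl) {A0 c1 : ℝ} (hA0 : 0 ≤ A0) (hc1 : 0 ≤ c1) :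
    IntervalIntegrable (fun x => c1 * bmAeLay (fun y => X.S (al y)) A0 T0 Kl x + X.TC (al x)) volume a b ∧
    ∫ x in a..b, (c1 * bmAeLay (fun y => X.S (al y)) A0 T0 Kl x + X.TC (al x)) ≤ bmAeR A0 T0 Φ E d c1 (b - a) sg cn e0 v0 Kl := by
  obtain ⟨-, -, h3, h4⟩ := bud_bm_ae_lay H hA0
  obtain ⟨t1, t2, -⟩ := bud_bm_ae_tr H
  refine ⟨(h3.const_mul c1).add t1, ?_⟩
  rw [intervalIntegral.integral_add (h3.const_mul c1) t1, intervalIntegral.integral_const_mul]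
  unfold bmAeR
  have := mul_le_mul_of_nonneg_left h4 hc1
  linarith

/-- LEAF: **EXIT of the abstract layer, mass**.      PLAN: `F u = ` indicator of `Icc (al a) (al b)` times the majorant (measurable: `S_meas, al_meas, r_meas, TC_meas`; bounded; nonnegative by `bud_bm_ae_lay`, `TC_nn`);
`bud_bm_ae_ms`; `F (al x)` = the radius majorant on `[a,b]` (`r_al`); nonfloor: `u = al (r u)`, `r u ∈ [a,b] \ Fl`, `bud_bm_ae_lay` second clause, `|Icc (al a) (al b)| ≤ Δ`; `bud_bm_ae_tr`. -/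
theorem bud_bm_ae_mass (H : BmAe al r kb ef M cn Lp X Z a b ra rb v0 e0 sg Δ kM T0 Φ E d Kl) {A0 c1 : ℝ} (hA0 : 0 ≤ A0) (hc1 : 0 ≤ c1) :
    IntegrableOn (fun u => c1 * bmAeLay (fun y => X.S (al y)) A0 T0 Kl (r u) + X.TC u) (Icc (al a) (al b)) ∧
    ∫ u in Icc (al a) (al b), (c1 * bmAeLay (fun y => X.S (al y)) A0 T0 Kl (r u) + X.TC u)
      ≤ kM * bmAeR A0 T0 Φ E d c1 (b - a) sg cn e0 v0 Kl + c1 * bmAeC A0 T0 Φ E Kl * Δ + 3 * Lp / (cn * e0) * Δ / v0 ^ 2 := by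
  have hG := H.geo
  have hX := H.num
  have ha0 : 0 ≤ a := H.ra0.trans H.raa
  have hb1 : b ≤ 1 := H.brb.trans H.rb1
  have ham : a ∈ Icc (0 : ℝ) 1 := ⟨ha0, H.ab.trans hb1⟩
  have hbm : b ∈ Icc (0 : ℝ) 1 := ⟨ha0.trans H.ab, hb1⟩
  have hram : ra ∈ Icc (0 : ℝ) 1 := ⟨H.ra0, H.raa.trans ham.2⟩
  have hrbm : rb ∈ Icc (0 : ℝ) 1 := ⟨hbm.1.trans H.brb, H.rb1⟩
  have hT0 := H.T00
  obtain ⟨l1, l2, -, -⟩ := bud_bm_ae_lay H hA0
  obtain ⟨-, -, t3⟩ := bud_bm_ae_tr H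
  obtain ⟨-, r2⟩ := bud_bm_ae_rad H hA0 hc1
  obtain ⟨L, hL⟩ : ∃ L, L = bmAeLay (fun y => X.S (al y)) A0 T0 Kl := ⟨_, rfl⟩
  rw [← hL] at l1 l2 r2 ⊢
  have hφm : Measurable (fun y => X.S (al y)) := hX.S_meas.comp hG.al_meas
  have hLm : Measurable L := by
    rw [hL]
    unfold bmAeLay
    exact ((hφm.const_mul _).add (Finset.measurable_sum _ fun j _ =>
      ((hφm.sub (hφm.comp (measurable_id.sub_const _))).const_mul _))).add
      ((hφm.sub (hφm.comp (measurable_id.sub_const _))).const_mul _)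
  have hmo := (bos_al_strictMono hG).monotoneOn
  have hal_ab : al a ≤ al b := hmo ham hbm H.ab
  have hIsub : Icc (al a) (al b) ⊆ Icc (0 : ℝ) 1 := Icc_subset_Icc (bos_al_mem hG ham).1 (bos_al_mem hG hbm).2
  have hr_mem : ∀ u ∈ Icc (al a) (al b), r u ∈ Icc a b := fun u hu => by
    have hu1 := hIsub hu
    have h1 := (bos_r_mono hG).monotoneOn (bos_al_mem hG ham) hu1 hu.1
    have h2 := (bos_r_mono hG).monotoneOn hu1 (bos_al_mem hG hbm) hu.2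
    rw [hG.r_al a ham] at h1
    rw [hG.r_al b hbm] at h2
    exact ⟨h1, h2⟩
  -- a crude bound of `L` on the box
  have hosc : ∀ x ∈ Icc a b, ∀ j : ℕ, X.S (al x) - X.S (al (x - T0 / 2 ^ j)) ≤ 1 := fun x hx j => by
    have hx1 : x ∈ Icc (0 : ℝ) 1 := ⟨ha0.trans hx.1, hx.2.trans hb1⟩
    have h2 : T0 / 2 ^ j ≤ T0 := div_le_self hT0.le (one_le_pow₀ (by norm_num))
    have h3 : 0 ≤ T0 / 2 ^ j := by positivity
    have hy : x - T0 / 2 ^ j ∈ Icc (0 : ℝ) 1 := ⟨by linarith [hx.1, H.T0a], by linarith [hx1.2]⟩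
    linarith [hX.S_le _ (bos_al_mem hG hx1), hX.S_nn _ (bos_al_mem hG hy)]
  obtain ⟨BL, hBL⟩ : ∃ BL : ℝ, ∀ x ∈ Icc a b, L x ≤ BL := by
    refine ⟨A0 / T0 * 1 + (∑ j ∈ Finset.range Kl, 2 * A0 / (T0 / 2 ^ j) * 1) + 4 * 1, fun x hx => ?_⟩
    have hx1 : x ∈ Icc (0 : ℝ) 1 := ⟨ha0.trans hx.1, hx.2.trans hb1⟩
    rw [hL]
    unfold bmAeLay
    refine add_le_add (add_le_add ?_ (Finset.sum_le_sum fun j _ => ?_)) ?_
    · exact mul_le_mul_of_nonneg_left (hX.S_le _ (bos_al_mem hG hx1)) (by positivity)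
    · exact mul_le_mul_of_nonneg_left (hosc x hx j) (by positivity)
    · exact mul_le_mul_of_nonneg_left (hosc x hx _) (by norm_num)
  obtain ⟨Gf, hGf⟩ : ∃ Gf : ℝ → ℝ, Gf = fun u => c1 * L (r u) + X.TC u := ⟨_, rfl⟩
  have hGfm : Measurable Gf := by
    rw [hGf]; exact ((hLm.comp hG.r_meas).const_mul _).add hX.TC_meas
  have hGf0 : ∀ u ∈ Icc (al a) (al b), 0 ≤ Gf u := fun u hu => by
    rw [hGf]
    exact add_nonneg (mul_nonneg hc1 (l1 _ (hr_mem u hu))) (hX.TC_nn u (hIsub hu))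
  have hGfb : ∀ u ∈ Icc (al a) (al b), Gf u ≤ c1 * BL + 1 := fun u hu => by
    rw [hGf]
    exact add_le_add (mul_le_mul_of_nonneg_left (hBL _ (hr_mem u hu)) hc1) (hX.TC_le u (hIsub hu))
  obtain ⟨F, hF⟩ : ∃ F : ℝ → ℝ, F = (Icc (al a) (al b)).indicator Gf := ⟨_, rfl⟩
  have hFm : Measurable F := by rw [hF]; exact hGfm.indicator measurableSet_Icc
  have hFin : ∀ u ∈ Icc (al a) (al b), F u = Gf u := fun u hu => by rw [hF]; exact indicator_of_mem hu _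
  have hF0 : ∀ u, 0 ≤ F u := fun u => by
    rw [hF]; exact indicator_nonneg hGf0 u
  have hFb : ∀ u, F u ≤ max 0 (c1 * BL + 1) := fun u => by
    by_cases hu : u ∈ Icc (al a) (al b)
    · rw [hFin u hu]; exact (hGfb u hu).trans (le_max_right _ _)
    · rw [hF, indicator_of_notMem hu]; exact le_max_left _ _
  have hFint : ∀ s : Set ℝ, s ⊆ Icc (0 : ℝ) 1 → IntegrableOn F s := fun s hs =>
    cm_g_intOn hFm (fun u _ => hF0 u) (fun u _ => hFb u) hs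
  have hms := bud_bm_ae_ms hG ha0 H.ab hb1 H.kMk hFm hF0 ⟨_, hFb⟩
  have e1 : ∫ u in Icc (al a) (al b), F u = ∫ u in Icc (al a) (al b), Gf u :=
    setIntegral_congr_fun measurableSet_Icc hFin
  have e2 : ∫ x in a..b, F (al x) = ∫ x in a..b, (c1 * L x + X.TC (al x)) := by
    refine intervalIntegral.integral_congr fun x hx => ?_
    rw [uIcc_of_le H.ab] at hx
    have hx1 : x ∈ Icc (0 : ℝ) 1 := ⟨ha0.trans hx.1, hx.2.trans hb1⟩
    have hm : al x ∈ Icc (al a) (al b) := ⟨hmo ham hx1 hx.1, hmo hx1 hbm hx.2⟩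
    show F (al x) = _
    rw [hFin _ hm, hGf]
    show c1 * L (r (al x)) + X.TC (al x) = _
    rw [hG.r_al x hx1]
  obtain ⟨s, hs⟩ : ∃ s, s = Icc (al a) (al b) \ al '' Z.Fl := ⟨_, rfl⟩
  rw [← hs] at hms t3
  have hsI : s ⊆ Icc (al a) (al b) := by rw [hs]; exact sdiff_subset
  have hsm : MeasurableSet s := by
    rw [hs]; exact measurableSet_Icc.diff (bos_al_meas hG hG.fl_sub hG.fl_meas)
  have hC0 : 0 ≤ bmAeC A0 T0 Φ E Kl := by
    have hΦ : 0 ≤ Φ := (hX.S_nn _ (bos_al_mem hG hbm)).trans H.Sb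
    have hE := H.E0
    unfold bmAeC
    positivity
  have hvol : volume.real s ≤ Δ := by
    have h1 : volume.real s ≤ volume.real (Icc (al a) (al b)) := measureReal_mono hsI (by simp)
    rw [Real.volume_real_Icc_of_le hal_ab] at h1
    have h2 := hmo hram ham H.raa
    have h3 := hmo hbm hrbm H.brb
    linarith [H.mass]
  have hΔ0 : 0 ≤ Δ := measureReal_nonneg.trans hvol
  -- the two parts on the nonfloor masses
  have hTCi : IntegrableOn X.TC s := cm_g_intOn hX.TC_meas hX.TC_nn hX.TC_le (hsI.trans hIsub)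
  have hFs : IntegrableOn F s := hFint s (hsI.trans hIsub)
  have hLi : IntegrableOn (fun u => c1 * L (r u)) s := by
    have h1 : IntegrableOn (fun u => F u - X.TC u) s := hFs.sub hTCi
    refine h1.congr_fun (fun u hu => ?_) hsm
    show F u - X.TC u = _
    rw [hFin u (hsI hu), hGf]
    ring
  have e3 : ∫ u in s, F u = (∫ u in s, c1 * L (r u)) + ∫ u in s, X.TC u := by
    rw [← integral_add hLi hTCi]
    refine setIntegral_congr_fun hsm fun u hu => ?_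
    show F u = _
    rw [hFin u (hsI hu), hGf]
  have e4 : ∫ u in s, c1 * L (r u) ≤ c1 * bmAeC A0 T0 Φ E Kl * Δ := by
    have h1 : ∫ u in s, c1 * L (r u) ≤ ∫ _u in s, c1 * bmAeC A0 T0 Φ E Kl := by
      refine setIntegral_mono_on hLi (integrableOn_const (by
        have : volume s ≤ volume (Icc (al a) (al b)) := measure_mono hsI
        exact (this.trans_lt (by simp)).ne)) hsm fun u hu => ?_
      refine mul_le_mul_of_nonneg_left (l2 _ (hr_mem u (hsI hu)) fun hfl => ?_) hc1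
      have hu' : u ∈ Icc (al a) (al b) \ al '' Z.Fl := hs ▸ hu
      exact hu'.2 ⟨r u, hfl, hG.al_r u (hIsub (hsI hu))⟩
    rw [setIntegral_const, smul_eq_mul] at h1
    calc _ ≤ volume.real s * (c1 * bmAeC A0 T0 Φ E Kl) := h1
      _ ≤ Δ * (c1 * bmAeC A0 T0 Φ E Kl) := mul_le_mul_of_nonneg_right hvol (mul_nonneg hc1 hC0)
      _ = _ := by ring
  constructor
  · have := hFint _ hIsub
    have h2 := this.congr_fun hFin measurableSet_Icc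
    rw [hGf] at h2
    exact h2
  · have hk := mul_le_mul_of_nonneg_left r2 H.kM0
    have : ∫ u in Icc (al a) (al b), (c1 * L (r u) + X.TC u) = ∫ u in Icc (al a) (al b), Gf u := by rw [hGf]
    rw [this, ← e1]
    rw [e2, e3] at hms
    linarith

end abs

variable {X : BdFix} {W : BdWorld} {Fam : BdFr → Prop} {K : BdCst}

/-! ## 2. Path level: the pointwise bound -/

/-- `E|X_v|⁴` of the world is `ckX4` (same proof as `bcq_mX_eq` of helper61, `Bud/C19PathA.lean`, which is not imported here) -/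
theorem bud_bm_ae_dict_mX {F : BdFr} {g : ℝ} (Q : BdQ F X) (hW : W.IsHub) (hm : 0 < F.m) (cb : IsClock 1 (Q.bq g))
    (ch : IsClock 1 (Q.hq g)) (v : ℝ) : Q.mX W g 2 v = ckX4 F.m 1 (bmExt (Q.bq g)) (bmExt (Q.hq g)) (ghPosA v) := by
  have hbh := bud_pp_adm cb ch
  unfold BdQ.mX
  rw [hW.nu F.m _ _ cb ch]
  unfold skCNu ckX4 ghLim
  congr 1
  funext Fs
  have hps : GhChOk 1 (ghPs 1 Fs) := ⟨gh_os_ps_lt 1 Fs, fun p hp => (gh_os_ps_mem.1 hp).2⟩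
  simp only []
  rw [brg_ss_chain_X4' hm one_pos hbh hps (ghPosA v)]
  have eτ : bmTree (fun _ _ => v) = brgR4 (ghPosA v) ((ghPosA v : GhPos) : WithTop GhPos) ((ghPosA v : GhPos) : WithTop GhPos) := by
    funext x y
    unfold bmTree brgR4
    simp only [max_self]
    split_ifs <;> rfl
  rw [eτ]
  unfold ckNuF ckStp
  show ghNu _ _ (ghRepN 4 _) _ _ = _
  congr 1
  funext _ σ
  simp [bmTest, Finset.prod_range_succ]

/-- LEAF: **dictionary**: the alias error is a difference of two numbers of the clocks.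
PLAN: `hW.B`; `mX 2 v`: `hW.nu`, `bcs_w_tree2` (`bmTree = ghR2 = cmkStar`), `bmTest` = product of two overlaps (`Finset.prod_range_succ`, `Fin.prod_univ_two`), `ck_nu_eq`; `ckX4 = ghLim ckX4F`, and on every chain
`ckNuF … = ∫ ‖X_k‖⁴ = ckX4F` (`ckm_star` at `l = 2`, `ckm_norm_sq`, `l8i_path`, `l8i_X`). -/
theorem bud_bm_ae_dict (hW : W.IsSk) {F : BdFr} (Q : BdQ F X) {g : ℝ} (hm : 0 < F.m) (hb : IsClock 1 (Q.bq g)) (hh : IsClock 1 (Q.hq g)) {v : ℝ}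
    (hv : v ∈ Ioo (0 : ℝ) 1) :
    Q.alErr W g v = skCB F.m 1 (Q.bE g) (Q.hE g) (ghPosA v) - ckX4 F.m 1 (Q.bE g) (Q.hE g) (ghPosA v) := by
  unfold BdQ.alErr BdQ.Bq
  rw [bud_bm_ae_dict_mX Q hW hm hb hh, hW.B F.m hm _ _ hb hh v hv]
  rfl

/-- LEAF: **one chain**: `B_k - E|X_k|⁴ = 2 E XᵀCX + E tr C²` in the numbers `ob*` of the chain.
PLAN: `l8s_D2_eq`, `D2 = B - S²`, `∫ (nX - S)² = ∫ nX² - S²`; `l8i_B`, `l8i_S`; `ckX4F = ∫ nX²` (`l8i_path`, `l8i_X`); `obTrC2 = ∫ trC2` (`l8i_C`, `l8i_path`). -/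
theorem bud_bm_ae_chain {m : ℕ} (hm : 1 ≤ m) (P : SkStp) (hP : SkAdm 1 P) {k : ℕ} (hk : k ≤ P.length) :
    obB m 1 P 0 k - ckX4F m 1 P k = 2 * (∫ ω, (skSP m 1 P).xCx k ω ∂(skSP m 1 P).μ) + obTrC2 m 1 P 0 k ∧
    0 ≤ ∫ ω, (skSP m 1 P).xCx k ω ∂(skSP m 1 P).μ ∧ 0 ≤ obTrC2 m 1 P 0 k := by
  have h := l8i_ok m hm 1 one_pos P hP
  have := h.prob
  have hD := (skSP m 1 P).l8s_D2_eq h k
  have hn := (skSP m 1 P).l8s_W_bd_nX h k
  have e4 : ∫ ω, (skSP m 1 P).nX k ω ^ 2 ∂(skSP m 1 P).μ = ckX4F m 1 P k :=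
    m8_path m 1 one_pos P hP (hn.pow 2) _ fun ω => by simp only [L8P.nX, l8i_X m 1 one_pos P hP k hk]
  have eT : ∫ ω, (skSP m 1 P).trC2 k ω ∂(skSP m 1 P).μ = obTrC2 m 1 P 0 k := m8_TC m hm 1 one_pos P hP hk
  have eV : ∫ ω, ((skSP m 1 P).nX k ω - (skSP m 1 P).S k) ^ 2 ∂(skSP m 1 P).μ
      = (∫ ω, (skSP m 1 P).nX k ω ^ 2 ∂(skSP m 1 P).μ) - (skSP m 1 P).S k ^ 2 := by
    have e2 : ∀ ω, ((skSP m 1 P).nX k ω - (skSP m 1 P).S k) ^ 2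
        = ((skSP m 1 P).nX k ω ^ 2 - (2 * (skSP m 1 P).S k) * (skSP m 1 P).nX k ω) + (skSP m 1 P).S k ^ 2 := fun ω => by ring
    rw [integral_congr_ae (ae_of_all _ e2), integral_add (((hn.pow 2).sub (hn.const_mul _)).integrable _) (integrable_const _),
      integral_sub ((hn.pow 2).integrable _) ((hn.const_mul _).integrable _), integral_const_mul]
    have e4 : ∫ ω, (skSP m 1 P).nX k ω ∂(skSP m 1 P).μ = (skSP m 1 P).S k := rfl
    rw [e4]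
    simp
    ring
  have hx0 : 0 ≤ ∫ ω, (skSP m 1 P).xCx k ω ∂(skSP m 1 P).μ := integral_nonneg (bud_bm_D2_le_xCx _ h k)
  have ht0 : 0 ≤ ∫ ω, (skSP m 1 P).trC2 k ω ∂(skSP m 1 P).μ := integral_nonneg fun ω => by unfold L8P.trC2; positivity
  refine ⟨?_, hx0, eT ▸ ht0⟩
  unfold L8P.D2 at hD
  rw [l8i_B m 1 one_pos P hP k hk, eV, e4, eT] at hD
  linarith

/-- LEAF: **geometry of a chain between two of its positions** in the constant part of the removal: field length `≥ C0 Δr`, masses.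
PLAN: `hlen = hck - hck` (`cm5_l8_hck_sub`), `ckm_hck_slope` with `φ v = r v · C(r v)` (continuous: `bud_bm_r_cont`, `cm_e_cont`; slope: `bos_num_hgain`), `ckm_idx_mass`, `r_al`, `hS.Cconst`;
`P.v k = mass (k+1) ≥ mass k` (`cm5_l8_mass_succ`, `ckm_mass_mono`); strict order of the indices: `ckm_exists_node`, `ckm_idx_pos`, `ckm_pos_mono`, `al` strictly increasing. -/
theorem bud_bm_ae_len (hS : BdStd X W Fam K) {n : ℕ} (hn : n ≤ X.J + 1) {i : BdVI X W} (hi : BudB.VSt X W Fam n i) (G : Finset GhPos) {y x : ℝ}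
    (hy0 : 0 < y) (hyx : y ≤ x) (hx : x ≤ X.cI * i.F.u) (hx1 : x < 1) (hyG : ghPosA (i.V.Q.al y) ∈ ghPs 1 G) (hxG : ghPosA (i.V.Q.al x) ∈ ghPs 1 G) :
    bcsIx G (i.V.Q.al y) ≤ bcsIx G (i.V.Q.al x) ∧ (y < x → bcsIx G (i.V.Q.al y) < bcsIx G (i.V.Q.al x)) ∧
    i.F.C0 * (x - y) ≤ (i.sp (ghPs 1 G)).hlen (bcsIx G (i.V.Q.al y)) (bcsIx G (i.V.Q.al x)) ∧
    i.V.Q.al y ≤ (i.sp (ghPs 1 G)).v (bcsIx G (i.V.Q.al y)) := by
  classical
  have hF := BudB.vst_ok hS hi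
  have hg0 := BudB.vst_g0 hS hn hi
  have H := bud_hp_aux_ckadm hS hi.1 hg0 i.V.Q
  have hrm := bud_bm_r_mono hF i.V.Q
  have hrc := bud_bm_r_cont hF i.V.Q
  have hr0 := bud_bm_r_zero i.V.Q
  have hr1 := bud_bm_r_one i.V.Q
  have hch : CkmCh (ghPs 1 G) := ckm_ch G
  have hxI : x ∈ Ioo (0 : ℝ) 1 := ⟨hy0.trans_le hyx, hx1⟩
  have hyI : y ∈ Ioo (0 : ℝ) 1 := ⟨hy0, hyx.trans_lt hx1⟩
  obtain ⟨vt, hvt⟩ : ∃ vt : ℝ, vt = i.V.Q.al x := ⟨_, rfl⟩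
  obtain ⟨vq, hvq⟩ : ∃ vq : ℝ, vq = i.V.Q.al y := ⟨_, rfl⟩
  rw [← hvt] at hxG ⊢
  rw [← hvq] at hyG ⊢
  have hvtI : vt ∈ Ioo (0 : ℝ) 1 := hvt ▸ bud_bm_al_Ioo hF i.V.Q hxI
  have hvqI : vq ∈ Ioo (0 : ℝ) 1 := hvq ▸ bud_bm_al_Ioo hF i.V.Q hyI
  have hrvt : i.V.Q.r vt = x := by rw [hvt]; exact i.V.Q.r_al _ ⟨hxI.1.le, hxI.2.le⟩
  have hrvq : i.V.Q.r vq = y := by rw [hvq]; exact i.V.Q.r_al _ ⟨hyI.1.le, hyI.2.le⟩
  have hvqt : vq ≤ vt := by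
    rw [hvq, hvt]
    exact bud_bm_al_mono hF i.V.Q ⟨hyI.1.le, hyI.2.le⟩ ⟨hxI.1.le, hxI.2.le⟩ hyx
  have hvlt : y < x → vq < vt := fun hlt => by
    by_contra hcon
    have := hrm ⟨hvtI.1.le, hvtI.2.le⟩ ⟨hvqI.1.le, hvqI.2.le⟩ (not_lt.1 hcon)
    rw [hrvt, hrvq] at this
    linarith
  have hslope : ∀ s t, 0 < s → s ≤ t → t ≤ vt → y / 2 ≤ i.V.Q.r s →
      i.F.C0 * (i.V.Q.r t - i.V.Q.r s) ≤ i.V.Q.hE i.V.g t - i.V.Q.hE i.V.g s := by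
    intro s t hs hst ht _
    have ht1 : t < 1 := ht.trans_lt hvtI.2
    have hsI : s ∈ Ioo (0 : ℝ) 1 := ⟨hs, hst.trans_lt ht1⟩
    have htI : t ∈ Ioo (0 : ℝ) 1 := ⟨hs.trans_le hst, ht1⟩
    have hrt : i.V.Q.r t ≤ x := hrvt ▸ hrm ⟨htI.1.le, htI.2.le⟩ ⟨hvtI.1.le, hvtI.2.le⟩ ht
    have hrs : i.V.Q.r s ≤ i.V.Q.r t := hrm ⟨hsI.1.le, hsI.2.le⟩ ⟨htI.1.le, htI.2.le⟩ hst
    have c1 : i.F.C X (i.V.Q.r t) = i.F.C0 := hS.Cconst _ hi.1 _ ⟨(i.V.Q.r_mem t ⟨htI.1.le, htI.2.le⟩).1, by linarith⟩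
    have c2 : i.F.C X (i.V.Q.r s) = i.F.C0 := hS.Cconst _ hi.1 _ ⟨(i.V.Q.r_mem s ⟨hsI.1.le, hsI.2.le⟩).1, by linarith⟩
    have hm' : i.F.h i.V.g s ≤ i.F.h i.V.g t := (hS.clk0 _ hi.1 _ hg0).2.mono hsI htI hst
    show _ ≤ bmExt (i.V.Q.hq i.V.g) t - bmExt (i.V.Q.hq i.V.g) s
    rw [bud_bm_ext_eq _ htI, bud_bm_ext_eq _ hsI]
    unfold BdQ.hq
    rw [c1, c2]
    linarith
  obtain ⟨φ, hφc, hφs, hφv⟩ := bud_bm_g_slope H.2 hrc hrm hr0 hr1 (by linarith : 0 < y / 2) hvtI (by rw [hrvt]; linarith) hslope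
  obtain ⟨M, hM⟩ : ∃ M, M = ckM i.F.m (i.V.Q.bE i.V.g) (i.V.Q.hE i.V.g) (ghPs 1 G) := ⟨_, rfl⟩
  have hμm : Monotone M.mass := by rw [hM]; exact ckm_mass_mono i.F.m (i.V.Q.bE i.V.g) (i.V.Q.hE i.V.g) hch
  have hidm : ∀ v, ghPosA v ∈ ghPs 1 G → M.mass (ghIdx (ghPs 1 G) ((ghPosA v : GhPos) : WithTop GhPos)) = v := fun v hv => by
    rw [hM, ckm_idx_mass _ _ _ hch hv, bud_bm_i_posA_u]
  have hsp : i.sp (ghPs 1 G) = skSP i.F.m 1 (ckStp 1 (i.V.Q.bE i.V.g) (i.V.Q.hE i.V.g) (ghPs 1 G)) := rfl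
  have hle : bcsIx G vq ≤ bcsIx G vt := bud_bm_i_idx_mono _ hvqt
  refine ⟨hle, fun hlt => bud_bm_i_idx_lt hch (hvlt hlt) hxG, ?_, ?_⟩
  · rw [hsp, bud_bm_i_hlen _ _ _ _ hle]
    have h3 := ckm_hck_slope i.F.m (i.V.Q.bE i.V.g) H.2 hφc hφs hch (bud_bm_i_idx_mono (ghPs 1 G) hvqt) (brg_t_idx_coe_le (ghPs 1 G) _)
    rw [← hM, hidm vt hxG, hidm vq hyG, hφv vt ⟨hvtI.1.le, hvtI.2.le⟩ (by rw [hrvt]; linarith) le_rfl,
      hφv vq ⟨hvqI.1.le, hvqI.2.le⟩ (by rw [hrvq]; linarith) hvqt, hrvt, hrvq] at h3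
    rw [← hM]
    unfold bcsIx
    linarith
  · rw [hsp, bud_bm_i_v, ← hM]
    unfold bcsIx
    calc vq = M.mass (ghIdx (ghPs 1 G) ((ghPosA vq : GhPos) : WithTop GhPos)) := (hidm vq hyG).symm
      _ ≤ _ := hμm (Nat.le_succ _)

/-- arithmetic of the layers: the chain numbers `St`, `Sk` are `δ`-close to the profile -/
theorem bud_bm_ae_arith {Kl : ℕ} (hKl : 1 ≤ Kl) {A0 T0 δ : ℝ} (hA0 : 0 ≤ A0) (hT0 : 0 < T0) (φx : ℝ) (φz : ℕ → ℝ) (Sk : ℝ) (St : ℕ → ℝ)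
    (hle : ∀ j, φz j ≤ φx) (hk : |Sk - φx| ≤ δ) (ht : ∀ j < Kl, |St (j + 1) - φz j| ≤ δ) :
    ∑ j ∈ Finset.range Kl, A0 / (T0 / 2 ^ j) * (if j = 0 then St 1 else St (j + 1) - St j) + 4 * (Sk - St Kl)
      ≤ A0 / T0 * φx + (∑ j ∈ Finset.range Kl, 2 * A0 / (T0 / 2 ^ j) * (φx - φz j)) + 4 * (φx - φz (Kl - 1))
        + ((∑ j ∈ Finset.range Kl, A0 / (T0 / 2 ^ j) * 2) + 8) * δ := by
  obtain ⟨K', rfl⟩ : ∃ K', Kl = K' + 1 := ⟨Kl - 1, by omega⟩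
  have hc : ∀ j : ℕ, 0 ≤ A0 / (T0 / 2 ^ j) := fun j => by positivity
  have he : ∀ j : ℕ, A0 / (T0 / 2 ^ (j + 1)) = 2 * A0 / (T0 / 2 ^ j) := fun j => by
    rw [pow_succ]; field_simp
  have hk' := abs_le.1 hk
  have hδ : 0 ≤ δ := (abs_nonneg _).trans hk
  rw [Finset.sum_range_succ' (fun j => A0 / (T0 / 2 ^ j) * (if j = 0 then St 1 else St (j + 1) - St j)),
    Finset.sum_range_succ (fun j => 2 * A0 / (T0 / 2 ^ j) * (φx - φz j)),
    Finset.sum_range_succ' (fun j => A0 / (T0 / 2 ^ j) * 2), Nat.add_sub_cancel]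
  simp only [if_pos, Nat.add_eq_zero_iff, one_ne_zero, and_false, if_false, pow_zero, div_one, zero_add]
  have h1 : ∑ j ∈ Finset.range K', A0 / (T0 / 2 ^ (j + 1)) * (St (j + 1 + 1) - St (j + 1))
      ≤ ∑ j ∈ Finset.range K', (2 * A0 / (T0 / 2 ^ j) * (φx - φz j) + A0 / (T0 / 2 ^ (j + 1)) * 2 * δ) := by
    refine Finset.sum_le_sum fun j hj => ?_
    have hj' := Finset.mem_range.1 hj
    have a1 := abs_le.1 (ht (j + 1) (by omega))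
    have a2 := abs_le.1 (ht j (by omega))
    have a3 : St (j + 1 + 1) - St (j + 1) ≤ (φx - φz j) + 2 * δ := by linarith [hle (j + 1)]
    have a4 := mul_le_mul_of_nonneg_left a3 (hc (j + 1))
    rw [← he j]
    linarith
  rw [Finset.sum_add_distrib, ← Finset.sum_mul] at h1
  have h2 := abs_le.1 (ht 0 (by omega))
  have h3 := abs_le.1 (ht K' (by omega))
  have h4 : A0 / T0 * St 1 ≤ A0 / T0 * (φx + δ) := mul_le_mul_of_nonneg_left (by linarith [hle 0]) (by positivity)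
  have h5 : 0 ≤ 2 * A0 / (T0 / 2 ^ K') * (φx - φz K') := mul_nonneg (by positivity) (by linarith [hle K'])
  have h6 : 0 ≤ A0 / T0 * δ := by positivity
  nlinarith

/-- LEAF: **THE POINTWISE BOUND** (l.1581-1585).   PLAN: `δ > 0`; chain `G ⊇ F0(δ) ∪ {positions of x - T0/2^j (j < Kl), x}` (`exit_clk_lim_stat`); `bud_bm_ae_dict`, `bud_bm_ae_chain`;
`bud_bm_alias_pt` with `t j = bcsIx G (α(x - T0/2^(j-1)))`, `k = bcsIx G (α x)`, `sg j = 1/(v0² m C0 T0/2^j)`, `vmin = v0`, `hmin = C0 T0/2^Kl` (`l8i_proj 1`, `bud_bm_ae_len`);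
`S (t j)` is `δ`-close to `S(α(..))`; `φ(x - T0/2^j) - φ(x - T0/2^(j-1)) ≤ φ x - φ(x - T0/2^(j-1))`, `φ(x - T0) ≤ φ x` (monotone: `exit_clk_SB`); `δ ↓ 0`.     TEX[LL:bud:box-moments] -/
theorem bud_bm_ae_pt (hS : BdStd X W Fam K) (hW : W.IsSk) {n : ℕ} (hn : n ≤ X.J + 1) :
    ∃ cq : ℝ, 0 < cq ∧ ∀ i : BdVI X W, BudB.VSt X W Fam n i → ∀ (x T0 v0 : ℝ) (Kl : ℕ), 1 ≤ Kl → 0 < T0 → 0 < x - T0 → x ≤ X.cI * i.F.u → x < 1 →
      0 < v0 → v0 ≤ i.V.Q.al (x - T0) →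
      0 ≤ i.V.Q.alErr W i.V.g (i.V.Q.al x) ∧
      i.V.Q.alErr W i.V.g (i.V.Q.al x)
        ≤ 2 * ((Kl : ℝ) + 1) * bmAeLay (fun y => (i.V.Q.bosNum i.V.g).S (i.V.Q.al y)) (cq / (v0 ^ 2 * i.F.m * i.F.C0)) T0 Kl x
          + (i.V.Q.bosNum i.V.g).TC (i.V.Q.al x) := by
  classical
  obtain ⟨cq, hcq, hproj⟩ := l8i_proj 1 le_rfl
  refine ⟨cq, hcq, fun i hi x T0 v0 Kl hKl hT0 hxT hxc hx1 hv0 hv0a => ?_⟩
  have hF := BudB.vst_ok hS hi
  have hg0 := BudB.vst_g0 hS hn hi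
  have H := bud_hp_aux_ckadm hS hi.1 hg0 i.V.Q
  have hm : 0 < i.F.m := bud_hp_aux_m_pos hF
  have hmR : (0 : ℝ) < i.F.m := by exact_mod_cast hm
  have hC0 : 0 < i.F.C0 := bud_hp_aux_C0_pos hS.fix hF
  obtain ⟨hcb, hch⟩ := hS.clk i.F hi.1 i.V.g hg0 i.V.Q
  have halm := bud_bm_al_mono hF i.V.Q
  -- the radii
  obtain ⟨z, hz⟩ : ∃ z : ℕ → ℝ, z = fun j => x - T0 / 2 ^ j := ⟨_, rfl⟩
  have hTj : ∀ j : ℕ, 0 < T0 / 2 ^ j := fun j => by positivity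
  have hTj1 : ∀ j : ℕ, T0 / 2 ^ j ≤ T0 := fun j => div_le_self hT0.le (one_le_pow₀ (by norm_num))
  have hz0 : ∀ j, 0 < z j := fun j => by rw [hz]; show 0 < x - T0 / 2 ^ j; linarith [hTj1 j]
  have hzx : ∀ j, z j < x := fun j => by rw [hz]; show x - T0 / 2 ^ j < x; linarith [hTj j]
  have hzT : ∀ j, x - T0 ≤ z j := fun j => by rw [hz]; show x - T0 ≤ x - T0 / 2 ^ j; linarith [hTj1 j]
  have hzm : Monotone z := fun a b hab => by
    rw [hz]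
    show x - T0 / 2 ^ a ≤ x - T0 / 2 ^ b
    have : T0 / 2 ^ b ≤ T0 / 2 ^ a := div_le_div_of_nonneg_left hT0.le (by positivity) (pow_le_pow_right₀ (by norm_num) hab)
    linarith
  have hxI : x ∈ Ioo (0 : ℝ) 1 := ⟨by linarith, hx1⟩
  have hzI : ∀ j, z j ∈ Ioo (0 : ℝ) 1 := fun j => ⟨hz0 j, (hzx j).trans hx1⟩
  have hvI := bud_bm_al_Ioo hF i.V.Q hxI
  have hwI := fun j => bud_bm_al_Ioo hF i.V.Q (hzI j)
  have hcl : ∀ v ∈ Ioo (0 : ℝ) 1, cmkCl v = v := fun v hv => by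
    unfold cmkCl
    rw [min_eq_left hv.2.le, max_eq_right hv.1.le]
  -- the profile
  obtain ⟨s, hs⟩ : ∃ s : ℝ → ℝ, s = fun v => skCS i.F.m 1 (i.V.Q.bE i.V.g) (i.V.Q.hE i.V.g) (ghPosA v) := ⟨_, rfl⟩
  have hφ : ∀ y ∈ Ioo (0 : ℝ) 1, (i.V.Q.bosNum i.V.g).S (i.V.Q.al y) = s (i.V.Q.al y) := fun y hy => by
    rw [hs]
    show skCS i.F.m 1 (i.V.Q.bE i.V.g) (i.V.Q.hE i.V.g) (ghPosA (cmkCl (i.V.Q.al y))) = _
    rw [hcl _ (bud_bm_al_Ioo hF i.V.Q hy)]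
  have hTC : (i.V.Q.bosNum i.V.g).TC (i.V.Q.al x) = ckC2 i.F.m 1 (i.V.Q.bE i.V.g) (i.V.Q.hE i.V.g) (ghPosA (i.V.Q.al x)) := by
    show ckC2 i.F.m 1 (i.V.Q.bE i.V.g) (i.V.Q.hE i.V.g) (ghPosA (cmkCl (i.V.Q.al x))) = _
    rw [hcl _ hvI]
  have hok : ∀ v ∈ Ioo (0 : ℝ) 1, (ghPosA v).Ok 1 := fun v hv => gh_os_posA_ok hv.1.le hv.2.le
  have hsle : ∀ j, s (i.V.Q.al (z j)) ≤ s (i.V.Q.al x) := fun j => by
    rw [hs]
    refine (exit_clk_SB hm one_pos H (hok _ (hwI j)) (hok _ hvI) ?_).2.1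
    rw [gh_os_pos_le_iff, bud_bm_i_posA_u, bud_bm_i_posA_u, bud_bm_i_posA_lam, bud_bm_i_posA_lam]
    rcases (halm ⟨(hzI j).1.le, (hzI j).2.le⟩ ⟨hxI.1.le, hxI.2.le⟩ (hzx j).le).lt_or_eq with h | h
    · exact Or.inl h
    · exact Or.inr ⟨h, le_rfl⟩
  obtain ⟨A0, hA0d⟩ : ∃ A0 : ℝ, A0 = cq / (v0 ^ 2 * i.F.m * i.F.C0) := ⟨_, rfl⟩
  have hA0 : 0 ≤ A0 := by rw [hA0d]; positivity
  rw [← hA0d]
  have hLay : bmAeLay (fun y => (i.V.Q.bosNum i.V.g).S (i.V.Q.al y)) A0 T0 Kl x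
      = A0 / T0 * s (i.V.Q.al x) + (∑ j ∈ Finset.range Kl, 2 * A0 / (T0 / 2 ^ j) * (s (i.V.Q.al x) - s (i.V.Q.al (z j))))
        + 4 * (s (i.V.Q.al x) - s (i.V.Q.al (z (Kl - 1)))) := by
    unfold bmAeLay
    have e : ∀ j, (i.V.Q.bosNum i.V.g).S (i.V.Q.al (x - T0 / 2 ^ j)) = s (i.V.Q.al (z j)) := fun j => by
      have := hφ _ (hzI j)
      rw [hz] at this ⊢
      exact this
    simp only [hφ x hxI, e]
  rw [hLay, hTC, bud_bm_ae_dict hW i.V.Q hm hcb hch hvI]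
  obtain ⟨Cd, hCd⟩ : ∃ Cd : ℝ, Cd = (∑ j ∈ Finset.range Kl, A0 / (T0 / 2 ^ j) * 2) + 8 := ⟨_, rfl⟩
  have hCd0 : 0 ≤ Cd := by
    rw [hCd]
    exact add_nonneg (Finset.sum_nonneg fun j _ => by positivity) (by norm_num)
  -- one chain
  have key : ∀ δ : ℝ, 0 < δ →
      -(2 * δ) ≤ skCB i.F.m 1 (i.V.Q.bE i.V.g) (i.V.Q.hE i.V.g) (ghPosA (i.V.Q.al x)) - ckX4 i.F.m 1 (i.V.Q.bE i.V.g) (i.V.Q.hE i.V.g) (ghPosA (i.V.Q.al x)) ∧
      skCB i.F.m 1 (i.V.Q.bE i.V.g) (i.V.Q.hE i.V.g) (ghPosA (i.V.Q.al x)) - ckX4 i.F.m 1 (i.V.Q.bE i.V.g) (i.V.Q.hE i.V.g) (ghPosA (i.V.Q.al x))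
        ≤ 2 * ((Kl : ℝ) + 1) * (A0 / T0 * s (i.V.Q.al x) + (∑ j ∈ Finset.range Kl, 2 * A0 / (T0 / 2 ^ j) * (s (i.V.Q.al x) - s (i.V.Q.al (z j))))
        + 4 * (s (i.V.Q.al x) - s (i.V.Q.al (z (Kl - 1))))) + ckC2 i.F.m 1 (i.V.Q.bE i.V.g) (i.V.Q.hE i.V.g) (ghPosA (i.V.Q.al x))
          + (2 * ((Kl : ℝ) + 1) * Cd + 3) * δ := by
    intro δ hδ
    obtain ⟨F0, hF0⟩ := exit_clk_lim_stat hm one_pos H hδ
    obtain ⟨G, hG⟩ : ∃ G : Finset GhPos, G = F0 ∪ ({ghPosA (i.V.Q.al x)} ∪ (Finset.range Kl).image fun j => ghPosA (i.V.Q.al (z j))) := ⟨_, rfl⟩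
    have hF0G : F0 ⊆ G := by rw [hG]; exact Finset.subset_union_left
    have hxG : ghPosA (i.V.Q.al x) ∈ G := by
      rw [hG]; exact Finset.mem_union_right _ (Finset.mem_union_left _ (Finset.mem_singleton_self _))
    have hzG : ∀ j < Kl, ghPosA (i.V.Q.al (z j)) ∈ G := fun j hj => by
      rw [hG]; exact Finset.mem_union_right _ (Finset.mem_union_right _ (Finset.mem_image.2 ⟨j, Finset.mem_range.2 hj, rfl⟩))
    have hxP : ghPosA (i.V.Q.al x) ∈ ghPs 1 G := gh_os_ps_mem.2 ⟨hxG, hok _ hvI⟩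
    have hzP : ∀ j < Kl, ghPosA (i.V.Q.al (z j)) ∈ ghPs 1 G := fun j hj => gh_os_ps_mem.2 ⟨hzG j hj, hok _ (hwI j)⟩
    obtain ⟨P, hP⟩ : ∃ P : SkStp, P = ckStp 1 (i.V.Q.bE i.V.g) (i.V.Q.hE i.V.g) (ghPs 1 G) := ⟨_, rfl⟩
    have hadm : SkAdm 1 P := by rw [hP]; exact cmk_chain_adm H G
    have hPl : P.length = (ghPs 1 G).length := by rw [hP]; exact ckm_stp_len 1 _ _ _ 0 0
    have hsp : i.sp (ghPs 1 G) = skSP i.F.m 1 P := by rw [hP]; rfl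
    have hPok : (skSP i.F.m 1 P).Ok := l8i_ok _ hm 1 one_pos P hadm
    obtain ⟨k, hk⟩ : ∃ k : ℕ, k = bcsIx G (i.V.Q.al x) := ⟨_, rfl⟩
    obtain ⟨t, ht⟩ : ∃ t : ℕ → ℕ, t = fun j => bcsIx G (i.V.Q.al (z (j - 1))) := ⟨_, rfl⟩
    have hkl : k ≤ P.length := by rw [hk, hPl]; exact brg_t_idx_coe_le _ _
    have htl : ∀ j, t j ≤ P.length := fun j => by rw [ht, hPl]; exact brg_t_idx_coe_le _ _
    have htm : Monotone t := fun a b hab => by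
      rw [ht]
      exact bud_bm_i_idx_mono _ (halm ⟨(hzI _).1.le, (hzI _).2.le⟩ ⟨(hzI _).1.le, (hzI _).2.le⟩ (hzm (Nat.sub_le_sub_right hab 1)))
    have hlen := fun j (hj : j < Kl) => bud_bm_ae_len hS hn hi G (hz0 j) (hzx j).le hxc hx1 (hzP j hj) hxP
    obtain ⟨sg, hsg⟩ : ∃ sg : ℕ → ℝ, sg = fun j => 1 / (v0 ^ 2 * i.F.m * (i.F.C0 * (T0 / 2 ^ j))) := ⟨_, rfl⟩
    have hsge : ∀ j, cq * sg j = A0 / (T0 / 2 ^ j) := fun j => by
      rw [hsg, hA0d]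
      show cq * (1 / (v0 ^ 2 * i.F.m * (i.F.C0 * (T0 / 2 ^ j)))) = _
      field_simp
    have hal := bud_bm_alias_pt (skSP i.F.m 1 P) hPok hcq.le (hproj i.F.m 1 P hm one_pos (by norm_num) hadm v0 (i.F.C0 * (T0 / 2 ^ Kl)) hv0 (by positivity))
      (k := k) (by
        have : (skSP i.F.m 1 P).n = (ghPs 1 G).length := by rw [hP]; exact bud_bm_i_n _ _ _ _
        rw [this, ← hPl]; omega) Kl hKl t htm (by
        rw [ht, hk]
        exact (hlen (Kl - 1) (by omega)).1) sg (fun j => by rw [hsg]; show 0 ≤ 1 / (v0 ^ 2 * i.F.m * (i.F.C0 * (T0 / 2 ^ j))); positivity)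
      (fun j hj => by
        obtain ⟨-, l2, l3, l4⟩ := hlen j hj
        rw [hsp, ← hk] at l3
        rw [hsp] at l4
        have e1 : t (j + 1) = bcsIx G (i.V.Q.al (z j)) := by rw [ht]; rfl
        have e2 : x - z j = T0 / 2 ^ j := by rw [hz]; show x - (x - T0 / 2 ^ j) = _; ring
        rw [e2] at l3
        have l5 : v0 ≤ (skSP i.F.m 1 P).v (bcsIx G (i.V.Q.al (z j))) :=
          (hv0a.trans (halm ⟨hxT.le, by linarith⟩ ⟨(hzI j).1.le, (hzI j).2.le⟩ (hzT j))).trans l4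
        rw [e1]
        refine ⟨hk ▸ l2 (hzx j), l5, le_trans ?_ l3, ?_⟩
        · refine mul_le_mul_of_nonneg_left ?_ hC0.le
          exact div_le_div_of_nonneg_left hT0.le (by positivity) (pow_le_pow_right₀ (by norm_num) hj.le)
        · have hD0 : 0 < v0 ^ 2 * i.F.m * (i.F.C0 * (T0 / 2 ^ j)) := by positivity
          rw [hsg]
          show 1 ≤ 1 / (v0 ^ 2 * i.F.m * (i.F.C0 * (T0 / 2 ^ j))) * _
          rw [one_div, ← div_eq_inv_mul, le_div_iff₀ hD0, one_mul]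
          unfold mbxDen
          exact mul_le_mul (mul_le_mul_of_nonneg_right (pow_le_pow_left₀ hv0.le l5 2) hmR.le) l3 (by positivity)
            (by have := hv0.le.trans l5; positivity))
    simp only [hsge] at hal
    -- closeness
    obtain ⟨cS, cB, -, cC, cX⟩ := hF0 G hF0G _ hxG (hok _ hvI)
    have hcz := fun j (hj : j < Kl) => (hF0 G hF0G _ (hzG j hj) (hok _ (hwI j))).1
    rw [← hP] at cS cB cC cX
    have hSk : (skSP i.F.m 1 P).S k = obS i.F.m 1 P 0 k := l8i_S _ 1 one_pos P hadm k hkl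
    have hSt : ∀ j, (skSP i.F.m 1 P).S (t j) = obS i.F.m 1 P 0 (t j) := fun j => l8i_S _ 1 one_pos P hadm _ (htl j)
    have har := bud_bm_ae_arith hKl hA0 hT0 (s (i.V.Q.al x)) (fun j => s (i.V.Q.al (z j))) ((skSP i.F.m 1 P).S k) (fun j => (skSP i.F.m 1 P).S (t j))
      (δ := δ) hsle (by rw [hSk, hk, hs]; exact cS) (fun j hj => by
        have := hcz j hj
        rw [← hP] at this
        rw [hSt, ht, hs]
        exact this)
    obtain ⟨d1, d2, d3⟩ := bud_bm_ae_chain hm P hadm hkl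
    rw [← hCd] at har
    have hK0 : (0 : ℝ) ≤ 2 * ((Kl : ℝ) + 1) := by positivity
    have cB' := abs_le.1 cB
    have cX' := abs_le.1 cX
    have cC' := abs_le.1 cC
    have hkk : ghIdx (ghPs 1 G) ((ghPosA (i.V.Q.al x) : GhPos) : WithTop GhPos) = k := hk.symm
    rw [hkk] at cB' cX' cC'
    constructor
    · linarith [cB'.1, cB'.2, cX'.1, cX'.2]
    · have h7 := hal.trans (mul_le_mul_of_nonneg_left har (by positivity : (0 : ℝ) ≤ (Kl : ℝ) + 1))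
      nlinarith [cB'.1, cB'.2, cX'.1, cX'.2, cC'.1, cC'.2]
  constructor
  · refine le_of_forall_pos_le_add fun ε hε => ?_
    have := (key (ε / 2) (by linarith)).1
    linarith
  · refine le_of_forall_pos_le_add fun ε hε => ?_
    have hD : 0 < 2 * ((Kl : ℝ) + 1) * Cd + 3 := by positivity
    have := (key (ε / (2 * ((Kl : ℝ) + 1) * Cd + 3)) (by positivity)).2
    rwa [mul_div_cancel₀ _ hD.ne'] at this

/-! ## 3. PRODUCER: a buffered violation carries a `BmAe` on each of its boxes -/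

/-- **the geometry of a buffered violation** (= `bos_bx_geo` of 111 with the description of the floor set) -/
theorem bud_bm_ae_geo (hS : BdStd X W Fam K) (hW : W.IsSk) {n : ℕ} (hn : n ≤ X.J + 1) :
    ∃ N0 : ℕ, ∀ i : BdVI X W, BudB.VSt X W Fam n i → N0 ≤ i.F.N → ∃ (c0 : ℝ) (Z : CmCaps),
      i.F.Base X W i.V.g ∧
      BosGeo (bosAlG ((i.bx c0).geo W)) (bosRG ((i.bx c0).geo W)) (budKb i.F X) (i.F.C X) i.F.Mj ((i.F.m : ℝ) / i.F.bosLp X) (i.F.bosLp X)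
        (i.V.Q.bosNum i.V.g) Z ∧
      Z.Fl = {x | x ∈ Icc (0 : ℝ) 1 ∧ 0 < ((i.bx c0).geo W).H x} ∧
      BudBuf ((i.bx c0).geo W) i.F.beta0 (i.V.r0 - i.V.bbuf) (i.V.r0 + i.V.bbuf) (2 * i.V.d0) K.cb K.Cb ((X.phi n + X.cI) / 2 * i.F.u) i.F.C0 ∧
      0 < i.V.r0 - i.V.bbuf ∧ i.V.r0 + i.V.bbuf < 1 := by
  have hX := hS.fix
  obtain ⟨N1, h1⟩ := bud_n4_geo X hX
  obtain ⟨N2, h2⟩ := bdg_budbuf hS hn
  refine ⟨max N1 N2, fun i hi hN => ?_⟩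
  have hF := BudB.vst_ok hS hi
  have hg0 := BudB.vst_g0 hS hn hi
  have hbase : i.F.Base X W i.V.g := bdg_base hS hi.1 i.V.Q hg0
  obtain ⟨c1, _, hpot⟩ := h1 i.F hF ((le_max_left _ _).trans hN) W i.V.g hbase i.V.Q (BudB.vst_V hi).opt
  obtain ⟨_, hbuf, _, hlo, hhi⟩ := h2 i hi ((le_max_right _ _).trans hN) _ hpot
  obtain ⟨hcb, hch⟩ := hS.clk i.F hi.1 i.V.g hg0 i.V.Q
  obtain ⟨Z, hZ, hFl⟩ := bos_geo_inst0 (I := i.bx (-(budGeoQ i.V.Q W i.V.g c1).H 0)) hX hW hF hbase hcb hch hbuf.ok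
  exact ⟨_, Z, hbase, hZ, hFl, hbuf, hlo, hhi⟩

/-- `x ≤ C_U u` -/
theorem bud_bm_ae_xu {F : BdFr} (hF : F.Ok X) (hX : X.Ok) : F.x ≤ X.CU * F.u := by
  have hCU := hX.CU_pos
  have hu := BdFr.bds_u_pos hF hX
  have h2 := BdFr.bds_Xr_le hF hX
  have h3 : F.lam ^ (X.sS / 2) ≤ 1 := BdFr.bds_lam_rpow_le_one hF hX (by
    have := hX.tau_le
    unfold BdFix.sS; linarith)
  unfold BdFr.Xr at h2
  rw [div_le_iff₀ hu] at h2
  have h5 : X.CU * F.lam ^ (X.sS / 2) * F.u ≤ X.CU * 1 * F.u := by gcongr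
  linarith

/-- LEAF (numerics).   PLAN: `bx`: `bos_bx_room` at `s = 1/2`; `M5`: `bdg_invM_small` at `γ = (cI - phi n)/10` (`hS.fix.pat`); `Mx`: `1/M_j = 2^{-st} x^100 ≤ x^40` (`bdg_invM_le`);
`xb`: `b_buf ≥ u λ^ρ`, `u ≥ x/CU`, `λ ≥ x^12`, `ρ ≤ 1`: `u λ^ρ ≥ x^13/CU ≥ 4 x^40` for large `N`; `cIu`: `BudB.ev_u`. -/
theorem bud_bm_ae_room (hS : BdStd X W Fam K) {n : ℕ} (hn1 : 1 ≤ n) (hn : n ≤ X.J + 1) (hZ : BudZ X W Fam n) (hL : BudB.LSmall X W Fam n) :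
    ∃ N0 : ℕ, ∀ i : BdVI X W, BudB.VSt X W Fam n i → N0 ≤ i.F.N → BmAeRoom i K n := by
  have hX := hS.fix
  have hCU := hX.CU_pos
  obtain ⟨_, _, _, _, hphi⟩ := hX.pat n hn
  obtain ⟨N1, h1⟩ := bos_bx_room hS hn1 hn hZ hL (s := 1 / 2) (by norm_num)
  obtain ⟨N2, h2⟩ := bdg_invM_small hX (γ := (X.cI - X.phi n) / 10) (by linarith)
  obtain ⟨N3, h3⟩ := bos43_small (κ := 27) (ε := 1 / (4 * X.CU)) (by norm_num) (by positivity)
  obtain ⟨N4, h4⟩ := BudB.ev_u hX (ε := 1 / (2 * X.cI)) (by have := hX.cI_pos; positivity)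
  refine ⟨N1 + N2 + N3 + N4, fun i hi hN => ?_⟩
  have hF := BudB.vst_ok hS hi
  have hx := BdFr.bds_x_pos hF
  have hx1 := (BdFr.bds_x_lt_one hF).le
  have hu := BudB.vst_u_pos hS hi
  have hlam := BudB.vst_lam_pos hS hi
  refine ⟨h1 i hi (by omega), ?_, ?_, ?_, ?_⟩
  · have := h2 i.F hF (by omega)
    have e : 5 / i.F.Mj = 5 * (1 / i.F.Mj) := by ring
    rw [e]; linarith
  · refine (bdg_invM_le hF).trans ?_
    rw [← Real.rpow_natCast]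
    exact Real.rpow_le_rpow_of_exponent_ge hx hx1 (by norm_num)
  · have a1 : i.F.x ^ 27 ≤ 1 / (4 * X.CU) := by
      have := h3 i.F.N (by omega)
      rw [← Real.rpow_natCast]
      exact_mod_cast this
    have a2 := bud_bm_ae_xu hF hX
    have a3 : i.F.x ^ 12 ≤ i.F.lam ^ X.rho := by
      have b1 : i.F.lam ≤ i.F.lam ^ X.rho := by
        have := Real.rpow_le_rpow_of_exponent_ge hlam (BdFr.bds_lam_lt_one hF hX).le
          (show X.rho ≤ 1 by have := hX.rho_le; have := hX.tau0_le; have := hX.eta_le; have := hX.tau_le; linarith)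
        rwa [Real.rpow_one] at this
      have b2 := hF.lam_lo
      rw [show (12 : ℝ) = ((12 : ℕ) : ℝ) by norm_num, Real.rpow_natCast] at b2
      exact b2.trans b1
    have a4 : i.F.u * i.F.lam ^ X.rho ≤ i.V.bbuf := by
      show _ ≤ i.F.u * (Real.sqrt i.V.L + i.F.lam ^ X.rho)
      exact mul_le_mul_of_nonneg_left (by linarith [Real.sqrt_nonneg i.V.L]) hu.le
    have a5 : i.F.x * i.F.x ^ 12 ≤ (X.CU * i.F.u) * i.F.lam ^ X.rho := mul_le_mul a2 a3 (by positivity) (by positivity)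
    have a6 : i.F.x ^ 40 = i.F.x ^ 27 * (i.F.x * i.F.x ^ 12) := by ring
    have a7 : i.F.x ^ 40 ≤ 1 / (4 * X.CU) * ((X.CU * i.F.u) * i.F.lam ^ X.rho) := by
      rw [a6]; exact mul_le_mul a1 a5 (by positivity) (by positivity)
    have a8 : 1 / (4 * X.CU) * ((X.CU * i.F.u) * i.F.lam ^ X.rho) = i.F.u * i.F.lam ^ X.rho / 4 := by field_simp
    linarith
  · have := h4 i.F hF (by omega)
    have hcI := hX.cI_pos
    calc X.cI * i.F.u ≤ X.cI * (1 / (2 * X.cI)) := mul_le_mul_of_nonneg_left this hcI.le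
      _ = 1 / 2 := by field_simp
      _ < 1 := by norm_num

/-- LEAF: the last dyadic distance: `x⁴⁰ ≤ (b_buf/4)/2^(Kl-1) ≤ 2 x⁴⁰` (`Nat.floor_le`, `Nat.lt_floor_add_one`, `Real.rpow_logb`) -/
theorem bud_bm_ae_K {i : BdVI X W} (hx : 0 < i.F.x) (hxb : i.F.x ^ 40 ≤ i.V.bbuf / 4) :
    i.F.x ^ 40 ≤ i.V.bbuf / 4 / 2 ^ (i.aeK - 1) ∧ i.V.bbuf / 4 / 2 ^ (i.aeK - 1) ≤ 2 * i.F.x ^ 40 := by
  have hx40 : 0 < i.F.x ^ 40 := by positivity
  obtain ⟨q, hq⟩ : ∃ q : ℝ, q = i.V.bbuf / 4 / i.F.x ^ 40 := ⟨_, rfl⟩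
  have hq1 : 1 ≤ q := by rw [hq, le_div_iff₀ hx40]; linarith
  have hq0 : 0 < q := by linarith
  have hT : i.V.bbuf / 4 = q * i.F.x ^ 40 := by rw [hq]; field_simp
  have hl0 : 0 ≤ Real.logb 2 q := Real.logb_nonneg (by norm_num) hq1
  have hk : i.aeK - 1 = ⌊Real.logb 2 q⌋₊ := by unfold BdVI.aeK; rw [← hq]; simp
  rw [hk]
  have h1 : ((⌊Real.logb 2 q⌋₊ : ℕ) : ℝ) ≤ Real.logb 2 q := Nat.floor_le hl0
  have h2 : Real.logb 2 q < ((⌊Real.logb 2 q⌋₊ : ℕ) : ℝ) + 1 := Nat.lt_floor_add_one _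
  have e : (2 : ℝ) ^ (Real.logb 2 q) = q := Real.rpow_logb (by norm_num) (by norm_num) hq0
  have p1 : (2 : ℝ) ^ ⌊Real.logb 2 q⌋₊ ≤ q := by
    rw [← Real.rpow_natCast]
    calc (2 : ℝ) ^ ((⌊Real.logb 2 q⌋₊ : ℕ) : ℝ) ≤ (2 : ℝ) ^ (Real.logb 2 q) := Real.rpow_le_rpow_of_exponent_le (by norm_num) h1
      _ = q := e
  have p2 : q ≤ 2 * (2 : ℝ) ^ ⌊Real.logb 2 q⌋₊ := by
    have : (2 : ℝ) ^ (Real.logb 2 q) ≤ (2 : ℝ) ^ (((⌊Real.logb 2 q⌋₊ : ℕ) : ℝ) + 1) := Real.rpow_le_rpow_of_exponent_le (by norm_num) h2.le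
    rw [e, Real.rpow_add (by norm_num), Real.rpow_natCast, Real.rpow_one] at this
    linarith
  have hp : (0 : ℝ) < 2 ^ ⌊Real.logb 2 q⌋₊ := by positivity
  constructor
  · rw [le_div_iff₀ hp, hT]
    nlinarith
  · rw [div_le_iff₀ hp, hT]
    nlinarith

/-- masses of the buffer: `α(y) ≥ (cb plo/2) u` -/
theorem bud_bm_ae_v0 (hS : BdStd X W Fam K) {n : ℕ} (hn : n ≤ X.J + 1) {i : BdVI X W} (hi : BudB.VSt X W Fam n i) (hLv : 2 * i.V.d0 ≤ K.cb * X.plo n / 2 * i.F.u)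
    {y : ℝ} (hy : y ∈ i.V.Buf 1) : K.cb * X.plo n / 2 * i.F.u ≤ i.V.Q.al y := by
  have h1 := abs_le.1 (BudB.vst_buf_al hS hi le_rfl hy)
  have h2 := BudB.vst_buf_sub hS hi le_rfl hy
  obtain ⟨h3, h4⟩ := BudB.vst_buf_cI hS hn hi le_rfl hy
  have h5 := (BudB.fam_beta hS hi.1 h3.le h4.le).1
  have h6 : K.cb * (X.plo n * i.F.u) ≤ K.cb * y := mul_le_mul_of_nonneg_left h2.1 hS.cb_pos.le
  nlinarith

/-- **past oscillation of `S` in the buffer** (proved by 9; `hM` added: the cap of the datum is `M_j`) (radius coordinate of the geometry datum), `ℓ = 9 d0/cb`.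
(1) pointwise `S x - S (x-t) ≤ t + (18/cb + 4) d0` (`BudBuf.S_osc`, `1/M_j ≤ d0`);   (2) at a nonfloor point `≤ 3 t + 5/M_j` (`BudGeo.flat_S_near`, `BudBuf.Y_off`; room `M5`);   (3) `S x ≤ c_I u` (`BudBuf.S_near`). -/
theorem bud_bm_ae_osc (hS : BdStd X W Fam K) {n : ℕ} (hn : n ≤ X.J + 1) {i : BdVI X W} (hi : BudB.VSt X W Fam n i) (hR : BmAeRoom i K n) {gg : BudGeo}
    (hB : BudBuf gg i.F.beta0 (i.V.r0 - i.V.bbuf) (i.V.r0 + i.V.bbuf) (2 * i.V.d0) K.cb K.Cb ((X.phi n + X.cI) / 2 * i.F.u) i.F.C0)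
    (hM : gg.M = i.F.Mj)
    {x t : ℝ} (hx : x ∈ i.V.Buf (1 / 4)) (ht0 : 0 ≤ t) (ht : t ≤ i.V.bbuf / 4) :
    gg.S x - gg.S (x - t) ≤ t + (18 / K.cb + 4) * i.V.d0 ∧ (gg.H x ≤ 0 → gg.S x - gg.S (x - t) ≤ 3 * t + 5 / i.F.Mj) ∧ gg.S x ≤ X.cI * i.F.u := by
  have hcb := hS.cb_pos
  have hd0 : 0 < i.V.d0 := mul_pos hR.bx.u0 hR.bx.L0
  have hM0 : 0 < i.F.Mj := one_pos.trans hR.bx.M1
  have hroom := hR.bx.room
  have hMd := hR.bx.Md
  obtain ⟨hx1, hx2⟩ := hx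
  obtain ⟨ℓ, hℓ⟩ : ∃ ℓ : ℝ, ℓ = 9 * i.V.d0 / K.cb := ⟨_, rfl⟩
  have hℓ1 : 4 * (2 * i.V.d0) / K.cb < ℓ := by
    rw [hℓ]; exact div_lt_div_of_pos_right (by linarith) hcb
  have hq : 0 < i.V.d0 / K.cb := div_pos hd0 hcb
  have hℓ2 : ℓ + 2 * i.V.d0 ≤ i.V.bbuf / 2 := by
    have e1 : 10 * (1 / K.cb + 1) * i.V.d0 = 10 * (i.V.d0 / K.cb) + 10 * i.V.d0 := by ring
    have e2 : ℓ = 9 * (i.V.d0 / K.cb) := by rw [hℓ]; ring
    rw [e1] at hroom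
    rw [e2]; linarith
  have hphi := (BudB.vst_V hi).r0_mem.2.2
  rw [BudB.vst_st hi] at hphi
  have hxm : x ∈ Icc (i.V.r0 - i.V.bbuf + ℓ) (i.V.r0 + i.V.bbuf - ℓ) := ⟨by linarith, by linarith⟩
  have hxt : x - t ∈ Icc (i.V.r0 - i.V.bbuf + ℓ) (i.V.r0 + i.V.bbuf - ℓ) := ⟨by linarith, by linarith⟩
  have e4 : 4 / i.F.Mj = 4 * (1 / i.F.Mj) := by ring
  have e2 : 2 / i.F.Mj = 2 * (1 / i.F.Mj) := by ring
  have e3 : 3 / i.F.Mj = 3 * (1 / i.F.Mj) := by ring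
  have e5 : 5 / i.F.Mj = 5 * (1 / i.F.Mj) := by ring
  refine ⟨?_, fun hH => ?_, ?_⟩
  · have h1 := hB.S_osc hℓ1 hxt hxm (by linarith)
    rw [hM, e4] at h1
    have e6 : (18 / K.cb + 4) * i.V.d0 = 2 * ℓ + 4 * i.V.d0 := by rw [hℓ]; ring
    rw [e6]; linarith
  · have hlo0 := hB.lo0
    have h1 := abs_le.1 (hB.Y_off (r := x) ⟨by linarith, by linarith⟩ hH)
    have h2 := abs_le.1 (BudGeo.flat_S_near hB.ok hB.flat (s0 := x) (L := t) (by linarith) ht0 (by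
      rw [hM]
      have := hR.M5
      have e : (X.phi n + X.cI) / 2 * i.F.u = X.phi n * i.F.u + (X.cI - X.phi n) / 2 * i.F.u := by ring
      rw [e]; linarith) hH (r := x - t) (by linarith) (by
      rw [show x - t - x = -t by ring, abs_neg, abs_of_nonneg ht0]))
    rw [hM] at h1 h2
    rw [e2] at h1
    rw [e3] at h2
    rw [e5]; linarith
  · have h1 := abs_le.1 (hB.S_near hℓ1 hxm)
    rw [hM, e2] at h1
    have hcI : X.phi n * i.F.u ≤ X.cI * i.F.u :=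
      mul_le_mul_of_nonneg_right (hS.fix.pat n hn).2.2.2.2.le hR.bx.u0.le
    linarith

/-- **integrated past oscillation of a profile which is monotone on `[a - t, b]`**: sliding (`≤ t · osc`) and pointwise -/
theorem bud_bm_ae_slide {φ : ℝ → ℝ} {a b t sg p : ℝ} (hab : a ≤ b) (ht : 0 ≤ t) (hφ : MonotoneOn φ (Icc (a - t) b)) (hsg : φ b - φ (a - t) ≤ sg)
    (hp : ∀ x ∈ Icc a b, φ x - φ (x - t) ≤ p) :
    ∫ x in a..b, (φ x - φ (x - t)) ≤ t * sg ∧ ∫ x in a..b, (φ x - φ (x - t)) ≤ (b - a) * p := by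
  have h12 : a - t ≤ b := by linarith
  obtain ⟨s, hs⟩ : ∃ s : ℝ → ℝ, s = fun x : ℝ => φ (max (a - t) (min x b)) := ⟨_, rfl⟩
  have hsm : Monotone s := by rw [hs]; exact bosd_cl_mono h12 hφ
  have hso : ∀ x y, s y - s x ≤ sg := fun x y => by rw [hs]; exact bosd_cl_osc h12 hφ hsg x y
  have hse : ∀ x ∈ Icc (a - t) b, s x = φ x := fun x hx => by rw [hs]; show φ _ = _; rw [bosd_cl_eq hx]
  have e1 : ∫ x in a..b, (φ x - φ (x - t)) = ∫ x in a..b, (s x - s (x - t)) := by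
    refine intervalIntegral.integral_congr fun x hx => ?_
    rw [uIcc_of_le hab] at hx
    show φ x - φ (x - t) = s x - s (x - t)
    rw [hse x ⟨by linarith [hx.1], hx.2⟩, hse (x - t) ⟨by linarith [hx.1], by linarith [hx.2]⟩]
  rw [e1]
  constructor
  · have e2 : ∫ x in a..b, (s x - s (x - t)) = ∫ i in (a - t)..(b - t), (s (i + t) - s i) := by
      rw [← intervalIntegral.integral_comp_sub_right (fun i => s (i + t) - s i) t]
      refine intervalIntegral.integral_congr fun x _ => ?_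
      show s x - s (x - t) = s (x - t + t) - s (x - t)
      rw [sub_add_cancel]
    rw [e2]
    exact bosd_win_osc1 ht s hsm hso
  · have hi : IntervalIntegrable (fun x => s x - s (x - t)) volume a b :=
      hsm.intervalIntegrable.sub (hsm.comp (fun x y hxy => by linarith : Monotone fun i : ℝ => i - t)).intervalIntegrable
    have := intervalIntegral.integral_mono_on (μ := volume) hab hi (intervalIntegrable_const (c := p)) (fun x hx => by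
      rw [hse x ⟨by linarith [hx.1], hx.2⟩, hse (x - t) ⟨by linarith [hx.1], by linarith [hx.2]⟩]
      exact hp x hx)
    rwa [intervalIntegral.integral_const, smul_eq_mul] at this

/-- numerics of the two regimes of the integrated oscillation -/
theorem bud_bm_ae_sl_num {a b t d c A : ℝ} (ht : 0 < t) (hd : 0 < d) (hc : 0 ≤ c) (hA : 0 ≤ A) (hba : b - a ≤ A * d) :
    (t ≤ d → t * (b - (a - t) + (c + 4) * d) ≤ (A + 1) * (c + 8) * t * d) ∧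
    (d ≤ t → (b - a) * (t + (c + 4) * d) ≤ (A + 1) * (c + 8) * t * d) := by
  constructor
  · intro htd
    have e1 : b - (a - t) + (c + 4) * d ≤ (A + 1) * (c + 8) * d := by
      have k0 : (A + 1) * (c + 8) * d = A * d * (c + 8) + (c + 4) * d + 4 * d := by ring
      have k1 : A * d * 1 ≤ A * d * (c + 8) := mul_le_mul_of_nonneg_left (by linarith) (by positivity)
      rw [k0]; linarith
    calc t * (b - (a - t) + (c + 4) * d) ≤ t * ((A + 1) * (c + 8) * d) := mul_le_mul_of_nonneg_left e1 ht.le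
      _ = (A + 1) * (c + 8) * t * d := by ring
  · intro htd
    have e1 : t + (c + 4) * d ≤ (c + 8) * t := by
      have k1 : (c + 4) * d ≤ (c + 4) * t := mul_le_mul_of_nonneg_left htd (by positivity)
      have k0 : (c + 8) * t = (c + 4) * t + 4 * t := by ring
      rw [k0]; linarith
    have e2 : b - a ≤ (A + 1) * d := by
      have k0 : (A + 1) * d = A * d + d := by ring
      rw [k0]; linarith
    calc (b - a) * (t + (c + 4) * d) ≤ ((A + 1) * d) * ((c + 8) * t) := mul_le_mul e2 e1 (by positivity) (by positivity)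
      _ = (A + 1) * (c + 8) * t * d := by ring

/-- LEAF: **the producer, one instance.**   PLAN: the first 16 fields as in `bos_bx_prod1` of 111 (`bos_num_ok`; `bos_bx_cap` with `BudBuf.al_osc`; `hS.Cconst`; `bud_bm_ae_v0`; `bud_gb_Kb_eq`, `kb1`);
dictionary on `[0,1]`: `bosAlG gg = gg.al = Q.al` (`bos_dict0`, `bud_n4_al`), `(bosNum).S (Q.al y) = gg.S y` on `(0,1)` (`bos_num_S`, `bud_n4_S`);
`sl`: `t ≤ d0`: sliding `bosd_win_osc1` for the clamped profile (`bosd_cl_mono`, `bosd_cl_osc`) and `bud_bm_ae_osc` (1) between `a - t` and `b`; `t ≥ d0`: `bud_bm_ae_osc` (1) under the integral;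
`nf`: `hFl`, `bud_bm_ae_osc` (2), `1/M_j ≤ x⁴⁰ ≤ t` (`bud_bm_ae_K`);   `Sb`: `bud_bm_ae_osc` (3). -/
theorem bud_bm_ae_prod (hS : BdStd X W Fam K) (hW : W.IsSk) {n : ℕ} (hn : n ≤ X.J + 1) {C : ℝ} {i : BdVI X W} (hi : BudB.VSt X W Fam n i) (hR : BmAeRoom i K n)
    {c0 : ℝ} {Z : CmCaps} (hbase : i.F.Base X W i.V.g)
    (hG : BosGeo (bosAlG ((i.bx c0).geo W)) (bosRG ((i.bx c0).geo W)) (budKb i.F X) (i.F.C X) i.F.Mj ((i.F.m : ℝ) / i.F.bosLp X) (i.F.bosLp X)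
      (i.V.Q.bosNum i.V.g) Z)
    (hFl : Z.Fl = {x | x ∈ Icc (0 : ℝ) 1 ∧ 0 < ((i.bx c0).geo W).H x})
    (hB : BudBuf ((i.bx c0).geo W) i.F.beta0 (i.V.r0 - i.V.bbuf) (i.V.r0 + i.V.bbuf) (2 * i.V.d0) K.cb K.Cb ((X.phi n + X.cI) / 2 * i.F.u) i.F.C0)
    (hlo : 0 < i.V.r0 - i.V.bbuf) (hhi : i.V.r0 + i.V.bbuf < 1)
    {a b : ℝ} (ha : a ∈ i.V.Buf (1 / 4)) (hb : b ∈ i.V.Buf (1 / 4)) (hab : a ≤ b) (hC : b - a ≤ C * i.V.d0) :
    BmAe (bosAlG ((i.bx c0).geo W)) (bosRG ((i.bx c0).geo W)) (budKb i.F X) (i.F.C X) i.F.Mj ((i.F.m : ℝ) / i.F.bosLp X) (i.F.bosLp X)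
      (i.V.Q.bosNum i.V.g) Z a b (a - 8 * i.V.d0 / i.F.Mj) (b + 8 * i.V.d0 / i.F.Mj) (K.cb * X.plo n / 2 * i.F.u) i.F.C0
      ((|C| + 18 / K.cb + 4) * i.V.d0) ((|K.Cb| * (|C| + 16) + 4) * i.V.d0) 1 (i.V.bbuf / 4) (X.cI * i.F.u) ((|C| + 1) * (18 / K.cb + 8)) i.V.d0 i.aeK := by
  have hX := hS.fix
  have hF := BudB.vst_ok hS hi
  have hg0 := BudB.vst_g0 hS hn hi
  obtain ⟨hcb, hch⟩ := hS.clk i.F hi.1 i.V.g hg0 i.V.Q
  have hRb := hR.bx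
  have hm := hRb.m0
  have hu := hRb.u0
  have hcb0 := hS.cb_pos
  obtain ⟨hplo, _, _, _, hphi⟩ := hX.pat n hn
  have hd0 : 0 < i.V.d0 := mul_pos hRb.u0 hRb.L0
  have hM0 : 0 < i.F.Mj := one_pos.trans hRb.M1
  have hx0 := BdFr.bds_x_pos hF
  have hx40 : 0 < i.F.x ^ 40 := by positivity
  have hbb : 0 < i.V.bbuf := by have := hR.xb; linarith
  have hnum := bos_num_ok hm hcb hch
  have dict : ∀ x ∈ Icc (0 : ℝ) 1, bosAlG ((i.bx c0).geo W) x = i.V.Q.al x := (bos_dict0 (W := W) hX (I := i.bx c0) hF).1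
  have dictg : ∀ x ∈ Icc (0 : ℝ) 1, bosAlG ((i.bx c0).geo W) x = ((i.bx c0).geo W).al x := fun x hx => bos_alG_eq _ hx
  have hsm := bos_al_strictMono hG
  have hoo : ∀ x ∈ Ioo (0 : ℝ) 1, bosAlG ((i.bx c0).geo W) x ∈ Ioo (0 : ℝ) 1 := fun x hx => by
    have h0 := hsm (left_mem_Icc.2 zero_le_one) (Ioo_subset_Icc_self hx) hx.1
    have h1 := hsm (Ioo_subset_Icc_self hx) (right_mem_Icc.2 zero_le_one) hx.2
    rw [hG.al_zero] at h0
    rw [hG.al_one] at h1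
    exact ⟨h0, h1⟩
  -- the quantities
  obtain ⟨q, hq⟩ : ∃ q, q = 8 * i.V.d0 / i.F.Mj := ⟨_, rfl⟩
  have hq0 : 0 ≤ q := by rw [hq]; positivity
  have hq8 : q ≤ 8 * i.V.d0 := by
    rw [hq, div_le_iff₀ hM0]
    nlinarith [hRb.M1]
  have hinv : 0 < 1 / K.cb := by positivity
  have hroom : 10 * i.V.d0 / K.cb + 10 * i.V.d0 ≤ i.V.bbuf / 2 := by
    have e : 10 * (1 / K.cb + 1) * i.V.d0 = 10 * i.V.d0 / K.cb + 10 * i.V.d0 := by ring
    have := hRb.room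
    rw [← e]; linarith
  have hdc : 0 < i.V.d0 / K.cb := div_pos hd0 hcb0
  have hdc10 : 10 * i.V.d0 / K.cb = 10 * (i.V.d0 / K.cb) := by ring
  have ha1 : i.V.r0 - i.V.bbuf / 4 ≤ a := by have := ha.1; linarith
  have hb1 : b ≤ i.V.r0 + i.V.bbuf / 4 := by have := hb.2; linarith
  have hra0 : 0 ≤ a - q := by linarith
  have hrb1 : b + q ≤ 1 := by linarith
  have ha' : a ∈ Ioo (0 : ℝ) 1 := ⟨by linarith, by linarith⟩
  have hb' : b ∈ Ioo (0 : ℝ) 1 := ⟨by linarith, by linarith⟩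
  have hosc : ∀ s' t' : ℝ, i.V.r0 - i.V.bbuf ≤ s' → s' ≤ t' → t' ≤ i.V.r0 + i.V.bbuf →
      bosAlG ((i.bx c0).geo W) t' - bosAlG ((i.bx c0).geo W) s' ≤ K.Cb * (t' - s') + 2 * (2 * i.V.d0) := fun s' t' h1 h2 h3 => by
    rw [dictg s' ⟨by linarith, by linarith⟩, dictg t' ⟨by linarith, by linarith⟩]
    exact (hB.al_osc ⟨h1, h2.trans h3⟩ ⟨h1.trans h2, h3⟩ h2).2
  have hq4 : 4 * (2 * i.V.d0) / i.F.Mj = q := by rw [hq]; ring
  have eS : ∀ x ∈ Ioo (0 : ℝ) 1, (i.V.Q.bosNum i.V.g).S (bosAlG ((i.bx c0).geo W) x) = ((i.bx c0).geo W).S x := fun x hx => by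
    rw [bos_num_S hW hm hcb hch (hoo x hx), dict x (Ioo_subset_Icc_self hx)]
    exact (bud_n4_S X hX i.F hF i.V.Q W i.V.g c0 hbase hx).symm
  have h4M : 4 / i.F.Mj ≤ 4 * i.V.d0 := by
    have := hRb.Md
    have e : 4 / i.F.Mj = 4 * (1 / i.F.Mj) := by ring
    rw [e]; linarith
  -- oscillation of `S` in the half buffer
  have hSo : ∀ y x : ℝ, i.V.r0 - i.V.bbuf / 2 ≤ y → y ≤ x → x ≤ i.V.r0 + i.V.bbuf / 2 →
      (i.V.Q.bosNum i.V.g).S (bosAlG ((i.bx c0).geo W) x) - (i.V.Q.bosNum i.V.g).S (bosAlG ((i.bx c0).geo W) y)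
        ≤ (x - y) + (18 / K.cb + 4) * i.V.d0 := fun y x h1 h2 h3 => by
    have hl : 4 * (2 * i.V.d0) / K.cb < 9 * i.V.d0 / K.cb := by
      rw [div_lt_div_iff_of_pos_right hcb0]; linarith
    have e9 : 9 * i.V.d0 / K.cb = 9 * (i.V.d0 / K.cb) := by ring
    have hmem : ∀ z ∈ Icc y x, z ∈ Icc (i.V.r0 - i.V.bbuf + 9 * i.V.d0 / K.cb) (i.V.r0 + i.V.bbuf - 9 * i.V.d0 / K.cb) := fun z hz =>
      ⟨by linarith [hz.1], by linarith [hz.2]⟩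
    have k1 := hB.S_osc hl (hmem y (left_mem_Icc.2 h2)) (hmem x (right_mem_Icc.2 h2)) h2
    rw [eS y ⟨by linarith, by linarith⟩, eS x ⟨by linarith, by linarith⟩]
    have eM : ((i.bx c0).geo W).M = i.F.Mj := rfl
    rw [eM] at k1
    have e18 : (18 / K.cb + 4) * i.V.d0 = 2 * (9 * i.V.d0 / K.cb) + 4 * i.V.d0 := by ring
    rw [e18]; linarith
  have hCd : C * i.V.d0 ≤ |C| * i.V.d0 := mul_le_mul_of_nonneg_right (le_abs_self C) hd0.le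
  have hφm : MonotoneOn (fun y => (i.V.Q.bosNum i.V.g).S (bosAlG ((i.bx c0).geo W) y)) (Icc 0 1) := fun y hy x hx hyx =>
    hnum.S_mono (bos_al_mem hG hy) (bos_al_mem hG hx) (hsm.monotoneOn hy hx hyx)
  obtain ⟨hK1, hK2⟩ := bud_bm_ae_K hx0 hR.xb
  -- the dyadic distances
  have htj : ∀ j < i.aeK, i.F.x ^ 40 ≤ i.V.bbuf / 4 / 2 ^ j ∧ i.V.bbuf / 4 / 2 ^ j ≤ i.V.bbuf / 4 := fun j hj => by
    constructor
    · refine hK1.trans ?_
      exact div_le_div_of_nonneg_left (by positivity) (by positivity) (pow_le_pow_right₀ (by norm_num) (by omega))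
    · exact div_le_self (by positivity) (one_le_pow₀ (by norm_num))
  have hc18 : 0 < 18 / K.cb := by positivity
  have hCa := abs_nonneg C
  rw [← hq]
  refine ⟨hnum, hG, hra0, by linarith, hab, by linarith, hrb1, by positivity, ?_,
    bud_gb_C0_pos hX hF, ?_, ?_, ?_, ?_, zero_le_one, ?_, ?_, by positivity, by linarith, ?_, by positivity, hd0.le, ?_, ?_⟩
  · -- v0a
    rw [dict a (Ioo_subset_Icc_self ha')]
    exact bud_bm_ae_v0 hS hn hi hRb.Lv ⟨by linarith, by linarith⟩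
  · -- e0e
    intro x hx
    have h1 := hB.hiR
    have h2 : (X.phi n + X.cI) / 2 * i.F.u ≤ X.cI * i.F.u := mul_le_mul_of_nonneg_right (by linarith) hu.le
    have h3 : 0 < 1 / ((i.bx c0).geo W).M := by
      have : ((i.bx c0).geo W).M = i.F.Mj := rfl
      rw [this]; positivity
    exact (hS.Cconst i.F hi.1 x ⟨hra0.trans hx.1, by linarith [hx.2]⟩).ge
  · -- osc
    have := hSo a b (by linarith) hab (by linarith)
    have e18 : (|C| + 18 / K.cb + 4) * i.V.d0 = |C| * i.V.d0 + (18 / K.cb + 4) * i.V.d0 := by ring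
    rw [e18]; linarith
  · -- cap
    intro j _ hne
    have := bos_bx_cap hG (lo := i.V.r0 - i.V.bbuf) (hi := i.V.r0 + i.V.bbuf) (d := 2 * i.V.d0) (Cβ := K.Cb) (a := a) (b := b)
      hlo.le hhi.le (by positivity) hosc hRb.MC (by rw [hq4]; linarith) hab (by rw [hq4]; linarith) hne
    rwa [hq4] at this
  · -- mass
    have h1 := hosc (a - q) (b + q) (by linarith) (by linarith) (by linarith)
    have h2 : K.Cb * (b + q - (a - q)) ≤ |K.Cb| * ((|C| + 16) * i.V.d0) := by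
      have h3 : b + q - (a - q) ≤ (|C| + 16) * i.V.d0 := by
        have k0 : (|C| + 16) * i.V.d0 = |C| * i.V.d0 + 16 * i.V.d0 := by ring
        rw [k0]; linarith
      have h4 : 0 ≤ b + q - (a - q) := by linarith
      calc K.Cb * (b + q - (a - q)) ≤ |K.Cb| * (b + q - (a - q)) := mul_le_mul_of_nonneg_right (le_abs_self _) h4
        _ ≤ _ := mul_le_mul_of_nonneg_left h3 (abs_nonneg _)
    have e : (|K.Cb| * (|C| + 16) + 4) * i.V.d0 = |K.Cb| * ((|C| + 16) * i.V.d0) + 2 * (2 * i.V.d0) := by ring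
    rw [e]; linarith
  · -- kMk
    intro x hx
    have hx01 : x ∈ Icc (0 : ℝ) 1 := ⟨ha'.1.le.trans hx.1, hx.2.trans hb'.2.le⟩
    rw [bud_gb_Kb_eq i.F X hx01]
    exact hRb.kb1 x hx01.1
  · -- Kl1
    unfold BdVI.aeK; omega
  · -- Sb
    rw [eS b hb']
    exact (bud_bm_ae_osc hS hn hi hR hB rfl hb le_rfl (by positivity)).2.2
  · -- sl
    intro j hj
    obtain ⟨t1, t2⟩ := htj j hj
    obtain ⟨t, ht⟩ : ∃ t, t = i.V.bbuf / 4 / 2 ^ j := ⟨_, rfl⟩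
    rw [← ht] at t1 t2 ⊢
    have ht0 : 0 < t := hx40.trans_le t1
    have hmo : MonotoneOn (fun y => (i.V.Q.bosNum i.V.g).S (bosAlG ((i.bx c0).geo W) y)) (Icc (a - t) b) :=
      hφm.mono (Icc_subset_Icc (by linarith) hb'.2.le)
    obtain ⟨s1, s2⟩ := bud_bm_ae_slide (φ := fun y => (i.V.Q.bosNum i.V.g).S (bosAlG ((i.bx c0).geo W) y)) (p := t + (18 / K.cb + 4) * i.V.d0) hab ht0.le hmo
      (hSo (a - t) b (by linarith) (by linarith) (by linarith))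
      (fun x hx => by
        have := hSo (x - t) x (by linarith [hx.1]) (by linarith) (by linarith [hx.2])
        linarith)
    obtain ⟨n1, n2⟩ := bud_bm_ae_sl_num (c := 18 / K.cb) ht0 hd0 hc18.le hCa (hC.trans hCd)
    rcases le_total t i.V.d0 with htd | htd
    · exact s1.trans (n1 htd)
    · exact s2.trans (n2 htd)
  · -- nf
    intro x hx hxF j hj
    obtain ⟨t1, t2⟩ := htj j hj
    obtain ⟨t, ht⟩ : ∃ t, t = i.V.bbuf / 4 / 2 ^ j := ⟨_, rfl⟩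
    rw [← ht] at t1 t2 ⊢
    have ht0 : 0 < t := hx40.trans_le t1
    have hx' : x ∈ Ioo (0 : ℝ) 1 := ⟨ha'.1.trans_le hx.1, hx.2.trans_lt hb'.2⟩
    have hH : ((i.bx c0).geo W).H x ≤ 0 := by
      by_contra hcon
      exact hxF (by rw [hFl]; exact ⟨Ioo_subset_Icc_self hx', not_le.1 hcon⟩)
    have hxB : x ∈ i.V.Buf (1 / 4) := ⟨ha.1.trans hx.1, hx.2.trans hb.2⟩
    have k1 := (bud_bm_ae_osc hS hn hi hR hB rfl hxB ht0.le t2).2.1 hH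
    rw [eS x hx', eS (x - t) ⟨by linarith [hx.1], by linarith [hx'.2]⟩]
    have k2 : 5 / i.F.Mj ≤ 5 * t := by
      have e : 5 / i.F.Mj = 5 * (1 / i.F.Mj) := by ring
      have := hR.Mx
      rw [e]; linarith
    have k3 : 8 * t ≤ (|C| + 1) * (18 / K.cb + 8) * t := by
      refine mul_le_mul_of_nonneg_right ?_ ht0.le
      have k4 : 1 * (18 / K.cb + 8) ≤ (|C| + 1) * (18 / K.cb + 8) := mul_le_mul_of_nonneg_right (by linarith) (by positivity)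
      linarith
    linarith

/-- the majorant depends on the profile only on `[x - T0, x]` -/
theorem bud_bm_ae_lay_congr {φ ψ : ℝ → ℝ} {A0 T0 x : ℝ} {Kl : ℕ} (hT0 : 0 ≤ T0) (h : ∀ y ∈ Icc (x - T0) x, φ y = ψ y) :
    bmAeLay φ A0 T0 Kl x = bmAeLay ψ A0 T0 Kl x := by
  have hj : ∀ j : ℕ, x - T0 / 2 ^ j ∈ Icc (x - T0) x := fun j => by
    have h1 : T0 / 2 ^ j ≤ T0 := div_le_self hT0 (one_le_pow₀ (by norm_num))
    have h2 : 0 ≤ T0 / 2 ^ j := by positivity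
    exact ⟨by linarith, by linarith⟩
  unfold bmAeLay
  rw [h x ⟨by linarith, le_rfl⟩, h _ (hj (Kl - 1))]
  congr 2
  exact Finset.sum_congr rfl fun j _ => by rw [h _ (hj j)]

/-- an integral of a nonnegative function below an integrable majorant (no integrability needed) -/
theorem bud_bm_ae_int_le {μ : Measure ℝ} {f g : ℝ → ℝ} {s : Set ℝ} (hs : MeasurableSet s) (hg : IntegrableOn g s μ) (h0 : ∀ x ∈ s, 0 ≤ f x)
    (hfg : ∀ x ∈ s, f x ≤ g x) : 0 ≤ ∫ x in s, f x ∂μ ∧ ∫ x in s, f x ∂μ ≤ ∫ x in s, g x ∂μ := by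
  refine ⟨setIntegral_nonneg hs h0, ?_⟩
  by_cases hf : IntegrableOn f s μ
  · exact setIntegral_mono_on hf hg hs hfg
  · rw [integral_undef hf]
    exact setIntegral_nonneg hs fun x hx => (h0 x hx).trans (hfg x hx)

/-- LEAF: **the two integrals of (C15c) against the integrals of the majorant.**
PLAN: `[a,b] ⊆ (0,1)`; dictionary `bos_dict0`; `bmAeLay` depends on the profile only at `x`, `x - T0/2^j ∈ [a - T0, b] ⊆ (0,1)`; nonnegativity: `intervalIntegral.integral_nonneg`;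
upper bounds: if `alErr∘α` is not interval integrable its integral is `0 ≤` the integral of the (nonnegative) majorant; otherwise `intervalIntegral.integral_mono_on`.
Mass: `v ∈ [α a, α b]`: `v = α (r v)`, `r v ∈ [a,b]` (`bud_bm_r_mono`, `r_al`, `al_r`); `integral_of_le`, `integral_Icc_eq_integral_Ioc`. -/
theorem bud_bm_ae_conv (hS : BdStd X W Fam K) {n : ℕ} {i : BdVI X W} (hi : BudB.VSt X W Fam n i) {c0 T0 A0 c1 : ℝ} {Kl : ℕ} {a b : ℝ} (hT0 : 0 < T0) (ha : T0 < a)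
    (hab : a ≤ b) (hb : b < 1)
    (hpt : ∀ x ∈ Icc a b, 0 ≤ i.V.Q.alErr W i.V.g (i.V.Q.al x) ∧
      i.V.Q.alErr W i.V.g (i.V.Q.al x) ≤ c1 * bmAeLay (fun y => (i.V.Q.bosNum i.V.g).S (i.V.Q.al y)) A0 T0 Kl x + (i.V.Q.bosNum i.V.g).TC (i.V.Q.al x))
    (hiR : IntervalIntegrable (fun x => c1 * bmAeLay (fun y => (i.V.Q.bosNum i.V.g).S (bosAlG ((i.bx c0).geo W) y)) A0 T0 Kl x
      + (i.V.Q.bosNum i.V.g).TC (bosAlG ((i.bx c0).geo W) x)) volume a b)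
    (hiM : IntegrableOn (fun u => c1 * bmAeLay (fun y => (i.V.Q.bosNum i.V.g).S (bosAlG ((i.bx c0).geo W) y)) A0 T0 Kl (bosRG ((i.bx c0).geo W) u)
      + (i.V.Q.bosNum i.V.g).TC u) (Icc (bosAlG ((i.bx c0).geo W) a) (bosAlG ((i.bx c0).geo W) b))) :
    0 ≤ ∫ x in a..b, i.V.Q.alErr W i.V.g (i.V.Q.al x) ∧ 0 ≤ ∫ v in (i.V.Q.al a)..(i.V.Q.al b), i.V.Q.alErr W i.V.g v ∧
    ∫ x in a..b, i.V.Q.alErr W i.V.g (i.V.Q.al x)
      ≤ ∫ x in a..b, (c1 * bmAeLay (fun y => (i.V.Q.bosNum i.V.g).S (bosAlG ((i.bx c0).geo W) y)) A0 T0 Kl x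
          + (i.V.Q.bosNum i.V.g).TC (bosAlG ((i.bx c0).geo W) x)) ∧
    ∫ v in (i.V.Q.al a)..(i.V.Q.al b), i.V.Q.alErr W i.V.g v
      ≤ ∫ u in Icc (bosAlG ((i.bx c0).geo W) a) (bosAlG ((i.bx c0).geo W) b),
          (c1 * bmAeLay (fun y => (i.V.Q.bosNum i.V.g).S (bosAlG ((i.bx c0).geo W) y)) A0 T0 Kl (bosRG ((i.bx c0).geo W) u) + (i.V.Q.bosNum i.V.g).TC u) := by
  have hX := hS.fix
  have hF := BudB.vst_ok hS hi
  obtain ⟨dict, dictr⟩ := bos_dict0 (W := W) hX (I := i.bx c0) hF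
  have dict : ∀ x ∈ Icc (0 : ℝ) 1, bosAlG ((i.bx c0).geo W) x = i.V.Q.al x := dict
  have dictr : ∀ v ∈ Icc (0 : ℝ) 1, bosRG ((i.bx c0).geo W) v = i.V.Q.r v := dictr
  have hsub : Icc a b ⊆ Icc (0 : ℝ) 1 := Icc_subset_Icc (by linarith) hb.le
  have ha01 : a ∈ Icc (0 : ℝ) 1 := hsub (left_mem_Icc.2 hab)
  have hb01 : b ∈ Icc (0 : ℝ) 1 := hsub (right_mem_Icc.2 hab)
  -- the majorant in the vocabulary of the geometry datum
  have hmaj : ∀ x ∈ Icc a b, 0 ≤ i.V.Q.alErr W i.V.g (i.V.Q.al x) ∧ i.V.Q.alErr W i.V.g (i.V.Q.al x)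
      ≤ c1 * bmAeLay (fun y => (i.V.Q.bosNum i.V.g).S (bosAlG ((i.bx c0).geo W) y)) A0 T0 Kl x + (i.V.Q.bosNum i.V.g).TC (bosAlG ((i.bx c0).geo W) x) := by
    intro x hx
    have e : bmAeLay (fun y => (i.V.Q.bosNum i.V.g).S (bosAlG ((i.bx c0).geo W) y)) A0 T0 Kl x
        = bmAeLay (fun y => (i.V.Q.bosNum i.V.g).S (i.V.Q.al y)) A0 T0 Kl x :=
      bud_bm_ae_lay_congr hT0.le fun y hy => by
        show (i.V.Q.bosNum i.V.g).S _ = (i.V.Q.bosNum i.V.g).S _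
        rw [dict y ⟨by linarith [hy.1, hx.1], by linarith [hy.2, hx.2]⟩]
    rw [e, dict x (hsub hx)]
    exact hpt x hx
  have hle : i.V.Q.al a ≤ i.V.Q.al b := bud_bm_al_mono hF i.V.Q ha01 hb01 hab
  have hA := bud_bm_al_mem hF i.V.Q ha01
  have hBm := bud_bm_al_mem hF i.V.Q hb01
  -- radius
  rw [intervalIntegrable_iff_integrableOn_Icc_of_le hab] at hiR
  obtain ⟨r1, r2⟩ := bud_bm_ae_int_le measurableSet_Icc hiR (fun x hx => (hmaj x hx).1) (fun x hx => (hmaj x hx).2)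
  -- mass
  rw [dict a ha01, dict b hb01] at hiM ⊢
  have hmass : ∀ v ∈ Icc (i.V.Q.al a) (i.V.Q.al b), 0 ≤ i.V.Q.alErr W i.V.g v ∧ i.V.Q.alErr W i.V.g v
      ≤ c1 * bmAeLay (fun y => (i.V.Q.bosNum i.V.g).S (bosAlG ((i.bx c0).geo W) y)) A0 T0 Kl (bosRG ((i.bx c0).geo W) v) + (i.V.Q.bosNum i.V.g).TC v := by
    intro v hv
    have hv01 : v ∈ Icc (0 : ℝ) 1 := ⟨hA.1.trans hv.1, hv.2.trans hBm.2⟩
    have h1 := bud_bm_r_mono hF i.V.Q hA hv01 hv.1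
    have h2 := bud_bm_r_mono hF i.V.Q hv01 hBm hv.2
    rw [i.V.Q.r_al a ha01] at h1
    rw [i.V.Q.r_al b hb01] at h2
    have := hmaj (i.V.Q.r v) ⟨h1, h2⟩
    rw [dict _ (i.V.Q.r_mem v hv01), i.V.Q.al_r v hv01] at this
    rw [dictr v hv01]
    exact this
  obtain ⟨m1, m2⟩ := bud_bm_ae_int_le measurableSet_Icc hiM (fun x hx => (hmass x hx).1) (fun x hx => (hmass x hx).2)
  rw [intervalIntegral.integral_of_le hab, intervalIntegral.integral_of_le hab, intervalIntegral.integral_of_le hle,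
    ← integral_Icc_eq_integral_Ioc, ← integral_Icc_eq_integral_Ioc, ← integral_Icc_eq_integral_Ioc]
  exact ⟨r1, m1, r2, m2⟩

/-! ## 4. Numerics -/

/-- `u λ^ρ ≤ b_buf` -/
theorem bud_bm_ae_num_bb {F : BdFr} (V : BdViol F X W) (hu : 0 < F.u) : F.u * F.lam ^ X.rho ≤ V.bbuf := by
  unfold BdViol.bbuf
  have := Real.sqrt_nonneg V.L
  nlinarith

/-- `u² A³ = x⁶/(u⁴ Λ)` -/
theorem bud_bm_ae_num_W {F : BdFr} (hF : F.Ok X) (hX : X.Ok) : F.u ^ 2 * F.A ^ 3 = F.x ^ 6 / (F.u ^ 4 * F.Lam) := by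
  have hl := BdFr.bds_lam_pos hF
  have hu := BdFr.bds_u_pos hF hX
  have hLam : 0 < F.Lam := Real.rpow_pos_of_pos hl _
  have e2 : (F.Lam ^ (-(1 / 3) : ℝ)) ^ 3 = F.Lam⁻¹ := by
    rw [← Real.rpow_natCast, ← Real.rpow_mul hLam.le]
    norm_num
    exact Real.rpow_neg_one _
  unfold BdFr.A BdFr.Xr
  rw [mul_pow, e2]
  field_simp

/-- the algebra of the first quantity -/
theorem bud_bm_ae_num_abs {A0 T0 Φ E Wd lr a φ Tl k NE Ck : ℝ} (hA0 : 0 ≤ A0) (hT0 : 0 < T0) (hE : 0 ≤ E) (hW : 0 < Wd) (hlr : 1 ≤ lr) (ha : 0 ≤ a)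
    (hφ : 0 ≤ φ) (hk : 1 ≤ k) (hA : A0 ≤ a * Wd) (hΦ0 : 0 ≤ Φ) (hΦ : Φ / T0 ≤ φ * lr) (hTl : Tl ≤ 2 * Wd) (hkN : k + 1 ≤ Ck * NE) :
    2 * (k + 1) * (A0 / T0 * Φ + (2 * A0 * k + 4 * Tl) * E) ≤ 2 * Ck ^ 2 * (a * φ + (2 * a + 8) * E) * (NE ^ 2 * (lr * Wd)) := by
  have hZ : 0 < lr * Wd := by positivity
  have hWZ : Wd ≤ lr * Wd := le_mul_of_one_le_left hW.le hlr
  have b1 : A0 / T0 * Φ ≤ a * φ * (k * (lr * Wd)) := by
    calc A0 / T0 * Φ = A0 * (Φ / T0) := by ring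
      _ ≤ a * Wd * (φ * lr) := mul_le_mul hA hΦ (by positivity) (by positivity)
      _ = a * φ * (1 * (lr * Wd)) := by ring
      _ ≤ _ := by gcongr
  have b2 : (2 * A0 * k + 4 * Tl) * E ≤ (2 * a + 8) * E * (k * (lr * Wd)) := by
    have c1 : 2 * A0 * k ≤ 2 * a * (k * (lr * Wd)) := by
      calc 2 * A0 * k ≤ 2 * (a * Wd) * k := by gcongr
        _ = 2 * a * (k * Wd) := by ring
        _ ≤ _ := by gcongr
    have c2 : 4 * Tl ≤ 8 * (k * (lr * Wd)) := by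
      calc 4 * Tl ≤ 4 * (2 * Wd) := by gcongr
        _ = 8 * (1 * Wd) := by ring
        _ ≤ _ := by gcongr
    calc (2 * A0 * k + 4 * Tl) * E ≤ (2 * a * (k * (lr * Wd)) + 8 * (k * (lr * Wd))) * E := by gcongr
      _ = _ := by ring
  obtain ⟨G, hG⟩ : ∃ G, G = a * φ + (2 * a + 8) * E := ⟨_, rfl⟩
  have hG0 : 0 ≤ G := by rw [hG]; positivity
  have b3 : A0 / T0 * Φ + (2 * A0 * k + 4 * Tl) * E ≤ G * ((k + 1) * (lr * Wd)) := by
    have : k * (lr * Wd) ≤ (k + 1) * (lr * Wd) := by gcongr; linarith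
    calc _ ≤ a * φ * (k * (lr * Wd)) + (2 * a + 8) * E * (k * (lr * Wd)) := add_le_add b1 b2
      _ = G * (k * (lr * Wd)) := by rw [hG]; ring
      _ ≤ _ := by gcongr
  have hk1 : 0 ≤ k + 1 := by linarith
  have b4 : (k + 1) ^ 2 ≤ (Ck * NE) ^ 2 := pow_le_pow_left₀ hk1 hkN 2
  rw [← hG]
  calc 2 * (k + 1) * (A0 / T0 * Φ + (2 * A0 * k + 4 * Tl) * E) ≤ 2 * (k + 1) * (G * ((k + 1) * (lr * Wd))) := by gcongr
    _ = 2 * G * (lr * Wd) * (k + 1) ^ 2 := by ring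
    _ ≤ 2 * G * (lr * Wd) * (Ck * NE) ^ 2 := by gcongr
    _ = _ := by ring

/-- LEAF (numerics, l.1583-1588).   `Y = λ^{-ρ} u²A³`.   `1/m ≤ 2x⁶`, `x⁶/(u² C0) = u²A³`: `A0 ≤ (2cq/cv²) u²A³`;   `Φ/T0 = 4 c_I u/b_buf ≤ 4 c_I λ^{-ρ}`;   `T0/2^(Kl-1) ≤ 2x⁴⁰ ≤ 2 u²A³` (`u, Λ ≤ 1`);
`Kl ≤ 1 + log₂(x^{-40})` (`b_buf ≤ 4`), `L_p ≤ Cl x^{-ε'}` (`bos_Lp_sub`): `(Kl+1)², L_p² ≤ C N^ε`. -/
theorem bud_bm_ae_num (hS : BdStd X W Fam K) {n : ℕ} (hn : n ≤ X.J + 1) (cq cv E : ℝ) (hcq : 0 < cq) (hcv : 0 < cv) (hE : 0 ≤ E) {ε : ℝ} (hε : 0 < ε) :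
    ∃ (Cc : ℝ) (N0 : ℕ), 0 ≤ Cc ∧ ∀ i : BdVI X W, BudB.VSt X W Fam n i → N0 ≤ i.F.N → i.F.x ^ 40 ≤ i.V.bbuf / 4 →
      2 * ((i.aeK : ℝ) + 1) * bmAeC (i.aeA cq cv) (i.V.bbuf / 4) (X.cI * i.F.u) E i.aeK
          ≤ Cc * ((i.F.N : ℝ) ^ ε * (i.F.lam ^ (-X.rho) * i.F.u ^ 2 * i.F.A ^ 3)) ∧
      i.F.bosLp X ^ 2 / ((i.F.m : ℝ) * i.F.C0 * (cv * i.F.u) ^ 2) ≤ Cc * ((i.F.N : ℝ) ^ ε * (i.F.lam ^ (-X.rho) * i.F.u ^ 2 * i.F.A ^ 3)) := by
  have hX := hS.fix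
  have hcI := hX.cI_pos
  obtain ⟨Cl, N8, hCl, h8⟩ := bos_Lp_sub X hX (3 * ε) (by positivity)
  obtain ⟨N9, h9⟩ := bos_sz_ev X hX 1
  obtain ⟨δ, hδ⟩ : ∃ δ, δ = 3 * ε / 40 := ⟨_, rfl⟩
  have hδ0 : 0 < δ := by rw [hδ]; positivity
  obtain ⟨Ck, hCk⟩ : ∃ Ck, Ck = 2 + 2 / δ := ⟨_, rfl⟩
  have hCk0 : 0 < Ck := by rw [hCk]; positivity
  obtain ⟨a, ha⟩ : ∃ a, a = 2 * cq / cv ^ 2 := ⟨_, rfl⟩
  have ha0 : 0 < a := by rw [ha]; positivity
  obtain ⟨C1, hC1⟩ : ∃ C1, C1 = 2 * Ck ^ 2 * (a * (4 * X.cI) + (2 * a + 8) * E) := ⟨_, rfl⟩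
  have hC10 : 0 ≤ C1 := by rw [hC1]; positivity
  obtain ⟨C2, hC2⟩ : ∃ C2, C2 = 2 * Cl ^ 2 / cv ^ 2 := ⟨_, rfl⟩
  have hC20 : 0 ≤ C2 := by rw [hC2]; positivity
  refine ⟨C1 + C2, max N8 N9, by positivity, fun i hi hN hxb => ?_⟩
  have n8 : N8 ≤ i.F.N := (le_max_left _ _).trans hN
  have n9 : N9 ≤ i.F.N := (le_max_right _ _).trans hN
  have hF := BudB.vst_ok hS hi
  have hsz := h9 i.F hF n9
  have hx := hsz.x0
  have hx1 := hsz.x1.le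
  have hu := hsz.u0
  have hu1 := BdFr.bds_u_le_one hF hX
  have hl := BdFr.bds_lam_pos hF
  have hm : (0 : ℝ) < i.F.m := by exact_mod_cast hsz.m0
  have hC0 := hsz.C00
  have hLam : 0 < i.F.Lam := Real.rpow_pos_of_pos hl _
  have hLam1 : i.F.Lam ≤ 1 := BdFr.bds_lam_rpow_le_one hF hX (by norm_num)
  have hNpos : (0 : ℝ) < i.F.N := by have := hF.N2; positivity
  have hN1 : (1 : ℝ) ≤ i.F.N := by have := hF.N2; exact_mod_cast (by omega : 1 ≤ i.F.N)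
  obtain ⟨NE, hNE⟩ : ∃ NE, NE = (i.F.N : ℝ) ^ (ε / 2) := ⟨_, rfl⟩
  have hNE1 : 1 ≤ NE := by rw [hNE]; exact Real.one_le_rpow hN1 (by positivity)
  have hNE2 : NE ^ 2 = (i.F.N : ℝ) ^ ε := by
    rw [hNE, ← Real.rpow_natCast, ← Real.rpow_mul hNpos.le]
    congr 1
    push_cast
    ring
  obtain ⟨Wd, hWd⟩ : ∃ Wd, Wd = i.F.u ^ 2 * i.F.A ^ 3 := ⟨_, rfl⟩
  have eW : Wd = i.F.x ^ 6 / (i.F.u ^ 4 * i.F.Lam) := by rw [hWd]; exact bud_bm_ae_num_W hF hX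
  have hW0 : 0 < Wd := by rw [eW]; positivity
  obtain ⟨lr, hlr⟩ : ∃ lr, lr = i.F.lam ^ (-X.rho) := ⟨_, rfl⟩
  have hlr1 : 1 ≤ lr := by
    rw [hlr]
    exact Real.one_le_rpow_of_pos_of_le_one_of_nonpos hl (BdFr.bds_lam_lt_one hF hX).le (by have := hX.rho_pos; linarith)
  have eY : i.F.lam ^ (-X.rho) * i.F.u ^ 2 * i.F.A ^ 3 = lr * Wd := by rw [hlr, hWd]; ring
  rw [eY, ← hNE2]
  have hZ0 : 0 ≤ NE ^ 2 * (lr * Wd) := by positivity
  -- `1/(m C0 u²) ≤ 2 u²A³`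
  have f2 : 1 / ((i.F.m : ℝ) * i.F.C0 * i.F.u ^ 2) ≤ 2 * Wd := by
    have e4 : 1 / ((i.F.m : ℝ) * i.F.C0 * i.F.u ^ 2) = 1 / (i.F.m : ℝ) * (1 / (i.F.u ^ 4 * i.F.Lam)) := by
      unfold BdFr.C0
      field_simp
    rw [e4, eW]
    have h2 : 0 < 1 / (i.F.u ^ 4 * i.F.Lam) := by positivity
    calc 1 / (i.F.m : ℝ) * (1 / (i.F.u ^ 4 * i.F.Lam)) ≤ 2 * i.F.x ^ 6 * (1 / (i.F.u ^ 4 * i.F.Lam)) := by gcongr; exact hsz.mx
      _ = _ := by ring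
  -- `x⁴⁰ ≤ u²A³`
  have f3 : i.F.x ^ 40 ≤ Wd := by
    rw [eW, le_div_iff₀ (by positivity)]
    have q1 : i.F.u ^ 4 * i.F.Lam ≤ 1 := by
      have : i.F.u ^ 4 ≤ 1 := pow_le_one₀ hu.le hu1
      nlinarith [pow_pos hu 4]
    have q2 : i.F.x ^ 40 ≤ i.F.x ^ 6 := pow_le_pow_of_le_one hx.le hx1 (by norm_num)
    calc i.F.x ^ 40 * (i.F.u ^ 4 * i.F.Lam) ≤ i.F.x ^ 40 * 1 := by gcongr
      _ ≤ _ := by linarith
  have hbb := bud_bm_ae_num_bb i.V hu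
  have hlρ : 0 < i.F.lam ^ X.rho := Real.rpow_pos_of_pos hl _
  have hbb0 : 0 < i.V.bbuf := lt_of_lt_of_le (by positivity) hbb
  have hT0 : 0 < i.V.bbuf / 4 := by positivity
  -- `Φ/T0 ≤ 4 cI λ^{-ρ}`
  have f4 : X.cI * i.F.u / (i.V.bbuf / 4) ≤ 4 * X.cI * lr := by
    rw [div_le_iff₀ hT0, hlr, Real.rpow_neg hl.le]
    have : i.F.u ≤ (i.F.lam ^ X.rho)⁻¹ * i.V.bbuf := by
      rw [← div_eq_inv_mul, le_div_iff₀ hlρ]; exact hbb
    calc X.cI * i.F.u ≤ X.cI * ((i.F.lam ^ X.rho)⁻¹ * i.V.bbuf) := by gcongr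
      _ = _ := by ring
  -- the number of layers
  have f5 : (i.aeK : ℝ) + 1 ≤ Ck * NE := by
    obtain ⟨q, hq⟩ : ∃ q, q = i.V.bbuf / 4 / i.F.x ^ 40 := ⟨_, rfl⟩
    have hx40 : 0 < i.F.x ^ 40 := by positivity
    have hq1 : 1 ≤ q := by rw [hq, le_div_iff₀ hx40]; linarith
    have hq0 : 0 < q := by linarith
    have hb4 : i.V.bbuf / 4 ≤ 1 := by
      have hL1 := BudB.vst_L1 hi
      have s1 : Real.sqrt i.V.L ≤ 1 := Real.sqrt_le_one.2 hL1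
      have s2 : i.F.lam ^ X.rho ≤ 1 := BdFr.bds_lam_rpow_le_one hF hX hX.rho_pos.le
      have s3 := Real.sqrt_nonneg i.V.L
      unfold BdViol.bbuf
      have s4 : i.F.u * (Real.sqrt i.V.L + i.F.lam ^ X.rho) ≤ 1 * (1 + 1) :=
        mul_le_mul hu1 (add_le_add s1 s2) (add_nonneg s3 hlρ.le) zero_le_one
      linarith
    have hqN : q ≤ (i.F.N : ℝ) ^ (40 / 6 : ℝ) := by
      have e : i.F.x ^ 40 = ((i.F.N : ℝ) ^ (40 / 6 : ℝ))⁻¹ := by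
        unfold BdFr.x
        rw [← Real.rpow_natCast, ← Real.rpow_mul hNpos.le, ← Real.rpow_neg hNpos.le]
        congr 1
        norm_num
      rw [hq, e, div_inv_eq_mul]
      have : 0 < (i.F.N : ℝ) ^ (40 / 6 : ℝ) := Real.rpow_pos_of_pos hNpos _
      exact mul_le_of_le_one_left this.le hb4
    have hlog : Real.log q ≤ NE / δ := by
      refine (Real.log_le_rpow_div hq0.le hδ0).trans ?_
      refine div_le_div_of_nonneg_right ?_ hδ0.le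
      calc q ^ δ ≤ ((i.F.N : ℝ) ^ (40 / 6 : ℝ)) ^ δ := Real.rpow_le_rpow hq0.le hqN hδ0.le
        _ = NE := by
          rw [hNE, ← Real.rpow_mul hNpos.le]
          congr 1
          rw [hδ]; ring
    have hl2 : (1 / 2 : ℝ) ≤ Real.log 2 := by have := Real.log_two_gt_d9; linarith
    have hlq : 0 ≤ Real.log q := Real.log_nonneg hq1
    have hlb : Real.logb 2 q ≤ 2 * Real.log q := by
      unfold Real.logb
      rw [div_le_iff₀ (by linarith)]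
      have := mul_le_mul_of_nonneg_left hl2 (by linarith : 0 ≤ 2 * Real.log q)
      linarith
    have hfl : ((⌊Real.logb 2 q⌋₊ : ℕ) : ℝ) ≤ Real.logb 2 q := Nat.floor_le (Real.logb_nonneg (by norm_num) hq1)
    have eK : (i.aeK : ℝ) = (⌊Real.logb 2 q⌋₊ : ℝ) + 1 := by unfold BdVI.aeK; rw [hq]; push_cast; ring
    rw [eK, hCk]
    have : 2 / δ * NE = 2 * (NE / δ) := by ring
    rw [add_mul, this]
    linarith
  have hK1 : (1 : ℝ) ≤ i.aeK := by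
    have : 1 ≤ i.aeK := by unfold BdVI.aeK; omega
    exact_mod_cast this
  have hA0 : 0 ≤ i.aeA cq cv := by unfold BdVI.aeA; positivity
  have hA : i.aeA cq cv ≤ a * Wd := by
    have e : i.aeA cq cv = cq / cv ^ 2 * (1 / ((i.F.m : ℝ) * i.F.C0 * i.F.u ^ 2)) := by
      unfold BdVI.aeA
      field_simp
    rw [e, ha]
    calc cq / cv ^ 2 * (1 / ((i.F.m : ℝ) * i.F.C0 * i.F.u ^ 2)) ≤ cq / cv ^ 2 * (2 * Wd) := by gcongr
      _ = _ := by ring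
  have hTl : i.V.bbuf / 4 / 2 ^ (i.aeK - 1) ≤ 2 * Wd := ((bud_bm_ae_K hx hxb).2).trans (by linarith)
  constructor
  · have key := bud_bm_ae_num_abs (Φ := X.cI * i.F.u) (φ := 4 * X.cI) hA0 hT0 hE hW0 hlr1 ha0.le (by positivity) hK1 hA (by positivity) f4 hTl f5
    rw [← hC1] at key
    unfold bmAeC
    refine key.trans ?_
    exact mul_le_mul_of_nonneg_right (by linarith) hZ0
  · have hLp1 := (bos_Lp_gap X hX i.F hF).1
    have hLp : i.F.bosLp X ≤ Cl * NE := by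
      refine (h8 i.F hF n8).trans (le_of_eq ?_)
      congr 1
      rw [hNE]
      unfold BdFr.x
      rw [← Real.rpow_mul hNpos.le]
      congr 1
      ring
    have hLp2 : i.F.bosLp X ^ 2 ≤ (Cl * NE) ^ 2 := pow_le_pow_left₀ (by linarith) hLp 2
    have e : i.F.bosLp X ^ 2 / ((i.F.m : ℝ) * i.F.C0 * (cv * i.F.u) ^ 2)
        = i.F.bosLp X ^ 2 * (1 / cv ^ 2) * (1 / ((i.F.m : ℝ) * i.F.C0 * i.F.u ^ 2)) := by field_simp
    rw [e]
    have hWZ : Wd ≤ lr * Wd := le_mul_of_one_le_left hW0.le hlr1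
    calc i.F.bosLp X ^ 2 * (1 / cv ^ 2) * (1 / ((i.F.m : ℝ) * i.F.C0 * i.F.u ^ 2)) ≤ (Cl * NE) ^ 2 * (1 / cv ^ 2) * (2 * (lr * Wd)) := by
          gcongr
          exact f2.trans (by linarith)
      _ = C2 * (NE ^ 2 * (lr * Wd)) := by rw [hC2]; ring
      _ ≤ _ := mul_le_mul_of_nonneg_right (by linarith) hZ0

/-- the final algebra: both averages in terms of the two numerical quantities of `bud_bm_ae_num` -/
theorem bud_bm_ae_alg {A0 T0 Φ E d c1 ℓ Cs CD Ca Lp m C0 v0 Y : ℝ} {Kl : ℕ} (hd : 0 < d) (h1 : 0 ≤ A0 / T0 * Φ)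
    (h2 : 0 ≤ (2 * A0 * Kl + 4 * (T0 / 2 ^ (Kl - 1))) * E) (hc1 : 0 ≤ c1) (hℓ : ℓ ≤ Ca * d) (hCa : 0 ≤ Ca) (hCs : 0 ≤ Cs) (hCD : 0 ≤ CD)
    (hLp : 1 ≤ Lp) (hm : 0 < m) (hC0 : 0 < C0) (hv0 : 0 < v0)
    (hP1 : c1 * bmAeC A0 T0 Φ E Kl ≤ Y) (hP2 : Lp ^ 2 / (m * C0 * v0 ^ 2) ≤ Y) :
    d⁻¹ * bmAeR A0 T0 Φ E d c1 ℓ (Cs * d) (m / Lp) C0 v0 Kl
      + d⁻¹ * (1 * bmAeR A0 T0 Φ E d c1 ℓ (Cs * d) (m / Lp) C0 v0 Kl + c1 * bmAeC A0 T0 Φ E Kl * (CD * d) + 3 * Lp / (m / Lp * C0) * (CD * d) / v0 ^ 2)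
      ≤ (2 * (Ca + 1) + CD + 2 * Cs + 3 * CD) * Y := by
  obtain ⟨P1, hP1d⟩ : ∃ P1 : ℝ, P1 = c1 * bmAeC A0 T0 Φ E Kl := ⟨_, rfl⟩
  obtain ⟨P2, hP2d⟩ : ∃ P2 : ℝ, P2 = Lp ^ 2 / (m * C0 * v0 ^ 2) := ⟨_, rfl⟩
  have hLp0 : 0 < Lp := by linarith
  have hP20 : 0 ≤ P2 := by rw [hP2d]; positivity
  have hP10 : 0 ≤ P1 := by rw [hP1d]; unfold bmAeC; exact mul_nonneg hc1 (add_nonneg h1 h2)
  have e1 : bmAeR A0 T0 Φ E d c1 ℓ (Cs * d) (m / Lp) C0 v0 Kl ≤ (Ca + 1) * d * P1 + Cs * d * P2 := by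
    unfold bmAeR
    have a1 : c1 * (A0 / T0 * Φ * ℓ + (2 * A0 * Kl + 4 * (T0 / 2 ^ (Kl - 1))) * E * d) ≤ (Ca + 1) * d * P1 := by
      rw [hP1d]
      unfold bmAeC
      have b1 : A0 / T0 * Φ * ℓ ≤ A0 / T0 * Φ * ((Ca + 1) * d) := mul_le_mul_of_nonneg_left (by nlinarith) h1
      have b2 : (2 * A0 * Kl + 4 * (T0 / 2 ^ (Kl - 1))) * E * d ≤ (2 * A0 * Kl + 4 * (T0 / 2 ^ (Kl - 1))) * E * ((Ca + 1) * d) :=
        mul_le_mul_of_nonneg_left (by nlinarith) h2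
      calc c1 * (A0 / T0 * Φ * ℓ + (2 * A0 * Kl + 4 * (T0 / 2 ^ (Kl - 1))) * E * d)
          ≤ c1 * (A0 / T0 * Φ * ((Ca + 1) * d) + (2 * A0 * Kl + 4 * (T0 / 2 ^ (Kl - 1))) * E * ((Ca + 1) * d)) :=
            mul_le_mul_of_nonneg_left (add_le_add b1 b2) hc1
        _ = _ := by ring
    have a2 : Cs * d / (m / Lp * C0 * v0 ^ 2) ≤ Cs * d * P2 := by
      rw [hP2d]
      have : Cs * d / (m / Lp * C0 * v0 ^ 2) = Cs * d * (Lp / (m * C0 * v0 ^ 2)) := by field_simp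
      rw [this]
      refine mul_le_mul_of_nonneg_left ?_ (by positivity)
      exact div_le_div_of_nonneg_right (by nlinarith) (by positivity)
    linarith
  have e2 : 3 * Lp / (m / Lp * C0) * (CD * d) / v0 ^ 2 = 3 * CD * d * P2 := by
    rw [hP2d]; field_simp
  rw [e2, ← hP1d]
  have hdi : 0 < d⁻¹ := inv_pos.2 hd
  have e3 : d⁻¹ * ((Ca + 1) * d * P1 + Cs * d * P2) = (Ca + 1) * P1 + Cs * P2 := by field_simp
  have e4 : d⁻¹ * (1 * ((Ca + 1) * d * P1 + Cs * d * P2) + P1 * (CD * d) + 3 * CD * d * P2) = (Ca + 1) * P1 + Cs * P2 + CD * P1 + 3 * CD * P2 := by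
    field_simp
  have f1 := mul_le_mul_of_nonneg_left e1 hdi.le
  have f2 : d⁻¹ * (1 * bmAeR A0 T0 Φ E d c1 ℓ (Cs * d) (m / Lp) C0 v0 Kl + P1 * (CD * d) + 3 * CD * d * P2)
      ≤ d⁻¹ * (1 * ((Ca + 1) * d * P1 + Cs * d * P2) + P1 * (CD * d) + 3 * CD * d * P2) :=
    mul_le_mul_of_nonneg_left (by linarith) hdi.le
  rw [e3] at f1
  rw [e4] at f2
  rw [← hP1d] at hP1
  rw [← hP2d] at hP2
  have g1 : (2 * (Ca + 1) + CD) * P1 ≤ (2 * (Ca + 1) + CD) * Y := mul_le_mul_of_nonneg_left hP1 (by positivity)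
  have g2 : (2 * Cs + 3 * CD) * P2 ≤ (2 * Cs + 3 * CD) * Y := mul_le_mul_of_nonneg_left hP2 (by positivity)
  nlinarith

/-! ## 5. EXIT -/

/-- a smaller proportion of the buffer -/
theorem bud_bm_ae_buf (hS : BdStd X W Fam K) {n : ℕ} {i : BdVI X W} (hi : BudB.VSt X W Fam n i) {s s' : ℝ} (hss : s ≤ s') {x : ℝ} (hx : x ∈ i.V.Buf s) :
    x ∈ i.V.Buf s' := by
  have hb := BudB.vst_bbuf_nonneg hS hi
  have : s * i.V.bbuf ≤ s' * i.V.bbuf := mul_le_mul_of_nonneg_right hss hb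
  exact ⟨by linarith [hx.1], by linarith [hx.2]⟩

/-- **(C15), third assertion: the alias error** (l.1581-1588).     TEX[LL:bud:box-moments] -/
theorem bud_bm_c15c (hS : BdStd X W Fam K) (hW : W.IsSk) {n : ℕ} (hn1 : 1 ≤ n) (hn : n ≤ X.J + 1) (hI : BudBmIn X W Fam K n) {s : ℝ}
    (hs : 0 < s) (hs1 : s ≤ 1) (_hX : BudBmStX X W Fam n s) (c C : ℝ) (hc : 0 < c) :
    BudC15c X W Fam n 2 (s / 4) c C := by
  obtain ⟨hZ, hL, -⟩ := hI
  have hXo := hS.fix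
  obtain ⟨cq, hcq, hpt⟩ := bud_bm_ae_pt hS hW hn
  obtain ⟨N1, h1⟩ := bud_bm_ae_geo hS hW hn
  obtain ⟨N2, h2⟩ := bud_bm_ae_room hS hn1 hn hZ hL
  have hcb := hS.cb_pos
  have hplo : 0 < X.plo n := (hXo.pat n hn).1
  have hcv : 0 < K.cb * X.plo n / 2 := by positivity
  intro ε hε
  obtain ⟨Cc, N3, hCc, h3⟩ := bud_bm_ae_num hS hn cq (K.cb * X.plo n / 2) ((|C| + 1) * (18 / K.cb + 8)) hcq hcv (by positivity) hε
  refine Asymptotics.IsBigO.of_bound ((2 * (|C| + 1) + (|K.Cb| * (|C| + 16) + 4) + 2 * (|C| + 18 / K.cb + 4) + 3 * (|K.Cb| * (|C| + 16) + 4)) * Cc)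
    (bd_ev_iff.2 ⟨max N1 (max N2 N3), fun i hi hN => ?_⟩)
  obtain ⟨hV, ha, hb, hcab, hCab⟩ := hi
  have hV' : BudB.VSt X W Fam n i.1 := hV
  have hN1 : N1 ≤ i.1.F.N := (le_max_left _ _).trans hN
  have hN2 : N2 ≤ i.1.F.N := ((le_max_left _ _).trans (le_max_right _ _)).trans hN
  have hN3 : N3 ≤ i.1.F.N := ((le_max_right _ _).trans (le_max_right _ _)).trans hN
  obtain ⟨c0, Z, hbase, hG, hFl, hB, hlo, hhi⟩ := h1 i.1 hV' hN1
  have hR := h2 i.1 hV' hN2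
  have hF := BudB.vst_ok hS hV'
  have hx0 := BdFr.bds_x_pos hF
  have hu0 := hR.bx.u0
  have hd0 : 0 < i.1.V.d0 := mul_pos hR.bx.u0 hR.bx.L0
  have hbb := BudB.vst_bbuf_nonneg hS hV'
  have hab : i.2.1 ≤ i.2.2 := by nlinarith
  have ha' : i.2.1 ∈ i.1.V.Buf (1 / 4) := bud_bm_ae_buf hS hV' (by linarith) ha
  have hb' : i.2.2 ∈ i.1.V.Buf (1 / 4) := bud_bm_ae_buf hS hV' (by linarith) hb
  have hT0 : 0 < i.1.V.bbuf / 4 := lt_of_lt_of_le (by positivity) hR.xb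
  have H := bud_bm_ae_prod hS hW hn hV' hR hbase hG hFl hB hlo hhi ha' hb' hab hCab
  have hm0 : (0 : ℝ) < i.1.F.m := by exact_mod_cast hR.bx.m0
  have hC0 := bud_gb_C0_pos hXo hF
  have hA0 : 0 ≤ i.1.aeA cq (K.cb * X.plo n / 2) := by unfold BdVI.aeA; positivity
  have hc1 : (0 : ℝ) ≤ 2 * ((i.1.aeK : ℝ) + 1) := by positivity
  obtain ⟨r1, r2⟩ := bud_bm_ae_rad H hA0 hc1
  obtain ⟨m1, m2⟩ := bud_bm_ae_mass H hA0 hc1
  have hptx : ∀ x ∈ Icc i.2.1 i.2.2, 0 ≤ i.1.V.Q.alErr W i.1.V.g (i.1.V.Q.al x) ∧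
      i.1.V.Q.alErr W i.1.V.g (i.1.V.Q.al x) ≤ 2 * ((i.1.aeK : ℝ) + 1) * bmAeLay (fun y => (i.1.V.Q.bosNum i.1.V.g).S (i.1.V.Q.al y))
        (i.1.aeA cq (K.cb * X.plo n / 2)) (i.1.V.bbuf / 4) i.1.aeK x + (i.1.V.Q.bosNum i.1.V.g).TC (i.1.V.Q.al x) := by
    intro x hx
    have hxB : x ∈ i.1.V.Buf (1 / 4) := ⟨ha'.1.trans hx.1, hx.2.trans hb'.2⟩
    obtain ⟨-, q2⟩ := BudB.vst_buf_cI hS hn hV' (by norm_num) hxB
    refine hpt i.1 hV' x (i.1.V.bbuf / 4) (K.cb * X.plo n / 2 * i.1.F.u) i.1.aeK (by unfold BdVI.aeK; omega) hT0 (by linarith [hxB.1]) q2.le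
      (q2.trans hR.cIu) (by positivity) (bud_bm_ae_v0 hS hn hV' hR.bx.Lv ⟨by linarith [hxB.1], by linarith [hxB.2]⟩)
  obtain ⟨p1, p2, q1, q2⟩ := bud_bm_ae_conv hS hV' (c0 := c0) hT0 (by linarith [ha'.1]) hab (by linarith [hb'.2]) hptx r1 m1
  obtain ⟨n1, n2⟩ := h3 i.1 hV' hN3 hR.xb
  have hlam := BdFr.bds_lam_pos hF
  have hN0 : (0 : ℝ) ≤ (i.1.F.N : ℝ) ^ ε := Real.rpow_nonneg (Nat.cast_nonneg _) _
  have hA := BdFr.bds_A_pos hF hXo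
  have hY0 : 0 ≤ i.1.F.lam ^ (-X.rho) * i.1.F.u ^ 2 * i.1.F.A ^ 3 := by
    have := Real.rpow_nonneg hlam.le (-X.rho)
    positivity
  have hcI := hXo.cI_pos
  have key := bud_bm_ae_alg (A0 := i.1.aeA cq (K.cb * X.plo n / 2)) (T0 := i.1.V.bbuf / 4) (Φ := X.cI * i.1.F.u) (E := (|C| + 1) * (18 / K.cb + 8))
    (d := i.1.V.d0) (c1 := 2 * ((i.1.aeK : ℝ) + 1)) (ℓ := i.2.2 - i.2.1) (Cs := |C| + 18 / K.cb + 4) (CD := |K.Cb| * (|C| + 16) + 4) (Ca := |C|)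
    (Lp := i.1.F.bosLp X) (m := (i.1.F.m : ℝ)) (C0 := i.1.F.C0) (v0 := K.cb * X.plo n / 2 * i.1.F.u) (Kl := i.1.aeK)
    (Y := Cc * ((i.1.F.N : ℝ) ^ ε * (i.1.F.lam ^ (-X.rho) * i.1.F.u ^ 2 * i.1.F.A ^ 3)))
    hd0 (by positivity) (by positivity) hc1 (hCab.trans (mul_le_mul_of_nonneg_right (le_abs_self C) hd0.le)) (abs_nonneg C) (by positivity) (by positivity)
    (bos_Lp_gap X hXo i.1.F hF).1 hm0 hC0 (by positivity) n1 n2
  have hinv : 0 < i.1.V.d0⁻¹ := inv_pos.2 hd0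
  have t1 : i.1.V.avgR i.2.1 i.2.2 (i.1.V.Q.alErr W i.1.V.g) ≤ i.1.V.d0⁻¹ * _ := mul_le_mul_of_nonneg_left (q1.trans r2) hinv.le
  have t2 : i.1.V.avgV i.2.1 i.2.2 (i.1.V.Q.alErr W i.1.V.g) ≤ i.1.V.d0⁻¹ * _ := mul_le_mul_of_nonneg_left (q2.trans m2) hinv.le
  have u1 : 0 ≤ i.1.V.avgR i.2.1 i.2.2 (i.1.V.Q.alErr W i.1.V.g) := mul_nonneg hinv.le p1
  have u2 : 0 ≤ i.1.V.avgV i.2.1 i.2.2 (i.1.V.Q.alErr W i.1.V.g) := mul_nonneg hinv.le p2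
  rw [Real.norm_eq_abs, Real.norm_eq_abs, abs_of_nonneg (add_nonneg u1 u2), abs_of_nonneg (mul_nonneg hN0 hY0)]
  calc _ ≤ _ := add_le_add t1 t2
    _ ≤ _ := key
    _ = _ := by ring

/-- **the exit of N13** (glue of helper9).     TEX[LL:bud:box-moments] -/
theorem bud_bm_c15_in (hS : BdStd X W Fam K) (hW : W.IsSk) {n : ℕ} (hn1 : 1 ≤ n) (hn : n ≤ X.J + 1) (hI : BudBmIn X W Fam K n) :
    ∃ s : ℝ, 0 < s ∧ s ≤ 1 ∧ BudC15a X W Fam n 2 s ∧ ∀ c C : ℝ, 0 < c → BudC15b X W Fam n 2 s c C ∧ BudC15c X W Fam n 2 s c C := by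
  obtain ⟨s, hs, hs1, hX, hA, ha⟩ := bud_bm_c15a hS hW hn1 hn hI
  exact ⟨s / 4, by linarith, by linarith, bud_bm_c15a_mono hS (by linarith) ha, fun c C hc =>
    ⟨bud_bm_c15b hS hW hn1 hn hI hs hs1 hX hA c C hc, bud_bm_c15c hS hW hn1 hn hI hs hs1 hX c C hc⟩⟩

end

end Claimed.Agent.R286
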