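import Claimed.Agent.R286.Bud.L8Defs
import Claimed.Agent.R286.Bud.EnvB
import Claimed.Agent.R286.Bud.FfTop
import Claimed.Agent.R286.Bud.HpFr
import Claimed.Agent.R286.Bud.MomBoxAl

/-!
# Row 286, LL sec. 7, l.1151-1850: CONTRACT of the package L08      (head helper212; ADV helper248)

EXITS (statements = `Bud/L8Defs.lean`).  Each sorried theorem has ONE owner; he replaces the `sorry` by `exact <his theorem>` (and adds the import).

| exit | TeX | owner of the cut |
| `bud_step`, `bud_cost_zero`, `bud_cost_succ`, `bud_cost_restrict`, `bud_Z_zero`, `bud_env` | bud:envelope l.1184-1300 (N10) | helper5 |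
| `bud_c15` | bud:box-moments l.1461-1590 (N13) | helper9 (`Bud/MomBoxFr.lean`, frame level; abstract level `Bud/MomBoxA-C` 176/174/237; inputs bundled in `BudBmIn`; buffer constant `2`): GLUE PROVED |
| `bud_c16` | bud:free-forks l.1593-1640 (N14) | helper161 (Bud/Ff*.lean; inputs `BudFfIn`, `BudFfC7`; class `BdI.OkSt`): GLUE to `bud_c16_of` PROVED |
| `bud_c17a`, `bud_c17b` | bud:high-primitive l.1643-1760 (N15) | helper8 (`Bud/Hp.lean`, `Bud/HpFr.lean`; inputs bundled in `BudHpIn`): GLUE PROVED |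
N11 (buffer, transport) and N12 ((C14)): `Bud/N11.lean`, `Bud/N12.lean`, owner helper6.      N16 ((C18) + all exponent arithmetic): `Bud/Pow*.lean` (7, 15, 25, 27): PROVED.

IMPORTS (from whom):  `BudOptEx` 109 (N4) | `BudExc0` 162 / PE Prop. 6.6 | `BudR0` 162 (N1) | `BudC7al` 12 (N9) | `BudC12 n` 184/162 (induction) |
`BdStd` (family of frames) + `BdWorld.IsSk` (world): instance 157/162/198.
In the proofs: (C6) 109; (C8), (C9), (C10) 109/12 in PARAMETRIC form (PL1-PL3 of origin/helper248:notes/R286/L08_adv_248.md); PE (20), (21) P06; (A1)-(A3) LL02; (P4)-(P8) LL03.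
TEXDROP[LL:bud:power-margins] = `BudC18a-d` of `Bud/Pow.lean` (proved in PowA-D).
-/

set_option autoImplicit false

namespace Claimed.Agent.R286

open MeasureTheory Set Filter Topology

variable {X : BdFix} {W : BdWorld} {Fam : BdFr → Prop} {K : BdCst}

/-! ## N10: the envelope -/

/-- the convolution competitor: the preceding accuracy pays the new floor.     TEX[LL:bud:envelope]      OWNER helper5 -/
theorem bud_step (hS : BdStd X W Fam K) (hEx : BudOptEx X W Fam) (h7 : BudC7al X W Fam) {n : ℕ} (hn : n ≤ X.J)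
    (h12 : BudC12 X W Fam n) : BudStep X W Fam n :=
  bud_env_step hS hEx h7 hn h12

/-- OWNER helper5 -/
theorem bud_cost_zero (hS : BdStd X W Fam K) (hEx : BudOptEx X W Fam) (h0 : BudExc0 X W Fam) : BudCost X W Fam 0 0 :=
  bud_env_cost_zero hS hEx h0

/-- OWNER helper5 -/
theorem bud_Z_zero (hS : BdStd X W Fam K) : BudZ X W Fam 0 :=
  bud_env_Z_zero hS

/-- averaging the stage cost.      OWNER helper5 -/
theorem bud_cost_succ (hS : BdStd X W Fam K) (hEx : BudOptEx X W Fam) {n : ℕ} (hn : n ≤ X.J) (hc : BudCost X W Fam n n)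
    (hZ : BudZ X W Fam n) (hst : BudStep X W Fam n) : BudCost X W Fam (n + 1) n :=
  bud_env_cost_succ hS hEx hn hc hZ hst

/-- the excess is nonnegative: the parameter interval may be decreased.      OWNER helper5 -/
theorem bud_cost_restrict (hS : BdStd X W Fam K) {n : ℕ} (hn : n ≤ X.J) (hc : BudCost X W Fam (n + 1) n) :
    BudCost X W Fam (n + 1) (n + 1) :=
  bud_env_cost_restrict hS hn hc

/-- **the common envelope**: Danskin, `𝓡_j' ≥ c λ 𝓝²`, integration of `𝓡_j'` between a good upper endpoint in the margin and the lower endpoint,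
the four terms of `𝓑` against both denominators.     TEX[LL:bud:envelope]      OWNER helper5 -/
theorem bud_env (hS : BdStd X W Fam K) (hEx : BudOptEx X W Fam) (hR : BudR0 X W Fam K.cG) {n : ℕ} (hn : n ≤ X.J)
    (hc : BudCost X W Fam (n + 1) n) : BudZ X W Fam (n + 1) ∧ BudC13 X W Fam (n + 1) :=
  bud_env_main hS hEx hR hn hc

/-! ## N13: moments on moving boxes -/

/-- **(C15)**: there is a fixed inner proportion `s` of the buffer on which the three assertions hold.     TEX[LL:bud:box-moments]      OWNER helper9 (`bud_bm_c15_in`, `Bud/MomBoxAl.lean`) -/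
theorem bud_c15 (hS : BdStd X W Fam K) (hW : W.IsSk) {n : ℕ} (hn1 : 1 ≤ n) (hn : n ≤ X.J + 1) (hI : BudBmIn X W Fam K n) :
    ∃ s : ℝ, 0 < s ∧ s ≤ 1 ∧ BudC15a X W Fam n 2 s ∧
      ∀ c C : ℝ, 0 < c → BudC15b X W Fam n 2 s c C ∧ BudC15c X W Fam n 2 s c C :=
  bud_bm_c15_in hS hW hn1 hn hI

/-! ## N14: free forks -/

/-- **(C16)**.     TEX[LL:bud:free-forks]      OWNER helper161 (cut: `Bud/FfTop.lean`) -/
theorem bud_c16 (hS : BdStd X W Fam K) (_hW : W.IsSk) (hin : BudFfIn X W Fam) {c C : ℝ} (hc : 0 < c)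
    (h7 : BudFfC7 X (fun i => i.OkSt W Fam) c C) : BudC16a X W Fam ∧ BudC16b X W Fam ∧ BudC16c X W Fam :=
  bud_c16_in hS hin hc h7

/-! ## N15: high projection, centred primitives -/

/-- **(C17)**.     TEX[LL:bud:high-primitive]      OWNER helper8 (`bud_hp_c17`, `Bud/HpFr.lean`) -/
theorem bud_c17a (hS : BdStd X W Fam K) (hW : W.IsSk) {n : ℕ} (hn1 : 1 ≤ n) (hn : n ≤ X.J + 1) (Cbuf : ℝ)
    (hI : BudHpIn X W Fam K Cbuf) : BudC17a X W Fam n Cbuf 1 :=
  bud_hp_c17_in hS hW hI hn1 hn

/-- **the centred primitive over a high dyad** (uses (C13) of the same stage on the plateau).     TEX[LL:bud:high-primitive]      OWNER helper8 (`bud_hp_prim`, `Bud/HpFr.lean`) -/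
theorem bud_c17b (hS : BdStd X W Fam K) (hW : W.IsSk) {n : ℕ} (hn1 : 1 ≤ n) (hn : n ≤ X.J + 1) (Cbuf : ℝ)
    (hI : BudHpIn X W Fam K Cbuf) (hZ : BudZ X W Fam n) (h13 : BudC13 X W Fam n) : BudC17b X W Fam n Cbuf :=
  bud_hp_prim_in hS hW hI hn1 hn hZ h13

end Claimed.Agent.R286
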