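import Claimed.Agent.R286.LL06.Pw

/-!
# Row 286, LL sec. 7, node N13 = Lemma `bud:box-moments` (C15).   File MomBoxA : THE FOUR PARAMETRIC PATH LEMMAS      (architect helper176; prefix `bud_bm_`, defs `mbx*`)

MODEL-FREE, NON-ASYMPTOTIC, on the abstract single path `L8P` of helper75 (`L08/SP*.lean`); explicit constants in, explicit constants out.
Norm convention of `L08/SPD`:   `‖Z‖_q ≤ B`  is written  `∫ Z ^ q ∂μ ≤ B ^ q`  (`q : ℕ`).
They are the calculations which LL repeats at (G4), (C8), (C9), (C10), (C15), (C16), (D6) ff.:  REUSE THEM (N5: 141/109, N6: 111, LL06: 200/84, LL08: 37/228).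

* **WL**  `bud_bm_wl`      weighted layers, TEX[LL:global:residual-blocks] + par. "Application to the integrated pinned moment" + l.270-320 of 07 (proof of (C9)):
          `‖∑_{s ∈ J} w_s W_s‖_r ≤ K ∑_{i,j} μ'_j ((c₁ + ϑ r) σ_{max} G_{min} + 16 |J|_w ε)`   for ARBITRARY block structures `t j s`.
          leaves: `bud_bm_blocks` (block decomposition), `bud_bm_pair_b` (later block on the averaged branch), `bud_bm_pair_a0/a1/a` (later block on the kept branch: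
          normalised-anchor truncation), `bud_bm_pair_00`;   the `G`'s come from `L8P.l6p_overlap_fam` ((global-grid), bounded overlap form; `LL06/Pw.lean`, helper200).
* **WIN** `bud_bm_win`     (A1) line 3 for a window with weights `w ≤ dv/κ`;   `bud_bm_two` = two cuts with a common past (Lemma 6.3, second half).
* **SY**  `bud_bm_sync`    synchronised layers of a fork (PE (16)): `‖Q - X^a_{t0}·X^b_{t0}‖_{2r} ≤ 2 ∑ e_i`;   `bud_bm_polar` polarisation.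
* **SL**  `bud_bm_slide`   sliding windows + absorption (l.355-430 of 07 = extra floor of (C10); "Second moments in radius and in mass" of (C15)).
* **AL**  `bud_bm_alias`   alias error by past layers (last paragraph of the proof of (C15)).
Every `sorry` is ONE LEAF: claim it in claim286 by its Lean name, replace ONLY your sorry (helpers just above, name = theorem + suffix), land directly.   False or awkward statement: one line to 176.
-/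

set_option autoImplicit false

namespace Claimed.Agent.R286

open MeasureTheory ProbabilityTheory Finset
open scoped ENNReal

variable {Ω : Type} [mΩ : MeasurableSpace Ω] {m : ℕ}

/-! ## 0. Definitions -/

/-- `(X_l - X_k)(ω) · (X_l' - X_k')(ω')` : inner product of an increment of the branch `ω` with an increment of the branch `ω'` -/
noncomputable def mbxDot (P : L8P Ω m) (k l k' l' : ℕ) (ω ω' : Ω) : ℝ := ∑ i, P.XX k l i ω * P.XX k' l' i ω'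

/-- `E_𝖻[(Δ^𝖺_{[k,l)} · Δ^𝖻_{[k',l')})² | 𝖺]`, the continuation `𝖻` forked at the cut `s` -/
noncomputable def mbxPair (P : L8P Ω m) (s k l k' l' : ℕ) (ω : Ω) : ℝ := P.FK s (P.XX k l) (P.XX k' l') ω

/-- the denominator of (A3) for a projection interval `[p, k)` : `v_p² m Δh` -/
noncomputable def mbxDen (P : L8P Ω m) (p k : ℕ) : ℝ := P.v p ^ 2 * m * P.hlen p k

/-- conditional probability (given the branch `𝖺 = ω`) of the exceptional event of the normalised-anchor truncation at the level `θ` -/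
noncomputable def mbxBad (P : L8P Ω m) (s k l k' l' : ℕ) (θ : ℝ) (ω : Ω) : ℝ :=
  (P.κ s ω {ω' | θ * P.nXX k' l' ω' < mbxDot P k l k' l' ω ω' ^ 2}).toReal

theorem bud_bm_a_eqns_cite : True := by
  have := @mbxDot.eq_1; have := @mbxPair.eq_1; have := @mbxDen.eq_1; have := @mbxBad.eq_1
  trivial

/-! ## 1. Moment calculus (norm convention `∫ |f| ^ q ≤ B ^ q`) -/

theorem bud_bm_mink_pow (μ : Measure Ω) [IsProbabilityMeasure μ] {f : Ω → ℝ} (hf : L8Bd f) (q : ℕ) (hq : 1 ≤ q) :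
    MemLp f (q : ℝ≥0∞) μ ∧ (eLpNorm f (q : ℝ≥0∞) μ).toReal ^ q = ∫ x, |f x| ^ q ∂μ := by
  obtain ⟨hm0, c, hc⟩ := hf
  have hm : MemLp f (q : ℝ≥0∞) μ := MemLp.of_bound hm0.aestronglyMeasurable c (Filter.Eventually.of_forall hc)
  refine ⟨hm, ?_⟩
  have hp0 : (q : ℝ≥0∞) ≠ 0 := by
    simp only [ne_eq, Nat.cast_eq_zero]; omega
  have h := hm.eLpNorm_eq_integral_rpow_norm hp0 (ENNReal.natCast_ne_top _)
  have hnn : 0 ≤ ∫ x, |f x| ^ q ∂μ := integral_nonneg fun x => by positivity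
  rw [h]
  simp only [ENNReal.toReal_natCast, Real.rpow_natCast, Real.norm_eq_abs]
  rw [ENNReal.toReal_ofReal (by positivity), ← Real.rpow_natCast, ← Real.rpow_mul hnn,
    inv_mul_cancel₀ (by positivity), Real.rpow_one]

/-- **Minkowski** in moment form -/
theorem bud_bm_mink (μ : Measure Ω) [IsProbabilityMeasure μ] {ι : Type} (s : Finset ι) (f : ι → Ω → ℝ) (B : ι → ℝ) (q : ℕ) (hq : 1 ≤ q)
    (hf : ∀ i ∈ s, L8Bd (f i)) (hB0 : ∀ i ∈ s, 0 ≤ B i) (hB : ∀ i ∈ s, ∫ ω, |f i ω| ^ q ∂μ ≤ B i ^ q) :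
    ∫ ω, |∑ i ∈ s, f i ω| ^ q ∂μ ≤ (∑ i ∈ s, B i) ^ q := by
  rw [← (bud_bm_mink_pow μ (L8Bd.sum s hf) q hq).2]
  refine pow_le_pow_left₀ ENNReal.toReal_nonneg ?_ _
  have h1 : ∀ i ∈ s, (eLpNorm (f i) (q : ℝ≥0∞) μ).toReal ≤ B i := fun i hi => by
    refine le_of_pow_le_pow_left₀ (n := q) (by omega) (hB0 i hi) ?_
    rw [(bud_bm_mink_pow μ (hf i hi) q hq).2]
    exact hB i hi
  have hne : ∀ i ∈ s, eLpNorm (f i) (q : ℝ≥0∞) μ ≠ ∞ := fun i hi => (bud_bm_mink_pow μ (hf i hi) q hq).1.eLpNorm_ne_top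
  refine le_trans ?_ (sum_le_sum h1)
  rw [← ENNReal.toReal_sum hne]
  refine ENNReal.toReal_mono (ENNReal.sum_ne_top.2 hne) ?_
  have := eLpNorm_sum_le (μ := μ) (s := s) (f := f) (fun i hi => (hf i hi).1.aestronglyMeasurable) (p := (q : ℝ≥0∞))
    (by exact_mod_cast hq)
  convert this using 2
  funext a; simp

/-- **Lyapunov**: lower moments from higher ones -/
theorem bud_bm_lyap (μ : Measure Ω) [IsProbabilityMeasure μ] {f : Ω → ℝ} (hf : L8Bd f) {q q' : ℕ} (hq : 1 ≤ q) (hqq : q ≤ q') {B : ℝ} (hB0 : 0 ≤ B)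
    (h : ∫ ω, |f ω| ^ q' ∂μ ≤ B ^ q') : ∫ ω, |f ω| ^ q ∂μ ≤ B ^ q := by
  rw [← (bud_bm_mink_pow μ hf q hq).2]
  refine pow_le_pow_left₀ ENNReal.toReal_nonneg ?_ _
  have h1 : (eLpNorm f (q' : ℝ≥0∞) μ).toReal ≤ B := by
    refine le_of_pow_le_pow_left₀ (n := q') (by omega) hB0 ?_
    rw [(bud_bm_mink_pow μ hf q' (hq.trans hqq)).2]
    exact h
  refine le_trans (ENNReal.toReal_mono (bud_bm_mink_pow μ hf q' (hq.trans hqq)).1.eLpNorm_ne_top ?_) h1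
  exact eLpNorm_le_eLpNorm_of_exponent_le (by exact_mod_cast hqq) hf.1.aestronglyMeasurable

/-- basic facts on the squared increments -/
theorem bud_bm_sq_bd (P : L8P Ω m) (h : P.Ok) (k l : ℕ) : L8Bd (P.nXX k l) := P.l6p_nXX_bd h k l

theorem bud_bm_sq_nonneg (P : L8P Ω m) (k l : ℕ) (ω : Ω) : 0 ≤ P.nXX k l ω := by
  unfold L8P.nXX; positivity

theorem bud_bm_sq_le_four (P : L8P Ω m) (h : P.Ok) (k l : ℕ) (ω : Ω) : P.nXX k l ω ≤ 4 := P.l6p_nXX_le h k l ω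

/-- `|X_l - X_k|² ≤ 2 |X_l - X_j|² + 2 |X_k - X_j|²` -/
theorem bud_bm_sq_tri (P : L8P Ω m) (j k l : ℕ) (ω : Ω) : P.nXX k l ω ≤ 2 * P.nXX j k ω + 2 * P.nXX j l ω := by
  unfold L8P.nXX L8P.XX
  rw [mul_sum, mul_sum, ← sum_add_distrib]
  refine sum_le_sum fun i _ => ?_
  nlinarith [sq_nonneg ((P.X l i ω - P.X j i ω) + (P.X k i ω - P.X j i ω))]

theorem bud_bm_sq_le_nX (P : L8P Ω m) (k l : ℕ) (ω : Ω) : P.nXX k l ω ≤ 2 * P.nX k ω + 2 * P.nX l ω := by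
  unfold L8P.nXX L8P.nX L8P.XX
  rw [mul_sum, mul_sum, ← sum_add_distrib]
  refine sum_le_sum fun i _ => ?_
  nlinarith [sq_nonneg (P.X l i ω + P.X k i ω)]

theorem bud_bm_integral_sq (P : L8P Ω m) (h : P.Ok) {k l : ℕ} (hkl : k ≤ l) : ∫ ω, P.nXX k l ω ∂P.μ = P.S l - P.S k := by
  exact (P.l8s_S_sub h hkl).symm

/-- the moments of `|X_k|²` increase along the path (conditional Jensen) -/
theorem bud_bm_nX_mono (P : L8P Ω m) (h : P.Ok) {k l : ℕ} (hkl : k ≤ l) (q : ℕ) : ∫ ω, P.nX k ω ^ q ∂P.μ ≤ ∫ ω, P.nX l ω ^ q ∂P.μ := by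
  have := h.prob
  have hb := P.l8s_W_bd_nX h
  have h0 : ∀ k ω, 0 ≤ P.nX k ω := fun k ω => by unfold L8P.nX; positivity
  calc ∫ ω, P.nX k ω ^ q ∂P.μ ≤ ∫ ω, P.E k (fun ω' => P.nX l ω' ^ q) ω ∂P.μ := by
        refine integral_mono (((hb k).pow q).integrable _) ((P.l8s_E_bd h k ((hb l).pow q)).integrable _) fun ω => ?_
        have h1 := P.l8s_nX_le_E h hkl ω
        have h2 := P.l8s_E_pow_le h k (hb l) q ω
        calc P.nX k ω ^ q ≤ |P.E k (P.nX l) ω| ^ q := pow_le_pow_left₀ (h0 k ω) (h1.trans (le_abs_self _)) q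
          _ ≤ _ := h2
          _ = _ := P.l8s_E_congr k (fun ω' => by rw [abs_of_nonneg (h0 l ω')]) ω
    _ = _ := P.l8s_integral_E h k ((hb l).pow q)

theorem bud_bm_dot_meas (P : L8P Ω m) (h : P.Ok) (k l k' l' : ℕ) : Measurable (fun z : Ω × Ω => mbxDot P k l k' l' z.1 z.2) := by
  unfold mbxDot
  exact Finset.measurable_sum _ fun i _ => ((P.l8sb_XX_bd h k l i).1.comp measurable_fst).mul ((P.l8sb_XX_bd h k' l' i).1.comp measurable_snd)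

/-- Cauchy-Schwarz -/
theorem bud_bm_dot_sq_le (P : L8P Ω m) (k l k' l' : ℕ) (ω ω' : Ω) : mbxDot P k l k' l' ω ω' ^ 2 ≤ P.nXX k l ω * P.nXX k' l' ω' := by
  unfold mbxDot L8P.nXX
  exact Finset.sum_mul_sq_le_sq_mul_sq _ _ _

theorem bud_bm_dot_sq_le16 (P : L8P Ω m) (h : P.Ok) (k l k' l' : ℕ) (ω ω' : Ω) : mbxDot P k l k' l' ω ω' ^ 2 ≤ 16 := by
  have h1 := bud_bm_dot_sq_le P k l k' l' ω ω'
  have h2 := bud_bm_sq_le_four P h k l ω
  have h3 := bud_bm_sq_le_four P h k' l' ω'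
  have h4 := bud_bm_sq_nonneg P k l ω
  have h5 := bud_bm_sq_nonneg P k' l' ω'
  nlinarith

theorem bud_bm_pair_eq (P : L8P Ω m) (s k l k' l' : ℕ) (ω : Ω) : mbxPair P s k l k' l' ω = ∫ ω', mbxDot P k l k' l' ω ω' ^ 2 ∂(P.κ s ω) := rfl

theorem bud_bm_pair_bd (P : L8P Ω m) (h : P.Ok) (s k l k' l' : ℕ) : L8Bd (mbxPair P s k l k' l') := by
  exact P.l8s_fork_inner_bd_aux h s (F := fun z => mbxDot P k l k' l' z.1 z.2 ^ 2) ((bud_bm_dot_meas P h k l k' l').pow_const 2) (c := 16)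
    (fun z => by rw [abs_of_nonneg (sq_nonneg _)]; exact bud_bm_dot_sq_le16 P h k l k' l' z.1 z.2)

theorem bud_bm_pair_nonneg (P : L8P Ω m) (s k l k' l' : ℕ) (ω : Ω) : 0 ≤ mbxPair P s k l k' l' ω := by
  unfold mbxPair L8P.FK; exact integral_nonneg fun _ => by positivity

/-! ## 2. (global-grid), bounded overlap form, on `L8P` = `L8P.l6p_overlap_fam` of `LL06/Pw.lean` (helper200), constant `(32 q M)^q` -/

/-! ## 3. WL : weighted layers -/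

/-- **(global-block-decomposition)** on `L8P`, POINTWISE.  TEX[LL:global:residual-blocks]
(`l8s_H_le_blocks` at `u = R_s(ω)`, telescoping of `R_s(ω)`, Cauchy-Schwarz `(∑_{i<K} a_i)² ≤ K ∑ a_i²`.) -/
theorem bud_bm_blocks (P : L8P Ω m) (h : P.Ok) (K : ℕ) (t : ℕ → ℕ) (ht : Monotone t) (hK : t K = P.n + 1) (ω : Ω) :
    P.W (t 0) ω ≤ K * ∑ i ∈ range K, ∑ j ∈ range K, P.v (t (j + 1) - 1) * mbxPair P (t 0) (t i) (t (i + 1)) (t j) (t (j + 1)) ω :=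
  P.l6p_blocks h K t ht hK ω

/-- **later block on the averaged branch `𝖻`**: (A3) at order 2, pointwise in the kept branch; the projection interval is `[p, k')`, `s ≤ p < k'`
(tower from `s` to `p`, then `l8s_proj_incr` with the fixed anchor `u = Δ^𝖺(ω)`) -/
theorem bud_bm_pair_b (P : L8P Ω m) (h : P.Ok) {c vmin hmin : ℝ} (hp : P.Proj 1 c vmin hmin) {s p k l k' l' : ℕ} (hsp : s ≤ p) (hpk : p < k') (hkl : k' ≤ l')
    (hk : k' ≤ P.n + 1) (hv : vmin ≤ P.v p) (hh : hmin ≤ P.hlen p k') (ω : Ω) :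
    mbxPair P s k l k' l' ω ≤ c * P.nXX k l ω / mbxDen P p k' := by
  have h1 := P.l6p_pair_b_gen h hp hsp hpk hkl hk hv hh (P.XX k l) ω
  unfold mbxPair mbxDen
  refine h1.trans (le_of_eq ?_)
  unfold L8P.sc2 L8P.nXX
  ring

theorem bud_bm_pair_a0_mset (P : L8P Ω m) (h : P.Ok) (k l k' l' : ℕ) (θ : ℝ) :
    MeasurableSet {z : Ω × Ω | θ * P.nXX k' l' z.2 < mbxDot P k l k' l' z.1 z.2 ^ 2} :=
  measurableSet_lt (((bud_bm_sq_bd P h k' l').1.comp measurable_snd).const_mul θ) ((bud_bm_dot_meas P h k l k' l').pow_const 2)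

theorem bud_bm_pair_a0_mset' (P : L8P Ω m) (h : P.Ok) (k l k' l' : ℕ) (θ : ℝ) (ω : Ω) :
    MeasurableSet {ω' : Ω | θ * P.nXX k' l' ω' < mbxDot P k l k' l' ω ω' ^ 2} :=
  measurable_prodMk_left (x := ω) (bud_bm_pair_a0_mset P h k l k' l' θ)

/-- truncation, pointwise: on the good event `(Δ^𝖺·Δ^𝖻)² ≤ θ |Δ^𝖻|²`, on the bad one `≤ 16` -/
theorem bud_bm_pair_a0 (P : L8P Ω m) (h : P.Ok) (s k l k' l' : ℕ) {θ : ℝ} (hθ : 0 ≤ θ) (ω : Ω) :
    mbxPair P s k l k' l' ω ≤ θ * P.E s (P.nXX k' l') ω + 16 * mbxBad P s k l k' l' θ ω := by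
  have := h.markov s
  have hE := bud_bm_pair_a0_mset' P h k l k' l' θ ω
  have hi1 : Integrable (P.nXX k' l') (P.κ s ω) := (bud_bm_sq_bd P h k' l').integrable _
  have hi2 : Integrable ({ω' : Ω | θ * P.nXX k' l' ω' < mbxDot P k l k' l' ω ω' ^ 2}.indicator (fun _ => (1:ℝ))) (P.κ s ω) :=
    (integrable_const (1:ℝ)).indicator hE
  have hpt : ∀ ω', mbxDot P k l k' l' ω ω' ^ 2
      ≤ θ * P.nXX k' l' ω' + 16 * {ω' : Ω | θ * P.nXX k' l' ω' < mbxDot P k l k' l' ω ω' ^ 2}.indicator (fun _ => (1:ℝ)) ω' := by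
    intro ω'
    by_cases hb : θ * P.nXX k' l' ω' < mbxDot P k l k' l' ω ω' ^ 2
    · rw [Set.indicator_of_mem (show ω' ∈ {ω' : Ω | θ * P.nXX k' l' ω' < mbxDot P k l k' l' ω ω' ^ 2} from hb)]
      have := bud_bm_dot_sq_le16 P h k l k' l' ω ω'
      have := mul_nonneg hθ (bud_bm_sq_nonneg P k' l' ω')
      linarith
    · rw [Set.indicator_of_notMem (show ω' ∉ {ω' : Ω | θ * P.nXX k' l' ω' < mbxDot P k l k' l' ω ω' ^ 2} from hb)]
      linarith [not_lt.1 hb]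
  rw [bud_bm_pair_eq]
  calc ∫ ω', mbxDot P k l k' l' ω ω' ^ 2 ∂(P.κ s ω)
      ≤ ∫ ω', (θ * P.nXX k' l' ω' + 16 * {ω' : Ω | θ * P.nXX k' l' ω' < mbxDot P k l k' l' ω ω' ^ 2}.indicator (fun _ => (1:ℝ)) ω') ∂(P.κ s ω) :=
        integral_mono_of_nonneg (Filter.Eventually.of_forall fun _ => sq_nonneg _) ((hi1.const_mul θ).add (hi2.const_mul 16))
          (Filter.Eventually.of_forall hpt)
    _ = _ := by
        rw [integral_add (hi1.const_mul θ) (hi2.const_mul 16), integral_const_mul, integral_const_mul, integral_indicator hE]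
        simp [L8P.E, mbxBad, Measure.real]

/-- **(A3) on the fork for an increment**, anchor = any bounded function of the whole OTHER branch; the projected branch is the second one -/
theorem bud_bm_fork_incr (P : L8P Ω m) (h : P.Ok) {r : ℕ} {c vmin hmin : ℝ} (hp : P.Proj r c vmin hmin) {s p k l : ℕ} (hsp : s ≤ p) (hpk : p < k) (hkl : k ≤ l)
    (hk : k ≤ P.n + 1) (hv : vmin ≤ P.v p) (hh : hmin ≤ P.hlen p k) (V : Fin m → Ω → ℝ) (hV : ∀ i, L8Bd (V i)) :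
    ∫ z, (∑ i, V i z.1 * P.XX k l i z.2) ^ (2 * r) ∂(P.fork s) ≤ c / mbxDen P p k ^ r * ∫ ω, (∑ i, V i ω ^ 2) ^ r ∂P.μ := by
  have := h.prob
  have bF := L8P.l6p_pair_a_G hV (fun i => P.l8sb_XX_bd h k l i) (2 * r)
  obtain ⟨C, hC⟩ := bF.2
  rw [P.l8s_fork_integral h s bF.1 hC, ← integral_const_mul]
  refine integral_mono ((P.l6p_pair_a_ker h s bF).integrable P.μ) ((((L8Bd.sum _ fun i _ => (hV i).pow 2).pow r).const_mul _).integrable P.μ) fun ω => ?_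
  have h1 := P.l6p_proj_gen h hp hsp hpk hkl hk hv hh ω (fun i => V i ω)
  refine h1.trans (le_of_eq ?_)
  unfold mbxDen
  ring

/-- the same with the FIRST branch projected (`l8s_fork_swap`) -/
theorem bud_bm_fork_incr' (P : L8P Ω m) (h : P.Ok) {r : ℕ} {c vmin hmin : ℝ} (hp : P.Proj r c vmin hmin) {s p k l : ℕ} (hsp : s ≤ p) (hpk : p < k) (hkl : k ≤ l)
    (hk : k ≤ P.n + 1) (hv : vmin ≤ P.v p) (hh : hmin ≤ P.hlen p k) (V : Fin m → Ω → ℝ) (hV : ∀ i, L8Bd (V i)) :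
    ∫ z, (∑ i, V i z.2 * P.XX k l i z.1) ^ (2 * r) ∂(P.fork s) ≤ c / mbxDen P p k ^ r * ∫ ω, (∑ i, V i ω ^ 2) ^ r ∂P.μ := by
  have bF := L8P.l6p_pair_a_G hV (fun i => P.l8sb_XX_bd h k l i) (2 * r)
  have e3 : ∫ z, (∑ i, V i z.1 * P.XX k l i z.2) ^ (2 * r) ∂(P.fork s) = ∫ z, (∑ i, V i z.2 * P.XX k l i z.1) ^ (2 * r) ∂(P.fork s) := by
    conv_lhs => rw [← P.l8s_fork_swap h s]
    rw [integral_map measurable_swap.aemeasurable bF.1.aestronglyMeasurable]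
    rfl
  rw [← e3]
  exact bud_bm_fork_incr P h hp hsp hpk hkl hk hv hh V hV

theorem bud_bm_bad_bd (P : L8P Ω m) (h : P.Ok) (s k l k' l' : ℕ) (θ : ℝ) : L8Bd (mbxBad P s k l k' l' θ) ∧ ∀ ω, 0 ≤ mbxBad P s k l k' l' θ ω ∧ mbxBad P s k l k' l' θ ω ≤ 1 := by
  have := h.markov s
  have h01 : ∀ ω, 0 ≤ mbxBad P s k l k' l' θ ω ∧ mbxBad P s k l k' l' θ ω ≤ 1 := fun ω =>
    ⟨ENNReal.toReal_nonneg, by
      unfold mbxBad
      exact ENNReal.toReal_le_of_le_ofReal zero_le_one (by simpa using prob_le_one)⟩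
  refine ⟨⟨?_, 1, fun ω => by rw [abs_of_nonneg (h01 ω).1]; exact (h01 ω).2⟩, h01⟩
  exact (Kernel.measurable_kernel_prodMk_left (κ := P.κ s) (bud_bm_pair_a0_mset P h k l k' l' θ)).ennreal_toReal

theorem bud_bm_pair_a1_ind (P : L8P Ω m) (h : P.Ok) (s k l k' l' : ℕ) (θ : ℝ) (ω : Ω) :
    mbxBad P s k l k' l' θ ω = ∫ ω', {ω' : Ω | θ * P.nXX k' l' ω' < mbxDot P k l k' l' ω ω' ^ 2}.indicator (fun _ => (1:ℝ)) ω' ∂(P.κ s ω) := by
  rw [integral_indicator (bud_bm_pair_a0_mset' P h k l k' l' θ ω)]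
  simp [mbxBad, Measure.real]

/-- **probability of the exceptional event**: Markov at the order `2R` for the NORMALISED anchor `Δ^𝖻/|Δ^𝖻|` (`bud_bm_fork_incr'`) -/
theorem bud_bm_pair_a1 (P : L8P Ω m) (h : P.Ok) {R : ℕ} {c vmin hmin : ℝ} (hc : 0 ≤ c) (hp : P.Proj R c vmin hmin) {s p k l k' l' : ℕ} (hsp : s ≤ p) (hpk : p < k)
    (hkl : k ≤ l) (hk : k ≤ P.n + 1) (hv : vmin ≤ P.v p) (hh : hmin ≤ P.hlen p k) {θ : ℝ} (hθ : 0 < θ) (hden : 0 < mbxDen P p k) :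
    ∫ ω, mbxBad P s k l k' l' θ ω ∂P.μ ≤ c / (θ * mbxDen P p k) ^ R := by
  have := h.prob
  have hmk := h.markov s
  have hm : 0 < m := by
    rcases Nat.eq_zero_or_pos m with h0 | h0
    · exfalso
      have h1 : (m : ℝ) = 0 := by exact_mod_cast h0
      unfold mbxDen at hden
      rw [h1] at hden
      simp at hden
    · exact h0
  have hB : ∀ i, L8Bd (L8P.l6pHat (P.XX k' l') i) := fun i => L8P.l6pHat_bd (fun i => (P.l8sb_XX_bd h k' l' i).1) i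
  have hB1 : ∀ ω, ∑ i, L8P.l6pHat (P.XX k' l') i ω ^ 2 ≤ 1 := L8P.l6pHat_sq_le _
  have hU := P.l6p_pair_a_U h hm hp hsp hpk hkl hk hv hh hden hB hB1
  have bF := L8P.l6p_pair_a_G (fun i => P.l8sb_XX_bd h k l i) hB (2 * R)
  have hpt : ∀ ω, mbxBad P s k l k' l' θ ω ≤ (∫ ω', (∑ i, P.XX k l i ω * L8P.l6pHat (P.XX k' l') i ω') ^ (2 * R) ∂(P.κ s ω)) / θ ^ R := by
    intro ω
    rw [bud_bm_pair_a1_ind P h, ← integral_div]
    have hFi : Integrable (fun ω' => (∑ i, P.XX k l i ω * L8P.l6pHat (P.XX k' l') i ω') ^ (2 * R)) (P.κ s ω) :=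
      ((L8Bd.sum _ fun i _ => (hB i).const_mul (P.XX k l i ω)).pow (2 * R)).integrable _
    refine integral_mono ((integrable_const (1:ℝ)).indicator (bud_bm_pair_a0_mset' P h k l k' l' θ ω)) (hFi.div_const _) fun ω' => ?_
    by_cases hb : θ * P.nXX k' l' ω' < mbxDot P k l k' l' ω ω' ^ 2
    · rw [Set.indicator_of_mem (show ω' ∈ {ω' : Ω | θ * P.nXX k' l' ω' < mbxDot P k l k' l' ω ω' ^ 2} from hb)]
      have e := L8P.l6pHat_mul (P.XX k' l') (fun i => P.XX k l i ω) ω'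
      have hb' : θ * P.nXX k' l' ω' < P.nXX k' l' ω' * (∑ i, P.XX k l i ω * L8P.l6pHat (P.XX k' l') i ω') ^ 2 := by
        have : mbxDot P k l k' l' ω ω' ^ 2 = P.nXX k' l' ω' * (∑ i, P.XX k l i ω * L8P.l6pHat (P.XX k' l') i ω') ^ 2 := e
        rwa [this] at hb
      have hn0 := bud_bm_sq_nonneg P k' l' ω'
      have hnpos : 0 < P.nXX k' l' ω' := by
        rcases hn0.eq_or_lt with h0 | h0
        · rw [← h0] at hb'; simp at hb'
        · exact h0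
      have hT : θ < (∑ i, P.XX k l i ω * L8P.l6pHat (P.XX k' l') i ω') ^ 2 := by
        rw [mul_comm θ] at hb'
        exact lt_of_mul_lt_mul_left hb' hn0
      rw [pow_mul, ← div_pow]
      exact one_le_pow₀ ((one_le_div hθ).2 hT.le)
    · rw [Set.indicator_of_notMem (show ω' ∉ {ω' : Ω | θ * P.nXX k' l' ω' < mbxDot P k l k' l' ω ω' ^ 2} from hb)]
      have : 0 ≤ (∑ i, P.XX k l i ω * L8P.l6pHat (P.XX k' l') i ω') ^ (2 * R) := (even_two_mul R).pow_nonneg _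
      positivity
  calc ∫ ω, mbxBad P s k l k' l' θ ω ∂P.μ
      ≤ ∫ ω, (∫ ω', (∑ i, P.XX k l i ω * L8P.l6pHat (P.XX k' l') i ω') ^ (2 * R) ∂(P.κ s ω)) / θ ^ R ∂P.μ :=
        integral_mono ((bud_bm_bad_bd P h s k l k' l' θ).1.integrable _) (((P.l6p_pair_a_ker h s bF).integrable P.μ).div_const _) hpt
    _ = (∫ ω, ∫ ω', (∑ i, P.XX k l i ω * L8P.l6pHat (P.XX k' l') i ω') ^ (2 * R) ∂(P.κ s ω) ∂P.μ) / θ ^ R := integral_div _ _
    _ ≤ c * P.sc2 p k ^ R / θ ^ R := div_le_div_of_nonneg_right hU (by positivity)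
    _ = _ := by
        unfold L8P.sc2 mbxDen
        rw [mul_pow, div_pow, one_pow]
        field_simp

theorem bud_bm_mink2 {α : Type} [MeasurableSpace α] (μ : Measure α) [IsProbabilityMeasure μ] {f g : α → ℝ} (hf : L8Bd f) (hg : L8Bd g) {A B : ℝ} (hA : 0 ≤ A) (hB : 0 ≤ B)
    (q : ℕ) (hq : 1 ≤ q) (h1 : ∫ ω, |f ω| ^ q ∂μ ≤ A ^ q) (h2 : ∫ ω, |g ω| ^ q ∂μ ≤ B ^ q) : ∫ ω, |f ω + g ω| ^ q ∂μ ≤ (A + B) ^ q := by
  have := bud_bm_mink μ (Finset.univ : Finset Bool) (fun b => if b then f else g) (fun b => if b then A else B) q hq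
    (fun b _ => by cases b <;> simpa) (fun b _ => by cases b <;> simpa) (fun b _ => by cases b <;> simpa)
  simpa using this

theorem bud_bm_pair_a_empty (P : L8P Ω m) (s k k' l' : ℕ) {θ : ℝ} (hθ : 0 ≤ θ) (ω : Ω) : mbxBad P s k k k' l' θ ω = 0 := by
  have : {ω' : Ω | θ * P.nXX k' l' ω' < mbxDot P k k k' l' ω ω' ^ 2} = ∅ := by
    ext ω'
    simp only [Set.mem_ofPred_eq, Set.mem_empty_iff_false, iff_false, not_lt]
    have : mbxDot P k k k' l' ω ω' = 0 := by simp [mbxDot, L8P.XX]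
    rw [this]
    have := mul_nonneg hθ (bud_bm_sq_nonneg P k' l' ω')
    simpa using this
  simp [mbxBad, this]

/-- **later block on the kept branch `𝖺`**, integrated over a window: truncation + dual Doob.
`[ka s, la s)` = the projected block of `𝖺`, `[kb s, lb s)` = the anchor block of `𝖻`, `G` = the integrated anchor. -/
theorem bud_bm_pair_a (P : L8P Ω m) (h : P.Ok) {r R : ℕ} (hr : 1 ≤ r) {c vmin hmin : ℝ} (hc : 0 ≤ c) (hp : P.Proj R c vmin hmin)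
    (J : Finset ℕ) (w : ℕ → ℝ) (hw : ∀ s ∈ J, 0 ≤ w s) (ka la kb lb : ℕ → ℕ) {θ ε G : ℝ} (hθ : 0 < θ) (hε : 0 ≤ ε) (hG0 : 0 ≤ G)
    (hgeo : ∀ s ∈ J, ka s < la s → ka s ≤ P.n + 1 ∧ ∃ p, s ≤ p ∧ p < ka s ∧ vmin ≤ P.v p ∧ hmin ≤ P.hlen p (ka s) ∧ 0 < mbxDen P p (ka s) ∧
      c ≤ ε ^ r * (θ * mbxDen P p (ka s)) ^ R)
    (hla : ∀ s ∈ J, ka s ≤ la s)
    (hG : ∫ ω, (∑ s ∈ J, w s * P.nXX (kb s) (lb s) ω) ^ r ∂P.μ ≤ G ^ r) :
    ∫ ω, (∑ s ∈ J, w s * mbxPair P s (ka s) (la s) (kb s) (lb s) ω) ^ r ∂P.μ ≤ (θ * r * G + 16 * (∑ s ∈ J, w s) * ε) ^ r := by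
  classical
  have := h.prob
  -- dual Doob
  obtain ⟨N, hN⟩ : ∃ N, J ⊆ range N := ⟨J.sup id + 1, fun j hj => mem_range.2 (Nat.lt_succ_of_le (le_sup (f := id) hj))⟩
  have hsumJ : ∀ f : ℕ → ℝ, ∑ k ∈ range N, (if k ∈ J then w k else 0) * f k = ∑ k ∈ J, w k * f k := by
    intro f
    rw [← sum_subset hN (f := fun k => (if k ∈ J then w k else 0) * f k) (fun k _ hk => by simp [hk])]
    exact sum_congr rfl fun k hk => by simp [hk]
  have hdd := P.l8s_dual_doob h r hr N (fun k => if k ∈ J then w k else 0) (fun k => by split_ifs with hk; exacts [hw k hk, le_rfl])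
    (fun k => P.nXX (kb k) (lb k)) (fun k => bud_bm_sq_bd P h _ _) (fun k ω => bud_bm_sq_nonneg P _ _ ω)
  simp only [hsumJ] at hdd
  have hA0 : ∀ ω, 0 ≤ ∑ s ∈ J, w s * P.E s (P.nXX (kb s) (lb s)) ω := fun ω =>
    sum_nonneg fun s hs => mul_nonneg (hw s hs) (P.l8s_E_nonneg s (fun ω' => bud_bm_sq_nonneg P _ _ ω') ω)
  have hAbd : L8Bd (fun ω => θ * ∑ s ∈ J, w s * P.E s (P.nXX (kb s) (lb s)) ω) :=
    (L8Bd.sum _ fun s _ => (P.l8s_E_bd h s (bud_bm_sq_bd P h _ _)).const_mul _).const_mul _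
  have h1 : ∫ ω, |θ * ∑ s ∈ J, w s * P.E s (P.nXX (kb s) (lb s)) ω| ^ r ∂P.μ ≤ (θ * r * G) ^ r := by
    have e : ∀ ω, |θ * ∑ s ∈ J, w s * P.E s (P.nXX (kb s) (lb s)) ω| ^ r = θ ^ r * (∑ s ∈ J, w s * P.E s (P.nXX (kb s) (lb s)) ω) ^ r := fun ω => by
      rw [abs_of_nonneg (mul_nonneg hθ.le (hA0 ω)), mul_pow]
    simp only [e]
    rw [integral_const_mul, mul_pow, mul_pow, mul_assoc]
    exact mul_le_mul_of_nonneg_left (hdd.trans (mul_le_mul_of_nonneg_left hG (by positivity))) (by positivity)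
  -- the bad events
  have hbad : ∀ s ∈ J, ∫ ω, mbxBad P s (ka s) (la s) (kb s) (lb s) θ ω ∂P.μ ≤ ε ^ r := by
    intro s hs
    rcases (hla s hs).eq_or_lt with he | hlt
    · rw [← he]
      simp only [bud_bm_pair_a_empty P s (ka s) (kb s) (lb s) hθ.le, integral_zero]
      positivity
    · obtain ⟨hk, p, hsp, hpk, hv, hh, hden, hcε⟩ := hgeo s hs hlt
      refine (bud_bm_pair_a1 P h hc hp hsp hpk hlt.le hk hv hh hθ hden).trans ?_
      rw [div_le_iff₀ (by positivity)]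
      exact hcε
  have h2' : ∫ ω, |∑ s ∈ J, w s * mbxBad P s (ka s) (la s) (kb s) (lb s) θ ω| ^ r ∂P.μ ≤ (∑ s ∈ J, w s * ε) ^ r := by
    refine bud_bm_mink P.μ J (fun s ω => w s * mbxBad P s (ka s) (la s) (kb s) (lb s) θ ω) (fun s => w s * ε) r hr
      (fun s _ => (bud_bm_bad_bd P h s _ _ _ _ θ).1.const_mul _) (fun s hs => mul_nonneg (hw s hs) hε) (fun s hs => ?_)
    have hb := bud_bm_bad_bd P h s (ka s) (la s) (kb s) (lb s) θ
    have e : ∀ ω, |w s * mbxBad P s (ka s) (la s) (kb s) (lb s) θ ω| ^ r = w s ^ r * mbxBad P s (ka s) (la s) (kb s) (lb s) θ ω ^ r := fun ω => by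
      rw [abs_of_nonneg (mul_nonneg (hw s hs) (hb.2 ω).1), mul_pow]
    simp only [e]
    rw [integral_const_mul, mul_pow]
    refine mul_le_mul_of_nonneg_left (le_trans ?_ (hbad s hs)) (pow_nonneg (hw s hs) r)
    refine integral_mono ((hb.1.pow r).integrable _) (hb.1.integrable _) fun ω => ?_
    exact pow_le_of_le_one (hb.2 ω).1 (hb.2 ω).2 (by omega)
  have hBbd : L8Bd (fun ω => 16 * ∑ s ∈ J, w s * mbxBad P s (ka s) (la s) (kb s) (lb s) θ ω) :=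
    (L8Bd.sum _ fun s _ => (bud_bm_bad_bd P h s _ _ _ _ θ).1.const_mul _).const_mul _
  have hW0 : 0 ≤ ∑ s ∈ J, w s := sum_nonneg hw
  have h2 : ∫ ω, |16 * ∑ s ∈ J, w s * mbxBad P s (ka s) (la s) (kb s) (lb s) θ ω| ^ r ∂P.μ ≤ (16 * (∑ s ∈ J, w s) * ε) ^ r := by
    have e : ∀ ω, |16 * ∑ s ∈ J, w s * mbxBad P s (ka s) (la s) (kb s) (lb s) θ ω| ^ r
        = 16 ^ r * |∑ s ∈ J, w s * mbxBad P s (ka s) (la s) (kb s) (lb s) θ ω| ^ r := fun ω => by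
      rw [abs_mul, mul_pow]; norm_num
    simp only [e]
    rw [integral_const_mul, mul_assoc, mul_pow, sum_mul]
    exact mul_le_mul_of_nonneg_left h2' (by positivity)
  have h3 := bud_bm_mink2 P.μ hAbd hBbd (by positivity) (by positivity) r hr h1 h2
  refine le_trans (integral_mono (((L8Bd.sum _ fun s _ => (bud_bm_pair_bd P h s _ _ _ _).const_mul _).pow r).integrable _)
    (((hAbd.add hBbd).abs.pow r).integrable _) fun ω => ?_) h3
  have hF0 : 0 ≤ ∑ s ∈ J, w s * mbxPair P s (ka s) (la s) (kb s) (lb s) ω :=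
    sum_nonneg fun s hs => mul_nonneg (hw s hs) (bud_bm_pair_nonneg P s _ _ _ _ ω)
  refine pow_le_pow_left₀ hF0 (le_trans ?_ (le_abs_self _)) r
  rw [mul_sum, mul_sum, ← sum_add_distrib]
  refine sum_le_sum fun s hs => ?_
  have := mul_le_mul_of_nonneg_left (bud_bm_pair_a0 P h s (ka s) (la s) (kb s) (lb s) hθ.le ω) (hw s hs)
  calc _ ≤ _ := this
    _ = _ := by ring

/-- two first increments: bound one of them by `4` -/
theorem bud_bm_pair_00 (P : L8P Ω m) (h : P.Ok) (s k l k' l' : ℕ) (ω : Ω) : mbxPair P s k l k' l' ω ≤ 4 * P.nXX k l ω :=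
  P.l6p_pair_00 h s (P.XX k l) (P.XX k' l') (fun i => (P.l8sb_XX_bd h k' l' i).1) (fun ω' => P.l6p_nXX_le h k' l' ω') ω

/-- monotone comparison of moments: `0 ≤ g ≤ c F`, `‖F‖_r ≤ G` -/
theorem bud_bm_wl_scale (μ : Measure Ω) [IsProbabilityMeasure μ] {g F : Ω → ℝ} (hg : L8Bd g) (hF : L8Bd F) (hg0 : ∀ ω, 0 ≤ g ω)
    {c G : ℝ} (hc : 0 ≤ c) (hgF : ∀ ω, g ω ≤ c * F ω) (r : ℕ) (hFG : ∫ ω, F ω ^ r ∂μ ≤ G ^ r) :
    ∫ ω, g ω ^ r ∂μ ≤ (c * G) ^ r := by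
  calc ∫ ω, g ω ^ r ∂μ ≤ ∫ ω, c ^ r * F ω ^ r ∂μ := by
        refine integral_mono ((hg.pow r).integrable _) (((hF.pow r).const_mul _).integrable _) fun ω => ?_
        have := pow_le_pow_left₀ (hg0 ω) (hgF ω) r
        rwa [mul_pow] at this
    _ = c ^ r * ∫ ω, F ω ^ r ∂μ := integral_const_mul _ _
    _ ≤ c ^ r * G ^ r := mul_le_mul_of_nonneg_left hFG (pow_nonneg hc r)
    _ = (c * G) ^ r := (mul_pow _ _ _).symm

/-- an empty block on the kept branch -/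
theorem bud_bm_wl_pair_emptyA (P : L8P Ω m) (s k k' l' : ℕ) (ω : Ω) : mbxPair P s k k k' l' ω = 0 := by
  simp [mbxPair, L8P.FK, L8P.XX]

/-- an empty block on the averaged branch -/
theorem bud_bm_wl_pair_emptyB (P : L8P Ω m) (s k l k' : ℕ) (ω : Ω) : mbxPair P s k l k' k' ω = 0 := by
  simp [mbxPair, L8P.FK, L8P.XX]

/-- one pair of blocks of **WL** -/
theorem bud_bm_wl_pair (P : L8P Ω m) (h : P.Ok) {r R : ℕ} (hr : 1 ≤ r) {c1 cR vmin hmin : ℝ} (hc1 : 0 ≤ c1) (hcR : 0 ≤ cR)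
    (hp1 : P.Proj 1 c1 vmin hmin) (hpR : P.Proj R cR vmin hmin)
    (J : Finset ℕ) (w : ℕ → ℝ) (hw : ∀ s ∈ J, 0 ≤ w s) (K : ℕ) (t : ℕ → ℕ → ℕ)
    (ht : ∀ s ∈ J, Monotone fun j => t j s) (htK : ∀ s ∈ J, t K s = P.n + 1)
    (sg G : ℕ → ℝ) {th eps : ℝ} (hsg0 : ∀ j, 0 ≤ sg j) (hG0 : ∀ j, 0 ≤ G j) (hth : 1 ≤ th) (heps0 : 0 ≤ eps)
    (hsg : ∀ s ∈ J, ∀ j, 1 ≤ j → j < K → t j s < t (j + 1) s →
      ∃ p, s ≤ p ∧ p < t j s ∧ vmin ≤ P.v p ∧ hmin ≤ P.hlen p (t j s) ∧ 1 ≤ sg j * mbxDen P p (t j s))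
    (hG : ∀ i < K, ∫ ω, (∑ s ∈ J, w s * P.nXX (t i s) (t (i + 1) s) ω) ^ r ∂P.μ ≤ G i ^ r)
    (heps : cR ≤ eps ^ r * th ^ R) {i j : ℕ} (hi : i < K) (hj : j < K) :
    ∫ ω, (∑ s ∈ J, w s * mbxPair P s (t i s) (t (i + 1) s) (t j s) (t (j + 1) s) ω) ^ r ∂P.μ ≤
      (if i = 0 ∧ j = 0 then 4 * G 0 else
        (c1 + th * r) * sg (max i j) * G (min i j) + 16 * (∑ s ∈ J, w s) * eps) ^ r := by
  have := h.prob
  have hW0 : 0 ≤ ∑ s ∈ J, w s := Finset.sum_nonneg hw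
  have bg : L8Bd (fun ω => ∑ s ∈ J, w s * mbxPair P s (t i s) (t (i + 1) s) (t j s) (t (j + 1) s) ω) :=
    L8Bd.sum _ fun s _ => (bud_bm_pair_bd P h _ _ _ _ _).const_mul _
  have bF : ∀ i, L8Bd (fun ω => ∑ s ∈ J, w s * P.nXX (t i s) (t (i + 1) s) ω) := fun i =>
    L8Bd.sum _ fun s _ => (bud_bm_sq_bd P h _ _).const_mul _
  have g0 : ∀ ω, 0 ≤ ∑ s ∈ J, w s * mbxPair P s (t i s) (t (i + 1) s) (t j s) (t (j + 1) s) ω := fun ω =>
    Finset.sum_nonneg fun s hs => mul_nonneg (hw s hs) (bud_bm_pair_nonneg P _ _ _ _ _ ω)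
  have hr0 : (0 : ℝ) ≤ r := Nat.cast_nonneg r
  have hth0 : 0 ≤ th := zero_le_one.trans hth
  by_cases h00 : i = 0 ∧ j = 0
  · rw [if_pos h00]
    obtain ⟨rfl, rfl⟩ := h00
    refine bud_bm_wl_scale P.μ bg (bF 0) g0 (by norm_num) (fun ω => ?_) r (hG 0 hi)
    rw [Finset.mul_sum]
    refine Finset.sum_le_sum fun s hs => ?_
    have := mul_le_mul_of_nonneg_left (bud_bm_pair_00 P h s (t 0 s) (t (0 + 1) s) (t 0 s) (t (0 + 1) s) ω) (hw s hs)
    linarith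
  rw [if_neg h00]
  rcases le_or_gt i j with hij | hij
  · -- the later block is on the averaged branch
    have hj1 : 1 ≤ j := by
      rcases Nat.eq_zero_or_pos j with h0 | h0
      · exact absurd ⟨by omega, h0⟩ h00
      · exact h0
    rw [max_eq_right hij, min_eq_left hij]
    have h1 : ∫ ω, (∑ s ∈ J, w s * mbxPair P s (t i s) (t (i + 1) s) (t j s) (t (j + 1) s) ω) ^ r ∂P.μ
        ≤ (c1 * sg j * G i) ^ r := by
      refine bud_bm_wl_scale P.μ bg (bF i) g0 (mul_nonneg hc1 (hsg0 j)) (fun ω => ?_) r (hG i hi)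
      rw [Finset.mul_sum]
      refine Finset.sum_le_sum fun s hs => ?_
      have hn := bud_bm_sq_nonneg P (t i s) (t (i + 1) s) ω
      have key : mbxPair P s (t i s) (t (i + 1) s) (t j s) (t (j + 1) s) ω ≤ c1 * sg j * P.nXX (t i s) (t (i + 1) s) ω := by
        rcases (ht s hs (Nat.le_succ j)).lt_or_eq with hlt | heq
        · obtain ⟨p, hsp, hpk, hv, hh, hden⟩ := hsg s hs j hj1 hj hlt
          have hk : t j s ≤ P.n + 1 := by
            rw [← htK s hs]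
            exact ht s hs hj.le
          have h2 := bud_bm_pair_b P h hp1 (k := t i s) (l := t (i + 1) s) hsp hpk hlt.le hk hv hh ω
          have hD : 0 < mbxDen P p (t j s) := by
            rcases lt_or_ge 0 (mbxDen P p (t j s)) with hpos | hneg
            · exact hpos
            · have := mul_nonpos_of_nonneg_of_nonpos (hsg0 j) hneg
              linarith
          refine h2.trans ?_
          rw [div_le_iff₀ hD]
          have h3 : 0 ≤ c1 * P.nXX (t i s) (t (i + 1) s) ω := mul_nonneg hc1 hn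
          nlinarith
        · have e : t (j + 1) s = t j s := heq.symm
          rw [e, bud_bm_wl_pair_emptyB]
          exact mul_nonneg (mul_nonneg hc1 (hsg0 j)) hn
      have := mul_le_mul_of_nonneg_left key (hw s hs)
      linarith
    refine h1.trans (pow_le_pow_left₀ (mul_nonneg (mul_nonneg hc1 (hsg0 j)) (hG0 i)) ?_ r)
    have h2 : 0 ≤ th * r * sg j * G i := mul_nonneg (mul_nonneg (mul_nonneg hth0 hr0) (hsg0 j)) (hG0 i)
    have h3 : 0 ≤ 16 * (∑ s ∈ J, w s) * eps := mul_nonneg (mul_nonneg (by norm_num) hW0) heps0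
    nlinarith
  · -- the later block is on the kept branch
    have hi1 : 1 ≤ i := by omega
    rw [max_eq_left hij.le, min_eq_right hij.le]
    have hrhs : 0 ≤ (c1 + th * r) * sg i * G j + 16 * (∑ s ∈ J, w s) * eps :=
      add_nonneg (mul_nonneg (mul_nonneg (add_nonneg hc1 (mul_nonneg hth0 hr0)) (hsg0 i)) (hG0 j))
        (mul_nonneg (mul_nonneg (by norm_num) hW0) heps0)
    rcases (hsg0 i).eq_or_lt with hs0 | hspos
    · -- `sg i = 0`: all the blocks `i` are empty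
      have hz : ∀ ω, ∑ s ∈ J, w s * mbxPair P s (t i s) (t (i + 1) s) (t j s) (t (j + 1) s) ω = 0 := by
        intro ω
        refine Finset.sum_eq_zero fun s hs => ?_
        rcases (ht s hs (Nat.le_succ i)).lt_or_eq with hlt | heq
        · obtain ⟨p, _, _, _, _, hden⟩ := hsg s hs i hi1 hi hlt
          rw [← hs0, zero_mul] at hden
          exact absurd hden (by norm_num)
        · have e : t (i + 1) s = t i s := heq.symm
          rw [e, bud_bm_wl_pair_emptyA, mul_zero]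
      simp only [hz]
      rw [zero_pow (by omega)]
      simpa using pow_nonneg hrhs r
    · have hθ : 0 < th * sg i := mul_pos (zero_lt_one.trans_le hth) hspos
      have h1 := bud_bm_pair_a P h hr hcR hpR J w hw (fun s => t i s) (fun s => t (i + 1) s) (fun s => t j s)
        (fun s => t (j + 1) s) (θ := th * sg i) (ε := eps) (G := G j) hθ heps0 (hG0 j) ?_
        (fun s hs => ht s hs (Nat.le_succ i)) (hG j hj)
      · refine h1.trans (pow_le_pow_left₀ ?_ ?_ r)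
        · exact add_nonneg (mul_nonneg (mul_nonneg hθ.le hr0) (hG0 j)) (mul_nonneg (mul_nonneg (by norm_num) hW0) heps0)
        · have h2 : 0 ≤ c1 * sg i * G j := mul_nonneg (mul_nonneg hc1 (hsg0 i)) (hG0 j)
          nlinarith
      · intro s hs hlt
        obtain ⟨p, hsp, hpk, hv, hh, hden⟩ := hsg s hs i hi1 hi hlt
        have hk : t i s ≤ P.n + 1 := by
          rw [← htK s hs]
          exact ht s hs hi.le
        have hD : 0 < mbxDen P p (t i s) := by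
          rcases lt_or_ge 0 (mbxDen P p (t i s)) with hpos | hneg
          · exact hpos
          · have := mul_nonpos_of_nonneg_of_nonpos (hsg0 i) hneg
            linarith
        refine ⟨hk, p, hsp, hpk, hv, hh, hD, heps.trans ?_⟩
        refine mul_le_mul_of_nonneg_left (pow_le_pow_left₀ hth0 ?_ R) (pow_nonneg heps0 r)
        calc th = th * 1 := (mul_one _).symm
          _ ≤ th * (sg i * mbxDen P p (t i s)) := mul_le_mul_of_nonneg_left hden hth0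
          _ = th * sg i * mbxDen P p (t i s) := by ring

/-- **WL : THE WEIGHTED-LAYER LEMMA.**   TEX[LL:global:residual-blocks] TEX[LL:bud:outer-moments] TEX[LL:bud:box-moments]
Window `J` with weights `w`; for `s ∈ J` the future of `s` is cut into the `K` blocks `[t j s, t (j+1) s)`, `t 0 s = s`, `t K s = n + 1`.
`mu j` dominates the masses of the block `j`; a NONEMPTY block `j ≥ 1` has a projection interval `[p, t j s)`, `s ≤ p`, with `1/(v_p² m Δh) ≤ sg j`;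
`G i` = `L^r` norm of the integrated squared increments of the block `i`;  `th ≥ 1` = loss of the truncation, `eps` = its tail: `cR ≤ eps^r th^R`. -/
theorem bud_bm_wl (P : L8P Ω m) (h : P.Ok) {r R : ℕ} (hr : 1 ≤ r) {c1 cR vmin hmin : ℝ} (hc1 : 0 ≤ c1) (hcR : 0 ≤ cR)
    (hp1 : P.Proj 1 c1 vmin hmin) (hpR : P.Proj R cR vmin hmin)
    (J : Finset ℕ) (w : ℕ → ℝ) (hw : ∀ s ∈ J, 0 ≤ w s) (K : ℕ) (t : ℕ → ℕ → ℕ)
    (ht : ∀ s ∈ J, Monotone fun j => t j s) (ht0 : ∀ s ∈ J, t 0 s = s) (htK : ∀ s ∈ J, t K s = P.n + 1)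
    (mu sg G : ℕ → ℝ) {th eps : ℝ} (hmu0 : ∀ j, 0 ≤ mu j) (hsg0 : ∀ j, 0 ≤ sg j) (hG0 : ∀ j, 0 ≤ G j) (hth : 1 ≤ th) (heps0 : 0 ≤ eps)
    (hmu : ∀ s ∈ J, ∀ j < K, t j s < t (j + 1) s → P.v (t (j + 1) s - 1) ≤ mu j)
    (hsg : ∀ s ∈ J, ∀ j, 1 ≤ j → j < K → t j s < t (j + 1) s →
      ∃ p, s ≤ p ∧ p < t j s ∧ vmin ≤ P.v p ∧ hmin ≤ P.hlen p (t j s) ∧ 1 ≤ sg j * mbxDen P p (t j s))
    (hG : ∀ i < K, ∫ ω, (∑ s ∈ J, w s * P.nXX (t i s) (t (i + 1) s) ω) ^ r ∂P.μ ≤ G i ^ r)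
    (heps : cR ≤ eps ^ r * th ^ R) :
    ∫ ω, (∑ s ∈ J, w s * P.W s ω) ^ r ∂P.μ ≤
      (K * ∑ i ∈ range K, ∑ j ∈ range K, mu j * (if i = 0 ∧ j = 0 then 4 * G 0 else
        (c1 + th * r) * sg (max i j) * G (min i j) + 16 * (∑ s ∈ J, w s) * eps)) ^ r := by
  have := h.prob
  have hK0 : (0 : ℝ) ≤ K := Nat.cast_nonneg K
  have hW0 : 0 ≤ ∑ s ∈ J, w s := Finset.sum_nonneg hw
  have hr0 : (0 : ℝ) ≤ r := Nat.cast_nonneg r
  have hth0 : 0 ≤ th := zero_le_one.trans hth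
  obtain ⟨g, hg⟩ : ∃ g : ℕ × ℕ → Ω → ℝ, g = fun x ω =>
      ∑ s ∈ J, w s * mbxPair P s (t x.1 s) (t (x.1 + 1) s) (t x.2 s) (t (x.2 + 1) s) ω := ⟨_, rfl⟩
  obtain ⟨b, hb⟩ : ∃ b : ℕ × ℕ → ℝ, b = fun x => if x.1 = 0 ∧ x.2 = 0 then 4 * G 0 else
      (c1 + th * r) * sg (max x.1 x.2) * G (min x.1 x.2) + 16 * (∑ s ∈ J, w s) * eps := ⟨_, rfl⟩
  have bg : ∀ x, L8Bd (g x) := fun x => by
    rw [hg]
    exact L8Bd.sum _ fun s _ => (bud_bm_pair_bd P h _ _ _ _ _).const_mul _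
  have g0 : ∀ x ω, 0 ≤ g x ω := fun x ω => by
    rw [hg]
    exact Finset.sum_nonneg fun s hs => mul_nonneg (hw s hs) (bud_bm_pair_nonneg P _ _ _ _ _ ω)
  have b0 : ∀ x, 0 ≤ b x := fun x => by
    rw [hb]
    dsimp only
    split_ifs
    · exact mul_nonneg (by norm_num) (hG0 0)
    · exact add_nonneg (mul_nonneg (mul_nonneg (add_nonneg hc1 (mul_nonneg hth0 hr0)) (hsg0 _)) (hG0 _))
        (mul_nonneg (mul_nonneg (by norm_num) hW0) heps0)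
  have hgb : ∀ x ∈ range K ×ˢ range K, ∫ ω, g x ω ^ r ∂P.μ ≤ b x ^ r := by
    intro x hx
    rw [Finset.mem_product, Finset.mem_range, Finset.mem_range] at hx
    rw [hg, hb]
    exact bud_bm_wl_pair P h hr hc1 hcR hp1 hpR J w hw K t ht htK sg G hsg0 hG0 hth heps0 hsg hG heps hx.1 hx.2
  -- the pointwise block decomposition
  have hpt : ∀ ω, ∑ s ∈ J, w s * P.W s ω ≤ ∑ x ∈ range K ×ˢ range K, K * mu x.2 * g x ω := by
    intro ω
    have h1 : ∀ s ∈ J, w s * P.W s ω ≤ w s * (K * ∑ i ∈ range K, ∑ j ∈ range K,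
        mu j * mbxPair P s (t i s) (t (i + 1) s) (t j s) (t (j + 1) s) ω) := by
      intro s hs
      refine mul_le_mul_of_nonneg_left ?_ (hw s hs)
      have h2 := bud_bm_blocks P h K (fun j => t j s) (ht s hs) (htK s hs) ω
      simp only [ht0 s hs] at h2
      refine h2.trans (mul_le_mul_of_nonneg_left (Finset.sum_le_sum fun i _ => Finset.sum_le_sum fun j hj => ?_) hK0)
      rcases (ht s hs (Nat.le_succ j)).lt_or_eq with hlt | heq
      · exact mul_le_mul_of_nonneg_right (hmu s hs j (Finset.mem_range.1 hj) hlt) (bud_bm_pair_nonneg P _ _ _ _ _ ω)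
      · have e : t (j + 1) s = t j s := heq.symm
        rw [e, bud_bm_wl_pair_emptyB, mul_zero, mul_zero]
    refine (Finset.sum_le_sum h1).trans (le_of_eq ?_)
    rw [Finset.sum_product, hg]
    simp only [Finset.mul_sum]
    rw [Finset.sum_comm]
    refine Finset.sum_congr rfl fun i _ => ?_
    rw [Finset.sum_comm]
    exact Finset.sum_congr rfl fun j _ => Finset.sum_congr rfl fun s _ => by ring
  have hm := bud_bm_mink P.μ (range K ×ˢ range K) (fun x ω => K * mu x.2 * g x ω) (fun x => K * mu x.2 * b x) r hr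
    (fun x _ => (bg x).const_mul _) (fun x _ => mul_nonneg (mul_nonneg hK0 (hmu0 _)) (b0 x))
    (fun x hx => bud_bm_wl_scale P.μ ((bg x).const_mul _).abs (bg x) (fun ω => abs_nonneg _) (mul_nonneg hK0 (hmu0 _))
      (fun ω => by rw [abs_of_nonneg (mul_nonneg (mul_nonneg hK0 (hmu0 _)) (g0 x ω))]) r (hgb x hx))
  have e : ∑ x ∈ range K ×ˢ range K, K * mu x.2 * b x = K * ∑ i ∈ range K, ∑ j ∈ range K, mu j * (if i = 0 ∧ j = 0 then 4 * G 0 else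
        (c1 + th * r) * sg (max i j) * G (min i j) + 16 * (∑ s ∈ J, w s) * eps) := by
    rw [Finset.sum_product, hb]
    simp only [Finset.mul_sum]
    exact Finset.sum_congr rfl fun i _ => Finset.sum_congr rfl fun j _ => by ring
  rw [← e]
  refine le_trans ?_ hm
  refine integral_mono (((L8Bd.sum J fun s _ => (P.l8s_W_bd h s).const_mul (w s)).pow r).integrable _)
    ((((L8Bd.sum (range K ×ˢ range K) fun x _ => (bg x).const_mul (K * mu x.2)).abs).pow r).integrable _) fun ω => ?_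
  exact pow_le_pow_left₀ (Finset.sum_nonneg fun s hs => mul_nonneg (hw s hs) (P.l8s_W_nonneg h s ω))
    ((hpt ω).trans (le_abs_self _)) r

/-! ## 4. WIN : window averages of `L`, two cuts with a common past -/

/-- **(A1) line 3 on a window**: weights `w` with `kap w ≤ dv` (floor of the density), `B` = `L^r` norm of `∑ w W` -/
theorem bud_bm_win (P : L8P Ω m) (h : P.Ok) {r : ℕ} (hr : 1 ≤ r) {c : ℝ} (hc : 0 ≤ c) (hpin : P.Pin r c) (J : Finset ℕ) (hJ : ∀ k ∈ J, k ≤ P.n)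
    (w : ℕ → ℝ) (hw : ∀ k ∈ J, 0 ≤ w k) {kap B : ℝ} (hkap : 0 < kap) (hfl : ∀ k ∈ J, kap * w k ≤ P.dv k)
    (hB : ∫ ω, (∑ k ∈ J, w k * P.W k ω) ^ r ∂P.μ ≤ B ^ r) :
    ∫ ω, ((∑ k ∈ J, w k * P.L k ω) - ∫ ω', (∑ k ∈ J, w k * P.L k ω') ∂P.μ) ^ (2 * r) ∂P.μ ≤ c * (B ^ r / kap ^ r) := by
  classical
  have := h.prob
  have hJs : J ⊆ range (P.n + 1) := fun k hk => mem_range.2 (Nat.lt_succ_of_le (hJ k hk))
  have hpin' := hpin (fun k => if k ∈ J then w k / P.dv k else 0) (fun _ => Polynomial.X)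
  simp only [Polynomial.eval_X, Polynomial.derivative_X, Polynomial.eval_one, one_pow, mul_one] at hpin'
  have hres : ∀ f : ℕ → ℝ, (∀ k, k ∉ J → f k = 0) → ∑ k ∈ range (P.n + 1), f k = ∑ k ∈ J, f k := fun f hf =>
    (sum_subset hJs fun k _ hk => hf k hk).symm
  have hdv0 : ∀ k ∈ J, 0 ≤ P.dv k := fun k hk => (mul_nonneg hkap.le (hw k hk)).trans (hfl k hk)
  have e1 : ∀ k ∈ J, P.dv k * (w k / P.dv k) = w k := by
    intro k hk
    rcases (hdv0 k hk).eq_or_lt with h0 | h0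
    · have h1 : kap * w k ≤ 0 := by rw [h0]; exact hfl k hk
      have h2 : w k = 0 := le_antisymm (by nlinarith) (hw k hk)
      rw [h2]; simp
    · field_simp
  have eL : ∀ ω, ∑ k ∈ range (P.n + 1), P.dv k * (if k ∈ J then w k / P.dv k else 0) * (P.L k ω - ∫ ω', P.L k ω' ∂P.μ)
      = (∑ k ∈ J, w k * P.L k ω) - ∫ ω', (∑ k ∈ J, w k * P.L k ω') ∂P.μ := by
    intro ω
    rw [hres _ (fun k hk => by simp [hk]), integral_finsetSum _ fun k _ => ((P.l8s_L_bd h k).const_mul _).integrable _, ← sum_sub_distrib]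
    refine sum_congr rfl fun k hk => ?_
    rw [if_pos hk, e1 k hk, integral_const_mul]
    ring
  have hW := P.l8s_W_nonneg h
  have eR : ∀ ω, ∑ k ∈ range (P.n + 1), P.dv k * (if k ∈ J then w k / P.dv k else 0) ^ 2 * P.W k ω ≤ (∑ k ∈ J, w k * P.W k ω) / kap := by
    intro ω
    rw [hres _ (fun k hk => by simp [hk]), sum_div]
    refine sum_le_sum fun k hk => ?_
    rw [if_pos hk, mul_div_right_comm]
    refine mul_le_mul_of_nonneg_right ?_ (hW k ω)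
    have e2 : P.dv k * (w k / P.dv k) ^ 2 = w k * (w k / P.dv k) := by
      rw [sq, ← mul_assoc, e1 k hk]
    rw [e2, div_eq_mul_inv (w k) kap]
    refine mul_le_mul_of_nonneg_left ?_ (hw k hk)
    rcases (hdv0 k hk).eq_or_lt with h0 | h0
    · rw [← h0]; simp; positivity
    · rw [div_le_iff₀ h0, ← div_eq_inv_mul, le_div_iff₀ hkap, mul_comm]
      exact hfl k hk
  have eR0 : ∀ ω, 0 ≤ ∑ k ∈ range (P.n + 1), P.dv k * (if k ∈ J then w k / P.dv k else 0) ^ 2 * P.W k ω := by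
    intro ω
    rw [hres _ (fun k hk => by simp [hk])]
    exact sum_nonneg fun k hk => mul_nonneg (mul_nonneg (hdv0 k hk) (sq_nonneg _)) (hW k ω)
  simp only [eL] at hpin'
  refine hpin'.trans (mul_le_mul_of_nonneg_left ?_ hc)
  have hbd : L8Bd (fun ω => ∑ k ∈ J, w k * P.W k ω) := L8Bd.sum _ fun k _ => (P.l8s_W_bd h k).const_mul _
  calc ∫ ω, (∑ k ∈ range (P.n + 1), P.dv k * (if k ∈ J then w k / P.dv k else 0) ^ 2 * P.W k ω) ^ r ∂P.μ
      ≤ ∫ ω, ((∑ k ∈ J, w k * P.W k ω) / kap) ^ r ∂P.μ :=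
        integral_mono_of_nonneg (Filter.Eventually.of_forall fun ω => pow_nonneg (eR0 ω) r) (((hbd.div_const kap).pow r).integrable _)
          (Filter.Eventually.of_forall fun ω => pow_le_pow_left₀ (eR0 ω) (eR ω) r)
    _ = (∫ ω, (∑ k ∈ J, w k * P.W k ω) ^ r ∂P.μ) / kap ^ r := by
        simp only [div_pow]
        rw [integral_div]
    _ ≤ _ := div_le_div_of_nonneg_right hB (by positivity)

/-- **Lemma 6.3, two cuts with a common past buffer** (from `l8s_buffer` twice and `bud_bm_sq_tri`).  TEX[LL:global:buffer-brackets] -/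
theorem bud_bm_two (P : L8P Ω m) (h : P.Ok) (r : ℕ) (hr : 1 ≤ r) (k k' : ℕ) (sm sp sp' : Finset ℕ) (ρm ρp ρp' : ℕ → ℝ) (Sbar η ε : ℝ)
    (hsm : ∀ l ∈ sm, l ≤ k ∧ l ≤ k') (hsp : ∀ l ∈ sp, k ≤ l) (hsp' : ∀ l ∈ sp', k' ≤ l)
    (hm0 : ∀ l, 0 ≤ ρm l) (hp0 : ∀ l, 0 ≤ ρp l) (hp0' : ∀ l, 0 ≤ ρp' l)
    (hm1 : ∑ l ∈ sm, ρm l = 1) (hp1 : ∑ l ∈ sp, ρp l = 1) (hp1' : ∑ l ∈ sp', ρp' l = 1) (hη : 0 ≤ η) (hε : 0 ≤ ε)
    (hSm : ∀ l ∈ sm, |P.S l - Sbar| ≤ η) (hSp : ∀ l ∈ sp, |P.S l - Sbar| ≤ η) (hSp' : ∀ l ∈ sp', |P.S l - Sbar| ≤ η)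
    (hAm : ∫ ω, ((∑ l ∈ sm, ρm l * P.L l ω) - ∫ ω', (∑ l ∈ sm, ρm l * P.L l ω') ∂P.μ) ^ (2 * r) ∂P.μ ≤ ε ^ (2 * r))
    (hAp : ∫ ω, ((∑ l ∈ sp, ρp l * P.L l ω) - ∫ ω', (∑ l ∈ sp, ρp l * P.L l ω') ∂P.μ) ^ (2 * r) ∂P.μ ≤ ε ^ (2 * r))
    (hAp' : ∫ ω, ((∑ l ∈ sp', ρp' l * P.L l ω) - ∫ ω', (∑ l ∈ sp', ρp' l * P.L l ω') ∂P.μ) ^ (2 * r) ∂P.μ ≤ ε ^ (2 * r)) :
    ∫ ω, P.nXX k k' ω ^ (2 * r) ∂P.μ ≤ (64 * (η + ε)) ^ (2 * r) := by
  have := h.prob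
  have hb1 := (P.l8s_buffer h r hr k sm sp ρm ρp Sbar η ε (fun l hl => (hsm l hl).1) hsp hm0 hp0 hm1 hp1 hη hε (fun l hl _ => hSm l hl)
    (fun l hl _ => hSp l hl) hAm hAp).2
  have hb2 := (P.l8s_buffer h r hr k' sm sp' ρm ρp' Sbar η ε (fun l hl => (hsm l hl).2) hsp' hm0 hp0' hm1 hp1' hη hε (fun l hl _ => hSm l hl)
    (fun l hl _ => hSp' l hl) hAm hAp').2
  have hbd : ∀ k, L8Bd (fun ω => 2 * ∑ l ∈ sm, ρm l * P.nXX l k ω) := fun k =>
    (L8Bd.sum _ fun l _ => (bud_bm_sq_bd P h l k).const_mul _).const_mul 2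
  have hcv : ∀ k, ∫ ω, (∑ l ∈ sm, ρm l * ∑ i, P.XX l k i ω ^ 2) ^ (2 * r) ∂P.μ ≤ (16 * (η + ε)) ^ (2 * r) →
      ∫ ω, |2 * ∑ l ∈ sm, ρm l * P.nXX l k ω| ^ (2 * r) ∂P.μ ≤ (32 * (η + ε)) ^ (2 * r) := by
    intro k hk
    have e : ∀ ω, |2 * ∑ l ∈ sm, ρm l * P.nXX l k ω| ^ (2 * r) = 2 ^ (2 * r) * (∑ l ∈ sm, ρm l * ∑ i, P.XX l k i ω ^ 2) ^ (2 * r) := fun ω => by
      rw [(even_two_mul r).pow_abs, mul_pow]; rfl
    simp only [e]
    rw [integral_const_mul, show (32 * (η + ε)) = 2 * (16 * (η + ε)) by ring, mul_pow]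
    exact mul_le_mul_of_nonneg_left hk (by positivity)
  have h3 := bud_bm_mink2 P.μ (hbd k) (hbd k') (A := 32 * (η + ε)) (B := 32 * (η + ε)) (by positivity) (by positivity) (2 * r) (by omega)
    (hcv k hb1) (hcv k' hb2)
  rw [show 32 * (η + ε) + 32 * (η + ε) = 64 * (η + ε) by ring] at h3
  refine le_trans (integral_mono (((bud_bm_sq_bd P h k k').pow _).integrable _) ((((hbd k).add (hbd k')).abs.pow _).integrable _) fun ω => ?_) h3
  refine pow_le_pow_left₀ (bud_bm_sq_nonneg P k k' ω) (le_trans ?_ (le_abs_self _)) _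
  calc P.nXX k k' ω = ∑ l ∈ sm, ρm l * P.nXX k k' ω := by rw [← sum_mul, hm1, one_mul]
    _ ≤ ∑ l ∈ sm, ρm l * (2 * P.nXX l k ω + 2 * P.nXX l k' ω) :=
        sum_le_sum fun l _ => mul_le_mul_of_nonneg_left (bud_bm_sq_tri P l k k' ω) (hm0 l)
    _ = _ := by
        rw [mul_sum, mul_sum, ← sum_add_distrib]
        exact sum_congr rfl fun l _ => by ring

/-! ## 5. SY : synchronised layers of a fork, polarisation -/

/-- Minkowski for two terms, moment form -/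
theorem bud_bm_sync_add (μ : Measure Ω) [IsProbabilityMeasure μ] {f g : Ω → ℝ} (hf : L8Bd f) (hg : L8Bd g) {A B : ℝ} (q : ℕ) (hq : 1 ≤ q)
    (hA : 0 ≤ A) (hB : 0 ≤ B) (h1 : ∫ ω, |f ω| ^ q ∂μ ≤ A ^ q) (h2 : ∫ ω, |g ω| ^ q ∂μ ≤ B ^ q) :
    ∫ ω, |f ω + g ω| ^ q ∂μ ≤ (A + B) ^ q := by
  have := bud_bm_mink μ (Finset.univ : Finset Bool) (fun b => if b then f else g) (fun b => if b then A else B) q hq
    (fun b _ => by cases b <;> simpa) (fun b _ => by cases b <;> simpa) (fun b _ => by cases b <;> simpa)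
  simpa [Fintype.sum_bool] using this

/-- **SY : synchronised layers** (PE (16); LL l.325-330, l.1530 of 07).   Fork at the cut `k`; chain `k < t 0 ≤ t 1 ≤ .. ≤ t K = n + 1`; the layer `[t i, t (i+1))` of EACH branch
is projected after the interval `[p i, t i)`, `k ≤ p i`, the anchor being the posterior mean of the OTHER branch; `Rw i ≥ ‖|X_{t i}|²‖_r`. -/
theorem bud_bm_sync (P : L8P Ω m) (h : P.Ok) {r : ℕ} (hr : 1 ≤ r) {c vmin hmin : ℝ} (hc : 0 ≤ c) (hp : P.Proj r c vmin hmin) (k K : ℕ) (t p : ℕ → ℕ)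
    (ht : Monotone t) (hK : t K = P.n + 1) (hpk : ∀ i < K, k ≤ p i ∧ p i < t i ∧ vmin ≤ P.v (p i) ∧ hmin ≤ P.hlen (p i) (t i) ∧ 0 < mbxDen P (p i) (t i))
    (Rw e : ℕ → ℝ) (he0 : ∀ i, 0 ≤ e i) (hRw : ∀ i ≤ K, ∫ ω, P.nX (t i) ω ^ r ∂P.μ ≤ Rw i ^ r)
    (he : ∀ i < K, c * Rw (i + 1) ^ r ≤ e i ^ (2 * r) * mbxDen P (p i) (t i) ^ r) :
    ∫ z, (P.Q z - P.QX (t 0) (t 0) z) ^ (2 * r) ∂(P.fork k) ≤ (2 * ∑ i ∈ range K, e i) ^ (2 * r) := by
  have := P.l8s_fork_prob h k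
  have hX : ∀ c i, L8Bd (P.X c i) := fun c i => P.l8s_X_bd h c i
  have hXX : ∀ c d i, L8Bd (P.XX c d i) := fun c d i => P.l8sb_XX_bd h c d i
  have htn : ∀ i ≤ K, t i ≤ P.n + 1 := fun i hi => hK ▸ ht hi
  have eabs : ∀ x : ℝ, |x| ^ (2 * r) = x ^ (2 * r) := fun x => by rw [pow_mul, pow_mul, sq_abs]
  have hA : ∀ i, @L8Bd (Ω × Ω) _ (fun z => ∑ j, P.X (t (i + 1)) j z.2 * P.XX (t i) (t (i + 1)) j z.1) := fun i =>
    L8Bd.sum _ fun j _ => (l8k_bd_comp measurable_snd (hX _ j)).mul (l8k_bd_comp measurable_fst (hXX _ _ j))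
  have hB : ∀ i, @L8Bd (Ω × Ω) _ (fun z => ∑ j, P.X (t i) j z.1 * P.XX (t i) (t (i + 1)) j z.2) := fun i =>
    L8Bd.sum _ fun j _ => (l8k_bd_comp measurable_fst (hX _ j)).mul (l8k_bd_comp measurable_snd (hXX _ _ j))
  have fin : ∀ i < K, ∀ I : ℝ, I ≤ Rw (i + 1) ^ r → c / mbxDen P (p i) (t i) ^ r * I ≤ e i ^ (2 * r) := by
    intro i hi I hI
    have hden : 0 < mbxDen P (p i) (t i) ^ r := pow_pos (hpk i hi).2.2.2.2 r
    calc c / mbxDen P (p i) (t i) ^ r * I ≤ c / mbxDen P (p i) (t i) ^ r * Rw (i + 1) ^ r :=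
          mul_le_mul_of_nonneg_left hI (div_nonneg hc hden.le)
      _ = c * Rw (i + 1) ^ r / mbxDen P (p i) (t i) ^ r := by ring
      _ ≤ e i ^ (2 * r) := by rw [div_le_iff₀ hden]; exact he i hi
  have bA : ∀ i < K, ∫ z, |∑ j, P.X (t (i + 1)) j z.2 * P.XX (t i) (t (i + 1)) j z.1| ^ (2 * r) ∂(P.fork k) ≤ e i ^ (2 * r) := by
    intro i hi
    obtain ⟨h1, h2, h3, h4, _⟩ := hpk i hi
    simp_rw [eabs]
    exact (bud_bm_fork_incr' P h hp h1 h2 (ht (Nat.le_succ i)) (htn i hi.le) h3 h4 (P.X (t (i + 1))) (hX _)).trans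
      (fin i hi _ (hRw (i + 1) hi))
  have bB : ∀ i < K, ∫ z, |∑ j, P.X (t i) j z.1 * P.XX (t i) (t (i + 1)) j z.2| ^ (2 * r) ∂(P.fork k) ≤ e i ^ (2 * r) := by
    intro i hi
    obtain ⟨h1, h2, h3, h4, _⟩ := hpk i hi
    simp_rw [eabs]
    exact (bud_bm_fork_incr P h hp h1 h2 (ht (Nat.le_succ i)) (htn i hi.le) h3 h4 (P.X (t i)) (hX _)).trans
      (fin i hi _ ((bud_bm_nX_mono P h (ht (Nat.le_succ i)) r).trans (hRw (i + 1) hi)))
  have dec : ∀ z, P.Q z - P.QX (t 0) (t 0) z = ∑ i ∈ range K,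
      ((∑ j, P.X (t (i + 1)) j z.2 * P.XX (t i) (t (i + 1)) j z.1) + ∑ j, P.X (t i) j z.1 * P.XX (t i) (t (i + 1)) j z.2) := by
    intro z
    have e1 : P.Q z = P.QX (t K) (t K) z := by
      rw [hK]
      unfold L8P.Q L8P.QX
      exact Finset.sum_congr rfl fun i _ => by
        rw [P.l8s_X_term h (Nat.lt_succ_self _), P.l8s_X_term h (Nat.lt_succ_self _)]
    rw [e1, ← Finset.sum_range_sub (fun i => P.QX (t i) (t i) z) K]
    refine Finset.sum_congr rfl fun i _ => ?_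
    unfold L8P.QX L8P.XX
    rw [← Finset.sum_sub_distrib, ← Finset.sum_add_distrib]
    exact Finset.sum_congr rfl fun j _ => by ring
  have key := bud_bm_mink (Ω := Ω × Ω) (P.fork k) (range K)
    (fun i z => (∑ j, P.X (t (i + 1)) j z.2 * P.XX (t i) (t (i + 1)) j z.1) + ∑ j, P.X (t i) j z.1 * P.XX (t i) (t (i + 1)) j z.2)
    (fun i => e i + e i) (2 * r) (by omega) (fun i _ => (hA i).add (hB i)) (fun i _ => add_nonneg (he0 i) (he0 i))
    (fun i hi => bud_bm_sync_add (Ω := Ω × Ω) (P.fork k) (hA i) (hB i) (2 * r) (by omega) (he0 i) (he0 i)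
      (bA i (mem_range.1 hi)) (bB i (mem_range.1 hi)))
  simp_rw [eabs] at key
  simp_rw [dec]
  refine key.trans (le_of_eq ?_)
  congr 1
  rw [mul_sum]
  exact Finset.sum_congr rfl fun i _ => by ring

theorem bud_bm_polar_fst (P : L8P Ω m) (h : P.Ok) (k : ℕ) {g : Ω → ℝ} (hg : Measurable g) : ∫ z, g z.1 ∂(P.fork k) = ∫ ω, g ω ∂P.μ := by
  conv_rhs => rw [← P.l8s_fork_fst h k]
  rw [integral_map measurable_fst.aemeasurable hg.aestronglyMeasurable]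

theorem bud_bm_polar_snd (P : L8P Ω m) (h : P.Ok) (k : ℕ) {g : Ω → ℝ} (hg : Measurable g) : ∫ z, g z.2 ∂(P.fork k) = ∫ ω, g ω ∂P.μ := by
  conv_rhs => rw [← P.l8s_fork_snd h k]
  rw [integral_map measurable_snd.aemeasurable hg.aestronglyMeasurable]

/-- **polarisation** of the projected pair: fork at `k ≤ k'`, `‖|X_{k'}|² - Sb‖_q ≤ a`, `‖|X_{k'} - X_k|²‖_q ≤ b` -/
theorem bud_bm_polar (P : L8P Ω m) (h : P.Ok) {q : ℕ} (hq : 1 ≤ q) {k k' : ℕ} (hkk : k ≤ k') {Sb a b : ℝ} (ha : 0 ≤ a) (hb : 0 ≤ b)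
    (h1 : ∫ ω, |P.nX k' ω - Sb| ^ q ∂P.μ ≤ a ^ q) (h2 : ∫ ω, P.nXX k k' ω ^ q ∂P.μ ≤ b ^ q) :
    ∫ z, |P.QX k' k' z - Sb| ^ q ∂(P.fork k) ≤ (a + 2 * b) ^ q := by
  have := h.prob
  have := P.l8s_fork_prob h k
  have hX : ∀ c i, L8Bd (P.X c i) := fun c i => P.l8s_X_bd h c i
  -- `u` = half of the deviation of one branch, `G` = the one-branch bound
  obtain ⟨u, hu⟩ : ∃ u : Ω → ℝ, ∀ ω, u ω = (1 / 2 : ℝ) * |P.nX k' ω - Sb| := ⟨_, fun _ => rfl⟩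
  have hn : L8Bd u := by
    have : u = fun ω => (1 / 2 : ℝ) * |P.nX k' ω - Sb| := funext hu
    rw [this]
    exact ((P.l8s_W_bd_nX h k').sub (l8Bd_const Sb)).abs.const_mul _
  have hs : L8Bd (P.nXX k k') := bud_bm_sq_bd P h k k'
  have hG : L8Bd (fun ω => u ω + P.nXX k k' ω) := hn.add hs
  have g1 : ∫ ω, |u ω| ^ q ∂P.μ ≤ (a / 2) ^ q := by
    have e : ∀ ω, |u ω| ^ q = (1 / 2 : ℝ) ^ q * |P.nX k' ω - Sb| ^ q := fun ω => by
      rw [hu, abs_mul, abs_abs, mul_pow, abs_of_nonneg (by norm_num : (0 : ℝ) ≤ 1 / 2)]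
    simp_rw [e]
    rw [integral_const_mul]
    calc (1 / 2 : ℝ) ^ q * ∫ ω, |P.nX k' ω - Sb| ^ q ∂P.μ ≤ (1 / 2 : ℝ) ^ q * a ^ q :=
          mul_le_mul_of_nonneg_left h1 (by positivity)
      _ = (a / 2) ^ q := by rw [← mul_pow]; congr 1; ring
  have g2 : ∫ ω, |P.nXX k k' ω| ^ q ∂P.μ ≤ b ^ q := by
    have e : ∀ ω, |P.nXX k k' ω| ^ q = P.nXX k k' ω ^ q := fun ω => by rw [abs_of_nonneg (bud_bm_sq_nonneg P k k' ω)]
    simp_rw [e]; exact h2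
  have g3 := bud_bm_sync_add P.μ hn hs q hq (by positivity : (0 : ℝ) ≤ a / 2) hb g1 g2
  have hab : (0 : ℝ) ≤ a / 2 + b := by positivity
  have g4 := bud_bm_sync_add (Ω := Ω × Ω) (P.fork k) (l8k_bd_comp measurable_fst hG) (l8k_bd_comp measurable_snd hG) q hq hab hab
    (by rw [bud_bm_polar_fst P h k (g := fun ω => |u ω + P.nXX k k' ω| ^ q) (hG.abs.pow q).1]; exact g3)
    (by rw [bud_bm_polar_snd P h k (g := fun ω => |u ω + P.nXX k k' ω| ^ q) (hG.abs.pow q).1]; exact g3)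
  have e5 : (a / 2 + b + (a / 2 + b)) = a + 2 * b := by ring
  rw [e5] at g4
  refine le_trans ?_ g4
  have hQ : @L8Bd (Ω × Ω) _ (fun z => P.QX k' k' z - Sb) :=
    (L8Bd.sum _ fun i _ => (l8k_bd_comp measurable_fst (hX k' i)).mul (l8k_bd_comp measurable_snd (hX k' i))).sub (l8Bd_const Sb)
  refine integral_mono_ae ((hQ.abs.pow q).integrable _)
    ((((l8k_bd_comp measurable_fst hG).add (l8k_bd_comp measurable_snd hG)).abs.pow q).integrable _) ?_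
  have hall : ∀ᵐ z ∂(P.fork k), ∀ i, P.X k i z.1 = P.X k i z.2 := by
    rw [ae_all_iff]
    exact fun i => P.l8s_fork_prefix h k (P.l8s_X_sm h k i).measurable
  filter_upwards [hall] with z hz
  refine pow_le_pow_left₀ (abs_nonneg _) ?_ q
  refine le_trans ?_ (le_abs_self _)
  -- polarisation
  have p1 : P.QX k' k' z - Sb = (1 / 2 : ℝ) * (P.nX k' z.1 - Sb) + (1 / 2 : ℝ) * (P.nX k' z.2 - Sb)
      - (1 / 2 : ℝ) * ∑ i, (P.XX k k' i z.1 - P.XX k k' i z.2) ^ 2 := by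
    have : ∑ i, (P.XX k k' i z.1 - P.XX k k' i z.2) ^ 2 = P.nX k' z.1 + P.nX k' z.2 - 2 * P.QX k' k' z := by
      unfold L8P.XX L8P.nX L8P.QX
      rw [mul_sum, ← Finset.sum_add_distrib, ← Finset.sum_sub_distrib]
      exact Finset.sum_congr rfl fun i _ => by rw [hz i]; ring
    rw [this]; ring
  have p2 : (1 / 2 : ℝ) * ∑ i, (P.XX k k' i z.1 - P.XX k k' i z.2) ^ 2 ≤ P.nXX k k' z.1 + P.nXX k k' z.2 := by
    unfold L8P.nXX
    rw [mul_sum, ← Finset.sum_add_distrib]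
    exact Finset.sum_le_sum fun i _ => by nlinarith [sq_nonneg (P.XX k k' i z.1 + P.XX k k' i z.2)]
  have p3 : 0 ≤ (1 / 2 : ℝ) * ∑ i, (P.XX k k' i z.1 - P.XX k k' i z.2) ^ 2 := by positivity
  rw [p1, abs_le, hu, hu]
  constructor
  · linarith [neg_abs_le (P.nX k' z.1 - Sb), neg_abs_le (P.nX k' z.2 - Sb)]
  · linarith [le_abs_self (P.nX k' z.1 - Sb), le_abs_self (P.nX k' z.2 - Sb),
      bud_bm_sq_nonneg P k k' z.1, bud_bm_sq_nonneg P k k' z.2]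

/-! ## 6. SL : sliding windows and absorption -/

theorem bud_bm_D2_le_xCx (P : L8P Ω m) (h : P.Ok) (k : ℕ) (ω : Ω) : 0 ≤ P.xCx k ω :=
  P.l8s_C_psd h k (fun i => P.X k i ω) ω

/-- `4 Var L = 4 E XᵀCX + Var |X|²` -/
theorem bud_bm_D2_le_var (P : L8P Ω m) (h : P.Ok) (k : ℕ) :
    4 * (∫ ω, (P.L k ω - ∫ ω', P.L k ω' ∂P.μ) ^ 2 ∂P.μ) = 4 * (∫ ω, P.xCx k ω ∂P.μ) + ∫ ω, (P.nX k ω - P.S k) ^ 2 ∂P.μ := by
  have := h.prob
  have hL := P.l8s_L_bd h k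
  have hn := P.l8s_W_bd_nX h k
  have hf : L8Bd (fun ω => 2 * P.L k ω - P.nX k ω) := (hL.const_mul 2).sub hn
  have hg : L8Bd (fun ω => P.nX k ω - P.S k) := hn.sub (l8Bd_const _)
  have hgm : Measurable[P.ℱ k] (fun ω => P.nX k ω - P.S k) := (P.l8s_nX_meas_aux h k).sub measurable_const
  have hE : ∀ ω, P.E k (fun ω => 2 * P.L k ω - P.nX k ω) ω = 0 := by
    intro ω
    rw [P.l8s_E_sub h k (hL.const_mul 2) hn, P.l8s_E_const_mul, P.l8s_E_self h k (P.l8s_nX_meas_aux h k), P.l8s_E_L_past h le_rfl]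
    simp [L8P.XX]
  have hcross : ∫ ω, (P.nX k ω - P.S k) * (2 * P.L k ω - P.nX k ω) ∂P.μ = 0 := by
    rw [← P.l8s_integral_mul_E h k hgm hg hf]
    simp [hE]
  have ha : ∫ ω', P.L k ω' ∂P.μ = P.S k / 2 := by
    have := P.l8s_two_integral_L h k
    linarith
  rw [ha, ← P.l8s_alias_L h k, ← integral_const_mul, ← integral_add ((hf.pow 2).integrable _) ((hg.pow 2).integrable _)]
  have e : ∀ ω, 4 * (P.L k ω - P.S k / 2) ^ 2 = ((2 * P.L k ω - P.nX k ω) ^ 2 + (P.nX k ω - P.S k) ^ 2) + 2 * ((P.nX k ω - P.S k) * (2 * P.L k ω - P.nX k ω)) := fun ω => by ring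
  simp only [e]
  rw [integral_add (((hf.pow 2).add (hg.pow 2)).integrable _) (((hg.mul hf).const_mul 2).integrable _), integral_const_mul, hcross]
  simp

/-- `D² ≤ 4 Var L + E tr C²` -/
theorem bud_bm_D2_le (P : L8P Ω m) (h : P.Ok) (k : ℕ) :
    P.D2 k ≤ 4 * (∫ ω, (P.L k ω - ∫ ω', P.L k ω' ∂P.μ) ^ 2 ∂P.μ) + ∫ ω, P.trC2 k ω ∂P.μ := by
  rw [bud_bm_D2_le_var P h k, P.l8s_D2_eq h k]
  have : 0 ≤ ∫ ω, P.xCx k ω ∂P.μ := integral_nonneg (bud_bm_D2_le_xCx P h k)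
  linarith

/-- the ordered identity `L_j - L_i = (y - X_j)·(X_j - X_i) + |X_j - X_i|²/2` -/
theorem bud_bm_L_sub (P : L8P Ω m) (i j : ℕ) (ω : Ω) : P.L j ω - P.L i ω = (∑ a, P.R j a ω * P.XX i j a ω) + P.nXX i j ω / 2 := by
  unfold L8P.L L8P.nX L8P.nXX L8P.R L8P.XX
  rw [sum_div, sum_div, sum_div, ← sum_sub_distrib, ← sum_sub_distrib, ← sum_sub_distrib, ← sum_add_distrib]
  exact sum_congr rfl fun a _ => by ring

/-- `E (X_k·(y - X_k))² = E XᵀCX` -/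
theorem bud_bm_sq_L2_xCx (P : L8P Ω m) (h : P.Ok) (k : ℕ) : ∫ ω, (∑ a, P.X k a ω * P.R k a ω) ^ 2 ∂P.μ = ∫ ω, P.xCx k ω ∂P.μ := by
  have h1 := P.l8s_alias_L h k
  have e : ∀ ω, (2 * P.L k ω - P.nX k ω) ^ 2 = 4 * (∑ a, P.X k a ω * P.R k a ω) ^ 2 := by
    intro ω
    have : 2 * P.L k ω - P.nX k ω = 2 * ∑ a, P.X k a ω * P.R k a ω := by
      unfold L8P.L L8P.nX L8P.R
      rw [mul_sub, mul_sum, mul_sum, mul_div_cancel₀ _ (two_ne_zero), sub_sub, ← sum_add_distrib, ← sum_sub_distrib]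
      exact sum_congr rfl fun a _ => by ring
    rw [this]; ring
  simp only [e] at h1
  rw [integral_const_mul] at h1
  linarith

/-- `E (X_i·(X_j - X_i))² ≤ E X_iᵀ C_i X_i` -/
theorem bud_bm_sq_L2_cross (P : L8P Ω m) (h : P.Ok) {i j : ℕ} (hij : i ≤ j) :
    ∫ ω, (∑ a, P.X i a ω * P.XX i j a ω) ^ 2 ∂P.μ ≤ ∫ ω, P.xCx i ω ∂P.μ := by
  have hf : L8Bd (fun ω => ∑ a, P.X i a ω * P.R i a ω) := L8Bd.sum _ fun a _ => (P.l8s_X_bd h i a).mul (P.l8sb_R_bd h i a)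
  have hXm : ∀ a, Measurable[P.ℱ j] (P.X i a) := fun a => (P.l8s_X_sm h i a).measurable.mono (P.ℱ.mono hij) le_rfl
  have e : ∀ ω, P.E j (fun ω => ∑ a, P.X i a ω * P.R i a ω) ω = ∑ a, P.X i a ω * P.XX i j a ω := by
    intro ω
    rw [P.l8s_E_sum h j _ fun a _ => (P.l8s_X_bd h i a).mul (P.l8sb_R_bd h i a)]
    refine sum_congr rfl fun a _ => ?_
    rw [P.l8s_E_pull h j (hXm a)]
    congr 1
    unfold L8P.R L8P.XX
    rw [P.l8s_E_sub h j (P.l8s_y_bd h a) (P.l8s_X_bd h i a), P.l8s_E_self h j (hXm a)]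
    rfl
  have h1 := P.l8s_integral_E_pow_le h j hf 2
  simp only [sq_abs, e] at h1
  exact h1.trans (le_of_eq (bud_bm_sq_L2_xCx P h i))

theorem bud_bm_sq_L2_parts (P : L8P Ω m) (h : P.Ok) (k : ℕ) :
    0 ≤ P.D2 k ∧ ∫ ω, (P.nX k ω - P.S k) ^ 2 ∂P.μ ≤ P.D2 k ∧ 2 * ∫ ω, P.xCx k ω ∂P.μ ≤ P.D2 k ∧ ∫ ω, P.trC2 k ω ∂P.μ ≤ P.D2 k := by
  have h1 := P.l8s_D2_eq h k
  have h2 : 0 ≤ ∫ ω, (P.nX k ω - P.S k) ^ 2 ∂P.μ := integral_nonneg fun _ => sq_nonneg _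
  have h3 : 0 ≤ ∫ ω, P.xCx k ω ∂P.μ := integral_nonneg (bud_bm_D2_le_xCx P h k)
  have h4 : 0 ≤ ∫ ω, P.trC2 k ω ∂P.μ := integral_nonneg fun ω => by unfold L8P.trC2; positivity
  refine ⟨by linarith, by linarith, by linarith, by linarith⟩

/-- `‖|X_j - X_i|²‖₂ ≤ S_j - S_i + 3 (D_i + D_j)` -/
theorem bud_bm_sq_L2 (P : L8P Ω m) (h : P.Ok) {i j : ℕ} (hij : i ≤ j) :
    ∫ ω, P.nXX i j ω ^ 2 ∂P.μ ≤ (P.S j - P.S i + 3 * (Real.sqrt (P.D2 i) + Real.sqrt (P.D2 j))) ^ 2 := by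
  have := h.prob
  obtain ⟨hDi, hvi, hxi, -⟩ := bud_bm_sq_L2_parts P h i
  obtain ⟨hDj, hvj, -, -⟩ := bud_bm_sq_L2_parts P h j
  have hS : 0 ≤ P.S j - P.S i := sub_nonneg.2 (P.l8s_S_mono h hij)
  have b1 : L8Bd (fun ω => P.nX j ω - P.S j) := (P.l8s_W_bd_nX h j).sub (l8Bd_const _)
  have b2 : L8Bd (fun ω => -(P.nX i ω - P.S i)) := ((P.l8s_W_bd_nX h i).sub (l8Bd_const _)).neg
  have b3 : L8Bd (fun _ : Ω => P.S j - P.S i) := l8Bd_const _
  have b4 : L8Bd (fun ω => (-2) * ∑ a, P.X i a ω * P.XX i j a ω) :=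
    (L8Bd.sum _ fun a _ => (P.l8s_X_bd h i a).mul (P.l8sb_XX_bd h i j a)).const_mul _
  have i1 : ∫ ω, |P.nX j ω - P.S j| ^ 2 ∂P.μ ≤ Real.sqrt (P.D2 j) ^ 2 := by
    simp only [sq_abs]; rw [Real.sq_sqrt hDj]; exact hvj
  have i2 : ∫ ω, |-(P.nX i ω - P.S i)| ^ 2 ∂P.μ ≤ Real.sqrt (P.D2 i) ^ 2 := by
    simp only [sq_abs, neg_sq]; rw [Real.sq_sqrt hDi]; exact hvi
  have i3 : ∫ ω, |P.S j - P.S i| ^ 2 ∂P.μ ≤ (P.S j - P.S i) ^ 2 := by simp
  have i4 : ∫ ω, |(-2) * ∑ a, P.X i a ω * P.XX i j a ω| ^ 2 ∂P.μ ≤ (2 * Real.sqrt (P.D2 i)) ^ 2 := by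
    simp only [sq_abs, mul_pow]
    rw [integral_const_mul, Real.sq_sqrt hDi]
    have := bud_bm_sq_L2_cross P h hij
    nlinarith
  have m1 := bud_bm_mink2 P.μ b1 b2 (Real.sqrt_nonneg _) (Real.sqrt_nonneg _) 2 (by norm_num) i1 i2
  have m2 := bud_bm_mink2 P.μ (b1.add b2) b3 (add_nonneg (Real.sqrt_nonneg _) (Real.sqrt_nonneg _)) hS 2 (by norm_num) m1 i3
  have m3 := bud_bm_mink2 P.μ ((b1.add b2).add b3) b4 (add_nonneg (add_nonneg (Real.sqrt_nonneg _) (Real.sqrt_nonneg _)) hS)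
    (mul_nonneg zero_le_two (Real.sqrt_nonneg _)) 2 (by norm_num) m2 i4
  have e : ∀ ω, P.nXX i j ω ^ 2 = |P.nX j ω - P.S j + -(P.nX i ω - P.S i) + (P.S j - P.S i) + (-2) * ∑ a, P.X i a ω * P.XX i j a ω| ^ 2 := by
    intro ω
    rw [sq_abs]
    congr 1
    unfold L8P.nXX L8P.nX L8P.XX
    have : ∑ a, (P.X j a ω - P.X i a ω) ^ 2 = ∑ a, P.X j a ω ^ 2 - ∑ a, P.X i a ω ^ 2 + (-2) * ∑ a, P.X i a ω * (P.X j a ω - P.X i a ω) := by
      rw [mul_sum, ← sum_sub_distrib, ← sum_add_distrib]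
      exact sum_congr rfl fun a _ => by ring
    rw [this]; ring
  simp only [e]
  refine m3.trans (pow_le_pow_left₀ (by positivity) ?_ 2)
  have := Real.sqrt_nonneg (P.D2 j)
  linarith

/-- Cauchy-Schwarz for bounded functions -/
theorem bud_bm_noise_cs (P : L8P Ω m) (h : P.Ok) {f g : Ω → ℝ} (hf : L8Bd f) (hg : L8Bd g) :
    (∫ ω, f ω * g ω ∂P.μ) ^ 2 ≤ (∫ ω, f ω ^ 2 ∂P.μ) * ∫ ω, g ω ^ 2 ∂P.μ := by
  have := h.prob
  obtain ⟨ω⟩ : Nonempty Ω := nonempty_of_isProbabilityMeasure P.μ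
  have := P.l8s_E_cs h 0 hf hg ω
  simpa only [P.l8s_E_root h] using this

/-- `uᵀ C u ≤ ‖C‖_HS |u|²` -/
theorem bud_bm_noise_hs (C : Fin m → Fin m → ℝ) (u : Fin m → ℝ) :
    ∑ a, ∑ b, u a * C a b * u b ≤ Real.sqrt (∑ a, ∑ b, C a b ^ 2) * ∑ a, u a ^ 2 := by
  have h1 : (∑ p : Fin m × Fin m, C p.1 p.2 * (u p.1 * u p.2)) ^ 2 ≤ (∑ p : Fin m × Fin m, C p.1 p.2 ^ 2) * ∑ p : Fin m × Fin m, (u p.1 * u p.2) ^ 2 :=
    Finset.sum_mul_sq_le_sq_mul_sq _ _ _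
  have e1 : ∑ p : Fin m × Fin m, C p.1 p.2 * (u p.1 * u p.2) = ∑ a, ∑ b, u a * C a b * u b := by
    rw [Fintype.sum_prod_type]
    exact sum_congr rfl fun a _ => sum_congr rfl fun b _ => by ring
  have e2 : ∑ p : Fin m × Fin m, C p.1 p.2 ^ 2 = ∑ a, ∑ b, C a b ^ 2 := Fintype.sum_prod_type _
  have e3 : ∑ p : Fin m × Fin m, (u p.1 * u p.2) ^ 2 = (∑ a, u a ^ 2) ^ 2 := by
    rw [Fintype.sum_prod_type, sq (∑ a, u a ^ 2), sum_mul_sum]
    exact sum_congr rfl fun a _ => sum_congr rfl fun b _ => by ring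
  rw [e1, e2, e3] at h1
  have h0 : 0 ≤ ∑ a, u a ^ 2 := by positivity
  have h2 : 0 ≤ ∑ a, ∑ b, C a b ^ 2 := by positivity
  refine (abs_le_of_sq_le_sq' ?_ (by positivity)).2
  rw [mul_pow, Real.sq_sqrt h2]
  exact h1

/-- second moment of the noise term -/
theorem bud_bm_noise (P : L8P Ω m) (h : P.Ok) {i j : ℕ} (hij : i ≤ j) :
    ∫ ω, (∑ a, P.R j a ω * P.XX i j a ω) ^ 2 ∂P.μ
      ≤ Real.sqrt (∫ ω, P.trC2 j ω ∂P.μ) * (P.S j - P.S i + 3 * (Real.sqrt (P.D2 i) + Real.sqrt (P.D2 j))) := by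
  have := h.prob
  have hT : L8Bd (P.trC2 j) := L8Bd.sum _ fun a _ => L8Bd.sum _ fun b _ => (P.l8s_W_bd_C h j a b).pow 2
  have hT0 : ∀ ω, 0 ≤ P.trC2 j ω := fun ω => by unfold L8P.trC2; positivity
  obtain ⟨CT, hCT⟩ := hT.2
  have hsT : L8Bd (fun ω => Real.sqrt (P.trC2 j ω)) := ⟨hT.1.sqrt, Real.sqrt CT, fun ω => by
    rw [abs_of_nonneg (Real.sqrt_nonneg _)]; exact Real.sqrt_le_sqrt ((le_abs_self _).trans (hCT ω))⟩
  have hn := bud_bm_sq_bd P h i j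
  have hF : L8Bd (fun ω => (∑ a, P.R j a ω * P.XX i j a ω) ^ 2) := (L8Bd.sum _ fun a _ => (P.l8sb_R_bd h j a).mul (P.l8sb_XX_bd h i j a)).pow 2
  have hXm : ∀ a, Measurable[P.ℱ j] (P.XX i j a) := fun a =>
    (P.l8s_X_sm h j a).measurable.sub ((P.l8s_X_sm h i a).measurable.mono (P.ℱ.mono hij) le_rfl)
  have hpt : ∀ ω, P.E j (fun ω => (∑ a, P.R j a ω * P.XX i j a ω) ^ 2) ω ≤ Real.sqrt (P.trC2 j ω) * P.nXX i j ω := by
    intro ω
    have e1 := l8k_E_freeze (P := P) h hXm (fun u x => (∑ a, P.R j a x * u a) ^ 2) ω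
    have e2 := P.l8s_C_quad h j (fun a => P.XX i j a ω) ω
    have e3 : P.E j (fun x => (∑ a, P.R j a x * P.XX i j a ω) ^ 2) ω = P.E j (fun ω' => (∑ a, P.XX i j a ω * P.R j a ω') ^ 2) ω :=
      P.l8s_E_congr j (fun x => by congr 1; exact sum_congr rfl fun a _ => mul_comm _ _) ω
    calc _ = _ := e1
      _ = _ := e3
      _ = _ := e2.symm
      _ ≤ _ := bud_bm_noise_hs (fun a b => P.C j a b ω) (fun a => P.XX i j a ω)
  have hR0 : 0 ≤ P.S j - P.S i + 3 * (Real.sqrt (P.D2 i) + Real.sqrt (P.D2 j)) := by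
    have := sub_nonneg.2 (P.l8s_S_mono h hij)
    positivity
  have hcs := bud_bm_noise_cs P h hsT hn
  simp only [Real.sq_sqrt (hT0 _)] at hcs
  have hI0 : 0 ≤ ∫ ω, P.trC2 j ω ∂P.μ := integral_nonneg hT0
  calc ∫ ω, (∑ a, P.R j a ω * P.XX i j a ω) ^ 2 ∂P.μ = ∫ ω, P.E j (fun ω => (∑ a, P.R j a ω * P.XX i j a ω) ^ 2) ω ∂P.μ := (P.l8s_integral_E h j hF).symm
    _ ≤ ∫ ω, Real.sqrt (P.trC2 j ω) * P.nXX i j ω ∂P.μ := integral_mono ((P.l8s_E_bd h j hF).integrable _) ((hsT.mul hn).integrable _) hpt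
    _ ≤ _ := by
        refine (abs_le_of_sq_le_sq' ?_ (by positivity)).2
        rw [mul_pow, Real.sq_sqrt hI0]
        exact hcs.trans (mul_le_mul_of_nonneg_left (bud_bm_sq_L2 P h hij) hI0)

theorem bud_bm_slide_var (μ : Measure Ω) [IsProbabilityMeasure μ] {f : Ω → ℝ} (hf : L8Bd f) (a : ℝ) :
    ∫ ω, (f ω - ∫ ω', f ω' ∂μ) ^ 2 ∂μ ≤ ∫ ω, (f ω - a) ^ 2 ∂μ := by
  set b : ℝ := ∫ ω', f ω' ∂μ with hb
  have hg : L8Bd (fun ω => f ω - b) := hf.sub (l8Bd_const b)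
  have e : ∀ ω, (f ω - a) ^ 2 = (f ω - b) ^ 2 + (2 * (b - a)) * (f ω - b) + (b - a) ^ 2 := fun ω => by ring
  have e0 : ∫ ω, (f ω - b) ∂μ = 0 := by
    rw [integral_sub (hf.integrable _) (integrable_const _)]; simp [hb]
  simp only [e]
  rw [integral_add (((hg.pow 2).add (hg.const_mul _)).integrable _) (integrable_const _),
    integral_add ((hg.pow 2).integrable _) ((hg.const_mul _).integrable _), integral_const_mul, e0]
  simp only [integral_const, probReal_univ, smul_eq_mul]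
  nlinarith [sq_nonneg (b - a)]

theorem bud_bm_slide_five {x u v n1 n2 d : ℝ} (h1 : u + n1 ≤ x) (h2 : x ≤ v - n2 + d) :
    x ^ 2 ≤ 5 * (u ^ 2 + v ^ 2 + n1 ^ 2 + n2 ^ 2 + d ^ 2) := by
  have h3 : x ^ 2 ≤ (u + n1) ^ 2 + (v - n2 + d) ^ 2 := by
    rcases le_total 0 x with hx | hx
    · nlinarith [sq_nonneg (u + n1)]
    · nlinarith [sq_nonneg (v - n2 + d)]
  nlinarith [sq_nonneg (u - n1), sq_nonneg (v + n2), sq_nonneg (v - d), sq_nonneg (n2 + d), sq_nonneg u, sq_nonneg n1, sq_nonneg v, sq_nonneg n2, sq_nonneg d]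

/-- the bracket of `L_k` between a past and a future window -/
theorem bud_bm_slide_br (P : L8P Ω m) (h : P.Ok) (k : ℕ) (A B : Finset ℕ) (a b : ℕ → ℝ) (ha0 : ∀ l ∈ A, 0 ≤ a l) (hb0 : ∀ l ∈ B, 0 ≤ b l)
    (ha1 : ∑ l ∈ A, a l = 1) (hb1 : ∑ l ∈ B, b l = 1) :
    ∫ ω, (P.L k ω - ∫ ω', P.L k ω' ∂P.μ) ^ 2 ∂P.μ
      ≤ 5 * ((∫ ω, ((∑ l ∈ A, a l * P.L l ω) - ∫ ω', (∑ l ∈ A, a l * P.L l ω') ∂P.μ) ^ 2 ∂P.μ)
        + (∫ ω, ((∑ l ∈ B, b l * P.L l ω) - ∫ ω', (∑ l ∈ B, b l * P.L l ω') ∂P.μ) ^ 2 ∂P.μ)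
        + (∑ l ∈ A, a l * ∫ ω, (∑ i, P.R k i ω * P.XX l k i ω) ^ 2 ∂P.μ)
        + (∑ l ∈ B, b l * ∫ ω, (∑ i, P.R l i ω * P.XX k l i ω) ^ 2 ∂P.μ)
        + ((∑ l ∈ B, b l * P.S l) / 2 - (∑ l ∈ A, a l * P.S l) / 2) ^ 2) := by
  have := h.prob
  set α : ℝ := ∫ ω', (∑ l ∈ A, a l * P.L l ω') ∂P.μ with hα
  set β : ℝ := ∫ ω', (∑ l ∈ B, b l * P.L l ω') ∂P.μ with hβ
  have hLA : L8Bd (fun ω => ∑ l ∈ A, a l * P.L l ω) := L8Bd.sum _ fun l _ => (P.l8s_L_bd h l).const_mul _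
  have hLB : L8Bd (fun ω => ∑ l ∈ B, b l * P.L l ω) := L8Bd.sum _ fun l _ => (P.l8s_L_bd h l).const_mul _
  have hmean : ∀ (s : Finset ℕ) (w : ℕ → ℝ), ∫ ω', (∑ l ∈ s, w l * P.L l ω') ∂P.μ = (∑ l ∈ s, w l * P.S l) / 2 := by
    intro s w
    rw [integral_finsetSum _ fun l _ => ((P.l8s_L_bd h l).const_mul _).integrable _, sum_div]
    refine sum_congr rfl fun l _ => ?_
    rw [integral_const_mul, ← P.l8s_two_integral_L h l]; ring
  have hnz : ∀ i j, L8Bd (fun ω => ∑ c, P.R j c ω * P.XX i j c ω) := fun i j =>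
    L8Bd.sum _ fun c _ => (P.l8sb_R_bd h j c).mul (P.l8sb_XX_bd h i j c)
  have hd : (∑ l ∈ B, b l * P.S l) / 2 - (∑ l ∈ A, a l * P.S l) / 2 = β - α := by rw [hα, hβ, hmean, hmean]
  rw [hd]
  refine (bud_bm_slide_var P.μ (P.l8s_L_bd h k) α).trans ?_
  have hpt : ∀ ω, (P.L k ω - α) ^ 2 ≤ 5 * (((∑ l ∈ A, a l * P.L l ω) - α) ^ 2 + ((∑ l ∈ B, b l * P.L l ω) - β) ^ 2
      + (∑ l ∈ A, a l * (∑ i, P.R k i ω * P.XX l k i ω) ^ 2) + (∑ l ∈ B, b l * (∑ i, P.R l i ω * P.XX k l i ω) ^ 2) + (β - α) ^ 2) := by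
    intro ω
    have j1 := Real.pow_arith_mean_le_arith_mean_pow_of_even A a (fun l => ∑ i, P.R k i ω * P.XX l k i ω) ha0 ha1 (n := 2) even_two
    have j2 := Real.pow_arith_mean_le_arith_mean_pow_of_even B b (fun l => ∑ i, P.R l i ω * P.XX k l i ω) hb0 hb1 (n := 2) even_two
    have l1 : ((∑ l ∈ A, a l * P.L l ω) - α) + (∑ l ∈ A, a l * ∑ i, P.R k i ω * P.XX l k i ω) ≤ P.L k ω - α := by
      have : ∑ l ∈ A, a l * (P.L l ω + ∑ i, P.R k i ω * P.XX l k i ω) ≤ ∑ l ∈ A, a l * P.L k ω :=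
        sum_le_sum fun l hl => mul_le_mul_of_nonneg_left (by
          have := bud_bm_L_sub P l k ω
          have := bud_bm_sq_nonneg P l k ω
          linarith) (ha0 l hl)
      rw [← sum_mul, ha1, one_mul] at this
      simp only [mul_add, sum_add_distrib] at this
      linarith
    have l2 : P.L k ω - α ≤ ((∑ l ∈ B, b l * P.L l ω) - β) - (∑ l ∈ B, b l * ∑ i, P.R l i ω * P.XX k l i ω) + (β - α) := by
      have : ∑ l ∈ B, b l * P.L k ω ≤ ∑ l ∈ B, b l * (P.L l ω - ∑ i, P.R l i ω * P.XX k l i ω) :=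
        sum_le_sum fun l hl => mul_le_mul_of_nonneg_left (by
          have := bud_bm_L_sub P k l ω
          have := bud_bm_sq_nonneg P k l ω
          linarith) (hb0 l hl)
      rw [← sum_mul, hb1, one_mul] at this
      simp only [mul_sub, sum_sub_distrib] at this
      linarith
    have := bud_bm_slide_five l1 l2
    linarith
  have bA : L8Bd (fun ω => ((∑ l ∈ A, a l * P.L l ω) - α) ^ 2) := (hLA.sub (l8Bd_const α)).pow 2
  have bB : L8Bd (fun ω => ((∑ l ∈ B, b l * P.L l ω) - β) ^ 2) := (hLB.sub (l8Bd_const β)).pow 2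
  have bnA : L8Bd (fun ω => ∑ l ∈ A, a l * (∑ i, P.R k i ω * P.XX l k i ω) ^ 2) := L8Bd.sum _ fun l _ => ((hnz l k).pow 2).const_mul _
  have bnB : L8Bd (fun ω => ∑ l ∈ B, b l * (∑ i, P.R l i ω * P.XX k l i ω) ^ 2) := L8Bd.sum _ fun l _ => ((hnz k l).pow 2).const_mul _
  refine (integral_mono ((((P.l8s_L_bd h k).sub (l8Bd_const α)).pow 2).integrable _)
    ((((((bA.add bB).add bnA).add bnB).add (l8Bd_const ((β - α) ^ 2))).const_mul 5).integrable _) hpt).trans (le_of_eq ?_)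
  rw [integral_const_mul, integral_add ((((bA.add bB).add bnA).add bnB).integrable _) (integrable_const _),
    integral_add (((bA.add bB).add bnA).integrable _) (bnB.integrable _), integral_add ((bA.add bB).integrable _) (bnA.integrable _),
    integral_add (bA.integrable _) (bB.integrable _),
    integral_finsetSum _ fun l _ => (((hnz l k).pow 2).const_mul _).integrable _,
    integral_finsetSum _ fun l _ => (((hnz k l).pow 2).const_mul _).integrable _]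
  simp only [integral_const_mul, integral_const, probReal_univ, smul_eq_mul, one_mul]

/-- the noise of a pair after Young -/
theorem bud_bm_slide_pair (P : L8P Ω m) (h : P.Ok) {i j : ℕ} (hij : i ≤ j) :
    ∫ ω, (∑ a, P.R j a ω * P.XX i j a ω) ^ 2 ∂P.μ
      ≤ 901 * (∫ ω, P.trC2 j ω ∂P.μ) + (P.S j - P.S i) ^ 2 / 2 + (P.D2 i + P.D2 j) / 200 := by
  have h1 := bud_bm_noise P h hij
  have hT0 : 0 ≤ ∫ ω, P.trC2 j ω ∂P.μ := integral_nonneg fun ω => by unfold L8P.trC2; positivity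
  have hDi := (bud_bm_sq_L2_parts P h i).1
  have hDj := (bud_bm_sq_L2_parts P h j).1
  have e1 := Real.sq_sqrt hT0
  have e2 := Real.sq_sqrt hDi
  have e3 := Real.sq_sqrt hDj
  set τ := Real.sqrt (∫ ω, P.trC2 j ω ∂P.μ)
  set di := Real.sqrt (P.D2 i)
  set dj := Real.sqrt (P.D2 j)
  rw [← e1, ← e2, ← e3]
  refine h1.trans ?_
  nlinarith [sq_nonneg (300 * τ - di), sq_nonneg (300 * τ - dj), sq_nonneg (τ - (P.S j - P.S i))]

/-- one cut between a past and a future window -/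
theorem bud_bm_slide_pt (P : L8P Ω m) (h : P.Ok) (k : ℕ) (A B : Finset ℕ) (a b : ℕ → ℝ) (ha0 : ∀ l ∈ A, 0 ≤ a l) (hb0 : ∀ l ∈ B, 0 ≤ b l)
    (ha1 : ∑ l ∈ A, a l = 1) (hb1 : ∑ l ∈ B, b l = 1) {p s : ℕ} (hpk : p ≤ k) (hks : k ≤ s) (hA : ∀ l ∈ A, p ≤ l ∧ l ≤ k) (hB : ∀ l ∈ B, k ≤ l ∧ l ≤ s) {VA VB : ℝ}
    (hVA : ∫ ω, ((∑ l ∈ A, a l * P.L l ω) - ∫ ω', (∑ l ∈ A, a l * P.L l ω') ∂P.μ) ^ 2 ∂P.μ ≤ VA)
    (hVB : ∫ ω, ((∑ l ∈ B, b l * P.L l ω) - ∫ ω', (∑ l ∈ B, b l * P.L l ω') ∂P.μ) ^ 2 ∂P.μ ≤ VB) :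
    4 / 5 * P.D2 k ≤ 20 * (VA + VB) + 18021 * (∫ ω, P.trC2 k ω ∂P.μ) + 18020 * (∑ l ∈ B, b l * ∫ ω, P.trC2 l ω ∂P.μ) + 25 * (P.S s - P.S p) ^ 2
      + (∑ l ∈ A, a l * P.D2 l + ∑ l ∈ B, b l * P.D2 l) / 10 := by
  have h1 := bud_bm_slide_br P h k A B a b ha0 hb0 ha1 hb1
  have h2 := bud_bm_D2_le P h k
  have hS := P.l8s_S_mono h
  set o : ℝ := P.S s - P.S p with ho
  have ho0 : 0 ≤ o := sub_nonneg.2 (hS (hpk.trans hks))
  have hsq : ∀ x : ℝ, 0 ≤ x → x ≤ o → x ^ 2 ≤ o ^ 2 := fun x h0 hx => pow_le_pow_left₀ h0 hx 2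
  have nA : ∑ l ∈ A, a l * ∫ ω, (∑ i, P.R k i ω * P.XX l k i ω) ^ 2 ∂P.μ
      ≤ 901 * (∫ ω, P.trC2 k ω ∂P.μ) + o ^ 2 / 2 + P.D2 k / 200 + (∑ l ∈ A, a l * P.D2 l) / 200 := by
    have : ∑ l ∈ A, a l * ∫ ω, (∑ i, P.R k i ω * P.XX l k i ω) ^ 2 ∂P.μ
        ≤ ∑ l ∈ A, (a l * (901 * (∫ ω, P.trC2 k ω ∂P.μ) + o ^ 2 / 2 + P.D2 k / 200) + a l * P.D2 l / 200) := by
      refine sum_le_sum fun l hl => ?_
      have g1 := bud_bm_slide_pair P h (hA l hl).2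
      have g2 := hsq (P.S k - P.S l) (sub_nonneg.2 (hS (hA l hl).2)) (by have := hS (hA l hl).1; have := hS hks; linarith)
      have := mul_le_mul_of_nonneg_left (g1.trans (by linarith : _ ≤ 901 * (∫ ω, P.trC2 k ω ∂P.μ) + o ^ 2 / 2 + P.D2 k / 200 + P.D2 l / 200)) (ha0 l hl)
      linarith
    rw [sum_add_distrib, ← sum_mul, ha1, one_mul, ← sum_div] at this
    exact this
  have nB : ∑ l ∈ B, b l * ∫ ω, (∑ i, P.R l i ω * P.XX k l i ω) ^ 2 ∂P.μ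
      ≤ 901 * (∑ l ∈ B, b l * ∫ ω, P.trC2 l ω ∂P.μ) + o ^ 2 / 2 + P.D2 k / 200 + (∑ l ∈ B, b l * P.D2 l) / 200 := by
    have : ∑ l ∈ B, b l * ∫ ω, (∑ i, P.R l i ω * P.XX k l i ω) ^ 2 ∂P.μ
        ≤ ∑ l ∈ B, (b l * (o ^ 2 / 2 + P.D2 k / 200) + (901 * (b l * ∫ ω, P.trC2 l ω ∂P.μ) + b l * P.D2 l / 200)) := by
      refine sum_le_sum fun l hl => ?_
      have g1 := bud_bm_slide_pair P h (hB l hl).1
      have g2 := hsq (P.S l - P.S k) (sub_nonneg.2 (hS (hB l hl).1)) (by have := hS (hB l hl).2; have := hS hpk; linarith)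
      have := mul_le_mul_of_nonneg_left (g1.trans (by linarith : _ ≤ 901 * (∫ ω, P.trC2 l ω ∂P.μ) + o ^ 2 / 2 + P.D2 k / 200 + P.D2 l / 200)) (hb0 l hl)
      linarith
    rw [sum_add_distrib, sum_add_distrib, ← sum_mul, hb1, one_mul, ← sum_div, ← mul_sum] at this
    linarith
  have hd : ((∑ l ∈ B, b l * P.S l) / 2 - (∑ l ∈ A, a l * P.S l) / 2) ^ 2 ≤ o ^ 2 / 4 := by
    have a1 : ∑ l ∈ A, a l * P.S p ≤ ∑ l ∈ A, a l * P.S l := sum_le_sum fun l hl => mul_le_mul_of_nonneg_left (hS (hA l hl).1) (ha0 l hl)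
    have a2 : ∑ l ∈ A, a l * P.S l ≤ ∑ l ∈ A, a l * P.S k := sum_le_sum fun l hl => mul_le_mul_of_nonneg_left (hS (hA l hl).2) (ha0 l hl)
    have b1 : ∑ l ∈ B, b l * P.S k ≤ ∑ l ∈ B, b l * P.S l := sum_le_sum fun l hl => mul_le_mul_of_nonneg_left (hS (hB l hl).1) (hb0 l hl)
    have b2 : ∑ l ∈ B, b l * P.S l ≤ ∑ l ∈ B, b l * P.S s := sum_le_sum fun l hl => mul_le_mul_of_nonneg_left (hS (hB l hl).2) (hb0 l hl)
    rw [← sum_mul, ha1, one_mul] at a1 a2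
    rw [← sum_mul, hb1, one_mul] at b1 b2
    have := hsq ((∑ l ∈ B, b l * P.S l) - (∑ l ∈ A, a l * P.S l)) (by linarith) (by linarith)
    nlinarith
  linarith

/-- three consecutive blocks -/
theorem bud_bm_slide_blk (P : L8P Ω m) (h : P.Ok) {c : ℝ} (hc : 0 ≤ c) (hpin : P.Pin 1 c) (nu : ℕ → ℝ) (hnu : ∀ k, 0 ≤ nu k) {kap hh : ℝ} (hkap : 0 < kap) (hh0 : 0 < hh)
    {p q r s : ℕ} (hpq : p ≤ q) (hqr : q ≤ r) (hrs : r ≤ s) (hs : s ≤ P.n) (hfl : ∀ k ∈ Ico p s, kap * nu k ≤ P.dv k)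
    (hMA : hh / 2 ≤ ∑ k ∈ Ico p q, nu k) (hMB : hh / 2 ≤ ∑ k ∈ Ico r s, nu k) (hMC : ∑ k ∈ Ico q r, nu k ≤ 3 * hh / 4) :
    4 / 5 * ∑ k ∈ Ico q r, nu k * P.D2 k
      ≤ 60 * (c * (∑ k ∈ Ico p q, nu k * ∫ ω, P.W k ω ∂P.μ) / (kap * hh)) + 60 * (c * (∑ k ∈ Ico r s, nu k * ∫ ω, P.W k ω ∂P.μ) / (kap * hh))
        + 75 / 4 * hh * (P.S s - P.S p) ^ 2 + 18021 * (∑ k ∈ Ico q r, nu k * ∫ ω, P.trC2 k ω ∂P.μ) + 27030 * (∑ k ∈ Ico r s, nu k * ∫ ω, P.trC2 k ω ∂P.μ)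
        + 3 / 20 * (∑ k ∈ Ico p q, nu k * P.D2 k + ∑ k ∈ Ico r s, nu k * P.D2 k) := by
  have := h.prob
  have hW0 : ∀ k, 0 ≤ ∫ ω, P.W k ω ∂P.μ := fun k => integral_nonneg (P.l8s_W_nonneg h k)
  have hT0 : ∀ k, 0 ≤ ∫ ω, P.trC2 k ω ∂P.μ := fun k => integral_nonneg fun ω => by unfold L8P.trC2; positivity
  have hD0 : ∀ k, 0 ≤ P.D2 k := fun k => (bud_bm_sq_L2_parts P h k).1
  -- variance of a normalised window
  have hwin : ∀ x y : ℕ, p ≤ x → y ≤ s → hh / 2 ≤ ∑ k ∈ Ico x y, nu k →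
      ∫ ω, ((∑ l ∈ Ico x y, nu l / (∑ k ∈ Ico x y, nu k) * P.L l ω) - ∫ ω', (∑ l ∈ Ico x y, nu l / (∑ k ∈ Ico x y, nu k) * P.L l ω') ∂P.μ) ^ 2 ∂P.μ
        ≤ c * (∑ k ∈ Ico x y, nu k * ∫ ω, P.W k ω ∂P.μ) / (kap * (∑ k ∈ Ico x y, nu k) ^ 2) := by
    intro x y hx hy hM
    set M : ℝ := ∑ k ∈ Ico x y, nu k with hMdef
    have hM0 : 0 < M := by linarith
    have := bud_bm_win P h (r := 1) le_rfl hc hpin (Ico x y) (fun k hk => by have := (mem_Ico.1 hk).2; omega) (fun l => nu l / M)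
      (fun k _ => div_nonneg (hnu k) hM0.le) (kap := kap * M) (B := (∑ k ∈ Ico x y, nu k * ∫ ω, P.W k ω ∂P.μ) / M) (by positivity)
      (fun k hk => by
        have e : kap * M * (nu k / M) = kap * nu k := by field_simp
        rw [e]; exact hfl k (mem_Ico.2 ⟨hx.trans (mem_Ico.1 hk).1, (mem_Ico.1 hk).2.trans_le hy⟩))
      (by
        simp only [pow_one]
        rw [integral_finsetSum _ fun l _ => ((P.l8s_W_bd h l).const_mul _).integrable _, sum_div]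
        refine le_of_eq (sum_congr rfl fun l _ => ?_)
        rw [integral_const_mul]; ring)
    simp only [pow_one, mul_one] at this
    refine this.trans (le_of_eq ?_)
    field_simp
  set MA : ℝ := ∑ k ∈ Ico p q, nu k with hMAd
  set MB : ℝ := ∑ k ∈ Ico r s, nu k with hMBd
  set MC : ℝ := ∑ k ∈ Ico q r, nu k with hMCd
  set ωA : ℝ := ∑ k ∈ Ico p q, nu k * ∫ ω, P.W k ω ∂P.μ with hωA
  set ωB : ℝ := ∑ k ∈ Ico r s, nu k * ∫ ω, P.W k ω ∂P.μ with hωB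
  set τB : ℝ := ∑ k ∈ Ico r s, nu k * ∫ ω, P.trC2 k ω ∂P.μ with hτB
  set δA : ℝ := ∑ k ∈ Ico p q, nu k * P.D2 k with hδA
  set δB : ℝ := ∑ k ∈ Ico r s, nu k * P.D2 k with hδB
  have hMA0 : 0 < MA := by linarith
  have hMB0 : 0 < MB := by linarith
  have hMC0 : 0 ≤ MC := sum_nonneg fun k _ => hnu k
  have hωA0 : 0 ≤ ωA := sum_nonneg fun k _ => mul_nonneg (hnu k) (hW0 k)
  have hωB0 : 0 ≤ ωB := sum_nonneg fun k _ => mul_nonneg (hnu k) (hW0 k)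
  have hτB0 : 0 ≤ τB := sum_nonneg fun k _ => mul_nonneg (hnu k) (hT0 k)
  have hδA0 : 0 ≤ δA := sum_nonneg fun k _ => mul_nonneg (hnu k) (hD0 k)
  have hδB0 : 0 ≤ δB := sum_nonneg fun k _ => mul_nonneg (hnu k) (hD0 k)
  have hVA := hwin p q le_rfl (hqr.trans hrs) hMA
  have hVB := hwin r s (hpq.trans hqr) le_rfl hMB
  rw [← hMAd, ← hωA] at hVA
  rw [← hMBd, ← hωB] at hVB
  have hpt : ∀ k ∈ Ico q r, nu k * (4 / 5 * P.D2 k) ≤ nu k * (20 * (c * ωA / (kap * MA ^ 2) + c * ωB / (kap * MB ^ 2)) + 18020 * (τB / MB) + 25 * (P.S s - P.S p) ^ 2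
      + (δA / MA + δB / MB) / 10) + 18021 * (nu k * ∫ ω, P.trC2 k ω ∂P.μ) := by
    intro k hk
    obtain ⟨hk1, hk2⟩ := mem_Ico.1 hk
    have := bud_bm_slide_pt P h k (Ico p q) (Ico r s) (fun l => nu l / MA) (fun l => nu l / MB) (fun l _ => div_nonneg (hnu l) hMA0.le) (fun l _ => div_nonneg (hnu l) hMB0.le)
      (by rw [← sum_div, ← hMAd]; exact div_self hMA0.ne') (by rw [← sum_div, ← hMBd]; exact div_self hMB0.ne') (p := p) (s := s) (by omega) (by omega)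
      (fun l hl => by have := mem_Ico.1 hl; omega) (fun l hl => by have := mem_Ico.1 hl; omega) hVA hVB
    have e1 : ∑ l ∈ Ico r s, nu l / MB * ∫ ω, P.trC2 l ω ∂P.μ = τB / MB := by
      rw [hτB, sum_div]; exact sum_congr rfl fun l _ => by ring
    have e2 : ∑ l ∈ Ico p q, nu l / MA * P.D2 l = δA / MA := by
      rw [hδA, sum_div]; exact sum_congr rfl fun l _ => by ring
    have e3 : ∑ l ∈ Ico r s, nu l / MB * P.D2 l = δB / MB := by
      rw [hδB, sum_div]; exact sum_congr rfl fun l _ => by ring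
    rw [e1, e2, e3] at this
    have := mul_le_mul_of_nonneg_left this (hnu k)
    linarith
  have hsum := sum_le_sum hpt
  rw [sum_add_distrib, ← sum_mul, ← mul_sum, ← hMCd] at hsum
  have e4 : ∑ k ∈ Ico q r, nu k * (4 / 5 * P.D2 k) = 4 / 5 * ∑ k ∈ Ico q r, nu k * P.D2 k := by
    rw [mul_sum]; exact sum_congr rfl fun k _ => by ring
  rw [e4] at hsum
  -- ratios
  have hr : ∀ M : ℝ, hh / 2 ≤ M → MC / M ≤ 3 / 2 ∧ MC / M ^ 2 ≤ 3 / hh := by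
    intro M hM
    have hM0 : 0 < M := by linarith
    constructor
    · rw [div_le_iff₀ hM0]; linarith
    · rw [div_le_div_iff₀ (by positivity) hh0]
      nlinarith [mul_le_mul hM hM (by positivity) hM0.le]
  obtain ⟨rA, sA⟩ := hr MA hMA
  obtain ⟨rB, sB⟩ := hr MB hMB
  have t1 : MC * (c * ωA / (kap * MA ^ 2)) ≤ 3 * (c * ωA / (kap * hh)) := by
    calc MC * (c * ωA / (kap * MA ^ 2)) = (c * ωA / kap) * (MC / MA ^ 2) := by field_simp
      _ ≤ (c * ωA / kap) * (3 / hh) := mul_le_mul_of_nonneg_left sA (by positivity)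
      _ = _ := by field_simp
  have t2 : MC * (c * ωB / (kap * MB ^ 2)) ≤ 3 * (c * ωB / (kap * hh)) := by
    calc MC * (c * ωB / (kap * MB ^ 2)) = (c * ωB / kap) * (MC / MB ^ 2) := by field_simp
      _ ≤ (c * ωB / kap) * (3 / hh) := mul_le_mul_of_nonneg_left sB (by positivity)
      _ = _ := by field_simp
  have t3 : MC * (τB / MB) ≤ 3 / 2 * τB := by
    calc MC * (τB / MB) = τB * (MC / MB) := by ring
      _ ≤ τB * (3 / 2) := mul_le_mul_of_nonneg_left rB hτB0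
      _ = _ := by ring
  have t4 : MC * (P.S s - P.S p) ^ 2 ≤ 3 * hh / 4 * (P.S s - P.S p) ^ 2 := mul_le_mul_of_nonneg_right hMC (sq_nonneg _)
  have t5 : MC * (δA / MA) ≤ 3 / 2 * δA := by
    calc MC * (δA / MA) = δA * (MC / MA) := by ring
      _ ≤ δA * (3 / 2) := mul_le_mul_of_nonneg_left rA hδA0
      _ = _ := by ring
  have t6 : MC * (δB / MB) ≤ 3 / 2 * δB := by
    calc MC * (δB / MB) = δB * (MC / MB) := by ring
      _ ≤ δB * (3 / 2) := mul_le_mul_of_nonneg_left rB hδB0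
      _ = _ := by ring
  refine hsum.trans ?_
  have e5 : MC * (20 * (c * ωA / (kap * MA ^ 2) + c * ωB / (kap * MB ^ 2)) + 18020 * (τB / MB) + 25 * (P.S s - P.S p) ^ 2 + (δA / MA + δB / MB) / 10)
      = 20 * (MC * (c * ωA / (kap * MA ^ 2))) + 20 * (MC * (c * ωB / (kap * MB ^ 2))) + 18020 * (MC * (τB / MB)) + 25 * (MC * (P.S s - P.S p) ^ 2)
        + (MC * (δA / MA) + MC * (δB / MB)) / 10 := by ring
  rw [e5]
  linarith

/-- greedy partition into blocks of mass in `[hh/2, 3hh/4]` (the last one only `≤ 3hh/4`) -/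
theorem bud_bm_slide_part (nu : ℕ → ℝ) {hh : ℝ} (hh0 : 0 < hh) :
    ∀ (d k0 k1 : ℕ), k1 - k0 ≤ d → k0 ≤ k1 → (∀ k ∈ Ico k0 k1, nu k ≤ hh / 4) →
    ∃ (N : ℕ) (t : ℕ → ℕ), Monotone t ∧ t 0 = k0 ∧ t N = k1 ∧ (∀ i < N, ∑ k ∈ Ico (t i) (t (i + 1)), nu k ≤ 3 * hh / 4) ∧
      (∀ i, i + 1 < N → hh / 2 ≤ ∑ k ∈ Ico (t i) (t (i + 1)), nu k) := by
  intro d
  induction d with
  | zero =>
    intro k0 k1 hd hk _
    have : k1 = k0 := by omega
    subst this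
    exact ⟨0, fun _ => k1, monotone_const, rfl, rfl, fun i hi => absurd hi (Nat.not_lt_zero _), fun i hi => absurd hi (Nat.not_lt_zero _)⟩
  | succ d ih =>
    intro k0 k1 hd hk hmesh
    by_cases hsmall : ∑ k ∈ Ico k0 k1, nu k ≤ 3 * hh / 4
    · refine ⟨1, fun i => if i = 0 then k0 else k1, ?_, by simp, by simp, ?_, fun i hi => absurd hi (by omega)⟩
      · refine monotone_nat_of_le_succ fun i => ?_
        by_cases hi : i = 0
        · simp [hi, hk]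
        · simp [hi]
      · intro i hi
        have : i = 0 := by omega
        subst this
        simpa using hsmall
    · have hex : ∃ e, hh / 2 ≤ ∑ k ∈ Ico k0 e, nu k := ⟨k1, by linarith [not_le.1 hsmall]⟩
      classical
      set e := Nat.find hex with he
      have h1 : hh / 2 ≤ ∑ k ∈ Ico k0 e, nu k := Nat.find_spec hex
      have h2 : e ≤ k1 := Nat.find_min' hex (by linarith [not_le.1 hsmall])
      have h3 : k0 < e := by
        by_contra hcon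
        rw [Ico_eq_empty_of_le (not_lt.1 hcon), sum_empty] at h1
        linarith
      have h4 : ∑ k ∈ Ico k0 (e - 1), nu k < hh / 2 := not_le.1 (Nat.find_min hex (by omega : e - 1 < e))
      have h5 : ∑ k ∈ Ico k0 e, nu k ≤ 3 * hh / 4 := by
        have e1 : e = (e - 1) + 1 := by omega
        rw [e1, sum_Ico_succ_top (by omega : k0 ≤ e - 1)]
        have := hmesh (e - 1) (mem_Ico.2 ⟨by omega, by omega⟩)
        linarith
      obtain ⟨N', t', hm', h0', hN', hup', hlo'⟩ := ih e k1 (by omega) h2 (fun k hk' => hmesh k (mem_Ico.2 ⟨by have := (mem_Ico.1 hk').1; omega, (mem_Ico.1 hk').2⟩))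
      refine ⟨N' + 1, fun i => Nat.casesOn i k0 t', ?_, rfl, hN', ?_, ?_⟩
      · refine monotone_nat_of_le_succ fun i => ?_
        cases i with
        | zero => show k0 ≤ t' 0; rw [h0']; exact h3.le
        | succ i => exact hm' (Nat.le_succ i)
      · intro i hi
        cases i with
        | zero => show ∑ k ∈ Ico k0 (t' 0), nu k ≤ _; rw [h0']; exact h5
        | succ i => exact hup' i (by omega)
      · intro i hi
        cases i with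
        | zero => show _ ≤ ∑ k ∈ Ico k0 (t' 0), nu k; rw [h0']; exact h1
        | succ i => exact hlo' i (by omega)

theorem bud_bm_slide_shift (f : ℕ → ℝ) (hf : ∀ i, 0 ≤ f i) (n a N : ℕ) (hn : n = 0 ∨ n + a ≤ N) :
    ∑ i ∈ range n, f (i + a) ≤ ∑ i ∈ range N, f i := by
  rcases hn with hn | hn
  · subst hn; simpa using sum_nonneg fun i _ => hf i
  · rw [range_eq_Ico, sum_Ico_add' f 0 n a, range_eq_Ico]
    exact sum_le_sum_of_subset_of_nonneg (fun i hi => by have := mem_Ico.1 hi; exact mem_Ico.2 ⟨Nat.zero_le _, by omega⟩) fun i _ _ => hf i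

theorem bud_bm_slide_ends (N : ℕ) (F : ℕ → ℝ) (E : ℝ) (hF : ∀ i < N, F i ≤ E) (hE : 0 ≤ E) :
    ∑ i ∈ range N, F i ≤ ∑ i ∈ range (N - 3), F (i + 1) + 3 * E := by
  rcases N with _ | _ | _ | n
  · simp; positivity
  · have := hF 0 (by omega)
    simp; linarith
  · have := hF 0 (by omega)
    have := hF 1 (by omega)
    simp [sum_range_succ]; linarith
  · have h0 := hF 0 (by omega)
    have h1 := hF (n + 1) (by omega)
    have h2 := hF (n + 2) (by omega)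
    have e : n + 1 + 1 + 1 - 3 = n := by omega
    rw [e, sum_range_succ, sum_range_succ, sum_range_succ']
    linarith

/-- **SL : SLIDING WINDOWS + ABSORPTION.**   TEX[LL:bud:outer-second] TEX[LL:bud:box-moments]
An index interval `[k0, k1)` of cuts with a deterministic measure `nu` (radius: `nu = dρ`, `kap` = floor of `α'`; nonfloor mass: `nu = 1_nonfloor dv`, `kap = 1`);
`hh` = length of the windows in the coordinate `∑ nu`; `O` = oscillation of `S`; `Dm` = pointwise bound (used on the two end strips only). -/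
theorem bud_bm_slide (P : L8P Ω m) (h : P.Ok) {c : ℝ} (hc : 0 ≤ c) (hpin : P.Pin 1 c) (k0 k1 : ℕ) (hk : k0 ≤ k1) (hk1 : k1 ≤ P.n) (nu : ℕ → ℝ) (hnu : ∀ k, 0 ≤ nu k)
    {kap hh O Dm Wt Tt : ℝ} (hkap : 0 < kap) (hfl : ∀ k ∈ Ico k0 k1, kap * nu k ≤ P.dv k) (hh0 : 0 < hh) (hmesh : ∀ k ∈ Ico k0 k1, nu k ≤ hh / 4)
    (hO : P.S k1 - P.S k0 ≤ O) (hD : ∀ k ∈ Ico k0 k1, P.D2 k ≤ Dm ^ 2)
    (hW : ∑ k ∈ Ico k0 k1, nu k * ∫ ω, P.W k ω ∂P.μ ≤ Wt) (hT : ∑ k ∈ Ico k0 k1, nu k * ∫ ω, P.trC2 k ω ∂P.μ ≤ Tt) :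
    ∑ k ∈ Ico k0 k1, nu k * P.D2 k ≤ 1000000 * (hh * Dm ^ 2 + hh * O ^ 2 + c * Wt / (kap * hh) + Tt) := by
  have := h.prob
  have hW0 : ∀ k, 0 ≤ ∫ ω, P.W k ω ∂P.μ := fun k => integral_nonneg (P.l8s_W_nonneg h k)
  have hT0 : ∀ k, 0 ≤ ∫ ω, P.trC2 k ω ∂P.μ := fun k => integral_nonneg fun ω => by unfold L8P.trC2; positivity
  have hD0 : ∀ k, 0 ≤ P.D2 k := fun k => (bud_bm_sq_L2_parts P h k).1
  have hS := P.l8s_S_mono h
  obtain ⟨N, t, htm, ht0, htN, hup, hlo⟩ := bud_bm_slide_part nu hh0 (k1 - k0) k0 k1 le_rfl hk hmesh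
  set δ : ℕ → ℝ := fun i => ∑ k ∈ Ico (t i) (t (i + 1)), nu k * P.D2 k with hδ
  set g : ℕ → ℝ := fun i => c * (∑ k ∈ Ico (t i) (t (i + 1)), nu k * ∫ ω, P.W k ω ∂P.μ) / (kap * hh) with hg
  set τ : ℕ → ℝ := fun i => ∑ k ∈ Ico (t i) (t (i + 1)), nu k * ∫ ω, P.trC2 k ω ∂P.μ with hτ
  set σ : ℕ → ℝ := fun i => P.S (t (i + 1)) - P.S (t i) with hσ
  have hδ0 : ∀ i, 0 ≤ δ i := fun i => sum_nonneg fun k _ => mul_nonneg (hnu k) (hD0 k)
  have hg0 : ∀ i, 0 ≤ g i := fun i => div_nonneg (mul_nonneg hc (sum_nonneg fun k _ => mul_nonneg (hnu k) (hW0 k))) (by positivity)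
  have hτ0 : ∀ i, 0 ≤ τ i := fun i => sum_nonneg fun k _ => mul_nonneg (hnu k) (hT0 k)
  have hσ0 : ∀ i, 0 ≤ σ i := fun i => sub_nonneg.2 (hS (htm (Nat.le_succ i)))
  have eX : ∑ k ∈ Ico k0 k1, nu k * P.D2 k = ∑ i ∈ range N, δ i := by rw [← ht0, ← htN]; exact l8sb_sum_blocks t htm N _
  have eG : ∑ i ∈ range N, g i ≤ c * Wt / (kap * hh) := by
    rw [← sum_div, ← mul_sum, ← l8sb_sum_blocks t htm N, ht0, htN]
    exact div_le_div_of_nonneg_right (mul_le_mul_of_nonneg_left hW hc) (by positivity)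
  have eT : ∑ i ∈ range N, τ i ≤ Tt := by
    rw [← l8sb_sum_blocks t htm N, ht0, htN]; exact hT
  have eS : ∑ i ∈ range N, σ i = P.S k1 - P.S k0 := by
    rw [sum_range_sub (fun i => P.S (t i)) N, ht0, htN]
  have hO0 : 0 ≤ O := (sub_nonneg.2 (hS hk)).trans hO
  have hin : ∀ i, i ≤ N → k0 ≤ t i ∧ t i ≤ k1 := fun i hi => ⟨ht0 ▸ htm (Nat.zero_le i), htN ▸ htm hi⟩
  have hE : ∀ i < N, δ i ≤ 3 * hh / 4 * Dm ^ 2 := by
    intro i hi
    calc δ i ≤ ∑ k ∈ Ico (t i) (t (i + 1)), nu k * Dm ^ 2 := sum_le_sum fun k hk' => mul_le_mul_of_nonneg_left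
          (hD k (mem_Ico.2 ⟨(hin i hi.le).1.trans (mem_Ico.1 hk').1, (mem_Ico.1 hk').2.trans_le (hin (i + 1) hi).2⟩)) (hnu k)
      _ = (∑ k ∈ Ico (t i) (t (i + 1)), nu k) * Dm ^ 2 := by rw [sum_mul]
      _ ≤ _ := mul_le_mul_of_nonneg_right (hup i hi) (sq_nonneg _)
  have hends := bud_bm_slide_ends N δ _ hE (by positivity)
  have hblk : ∀ i ∈ range (N - 3), 4 / 5 * δ (i + 1) ≤ 60 * g (i + 0) + 60 * g (i + 2) + 75 / 4 * hh * (O * (σ (i + 0) + σ (i + 1) + σ (i + 2)))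
      + 18021 * τ (i + 1) + 27030 * τ (i + 2) + 3 / 20 * (δ (i + 0) + δ (i + 2)) := by
    intro i hi
    have hi' : i + 3 < N := by have := mem_range.1 hi; omega
    have := bud_bm_slide_blk P h hc hpin nu hnu hkap hh0 (p := t i) (q := t (i + 1)) (r := t (i + 2)) (s := t (i + 3)) (htm (by omega)) (htm (by omega)) (htm (by omega))
      ((hin (i + 3) hi'.le).2.trans hk1)
      (fun k hk' => hfl k (mem_Ico.2 ⟨(hin i (by omega)).1.trans (mem_Ico.1 hk').1, (mem_Ico.1 hk').2.trans_le (hin (i + 3) hi'.le).2⟩))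
      (hlo i (by omega)) (hlo (i + 2) (by omega)) (hup (i + 1) (by omega))
    have ho : (P.S (t (i + 3)) - P.S (t i)) ^ 2 ≤ O * (σ (i + 0) + σ (i + 1) + σ (i + 2)) := by
      have e : σ (i + 0) + σ (i + 1) + σ (i + 2) = P.S (t (i + 3)) - P.S (t i) := by simp only [hσ, add_zero]; ring
      rw [e, sq]
      refine mul_le_mul_of_nonneg_right ?_ (sub_nonneg.2 (hS (htm (by omega))))
      have a1 := hS (hin (i + 3) hi'.le).2
      have a2 := hS (hin i (by omega)).1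
      linarith
    have := mul_le_mul_of_nonneg_left ho (by positivity : 0 ≤ 75 / 4 * hh)
    simp only [hδ, hg, hτ, add_zero] at *
    linarith
  have hsum := sum_le_sum hblk
  simp only [sum_add_distrib, ← mul_sum] at hsum
  have sh : ∀ (f : ℕ → ℝ), (∀ i, 0 ≤ f i) → ∀ a ≤ 2, ∑ i ∈ range (N - 3), f (i + a) ≤ ∑ i ∈ range N, f i := fun f hf a ha =>
    bud_bm_slide_shift f hf (N - 3) a N (by omega)
  have s1 := sh g hg0 0 (by omega)
  have s2 := sh g hg0 2 (by omega)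
  have s3 := sh σ hσ0 0 (by omega)
  have s4 := sh σ hσ0 1 (by omega)
  have s5 := sh σ hσ0 2 (by omega)
  have s6 := sh τ hτ0 1 (by omega)
  have s7 := sh τ hτ0 2 (by omega)
  have s8 := sh δ hδ0 0 (by omega)
  have s9 := sh δ hδ0 2 (by omega)
  have hQ : 75 / 4 * hh * (O * (∑ i ∈ range (N - 3), σ (i + 0) + ∑ i ∈ range (N - 3), σ (i + 1) + ∑ i ∈ range (N - 3), σ (i + 2))) ≤ 225 / 4 * (hh * O ^ 2) := by
    have : O * (∑ i ∈ range (N - 3), σ (i + 0) + ∑ i ∈ range (N - 3), σ (i + 1) + ∑ i ∈ range (N - 3), σ (i + 2)) ≤ O * (3 * O) :=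
      mul_le_mul_of_nonneg_left (by linarith) hO0
    have := mul_le_mul_of_nonneg_left this (by positivity : 0 ≤ 75 / 4 * hh)
    linarith
  have p1 : 0 ≤ hh * Dm ^ 2 := by positivity
  have p2 : 0 ≤ hh * O ^ 2 := by positivity
  have p3 : 0 ≤ c * Wt / (kap * hh) := (sum_nonneg fun i _ => hg0 i).trans eG
  have p4 : 0 ≤ Tt := (sum_nonneg fun i _ => hτ0 i).trans eT
  rw [eX]
  linarith

theorem bud_bm_sus_trC2_bd (P : L8P Ω m) (h : P.Ok) (k : ℕ) : L8Bd (P.trC2 k) :=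
  L8Bd.sum _ fun i _ => L8Bd.sum _ fun j _ => (P.l8s_W_bd_C h k i j).pow 2

theorem bud_bm_sus_trCH_bd (P : L8P Ω m) (h : P.Ok) (k : ℕ) : L8Bd (P.trCH k) :=
  L8Bd.sum _ fun i _ => L8Bd.sum _ fun j _ => (P.l8s_W_bd_C h k i j).mul (P.l8s_W_bd_H h k i j)

theorem bud_bm_sus_trC2_nonneg (P : L8P Ω m) (k : ℕ) (ω : Ω) : 0 ≤ P.trC2 k ω := by
  unfold L8P.trC2; positivity

/-- integrated `E W` and `E tr C²` from the susceptibility (A1) line 2: field slope `≥ C0` w.r.t. `nu`, masses `≥ vlo` -/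
theorem bud_bm_sus (P : L8P Ω m) (h : P.Ok) {c : ℝ} (hc : 0 < c) (hs : P.Sus c) (hm : 0 < m) {k0 k1 : ℕ} (hk : k0 ≤ k1) (hk1 : k1 ≤ P.n) (nu : ℕ → ℝ) (hnu : ∀ k, 0 ≤ nu k)
    {C0 vlo : ℝ} (hC0 : 0 < C0) (hvlo : 0 < vlo) (hsl : ∀ k ∈ Ico k0 k1, C0 * nu k ≤ P.dh k) (hv : ∀ k ∈ Ico k0 k1, vlo ≤ P.v k) :
    ∑ k ∈ Ico k0 k1, nu k * ∫ ω, P.W k ω ∂P.μ ≤ (P.S k1 - P.S k0) / (c * m * C0 * vlo) ∧
    ∑ k ∈ Ico k0 k1, nu k * ∫ ω, P.trC2 k ω ∂P.μ ≤ (P.S k1 - P.S k0) / (c * m * C0 * vlo ^ 2) := by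
  have := h.prob
  have hm' : (0:ℝ) < m := by exact_mod_cast hm
  have hW0 : ∀ k, 0 ≤ ∫ ω, P.W k ω ∂P.μ := fun k => integral_nonneg (P.l8s_W_nonneg h k)
  have h0 := P.l8s_sum_W_le h hc hs hk hk1
  have h1 : ∑ k ∈ Ico k0 k1, nu k * ∫ ω, P.W k ω ∂P.μ ≤ (P.S k1 - P.S k0) / (c * m * C0 * vlo) := by
    rw [le_div_iff₀ (by positivity), sum_mul]
    refine le_trans (sum_le_sum fun k hk => ?_) h0
    have h2 : C0 * nu k * vlo ≤ P.dh k * P.v k :=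
      mul_le_mul (hsl k hk) (hv k hk) hvlo.le (h.dh_nonneg k)
    calc nu k * (∫ ω, P.W k ω ∂P.μ) * (c * m * C0 * vlo) = (c * m) * (C0 * nu k * vlo) * ∫ ω, P.W k ω ∂P.μ := by ring
      _ ≤ (c * m) * (P.dh k * P.v k) * ∫ ω, P.W k ω ∂P.μ :=
          mul_le_mul_of_nonneg_right (mul_le_mul_of_nonneg_left h2 (by positivity)) (hW0 k)
      _ = _ := by ring
  refine ⟨h1, ?_⟩
  have h3 : ∀ k ∈ Ico k0 k1, vlo * ∫ ω, P.trC2 k ω ∂P.μ ≤ ∫ ω, P.W k ω ∂P.μ := by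
    intro k hk
    have hkn : k ≤ P.n + 1 := by have := (mem_Ico.1 hk).2; omega
    rw [P.l8s_integral_W h k, ← integral_const_mul]
    refine integral_mono (((bud_bm_sus_trC2_bd P h k).const_mul _).integrable _) ((bud_bm_sus_trCH_bd P h k).integrable _) fun ω => ?_
    exact (mul_le_mul_of_nonneg_right (hv k hk) (bud_bm_sus_trC2_nonneg P k ω)).trans (P.l8s_trC2_le h hkn ω)
  have h4 : vlo * ∑ k ∈ Ico k0 k1, nu k * ∫ ω, P.trC2 k ω ∂P.μ ≤ ∑ k ∈ Ico k0 k1, nu k * ∫ ω, P.W k ω ∂P.μ := by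
    rw [mul_sum]
    refine sum_le_sum fun k hk => ?_
    calc vlo * (nu k * ∫ ω, P.trC2 k ω ∂P.μ) = nu k * (vlo * ∫ ω, P.trC2 k ω ∂P.μ) := by ring
      _ ≤ _ := mul_le_mul_of_nonneg_left (h3 k hk) (hnu k)
  have h5 := h4.trans h1
  rw [le_div_iff₀ (by positivity)] at h5 ⊢
  calc _ = vlo * (∑ k ∈ Ico k0 k1, nu k * ∫ ω, P.trC2 k ω ∂P.μ) * (c * m * C0 * vlo) := by ring
    _ ≤ _ := h5

/-! ## 7. AL : the alias error -/

/-- (A3) at order 2 with an anchor measurable at the beginning of the projection interval -/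
theorem bud_bm_layer_gen (P : L8P Ω m) (h : P.Ok) {c vmin hmin : ℝ} (hp : P.Proj 1 c vmin hmin) {e k : ℕ} (hek : e < k) (hk : k ≤ P.n + 1)
    (hv : vmin ≤ P.v e) (hh : hmin ≤ P.hlen e k) (g : Fin m → Ω → ℝ) (hg : ∀ a, Measurable[P.ℱ e] (g a)) (hgb : ∀ a, L8Bd (g a)) :
    ∫ ω, (∑ a, g a ω * P.R k a ω) ^ 2 ∂P.μ ≤ c * (∫ ω, ∑ a, g a ω ^ 2 ∂P.μ) / mbxDen P e k := by
  have := h.prob
  have hF : L8Bd (fun ω => (∑ a, g a ω * P.R k a ω) ^ 2) := (L8Bd.sum _ fun a _ => (hgb a).mul (P.l8sb_R_bd h k a)).pow 2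
  rw [← P.l8s_integral_E h e hF, mul_div_assoc, mul_comm c, ← integral_div, ← integral_mul_const]
  refine integral_mono ((P.l8s_E_bd h e hF).integrable _) ((((L8Bd.sum _ fun a _ => (hgb a).pow 2).div_const _).mul_const _).integrable _) fun ω => ?_
  have e1 := l8k_E_freeze (P := P) h hg (fun u x => (∑ a, u a * P.R k a x) ^ 2) ω
  have e2 := hp e k hek hk hv hh ω (fun a => g a ω)
  simp only [mul_one, pow_one] at e2
  calc P.E e (fun ω => (∑ a, g a ω * P.R k a ω) ^ 2) ω = P.E e (fun x => (∑ a, g a ω * P.R k a x) ^ 2) ω := e1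
    _ ≤ c * (∑ a, g a ω ^ 2) / (P.v e ^ 2 * m * P.hlen e k) := e2
    _ = _ := by unfold mbxDen; ring

/-- one past layer: `E ((X_e - X_b)·(y - X_k))² ≤ c (S_e - S_b)/(v_e² m Δh(e,k))`, `b ≤ e < k` -/
theorem bud_bm_layer (P : L8P Ω m) (h : P.Ok) {c vmin hmin : ℝ} (hp : P.Proj 1 c vmin hmin) {b e k : ℕ} (hbe : b ≤ e) (hek : e < k) (hk : k ≤ P.n + 1)
    (hv : vmin ≤ P.v e) (hh : hmin ≤ P.hlen e k) :
    ∫ ω, (∑ a, P.XX b e a ω * P.R k a ω) ^ 2 ∂P.μ ≤ c * (P.S e - P.S b) / mbxDen P e k := by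
  have := bud_bm_layer_gen P h hp hek hk hv hh (P.XX b e)
    (fun a => (P.l8s_X_sm h e a).measurable.sub ((P.l8s_X_sm h b a).measurable.mono (P.ℱ.mono hbe) le_rfl)) (fun a => P.l8sb_XX_bd h b e a)
  rwa [← P.l8s_S_sub h hbe] at this

/-- the initial anchor: `E (X_e·(y - X_k))² ≤ c S_e/(v_e² m Δh(e,k))`, `e < k` -/
theorem bud_bm_layer0 (P : L8P Ω m) (h : P.Ok) {c vmin hmin : ℝ} (hp : P.Proj 1 c vmin hmin) {e k : ℕ} (hek : e < k) (hk : k ≤ P.n + 1)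
    (hv : vmin ≤ P.v e) (hh : hmin ≤ P.hlen e k) :
    ∫ ω, (∑ a, P.X e a ω * P.R k a ω) ^ 2 ∂P.μ ≤ c * P.S e / mbxDen P e k := by
  exact bud_bm_layer_gen P h hp hek hk hv hh (P.X e) (fun a => (P.l8s_X_sm h e a).measurable) (fun a => P.l8s_X_bd h e a)

theorem bud_bm_alias_pt (P : L8P Ω m) (h : P.Ok) {c vmin hmin : ℝ} (hc : 0 ≤ c) (hp : P.Proj 1 c vmin hmin) {k : ℕ} (hk : k ≤ P.n + 1) (K : ℕ) (hK : 1 ≤ K) (t : ℕ → ℕ) (ht : Monotone t) (htK : t K ≤ k)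
    (sg : ℕ → ℝ) (hsg0 : ∀ i, 0 ≤ sg i)
    (hsg : ∀ i < K, t (i + 1) < k ∧ vmin ≤ P.v (t (i + 1)) ∧ hmin ≤ P.hlen (t (i + 1)) k ∧ 1 ≤ sg i * mbxDen P (t (i + 1)) k) :
    ∫ ω, P.xCx k ω ∂P.μ ≤ (K + 1) * (∑ j ∈ range K, c * sg j * (if j = 0 then P.S (t 1) else P.S (t (j + 1)) - P.S (t j)) + 4 * (P.S k - P.S (t K))) := by
  have := h.prob
  rw [← bud_bm_sq_L2_xCx P h k]
  set Y : ℕ → Fin m → Ω → ℝ := fun j a ω => if j = 0 then 0 else if j ≤ K then P.X (t j) a ω else P.X k a ω with hY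
  set D : ℕ → Ω → ℝ := fun j ω => ∑ a, (Y (j+1) a ω - Y j a ω) * P.R k a ω with hD
  have e1 : ∀ ω, ∑ a, P.X k a ω * P.R k a ω = ∑ j ∈ range (K+1), D j ω := by
    intro ω
    simp only [hD]
    rw [sum_comm]
    refine sum_congr rfl fun a _ => ?_
    rw [← sum_mul, sum_range_sub (fun j => Y j a ω)]
    simp [hY]
  have hYb : ∀ j a, L8Bd (Y j a) := by
    intro j a
    by_cases h0 : j = 0
    · have : Y j a = fun _ => 0 := by funext ω; simp [hY, h0]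
      rw [this]; exact l8sb_const 0
    · by_cases h1 : j ≤ K
      · have : Y j a = P.X (t j) a := by funext ω; simp [hY, h0, h1]
        rw [this]; exact P.l8s_X_bd h _ a
      · have : Y j a = P.X k a := by funext ω; simp [hY, h0, h1]
        rw [this]; exact P.l8s_X_bd h _ a
  have hDb : ∀ j, L8Bd (D j) := fun j => L8Bd.sum _ fun a _ => ((hYb (j+1) a).sub (hYb j a)).mul (P.l8sb_R_bd h k a)
  have hdiv : ∀ i < K, ∀ x : ℝ, 0 ≤ x → c * x / mbxDen P (t (i + 1)) k ≤ c * sg i * x := by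
    intro i hi x hx
    obtain ⟨-, -, -, h4⟩ := hsg i hi
    have hden : 0 < mbxDen P (t (i + 1)) k := by
      by_contra hcon
      have := mul_nonpos_of_nonneg_of_nonpos (hsg0 i) (not_lt.1 hcon)
      linarith
    rw [div_le_iff₀ hden]
    calc c * x = c * x * 1 := (mul_one _).symm
      _ ≤ c * x * (sg i * mbxDen P (t (i + 1)) k) := mul_le_mul_of_nonneg_left h4 (by positivity)
      _ = _ := by ring
  have hb : ∀ j ∈ range K, ∫ ω, D j ω ^ 2 ∂P.μ ≤ c * sg j * (if j = 0 then P.S (t 1) else P.S (t (j + 1)) - P.S (t j)) := by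
    intro j hj
    have hjK := mem_range.1 hj
    obtain ⟨h1, h2, h3, -⟩ := hsg j hjK
    by_cases h0 : j = 0
    · subst h0
      have e : ∀ ω, D 0 ω = ∑ a, P.X (t 1) a ω * P.R k a ω := by
        intro ω
        have h5 : (1:ℕ) ≤ K := hK
        have e0 : ∀ a, Y (0+1) a ω - Y 0 a ω = P.X (t 1) a ω := fun a => by simp [hY, h5]
        simp only [hD, e0]
      simp only [e, if_true]
      exact (bud_bm_layer0 P h hp h1 hk h2 h3).trans (hdiv 0 hjK _ (P.l8s_S_nonneg _))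
    · have e : ∀ ω, D j ω = ∑ a, P.XX (t j) (t (j+1)) a ω * P.R k a ω := by
        intro ω
        have h5 : j + 1 ≤ K := hjK
        have e0 : ∀ a, Y (j+1) a ω - Y j a ω = P.XX (t j) (t (j+1)) a ω := fun a => by simp [hY, h0, h5, hjK.le, L8P.XX]
        simp only [hD, e0]
      simp only [e, if_neg h0]
      exact (bud_bm_layer P h hp (ht (Nat.le_succ j)) h1 hk h2 h3).trans (hdiv j hjK _ (sub_nonneg.2 (P.l8s_S_mono h (ht (Nat.le_succ j)))))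
  have hl : ∫ ω, D K ω ^ 2 ∂P.μ ≤ 4 * (P.S k - P.S (t K)) := by
    have e : ∀ ω, D K ω = ∑ a, P.XX (t K) k a ω * P.R k a ω := by
      intro ω
      have h5 : K ≠ 0 := by omega
      have e0 : ∀ a, Y (K+1) a ω - Y K a ω = P.XX (t K) k a ω := fun a => by simp [hY, h5, L8P.XX]
      simp only [hD, e0]
    simp only [e]
    rw [P.l8s_S_sub h htK, ← integral_const_mul]
    refine integral_mono (((L8Bd.sum _ fun a _ => (P.l8sb_XX_bd h _ _ a).mul (P.l8sb_R_bd h k a)).pow 2).integrable _)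
      (((L8Bd.sum _ fun a _ => (P.l8sb_XX_bd h (t K) k a).pow 2).const_mul 4).integrable _) fun ω => ?_
    calc (∑ a, P.XX (t K) k a ω * P.R k a ω) ^ 2 ≤ (∑ a, P.XX (t K) k a ω ^ 2) * ∑ a, P.R k a ω ^ 2 := sum_mul_sq_le_sq_mul_sq _ _ _
      _ ≤ (∑ a, P.XX (t K) k a ω ^ 2) * 4 := mul_le_mul_of_nonneg_left (P.l8s_W_le_R h k ω) (by positivity)
      _ = _ := by ring
  calc ∫ ω, (∑ a, P.X k a ω * P.R k a ω) ^ 2 ∂P.μ ≤ ∫ ω, (K + 1 : ℝ) * ∑ j ∈ range (K+1), D j ω ^ 2 ∂P.μ := by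
        refine integral_mono (((L8Bd.sum _ fun a _ => (P.l8s_X_bd h _ a).mul (P.l8sb_R_bd h k a)).pow 2).integrable _)
          (((L8Bd.sum _ fun j _ => (hDb j).pow 2).const_mul _).integrable _) fun ω => ?_
        simp only [e1 ω]
        have := sq_sum_le_card_mul_sum_sq (s := range (K+1)) (f := fun j => D j ω)
        simpa using this
    _ = (K + 1) * (∑ j ∈ range K, ∫ ω, D j ω ^ 2 ∂P.μ + ∫ ω, D K ω ^ 2 ∂P.μ) := by
        rw [integral_const_mul, integral_finsetSum _ fun j _ => ((hDb j).pow 2).integrable _, sum_range_succ]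
    _ ≤ _ := by
        have := sum_le_sum hb
        gcongr

/-- **AL : THE ALIAS ERROR BY PAST LAYERS.**   TEX[LL:bud:box-moments]
For `k ∈ J` the past of `k` is cut at `t 1 k ≤ .. ≤ t K k < k` (`t 0` is not used):   `X_k = X_{t 1 k} + ∑_{1 ≤ i < K} (X_{t (i+1) k} - X_{t i k}) + (X_k - X_{t K k})`.
The initial anchor `X_{t 1 k}` (`i = 0`) and the layers `[t i k, t (i+1) k)`, `1 ≤ i < K`, are projected on `[t (i+1) k, k)` at the cost `sg i`; the last increment is not projected.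
`G 0`, `G i`, `G K` = box integrals of the squared norms (in expectation) of the anchor, of the layer `i`, of the last increment. -/
theorem bud_bm_alias (P : L8P Ω m) (h : P.Ok) {c vmin hmin : ℝ} (hc : 0 ≤ c) (hp : P.Proj 1 c vmin hmin) (J : Finset ℕ) (hJ : ∀ k ∈ J, k ≤ P.n + 1) (nu : ℕ → ℝ)
    (hnu : ∀ k ∈ J, 0 ≤ nu k) (K : ℕ) (t : ℕ → ℕ → ℕ) (ht : ∀ k ∈ J, Monotone fun i => t i k) (htK : ∀ k ∈ J, t K k ≤ k)
    (sg G : ℕ → ℝ) (hsg0 : ∀ i, 0 ≤ sg i)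
    (hsg : ∀ k ∈ J, ∀ i < K, t (i + 1) k < k ∧ vmin ≤ P.v (t (i + 1) k) ∧ hmin ≤ P.hlen (t (i + 1) k) k ∧ 1 ≤ sg i * mbxDen P (t (i + 1) k) k)
    (hG0 : ∑ k ∈ J, nu k * P.S (t 1 k) ≤ G 0)
    (hG : ∀ i, 1 ≤ i → i < K → ∑ k ∈ J, nu k * (P.S (t (i + 1) k) - P.S (t i k)) ≤ G i)
    (hGK : ∑ k ∈ J, nu k * (P.S k - P.S (t K k)) ≤ G K) (hK : 1 ≤ K) :
    ∑ k ∈ J, nu k * ∫ ω, P.xCx k ω ∂P.μ ≤ (K + 1) * (∑ i ∈ range K, c * sg i * G i + 4 * G K) := by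
  have h1 : ∑ k ∈ J, nu k * ∫ ω, P.xCx k ω ∂P.μ ≤ ∑ k ∈ J, nu k * ((K + 1) * (∑ j ∈ range K, c * sg j * (if j = 0 then P.S (t 1 k) else P.S (t (j + 1) k) - P.S (t j k)) + 4 * (P.S k - P.S (t K k)))) :=
    sum_le_sum fun k hk => mul_le_mul_of_nonneg_left (bud_bm_alias_pt P h hc hp (hJ k hk) K hK (fun i => t i k) (ht k hk) (htK k hk) sg hsg0 (hsg k hk)) (hnu k hk)
  refine h1.trans ?_
  have e : ∑ k ∈ J, nu k * ((K + 1) * (∑ j ∈ range K, c * sg j * (if j = 0 then P.S (t 1 k) else P.S (t (j + 1) k) - P.S (t j k)) + 4 * (P.S k - P.S (t K k))))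
      = (K + 1) * (∑ j ∈ range K, c * sg j * (∑ k ∈ J, nu k * (if j = 0 then P.S (t 1 k) else P.S (t (j + 1) k) - P.S (t j k))) + 4 * ∑ k ∈ J, nu k * (P.S k - P.S (t K k))) := by
    simp only [mul_sum, mul_add, sum_add_distrib]
    congr 1
    · rw [sum_comm]
      exact sum_congr rfl fun j _ => sum_congr rfl fun k _ => by ring
    · exact sum_congr rfl fun k _ => by ring
  rw [e]
  have h2 : ∀ j ∈ range K, c * sg j * (∑ k ∈ J, nu k * (if j = 0 then P.S (t 1 k) else P.S (t (j + 1) k) - P.S (t j k))) ≤ c * sg j * G j := by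
    intro j hj
    refine mul_le_mul_of_nonneg_left ?_ (mul_nonneg hc (hsg0 j))
    by_cases h0 : j = 0
    · subst h0; simpa using hG0
    · simp only [if_neg h0]; exact hG j (by omega) (mem_range.1 hj)
  have := sum_le_sum h2
  gcongr

end Claimed.Agent.R286
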