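import Claimed.Agent.R286.Bud.MomBoxA

/-!
# Row 286, LL sec. 7, node N13 = Lemma `bud:box-moments` (C15).   File MomBoxB : STEP-LEVEL GEOMETRY OF A BUFFER, FIRST ASSERTION      (architect helper176; prefix `bud_bm_`, defs `mbx*`, `Mbx*`)

NON-ASYMPTOTIC, on the abstract path `L8P` + a RADIUS LABELLING `ρ : ℕ → ℝ` of the cuts (the cut `k` occupies the radii `[ρ k, ρ (k+1)]`; `dρ k = ρ (k+1) - ρ k` is its weight in `∫ dr`).
INSTANCE (file MomBoxI): `P = skSP m 1 (Q.stp g ps)`, `ρ = Q.rho ps` (198, `Bud/Mom.lean`) on all fine chains: there `dv k = α(ρ (k+1)) - α(ρ k) ≥ κ dρ k` and `dh k ≥ C0 dρ k` EXACTLY.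

TeX l.1470-1535 of 07-budgets:
* `MbxGeo`           the record: buffer `[lo,hi]`, gap `g`, patch = cuts `< o 0` above `lo` (masses in `[vlo,vhi]`, field slope `C0`), floor `kap`, oscillation of `S`, fixed outer cuts `o 0 < .. < o Ko = n+1`.
* `mbxT`             the blocks of a fork `s`: `[s, s+l0)`, dyadic distances `2^(j-1) l0 .. 2^j l0` (`1 ≤ j < K1`), `[s + 2^(K1-1) l0, o 0)`, then the fixed outer blocks.
* `bud_bm_wl_buf`    (WL) `‖∑_{[k0,k1)} dρ W‖_r ≤ mbxWLR`     = `u³A³ Δ (𝒬_k + λ^{-ρ})` of l.1487.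
* `bud_bm_step`      one step of the recurrence `𝒬_{k+1} ≤ 64 (3 CS + √(T (𝒬_k + Lo)))`, and `‖|X_k|² - S_k‖_{2r}`.
* `bud_bm_ratio`     the iteration over the nested buffers `[lo + 2 g j, hi - 2 g j]` (numbers `mbxQ`; solved by `bpe_rec`, `bpe_rec_bdd` of `Bud/PowE.lean`).
* `bud_bm_delta`     `‖Q - S_k‖_{2r}` at a fork of the innermost buffer: projection of both leaves at the distance `d0`, synchronised layers, polarisation.
Every `sorry` is ONE LEAF: claim it in claim286 by its Lean name, replace ONLY your sorry (helpers just above, name = theorem + suffix), land directly.   False or awkward statement: one line to 176.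
-/

set_option autoImplicit false

namespace Claimed.Agent.R286

open MeasureTheory ProbabilityTheory Finset
open scoped ENNReal

variable {Ω : Type} [mΩ : MeasurableSpace Ω] {m : ℕ}

/-! ## 1. The first cut beyond a radius -/

open Classical in
/-- the first cut `k ≤ N` with `x ≤ ρ k` (`N` if there is none) -/
noncomputable def mbxCut (ρ : ℕ → ℝ) (N : ℕ) (x : ℝ) : ℕ := if h : ∃ k, k ≤ N ∧ x ≤ ρ k then Nat.find h else N

theorem bud_bm_cut_le (ρ : ℕ → ℝ) (N : ℕ) (x : ℝ) : mbxCut ρ N x ≤ N := by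
  unfold mbxCut
  split_ifs with h
  · exact (Nat.find_spec h).1
  · exact le_rfl

theorem bud_bm_cut_spec {ρ : ℕ → ℝ} {N : ℕ} {x : ℝ} (h : x ≤ ρ N) : x ≤ ρ (mbxCut ρ N x) := by
  have h' : ∃ k, k ≤ N ∧ x ≤ ρ k := ⟨N, le_rfl, h⟩
  unfold mbxCut
  rw [dif_pos h']
  exact (Nat.find_spec h').2

theorem bud_bm_cut_lt {ρ : ℕ → ℝ} {N : ℕ} {x : ℝ} {k : ℕ} (h : k < mbxCut ρ N x) : ρ k < x := by
  by_contra hc
  have hkN : k ≤ N := h.le.trans (bud_bm_cut_le ρ N x)
  have h' : ∃ k, k ≤ N ∧ x ≤ ρ k := ⟨k, hkN, not_lt.1 hc⟩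
  unfold mbxCut at h
  rw [dif_pos h'] at h
  exact Nat.find_min h' h ⟨hkN, not_lt.1 hc⟩

theorem bud_bm_cut_le_of {ρ : ℕ → ℝ} {N : ℕ} {x : ℝ} {k : ℕ} (hk : k ≤ N) (h : x ≤ ρ k) : mbxCut ρ N x ≤ k := by
  by_contra hc
  exact absurd (bud_bm_cut_lt (not_le.1 hc)) (not_lt.2 h)

theorem bud_bm_cut_le_iff {ρ : ℕ → ℝ} (hρ : Monotone ρ) {N : ℕ} {x : ℝ} (hN : x ≤ ρ N) {k : ℕ} (hk : k ≤ N) : mbxCut ρ N x ≤ k ↔ x ≤ ρ k :=
  ⟨fun h => (bud_bm_cut_spec hN).trans (hρ h), bud_bm_cut_le_of hk⟩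

theorem bud_bm_cut_mono (ρ : ℕ → ℝ) (N : ℕ) : Monotone (mbxCut ρ N) := by
  intro x y hxy
  by_contra hc
  have h1 := bud_bm_cut_lt (not_le.1 hc)
  by_cases hy : ∃ k, k ≤ N ∧ y ≤ ρ k
  · have h2 : y ≤ ρ (mbxCut ρ N y) := by
      unfold mbxCut
      rw [dif_pos hy]
      exact (Nat.find_spec hy).2
    linarith
  · have h3 : mbxCut ρ N y = N := by
      unfold mbxCut
      rw [dif_neg hy]
    rw [h3] at hc
    exact hc (bud_bm_cut_le ρ N x)

/-- with the mesh `η`: the first cut beyond `x` is at a radius `< x + η` -/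
theorem bud_bm_cut_mesh {ρ : ℕ → ℝ} {N : ℕ} {x η : ℝ} {k0 : ℕ} (h0 : ρ k0 < x) (hk0 : k0 ≤ N)
    (hmesh : ∀ k, k0 ≤ k → k < N → ρ (k + 1) - ρ k ≤ η) (hρ : Monotone ρ) : ρ (mbxCut ρ N x) < x + η ∨ mbxCut ρ N x = N := by
  by_cases h : ∃ k, k ≤ N ∧ x ≤ ρ k
  · have hspec : x ≤ ρ (mbxCut ρ N x) := by
      unfold mbxCut
      rw [dif_pos h]
      exact (Nat.find_spec h).2
    rcases lt_or_eq_of_le (bud_bm_cut_le ρ N x) with hlt | heq
    · left
      have hk : k0 < mbxCut ρ N x := by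
        by_contra hc
        have := hρ (not_lt.1 hc)
        linarith
      have h1 : ρ (mbxCut ρ N x - 1) < x := bud_bm_cut_lt (N := N) (by omega)
      have h2 := hmesh (mbxCut ρ N x - 1) (by omega) (by omega)
      rw [Nat.sub_add_cancel (by omega)] at h2
      linarith
    · exact Or.inr heq
  · right
    unfold mbxCut
    rw [dif_neg h]

/-! ## 2. The record -/

/-- numerical parameters of a buffer at step level -/
structure MbxPar where
  /-- the buffer in radius -/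
  lo : ℝ
  hi : ℝ
  /-- gap between nested buffers (one step of the recurrence uses `2 g` on each side) -/
  g : ℝ
  d0 : ℝ
  /-- the windows attached to two cuts at the distance `ℓ` have the length `gam (d0 + ℓ)` -/
  gam : ℝ
  /-- mesh in radius -/
  eta : ℝ
  /-- first layer -/
  l0 : ℝ
  /-- number of dyadic thresholds `l0, 2 l0, .., 2^(K1-1) l0` -/
  K1 : ℕ
  /-- number of fixed outer blocks -/
  Ko : ℕ
  vlo : ℝ
  vhi : ℝ
  C0 : ℝ
  kap : ℝ
  CS : ℝ

namespace MbxPar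
variable (p : MbxPar)
/-- the largest sliding distance -/
def Ls : ℝ := 2 ^ (p.K1 - 1) * p.l0
/-- number of blocks -/
def K : ℕ := p.K1 + 1 + p.Ko
/-- start distance (= length) of the sliding block `j` -/
def len (j : ℕ) : ℝ := 2 ^ (j - 1) * p.l0
/-- the buffer shrunk `j` times -/
def shr (j : ℕ) : MbxPar := { p with lo := p.lo + 2 * p.g * j, hi := p.hi - 2 * p.g * j }
end MbxPar

/-- **step-level geometry of a buffer**.   `o i` = fixed outer cuts, `po i` = start of the projection interval of the outer block `[o i, o (i+1))`,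
`mo i` its largest mass, `so i` its projection cost.      PRODUCER: `bud_bm_inst` (MomBoxI). -/
structure MbxGeo (P : L8P Ω m) (ρ : ℕ → ℝ) (p : MbxPar) (o po : ℕ → ℕ) (mo so : ℕ → ℝ) (vmin hmin : ℝ) : Prop where
  m_pos : 0 < m
  mono : Monotone ρ
  lohi : p.lo ≤ p.hi
  g_pos : 0 < p.g
  d0_pos : 0 < p.d0
  gam_pos : 0 < p.gam
  gam_le : p.gam ≤ 1
  eta_nn : 0 ≤ p.eta
  eta_l0 : p.eta ≤ p.l0
  eta_d0 : p.eta ≤ p.gam * p.d0 / 4
  l0_pos : 0 < p.l0
  l0_le : p.l0 ≤ p.gam * p.d0 / 4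
  K1_pos : 1 ≤ p.K1
  vlo_pos : 0 < p.vlo
  C0_pos : 0 < p.C0
  kap_pos : 0 < p.kap
  CS_nn : 0 ≤ p.CS
  /-- the windows fit in a gap -/
  fit : p.gam * (p.d0 + (p.hi - p.lo)) + p.eta ≤ p.g
  g_Ls : p.g ≤ p.Ls
  /-- the patch -/
  mesh : ∀ k < o 0, p.lo ≤ ρ (k + 1) → ρ (k + 1) - ρ k ≤ p.eta
  below : ρ 0 < p.lo
  slope : ∀ k < o 0, p.lo ≤ ρ k → p.C0 * (ρ (k + 1) - ρ k) ≤ P.dh k
  mass : ∀ k < o 0, p.lo ≤ ρ k → p.vlo ≤ P.v k ∧ P.v k ≤ p.vhi
  floor : ∀ k, p.lo ≤ ρ k → ρ (k + 1) ≤ p.hi → p.kap * (ρ (k + 1) - ρ k) ≤ P.dv k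
  Sosc : ∀ k l, k ≤ l → p.lo ≤ ρ k → ρ l ≤ p.hi → P.S l - P.S k ≤ p.CS * (p.d0 + (ρ l - ρ k))
  vmin_le : vmin ≤ p.vlo
  hmin_le : hmin ≤ p.C0 * p.l0
  /-- the outer cuts -/
  o_mono : Monotone o
  o_top : o p.Ko = P.n + 1
  o_zero : p.hi + p.Ls ≤ ρ (o 0)
  o_le : o 0 ≤ P.n
  mo_nn : ∀ i, 0 ≤ mo i
  mo_mono : Monotone mo
  vhi_mo : p.vhi ≤ mo 0
  so_nn : ∀ i, 0 ≤ so i
  o_mass : ∀ i < p.Ko, P.v (o (i + 1) - 1) ≤ mo i
  o_proj : ∀ i < p.Ko, p.hi < ρ (po i) ∧ po i < o i ∧ vmin ≤ P.v (po i) ∧ hmin ≤ P.hlen (po i) (o i) ∧ 1 ≤ so i * mbxDen P (po i) (o i)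

/-- the `2r`-th moments of the squared increments between cuts of `[lo,hi]` are bounded by `Qo (d0 + distance)` : "`𝒬 ≤ Qo`" -/
def MbxRat (P : L8P Ω m) (ρ : ℕ → ℝ) (lo hi d0 : ℝ) (q : ℕ) (Qo : ℝ) : Prop :=
  ∀ k l, k ≤ l → lo ≤ ρ k → ρ l ≤ hi → ∫ ω, P.nXX k l ω ^ q ∂P.μ ≤ (Qo * (d0 + (ρ l - ρ k))) ^ q

/-- shrinking the buffer keeps the geometry -/
theorem bud_bm_geo_shr {P : L8P Ω m} {ρ : ℕ → ℝ} {p : MbxPar} {o po : ℕ → ℕ} {mo so : ℕ → ℝ} {vmin hmin : ℝ} (G : MbxGeo P ρ p o po mo so vmin hmin) (j : ℕ)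
    (hj : p.lo + 2 * p.g * j ≤ p.hi - 2 * p.g * j) : MbxGeo P ρ (p.shr j) o po mo so vmin hmin := by
  have hj0 : 0 ≤ 2 * p.g * j := by
    have := G.g_pos
    positivity
  exact
    { m_pos := G.m_pos
      mono := G.mono
      lohi := hj
      g_pos := G.g_pos
      d0_pos := G.d0_pos
      gam_pos := G.gam_pos
      gam_le := G.gam_le
      eta_nn := G.eta_nn
      eta_l0 := G.eta_l0
      eta_d0 := G.eta_d0
      l0_pos := G.l0_pos
      l0_le := G.l0_le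
      K1_pos := G.K1_pos
      vlo_pos := G.vlo_pos
      C0_pos := G.C0_pos
      kap_pos := G.kap_pos
      CS_nn := G.CS_nn
      fit := by
        show p.gam * (p.d0 + ((p.hi - 2 * p.g * j) - (p.lo + 2 * p.g * j))) + p.eta ≤ p.g
        have h1 : p.gam * (p.d0 + ((p.hi - 2 * p.g * j) - (p.lo + 2 * p.g * j))) ≤ p.gam * (p.d0 + (p.hi - p.lo)) :=
          mul_le_mul_of_nonneg_left (by linarith) G.gam_pos.le
        linarith [G.fit]
      g_Ls := G.g_Ls
      mesh := fun k hk h => G.mesh k hk (by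
        have : p.lo + 2 * p.g * j ≤ ρ (k + 1) := h
        linarith)
      below := by
        show ρ 0 < p.lo + 2 * p.g * j
        linarith [G.below]
      slope := fun k hk h => G.slope k hk (by
        have : p.lo + 2 * p.g * j ≤ ρ k := h
        linarith)
      mass := fun k hk h => G.mass k hk (by
        have : p.lo + 2 * p.g * j ≤ ρ k := h
        linarith)
      floor := fun k h h' => G.floor k (by
        have : p.lo + 2 * p.g * j ≤ ρ k := h
        linarith) (by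
        have : ρ (k + 1) ≤ p.hi - 2 * p.g * j := h'
        linarith)
      Sosc := fun k l hkl h h' => G.Sosc k l hkl (by
        have : p.lo + 2 * p.g * j ≤ ρ k := h
        linarith) (by
        have : ρ l ≤ p.hi - 2 * p.g * j := h'
        linarith)
      vmin_le := G.vmin_le
      hmin_le := G.hmin_le
      o_mono := G.o_mono
      o_top := G.o_top
      o_zero := by
        show p.hi - 2 * p.g * j + p.Ls ≤ ρ (o 0)
        linarith [G.o_zero]
      o_le := G.o_le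
      mo_nn := G.mo_nn
      mo_mono := G.mo_mono
      vhi_mo := G.vhi_mo
      so_nn := G.so_nn
      o_mass := G.o_mass
      o_proj := fun i hi => by
        obtain ⟨h1, h2⟩ := G.o_proj i hi
        refine ⟨?_, h2⟩
        show p.hi - 2 * p.g * j < ρ (po i)
        linarith }

/-- field length of a radius interval in the patch -/
theorem bud_bm_geo_hlen {P : L8P Ω m} {ρ : ℕ → ℝ} {p : MbxPar} {o po : ℕ → ℕ} {mo so : ℕ → ℝ} {vmin hmin : ℝ} (G : MbxGeo P ρ p o po mo so vmin hmin)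
    {k l : ℕ} (hkl : k ≤ l) (hl : l ≤ o 0) (hk : p.lo ≤ ρ k) : p.C0 * (ρ l - ρ k) ≤ P.hlen k l := by
  unfold L8P.hlen
  rw [← Finset.sum_Ico_sub ρ hkl, Finset.mul_sum]
  refine Finset.sum_le_sum fun j hj => ?_
  obtain ⟨h1, h2⟩ := Finset.mem_Ico.1 hj
  exact G.slope j (by omega) (hk.trans (G.mono h1))

/-! ## 3. The blocks of a fork, (WL) in a buffer -/

/-- the cuts of the blocks of the fork `s` -/
noncomputable def mbxT (ρ : ℕ → ℝ) (p : MbxPar) (o : ℕ → ℕ) (j s : ℕ) : ℕ :=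
  if j = 0 then s else if j ≤ p.K1 then mbxCut ρ (o 0) (ρ s + p.len j) else o (j - p.K1 - 1)

/-- Hessian weights of the blocks -/
noncomputable def mbxMu (p : MbxPar) (mo : ℕ → ℝ) (j : ℕ) : ℝ := if j ≤ p.K1 then p.vhi else mo (j - p.K1 - 1)

/-- projection costs of the blocks `j ≥ 1` -/
noncomputable def mbxSg (m : ℕ) (p : MbxPar) (so : ℕ → ℝ) (j : ℕ) : ℝ := if j ≤ p.K1 then 1 / (p.vlo ^ 2 * m * (p.C0 * p.len j)) else so (j - p.K1 - 1)

/-- integrated squared increments of the blocks, window of length `D`; `Rp ≥ ‖|X_{o 0}|²‖_r`, `Ro i ≥ ‖|X_{o i}|²‖_r` -/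
noncomputable def mbxG (p : MbxPar) (r : ℕ) (Qo Rp D : ℝ) (Ro : ℕ → ℝ) (j : ℕ) : ℝ :=
  if j < p.K1 then
    (if 2 * p.len j + p.eta ≤ p.g then
      min (4 * D * Rp) (if p.len j ≤ D then 32 * r * (p.len j + p.eta) * min 4 (Qo * (p.d0 + D + p.len j + p.eta)) else D * (Qo * (p.d0 + p.len j + p.eta)))
    else 4 * D * Rp)
  else if j = p.K1 then 4 * D * Rp else 4 * D * Ro (j - p.K1)

section blocks

variable {P : L8P Ω m} {ρ : ℕ → ℝ} {p : MbxPar} {o po : ℕ → ℕ} {mo so : ℕ → ℝ} {vmin hmin : ℝ}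

theorem bud_bm_T_slide {j : ℕ} (hj0 : j ≠ 0) (hj : j ≤ p.K1) (s : ℕ) : mbxT ρ p o j s = mbxCut ρ (o 0) (ρ s + p.len j) := by
  unfold mbxT
  rw [if_neg hj0, if_pos hj]

theorem bud_bm_T_outer {j : ℕ} (hj : p.K1 < j) (s : ℕ) : mbxT ρ p o j s = o (j - p.K1 - 1) := by
  unfold mbxT
  rw [if_neg (show j ≠ 0 by omega), if_neg (show ¬ j ≤ p.K1 by omega)]

theorem bud_bm_T_len_pos (G : MbxGeo P ρ p o po mo so vmin hmin) (j : ℕ) : 0 < p.len j := by
  unfold MbxPar.len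
  exact mul_pos (by positivity) G.l0_pos

theorem bud_bm_T_len_mono (G : MbxGeo P ρ p o po mo so vmin hmin) {i j : ℕ} (hij : i ≤ j) : p.len i ≤ p.len j := by
  unfold MbxPar.len
  exact mul_le_mul_of_nonneg_right (pow_le_pow_right₀ (by norm_num) (by omega)) G.l0_pos.le

theorem bud_bm_T_len_Ls (G : MbxGeo P ρ p o po mo so vmin hmin) {j : ℕ} (hj : j ≤ p.K1) : p.len j ≤ p.Ls :=
  bud_bm_T_len_mono G hj

theorem bud_bm_T_l0_len (G : MbxGeo P ρ p o po mo so vmin hmin) (j : ℕ) : p.l0 ≤ p.len j := by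
  unfold MbxPar.len
  exact le_mul_of_one_le_left G.l0_pos.le (one_le_pow₀ (by norm_num))

/-- a sliding cut is strictly after the fork and reaches its radius -/
theorem bud_bm_T_cut_gt (G : MbxGeo P ρ p o po mo so vmin hmin) {s : ℕ} (hs : ρ s ≤ p.hi) {x : ℝ} (hx0 : 0 < x) (hx : x ≤ p.Ls) :
    s < mbxCut ρ (o 0) (ρ s + x) ∧ ρ s + x ≤ ρ (mbxCut ρ (o 0) (ρ s + x)) := by
  have hspec : ρ s + x ≤ ρ (mbxCut ρ (o 0) (ρ s + x)) := bud_bm_cut_spec (by linarith [G.o_zero])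
  refine ⟨?_, hspec⟩
  by_contra hc
  have := G.mono (not_lt.1 hc)
  linarith

theorem bud_bm_T_mono (G : MbxGeo P ρ p o po mo so vmin hmin) {s : ℕ} (hs : ρ s ≤ p.hi) : Monotone fun j => mbxT ρ p o j s := by
  refine monotone_nat_of_le_succ fun j => ?_
  have hK1 := G.K1_pos
  show mbxT ρ p o j s ≤ mbxT ρ p o (j + 1) s
  rcases Nat.eq_zero_or_pos j with rfl | hj0
  · have : mbxT ρ p o 0 s = s := by simp [mbxT]
    rw [this, bud_bm_T_slide (j := 0 + 1) (by omega) (by omega)]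
    exact (bud_bm_T_cut_gt G hs (bud_bm_T_len_pos G _) (bud_bm_T_len_Ls G (by omega))).1.le
  · rcases lt_trichotomy j p.K1 with h1 | h1 | h1
    · rw [bud_bm_T_slide (by omega) h1.le, bud_bm_T_slide (by omega) (by omega)]
      exact bud_bm_cut_mono ρ (o 0) (by linarith [bud_bm_T_len_mono G (Nat.le_succ j)])
    · rw [bud_bm_T_slide (by omega) h1.le, bud_bm_T_outer (by omega)]
      have : j + 1 - p.K1 - 1 = 0 := by omega
      rw [this]
      exact bud_bm_cut_le _ _ _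
    · rw [bud_bm_T_outer h1, bud_bm_T_outer (by omega)]
      exact G.o_mono (by omega)

theorem bud_bm_T_zero (s : ℕ) : mbxT ρ p o 0 s = s := by
  simp [mbxT]

theorem bud_bm_T_top (G : MbxGeo P ρ p o po mo so vmin hmin) (s : ℕ) : mbxT ρ p o p.K s = P.n + 1 := by
  rw [bud_bm_T_outer (by unfold MbxPar.K; omega)]
  have : p.K - p.K1 - 1 = p.Ko := by unfold MbxPar.K; omega
  rw [this]
  exact G.o_top

/-- the masses of the block `j` -/
theorem bud_bm_T_mu (G : MbxGeo P ρ p o po mo so vmin hmin) {s : ℕ} (hs0 : p.lo ≤ ρ s) (hs : ρ s ≤ p.hi) {j : ℕ} (hj : j < p.K)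
    (hne : mbxT ρ p o j s < mbxT ρ p o (j + 1) s) : P.v (mbxT ρ p o (j + 1) s - 1) ≤ mbxMu p mo j := by
  have hmono := bud_bm_T_mono G hs
  have hsj : s ≤ mbxT ρ p o j s := by
    have := hmono (Nat.zero_le j)
    simpa [bud_bm_T_zero] using this
  unfold mbxMu
  by_cases hjK : j ≤ p.K1
  · rw [if_pos hjK]
    have hle : mbxT ρ p o (j + 1) s ≤ o 0 := by
      by_cases h1 : j + 1 ≤ p.K1
      · rw [bud_bm_T_slide (by omega) h1]; exact bud_bm_cut_le _ _ _
      · rw [bud_bm_T_outer (by omega)]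
        have : j + 1 - p.K1 - 1 = 0 := by omega
        rw [this]
    exact (G.mass (mbxT ρ p o (j + 1) s - 1) (by omega) (hs0.trans (G.mono (by omega)))).2
  · rw [if_neg hjK]
    have hK : j < p.K1 + 1 + p.Ko := hj
    have e : mbxT ρ p o (j + 1) s = o (j - p.K1 - 1 + 1) := by
      rw [bud_bm_T_outer (by omega)]
      congr 1
      omega
    rw [e]
    exact G.o_mass _ (by omega)

/-- the projection interval of the block `j ≥ 1` : `[s, t j s)` for the sliding blocks, `[po i, o i)` for the outer ones -/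
theorem bud_bm_T_sg (G : MbxGeo P ρ p o po mo so vmin hmin) {s : ℕ} (hs0 : p.lo ≤ ρ s) (hs : ρ s ≤ p.hi) {j : ℕ} (hj1 : 1 ≤ j) (hj : j < p.K) :
    ∃ q, s ≤ q ∧ q < mbxT ρ p o j s ∧ vmin ≤ P.v q ∧ hmin ≤ P.hlen q (mbxT ρ p o j s) ∧ 1 ≤ mbxSg m p so j * mbxDen P q (mbxT ρ p o j s) := by
  have hK : j < p.K1 + 1 + p.Ko := hj
  by_cases hjK : j ≤ p.K1
  · have e : mbxT ρ p o j s = mbxCut ρ (o 0) (ρ s + p.len j) := bud_bm_T_slide (by omega) hjK s
    rw [e]
    obtain ⟨h1, h2⟩ := bud_bm_T_cut_gt G hs (bud_bm_T_len_pos G j) (bud_bm_T_len_Ls G hjK)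
    have hc0 := bud_bm_cut_le ρ (o 0) (ρ s + p.len j)
    have hm := G.mass s (by omega) hs0
    have hh := bud_bm_geo_hlen G h1.le hc0 hs0
    have hlen := bud_bm_T_len_pos G j
    have hC0 := G.C0_pos
    have hh2 : p.C0 * p.len j ≤ P.hlen s (mbxCut ρ (o 0) (ρ s + p.len j)) :=
      (mul_le_mul_of_nonneg_left (by linarith) hC0.le).trans hh
    refine ⟨s, le_rfl, h1, G.vmin_le.trans hm.1, ?_, ?_⟩
    · exact (G.hmin_le.trans (mul_le_mul_of_nonneg_left (bud_bm_T_l0_len G j) hC0.le)).trans hh2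
    · unfold mbxSg mbxDen
      rw [if_pos hjK]
      have hvlo := G.vlo_pos
      have hm0 : (0 : ℝ) < m := by exact_mod_cast G.m_pos
      have hden : 0 < p.vlo ^ 2 * m * (p.C0 * p.len j) := by positivity
      rw [div_mul_eq_mul_div, one_mul, le_div_iff₀ hden, one_mul]
      have h3 : p.vlo ^ 2 ≤ P.v s ^ 2 := pow_le_pow_left₀ hvlo.le hm.1 2
      exact mul_le_mul (mul_le_mul_of_nonneg_right h3 hm0.le) hh2 (by positivity) (by positivity)
  · have e : mbxT ρ p o j s = o (j - p.K1 - 1) := bud_bm_T_outer (by omega) s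
    rw [e]
    obtain ⟨h1, h2, h3, h4, h5⟩ := G.o_proj (j - p.K1 - 1) (by omega)
    refine ⟨po (j - p.K1 - 1), ?_, h2, h3, h4, ?_⟩
    · by_contra hc
      have := G.mono (not_le.1 hc).le
      linarith
    · unfold mbxSg
      rw [if_neg hjK]
      exact h5

/-- total `dρ`-weight of a set of cuts whose cells lie in `[a, b]` -/
theorem bud_bm_T_mult_aux {ρ : ℕ → ℝ} (hρ : Monotone ρ) (T : Finset ℕ) {a b : ℝ} (hab : a ≤ b) (h1 : ∀ s ∈ T, a ≤ ρ s) (h2 : ∀ s ∈ T, ρ (s + 1) ≤ b) :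
    ∑ s ∈ T, (ρ (s + 1) - ρ s) ≤ b - a := by
  rcases T.eq_empty_or_nonempty with rfl | hne
  · simpa using hab
  · have hsub : T ⊆ Ico (T.min' hne) (T.max' hne + 1) := fun s hs =>
      Finset.mem_Ico.2 ⟨T.min'_le s hs, Nat.lt_succ_of_le (T.le_max' s hs)⟩
    calc ∑ s ∈ T, (ρ (s + 1) - ρ s) ≤ ∑ s ∈ Ico (T.min' hne) (T.max' hne + 1), (ρ (s + 1) - ρ s) :=
          Finset.sum_le_sum_of_subset_of_nonneg hsub fun s _ _ => sub_nonneg.2 (hρ (Nat.le_succ s))
      _ = ρ (T.max' hne + 1) - ρ (T.min' hne) :=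
          Finset.sum_Ico_sub ρ ((T.min'_le _ (T.max'_mem hne)).trans (Nat.le_succ _))
      _ ≤ b - a := by
          have := h1 _ (T.min'_mem hne)
          have := h2 _ (T.max'_mem hne)
          linarith

/-- multiplicity of the sliding blocks: the forks `s ∈ [k0,k1)` whose block `[cut (ρ s + x1), cut (ρ s + x2))` covers a given step have total `dρ`-weight `≤ x2 - x1 + η` -/
theorem bud_bm_T_mult (G : MbxGeo P ρ p o po mo so vmin hmin) {k0 k1 : ℕ} (h0 : p.lo ≤ ρ k0) (h1 : ρ k1 ≤ p.hi) {x1 x2 : ℝ} (hx1 : 0 < x1) (hx : x1 ≤ x2)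
    (hx2 : x2 ≤ p.Ls) (j : ℕ) :
    ∑ s ∈ (Ico k0 k1).filter (fun s => mbxCut ρ (o 0) (ρ s + x1) ≤ j ∧ j < mbxCut ρ (o 0) (ρ s + x2)), (ρ (s + 1) - ρ s) ≤ x2 - x1 + p.eta := by
  have heta := G.eta_nn
  refine (bud_bm_T_mult_aux G.mono _ (a := ρ j - x2) (b := ρ j - x1 + p.eta) (by linarith) ?_ ?_).trans (by linarith)
  · intro s hs
    obtain ⟨_, _, h3⟩ := Finset.mem_filter.1 hs
    have := bud_bm_cut_lt h3
    linarith
  · intro s hs
    obtain ⟨h1', h2, h3⟩ := Finset.mem_filter.1 hs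
    obtain ⟨hs0, hs1⟩ := Finset.mem_Ico.1 h1'
    have hshi : ρ s ≤ p.hi := (G.mono hs1.le).trans h1
    have hjN : j < o 0 := h3.trans_le (bud_bm_cut_le _ _ _)
    have hspec := (bud_bm_T_cut_gt G hshi hx1 (hx.trans hx2))
    have h4 : ρ s + x1 ≤ ρ j := hspec.2.trans (G.mono h2)
    have hsj : s < j := hspec.1.trans_le h2
    have h5 := G.mesh s (by omega) (h0.trans (G.mono (by omega)))
    linarith

/-- the same for the first block `[s, cut (ρ s + x2))` -/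
theorem bud_bm_T_mult0 (G : MbxGeo P ρ p o po mo so vmin hmin) {k0 k1 : ℕ} (h0 : p.lo ≤ ρ k0) (h1 : ρ k1 ≤ p.hi) {x2 : ℝ} (hx : 0 < x2) (hx2 : x2 ≤ p.Ls) (j : ℕ) :
    ∑ s ∈ (Ico k0 k1).filter (fun s => s ≤ j ∧ j < mbxCut ρ (o 0) (ρ s + x2)), (ρ (s + 1) - ρ s) ≤ x2 + p.eta := by
  have heta := G.eta_nn
  refine (bud_bm_T_mult_aux G.mono _ (a := ρ j - x2) (b := ρ j + p.eta) (by linarith) ?_ ?_).trans (by linarith)
  · intro s hs
    obtain ⟨_, _, h3⟩ := Finset.mem_filter.1 hs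
    have := bud_bm_cut_lt h3
    linarith
  · intro s hs
    obtain ⟨h1', h2, h3⟩ := Finset.mem_filter.1 hs
    obtain ⟨hs0, hs1⟩ := Finset.mem_Ico.1 h1'
    have hjN : j < o 0 := h3.trans_le (bud_bm_cut_le _ _ _)
    have h4 : ρ s ≤ ρ j := G.mono h2
    have h5 := G.mesh s (by omega) (h0.trans (G.mono (by omega)))
    linarith

/-- weighted Minkowski for nonnegative bounded variables -/
theorem bud_bm_T_G_pt (μ : Measure Ω) [IsProbabilityMeasure μ] {ι : Type} (J : Finset ι) (w : ι → ℝ) (f : ι → Ω → ℝ) {B : ℝ} {r : ℕ} (hr : 1 ≤ r)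
    (hw : ∀ s ∈ J, 0 ≤ w s) (hf : ∀ s ∈ J, L8Bd (f s)) (hf0 : ∀ s ∈ J, ∀ ω, 0 ≤ f s ω) (hB0 : 0 ≤ B) (hB : ∀ s ∈ J, ∫ ω, f s ω ^ r ∂μ ≤ B ^ r) :
    ∫ ω, (∑ s ∈ J, w s * f s ω) ^ r ∂μ ≤ ((∑ s ∈ J, w s) * B) ^ r := by
  have key := bud_bm_mink μ J (fun s ω => w s * f s ω) (fun s => w s * B) r hr (fun s hs => (hf s hs).const_mul _)
    (fun s hs => mul_nonneg (hw s hs) hB0) (fun s hs => by
      have e : ∀ ω, |w s * f s ω| ^ r = w s ^ r * f s ω ^ r := fun ω => by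
        rw [abs_of_nonneg (mul_nonneg (hw s hs) (hf0 s hs ω)), mul_pow]
      simp only [e]
      rw [integral_const_mul, mul_pow]
      exact mul_le_mul_of_nonneg_left (hB s hs) (pow_nonneg (hw s hs) r))
  rw [← Finset.sum_mul] at key
  refine le_trans (le_of_eq ?_) key
  refine integral_congr_ae (Filter.Eventually.of_forall fun ω => ?_)
  show (∑ s ∈ J, w s * f s ω) ^ r = |∑ s ∈ J, w s * f s ω| ^ r
  rw [abs_of_nonneg (Finset.sum_nonneg fun s hs => mul_nonneg (hw s hs) (hf0 s hs ω))]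

/-- raw moments of a squared increment below a cut with a known raw moment -/
theorem bud_bm_T_G_raw (h : P.Ok) {r : ℕ} (hr : 1 ≤ r) {k l top : ℕ} (hk : k ≤ top) (hl : l ≤ top) {R : ℝ} (hR0 : 0 ≤ R)
    (hR : ∫ ω, P.nX top ω ^ r ∂P.μ ≤ R ^ r) : ∫ ω, P.nXX k l ω ^ r ∂P.μ ≤ (4 * R) ^ r := by
  have := h.prob
  have hb := P.l8s_W_bd_nX h
  have hn0 : ∀ k ω, 0 ≤ P.nX k ω := fun k ω => by unfold L8P.nX; positivity
  have key := bud_bm_T_G_pt P.μ (Finset.univ : Finset Bool) (fun _ => (2 : ℝ)) (fun b => if b then P.nX k else P.nX l) (B := R) hr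
    (fun _ _ => by norm_num) (fun b _ => by cases b <;> simp [hb]) (fun b _ ω => by cases b <;> simp [hn0]) hR0
    (fun b _ => by
      cases b
      · simpa using (bud_bm_nX_mono P h hl r).trans hR
      · simpa using (bud_bm_nX_mono P h hk r).trans hR)
  have e : ((∑ _s ∈ (Finset.univ : Finset Bool), (2 : ℝ)) * R) = 4 * R := by
    simp; norm_num
  rw [e] at key
  refine le_trans ?_ key
  refine integral_mono (((bud_bm_sq_bd P h k l).pow r).integrable _) ?_ fun ω => ?_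
  · refine L8Bd.integrable (L8Bd.pow (L8Bd.sum _ fun b _ => L8Bd.const_mul ?_ _) r) _
    cases b <;> simp [hb]
  · refine pow_le_pow_left₀ (bud_bm_sq_nonneg P k l ω) ?_ r
    have := bud_bm_sq_le_nX P k l ω
    simp only [Fintype.sum_bool, if_true, Bool.false_eq_true, if_false]
    linarith

/-- a sliding cut overshoots its radius by less than the mesh -/
theorem bud_bm_T_cut_lt_add (G : MbxGeo P ρ p o po mo so vmin hmin) {s : ℕ} (hs0 : p.lo ≤ ρ s) (hs : ρ s ≤ p.hi) {x : ℝ} (hx0 : 0 < x) (hx : x ≤ p.Ls) :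
    ρ (mbxCut ρ (o 0) (ρ s + x)) < ρ s + x + p.eta := by
  obtain ⟨h1, _⟩ := bud_bm_T_cut_gt G hs hx0 hx
  have hc0 := bud_bm_cut_le ρ (o 0) (ρ s + x)
  have h3 : ρ (mbxCut ρ (o 0) (ρ s + x) - 1) < ρ s + x := bud_bm_cut_lt (N := o 0) (by omega)
  have h4 := G.mesh (mbxCut ρ (o 0) (ρ s + x) - 1) (by omega) (by
    rw [Nat.sub_add_cancel (by omega)]
    exact hs0.trans (G.mono h1.le))
  rw [Nat.sub_add_cancel (by omega)] at h4
  linarith

/-- the cuts of the blocks move forward with the fork -/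
theorem bud_bm_T_mono_s (G : MbxGeo P ρ p o po mo so vmin hmin) (j : ℕ) : Monotone fun s => mbxT ρ p o j s := by
  intro s s' hss
  show mbxT ρ p o j s ≤ mbxT ρ p o j s'
  rcases Nat.eq_zero_or_pos j with rfl | hj0
  · simpa [mbxT] using hss
  · by_cases hjK : j ≤ p.K1
    · rw [bud_bm_T_slide (by omega) hjK, bud_bm_T_slide (by omega) hjK]
      exact bud_bm_cut_mono ρ (o 0) (by linarith [G.mono hss])
    · rw [bud_bm_T_outer (by omega), bud_bm_T_outer (by omega)]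

theorem bud_bm_T_len_succ {j : ℕ} (hj : 1 ≤ j) : p.len (j + 1) = 2 * p.len j := by
  unfold MbxPar.len
  have : j + 1 - 1 = (j - 1) + 1 := by omega
  rw [this, pow_succ]
  ring

theorem bud_bm_T_len_one : p.len 1 = p.len 0 := by
  unfold MbxPar.len
  simp

/-- radii of the ends of a sliding block `j < K1` -/
theorem bud_bm_T_G_ends (G : MbxGeo P ρ p o po mo so vmin hmin) {j : ℕ} (hj : j < p.K1) {s : ℕ} (hs0 : p.lo ≤ ρ s) (hs : ρ s ≤ p.hi) :
    ∃ a : ℝ, 0 ≤ a ∧ p.len (j + 1) - a = p.len j ∧ p.len (j + 1) ≤ 2 * p.len j ∧ (∀ s', ρ s' ≤ p.hi → ρ s' + a ≤ ρ (mbxT ρ p o j s')) ∧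
      ρ (mbxT ρ p o (j + 1) s) < ρ s + p.len (j + 1) + p.eta := by
  have hlen := bud_bm_T_len_pos G
  have e1 : mbxT ρ p o (j + 1) s = mbxCut ρ (o 0) (ρ s + p.len (j + 1)) := bud_bm_T_slide (by omega) (by omega) s
  have hup : ρ (mbxT ρ p o (j + 1) s) < ρ s + p.len (j + 1) + p.eta := by
    rw [e1]
    exact bud_bm_T_cut_lt_add G hs0 hs (hlen _) (bud_bm_T_len_Ls G (by omega))
  rcases Nat.eq_zero_or_pos j with rfl | hj0
  · refine ⟨0, le_rfl, ?_, ?_, ?_, hup⟩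
    · rw [zero_add, bud_bm_T_len_one]; ring
    · rw [zero_add, bud_bm_T_len_one]; linarith [hlen 0]
    · intro s' _
      simp [mbxT]
  · refine ⟨p.len j, (hlen j).le, ?_, ?_, ?_, hup⟩
    · rw [bud_bm_T_len_succ hj0]; ring
    · rw [bud_bm_T_len_succ hj0]
    · intro s' hs'
      rw [bud_bm_T_slide (by omega) hj.le]
      exact (bud_bm_T_cut_gt G hs' (hlen j) (bud_bm_T_len_Ls G hj.le)).2

/-- **the integrated anchors** (l.1493-1503): grid estimate (`L8P.l6p_overlap_fam` + `bud_bm_T_mult(0)`) for `len j ≤ D`, pointwise norms for `len j > D`, raw moments (always valid: the `min`)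
for the layers which leave the buffer and for the outer layers; `nXX ≤ 4` gives the `min 4` -/
theorem bud_bm_T_G (h : P.Ok) (G : MbxGeo P ρ p o po mo so vmin hmin) {r : ℕ} (hr : 1 ≤ r) {Qo Rp : ℝ} {Ro : ℕ → ℝ} (hQ0 : 0 ≤ Qo)
    (hQ : MbxRat P ρ p.lo p.hi p.d0 r Qo) (hRp : ∫ ω, P.nX (o 0) ω ^ r ∂P.μ ≤ Rp ^ r) (hRp0 : 0 ≤ Rp)
    (hRo : ∀ i ≤ p.Ko, ∫ ω, P.nX (o i) ω ^ r ∂P.μ ≤ Ro i ^ r) (hRo0 : ∀ i, 0 ≤ Ro i)
    {k0 k1 : ℕ} (hk : k0 ≤ k1) (h0 : p.lo + p.g ≤ ρ k0) (h1 : ρ k1 ≤ p.hi - p.g) {j : ℕ} (hj : j < p.K) :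
    ∫ ω, (∑ s ∈ Ico k0 k1, (ρ (s + 1) - ρ s) * P.nXX (mbxT ρ p o j s) (mbxT ρ p o (j + 1) s) ω) ^ r ∂P.μ ≤ mbxG p r Qo Rp (ρ k1 - ρ k0) Ro j ^ r := by
  have := h.prob
  have hgpos := G.g_pos
  have hlen := bud_bm_T_len_pos G
  have hK : j < p.K1 + 1 + p.Ko := hj
  have hlo : ∀ s, k0 ≤ s → p.lo ≤ ρ s := fun s hs => by
    have := G.mono hs
    linarith
  have hhi : ∀ s, s ≤ k1 → ρ s ≤ p.hi - p.g := fun s hs => (G.mono hs).trans h1
  have hw : ∀ s ∈ Ico k0 k1, 0 ≤ ρ (s + 1) - ρ s := fun s _ => sub_nonneg.2 (G.mono (Nat.le_succ s))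
  have hsum : ∑ s ∈ Ico k0 k1, (ρ (s + 1) - ρ s) = ρ k1 - ρ k0 := Finset.sum_Ico_sub ρ hk
  have hD : 0 ≤ ρ k1 - ρ k0 := sub_nonneg.2 (G.mono hk)
  have hbd : ∀ s ∈ Ico k0 k1, L8Bd (P.nXX (mbxT ρ p o j s) (mbxT ρ p o (j + 1) s)) := fun s _ => bud_bm_sq_bd P h _ _
  have hnn : ∀ s ∈ Ico k0 k1, ∀ ω, 0 ≤ P.nXX (mbxT ρ p o j s) (mbxT ρ p o (j + 1) s) ω := fun s _ ω => bud_bm_sq_nonneg P _ _ ω
  -- pointwise bounds give the integrated bound
  have hpt : ∀ B : ℝ, 0 ≤ B → (∀ s ∈ Ico k0 k1, ∫ ω, P.nXX (mbxT ρ p o j s) (mbxT ρ p o (j + 1) s) ω ^ r ∂P.μ ≤ B ^ r) →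
      ∫ ω, (∑ s ∈ Ico k0 k1, (ρ (s + 1) - ρ s) * P.nXX (mbxT ρ p o j s) (mbxT ρ p o (j + 1) s) ω) ^ r ∂P.μ ≤ ((ρ k1 - ρ k0) * B) ^ r := by
    intro B hB0 hB
    have := bud_bm_T_G_pt P.μ (Ico k0 k1) (fun s => ρ (s + 1) - ρ s) (fun s => P.nXX (mbxT ρ p o j s) (mbxT ρ p o (j + 1) s)) hr hw hbd hnn hB0 hB
    rwa [hsum] at this
  -- all the cuts of the blocks `≤ K1` are before `o 0`
  have hTle : ∀ i, i ≤ p.K1 + 1 → ∀ s ∈ Ico k0 k1, mbxT ρ p o i s ≤ o 0 := by
    intro i hi s hs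
    obtain ⟨hs0, hs1⟩ := Finset.mem_Ico.1 hs
    have hm := bud_bm_T_mono G (s := s) (by linarith [hhi s hs1.le]) hi
    have e : mbxT ρ p o (p.K1 + 1) s = o 0 := by
      rw [bud_bm_T_outer (by omega)]
      congr 1
      omega
    exact hm.trans (le_of_eq e)
  have hraw : j ≤ p.K1 → ∫ ω, (∑ s ∈ Ico k0 k1, (ρ (s + 1) - ρ s) * P.nXX (mbxT ρ p o j s) (mbxT ρ p o (j + 1) s) ω) ^ r ∂P.μ
      ≤ (4 * (ρ k1 - ρ k0) * Rp) ^ r := by
    intro hjK
    have := hpt (4 * Rp) (by positivity) fun s hs =>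
      bud_bm_T_G_raw h hr (hTle j (by omega) s hs) (hTle (j + 1) (by omega) s hs) hRp0 hRp
    have e : (ρ k1 - ρ k0) * (4 * Rp) = 4 * (ρ k1 - ρ k0) * Rp := by ring
    rwa [e] at this
  unfold mbxG
  by_cases hj1 : j < p.K1
  · rw [if_pos hj1]
    by_cases hfit : 2 * p.len j + p.eta ≤ p.g
    · rw [if_pos hfit]
      -- the refined bound
      have hends := fun s (hs0 : k0 ≤ s) (hs1 : s ≤ k1) => bud_bm_T_G_ends G hj1 (hlo s hs0) (by linarith [hhi s hs1] : ρ s ≤ p.hi)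
      obtain ⟨a, ha0, ha1, ha2, hbb, _⟩ := hends k0 le_rfl hk
      have hee : ∀ s, k0 ≤ s → s ≤ k1 → ρ (mbxT ρ p o (j + 1) s) < ρ s + p.len (j + 1) + p.eta := fun s hs0 hs1 => by
        obtain ⟨_, _, _, _, _, h6⟩ := hends s hs0 hs1
        exact h6
      have hbe : ∀ s, s ≤ k1 → mbxT ρ p o j s ≤ mbxT ρ p o (j + 1) s := fun s hs1 =>
        bud_bm_T_mono G (s := s) (by linarith [hhi s hs1]) (Nat.le_succ j)
      have hbblo : ∀ s, k0 ≤ s → s ≤ k1 → p.lo ≤ ρ (mbxT ρ p o j s) := fun s hs0 hs1 => by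
        have := hbb s (by linarith [hhi s hs1])
        linarith [hlo s hs0]
      have heehi : ∀ s, k0 ≤ s → s ≤ k1 → ρ (mbxT ρ p o (j + 1) s) ≤ p.hi := fun s hs0 hs1 => by
        have := hee s hs0 hs1
        linarith [hhi s hs1]
      have hsecond : ∫ ω, (∑ s ∈ Ico k0 k1, (ρ (s + 1) - ρ s) * P.nXX (mbxT ρ p o j s) (mbxT ρ p o (j + 1) s) ω) ^ r ∂P.μ
          ≤ (if p.len j ≤ ρ k1 - ρ k0 then 32 * r * (p.len j + p.eta) * min 4 (Qo * (p.d0 + (ρ k1 - ρ k0) + p.len j + p.eta))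
              else (ρ k1 - ρ k0) * (Qo * (p.d0 + p.len j + p.eta))) ^ r := by
        by_cases hlD : p.len j ≤ ρ k1 - ρ k0
        · rw [if_pos hlD]
          -- grid estimate
          have hM : ∀ j', mbxT ρ p o j k0 ≤ j' → j' < mbxT ρ p o (j + 1) k1 →
              ∑ s ∈ Ico k0 k1 with (mbxT ρ p o j s ≤ j' ∧ j' < mbxT ρ p o (j + 1) s), (ρ (s + 1) - ρ s) ≤ p.len j + p.eta := by
            intro j' _ _
            have hlo0 : p.lo ≤ ρ k0 := hlo k0 le_rfl
            have hhi1 : ρ k1 ≤ p.hi := by linarith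
            rcases Nat.eq_zero_or_pos j with rfl | hj0
            · have := bud_bm_T_mult0 G hlo0 hhi1 (hlen 1) (bud_bm_T_len_Ls G (by omega)) j'
              have e1 : ∀ s, mbxT ρ p o (0 + 1) s = mbxCut ρ (o 0) (ρ s + p.len 1) := fun s =>
                bud_bm_T_slide (p := p) (j := 0 + 1) (by omega) (by omega) s
              have e0 : ∀ s, mbxT ρ p o 0 s = s := fun s => bud_bm_T_zero s
              simp only [e0, e1]
              rw [← bud_bm_T_len_one]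
              exact this
            · have := bud_bm_T_mult G hlo0 hhi1 (hlen j) (bud_bm_T_len_mono G (Nat.le_succ j)) (bud_bm_T_len_Ls G (by omega)) j'
              have e1 : ∀ s, mbxT ρ p o (j + 1) s = mbxCut ρ (o 0) (ρ s + p.len (j + 1)) := fun s =>
                bud_bm_T_slide (p := p) (j := j + 1) (by omega) (by omega) s
              have e0 : ∀ s, mbxT ρ p o j s = mbxCut ρ (o 0) (ρ s + p.len j) := fun s =>
                bud_bm_T_slide (p := p) (j := j) (by omega) hj1.le s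
              simp only [e0, e1]
              refine this.trans (le_of_eq ?_)
              rw [Nat.succ_eq_add_one, bud_bm_T_len_succ hj0]; ring
          have key := P.l6p_overlap_fam h r hr (n0 := mbxT ρ p o j k0) (n1 := mbxT ρ p o (j + 1) k1)
            ((hbe k0 hk).trans (bud_bm_T_mono_s G (j + 1) hk)) (Ico k0 k1) (fun s => ρ (s + 1) - ρ s) hw
            (fun s => mbxT ρ p o j s) (fun s => mbxT ρ p o (j + 1) s)
            (fun s hs => bud_bm_T_mono_s G j (Finset.mem_Ico.1 hs).1) (fun s hs => hbe s (Finset.mem_Ico.1 hs).2.le)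
            (fun s hs => bud_bm_T_mono_s G (j + 1) (Finset.mem_Ico.1 hs).2.le) hM
          refine key.trans ?_
          rw [mul_pow (32 * (r : ℝ) * (p.len j + p.eta))]
          refine mul_le_mul_of_nonneg_left ?_ (by have := G.eta_nn; have := hlen j; positivity)
          have hq1 : ∫ ω, P.nXX (mbxT ρ p o j k0) (mbxT ρ p o (j + 1) k1) ω ^ r ∂P.μ ≤ (4 : ℝ) ^ r := by
            calc ∫ ω, P.nXX (mbxT ρ p o j k0) (mbxT ρ p o (j + 1) k1) ω ^ r ∂P.μ ≤ ∫ _ω, (4 : ℝ) ^ r ∂P.μ :=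
                  integral_mono (((bud_bm_sq_bd P h _ _).pow r).integrable _) (integrable_const _) fun ω =>
                    pow_le_pow_left₀ (bud_bm_sq_nonneg P _ _ ω) (bud_bm_sq_le_four P h _ _ ω) r
              _ = 4 ^ r := by simp
          have hq2 : ∫ ω, P.nXX (mbxT ρ p o j k0) (mbxT ρ p o (j + 1) k1) ω ^ r ∂P.μ
              ≤ (Qo * (p.d0 + (ρ k1 - ρ k0) + p.len j + p.eta)) ^ r := by
            refine (hQ _ _ ((hbe k0 hk).trans (bud_bm_T_mono_s G (j + 1) hk)) (hbblo k0 le_rfl hk) (heehi k1 hk le_rfl)).trans ?_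
            have h5 := hbb k0 (by linarith [hhi k0 hk])
            have h6 := hee k1 hk le_rfl
            have h7 : 0 ≤ ρ (mbxT ρ p o (j + 1) k1) - ρ (mbxT ρ p o j k0) :=
              sub_nonneg.2 (G.mono ((hbe k0 hk).trans (bud_bm_T_mono_s G (j + 1) hk)))
            refine pow_le_pow_left₀ (mul_nonneg hQ0 (by linarith [G.d0_pos])) (mul_le_mul_of_nonneg_left (by linarith) hQ0) r
          rcases min_choice (4 : ℝ) (Qo * (p.d0 + (ρ k1 - ρ k0) + p.len j + p.eta)) with e | e <;> rw [e]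
          · exact hq1
          · exact hq2
        · rw [if_neg hlD]
          refine hpt _ (mul_nonneg hQ0 (by linarith [G.d0_pos, hlen j, G.eta_nn])) fun s hs => ?_
          obtain ⟨hs0, hs1⟩ := Finset.mem_Ico.1 hs
          refine (hQ _ _ (hbe s hs1.le) (hbblo s hs0 hs1.le) (heehi s hs0 hs1.le)).trans ?_
          have h5 := hbb s (by linarith [hhi s hs1.le])
          have h6 := hee s hs0 hs1.le
          have h7 : 0 ≤ ρ (mbxT ρ p o (j + 1) s) - ρ (mbxT ρ p o j s) := sub_nonneg.2 (G.mono (hbe s hs1.le))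
          refine pow_le_pow_left₀ (mul_nonneg hQ0 (by linarith [G.d0_pos])) (mul_le_mul_of_nonneg_left (by linarith) hQ0) r
      rcases min_choice (4 * (ρ k1 - ρ k0) * Rp) (if p.len j ≤ ρ k1 - ρ k0 then 32 * r * (p.len j + p.eta) * min 4 (Qo * (p.d0 + (ρ k1 - ρ k0) + p.len j + p.eta))
              else (ρ k1 - ρ k0) * (Qo * (p.d0 + p.len j + p.eta))) with e | e <;> rw [e]
      · exact hraw hj1.le
      · exact hsecond
    · rw [if_neg hfit]
      exact hraw hj1.le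
  · rw [if_neg hj1]
    by_cases hj2 : j = p.K1
    · rw [if_pos hj2]
      exact hraw hj2.le
    · rw [if_neg hj2]
      have := hpt (4 * Ro (j - p.K1)) (by have := hRo0 (j - p.K1); positivity) fun s _ => by
        rw [bud_bm_T_outer (j := j) (by omega), bud_bm_T_outer (j := j + 1) (by omega)]
        have e : j + 1 - p.K1 - 1 = j - p.K1 := by omega
        rw [e]
        exact bud_bm_T_G_raw h hr (G.o_mono (by omega)) le_rfl (hRo0 _) (hRo _ (by omega))
      have e : (ρ k1 - ρ k0) * (4 * Ro (j - p.K1)) = 4 * (ρ k1 - ρ k0) * Ro (j - p.K1) := by ring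
      rwa [e] at this

/-- the right side of (WL) in a buffer; `be = vhi/(vlo² m C0)`, `Bout ≥ mo i * so i * Ro (i+1)` -/
noncomputable def mbxWLR (m : ℕ) (p : MbxPar) (a : ℝ) (r : ℕ) (c1 th eps Qo Rp Bout D : ℝ) : ℝ :=
  (p.K : ℝ) ^ 3 * ((c1 + th * r) * (p.vhi / (p.vlo ^ 2 * m * p.C0) * (64 * r * (2 / p.gam + 3) * Qo + 32 * Rp / p.g) + 4 * Bout) + 16 * a * eps) * D
    + p.K * p.vhi * (1024 * r * p.l0)

/-- the patch is not empty: `vlo ≤ vhi` -/
theorem bud_bm_T_sum_vhi (G : MbxGeo P ρ p o po mo so vmin hmin) : p.vlo ≤ p.vhi := by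
  have hz : 0 < o 0 := by
    by_contra hc
    have h00 : o 0 = 0 := by omega
    have h3 := G.o_zero
    rw [h00] at h3
    have h4 : 0 ≤ p.Ls := by unfold MbxPar.Ls; exact mul_nonneg (by positivity) G.l0_pos.le
    linarith [G.below, G.lohi]
  have hcut : mbxCut ρ (o 0) p.lo < o 0 ∨ mbxCut ρ (o 0) p.lo = o 0 := lt_or_eq_of_le (bud_bm_cut_le _ _ _)
  have hLs : 0 < p.Ls := by unfold MbxPar.Ls; exact mul_pos (by positivity) G.l0_pos
  have hspec : p.lo ≤ ρ (mbxCut ρ (o 0) p.lo) := bud_bm_cut_spec (by linarith [G.o_zero, G.lohi])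
  rcases hcut with hlt | heq
  · have := G.mass _ hlt hspec
    linarith
  · exfalso
    have hpred : o 0 - 1 < mbxCut ρ (o 0) p.lo := by omega
    have h5 := bud_bm_cut_lt hpred
    have h6 := G.mesh (o 0 - 1) (by omega) (by
      rw [Nat.sub_add_cancel hz]; linarith [G.o_zero, G.lohi])
    rw [Nat.sub_add_cancel hz] at h6
    have h7 : p.eta < p.Ls := by
      have h8 := G.fit
      have h9 := G.g_Ls
      have h10 : 0 ≤ p.gam * (p.hi - p.lo) := mul_nonneg G.gam_pos.le (by linarith [G.lohi])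
      have h11 : 0 < p.gam * p.d0 := mul_pos G.gam_pos G.d0_pos
      have h12 : p.gam * (p.d0 + (p.hi - p.lo)) = p.gam * p.d0 + p.gam * (p.hi - p.lo) := by ring
      linarith
    linarith [G.o_zero, G.lohi]

/-- elementary consequences of the record -/
theorem bud_bm_T_sum_num (G : MbxGeo P ρ p o po mo so vmin hmin) :
    4 * p.l0 + p.eta ≤ p.g ∧ 5 * p.eta ≤ p.g ∧ p.gam * p.d0 + p.eta ≤ p.g := by
  have h8 := G.fit
  have h10 : 0 ≤ p.gam * (p.hi - p.lo) := mul_nonneg G.gam_pos.le (by linarith [G.lohi])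
  have h12 : p.gam * (p.d0 + (p.hi - p.lo)) = p.gam * p.d0 + p.gam * (p.hi - p.lo) := by ring
  have h1 := G.l0_le
  have h2 := G.eta_d0
  refine ⟨by linarith, by linarith, by linarith⟩

/-- the raw bound is always available up to the block `K1` -/
theorem bud_bm_T_sum_raw {r : ℕ} {Qo Rp D : ℝ} {Ro : ℕ → ℝ} {n : ℕ} (hn : n ≤ p.K1) : mbxG p r Qo Rp D Ro n ≤ 4 * D * Rp := by
  unfold mbxG
  split_ifs
  · exact min_le_left _ _
  · exact min_le_left _ _
  · exact le_rfl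
  · exact le_rfl
  · omega

/-- the first block -/
theorem bud_bm_T_sum_zero (G : MbxGeo P ρ p o po mo so vmin hmin) {r : ℕ} {Qo Rp D : ℝ} {Ro : ℕ → ℝ} (hD0 : p.gam * p.d0 / 2 ≤ D) :
    mbxG p r Qo Rp D Ro 0 ≤ 256 * r * p.l0 := by
  obtain ⟨n1, _, _⟩ := bud_bm_T_sum_num G
  have hl0 := G.l0_pos
  have e0 : p.len 0 = p.l0 := by unfold MbxPar.len; simp
  have hK1 := G.K1_pos
  unfold mbxG
  rw [if_pos (by omega), e0, if_pos (by linarith), if_pos (by linarith [G.l0_le])]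
  refine (min_le_right _ _).trans ?_
  have h1 : min 4 (Qo * (p.d0 + D + p.l0 + p.eta)) ≤ 4 := min_le_left _ _
  have h2 : 0 ≤ 32 * (r : ℝ) * (p.l0 + p.eta) := by have := G.eta_nn; positivity
  calc 32 * (r : ℝ) * (p.l0 + p.eta) * min 4 (Qo * (p.d0 + D + p.l0 + p.eta)) ≤ 32 * (r : ℝ) * (p.l0 + p.eta) * 4 :=
        mul_le_mul_of_nonneg_left h1 h2
    _ ≤ 32 * (r : ℝ) * (p.l0 + p.l0) * 4 := by
        have := G.eta_l0
        have hr0 : (0 : ℝ) ≤ r := Nat.cast_nonneg r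
        gcongr
    _ = 256 * r * p.l0 := by ring

/-- blocks inside the sliding range -/
theorem bud_bm_T_sum_in (G : MbxGeo P ρ p o po mo so vmin hmin) {r : ℕ} (hr : 1 ≤ r) {Qo Rp D : ℝ} {Ro : ℕ → ℝ} (hQ0 : 0 ≤ Qo) (hRp0 : 0 ≤ Rp)
    (hD0 : p.gam * p.d0 / 2 ≤ D) {n M : ℕ} (hnM : n ≤ M) (hM : M ≤ p.K1) :
    mbxG p r Qo Rp D Ro n ≤ p.len M * ((64 * r * (2 / p.gam + 3) * Qo + 32 * Rp / p.g) * D) := by
  obtain ⟨n1, n2, n3⟩ := bud_bm_T_sum_num G
  have hgam := G.gam_pos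
  have hg := G.g_pos
  have hd0 := G.d0_pos
  have heta := G.eta_nn
  have hD : 0 < D := lt_of_lt_of_le (by positivity) hD0
  have hr1 : (1 : ℝ) ≤ r := by exact_mod_cast hr
  have hln := bud_bm_T_len_pos G n
  have hlM := bud_bm_T_len_pos G M
  have hnM' : p.len n ≤ p.len M := bud_bm_T_len_mono G hnM
  have hel : p.eta ≤ p.len n := G.eta_l0.trans (bud_bm_T_l0_len G n)
  have hd0D : p.d0 ≤ 2 / p.gam * D := by
    rw [div_mul_eq_mul_div, le_div_iff₀ hgam]
    linarith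
  have hA : 0 ≤ 64 * (r : ℝ) * (2 / p.gam + 3) * Qo := by positivity
  have hB : 0 ≤ 32 * Rp / p.g := by positivity
  -- the three model bounds
  have hraw : p.g ≤ 8 * p.len M → 4 * D * Rp ≤ p.len M * ((64 * r * (2 / p.gam + 3) * Qo + 32 * Rp / p.g) * D) := by
    intro hgl
    have h1 : 4 * D * Rp ≤ p.len M * (32 * Rp / p.g * D) := by
      have e : p.len M * (32 * Rp / p.g * D) = (8 * p.len M / p.g) * (4 * D * Rp) := by field_simp; ring
      rw [e]
      have : 1 ≤ 8 * p.len M / p.g := by rw [le_div_iff₀ hg]; linarith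
      exact le_mul_of_one_le_left (by positivity) this
    refine h1.trans (mul_le_mul_of_nonneg_left ?_ hlM.le)
    exact mul_le_mul_of_nonneg_right (by linarith) hD.le
  have hmain : ∀ X : ℝ, X ≤ p.len n * (64 * r * (2 / p.gam + 3) * Qo * D) →
      X ≤ p.len M * ((64 * r * (2 / p.gam + 3) * Qo + 32 * Rp / p.g) * D) := by
    intro X hX
    refine hX.trans ?_
    refine mul_le_mul hnM' ?_ (by positivity) hlM.le
    exact mul_le_mul_of_nonneg_right (by linarith) hD.le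
  unfold mbxG
  by_cases hn1 : n < p.K1
  · rw [if_pos hn1]
    by_cases hfit : 2 * p.len n + p.eta ≤ p.g
    · rw [if_pos hfit]
      refine (min_le_right _ _).trans ?_
      by_cases hlD : p.len n ≤ D
      · rw [if_pos hlD]
        apply hmain
        have h1 : min 4 (Qo * (p.d0 + D + p.len n + p.eta)) ≤ Qo * ((2 / p.gam + 3) * D) := by
          refine (min_le_right _ _).trans (mul_le_mul_of_nonneg_left ?_ hQ0)
          have : (2 / p.gam + 3) * D = 2 / p.gam * D + 3 * D := by ring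
          linarith
        have h2 : 32 * (r : ℝ) * (p.len n + p.eta) ≤ 32 * (r : ℝ) * (2 * p.len n) :=
          mul_le_mul_of_nonneg_left (by linarith) (by positivity)
        calc 32 * (r : ℝ) * (p.len n + p.eta) * min 4 (Qo * (p.d0 + D + p.len n + p.eta))
            ≤ 32 * (r : ℝ) * (2 * p.len n) * (Qo * ((2 / p.gam + 3) * D)) :=
              mul_le_mul h2 h1 (le_min (by norm_num) (by positivity)) (by positivity)
          _ = p.len n * (64 * r * (2 / p.gam + 3) * Qo * D) := by ring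
      · rw [if_neg hlD]
        apply hmain
        have hlD' : D < p.len n := not_le.1 hlD
        have h1 : p.d0 + p.len n + p.eta ≤ (2 / p.gam + 3) * p.len n := by
          have h3 : 2 / p.gam * D ≤ 2 / p.gam * p.len n := mul_le_mul_of_nonneg_left hlD'.le (by positivity)
          have : (2 / p.gam + 3) * p.len n = 2 / p.gam * p.len n + 3 * p.len n := by ring
          linarith
        calc D * (Qo * (p.d0 + p.len n + p.eta)) ≤ D * (Qo * ((2 / p.gam + 3) * p.len n)) :=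
              mul_le_mul_of_nonneg_left (mul_le_mul_of_nonneg_left h1 hQ0) hD.le
          _ = 1 * (p.len n * ((2 / p.gam + 3) * Qo * D)) := by ring
          _ ≤ (64 * r) * (p.len n * ((2 / p.gam + 3) * Qo * D)) :=
              mul_le_mul_of_nonneg_right (by linarith) (by positivity)
          _ = p.len n * (64 * r * (2 / p.gam + 3) * Qo * D) := by ring
    · rw [if_neg hfit]
      apply hraw
      have : p.g < 2 * p.len n + p.eta := not_le.1 hfit
      linarith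
  · rw [if_neg hn1]
    have hnK : n = p.K1 := by omega
    rw [if_pos hnK]
    apply hraw
    have hMK : M = p.K1 := by omega
    have : p.len M = p.Ls := by rw [hMK]; rfl
    rw [this]
    linarith [G.g_Ls, hg]

/-- blocks below an outer block -/
theorem bud_bm_T_sum_out {r : ℕ} {Qo Rp D : ℝ} {Ro : ℕ → ℝ} (hD : 0 ≤ D) (hRoM : Monotone Ro) (hRpRo : Rp ≤ Ro 0) {n M : ℕ} (hnM : n ≤ M) (hM : p.K1 < M) :
    mbxG p r Qo Rp D Ro n ≤ 4 * D * Ro (M - p.K1) := by
  by_cases hn : n ≤ p.K1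
  · refine (bud_bm_T_sum_raw hn).trans (mul_le_mul_of_nonneg_left (hRpRo.trans (hRoM (Nat.zero_le _))) (by positivity))
  · unfold mbxG
    rw [if_neg (by omega), if_neg (by omega)]
    exact mul_le_mul_of_nonneg_left (hRoM (by omega)) (by positivity)

/-- the arithmetic of the sum over the pairs of blocks.   `M = max i j`, `n = min i j`.   (0,0): `G 0 ≤ 32 r (2 l0) 4`.
`M ≤ K1`: `mu sg = be/len M`, `len n ≤ len M`; grid: `G n ≤ 64 r len n Qo D (2/gam + 3)` (`d0 ≤ 2D/gam`, `eta ≤ l0 ≤ len n ≤ D`); pointwise: `G n ≤ D Qo len n (2/gam + 2)`;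
raw: `len M ≥ len n > 3g/8` (or `len K1 = Ls ≥ g`).      `M > K1`: `mu j ≤ mo iM`, `G n ≤ 4 D Ro (iM + 1)` (the `min`, `Rp ≤ Ro 0`, monotonicity). -/
theorem bud_bm_T_sum (G : MbxGeo P ρ p o po mo so vmin hmin) (h : P.Ok) {r : ℕ} (hr : 1 ≤ r) {c1 th eps Qo Rp Bout D : ℝ} {Ro : ℕ → ℝ} (hc1 : 0 ≤ c1) (hth : 1 ≤ th) (heps : 0 ≤ eps)
    (hQ0 : 0 ≤ Qo) (hRp0 : 0 ≤ Rp) (hRo0 : ∀ i, 0 ≤ Ro i) (hRoM : Monotone Ro) (hRpRo : Rp ≤ Ro 0) (hmoa : ∀ i < p.Ko, mo i ≤ P.a) (hvhi : p.vhi ≤ P.a)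
    (hBout : ∀ i < p.Ko, mo i * so i * Ro (i + 1) ≤ Bout) (hD0 : p.gam * p.d0 / 2 ≤ D) (hD1 : D ≤ p.g) :
    (p.K : ℝ) * ∑ i ∈ range p.K, ∑ j ∈ range p.K, mbxMu p mo j * (if i = 0 ∧ j = 0 then 4 * mbxG p r Qo Rp D Ro 0 else
        (c1 + th * r) * mbxSg m p so (max i j) * mbxG p r Qo Rp D Ro (min i j) + 16 * D * eps)
      ≤ mbxWLR m p P.a r c1 th eps Qo Rp Bout D := by
  have hvv := bud_bm_T_sum_vhi G
  have hvlo := G.vlo_pos
  have hvhi0 : 0 ≤ p.vhi := by linarith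
  have hgam := G.gam_pos
  have hg := G.g_pos
  have hC0 := G.C0_pos
  have hm0 : (0 : ℝ) < m := by exact_mod_cast G.m_pos
  have hD : 0 < D := lt_of_lt_of_le (by have := G.d0_pos; positivity) hD0
  have hr0 : (0 : ℝ) ≤ r := Nat.cast_nonneg r
  have hKo : 0 < p.Ko := by
    by_contra hc
    have h00 : p.Ko = 0 := by omega
    have h1 := G.o_top
    rw [h00] at h1
    have := G.o_le
    omega
  have hBout0 : 0 ≤ Bout := le_trans (by have := G.mo_nn 0; have := G.so_nn 0; have := hRo0 (0 + 1); positivity) (hBout 0 hKo)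
  have hct : 0 ≤ c1 + th * r := by positivity
  set be : ℝ := p.vhi / (p.vlo ^ 2 * m * p.C0) with hbe
  have hbe0 : 0 ≤ be := by positivity
  set A : ℝ := 64 * r * (2 / p.gam + 3) * Qo + 32 * Rp / p.g with hA
  have hA0 : 0 ≤ A := by positivity
  have ha0 : 0 ≤ P.a := h.a_pos.le
  set X : ℝ := ((c1 + th * r) * (be * A + 4 * Bout) + 16 * P.a * eps) * D with hX
  have hX0 : 0 ≤ X := by positivity
  set Y : ℝ := p.vhi * (1024 * r * p.l0) with hY
  have hY0 : 0 ≤ Y := by have := G.l0_pos; positivity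
  have hmu_a : ∀ j < p.K, mbxMu p mo j ≤ P.a := by
    intro j hj
    have hK : j < p.K1 + 1 + p.Ko := hj
    unfold mbxMu
    split_ifs
    · exact hvhi
    · exact hmoa _ (by omega)
  have hmu0 : ∀ j, 0 ≤ mbxMu p mo j := by
    intro j
    unfold mbxMu
    split_ifs
    · exact hvhi0
    · exact G.mo_nn _
  have hG0 : ∀ j, 0 ≤ mbxG p r Qo Rp D Ro j := fun j => by
    have hl : 0 ≤ p.len j := (bud_bm_T_len_pos G j).le
    have h2 := G.eta_nn
    have h3 := G.d0_pos.le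
    have h4 := hRo0 (j - p.K1)
    have h5 : 0 ≤ min 4 (Qo * (p.d0 + D + p.len j + p.eta)) := le_min (by norm_num) (by positivity)
    unfold mbxG
    split_ifs
    · exact le_min (by positivity) (by positivity)
    · exact le_min (by positivity) (by positivity)
    all_goals positivity
  -- the product `mu sg G`
  have hprod : ∀ i < p.K, ∀ j < p.K, ¬ (i = 0 ∧ j = 0) →
      mbxMu p mo j * (mbxSg m p so (max i j) * mbxG p r Qo Rp D Ro (min i j)) ≤ (be * A + 4 * Bout) * D := by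
    intro i hi j hj hij
    have hKi : i < p.K1 + 1 + p.Ko := hi
    have hKj : j < p.K1 + 1 + p.Ko := hj
    have hM1 : 1 ≤ max i j := by
      rcases Nat.eq_zero_or_pos i with rfl | h1
      · rcases Nat.eq_zero_or_pos j with rfl | h2
        · exact absurd ⟨rfl, rfl⟩ hij
        · exact h2.trans_le (le_max_right _ _)
      · exact h1.trans_le (le_max_left _ _)
    have hnM : min i j ≤ max i j := min_le_max
    have hjM : j ≤ max i j := le_max_right _ _
    have hMK : max i j < p.K1 + 1 + p.Ko := max_lt hKi hKj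
    by_cases hM : max i j ≤ p.K1
    · have hlM := bud_bm_T_len_pos G (max i j)
      have h1 := bud_bm_T_sum_in G hr (Ro := Ro) hQ0 hRp0 hD0 hnM hM
      have e1 : mbxMu p mo j = p.vhi := by unfold mbxMu; rw [if_pos (by omega)]
      have e2 : mbxSg m p so (max i j) = 1 / (p.vlo ^ 2 * m * (p.C0 * p.len (max i j))) := by unfold mbxSg; rw [if_pos hM]
      rw [e1, e2]
      calc p.vhi * (1 / (p.vlo ^ 2 * m * (p.C0 * p.len (max i j))) * mbxG p r Qo Rp D Ro (min i j))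
          ≤ p.vhi * (1 / (p.vlo ^ 2 * m * (p.C0 * p.len (max i j))) * (p.len (max i j) * (A * D))) :=
            mul_le_mul_of_nonneg_left (mul_le_mul_of_nonneg_left h1 (by positivity)) hvhi0
        _ = be * A * D := by rw [hbe]; field_simp
        _ ≤ (be * A + 4 * Bout) * D := mul_le_mul_of_nonneg_right (by linarith) hD.le
    · have hM' : p.K1 < max i j := not_le.1 hM
      have h1 := bud_bm_T_sum_out (p := p) (r := r) (Qo := Qo) hD.le hRoM hRpRo hnM hM'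
      have e2 : mbxSg m p so (max i j) = so (max i j - p.K1 - 1) := by unfold mbxSg; rw [if_neg hM]
      have e3 : max i j - p.K1 = (max i j - p.K1 - 1) + 1 := by omega
      have hmu : mbxMu p mo j ≤ mo (max i j - p.K1 - 1) := by
        unfold mbxMu
        split_ifs
        · exact G.vhi_mo.trans (G.mo_mono (Nat.zero_le _))
        · exact G.mo_mono (by omega)
      have hb := hBout (max i j - p.K1 - 1) (by omega)
      have hso := G.so_nn (max i j - p.K1 - 1)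
      have hmo := G.mo_nn (max i j - p.K1 - 1)
      rw [e2]
      rw [e3] at h1
      calc mbxMu p mo j * (so (max i j - p.K1 - 1) * mbxG p r Qo Rp D Ro (min i j))
          ≤ mo (max i j - p.K1 - 1) * (so (max i j - p.K1 - 1) * (4 * D * Ro (max i j - p.K1 - 1 + 1))) :=
            mul_le_mul hmu (mul_le_mul_of_nonneg_left h1 hso) (mul_nonneg hso (hG0 _)) hmo
        _ = 4 * D * (mo (max i j - p.K1 - 1) * so (max i j - p.K1 - 1) * Ro (max i j - p.K1 - 1 + 1)) := by ring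
        _ ≤ 4 * D * Bout := mul_le_mul_of_nonneg_left hb (by positivity)
        _ ≤ (be * A + 4 * Bout) * D := by
            have : 0 ≤ be * A * D := by positivity
            linarith
  have hterm : ∀ i ∈ range p.K, ∀ j ∈ range p.K, mbxMu p mo j * (if i = 0 ∧ j = 0 then 4 * mbxG p r Qo Rp D Ro 0 else
        (c1 + th * r) * mbxSg m p so (max i j) * mbxG p r Qo Rp D Ro (min i j) + 16 * D * eps)
      ≤ X + (if i = 0 ∧ j = 0 then Y else 0) := by
    intro i hi j hj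
    rw [Finset.mem_range] at hi hj
    by_cases hij : i = 0 ∧ j = 0
    · rw [if_pos hij, if_pos hij, hij.2]
      have e1 : mbxMu p mo 0 = p.vhi := by unfold mbxMu; rw [if_pos (Nat.zero_le _)]
      rw [e1]
      have h1 := bud_bm_T_sum_zero G (r := r) (Qo := Qo) (Rp := Rp) (Ro := Ro) hD0
      have h2 : p.vhi * (4 * mbxG p r Qo Rp D Ro 0) ≤ p.vhi * (4 * (256 * r * p.l0)) :=
        mul_le_mul_of_nonneg_left (by linarith) hvhi0
      have e : p.vhi * (4 * (256 * r * p.l0)) = Y := by rw [hY]; ring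
      linarith
    · rw [if_neg hij, if_neg hij, add_zero]
      have h1 := hprod i hi j hj hij
      have h2 : mbxMu p mo j * (16 * D * eps) ≤ P.a * (16 * D * eps) :=
        mul_le_mul_of_nonneg_right (hmu_a j hj) (by positivity)
      calc mbxMu p mo j * ((c1 + th * r) * mbxSg m p so (max i j) * mbxG p r Qo Rp D Ro (min i j) + 16 * D * eps)
          = (c1 + th * r) * (mbxMu p mo j * (mbxSg m p so (max i j) * mbxG p r Qo Rp D Ro (min i j))) + mbxMu p mo j * (16 * D * eps) := by ring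
        _ ≤ (c1 + th * r) * ((be * A + 4 * Bout) * D) + P.a * (16 * D * eps) :=
            add_le_add (mul_le_mul_of_nonneg_left h1 hct) h2
        _ = X := by rw [hX]; ring
  have hsum : ∑ i ∈ range p.K, ∑ j ∈ range p.K, mbxMu p mo j * (if i = 0 ∧ j = 0 then 4 * mbxG p r Qo Rp D Ro 0 else
        (c1 + th * r) * mbxSg m p so (max i j) * mbxG p r Qo Rp D Ro (min i j) + 16 * D * eps)
      ≤ (p.K : ℝ) ^ 2 * X + Y := by
    refine (Finset.sum_le_sum fun i hi => Finset.sum_le_sum fun j hj => hterm i hi j hj).trans ?_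
    simp only [Finset.sum_add_distrib, Finset.sum_const, Finset.card_range, nsmul_eq_mul]
    have h1 : ∑ i ∈ range p.K, ∑ j ∈ range p.K, (if i = 0 ∧ j = 0 then Y else 0) ≤ Y := by
      have hin : ∀ i, ∑ j ∈ range p.K, (if i = 0 ∧ j = 0 then Y else 0) = if i = 0 then (if 0 ∈ range p.K then Y else 0) else 0 := by
        intro i
        by_cases hi : i = 0
        · simp only [hi, true_and, if_true]
          exact Finset.sum_ite_eq' _ _ _
        · simp [hi]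
      simp only [hin]
      rw [Finset.sum_ite_eq']
      split_ifs
      · exact le_rfl
      · exact hY0
    have e : (p.K : ℝ) * ((p.K : ℝ) * X) = (p.K : ℝ) ^ 2 * X := by ring
    rw [e]
    linarith
  have hK0 : (0 : ℝ) ≤ p.K := Nat.cast_nonneg _
  calc (p.K : ℝ) * ∑ i ∈ range p.K, ∑ j ∈ range p.K, mbxMu p mo j * (if i = 0 ∧ j = 0 then 4 * mbxG p r Qo Rp D Ro 0 else
        (c1 + th * r) * mbxSg m p so (max i j) * mbxG p r Qo Rp D Ro (min i j) + 16 * D * eps)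
      ≤ (p.K : ℝ) * ((p.K : ℝ) ^ 2 * X + Y) := mul_le_mul_of_nonneg_left hsum hK0
    _ = mbxWLR m p P.a r c1 th eps Qo Rp Bout D := by
        unfold mbxWLR
        rw [hX, hY, hA, hbe]
        ring

/-- **(WL) IN A BUFFER** (l.1483-1507).   TEX[LL:bud:box-moments]
Window = index interval `[k0,k1)` inside `[lo + g, hi - g]`, of radius length `D = ρ k1 - ρ k0 ∈ [gam d0/2, g]`. -/
theorem bud_bm_wl_buf (h : P.Ok) (G : MbxGeo P ρ p o po mo so vmin hmin) {r R : ℕ} (hr : 1 ≤ r) {c1 cR th eps Qo Rp Bout : ℝ} {Ro : ℕ → ℝ} (hc1 : 0 ≤ c1) (hcR : 0 ≤ cR)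
    (hp1 : P.Proj 1 c1 vmin hmin) (hpR : P.Proj R cR vmin hmin) (hth : 1 ≤ th) (heps0 : 0 ≤ eps) (heps : cR ≤ eps ^ r * th ^ R)
    (hQ0 : 0 ≤ Qo) (hQ : MbxRat P ρ p.lo p.hi p.d0 r Qo) (hRp : ∫ ω, P.nX (o 0) ω ^ r ∂P.μ ≤ Rp ^ r) (hRp0 : 0 ≤ Rp)
    (hRo : ∀ i ≤ p.Ko, ∫ ω, P.nX (o i) ω ^ r ∂P.μ ≤ Ro i ^ r) (hRo0 : ∀ i, 0 ≤ Ro i) (hRoM : Monotone Ro) (hRpRo : Rp ≤ Ro 0)
    (hmoa : ∀ i < p.Ko, mo i ≤ P.a) (hvhi : p.vhi ≤ P.a) (hBout : ∀ i < p.Ko, mo i * so i * Ro (i + 1) ≤ Bout)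
    {k0 k1 : ℕ} (hk : k0 ≤ k1) (h0 : p.lo + p.g ≤ ρ k0) (h1 : ρ k1 ≤ p.hi - p.g) (hD0 : p.gam * p.d0 / 2 ≤ ρ k1 - ρ k0) (hD1 : ρ k1 - ρ k0 ≤ p.g) :
    ∫ ω, (∑ s ∈ Ico k0 k1, (ρ (s + 1) - ρ s) * P.W s ω) ^ r ∂P.μ ≤ mbxWLR m p P.a r c1 th eps Qo Rp Bout (ρ k1 - ρ k0) ^ r := by
  have hlo : ∀ s ∈ Ico k0 k1, p.lo ≤ ρ s := fun s hs => by
    have := G.mono (Finset.mem_Ico.1 hs).1
    linarith [G.g_pos]
  have hhi : ∀ s ∈ Ico k0 k1, ρ s ≤ p.hi := fun s hs => by
    have := G.mono (Finset.mem_Ico.1 hs).2.le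
    linarith [G.g_pos]
  have hsum : ∑ s ∈ Ico k0 k1, (ρ (s + 1) - ρ s) = ρ k1 - ρ k0 := Finset.sum_Ico_sub ρ hk
  have hmu0 : ∀ j, 0 ≤ mbxMu p mo j := fun j => by
    unfold mbxMu
    split_ifs
    · have hz : 0 < o 0 := by
        by_contra hc
        have h00 : o 0 = 0 := by omega
        have h3 := G.o_zero
        rw [h00] at h3
        have h4 : 0 ≤ p.Ls := by unfold MbxPar.Ls; exact mul_nonneg (by positivity) G.l0_pos.le
        linarith [G.below, G.lohi]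
      by_contra hc
      -- a cut of the patch exists: the first cut beyond `lo`
      have hcut : mbxCut ρ (o 0) p.lo < o 0 ∨ mbxCut ρ (o 0) p.lo = o 0 := lt_or_eq_of_le (bud_bm_cut_le _ _ _)
      have hLs : 0 < p.Ls := by unfold MbxPar.Ls; exact mul_pos (by positivity) G.l0_pos
      have hspec : p.lo ≤ ρ (mbxCut ρ (o 0) p.lo) := bud_bm_cut_spec (by linarith [G.o_zero, G.lohi])
      rcases hcut with hlt | heq
      · have := G.mass _ hlt hspec
        linarith [G.vlo_pos]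
      · -- then the cut `o 0 - 1` is below `lo` and the mesh is violated
        have hpred : o 0 - 1 < mbxCut ρ (o 0) p.lo := by omega
        have h5 := bud_bm_cut_lt hpred
        have h6 := G.mesh (o 0 - 1) (by omega) (by
          rw [Nat.sub_add_cancel hz]; linarith [G.o_zero, G.lohi])
        rw [Nat.sub_add_cancel hz] at h6
        have h7 : p.eta ≤ p.Ls := by
          have : p.l0 ≤ p.Ls := by
            unfold MbxPar.Ls
            have : (1:ℝ) ≤ 2 ^ (p.K1 - 1) := one_le_pow₀ (by norm_num)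
            nlinarith [G.l0_pos]
          linarith [G.eta_l0]
        have h8 := G.fit
        have h9 := G.g_Ls
        have h10 : 0 ≤ p.gam * (p.d0 + (p.hi - p.lo)) := mul_nonneg G.gam_pos.le (by linarith [G.d0_pos, G.lohi])
        have h11 : 0 < p.gam * p.d0 := mul_pos G.gam_pos G.d0_pos
        nlinarith [G.o_zero, G.lohi]
    · exact G.mo_nn _
  have hsg0 : ∀ j, 0 ≤ mbxSg m p so j := fun j => by
    unfold mbxSg
    split_ifs
    · have : 0 ≤ p.len j := by unfold MbxPar.len; exact mul_nonneg (by positivity) G.l0_pos.le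
      have h2 := G.C0_pos.le
      positivity
    · exact G.so_nn _
  have hD : 0 ≤ ρ k1 - ρ k0 := sub_nonneg.2 (G.mono hk)
  have hG0 : ∀ j, 0 ≤ mbxG p r Qo Rp (ρ k1 - ρ k0) Ro j := fun j => by
    have hl : 0 ≤ p.len j := by unfold MbxPar.len; exact mul_nonneg (by positivity) G.l0_pos.le
    have h2 := G.eta_nn
    have h3 := G.d0_pos.le
    have h4 := hRo0 (j - p.K1)
    have h5 : 0 ≤ min 4 (Qo * (p.d0 + (ρ k1 - ρ k0) + p.len j + p.eta)) := le_min (by norm_num) (by positivity)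
    unfold mbxG
    split_ifs
    · exact le_min (by positivity) (by positivity)
    · exact le_min (by positivity) (by positivity)
    all_goals positivity
  have key := bud_bm_wl P h hr hc1 hcR hp1 hpR (Ico k0 k1) (fun s => ρ (s + 1) - ρ s)
    (fun s _ => sub_nonneg.2 (G.mono (Nat.le_succ s))) p.K (mbxT ρ p o)
    (fun s hs => bud_bm_T_mono G (hhi s hs)) (fun s _ => bud_bm_T_zero s) (fun s _ => bud_bm_T_top G s)
    (mbxMu p mo) (mbxSg m p so) (mbxG p r Qo Rp (ρ k1 - ρ k0) Ro) hmu0 hsg0 hG0 hth heps0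
    (fun s hs j hj hne => bud_bm_T_mu G (hlo s hs) (hhi s hs) hj hne)
    (fun s hs j hj1 hj _ => bud_bm_T_sg G (hlo s hs) (hhi s hs) hj1 hj)
    (fun i hi => bud_bm_T_G h G hr hQ0 hQ hRp hRp0 hRo hRo0 hk h0 h1 hi) heps
  rw [hsum] at key
  refine key.trans (pow_le_pow_left₀ ?_ (bud_bm_T_sum G h hr hc1 hth heps0 hQ0 hRp0 hRo0 hRoM hRpRo hmoa hvhi hBout hD0 hD1) r)
  refine mul_nonneg (Nat.cast_nonneg _) (Finset.sum_nonneg fun i _ => Finset.sum_nonneg fun j _ => mul_nonneg (hmu0 j) ?_)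
  split_ifs
  · exact mul_nonneg (by norm_num) (hG0 0)
  · have h5 : 0 ≤ c1 + th * r := by positivity
    have := hsg0 (max i j)
    have := hG0 (min i j)
    positivity

end blocks

theorem bud_bm_b_eqns_cite : True := by
  have := @mbxCut.eq_1; have := @MbxPar.Ls.eq_1; have := @MbxPar.K.eq_1; have := @MbxPar.len.eq_1; have := @MbxPar.shr.eq_1; have := @MbxRat.eq_1
  have := @mbxT.eq_1; have := @mbxMu.eq_1; have := @mbxSg.eq_1; have := @mbxG.eq_1; have := @mbxWLR.eq_1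
  trivial

end Claimed.Agent.R286
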