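import Claimed.Agent.R286.Bud.MomBoxB

/-!
# Row 286, LL sec. 7, node N13 = Lemma `bud:box-moments` (C15).   File MomBoxC : THE RECURRENCE OVER NESTED BUFFERS, `‖Q - S‖_p ≲ d0` AT STEP LEVEL      (architect helper176; prefix `bud_bm_`)

TeX l.1508-1535 of 07-budgets.   NON-ASYMPTOTIC, on `L8P` + `MbxGeo` (MomBoxB).
* `bud_bm_geo_cut`   the first cut beyond a radius of the patch is within the mesh.
* `bud_bm_WLR_le`    `mbxWLR ≤ Kw D (Qo + Lo)` : separates the constant `Kw = u³A³ ×` (subpower) from `Lo = λ^{-ρ} ×` (constants).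
* `bud_bm_win_buf`   centred normalised window averages of `L` : `‖A - EA‖_{2r}² ≤ cp B/(kap D²)`.
* `bud_bm_step`      `𝒬 ≤ Qo` on `[lo,hi]`  ⟹  `𝒬 ≤ 64 (3 CS + √(T (Qo + Lo)))` on `[lo + 2g, hi - 2g]`, and `‖|X_k|² - S_k‖_{2r} ≤ 16 (3 CS + √(T (Qo + Lo))) d0` there;  `T = 2 cp Kw/(kap gam d0³)`.
* `bud_bm_ratio`     iteration: `mbxQ j` on `[lo + 2 g j, hi - 2 g j]`, start `4 Rp/d0` (raw moments (C8)).
* `bud_bm_delta`     the fork: `‖Q - S_k‖_{2r} ≤ (Cx + 3 CS + 6 Qn) d0 + 2 K esy`.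
Every `sorry` is ONE LEAF: claim it in claim286 by its Lean name, replace ONLY your sorry (helpers just above, name = theorem + suffix), land directly.   False or awkward statement: one line to 176.
-/

set_option autoImplicit false

namespace Claimed.Agent.R286

open MeasureTheory ProbabilityTheory Finset
open scoped ENNReal

variable {Ω : Type} [mΩ : MeasurableSpace Ω] {m : ℕ}
variable {P : L8P Ω m} {ρ : ℕ → ℝ} {p : MbxPar} {o po : ℕ → ℕ} {mo so : ℕ → ℝ} {vmin hmin : ℝ}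

/-! ## 1. Cuts and windows in the patch -/

/-- the first cut beyond a radius `x ∈ [lo, ρ (o 0)]` : `x ≤ ρ (cut) ≤ x + η` -/
theorem bud_bm_geo_cut (G : MbxGeo P ρ p o po mo so vmin hmin) {x : ℝ} (hx0 : p.lo ≤ x) (hx1 : x ≤ ρ (o 0)) :
    x ≤ ρ (mbxCut ρ (o 0) x) ∧ ρ (mbxCut ρ (o 0) x) ≤ x + p.eta := by
  refine ⟨bud_bm_cut_spec hx1, ?_⟩
  rcases Nat.eq_zero_or_pos (mbxCut ρ (o 0) x) with hc | hc
  · rw [hc]
    linarith [G.below, G.eta_nn]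
  · obtain ⟨k, hk⟩ : ∃ k, mbxCut ρ (o 0) x = k + 1 := ⟨mbxCut ρ (o 0) x - 1, by omega⟩
    have h1 : ρ k < x := bud_bm_cut_lt (N := o 0) (by omega)
    have h2 : k < o 0 := by
      have := bud_bm_cut_le ρ (o 0) x
      omega
    have h3 : x ≤ ρ (k + 1) := hk ▸ bud_bm_cut_spec hx1
    have h4 := G.mesh k h2 (hx0.trans h3)
    rw [hk]
    linarith

/-- a cut of the buffer is a cut of the patch -/
theorem bud_bm_geo_lt (G : MbxGeo P ρ p o po mo so vmin hmin) {k : ℕ} (hk : ρ k ≤ p.hi) : k < o 0 := by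
  by_contra hc
  have h1 := G.mono (not_lt.1 hc)
  have h2 : 0 < p.Ls := by unfold MbxPar.Ls; exact mul_pos (by positivity) G.l0_pos
  linarith [G.o_zero]

/-- the constant in front of `Qo` in `mbxWLR` -/
noncomputable def mbxKw (m : ℕ) (p : MbxPar) (r : ℕ) (c1 th : ℝ) : ℝ :=
  (p.K : ℝ) ^ 3 * ((c1 + th * r) * (p.vhi / (p.vlo ^ 2 * m * p.C0) * (64 * r * (2 / p.gam + 3))))

/-- the part of `mbxWLR / D` without `Qo` (for `D ≥ gam d0/2`) -/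
noncomputable def mbxLn (m : ℕ) (p : MbxPar) (a : ℝ) (r : ℕ) (c1 th eps Rp Bout : ℝ) : ℝ :=
  (p.K : ℝ) ^ 3 * ((c1 + th * r) * (p.vhi / (p.vlo ^ 2 * m * p.C0) * (32 * Rp / p.g) + 4 * Bout) + 16 * a * eps)
    + p.K * p.vhi * (1024 * r * p.l0) * (2 / (p.gam * p.d0))

theorem bud_bm_WLR_le (G : MbxGeo P ρ p o po mo so vmin hmin) {a : ℝ} {r : ℕ} {c1 th eps Qo Rp Bout D Kw Lo : ℝ} (hQ0 : 0 ≤ Qo) (hvhi : 0 ≤ p.vhi)
    (hD0 : p.gam * p.d0 / 2 ≤ D) (hK1 : mbxKw m p r c1 th ≤ Kw) (hK2 : mbxLn m p a r c1 th eps Rp Bout ≤ Kw * Lo) :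
    mbxWLR m p a r c1 th eps Qo Rp Bout D ≤ Kw * D * (Qo + Lo) := by
  have hgd : 0 < p.gam * p.d0 := mul_pos G.gam_pos G.d0_pos
  have hD : 0 < D := by linarith
  set Z : ℝ := p.K * p.vhi * (1024 * r * p.l0) with hZ
  have hZ0 : 0 ≤ Z := by
    have := G.l0_pos
    positivity
  have h1 : Z ≤ Z * (2 / (p.gam * p.d0)) * D := by
    have h2 : 1 ≤ 2 / (p.gam * p.d0) * D := by
      rw [div_mul_eq_mul_div, le_div_iff₀ hgd]
      linarith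
    calc Z = Z * 1 := (mul_one _).symm
      _ ≤ Z * (2 / (p.gam * p.d0) * D) := mul_le_mul_of_nonneg_left h2 hZ0
      _ = Z * (2 / (p.gam * p.d0)) * D := by ring
  have h3 : mbxWLR m p a r c1 th eps Qo Rp Bout D
      = (mbxKw m p r c1 th * Qo + (mbxLn m p a r c1 th eps Rp Bout - Z * (2 / (p.gam * p.d0)))) * D + Z := by
    unfold mbxWLR mbxKw mbxLn
    rw [hZ]
    ring
  have h4 : mbxKw m p r c1 th * Qo ≤ Kw * Qo := mul_le_mul_of_nonneg_right hK1 hQ0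
  have h5 : (mbxKw m p r c1 th * Qo + mbxLn m p a r c1 th eps Rp Bout) * D ≤ (Kw * Qo + Kw * Lo) * D :=
    mul_le_mul_of_nonneg_right (by linarith) hD.le
  rw [h3]
  calc (mbxKw m p r c1 th * Qo + (mbxLn m p a r c1 th eps Rp Bout - Z * (2 / (p.gam * p.d0)))) * D + Z
      = (mbxKw m p r c1 th * Qo + mbxLn m p a r c1 th eps Rp Bout) * D - Z * (2 / (p.gam * p.d0)) * D + Z := by ring
    _ ≤ (mbxKw m p r c1 th * Qo + mbxLn m p a r c1 th eps Rp Bout) * D := by linarith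
    _ ≤ (Kw * Qo + Kw * Lo) * D := h5
    _ = Kw * D * (Qo + Lo) := by ring

/-- **centred normalised window averages** ((A1) line 3 with the weight `1/(D α')`, l.1508) -/
theorem bud_bm_win_buf (h : P.Ok) (G : MbxGeo P ρ p o po mo so vmin hmin) {r : ℕ} (hr : 1 ≤ r) {cp B : ℝ} (hcp : 0 ≤ cp) (hpin : P.Pin r (cp ^ r))
    {k0 k1 : ℕ} (hk : k0 ≤ k1) (h0 : p.lo ≤ ρ k0) (h1 : ρ k1 ≤ p.hi) (hD : 0 < ρ k1 - ρ k0) (hB0 : 0 ≤ B)
    (hB : ∫ ω, (∑ s ∈ Ico k0 k1, (ρ (s + 1) - ρ s) * P.W s ω) ^ r ∂P.μ ≤ B ^ r) :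
    ∫ ω, ((∑ s ∈ Ico k0 k1, (ρ (s + 1) - ρ s) / (ρ k1 - ρ k0) * P.L s ω)
        - ∫ ω', (∑ s ∈ Ico k0 k1, (ρ (s + 1) - ρ s) / (ρ k1 - ρ k0) * P.L s ω') ∂P.μ) ^ (2 * r) ∂P.μ
      ≤ (cp * B / (p.kap * (ρ k1 - ρ k0) ^ 2)) ^ r := by
  have := h.prob
  set D : ℝ := ρ k1 - ρ k0 with hDdef
  have hlt : k1 < o 0 := bud_bm_geo_lt G h1
  have hdρ : ∀ s, 0 ≤ ρ (s + 1) - ρ s := fun s => sub_nonneg.2 (G.mono (Nat.le_succ s))
  have hB' : ∫ ω, (∑ s ∈ Ico k0 k1, (ρ (s + 1) - ρ s) / D * P.W s ω) ^ r ∂P.μ ≤ (B / D) ^ r := by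
    have e : ∀ ω, (∑ s ∈ Ico k0 k1, (ρ (s + 1) - ρ s) / D * P.W s ω) ^ r
        = (1 / D) ^ r * (∑ s ∈ Ico k0 k1, (ρ (s + 1) - ρ s) * P.W s ω) ^ r := by
      intro ω
      rw [← mul_pow, mul_sum]
      congr 1
      refine sum_congr rfl fun s _ => ?_
      ring
    simp only [e]
    rw [integral_const_mul]
    calc (1 / D) ^ r * ∫ ω, (∑ s ∈ Ico k0 k1, (ρ (s + 1) - ρ s) * P.W s ω) ^ r ∂P.μ
        ≤ (1 / D) ^ r * B ^ r := mul_le_mul_of_nonneg_left hB (by positivity)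
      _ = (B / D) ^ r := by rw [← mul_pow]; congr 1; ring
  have key := bud_bm_win P h hr (pow_nonneg hcp r) hpin (Ico k0 k1)
    (fun k hk' => by
      have := (mem_Ico.1 hk').2
      have := G.o_le
      omega)
    (fun s => (ρ (s + 1) - ρ s) / D) (fun s _ => div_nonneg (hdρ s) hD.le) (kap := p.kap * D) (B := B / D) (mul_pos G.kap_pos hD)
    (fun s hs => by
      have hs' := mem_Ico.1 hs
      have e : p.kap * D * ((ρ (s + 1) - ρ s) / D) = p.kap * (ρ (s + 1) - ρ s) := by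
        field_simp
      rw [e]
      exact G.floor s (h0.trans (G.mono hs'.1)) ((G.mono (by omega : s + 1 ≤ k1)).trans h1)) hB'
  refine key.trans (le_of_eq ?_)
  rw [← div_pow, ← mul_pow]
  congr 1
  field_simp

/-! ## 2. One step of the recurrence -/

/-- all the analytic inputs of the recurrence at the moment order `2 r` (they do not depend on the buffer) -/
structure MbxIn (P : L8P Ω m) (p : MbxPar) (o : ℕ → ℕ) (mo so : ℕ → ℝ) (vmin hmin : ℝ) (r R : ℕ) (c1 cR cp th eps Rp Bout : ℝ) (Ro : ℕ → ℝ) : Prop where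
  r_pos : 1 ≤ r
  c1_nn : 0 ≤ c1
  cR_nn : 0 ≤ cR
  cp_nn : 0 ≤ cp
  proj1 : P.Proj 1 c1 vmin hmin
  projR : P.Proj R cR vmin hmin
  pin : P.Pin r (cp ^ r)
  th_ge : 1 ≤ th
  eps_nn : 0 ≤ eps
  eps_le : cR ≤ eps ^ r * th ^ R
  /-- raw moments (C8), order `2 r` at the end of the patch, order `r` at the outer cuts -/
  raw : ∫ ω, P.nX (o 0) ω ^ (2 * r) ∂P.μ ≤ Rp ^ (2 * r)
  Rp_nn : 0 ≤ Rp
  rawo : ∀ i ≤ p.Ko, ∫ ω, P.nX (o i) ω ^ r ∂P.μ ≤ Ro i ^ r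
  Ro_nn : ∀ i, 0 ≤ Ro i
  Ro_mono : Monotone Ro
  Rp_Ro : Rp ≤ Ro 0
  mo_a : ∀ i < p.Ko, mo i ≤ P.a
  vhi_a : p.vhi ≤ P.a
  Bout : ∀ i < p.Ko, mo i * so i * Ro (i + 1) ≤ Bout

theorem bud_bm_step_tel (ρ : ℕ → ℝ) {a b : ℕ} (hab : a ≤ b) : ∑ s ∈ Ico a b, (ρ (s + 1) - ρ s) = ρ b - ρ a := by
  induction b, hab using Nat.le_induction with
  | base => simp
  | succ b hab ih => rw [sum_Ico_succ_top hab, ih]; ring

theorem bud_bm_step_Smono (h : P.Ok) {k l : ℕ} (hkl : k ≤ l) : P.S k ≤ P.S l := by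
  have h1 := bud_bm_integral_sq P h hkl
  have h2 : 0 ≤ ∫ ω, P.nXX k l ω ∂P.μ := integral_nonneg fun ω => bud_bm_sq_nonneg P k l ω
  linarith

/-- oscillation of `S` between two cuts of the buffer -/
theorem bud_bm_step_osc (h : P.Ok) (G : MbxGeo P ρ p o po mo so vmin hmin) {s k : ℕ} (hs0 : p.lo ≤ ρ s) (hs1 : ρ s ≤ p.hi)
    (hk0 : p.lo ≤ ρ k) (hk1 : ρ k ≤ p.hi) : |P.S s - P.S k| ≤ p.CS * (p.d0 + |ρ s - ρ k|) := by
  rcases le_total s k with hsk | hsk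
  · have h1 := G.Sosc s k hsk hs0 hk1
    have h2 := bud_bm_step_Smono h hsk
    have h3 : ρ s ≤ ρ k := G.mono hsk
    rw [abs_sub_comm, abs_of_nonneg (by linarith), abs_sub_comm, abs_of_nonneg (by linarith)]
    exact h1
  · have h1 := G.Sosc k s hsk hk0 hs1
    have h2 := bud_bm_step_Smono h hsk
    have h3 : ρ k ≤ ρ s := G.mono hsk
    rw [abs_of_nonneg (by linarith), abs_of_nonneg (by linarith)]
    exact h1

/-- the earlier window -/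
theorem bud_bm_step_back (G : MbxGeo P ρ p o po mo so vmin hmin) {k : ℕ} (hk0 : p.lo + 2 * p.g ≤ ρ k) (hk1 : ρ k ≤ p.hi - 2 * p.g)
    {Δ : ℝ} (hΔ0 : 4 * p.eta ≤ Δ) (hΔ1 : Δ + p.eta ≤ p.g) :
    mbxCut ρ (o 0) (ρ k - Δ) ≤ k ∧ p.lo + p.g ≤ ρ (mbxCut ρ (o 0) (ρ k - Δ)) ∧ 3 * Δ / 4 ≤ ρ k - ρ (mbxCut ρ (o 0) (ρ k - Δ)) ∧
      ρ k - ρ (mbxCut ρ (o 0) (ρ k - Δ)) ≤ Δ := by
  have hg := G.g_pos
  have he := G.eta_nn
  have hlt : k < o 0 := bud_bm_geo_lt G (by linarith)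
  have hc := bud_bm_geo_cut G (x := ρ k - Δ) (by linarith) (by linarith [G.mono hlt.le])
  refine ⟨bud_bm_cut_le_of hlt.le (by linarith), by linarith [hc.1], by linarith [hc.2], by linarith [hc.1]⟩

/-- a later window -/
theorem bud_bm_step_fwd (G : MbxGeo P ρ p o po mo so vmin hmin) {k : ℕ} (hk0 : p.lo + 2 * p.g ≤ ρ k) (hk1 : ρ k ≤ p.hi - 2 * p.g)
    {Δ : ℝ} (hΔ0 : 0 < Δ) (hΔ1 : Δ + p.eta ≤ p.g) :
    k ≤ mbxCut ρ (o 0) (ρ k + Δ) ∧ ρ (mbxCut ρ (o 0) (ρ k + Δ)) ≤ p.hi - p.g ∧ Δ ≤ ρ (mbxCut ρ (o 0) (ρ k + Δ)) - ρ k ∧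
      ρ (mbxCut ρ (o 0) (ρ k + Δ)) - ρ k ≤ Δ + p.eta := by
  have hg := G.g_pos
  have he := G.eta_nn
  have hLs : 0 < p.Ls := by unfold MbxPar.Ls; exact mul_pos (by positivity) G.l0_pos
  have hc := bud_bm_geo_cut G (x := ρ k + Δ) (by linarith) (by linarith [G.o_zero])
  refine ⟨?_, by linarith [hc.2], by linarith [hc.1], by linarith [hc.2]⟩
  by_contra hcon
  have := G.mono (not_le.1 hcon).le
  linarith [hc.1]

/-- centred normalised average of `L` over a window of `[lo + g, hi - g]` of length `≥ gam (d0 + ℓ)/2` -/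
theorem bud_bm_step_win (h : P.Ok) (G : MbxGeo P ρ p o po mo so vmin hmin) {r R : ℕ} {c1 cR cp th eps Rp Bout : ℝ} {Ro : ℕ → ℝ}
    (I : MbxIn P p o mo so vmin hmin r R c1 cR cp th eps Rp Bout Ro) {Qo Kw Lo T : ℝ} (hQ0 : 0 ≤ Qo) (hLo : 0 ≤ Lo) (hQ : MbxRat P ρ p.lo p.hi p.d0 (2 * r) Qo)
    (hK1 : mbxKw m p r c1 th ≤ Kw) (hK2 : mbxLn m p P.a r c1 th eps Rp Bout ≤ Kw * Lo) (hT : 2 * cp * Kw ≤ T * (p.kap * p.gam * p.d0 ^ 3))
    {k0 k1 : ℕ} (hk : k0 ≤ k1) (h0 : p.lo + p.g ≤ ρ k0) (h1 : ρ k1 ≤ p.hi - p.g) {ℓ : ℝ} (hℓ : 0 ≤ ℓ)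
    (hD0 : p.gam * (p.d0 + ℓ) / 2 ≤ ρ k1 - ρ k0) (hD1 : ρ k1 - ρ k0 ≤ p.g) :
    ∫ ω, ((∑ s ∈ Ico k0 k1, (ρ (s + 1) - ρ s) / (ρ k1 - ρ k0) * P.L s ω)
        - ∫ ω', (∑ s ∈ Ico k0 k1, (ρ (s + 1) - ρ s) / (ρ k1 - ρ k0) * P.L s ω') ∂P.μ) ^ (2 * r) ∂P.μ
      ≤ (Real.sqrt (T * (Qo + Lo)) * (p.d0 + ℓ)) ^ (2 * r) := by
  have := h.prob
  have hr := I.r_pos
  have hg := G.g_pos
  have hd := G.d0_pos
  have hgam := G.gam_pos
  have hkap := G.kap_pos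
  set D : ℝ := ρ k1 - ρ k0 with hD
  have hDpos : 0 < D := lt_of_lt_of_le (by positivity) hD0
  have hD0' : p.gam * p.d0 / 2 ≤ D := by
    have : p.gam * p.d0 ≤ p.gam * (p.d0 + ℓ) := mul_le_mul_of_nonneg_left (by linarith) hgam.le
    linarith
  have hk0lt : k0 < o 0 := bud_bm_geo_lt G (by linarith [G.mono hk])
  have hvhi : 0 ≤ p.vhi := by
    have := G.mass k0 hk0lt (by linarith)
    linarith [G.vlo_pos, this.1, this.2]
  have hQr : MbxRat P ρ p.lo p.hi p.d0 r Qo := by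
    intro k l hkl a0 a1
    have hB : 0 ≤ Qo * (p.d0 + (ρ l - ρ k)) := mul_nonneg hQ0 (by linarith [G.mono hkl])
    have e : ∀ q : ℕ, ∀ ω, |P.nXX k l ω| ^ q = P.nXX k l ω ^ q := fun q ω => by rw [abs_of_nonneg (bud_bm_sq_nonneg P k l ω)]
    have := bud_bm_lyap P.μ (bud_bm_sq_bd P h k l) (q := r) (q' := 2 * r) hr (by omega) hB (by simpa only [e] using hQ k l hkl a0 a1)
    simpa only [e] using this
  have hRp : ∫ ω, P.nX (o 0) ω ^ r ∂P.μ ≤ Rp ^ r := by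
    have hnn : ∀ ω, 0 ≤ P.nX (o 0) ω := fun ω => sum_nonneg fun i _ => sq_nonneg _
    have e : ∀ q : ℕ, ∀ ω, |P.nX (o 0) ω| ^ q = P.nX (o 0) ω ^ q := fun q ω => by rw [abs_of_nonneg (hnn ω)]
    have := bud_bm_lyap P.μ (P.l8s_W_bd_nX h (o 0)) (q := r) (q' := 2 * r) hr (by omega) I.Rp_nn (by simpa only [e] using I.raw)
    simpa only [e] using this
  have wl := bud_bm_wl_buf h G hr I.c1_nn I.cR_nn I.proj1 I.projR I.th_ge I.eps_nn I.eps_le hQ0 hQr hRp I.Rp_nn I.rawo I.Ro_nn I.Ro_mono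
    I.Rp_Ro I.mo_a I.vhi_a I.Bout hk h0 h1 hD0' hD1
  have hKo : 0 < p.Ko := by
    rcases Nat.eq_zero_or_pos p.Ko with h0' | h0'
    · have h1' := G.o_top
      rw [h0'] at h1'
      have := G.o_le
      omega
    · exact h0'
  have hBout : 0 ≤ Bout := le_trans (mul_nonneg (mul_nonneg (G.mo_nn 0) (G.so_nn 0)) (I.Ro_nn 1)) (I.Bout 0 hKo)
  have hth : 0 ≤ th := by linarith [I.th_ge]
  have hc1 := I.c1_nn
  have hvlo := G.vlo_pos
  have hC0 := G.C0_pos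
  have hm : (0 : ℝ) < m := by exact_mod_cast G.m_pos
  have hl0 := G.l0_pos
  have hRp0 := I.Rp_nn
  have heps := I.eps_nn
  have ha := h.a_pos
  have hW0 : 0 ≤ mbxWLR m p P.a r c1 th eps Qo Rp Bout D := by
    unfold mbxWLR
    positivity
  have hKw0 : 0 ≤ Kw := by
    refine le_trans ?_ hK1
    unfold mbxKw
    positivity
  have hWB := bud_bm_WLR_le G (a := P.a) (r := r) (c1 := c1) (th := th) (eps := eps) (Rp := Rp) (Bout := Bout) hQ0 hvhi hD0' hK1 hK2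
  have hB0 : 0 ≤ Kw * D * (Qo + Lo) := hW0.trans hWB
  have key := bud_bm_win_buf h G hr I.cp_nn I.pin hk (by linarith) (by linarith) hDpos hB0 (wl.trans (pow_le_pow_left₀ hW0 hWB r))
  refine key.trans ?_
  have hcp := I.cp_nn
  have hT0 : 0 ≤ T := by
    have h1 : 0 ≤ T * (p.kap * p.gam * p.d0 ^ 3) := le_trans (by positivity) hT
    exact nonneg_of_mul_nonneg_left h1 (by positivity)
  have hTQ : 0 ≤ T * (Qo + Lo) := mul_nonneg hT0 (by linarith)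
  have e2 : (Real.sqrt (T * (Qo + Lo)) * (p.d0 + ℓ)) ^ (2 * r) = (T * (Qo + Lo) * (p.d0 + ℓ) ^ 2) ^ r := by
    rw [pow_mul, mul_pow, Real.sq_sqrt hTQ]
  rw [e2]
  refine pow_le_pow_left₀ (by positivity) ?_ r
  rw [div_le_iff₀ (by positivity)]
  have h3 : p.d0 ^ 3 ≤ (p.d0 + ℓ) ^ 3 := pow_le_pow_left₀ hd.le (by linarith) 3
  have h4 : cp * Kw ≤ T * (p.d0 + ℓ) ^ 2 * (p.kap * D) := by
    have a1 : T * (p.kap * p.gam * p.d0 ^ 3) ≤ T * (p.kap * p.gam * (p.d0 + ℓ) ^ 3) :=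
      mul_le_mul_of_nonneg_left (mul_le_mul_of_nonneg_left h3 (by positivity)) hT0
    have a2 : T * (p.d0 + ℓ) ^ 2 * (p.kap * (p.gam * (p.d0 + ℓ) / 2)) ≤ T * (p.d0 + ℓ) ^ 2 * (p.kap * D) :=
      mul_le_mul_of_nonneg_left (mul_le_mul_of_nonneg_left hD0 hkap.le) (by positivity)
    have a3 : T * (p.d0 + ℓ) ^ 2 * (p.kap * (p.gam * (p.d0 + ℓ) / 2)) = T * (p.kap * p.gam * (p.d0 + ℓ) ^ 3) / 2 := by ring
    linarith
  calc cp * (Kw * D * (Qo + Lo)) = cp * Kw * (D * (Qo + Lo)) := by ring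
    _ ≤ T * (p.d0 + ℓ) ^ 2 * (p.kap * D) * (D * (Qo + Lo)) := mul_le_mul_of_nonneg_right h4 (mul_nonneg hDpos.le (by linarith))
    _ = T * (Qo + Lo) * (p.d0 + ℓ) ^ 2 * (p.kap * D ^ 2) := by ring

/-- **ONE STEP OF THE RECURRENCE** (l.1508-1520).   TEX[LL:bud:box-moments]
For `k ≤ l` in `[lo + 2g, hi - 2g]`, `ℓ = ρ l - ρ k`, `Δ' = gam (d0 + ℓ)`: earlier window `[cut (ρ k - Δ'), k)`, later windows `[k, cut (ρ k + Δ'))`, `[l, cut (ρ l + Δ'))`;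
their lengths are in `[3Δ'/4, Δ' + η] ⊆ [gam d0/2, g]`, they lie in `[lo + g, hi - g]`.   `bud_bm_wl_buf` (order `r`: `bud_bm_lyap`) + `bud_bm_WLR_le` + `bud_bm_win_buf` give
`ε² = 2 cp Kw (Qo + Lo)/(kap Δ') ≤ T (Qo + Lo) (d0 + ℓ)²`; `Sbar = S k`, `η_S = 3 CS (d0 + ℓ)`; conclude by `bud_bm_two`, resp. `L8P.l8s_buffer` (`ℓ = 0`). -/
theorem bud_bm_step (h : P.Ok) (G : MbxGeo P ρ p o po mo so vmin hmin) {r R : ℕ} {c1 cR cp th eps Rp Bout : ℝ} {Ro : ℕ → ℝ}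
    (I : MbxIn P p o mo so vmin hmin r R c1 cR cp th eps Rp Bout Ro) {Qo Kw Lo T : ℝ} (hQ0 : 0 ≤ Qo) (hLo : 0 ≤ Lo) (hQ : MbxRat P ρ p.lo p.hi p.d0 (2 * r) Qo)
    (hK1 : mbxKw m p r c1 th ≤ Kw) (hK2 : mbxLn m p P.a r c1 th eps Rp Bout ≤ Kw * Lo) (hT : 2 * cp * Kw ≤ T * (p.kap * p.gam * p.d0 ^ 3)) :
    MbxRat P ρ (p.lo + 2 * p.g) (p.hi - 2 * p.g) p.d0 (2 * r) (64 * (3 * p.CS + Real.sqrt (T * (Qo + Lo)))) ∧
    ∀ k, p.lo + 2 * p.g ≤ ρ k → ρ k ≤ p.hi - 2 * p.g →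
      ∫ ω, (P.nX k ω - P.S k) ^ (2 * r) ∂P.μ ≤ (16 * (3 * p.CS + Real.sqrt (T * (Qo + Lo))) * p.d0) ^ (2 * r) := by
  have hr := I.r_pos
  have hCS := G.CS_nn
  have hd := G.d0_pos
  have hgam := G.gam_pos
  have hdρ : ∀ s, 0 ≤ ρ (s + 1) - ρ s := fun s => sub_nonneg.2 (G.mono (Nat.le_succ s))
  -- the common construction for two cuts `k ≤ l`
  have main : ∀ k l, k ≤ l → p.lo + 2 * p.g ≤ ρ k → ρ l ≤ p.hi - 2 * p.g →
      ∫ ω, P.nXX k l ω ^ (2 * r) ∂P.μ ≤ (64 * (3 * p.CS * (p.d0 + (ρ l - ρ k)) + Real.sqrt (T * (Qo + Lo)) * (p.d0 + (ρ l - ρ k)))) ^ (2 * r) ∧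
      ∫ ω, (P.nX k ω - P.S k) ^ (2 * r) ∂P.μ ≤ (16 * (3 * p.CS * (p.d0 + (ρ l - ρ k)) + Real.sqrt (T * (Qo + Lo)) * (p.d0 + (ρ l - ρ k)))) ^ (2 * r) := by
    intro k l hkl hk0 hl1
    have hg := G.g_pos
    have hkl' : ρ k ≤ ρ l := G.mono hkl
    set ℓ : ℝ := ρ l - ρ k with hℓ
    have hℓ0 : 0 ≤ ℓ := sub_nonneg.2 hkl'
    set Δ : ℝ := p.gam * (p.d0 + ℓ) with hΔ
    have hΔd : p.gam * p.d0 ≤ Δ := mul_le_mul_of_nonneg_left (by linarith) hgam.le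
    have hΔpos : 0 < Δ := lt_of_lt_of_le (mul_pos hgam hd) hΔd
    have hΔ0 : 4 * p.eta ≤ Δ := by linarith [G.eta_d0]
    have hΔ1 : Δ + p.eta ≤ p.g := by
      have h1 : Δ ≤ p.gam * (p.d0 + (p.hi - p.lo)) := mul_le_mul_of_nonneg_left (by linarith) hgam.le
      linarith [G.fit]
    have hΔle : Δ ≤ p.d0 + ℓ := by
      have : p.gam * (p.d0 + ℓ) ≤ 1 * (p.d0 + ℓ) := mul_le_mul_of_nonneg_right G.gam_le (by linarith)
      linarith
    have hk1 : ρ k ≤ p.hi - 2 * p.g := hkl'.trans hl1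
    have hl0 : p.lo + 2 * p.g ≤ ρ l := hk0.trans hkl'
    obtain ⟨b1, b2, b3, b4⟩ := bud_bm_step_back G hk0 hk1 hΔ0 hΔ1
    obtain ⟨f1, f2, f3, f4⟩ := bud_bm_step_fwd G hk0 hk1 hΔpos hΔ1
    obtain ⟨g1, g2, g3, g4⟩ := bud_bm_step_fwd G hl0 hl1 hΔpos hΔ1
    set km := mbxCut ρ (o 0) (ρ k - Δ) with hkm
    set kp := mbxCut ρ (o 0) (ρ k + Δ) with hkp
    set lp := mbxCut ρ (o 0) (ρ l + Δ) with hlp
    have hDm : 0 < ρ k - ρ km := by linarith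
    have hDp : 0 < ρ kp - ρ k := by linarith
    have hDl : 0 < ρ lp - ρ l := by linarith
    have hη : 0 ≤ 3 * p.CS * (p.d0 + ℓ) := by positivity
    have hε : 0 ≤ Real.sqrt (T * (Qo + Lo)) * (p.d0 + ℓ) := by positivity
    have one : ∀ a b : ℕ, a ≤ b → 0 < ρ b - ρ a → ∑ s ∈ Ico a b, (ρ (s + 1) - ρ s) / (ρ b - ρ a) = 1 := by
      intro a b hab hD
      rw [← sum_div, bud_bm_step_tel ρ hab, div_self hD.ne']
    have hS : ∀ s, p.lo ≤ ρ s → ρ s ≤ p.hi → |ρ s - ρ k| ≤ ℓ + Δ + p.eta → |P.S s - P.S k| ≤ 3 * p.CS * (p.d0 + ℓ) := by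
      intro s hs0 hs1 hs2
      refine (bud_bm_step_osc h G hs0 hs1 (by linarith) (by linarith)).trans ?_
      have : p.CS * (p.d0 + |ρ s - ρ k|) ≤ p.CS * (3 * (p.d0 + ℓ)) := mul_le_mul_of_nonneg_left (by linarith) hCS
      linarith
    have hSm : ∀ s ∈ Ico km k, |P.S s - P.S k| ≤ 3 * p.CS * (p.d0 + ℓ) := by
      intro s hs
      have hs' := mem_Ico.1 hs
      have a1 : ρ km ≤ ρ s := G.mono hs'.1
      have a2 : ρ s ≤ ρ k := G.mono hs'.2.le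
      refine hS s (by linarith) (by linarith) ?_
      rw [abs_sub_comm, abs_of_nonneg (by linarith)]
      linarith [G.eta_nn]
    have hSp : ∀ s ∈ Ico k kp, |P.S s - P.S k| ≤ 3 * p.CS * (p.d0 + ℓ) := by
      intro s hs
      have hs' := mem_Ico.1 hs
      have a1 : ρ k ≤ ρ s := G.mono hs'.1
      have a2 : ρ s ≤ ρ kp := G.mono hs'.2.le
      refine hS s (by linarith) (by linarith) ?_
      rw [abs_of_nonneg (by linarith)]
      linarith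
    have hSl : ∀ s ∈ Ico l lp, |P.S s - P.S k| ≤ 3 * p.CS * (p.d0 + ℓ) := by
      intro s hs
      have hs' := mem_Ico.1 hs
      have a1 : ρ l ≤ ρ s := G.mono hs'.1
      have a2 : ρ s ≤ ρ lp := G.mono hs'.2.le
      refine hS s (by linarith) (by linarith) ?_
      rw [abs_of_nonneg (by linarith)]
      linarith
    have wm := bud_bm_step_win h G I hQ0 hLo hQ hK1 hK2 hT b1 b2 (by linarith) hℓ0 (by linarith) (by linarith [G.eta_nn])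
    have wp := bud_bm_step_win h G I hQ0 hLo hQ hK1 hK2 hT f1 (by linarith) f2 hℓ0 (by linarith) (by linarith)
    have wl := bud_bm_step_win h G I hQ0 hLo hQ hK1 hK2 hT g1 (by linarith) g2 hℓ0 (by linarith) (by linarith)
    constructor
    · exact bud_bm_two P h r hr k l (Ico km k) (Ico k kp) (Ico l lp) (fun s => (ρ (s + 1) - ρ s) / (ρ k - ρ km))
        (fun s => (ρ (s + 1) - ρ s) / (ρ kp - ρ k)) (fun s => (ρ (s + 1) - ρ s) / (ρ lp - ρ l)) (P.S k) _ _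
        (fun s hs => ⟨(mem_Ico.1 hs).2.le, (mem_Ico.1 hs).2.le.trans hkl⟩) (fun s hs => (mem_Ico.1 hs).1) (fun s hs => (mem_Ico.1 hs).1)
        (fun s => div_nonneg (hdρ s) hDm.le) (fun s => div_nonneg (hdρ s) hDp.le) (fun s => div_nonneg (hdρ s) hDl.le)
        (one km k b1 hDm) (one k kp f1 hDp) (one l lp g1 hDl) hη hε hSm hSp hSl wm wp wl
    · exact (P.l8s_buffer h r hr k (Ico km k) (Ico k kp) (fun s => (ρ (s + 1) - ρ s) / (ρ k - ρ km))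
        (fun s => (ρ (s + 1) - ρ s) / (ρ kp - ρ k)) (P.S k) _ _
        (fun s hs => (mem_Ico.1 hs).2.le) (fun s hs => (mem_Ico.1 hs).1)
        (fun s => div_nonneg (hdρ s) hDm.le) (fun s => div_nonneg (hdρ s) hDp.le)
        (one km k b1 hDm) (one k kp f1 hDp) hη hε (fun s hs _ => hSm s hs) (fun s hs _ => hSp s hs) wm wp).1
  constructor
  · intro k l hkl hk0 hl1
    refine ((main k l hkl hk0 hl1).1).trans (le_of_eq ?_)
    congr 1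
    ring
  · intro k hk0 hk1
    refine ((main k k le_rfl hk0 hk1).2).trans (le_of_eq ?_)
    congr 1
    ring

/-! ## 3. The iteration -/

/-- the numbers of the recurrence -/
noncomputable def mbxQ (CS T Lo q0 : ℝ) : ℕ → ℝ
  | 0 => q0
  | j + 1 => 64 * (3 * CS + Real.sqrt (T * (mbxQ CS T Lo q0 j + Lo)))

/-- start of the recurrence: `𝒬_0 ≤ 4 Rp/d0` (l.1480: "(C8) gives `𝒬_0 = O(1/L)`") -/
theorem bud_bm_ratio_zero (h : P.Ok) (G : MbxGeo P ρ p o po mo so vmin hmin) {q : ℕ} (hq : 1 ≤ q) {Rp : ℝ} (hRp0 : 0 ≤ Rp)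
    (hraw : ∫ ω, P.nX (o 0) ω ^ q ∂P.μ ≤ Rp ^ q) : MbxRat P ρ p.lo p.hi p.d0 q (4 * Rp / p.d0) := by
  intro k l hkl h0 h1
  have := h.prob
  have hl : l < o 0 := bud_bm_geo_lt G h1
  have hnn : ∀ k ω, 0 ≤ P.nX k ω := fun k ω => sum_nonneg fun i _ => sq_nonneg _
  have hbd : ∀ k, L8Bd (fun ω => 2 * P.nX k ω) := fun k => (P.l8s_W_bd_nX h k).const_mul 2
  have a : ∀ j, j ≤ o 0 → ∫ ω, |2 * P.nX j ω| ^ q ∂P.μ ≤ (2 * Rp) ^ q := by
    intro j hj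
    have e : ∀ ω, |2 * P.nX j ω| ^ q = 2 ^ q * P.nX j ω ^ q := fun ω => by
      rw [abs_of_nonneg (mul_nonneg (by norm_num) (hnn j ω)), mul_pow]
    simp only [e]
    rw [integral_const_mul, mul_pow]
    exact mul_le_mul_of_nonneg_left ((bud_bm_nX_mono P h hj q).trans hraw) (by positivity)
  have hm := bud_bm_mink2 P.μ (hbd k) (hbd l) (A := 2 * Rp) (B := 2 * Rp) (by positivity) (by positivity) q hq
    (a k (by omega)) (a l hl.le)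
  have h2 : ∫ ω, P.nXX k l ω ^ q ∂P.μ ≤ ∫ ω, |2 * P.nX k ω + 2 * P.nX l ω| ^ q ∂P.μ := by
    refine integral_mono (((bud_bm_sq_bd P h k l).pow q).integrable _) ((((hbd k).add (hbd l)).abs.pow q).integrable _) fun ω => ?_
    exact pow_le_pow_left₀ (bud_bm_sq_nonneg P k l ω) ((bud_bm_sq_le_nX P k l ω).trans (le_abs_self _)) q
  refine (h2.trans hm).trans (pow_le_pow_left₀ (by positivity) ?_ q)
  have hd := G.d0_pos
  have h3 : 0 ≤ ρ l - ρ k := sub_nonneg.2 (G.mono hkl)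
  have h4 : 4 * Rp / p.d0 * (p.d0 + (ρ l - ρ k)) = 4 * Rp + 4 * Rp / p.d0 * (ρ l - ρ k) := by
    field_simp
  rw [h4]
  have h5 : 0 ≤ 4 * Rp / p.d0 * (ρ l - ρ k) := by positivity
  linarith

/-- **THE ITERATION OVER THE NESTED BUFFERS** (induction on `j`: `bud_bm_step` for `p.shr j`, `bud_bm_geo_shr`; `mbxKw`, `mbxLn`, `MbxIn` do not see `lo, hi`) -/
theorem bud_bm_ratio (h : P.Ok) (G : MbxGeo P ρ p o po mo so vmin hmin) {r R : ℕ} {c1 cR cp th eps Rp Bout : ℝ} {Ro : ℕ → ℝ}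
    (I : MbxIn P p o mo so vmin hmin r R c1 cR cp th eps Rp Bout Ro) {Kw Lo T : ℝ} (hLo : 0 ≤ Lo)
    (hK1 : mbxKw m p r c1 th ≤ Kw) (hK2 : mbxLn m p P.a r c1 th eps Rp Bout ≤ Kw * Lo) (hT : 2 * cp * Kw ≤ T * (p.kap * p.gam * p.d0 ^ 3))
    (j : ℕ) (hj : p.lo + 2 * p.g * j ≤ p.hi - 2 * p.g * j) :
    MbxRat P ρ (p.lo + 2 * p.g * j) (p.hi - 2 * p.g * j) p.d0 (2 * r) (mbxQ p.CS T Lo (4 * Rp / p.d0) j) ∧
    (1 ≤ j → ∀ k, p.lo + 2 * p.g * j ≤ ρ k → ρ k ≤ p.hi - 2 * p.g * j →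
      ∫ ω, (P.nX k ω - P.S k) ^ (2 * r) ∂P.μ ≤ (mbxQ p.CS T Lo (4 * Rp / p.d0) j / 4 * p.d0) ^ (2 * r)) := by
  have hg := G.g_pos
  have hd := G.d0_pos
  have hQnn : ∀ j, 0 ≤ mbxQ p.CS T Lo (4 * Rp / p.d0) j := by
    intro j
    cases j with
    | zero =>
      have := I.Rp_nn
      simp only [mbxQ]
      positivity
    | succ j =>
      have := G.CS_nn
      simp only [mbxQ]
      positivity
  induction j with
  | zero =>
    refine ⟨?_, fun h1 => absurd h1 (by norm_num)⟩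
    have := bud_bm_ratio_zero h G (q := 2 * r) (by have := I.r_pos; omega) I.Rp_nn I.raw
    simpa [mbxQ] using this
  | succ j ih =>
    have hcast : ((j + 1 : ℕ) : ℝ) = (j : ℝ) + 1 := by push_cast; ring
    rw [hcast] at hj ⊢
    have hj' : p.lo + 2 * p.g * j ≤ p.hi - 2 * p.g * j := by nlinarith
    have ih1 := (ih hj').1
    have G' := bud_bm_geo_shr G j hj'
    have I' : MbxIn P (p.shr j) o mo so vmin hmin r R c1 cR cp th eps Rp Bout Ro :=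
      ⟨I.r_pos, I.c1_nn, I.cR_nn, I.cp_nn, I.proj1, I.projR, I.pin, I.th_ge, I.eps_nn, I.eps_le, I.raw, I.Rp_nn, I.rawo, I.Ro_nn,
        I.Ro_mono, I.Rp_Ro, I.mo_a, I.vhi_a, I.Bout⟩
    have key := bud_bm_step h G' I' (Qo := mbxQ p.CS T Lo (4 * Rp / p.d0) j) (Kw := Kw) (Lo := Lo) (T := T) (hQnn j) hLo ih1 hK1 hK2 hT
    have e1 : (p.shr j).lo + 2 * (p.shr j).g = p.lo + 2 * p.g * ((j : ℝ) + 1) := by
      show p.lo + 2 * p.g * j + 2 * p.g = _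
      ring
    have e2 : (p.shr j).hi - 2 * (p.shr j).g = p.hi - 2 * p.g * ((j : ℝ) + 1) := by
      show p.hi - 2 * p.g * j - 2 * p.g = _
      ring
    rw [e1, e2] at key
    refine ⟨key.1, fun _ k hk0 hk1 => (key.2 k hk0 hk1).trans (le_of_eq ?_)⟩
    congr 1
    show _ = 64 * (3 * p.CS + Real.sqrt (T * (mbxQ p.CS T Lo (4 * Rp / p.d0) j + Lo))) / 4 * p.d0
    show 16 * (3 * p.CS + Real.sqrt (T * (mbxQ p.CS T Lo (4 * Rp / p.d0) j + Lo))) * p.d0 = _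
    ring

/-! ## 4. The fork -/

/-- **THE FORK** (l.1527-1535).   TEX[LL:bud:box-moments]
Fork at a cut `k` of `[lo', hi' - 2 d0]`, where `𝒬 ≤ Qn` and `‖|X|² - S‖_{2r} ≤ Cx d0` on `[lo', hi'] ⊆ [lo, hi]`.   `j0` = the dyadic layer with `len j0 ≤ d0 ≤ 2 len j0`; `k' = mbxT j0 k`.
`bud_bm_sync` for the chain `i ↦ mbxT (j0 + i) k`, `i ≤ K - j0`, projection intervals from `bud_bm_T_sg`, `e i = esy`; `bud_bm_polar` at `k'` with `Sb = S k`: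
`a = Cx d0 + CS (d0 + 2 d0)`, `b = Qn (d0 + 2 d0)`. -/
theorem bud_bm_delta (h : P.Ok) (G : MbxGeo P ρ p o po mo so vmin hmin) {r : ℕ} (hr : 1 ≤ r) {cq Rp esy Qn Cx lo' hi' : ℝ} {Ro : ℕ → ℝ} (hcq : 0 ≤ cq)
    (hp : P.Proj r (cq ^ r) vmin hmin) (hRp : ∫ ω, P.nX (o 0) ω ^ r ∂P.μ ≤ Rp ^ r) (hRp0 : 0 ≤ Rp)
    (hRo : ∀ i ≤ p.Ko, ∫ ω, P.nX (o i) ω ^ r ∂P.μ ≤ Ro i ^ r) (hRo0 : ∀ i, 0 ≤ Ro i)
    {j0 : ℕ} (hj1 : 1 ≤ j0) (hj0 : j0 ≤ p.K1) (hl1 : p.len j0 ≤ p.d0) (hl2 : p.d0 ≤ 2 * p.len j0) (hesy : 0 ≤ esy)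
    (he1 : cq * Rp * mbxSg m p so j0 ≤ esy ^ 2) (he2 : ∀ i < p.Ko, cq * Ro (i + 1) * so i ≤ esy ^ 2)
    (hlo : p.lo ≤ lo') (hhi : hi' ≤ p.hi) (hQn0 : 0 ≤ Qn) (hCx0 : 0 ≤ Cx) (hQn : MbxRat P ρ lo' hi' p.d0 (2 * r) Qn)
    (hCx : ∀ k, lo' ≤ ρ k → ρ k ≤ hi' → ∫ ω, (P.nX k ω - P.S k) ^ (2 * r) ∂P.μ ≤ (Cx * p.d0) ^ (2 * r))
    {k : ℕ} (hk0 : lo' ≤ ρ k) (hk1 : ρ k + 2 * p.d0 ≤ hi') :
    ∫ z, (P.Q z - P.S k) ^ (2 * r) ∂(P.fork k) ≤ ((Cx + 3 * p.CS + 6 * Qn) * p.d0 + 2 * p.K * esy) ^ (2 * r) := by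
  have := h.prob
  have := P.l8s_fork_prob h k
  have hd := G.d0_pos
  have hCS := G.CS_nn
  have hs0 : p.lo ≤ ρ k := hlo.trans hk0
  have hs1 : ρ k ≤ p.hi := by linarith
  have eabs : ∀ x : ℝ, |x| ^ (2 * r) = x ^ (2 * r) := fun x => by rw [pow_mul, pow_mul, sq_abs]
  have hKdef : p.K = p.K1 + 1 + p.Ko := rfl
  -- the chain
  obtain ⟨t, ht⟩ : ∃ t : ℕ → ℕ, ∀ i, t i = mbxT ρ p o (j0 + i) k := ⟨_, fun _ => rfl⟩
  obtain ⟨K', hK'⟩ : ∃ K' : ℕ, K' = p.K - j0 := ⟨_, rfl⟩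
  have htm : Monotone t := fun a b hab => by
    rw [ht, ht]
    exact bud_bm_T_mono G hs1 (by omega : j0 + a ≤ j0 + b)
  have htK : t K' = P.n + 1 := by
    rw [ht, hK', show j0 + (p.K - j0) = p.K by omega]
    exact bud_bm_T_top G k
  have hsg : ∀ i, ∃ q, i < K' → (k ≤ q ∧ q < t i ∧ vmin ≤ P.v q ∧ hmin ≤ P.hlen q (t i) ∧ 1 ≤ mbxSg m p so (j0 + i) * mbxDen P q (t i)) := by
    intro i
    by_cases hi : i < K'
    · obtain ⟨q, hq⟩ := bud_bm_T_sg G hs0 hs1 (j := j0 + i) (by omega) (by omega)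
      rw [← ht] at hq
      exact ⟨q, fun _ => hq⟩
    · exact ⟨0, fun h' => absurd h' hi⟩
  choose pq hpq using hsg
  have hSg0 : ∀ j, 0 ≤ mbxSg m p so j := by
    intro j
    unfold mbxSg
    split_ifs
    · have := bud_bm_T_len_pos G j
      have := G.vlo_pos
      have := G.C0_pos
      positivity
    · exact G.so_nn _
  have hden : ∀ i < K', 0 < mbxDen P (pq i) (t i) := by
    intro i hi
    have h1 := (hpq i hi).2.2.2.2
    by_contra hc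
    have := mul_nonpos_of_nonneg_of_nonpos (hSg0 (j0 + i)) (not_lt.1 hc)
    linarith
  obtain ⟨Rw, hRw⟩ : ∃ Rw : ℕ → ℝ, ∀ i, Rw i = if j0 + i ≤ p.K1 + 1 then Rp else Ro (j0 + i - p.K1 - 1) := ⟨_, fun _ => rfl⟩
  have hRw0 : ∀ i, 0 ≤ Rw i := by
    intro i
    rw [hRw]
    split_ifs
    · exact hRp0
    · exact hRo0 _
  have hRwb : ∀ i ≤ K', ∫ ω, P.nX (t i) ω ^ r ∂P.μ ≤ Rw i ^ r := by
    intro i hi
    rw [hRw]
    split_ifs with hc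
    · have hle : t i ≤ o 0 := by
        rw [ht]
        rcases Nat.lt_or_ge p.K1 (j0 + i) with h1 | h1
        · rw [bud_bm_T_outer h1, show j0 + i - p.K1 - 1 = 0 by omega]
        · rw [bud_bm_T_slide (by omega) h1]
          exact bud_bm_cut_le _ _ _
      exact (bud_bm_nX_mono P h hle r).trans hRp
    · rw [ht, bud_bm_T_outer (by omega)]
      exact hRo _ (by omega)
  have hee : ∀ i < K', cq ^ r * Rw (i + 1) ^ r ≤ esy ^ (2 * r) * mbxDen P (pq i) (t i) ^ r := by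
    intro i hi
    have hD := hden i hi
    have h1 := (hpq i hi).2.2.2.2
    have h2 : cq * Rw (i + 1) * mbxSg m p so (j0 + i) ≤ esy ^ 2 := by
      rcases Nat.lt_or_ge p.K1 (j0 + i) with hc | hc
      · have e1 : Rw (i + 1) = Ro (j0 + i - p.K1 - 1 + 1) := by
          rw [hRw, if_neg (by omega)]
          congr 1
          omega
        have e2 : mbxSg m p so (j0 + i) = so (j0 + i - p.K1 - 1) := by
          unfold mbxSg
          rw [if_neg (by omega)]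
        rw [e1, e2]
        exact he2 _ (by omega)
      · have e1 : Rw (i + 1) = Rp := by
          rw [hRw, if_pos (by omega)]
        have e2 : mbxSg m p so (j0 + i) ≤ mbxSg m p so j0 := by
          unfold mbxSg
          rw [if_pos hc, if_pos hj0]
          have a1 := bud_bm_T_len_pos G j0
          have a2 := bud_bm_T_len_mono G (show j0 ≤ j0 + i by omega)
          have a3 := G.vlo_pos
          have a4 := G.C0_pos
          have a5 : (0 : ℝ) < m := by exact_mod_cast G.m_pos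
          refine one_div_le_one_div_of_le (by positivity) ?_
          exact mul_le_mul_of_nonneg_left (mul_le_mul_of_nonneg_left a2 a4.le) (by positivity)
        rw [e1]
        exact (mul_le_mul_of_nonneg_left e2 (mul_nonneg hcq hRp0)).trans he1
    have h3 : cq * Rw (i + 1) ≤ esy ^ 2 * mbxDen P (pq i) (t i) := by
      calc cq * Rw (i + 1) = cq * Rw (i + 1) * 1 := (mul_one _).symm
        _ ≤ cq * Rw (i + 1) * (mbxSg m p so (j0 + i) * mbxDen P (pq i) (t i)) :=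
            mul_le_mul_of_nonneg_left h1 (mul_nonneg hcq (hRw0 _))
        _ = (cq * Rw (i + 1) * mbxSg m p so (j0 + i)) * mbxDen P (pq i) (t i) := by ring
        _ ≤ esy ^ 2 * mbxDen P (pq i) (t i) := mul_le_mul_of_nonneg_right h2 hD.le
    calc cq ^ r * Rw (i + 1) ^ r = (cq * Rw (i + 1)) ^ r := (mul_pow _ _ _).symm
      _ ≤ (esy ^ 2 * mbxDen P (pq i) (t i)) ^ r := pow_le_pow_left₀ (mul_nonneg hcq (hRw0 _)) h3 r
      _ = esy ^ (2 * r) * mbxDen P (pq i) (t i) ^ r := by rw [mul_pow, pow_mul]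
  have sync := bud_bm_sync P h hr (pow_nonneg hcq r) hp k K' t pq htm htK
    (fun i hi => ⟨(hpq i hi).1, (hpq i hi).2.1, (hpq i hi).2.2.1, (hpq i hi).2.2.2.1, hden i hi⟩) Rw (fun _ => esy) (fun _ => hesy) hRwb hee
  -- the projected cut
  have hlen0 := bud_bm_T_len_pos G j0
  have hlenL := bud_bm_T_len_Ls G hj0
  have ht0 : t 0 = mbxCut ρ (o 0) (ρ k + p.len j0) := by
    rw [ht, Nat.add_zero, bud_bm_T_slide (by omega) hj0]
  obtain ⟨c1, c2⟩ := bud_bm_T_cut_gt G hs1 hlen0 hlenL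
  have c3 := (bud_bm_geo_cut G (x := ρ k + p.len j0) (by linarith) (by linarith [G.o_zero])).2
  rw [← ht0] at c1 c2 c3
  have heta : p.eta ≤ p.d0 := by
    have h1 := G.eta_d0
    have h2 : p.gam * p.d0 ≤ 1 * p.d0 := mul_le_mul_of_nonneg_right G.gam_le hd.le
    linarith
  have hρ1 : ρ (t 0) - ρ k ≤ 2 * p.d0 := by linarith
  have hρ0 : 0 ≤ ρ (t 0) - ρ k := by linarith
  have hk'0 : lo' ≤ ρ (t 0) := by linarith
  have hk'1 : ρ (t 0) ≤ hi' := by linarith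
  have hS1 : |P.S (t 0) - P.S k| ≤ p.CS * (3 * p.d0) := by
    have a1 := G.Sosc k (t 0) c1.le hs0 (hk'1.trans hhi)
    have a2 := bud_bm_step_Smono h c1.le
    rw [abs_of_nonneg (by linarith)]
    exact a1.trans (mul_le_mul_of_nonneg_left (by linarith) hCS)
  have p1 : ∫ ω, |P.nX (t 0) ω - P.S k| ^ (2 * r) ∂P.μ ≤ (Cx * p.d0 + p.CS * (3 * p.d0)) ^ (2 * r) := by
    have a1 : ∫ ω, |P.nX (t 0) ω - P.S (t 0)| ^ (2 * r) ∂P.μ ≤ (Cx * p.d0) ^ (2 * r) := by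
      simp only [eabs]
      exact hCx (t 0) hk'0 hk'1
    have a2 : ∫ ω, |(fun _ : Ω => P.S (t 0) - P.S k) ω| ^ (2 * r) ∂P.μ ≤ (p.CS * (3 * p.d0)) ^ (2 * r) := by
      simp only [integral_const, probReal_univ, one_smul]
      exact pow_le_pow_left₀ (abs_nonneg _) hS1 _
    have a3 := bud_bm_mink2 P.μ ((P.l8s_W_bd_nX h (t 0)).sub (l8Bd_const (P.S (t 0)))) (l8Bd_const (P.S (t 0) - P.S k))
      (A := Cx * p.d0) (B := p.CS * (3 * p.d0)) (by positivity) (by positivity) (2 * r) (by omega) a1 a2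
    refine le_trans (le_of_eq ?_) a3
    refine integral_congr_ae (Filter.Eventually.of_forall fun ω => ?_)
    show |P.nX (t 0) ω - P.S k| ^ (2 * r) = |P.nX (t 0) ω - P.S (t 0) + (P.S (t 0) - P.S k)| ^ (2 * r)
    congr 2
    ring
  have p2 : ∫ ω, P.nXX k (t 0) ω ^ (2 * r) ∂P.μ ≤ (Qn * (3 * p.d0)) ^ (2 * r) := by
    refine (hQn k (t 0) c1.le hk0 hk'1).trans (pow_le_pow_left₀ (mul_nonneg hQn0 (by linarith)) ?_ _)
    exact mul_le_mul_of_nonneg_left (by linarith) hQn0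
  have pol := bud_bm_polar P h (q := 2 * r) (by omega) c1.le (Sb := P.S k) (a := Cx * p.d0 + p.CS * (3 * p.d0)) (b := Qn * (3 * p.d0))
    (by positivity) (by positivity) p1 p2
  -- Minkowski on the fork
  have hX : ∀ c i, L8Bd (P.X c i) := fun c i => P.l8s_X_bd h c i
  have hQbd : @L8Bd (Ω × Ω) _ P.Q := ⟨(P.l8s_fork_Q_bd_aux h).1, 1, (P.l8s_fork_Q_bd_aux h).2⟩
  have hQXbd : @L8Bd (Ω × Ω) _ (P.QX (t 0) (t 0)) :=
    L8Bd.sum _ fun j _ => (l8k_bd_comp measurable_fst (hX _ j)).mul (l8k_bd_comp measurable_snd (hX _ j))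
  have s1 : ∫ z, |P.Q z - P.QX (t 0) (t 0) z| ^ (2 * r) ∂(P.fork k) ≤ (2 * (K' * esy)) ^ (2 * r) := by
    simp only [eabs]
    refine sync.trans (le_of_eq ?_)
    simp
  have fin := bud_bm_mink2 (P.fork k) (hQbd.sub hQXbd) (hQXbd.sub (l8Bd_const (P.S k)))
    (A := 2 * (K' * esy)) (B := Cx * p.d0 + p.CS * (3 * p.d0) + 2 * (Qn * (3 * p.d0))) (by positivity) (by positivity) (2 * r) (by omega) s1 pol
  have e3 : ∀ z, (P.Q z - P.S k) ^ (2 * r) = |P.Q z - P.QX (t 0) (t 0) z + (P.QX (t 0) (t 0) z - P.S k)| ^ (2 * r) := by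
    intro z
    rw [eabs]
    congr 1
    ring
  simp only [e3]
  refine fin.trans (pow_le_pow_left₀ (by positivity) ?_ _)
  have hKK : (K' : ℝ) ≤ p.K := by
    rw [hK']
    exact_mod_cast Nat.sub_le _ _
  have := mul_le_mul_of_nonneg_right hKK hesy
  nlinarith

theorem bud_bm_c_eqns_cite : True := by
  have := @mbxKw.eq_1; have := @mbxLn.eq_1; have := @mbxQ.eq_1; have := @mbxQ.eq_2; have := @mbxQ.eq_def
  trivial

end Claimed.Agent.R286
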