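import Claimed.Agent.R286.Bud.MomBoxC
import Claimed.Agent.R286.Bud.L8Defs
import Claimed.Agent.R286.Bud.StarW
import Claimed.Agent.R286.Cmp.P5Chain

/-!
# Row 286, LL sec. 7, node N13 = Lemma `bud:box-moments` (C15).   File MomBoxI : THE INSTANCE ON FINE CHAINS, THE LIMIT STEP → CLOCK, (C15a) NON-ASYMPTOTIC      (helper3; prefix `bud_bm_`, defs `mbx*`, `Mbx*`)

Items (1)-(5) of the plan of helper176 (notes/R286/N13_handover_176.md, R1 + R2).   ALL PROVED, 0 sorry, closure = the three standard principles only.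
* sec. 1  R2: `bud_bm_lim_S`, `bud_bm_lim_fork_tendsto`, `bud_bm_lim_fork`, `bud_bm_nQ_le` : bounds of `∫ (Q - S_k)^(2l) d fork_k` on (cofinally many) fine chains pass to `Q.nQ W g (2 l) v (Q.Sq W g v)`.
* sec. 2  `MbxCont` = continuum geometry of ONE instance (clocks `b = Q.bE g`, `h = Q.hE g`, radius `r = Q.r`, parameters `MbxPar`, outer masses `vo`, `vp`);  `MbxCin` = continuum analytic inputs (constants of (A3), raw moments `cmkMX` at the outer masses, STRICT).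
* sec. 3-5  R1: `bud_bm_fine`, `bud_bm_inst_geo`, `bud_bm_inst_in`, `bud_bm_inst : MbxCont → MbxCin → BmEv 1 fun ps => CkmCh ps ∧ P.Ok ∧ MbxGeo .. ∧ MbxIn ..`  with `P = skSP m 1 (ckStp 1 b h ps)`, `ρ = mbxRho r ps` (`= Q.rho ps`, rfl), `o = mbxO Ko vo ps`, `po = mbxPo vp ps`, `cp = 1 + (2q)²/3`.   Dictionary = `Cmp/P5Chain.lean` of helper7.
* sec. 6  `MbxNum` = numerical side conditions;  `bud_bm_c15a_chain`, `bud_bm_c15a_num : W.IsHub → MbxCont → MbxCin → MbxNum → lo + 2 g nb ≤ r v → r v + 2 d0 ≤ hi - 2 g nb → Q.nQ W g (2 q) v (Q.Sq W g v) ≤ mbxC15 p T Lo Rp esy nb`.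
REMAINS for `bud_c15` (frame level, helper9): parameters as functions of the frame, `MbxCont`/`MbxCin` from the frame inputs, `MbxNum` + `mbxC15 ≲ d0` from `Bud/PowE.lean`.
-/

set_option autoImplicit false

namespace Claimed.Agent.R286

open MeasureTheory ProbabilityTheory Filter Topology Set

/-! ## 1. R2 : the limit step → clock -/

section lim
variable {W : BdWorld} {m : ℕ} {b h : ℝ → ℝ}

/-- the step `S` at the cut of the mass `v` converges to the `S` of the world -/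
theorem bud_bm_lim_S (hW : W.IsHub) (hm : 0 < m) (hb : IsClock 1 b) (hh : IsClock 1 h) {v : ℝ} (hv : v ∈ Ioo (0 : ℝ) 1) :
    Tendsto (fun F : Finset GhPos => (bcsSP m b h F).S (bcsIx F v)) atTop (𝓝 ((W.ps m).S b h v)) := by
  have h1 := bcs_w_nu2 hW hm hb hh hv (fun t => t) measurable_id ⟨1, fun t ht => abs_le.2 ht⟩
  simp only [fun F => (bcsSP m b h F).l8s_fork_Q (bcs_w_ok hm hb hh F)] at h1
  have e : W.nu m b h 2 (fun _ _ => v) (fun O => O 0 1) = (W.ps m).S b h v := by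
    rw [hW.nu m b h hb hh, hW.S m hm b h hb hh v hv]
    rfl
  rwa [e] at h1

/-- change of the centre in an even moment of a variable bounded by `1` -/
theorem bud_bm_lim_centre {α : Type} [MeasurableSpace α] (μ : Measure α) [IsProbabilityMeasure μ] {f : α → ℝ} (hf : Measurable f) (hb : ∀ x, |f x| ≤ 1)
    (q : ℕ) {c c' M : ℝ} (hc : |c| ≤ M) (hc' : |c'| ≤ M) :
    |∫ x, (f x - c) ^ q ∂μ - ∫ x, (f x - c') ^ q ∂μ| ≤ |c - c'| * q * (1 + M) ^ (q - 1) := by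
  have hM : 0 ≤ M := (abs_nonneg _).trans hc
  have bd : ∀ d : ℝ, |d| ≤ M → ∀ x, |f x - d| ≤ 1 + M := fun d hd x => (abs_sub _ _).trans (add_le_add (hb x) hd)
  have hi : ∀ d : ℝ, |d| ≤ M → Integrable (fun x => (f x - d) ^ q) μ := fun d hd =>
    Integrable.of_bound ((hf.sub_const d).pow_const q).aestronglyMeasurable ((1 + M) ^ q)
      (ae_of_all _ fun x => by
        rw [Real.norm_eq_abs, abs_pow]
        exact pow_le_pow_left₀ (abs_nonneg _) (bd d hd x) q)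
  rw [← integral_sub (hi c hc) (hi c' hc')]
  refine (abs_integral_le_integral_abs).trans ?_
  have h1 : ∀ x, |(f x - c) ^ q - (f x - c') ^ q| ≤ |c - c'| * q * (1 + M) ^ (q - 1) := by
    intro x
    refine (abs_pow_sub_pow_le _ _ q).trans ?_
    have e : |f x - c - (f x - c')| = |c - c'| := by
      rw [show f x - c - (f x - c') = -(c - c') by ring, abs_neg]
    rw [e]
    refine mul_le_mul_of_nonneg_left ?_ (by positivity)
    exact pow_le_pow_left₀ (le_max_of_le_left (abs_nonneg _)) (max_le (bd c hc x) (bd c' hc' x)) _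
  calc ∫ x, |(f x - c) ^ q - (f x - c') ^ q| ∂μ ≤ ∫ _x, |c - c'| * q * (1 + M) ^ (q - 1) ∂μ :=
        integral_mono_of_nonneg (ae_of_all _ fun x => abs_nonneg _) (integrable_const _) (ae_of_all _ h1)
    _ = |c - c'| * q * (1 + M) ^ (q - 1) := by simp

/-- **(R2.1) the centred even moments of the fork converge** -/
theorem bud_bm_lim_fork_tendsto (hW : W.IsHub) (hm : 0 < m) (hb : IsClock 1 b) (hh : IsClock 1 h) {v : ℝ} (hv : v ∈ Ioo (0 : ℝ) 1) (l : ℕ) :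
    Tendsto (fun F : Finset GhPos => ∫ z, ((bcsSP m b h F).Q z - (bcsSP m b h F).S (bcsIx F v)) ^ (2 * l) ∂((bcsSP m b h F).fork (bcsIx F v))) atTop
      (𝓝 (W.nu m b h 2 (fun _ _ => v) fun O => |O 0 1 - (W.ps m).S b h v| ^ ((2 * l : ℕ) : ℝ))) := by
  set c : ℝ := (W.ps m).S b h v with hc
  have hS := bud_bm_lim_S hW hm hb hh hv
  have h1 := bcs_w_nu2 hW hm hb hh hv (fun t => |t - c| ^ ((2 * l : ℕ) : ℝ))
    ((measurable_id.sub_const c).abs.pow_const _) ⟨(1 + |c|) ^ (2 * l), fun t ht => by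
      rw [Real.rpow_natCast, abs_pow, abs_abs]
      exact pow_le_pow_left₀ (abs_nonneg _) ((abs_sub _ _).trans (add_le_add (abs_le.2 ht) le_rfl)) _⟩
  have e1 : ∀ F : Finset GhPos, ∫ q, (fun t => |t - c| ^ ((2 * l : ℕ) : ℝ)) ((bcsSP m b h F).Q q) ∂((bcsSP m b h F).fork (bcsIx F v))
      = ∫ q, ((bcsSP m b h F).Q q - c) ^ (2 * l) ∂((bcsSP m b h F).fork (bcsIx F v)) := fun F => by
    refine integral_congr_ae (ae_of_all _ fun q => ?_)
    simp only [Real.rpow_natCast, (even_two_mul l).pow_abs]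
  simp only [e1] at h1
  -- the difference tends to `0`
  have h2 : Tendsto (fun F : Finset GhPos => |c - (bcsSP m b h F).S (bcsIx F v)| * ((2 * l : ℕ) : ℝ) * (1 + (|c| + 1)) ^ (2 * l - 1)) atTop (𝓝 0) := by
    have h3 : Tendsto (fun F : Finset GhPos => |c - (bcsSP m b h F).S (bcsIx F v)|) atTop (𝓝 0) := by
      have := (tendsto_const_nhds (x := c)).sub hS
      rw [sub_self] at this
      simpa using this.abs
    simpa using (h3.mul_const ((2 * l : ℕ) : ℝ)).mul_const ((1 + (|c| + 1)) ^ (2 * l - 1))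
  have h4 : Tendsto (fun F : Finset GhPos => ∫ q, ((bcsSP m b h F).Q q - c) ^ (2 * l) ∂((bcsSP m b h F).fork (bcsIx F v))
      - ∫ z, ((bcsSP m b h F).Q z - (bcsSP m b h F).S (bcsIx F v)) ^ (2 * l) ∂((bcsSP m b h F).fork (bcsIx F v))) atTop (𝓝 0) := by
    refine squeeze_zero_norm' ?_ h2
    have hev : ∀ᶠ F : Finset GhPos in atTop, |(bcsSP m b h F).S (bcsIx F v)| ≤ |c| + 1 := by
      have := hS.abs.eventually (gt_mem_nhds (lt_add_one |c|))
      exact this.mono fun F hF => hF.le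
    filter_upwards [hev] with F hF
    have hok := bcs_w_ok hm hb hh F
    have := (bcsSP m b h F).l8s_fork_prob hok (bcsIx F v)
    obtain ⟨hQm, hQb⟩ := (bcsSP m b h F).l8s_fork_Q_bd_aux hok
    rw [Real.norm_eq_abs]
    exact bud_bm_lim_centre _ hQm hQb (2 * l) (by linarith [abs_nonneg c]) hF
  have h5 := h1.sub h4
  simpa using h5

/-- **(R2.2) from fine chains to the world** -/
theorem bud_bm_lim_fork (hW : W.IsHub) (hm : 0 < m) (hb : IsClock 1 b) (hh : IsClock 1 h) {v : ℝ} (hv : v ∈ Ioo (0 : ℝ) 1) (l : ℕ) {A : ℝ}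
    (hA : ∃ᶠ F : Finset GhPos in atTop,
      ∫ z, ((bcsSP m b h F).Q z - (bcsSP m b h F).S (bcsIx F v)) ^ (2 * l) ∂((bcsSP m b h F).fork (bcsIx F v)) ≤ A) :
    W.nu m b h 2 (fun _ _ => v) (fun O => |O 0 1 - (W.ps m).S b h v| ^ ((2 * l : ℕ) : ℝ)) ≤ A :=
  le_of_tendsto_of_frequently (bud_bm_lim_fork_tendsto hW hm hb hh hv l) hA

end lim

/-- **(R2.3)** `‖Q_v - S_v‖_{2l} ≤ B` from the step bounds on (cofinally many) fine chains -/
theorem bud_bm_nQ_le {W : BdWorld} {F : BdFr} {X : BdFix} (hW : W.IsHub) (Q : BdQ F X) (g : ℝ) (hm : 0 < F.m) (hb : IsClock 1 (Q.bq g)) (hh : IsClock 1 (Q.hq g))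
    {v : ℝ} (hv : v ∈ Ioo (0 : ℝ) 1) {l : ℕ} (hl : 1 ≤ l) {B : ℝ} (hB : 0 ≤ B)
    (hA : ∃ᶠ Fs : Finset GhPos in atTop,
      ∫ z, ((skSP F.m 1 (Q.stp g (ghPs 1 Fs))).Q z - (skSP F.m 1 (Q.stp g (ghPs 1 Fs))).S (BdQ.ixV (ghPs 1 Fs) v)) ^ (2 * l)
        ∂((skSP F.m 1 (Q.stp g (ghPs 1 Fs))).fork (BdQ.ixV (ghPs 1 Fs) v)) ≤ B ^ (2 * l)) :
    Q.nQ W g (2 * l) v (Q.Sq W g v) ≤ B := by
  have h1 := bud_bm_lim_fork hW hm hb hh hv l (A := B ^ (2 * l)) hA
  have e : ((2 * l : ℕ) : ℝ) = 2 * (l : ℝ) := by push_cast; ring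
  rw [e] at h1
  unfold BdQ.nQ BdQ.mQ BdQ.Sq
  have hl' : (0 : ℝ) < 2 * (l : ℝ) := by
    have : (1 : ℝ) ≤ l := by exact_mod_cast hl
    linarith
  set M := W.nu F.m (Q.bq g) (Q.hq g) 2 (fun _ _ => v) fun O => |O 0 1 - (W.ps F.m).S (Q.bq g) (Q.hq g) v| ^ (2 * (l : ℝ)) with hM
  have h0 : 0 ≤ M := by
    have h2 := bud_bm_lim_fork_tendsto hW hm hb hh hv l
    rw [e] at h2
    exact ge_of_tendsto' h2 fun Fs => integral_nonneg fun z => (even_two_mul l).pow_nonneg _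
  calc M ^ (1 / (2 * (l : ℝ))) ≤ (B ^ (2 * l)) ^ (1 / (2 * (l : ℝ))) := Real.rpow_le_rpow h0 h1 (by positivity)
    _ = B := by
      rw [← Real.rpow_natCast, ← Real.rpow_mul hB, e, mul_one_div_cancel hl'.ne', Real.rpow_one]


/-! ## 2. R1 : the continuum record of ONE instance -/

/-- the radius labelling of the cuts of a chain (`Q.rho ps = mbxRho Q.r ps`, `rfl`) -/
def mbxRho (r : ℝ → ℝ) (ps : List GhPos) (j : ℕ) : ℝ := if j = 0 then 0 else if h : j - 1 < ps.length then r (ps[j - 1]).u else 1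

/-- the outer cuts: the cuts at the masses `vo i` (`i < Ko`), then the terminal cut -/
noncomputable def mbxO (Ko : ℕ) (vo : ℕ → ℝ) (ps : List GhPos) (i : ℕ) : ℕ :=
  if i < Ko then ghIdx ps ((ghPosA (vo i) : GhPos) : WithTop GhPos) else ps.length + 1

/-- the starts of the projection intervals of the outer blocks -/
noncomputable def mbxPo (vp : ℕ → ℝ) (ps : List GhPos) (i : ℕ) : ℕ := ghIdx ps ((ghPosA (vp i) : GhPos) : WithTop GhPos)

/-- `c` is a constant of the projection bound (A3) of order `2 r` (`l8i_proj r : ∃ c, MbxPc r c`) -/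
def MbxPc (r : ℕ) (c : ℝ) : Prop :=
  0 < c ∧ ∀ (n : ℕ) (a : ℝ) (P : SkStp), 1 ≤ n → 0 < a → a ≤ 4 → SkAdm a P →
    ∀ vmin hmin : ℝ, 0 < vmin → 0 < hmin → (skSP n a P).Proj r c vmin hmin

/-- **continuum geometry of a buffer** for ONE pair of clocks `(b,h)` on `[0,1]` (already extended: `b = Q.bE g`, `h = Q.hE g`) and ONE radius function `r` of the mass (`r = Q.r`).
`vo i` (`i < Ko`) = masses of the outer cuts, `vp i` = masses of the starts of their projection intervals.      PRODUCER: frame level (N13 wrapper).      CONSUMER: `bud_bm_inst`. -/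
structure MbxCont (m : ℕ) (b h r : ℝ → ℝ) (p : MbxPar) (vo vp mo so : ℕ → ℝ) (vmin hmin : ℝ) : Prop where
  m_pos : 0 < m
  adm : CkAdm 1 b h
  r_cont : ContinuousOn r (Icc 0 1)
  r_mono : MonotoneOn r (Icc 0 1)
  r_zero : r 0 = 0
  r_one : r 1 = 1
  lo_pos : 0 < p.lo
  lohi : p.lo ≤ p.hi
  g_pos : 0 < p.g
  d0_pos : 0 < p.d0
  gam_pos : 0 < p.gam
  gam_le : p.gam ≤ 1
  eta_pos : 0 < p.eta
  eta_l0 : p.eta ≤ p.l0
  eta_d0 : p.eta ≤ p.gam * p.d0 / 4
  l0_le : p.l0 ≤ p.gam * p.d0 / 4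
  K1_pos : 1 ≤ p.K1
  Ko_pos : 1 ≤ p.Ko
  vlo_pos : 0 < p.vlo
  C0_pos : 0 < p.C0
  kap_pos : 0 < p.kap
  CS_pos : 0 < p.CS
  fit : p.gam * (p.d0 + (p.hi - p.lo)) + p.eta ≤ p.g
  g_Ls : p.g ≤ p.Ls
  vmin_pos : 0 < vmin
  hmin_pos : 0 < hmin
  vmin_le : vmin ≤ p.vlo
  hmin_le : hmin ≤ p.C0 * p.l0
  /-- the outer masses -/
  vo_mem : ∀ i < p.Ko, vo i ∈ Ioo (0 : ℝ) 1
  vo_mono : ∀ i j, i ≤ j → j < p.Ko → vo i ≤ vo j
  /-- the patch = masses `≤ vo 0` of radius `≥ lo` -/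
  slope : ∀ s t, 0 < s → s ≤ t → t ≤ vo 0 → p.lo ≤ r s → p.C0 * (r t - r s) ≤ h t - h s
  mass_lo : ∀ v ∈ Icc (0 : ℝ) 1, p.lo ≤ r v → p.vlo ≤ v
  mass_hi : vo 0 ≤ p.vhi
  floor : ∀ s t, 0 ≤ s → s ≤ t → t ≤ 1 → p.lo ≤ r s → r t ≤ p.hi → p.kap * (r t - r s) ≤ t - s
  /-- oscillation of `S`, with HALF of the constant, on the buffer enlarged by the mesh on the left -/
  Sosc : ∀ s t, 0 < s → s ≤ t → t < 1 → p.lo - p.eta ≤ r s → r t ≤ p.hi →
    skCS m 1 b h (ghPosA t) - skCS m 1 b h (ghPosA s) ≤ p.CS / 2 * (p.d0 + (r t - r s))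
  o_zero : p.hi + p.Ls ≤ r (vo 0)
  mo_nn : ∀ i, 0 ≤ mo i
  mo_mono : Monotone mo
  vhi_mo : p.vhi ≤ mo 0
  so_nn : ∀ i, 0 ≤ so i
  o_mass : ∀ i, i + 1 < p.Ko → vo (i + 1) ≤ mo i
  mo_top : 1 ≤ mo (p.Ko - 1)
  /-- the projection intervals of the outer blocks -/
  vp_lt : ∀ i < p.Ko, vp i < vo i
  vp_hi : ∀ i < p.Ko, p.hi < r (vp i)
  vp_min : ∀ i < p.Ko, vmin ≤ vp i
  o_h : ∀ i < p.Ko, hmin ≤ ghAt 1 h (ghPosA (vo i)) - ghAt 1 h (ghPosA (vp i))
  o_den : ∀ i < p.Ko, 1 ≤ so i * (vp i ^ 2 * m * (ghAt 1 h (ghPosA (vo i)) - ghAt 1 h (ghPosA (vp i))))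

/-- **continuum analytic inputs** at the moment order `2 r` : constants of (A3), truncation, raw moments (C8) at the outer masses (STRICT: the chains only converge) -/
structure MbxCin (m : ℕ) (b h : ℝ → ℝ) (p : MbxPar) (vo mo so : ℕ → ℝ) (r R : ℕ) (c1 cR th eps Rp Bout : ℝ) (Ro : ℕ → ℝ) : Prop where
  r_pos : 1 ≤ r
  pc1 : MbxPc 1 c1
  pcR : MbxPc R cR
  th_ge : 1 ≤ th
  eps_nn : 0 ≤ eps
  eps_le : cR ≤ eps ^ r * th ^ R
  raw : cmkMX m b h (2 * r) (ghPosA (vo 0)) < Rp ^ (2 * r)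
  Rp_nn : 0 ≤ Rp
  rawo : ∀ i < p.Ko, cmkMX m b h r (ghPosA (vo i)) < Ro i ^ r
  Ro_top : 1 ≤ Ro p.Ko
  Ro_nn : ∀ i, 0 ≤ Ro i
  Ro_mono : Monotone Ro
  Rp_Ro : Rp ≤ Ro 0
  mo_a : ∀ i < p.Ko, mo i ≤ 1
  vhi_a : p.vhi ≤ 1
  Bout : ∀ i < p.Ko, mo i * so i * Ro (i + 1) ≤ Bout

theorem bud_bm_i_eqns_cite : True := by
  have := @mbxRho.eq_1; have := @mbxO.eq_1; have := @mbxPo.eq_1; have := @MbxPc.eq_1
  trivial

theorem bud_bm_rho_eq {F : BdFr} {X : BdFix} (Q : BdQ F X) (ps : List GhPos) : Q.rho ps = mbxRho Q.r ps := rfl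

/-! ## 3. Dictionary on one chain -/

section chain
variable {m : ℕ} {b h r : ℝ → ℝ} {ps : List GhPos}

/-- the radius of the cut `j` is the radius of its mass -/
theorem bud_bm_rho_mass (m : ℕ) (b h : ℝ → ℝ) (h0 : r 0 = 0) (h1 : r 1 = 1) (ps : List GhPos) (j : ℕ) :
    mbxRho r ps j = r ((ckM m b h ps).mass j) := by
  rw [ckm_mass]
  unfold mbxRho
  by_cases hj : j = 0
  · rw [if_pos hj, if_pos hj, h0]
  · rw [if_neg hj, if_neg hj]
    by_cases hl : j - 1 < ps.length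
    · rw [dif_pos hl, ckm_pos_get (by omega) (by omega)]
    · rw [dif_neg hl, ckm_pos_top (by omega)]
      have : (ghPosA 1).u = 1 := by simp [ghPosA, GhPos.u]
      rw [this, h1]

theorem bud_bm_i_mass_mem (m : ℕ) (b h : ℝ → ℝ) (hc : CkmCh ps) (j : ℕ) : (ckM m b h ps).mass j ∈ Icc (0 : ℝ) 1 :=
  ⟨ckm_mass_nonneg m b h hc j, ckm_mass_le_one m b h hc j⟩

theorem bud_bm_i_v (m : ℕ) (b h : ℝ → ℝ) (ps : List GhPos) (k : ℕ) : (skSP m 1 (ckStp 1 b h ps)).v k = (ckM m b h ps).mass (k + 1) :=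
  (cm5_l8_mass_succ _ k).symm

theorem bud_bm_i_dv (m : ℕ) (b h : ℝ → ℝ) (ps : List GhPos) (k : ℕ) :
    (skSP m 1 (ckStp 1 b h ps)).dv k = (ckM m b h ps).mass (k + 1) - (ckM m b h ps).mass k :=
  (cm5_l8_mass_sub _ k).symm

theorem bud_bm_i_hlen (m : ℕ) (b h : ℝ → ℝ) (ps : List GhPos) {j1 j2 : ℕ} (hj : j1 ≤ j2) :
    (skSP m 1 (ckStp 1 b h ps)).hlen j1 j2 = (ckM m b h ps).hck j2 - (ckM m b h ps).hck j1 :=
  (cm5_l8_hck_sub _ hj).symm

theorem bud_bm_i_dh (m : ℕ) (b h : ℝ → ℝ) (ps : List GhPos) (k : ℕ) :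
    (skSP m 1 (ckStp 1 b h ps)).dh k = (ckM m b h ps).hck (k + 1) - (ckM m b h ps).hck k := by
  rw [← bud_bm_i_hlen m b h ps (Nat.le_succ k)]
  unfold L8P.hlen
  simp

theorem bud_bm_i_n (m : ℕ) (b h : ℝ → ℝ) (ps : List GhPos) : (skSP m 1 (ckStp 1 b h ps)).n = ps.length :=
  ckm_stp_len 1 b h ps 0 0

theorem bud_bm_i_S (m : ℕ) (b h : ℝ → ℝ) (ps : List GhPos) (j : ℕ) : (ckM m b h ps).S j = (skSP m 1 (ckStp 1 b h ps)).S j := by
  unfold CmPath.S L8P.S
  exact integral_congr_ae (Filter.Eventually.of_forall fun ω => cm5_l8_norm_sq (skSP m 1 (ckStp 1 b h ps)) j ω)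

/-- the node of a position of the chain -/
theorem bud_bm_i_node (hc : CkmCh ps) {p : GhPos} (hp : p ∈ ps) :
    1 ≤ ghIdx ps (p : WithTop GhPos) ∧ ghIdx ps (p : WithTop GhPos) ≤ ps.length ∧ ckmPos ps (ghIdx ps (p : WithTop GhPos)) = p := by
  obtain ⟨j, hj1, hj, rfl⟩ := ckm_exists_node hp
  rw [ckm_idx_pos hc hj1 hj]
  exact ⟨hj1, hj, rfl⟩

theorem bud_bm_i_posA_u (v : ℝ) : (ghPosA v).u = v := by simp [ghPosA, GhPos.u]

theorem bud_bm_i_posA_lam (v : ℝ) : (ghPosA v).lam = 1 := by simp [ghPosA, GhPos.lam]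

/-- the field clock at the node of a position of the chain -/
theorem bud_bm_i_hck (m : ℕ) (b h : ℝ → ℝ) (hc : CkmCh ps) {p : GhPos} (hp : p ∈ ps) :
    (ckM m b h ps).hck (ghIdx ps (p : WithTop GhPos)) = ghAt 1 h p := by
  obtain ⟨h1, h2, h3⟩ := bud_bm_i_node hc hp
  rw [ckm_hck m b h ps h2, if_neg (by omega), h3]

/-- strict monotonicity of the cut in the mass -/
theorem bud_bm_i_idx_lt (hc : CkmCh ps) {v v' : ℝ} (hv : v < v') (hp : ghPosA v' ∈ ps) :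
    ghIdx ps ((ghPosA v : GhPos) : WithTop GhPos) < ghIdx ps ((ghPosA v' : GhPos) : WithTop GhPos) := by
  obtain ⟨h1, h2, h3⟩ := bud_bm_i_node hc hp
  by_contra hcon
  have h4 := (ckm_le_idx hc h1 h2 (ghPosA v)).1 (not_lt.1 hcon)
  rw [h3] at h4
  have := sk_stp_pos_u_le h4
  rw [bud_bm_i_posA_u, bud_bm_i_posA_u] at this
  linarith

theorem bud_bm_i_idx_mono (ps : List GhPos) {v v' : ℝ} (hv : v ≤ v') :
    ghIdx ps ((ghPosA v : GhPos) : WithTop GhPos) ≤ ghIdx ps ((ghPosA v' : GhPos) : WithTop GhPos) := by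
  refine brg_t_idx_mono ps (WithTop.coe_le_coe.2 ?_)
  rw [gh_os_pos_le_iff, bud_bm_i_posA_u, bud_bm_i_posA_u, bud_bm_i_posA_lam, bud_bm_i_posA_lam]
  rcases hv.lt_or_eq with h | h
  · exact Or.inl h
  · exact Or.inr ⟨h, le_rfl⟩

/-- the masses of the cuts up to the cut of `v` are `≤ v` -/
theorem bud_bm_i_mass_le (m : ℕ) (b h : ℝ → ℝ) (hc : CkmCh ps) {v : ℝ} (hv : 0 ≤ v) {j : ℕ} (hj : j ≤ ghIdx ps ((ghPosA v : GhPos) : WithTop GhPos)) :
    (ckM m b h ps).mass j ≤ v := by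
  have h1 := ckm_idx_mass_le0 m b h hc (p := ghPosA v) (by rw [bud_bm_i_posA_u]; exact hv)
  rw [bud_bm_i_posA_u] at h1
  exact (ckm_mass_mono m b h hc hj).trans h1

end chain

/-! ## 4. The geometry on a fine chain -/

/-- what "fine" means for the chain -/
structure MbxFine (m : ℕ) (b h r : ℝ → ℝ) (p : MbxPar) (vo vp : ℕ → ℝ) (ps : List GhPos) : Prop where
  ch : CkmCh ps
  mesh : ∀ j, |r ((ckM m b h ps).mass (j + 1)) - r ((ckM m b h ps).mass j)| ≤ p.eta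
  has_o : ∀ i < p.Ko, ghPosA (vo i) ∈ ps
  has_p : ∀ i < p.Ko, ghPosA (vp i) ∈ ps
  Scl : ∀ j, 1 ≤ j → j ≤ ps.length → |(ckM m b h ps).S j - skCS m 1 b h (ckmPos ps j)| ≤ p.CS * p.d0 / 8

section inst
variable {m : ℕ} {b h r : ℝ → ℝ} {p : MbxPar} {vo vp mo so : ℕ → ℝ} {vmin hmin : ℝ} {ps : List GhPos}

theorem bud_bm_i_Ls_pos (C : MbxCont m b h r p vo vp mo so vmin hmin) : 0 < p.Ls := by
  have : 0 < p.l0 := lt_of_lt_of_le C.eta_pos C.eta_l0
  unfold MbxPar.Ls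
  positivity

theorem bud_bm_i_vo0 (C : MbxCont m b h r p vo vp mo so vmin hmin) : vo 0 ∈ Ioo (0 : ℝ) 1 := C.vo_mem 0 C.Ko_pos

theorem bud_bm_i_hi_lt (C : MbxCont m b h r p vo vp mo so vmin hmin) : p.hi < r (vo 0) ∧ r (vo 0) ≤ 1 := by
  have h1 := bud_bm_i_Ls_pos C
  have h2 := bud_bm_i_vo0 C
  have h3 := C.r_mono ⟨h2.1.le, h2.2.le⟩ ⟨zero_le_one, le_rfl⟩ h2.2.le
  rw [C.r_one] at h3
  exact ⟨by linarith [C.o_zero], h3⟩

/-- all sufficiently fine chains are fine -/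
theorem bud_bm_fine (C : MbxCont m b h r p vo vp mo so vmin hmin) : BmEv 1 (MbxFine m b h r p vo vp) := by
  classical
  have e1 := ckm_mesh_fun m b h C.r_cont C.eta_pos
  have hvp : ∀ i < p.Ko, vp i ∈ Icc (0 : ℝ) 1 := fun i hi =>
    ⟨(C.vmin_pos.le).trans (C.vp_min i hi), ((C.vp_lt i hi).trans (C.vo_mem i hi).2).le⟩
  have e2 := ckm_contains ((Finset.range p.Ko).image fun i => ghPosA (vo i)) (fun q hq => by
    obtain ⟨i, hi, rfl⟩ := Finset.mem_image.1 hq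
    have := C.vo_mem i (Finset.mem_range.1 hi)
    exact gh_os_posA_ok this.1.le this.2.le)
  have e3 := ckm_contains ((Finset.range p.Ko).image fun i => ghPosA (vp i)) (fun q hq => by
    obtain ⟨i, hi, rfl⟩ := Finset.mem_image.1 hq
    have := hvp i (Finset.mem_range.1 hi)
    exact gh_os_posA_ok this.1 this.2)
  have e4 := ckm_S_close C.m_pos C.adm (δ := p.CS * p.d0 / 8) (by have := C.CS_pos; have := C.d0_pos; positivity)
  have e5 : BmEv 1 CkmCh := ckm_ev_ch fun F hF => hF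
  refine ((((e1.and e2).and e3).and e4).and e5).mono fun ps hps => ?_
  obtain ⟨⟨⟨⟨a1, a2⟩, a3⟩, a4⟩, a5⟩ := hps
  exact ⟨a5, a1, fun i hi => a2 _ (Finset.mem_image.2 ⟨i, Finset.mem_range.2 hi, rfl⟩),
    fun i hi => a3 _ (Finset.mem_image.2 ⟨i, Finset.mem_range.2 hi, rfl⟩), a4⟩

/-- a point just on the left, with almost the same radius -/
theorem bud_bm_i_left (hr : ContinuousOn r (Icc 0 1)) {x : ℝ} (hx0 : 0 < x) (hx1 : x ≤ 1) {ε : ℝ} (hε : 0 < ε) :
    ∃ v, 0 < v ∧ v < x ∧ r x - r v ≤ ε := by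
  obtain ⟨δ, hδ, H⟩ := Metric.continuousOn_iff.1 hr x ⟨hx0.le, hx1⟩ ε hε
  refine ⟨max (x / 2) (x - δ / 2), lt_max_of_lt_left (by linarith), max_lt (by linarith) (by linarith), ?_⟩
  have h1 : x / 2 ≤ max (x / 2) (x - δ / 2) := le_max_left _ _
  have h2 : x - δ / 2 ≤ max (x / 2) (x - δ / 2) := le_max_right _ _
  have h3 : max (x / 2) (x - δ / 2) < x := max_lt (by linarith) (by linarith)
  have h4 := H (max (x / 2) (x - δ / 2)) ⟨by linarith, by linarith⟩ (by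
    rw [Real.dist_eq, abs_sub_comm, abs_of_nonneg (by linarith)]
    linarith)
  rw [Real.dist_eq] at h4
  have := (abs_lt.1 h4).1
  linarith

/-- the lower slope of the field clock in the patch, as a GLOBAL continuous lower slope -/
theorem bud_bm_i_slope (C : MbxCont m b h r p vo vp mo so vmin hmin) :
    ∃ φ : ℝ → ℝ, ContinuousOn φ (Icc 0 1) ∧ (∀ s t, 0 < s → s ≤ t → t < 1 → φ t - φ s ≤ h t - h s) ∧
      ∀ v ∈ Icc (0 : ℝ) 1, p.lo ≤ r v → v ≤ vo 0 → φ v = p.C0 * r v := by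
  have hv0 := bud_bm_i_vo0 C
  have hhi := bud_bm_i_hi_lt C
  have hlo1 : p.lo ∈ Icc (r 0) (r 1) := by
    rw [C.r_zero, C.r_one]
    exact ⟨C.lo_pos.le, by linarith [C.lohi]⟩
  obtain ⟨vl, hvl, hrl⟩ := intermediate_value_Icc zero_le_one C.r_cont hlo1
  have hvl0 : 0 < vl := by
    rcases hvl.1.lt_or_eq with h' | h'
    · exact h'
    · exfalso
      rw [← h', C.r_zero] at hrl
      linarith [C.lo_pos]
  have hvlo : vl ≤ vo 0 := by
    by_contra hcon
    have := C.r_mono ⟨hv0.1.le, hv0.2.le⟩ hvl (not_le.1 hcon).le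
    linarith [C.lohi]
  have hcl : ∀ v, max vl (min v (vo 0)) ∈ Icc vl (vo 0) := fun v => ⟨le_max_left _ _, max_le hvlo (min_le_right _ _)⟩
  have hcl' : ∀ v, max vl (min v (vo 0)) ∈ Icc (0 : ℝ) 1 := fun v => ⟨hvl0.le.trans (hcl v).1, (hcl v).2.trans hv0.2.le⟩
  refine ⟨fun v => p.C0 * r (max vl (min v (vo 0))), ?_, ?_, ?_⟩
  · refine continuousOn_const.mul (C.r_cont.comp ?_ fun v _ => hcl' v)
    exact (continuous_const.max (continuous_id.min continuous_const)).continuousOn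
  · intro s t hs hst ht
    have hmono : h s ≤ h t := C.adm.2.1 ⟨hs.le, (hst.trans ht.le)⟩ ⟨hs.le.trans hst, ht.le⟩ hst
    show p.C0 * r (max vl (min t (vo 0))) - p.C0 * r (max vl (min s (vo 0))) ≤ h t - h s
    by_cases hcase : vl < t ∧ s < vo 0
    · obtain ⟨h1, h2⟩ := hcase
      have es : max vl (min s (vo 0)) = max vl s := by rw [min_eq_left h2.le]
      have et : max vl (min t (vo 0)) = min t (vo 0) := max_eq_right (le_min h1.le hvlo)
      rw [es, et]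
      have a1 : s ≤ max vl s := le_max_right _ _
      have a2 : min t (vo 0) ≤ t := min_le_left _ _
      have a3 : max vl s ≤ min t (vo 0) := max_le (le_min h1.le hvlo) (le_min hst h2.le)
      have a4 : 0 < max vl s := lt_max_of_lt_left hvl0
      have a5 : p.lo ≤ r (max vl s) := by
        rw [← hrl]
        exact C.r_mono hvl ⟨a4.le, a3.trans (a2.trans ht.le)⟩ (le_max_left _ _)
      have a6 := C.slope (max vl s) (min t (vo 0)) a4 a3 (min_le_right _ _) a5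
      have a7 : h s ≤ h (max vl s) := C.adm.2.1 ⟨hs.le, hst.trans ht.le⟩ ⟨a4.le, a3.trans (a2.trans ht.le)⟩ a1
      have a8 : h (min t (vo 0)) ≤ h t := C.adm.2.1 ⟨a4.le.trans a3, a2.trans ht.le⟩ ⟨hs.le.trans hst, ht.le⟩ a2
      rw [← mul_sub]
      linarith
    · have e : max vl (min t (vo 0)) = max vl (min s (vo 0)) := by
        rcases not_and_or.1 hcase with h1 | h1
        · have h1' := not_lt.1 h1
          rw [max_eq_left ((min_le_left _ _).trans h1'), max_eq_left ((min_le_left _ _).trans (hst.trans h1'))]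
        · have h1' := not_lt.1 h1
          rw [min_eq_right h1', min_eq_right (h1'.trans hst)]
      rw [e, sub_self]
      linarith
  · intro v hv hlo hvo
    show p.C0 * r (max vl (min v (vo 0))) = p.C0 * r v
    rw [min_eq_left hvo]
    rcases le_total vl v with h1 | h1
    · rw [max_eq_right h1]
    · rw [max_eq_left h1, hrl]
      have := C.r_mono hv hvl h1
      rw [hrl] at this
      rw [le_antisymm this hlo]

end inst

section inst2
variable {m : ℕ} {b h r : ℝ → ℝ} {p : MbxPar} {vo vp mo so : ℕ → ℝ} {vmin hmin : ℝ} {ps : List GhPos}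

theorem bud_bm_i_O_lt {Ko : ℕ} {i : ℕ} (hi : i < Ko) (vo : ℕ → ℝ) (ps : List GhPos) :
    mbxO Ko vo ps i = ghIdx ps ((ghPosA (vo i) : GhPos) : WithTop GhPos) := if_pos hi

theorem bud_bm_i_O_ge {Ko : ℕ} {i : ℕ} (hi : Ko ≤ i) (vo : ℕ → ℝ) (ps : List GhPos) : mbxO Ko vo ps i = ps.length + 1 :=
  if_neg (not_lt.2 hi)

/-- oscillation of the step `S` in the buffer -/
theorem bud_bm_i_Sosc (C : MbxCont m b h r p vo vp mo so vmin hmin) (hf : MbxFine m b h r p vo vp ps) {k l : ℕ} (hkl : k ≤ l)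
    (hk : p.lo ≤ r ((ckM m b h ps).mass k)) (hl : r ((ckM m b h ps).mass l) ≤ p.hi) :
    (ckM m b h ps).S l - (ckM m b h ps).S k ≤ p.CS * (p.d0 + (r ((ckM m b h ps).mass l) - r ((ckM m b h ps).mass k))) := by
  have hc := hf.ch
  have hhi := bud_bm_i_hi_lt C
  have hk1 : 1 ≤ k := by
    by_contra hcon
    have : k = 0 := by omega
    rw [this, ckm_mass, if_pos rfl, C.r_zero] at hk
    linarith [C.lo_pos]
  have hln : l ≤ ps.length := by
    by_contra hcon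
    rw [ckm_mass_top m b h (not_le.1 hcon), C.r_one] at hl
    linarith
  have hmk : (ckM m b h ps).mass k = (ckmPos ps k).u := by rw [ckm_mass, if_neg (by omega)]
  have hml : (ckM m b h ps).mass l = (ckmPos ps l).u := by rw [ckm_mass, if_neg (by omega)]
  have hμk := bud_bm_i_mass_mem m b h hc k
  have hμl := bud_bm_i_mass_mem m b h hc l
  have hμkl := ckm_mass_mono m b h hc hkl
  set x := (ckM m b h ps).mass k with hx
  set y := (ckM m b h ps).mass l with hy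
  have hx0 : 0 < x := lt_of_lt_of_le C.vlo_pos (C.mass_lo x hμk hk)
  have hy1 : y < 1 := by
    rcases hμl.2.lt_or_eq with h' | h'
    · exact h'
    · rw [h', C.r_one] at hl
      linarith
  obtain ⟨v, hv0, hvx, hrv⟩ := bud_bm_i_left C.r_cont hx0 hμk.2 C.eta_pos
  have okk := ckm_pos_ok hc k
  have okl := ckm_pos_ok hc l
  -- upper bound at `l`
  have u1 : skCS m 1 b h (ckmPos ps l) ≤ skCS m 1 b h (ghPosA y) := by
    refine (exit_clk_SB C.m_pos one_pos C.adm okl (gh_os_posA_ok hμl.1 hμl.2) ?_).2.1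
    rw [gh_os_pos_le_iff, bud_bm_i_posA_u, bud_bm_i_posA_lam]
    exact Or.inr ⟨hml.symm, okl.2.2.2⟩
  -- lower bound at `k`
  have u2 : skCS m 1 b h (ghPosA v) ≤ skCS m 1 b h (ckmPos ps k) := by
    refine (exit_clk_SB C.m_pos one_pos C.adm (gh_os_posA_ok hv0.le (hvx.le.trans hμk.2)) okk ?_).2.1
    rw [gh_os_pos_le_iff, bud_bm_i_posA_u]
    exact Or.inl (by rw [← hmk]; exact hvx)
  have u3 := C.Sosc v y hv0 (hvx.le.trans hμkl) hy1 (by linarith) hl
  have u4 := abs_le.1 (hf.Scl l (hk1.trans hkl) hln)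
  have u5 := abs_le.1 (hf.Scl k hk1 (hkl.trans hln))
  have hCS := C.CS_pos
  have hd := C.d0_pos
  have heta : p.eta ≤ p.d0 / 4 := by
    have : p.gam * p.d0 ≤ 1 * p.d0 := mul_le_mul_of_nonneg_right C.gam_le hd.le
    linarith [C.eta_d0]
  have hrr : r x ≤ r y := C.r_mono hμk hμl hμkl
  have u6 : p.CS / 2 * (p.d0 + (r y - r v)) ≤ p.CS / 2 * (p.d0 + (r y - r x) + p.d0 / 4) :=
    mul_le_mul_of_nonneg_left (by linarith) (by positivity)
  have u7 : 0 ≤ p.CS * (r y - r x) := mul_nonneg hCS.le (by linarith)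
  have u8 : 0 ≤ p.CS * p.d0 := by positivity
  nlinarith

/-- **(R1.a) THE GEOMETRY OF THE BUFFER ON A FINE CHAIN** -/
theorem bud_bm_inst_geo (C : MbxCont m b h r p vo vp mo so vmin hmin) (hf : MbxFine m b h r p vo vp ps) :
    MbxGeo (skSP m 1 (ckStp 1 b h ps)) (mbxRho r ps) p (mbxO p.Ko vo ps) (mbxPo vp ps) mo so vmin hmin := by
  have hc := hf.ch
  have hρ : ∀ j, mbxRho r ps j = r ((ckM m b h ps).mass j) := bud_bm_rho_mass m b h C.r_zero C.r_one ps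
  have hμ := bud_bm_i_mass_mem m b h hc
  have hμm := ckm_mass_mono m b h hc
  have hhi := bud_bm_i_hi_lt C
  have hv0 := bud_bm_i_vo0 C
  have hLs := bud_bm_i_Ls_pos C
  have hO0 : mbxO p.Ko vo ps 0 = ghIdx ps ((ghPosA (vo 0) : GhPos) : WithTop GhPos) := bud_bm_i_O_lt C.Ko_pos vo ps
  have hmO : ∀ i < p.Ko, (ckM m b h ps).mass (ghIdx ps ((ghPosA (vo i) : GhPos) : WithTop GhPos)) = vo i := fun i hi => by
    rw [ckm_idx_mass m b h hc (hf.has_o i hi), bud_bm_i_posA_u]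
  have hmP : ∀ i < p.Ko, (ckM m b h ps).mass (ghIdx ps ((ghPosA (vp i) : GhPos) : WithTop GhPos)) = vp i := fun i hi => by
    rw [ckm_idx_mass m b h hc (hf.has_p i hi), bud_bm_i_posA_u]
  obtain ⟨φ, hφc, hφs, hφv⟩ := bud_bm_i_slope C
  exact
    { m_pos := C.m_pos
      mono := fun i j hij => by
        rw [hρ, hρ]
        exact C.r_mono (hμ i) (hμ j) (hμm hij)
      lohi := C.lohi
      g_pos := C.g_pos
      d0_pos := C.d0_pos
      gam_pos := C.gam_pos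
      gam_le := C.gam_le
      eta_nn := C.eta_pos.le
      eta_l0 := C.eta_l0
      eta_d0 := C.eta_d0
      l0_pos := lt_of_lt_of_le C.eta_pos C.eta_l0
      l0_le := C.l0_le
      K1_pos := C.K1_pos
      vlo_pos := C.vlo_pos
      C0_pos := C.C0_pos
      kap_pos := C.kap_pos
      CS_nn := C.CS_pos.le
      fit := C.fit
      g_Ls := C.g_Ls
      mesh := fun k _ _ => by
        rw [hρ, hρ]
        exact (le_abs_self _).trans (hf.mesh k)
      below := by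
        rw [hρ, ckm_mass, if_pos rfl, C.r_zero]
        exact C.lo_pos
      slope := fun k hk hlo => by
        rw [hO0] at hk
        rw [hρ] at hlo
        rw [hρ, hρ, bud_bm_i_dh]
        have h1 : (ckM m b h ps).mass (k + 1) ≤ vo 0 := bud_bm_i_mass_le m b h hc hv0.1.le hk
        have h2 : (ckM m b h ps).mass k ≤ (ckM m b h ps).mass (k + 1) := hμm (Nat.le_succ k)
        have h3 := ckm_hck_slope m b C.adm.2 hφc hφs hc (Nat.le_succ k) ((Nat.succ_le_of_lt hk).trans (brg_t_idx_coe_le ps _))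
        rw [hφv _ (hμ (k + 1)) (hlo.trans (C.r_mono (hμ k) (hμ (k + 1)) h2)) h1, hφv _ (hμ k) hlo (h2.trans h1)] at h3
        linarith
      mass := fun k hk hlo => by
        rw [hO0] at hk
        rw [hρ] at hlo
        rw [bud_bm_i_v]
        have h1 : (ckM m b h ps).mass (k + 1) ≤ vo 0 := bud_bm_i_mass_le m b h hc hv0.1.le hk
        have h2 : (ckM m b h ps).mass k ≤ (ckM m b h ps).mass (k + 1) := hμm (Nat.le_succ k)
        exact ⟨(C.mass_lo _ (hμ k) hlo).trans h2, h1.trans C.mass_hi⟩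
      floor := fun k hlo hhi' => by
        rw [hρ] at hlo hhi'
        rw [hρ, hρ, bud_bm_i_dv]
        exact C.floor _ _ (hμ k).1 (hμm (Nat.le_succ k)) (hμ (k + 1)).2 hlo hhi'
      Sosc := fun k l hkl hlo hhi' => by
        rw [hρ] at hlo hhi'
        rw [hρ, hρ, ← bud_bm_i_S, ← bud_bm_i_S]
        exact bud_bm_i_Sosc C hf hkl hlo hhi'
      vmin_le := C.vmin_le
      hmin_le := C.hmin_le
      o_mono := fun i j hij => by
        by_cases hj : j < p.Ko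
        · rw [bud_bm_i_O_lt hj, bud_bm_i_O_lt (lt_of_le_of_lt hij hj)]
          exact bud_bm_i_idx_mono ps (C.vo_mono i j hij hj)
        · rw [bud_bm_i_O_ge (not_lt.1 hj)]
          by_cases hi : i < p.Ko
          · rw [bud_bm_i_O_lt hi]
            exact (brg_t_idx_coe_le ps _).trans (Nat.le_succ _)
          · rw [bud_bm_i_O_ge (not_lt.1 hi)]
      o_top := by rw [bud_bm_i_O_ge le_rfl, bud_bm_i_n]
      o_zero := by
        rw [hO0, hρ, hmO 0 C.Ko_pos]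
        exact C.o_zero
      o_le := by
        rw [hO0, bud_bm_i_n]
        exact brg_t_idx_coe_le ps _
      mo_nn := C.mo_nn
      mo_mono := C.mo_mono
      vhi_mo := C.vhi_mo
      so_nn := C.so_nn
      o_mass := fun i hi => by
        rw [bud_bm_i_v]
        by_cases h1 : i + 1 < p.Ko
        · have h2 := (bud_bm_i_node hc (hf.has_o (i + 1) h1)).1
          rw [bud_bm_i_O_lt h1, Nat.sub_add_cancel h2, hmO (i + 1) h1]
          exact C.o_mass i h1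
        · rw [bud_bm_i_O_ge (not_lt.1 h1), Nat.add_sub_cancel, ckm_mass_top m b h (Nat.lt_succ_self _)]
          have : i = p.Ko - 1 := by omega
          rw [this]
          exact C.mo_top
      o_proj := fun i hi => by
        have hlt : mbxPo vp ps i < mbxO p.Ko vo ps i := by
          rw [bud_bm_i_O_lt hi]
          exact bud_bm_i_idx_lt hc (C.vp_lt i hi) (hf.has_o i hi)
        have hv : vp i ≤ (skSP m 1 (ckStp 1 b h ps)).v (mbxPo vp ps i) := by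
          rw [bud_bm_i_v, ← hmP i hi]
          exact hμm (Nat.le_succ _)
        have hh : (skSP m 1 (ckStp 1 b h ps)).hlen (mbxPo vp ps i) (mbxO p.Ko vo ps i)
            = ghAt 1 h (ghPosA (vo i)) - ghAt 1 h (ghPosA (vp i)) := by
          rw [bud_bm_i_hlen m b h ps hlt.le, bud_bm_i_O_lt hi, bud_bm_i_hck m b h hc (hf.has_o i hi)]
          unfold mbxPo
          rw [bud_bm_i_hck m b h hc (hf.has_p i hi)]
        have hvp0 : 0 < vp i := lt_of_lt_of_le C.vmin_pos (C.vp_min i hi)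
        refine ⟨?_, hlt, (C.vp_min i hi).trans hv, ?_, ?_⟩
        · rw [hρ]
          unfold mbxPo
          rw [hmP i hi]
          exact C.vp_hi i hi
        · rw [hh]
          exact C.o_h i hi
        · unfold mbxDen
          rw [hh]
          refine (C.o_den i hi).trans (mul_le_mul_of_nonneg_left ?_ (C.so_nn i))
          have hD : 0 ≤ ghAt 1 h (ghPosA (vo i)) - ghAt 1 h (ghPosA (vp i)) := C.hmin_pos.le.trans (C.o_h i hi)
          refine mul_le_mul_of_nonneg_right (mul_le_mul_of_nonneg_right ?_ (Nat.cast_nonneg m)) hD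
          exact pow_le_pow_left₀ hvp0.le hv 2 }

end inst2

/-! ## 5. The analytic inputs on a fine chain -/

section inst3
variable {m : ℕ} {b h r : ℝ → ℝ} {p : MbxPar} {vo vp mo so : ℕ → ℝ} {vmin hmin : ℝ} {ps : List GhPos}

theorem bud_bm_i_adm (H : CkAdm 1 b h) (hc : CkmCh ps) : SkAdm 1 (ckStp 1 b h ps) := brg_ss_stp_adm one_pos H hc

theorem bud_bm_i_ok (hm : 0 < m) (H : CkAdm 1 b h) (hc : CkmCh ps) : (skSP m 1 (ckStp 1 b h ps)).Ok :=
  l8i_ok m hm 1 one_pos _ (bud_bm_i_adm H hc)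

/-- the raw moments of the clocks pass to all fine chains (strict bounds) -/
theorem bud_bm_i_raw (hm : 0 < m) (H : CkAdm 1 b h) (l : ℕ) {v B : ℝ} (hv : v ∈ Icc (0 : ℝ) 1) (hB : cmkMX m b h l (ghPosA v) < B) :
    BmEv 1 fun ps => ∫ ω, (skSP m 1 (ckStp 1 b h ps)).nX (ghIdx ps ((ghPosA v : GhPos) : WithTop GhPos)) ω ^ l ∂(skSP m 1 (ckStp 1 b h ps)).μ ≤ B := by
  have hex := sk_pt_ex_nu m one_pos H (ckm_star_rt (gh_os_posA_ok hv.1 hv.2) (2 * l)) (fun σ =>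
    ∏ i : Fin l, skOv (σ ⟨2 * i.1, by have := i.2; omega⟩) (σ ⟨2 * i.1 + 1, by have := i.2; omega⟩))
  have h1 := BmEv.of_lim_lt hex hB
  refine Filter.Eventually.mono (f := atTop) h1 fun F hF => ?_
  beta_reduce at hF ⊢
  rw [ckm_star hm H F l (ghPosA v)] at hF
  refine le_of_eq_of_le ?_ hF.le
  refine integral_congr_ae (Filter.Eventually.of_forall fun ω => ?_)
  show _ = ‖(ckM m b h (ghPs 1 F)).X _ ω‖ ^ (2 * l)
  rw [pow_mul, ckm_norm_sq]

/-- **(R1.b) THE ANALYTIC INPUTS ON A CHAIN** -/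
theorem bud_bm_inst_in (C : MbxCont m b h r p vo vp mo so vmin hmin) {q R : ℕ} {c1 cR th eps Rp Bout : ℝ} {Ro : ℕ → ℝ}
    (I : MbxCin m b h p vo mo so q R c1 cR th eps Rp Bout Ro) (hc : CkmCh ps)
    (hraw : ∫ ω, (skSP m 1 (ckStp 1 b h ps)).nX (ghIdx ps ((ghPosA (vo 0) : GhPos) : WithTop GhPos)) ω ^ (2 * q) ∂(skSP m 1 (ckStp 1 b h ps)).μ ≤ Rp ^ (2 * q))
    (hrawo : ∀ i < p.Ko, ∫ ω, (skSP m 1 (ckStp 1 b h ps)).nX (ghIdx ps ((ghPosA (vo i) : GhPos) : WithTop GhPos)) ω ^ q ∂(skSP m 1 (ckStp 1 b h ps)).μ ≤ Ro i ^ q) :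
    MbxIn (skSP m 1 (ckStp 1 b h ps)) p (mbxO p.Ko vo ps) mo so vmin hmin q R c1 cR (1 + (2 * q : ℝ) ^ 2 / 3) th eps Rp Bout Ro := by
  have hadm := bud_bm_i_adm C.adm hc
  have hok := bud_bm_i_ok C.m_pos C.adm hc
  have := hok.prob
  exact
    { r_pos := I.r_pos
      c1_nn := I.pc1.1.le
      cR_nn := I.pcR.1.le
      cp_nn := by positivity
      proj1 := I.pc1.2 m 1 _ C.m_pos one_pos (by norm_num) hadm vmin hmin C.vmin_pos C.hmin_pos
      projR := I.pcR.2 m 1 _ C.m_pos one_pos (by norm_num) hadm vmin hmin C.vmin_pos C.hmin_pos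
      pin := l8i_pin m C.m_pos 1 one_pos _ hadm q I.r_pos
      th_ge := I.th_ge
      eps_nn := I.eps_nn
      eps_le := I.eps_le
      raw := by
        rw [bud_bm_i_O_lt C.Ko_pos]
        exact hraw
      Rp_nn := I.Rp_nn
      rawo := fun i hi => by
        rcases hi.lt_or_eq with h1 | h1
        · rw [bud_bm_i_O_lt h1]
          exact hrawo i h1
        · rw [h1]
          calc ∫ ω, (skSP m 1 (ckStp 1 b h ps)).nX (mbxO p.Ko vo ps p.Ko) ω ^ q ∂(skSP m 1 (ckStp 1 b h ps)).μ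
              ≤ ∫ _ω, (1 : ℝ) ∂(skSP m 1 (ckStp 1 b h ps)).μ :=
                integral_mono ((((skSP m 1 (ckStp 1 b h ps)).l8s_W_bd_nX hok _).pow q).integrable _) (integrable_const _) fun ω =>
                  pow_le_one₀ (Finset.sum_nonneg fun i _ => sq_nonneg _) ((skSP m 1 (ckStp 1 b h ps)).l8s_nX_le_one hok _ ω)
            _ = 1 := by simp
            _ ≤ Ro p.Ko ^ q := one_le_pow₀ I.Ro_top
      Ro_nn := I.Ro_nn
      Ro_mono := I.Ro_mono
      Rp_Ro := I.Rp_Ro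
      mo_a := I.mo_a
      vhi_a := I.vhi_a
      Bout := I.Bout }

/-- **(R1) THE INSTANCE**: on all sufficiently fine chains the step path of the clocks carries the geometry and the analytic inputs of the recurrence -/
theorem bud_bm_inst (C : MbxCont m b h r p vo vp mo so vmin hmin) {q R : ℕ} {c1 cR th eps Rp Bout : ℝ} {Ro : ℕ → ℝ}
    (I : MbxCin m b h p vo mo so q R c1 cR th eps Rp Bout Ro) :
    BmEv 1 fun ps => CkmCh ps ∧ (skSP m 1 (ckStp 1 b h ps)).Ok ∧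
      MbxGeo (skSP m 1 (ckStp 1 b h ps)) (mbxRho r ps) p (mbxO p.Ko vo ps) (mbxPo vp ps) mo so vmin hmin ∧
      MbxIn (skSP m 1 (ckStp 1 b h ps)) p (mbxO p.Ko vo ps) mo so vmin hmin q R c1 cR (1 + (2 * q : ℝ) ^ 2 / 3) th eps Rp Bout Ro := by
  have hvo : ∀ i < p.Ko, vo i ∈ Icc (0 : ℝ) 1 := fun i hi => ⟨(C.vo_mem i hi).1.le, (C.vo_mem i hi).2.le⟩
  have e1 := bud_bm_fine C
  have e2 := bud_bm_i_raw C.m_pos C.adm (2 * q) (hvo 0 C.Ko_pos) I.raw
  have e3 : BmEv 1 fun ps => ∀ i ∈ Finset.range p.Ko,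
      ∫ ω, (skSP m 1 (ckStp 1 b h ps)).nX (ghIdx ps ((ghPosA (vo i) : GhPos) : WithTop GhPos)) ω ^ q ∂(skSP m 1 (ckStp 1 b h ps)).μ ≤ Ro i ^ q :=
    (Filter.eventually_all_finset _).2 fun i hi =>
      bud_bm_i_raw C.m_pos C.adm q (hvo i (Finset.mem_range.1 hi)) (I.rawo i (Finset.mem_range.1 hi))
  refine ((e1.and e2).and e3).mono fun ps hps => ?_
  obtain ⟨⟨a1, a2⟩, a3⟩ := hps
  exact ⟨a1.ch, bud_bm_i_ok C.m_pos C.adm a1.ch, bud_bm_inst_geo C a1,
    bud_bm_inst_in C I a1.ch a2 fun i hi => a3 i (Finset.mem_range.2 hi)⟩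

end inst3

/-! ## 6. (C15a), non-asymptotic -/

theorem bud_bm_Q_nonneg {CS T Lo q0 : ℝ} (hCS : 0 ≤ CS) (hq0 : 0 ≤ q0) (j : ℕ) : 0 ≤ mbxQ CS T Lo q0 j := by
  cases j with
  | zero => exact hq0
  | succ j =>
    simp only [mbxQ]
    positivity

/-- a constant of (A3) in the form `cq ^ q` -/
theorem bud_bm_pc_ex (q : ℕ) (hq : 1 ≤ q) : ∃ cq : ℝ, 0 < cq ∧ MbxPc q (cq ^ q) := by
  obtain ⟨c, hc, H⟩ := l8i_proj q hq
  have hq' : (q : ℝ) ≠ 0 := by
    have : 0 < q := hq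
    exact_mod_cast this.ne'
  refine ⟨c ^ (1 / (q : ℝ)), Real.rpow_pos_of_pos hc _, ?_⟩
  have e : (c ^ (1 / (q : ℝ))) ^ q = c := by
    rw [← Real.rpow_natCast, ← Real.rpow_mul hc.le, one_div_mul_cancel hq', Real.rpow_one]
  rw [e]
  exact ⟨hc, H⟩

theorem bud_bm_pc_ex' (q : ℕ) (hq : 1 ≤ q) : ∃ c : ℝ, MbxPc q c := l8i_proj q hq

/-- the numerical side conditions of the recurrence and of the fork -/
structure MbxNum (m : ℕ) (p : MbxPar) (so : ℕ → ℝ) (q : ℕ) (c1 th eps Rp Bout : ℝ) (Ro : ℕ → ℝ) (Kw Lo T cq esy : ℝ) (nb j0 : ℕ) : Prop where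
  Lo_nn : 0 ≤ Lo
  Kw_ge : mbxKw m p q c1 th ≤ Kw
  Lo_ge : mbxLn m p 1 q c1 th eps Rp Bout ≤ Kw * Lo
  T_ge : 2 * (1 + (2 * q : ℝ) ^ 2 / 3) * Kw ≤ T * (p.kap * p.gam * p.d0 ^ 3)
  nb_pos : 1 ≤ nb
  nb_fit : p.lo + 2 * p.g * nb ≤ p.hi - 2 * p.g * nb
  cq_nn : 0 ≤ cq
  pcq : MbxPc q (cq ^ q)
  j0_pos : 1 ≤ j0
  j0_le : j0 ≤ p.K1
  len_le : p.len j0 ≤ p.d0
  le_len : p.d0 ≤ 2 * p.len j0
  esy_nn : 0 ≤ esy
  esy1 : cq * Rp * mbxSg m p so j0 ≤ esy ^ 2
  esy2 : ∀ i < p.Ko, cq * Ro (i + 1) * so i ≤ esy ^ 2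

/-- the bound of (C15a) -/
noncomputable def mbxC15 (p : MbxPar) (T Lo Rp esy : ℝ) (nb : ℕ) : ℝ :=
  (mbxQ p.CS T Lo (4 * Rp / p.d0) nb / 4 + 3 * p.CS + 6 * mbxQ p.CS T Lo (4 * Rp / p.d0) nb) * p.d0 + 2 * p.K * esy

section c15a
variable {m : ℕ} {b h r : ℝ → ℝ} {p : MbxPar} {vo vp mo so : ℕ → ℝ} {vmin hmin : ℝ}

/-- **(C15a) on all fine chains**: the centred moment of order `2 q` of the overlap at a fork of the inner buffer -/
theorem bud_bm_c15a_chain (C : MbxCont m b h r p vo vp mo so vmin hmin) {q R : ℕ} {c1 cR th eps Rp Bout : ℝ} {Ro : ℕ → ℝ}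
    (I : MbxCin m b h p vo mo so q R c1 cR th eps Rp Bout Ro) {Kw Lo T cq esy : ℝ} {nb j0 : ℕ}
    (N : MbxNum m p so q c1 th eps Rp Bout Ro Kw Lo T cq esy nb j0) {v : ℝ} (hv : v ∈ Icc (0 : ℝ) 1)
    (hv0 : p.lo + 2 * p.g * nb ≤ r v) (hv1 : r v + 2 * p.d0 ≤ p.hi - 2 * p.g * nb) :
    BmEv 1 fun ps => ∫ z, ((skSP m 1 (ckStp 1 b h ps)).Q z - (skSP m 1 (ckStp 1 b h ps)).S (ghIdx ps ((ghPosA v : GhPos) : WithTop GhPos))) ^ (2 * q)
        ∂((skSP m 1 (ckStp 1 b h ps)).fork (ghIdx ps ((ghPosA v : GhPos) : WithTop GhPos))) ≤ mbxC15 p T Lo Rp esy nb ^ (2 * q) := by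
  have e1 := bud_bm_inst C I
  have e2 := ckm_contains {ghPosA v} (fun x hx => by
    rw [Finset.mem_singleton.1 hx]
    exact gh_os_posA_ok hv.1 hv.2)
  refine (e1.and e2).mono fun ps hps => ?_
  obtain ⟨⟨hc, hok, G, J⟩, hmem⟩ := hps
  have hvps : ghPosA v ∈ ps := hmem _ (Finset.mem_singleton_self _)
  have := hok.prob
  set P := skSP m 1 (ckStp 1 b h ps) with hP
  have hadm := bud_bm_i_adm C.adm hc
  have hρk : mbxRho r ps (ghIdx ps ((ghPosA v : GhPos) : WithTop GhPos)) = r v := by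
    rw [bud_bm_rho_mass m b h C.r_zero C.r_one, ckm_idx_mass m b h hc hvps, bud_bm_i_posA_u]
  have hrat := bud_bm_ratio hok G J N.Lo_nn N.Kw_ge N.Lo_ge N.T_ge nb N.nb_fit
  have hg0 : 0 ≤ 2 * p.g * nb := by
    have := C.g_pos
    positivity
  have hQ0 : 0 ≤ mbxQ p.CS T Lo (4 * Rp / p.d0) nb :=
    bud_bm_Q_nonneg C.CS_pos.le (by have := I.Rp_nn; have := C.d0_pos; positivity) nb
  have hRp : ∫ ω, P.nX (mbxO p.Ko vo ps 0) ω ^ q ∂P.μ ≤ Rp ^ q := by
    have hnn : ∀ ω, 0 ≤ P.nX (mbxO p.Ko vo ps 0) ω := fun ω => Finset.sum_nonneg fun i _ => sq_nonneg _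
    have e : ∀ s : ℕ, ∀ ω, |P.nX (mbxO p.Ko vo ps 0) ω| ^ s = P.nX (mbxO p.Ko vo ps 0) ω ^ s := fun s ω => by rw [abs_of_nonneg (hnn ω)]
    have := bud_bm_lyap P.μ (P.l8s_W_bd_nX hok (mbxO p.Ko vo ps 0)) (q := q) (q' := 2 * q) I.r_pos (by omega) I.Rp_nn (by simpa only [e] using J.raw)
    simpa only [e] using this
  have key := bud_bm_delta hok G I.r_pos N.cq_nn
    (N.pcq.2 m 1 _ C.m_pos one_pos (by norm_num) hadm vmin hmin C.vmin_pos C.hmin_pos) hRp I.Rp_nn J.rawo I.Ro_nn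
    N.j0_pos N.j0_le N.len_le N.le_len N.esy_nn N.esy1 N.esy2 (lo' := p.lo + 2 * p.g * nb) (hi' := p.hi - 2 * p.g * nb)
    (by linarith) (by linarith) hQ0 (Cx := mbxQ p.CS T Lo (4 * Rp / p.d0) nb / 4) (by positivity) hrat.1 (hrat.2 N.nb_pos)
    (k := ghIdx ps ((ghPosA v : GhPos) : WithTop GhPos)) (by rw [hρk]; exact hv0) (by rw [hρk]; exact hv1)
  exact key

end c15a

/-- **(C15a), NON-ASYMPTOTIC, AT THE LEVEL OF THE WORLD**: `‖Q_v - S_v‖_{2q} ≤ mbxC15` at every fork of the inner buffer.      TEX[LL:bud:box-moments] -/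
theorem bud_bm_c15a_num {W : BdWorld} {F : BdFr} {X : BdFix} (hW : W.IsHub) (Q : BdQ F X) (g : ℝ) (hb : IsClock 1 (Q.bq g)) (hh : IsClock 1 (Q.hq g))
    {p : MbxPar} {vo vp mo so : ℕ → ℝ} {vmin hmin : ℝ} (C : MbxCont F.m (Q.bE g) (Q.hE g) Q.r p vo vp mo so vmin hmin)
    {q R : ℕ} {c1 cR th eps Rp Bout : ℝ} {Ro : ℕ → ℝ} (I : MbxCin F.m (Q.bE g) (Q.hE g) p vo mo so q R c1 cR th eps Rp Bout Ro)
    {Kw Lo T cq esy : ℝ} {nb j0 : ℕ} (N : MbxNum F.m p so q c1 th eps Rp Bout Ro Kw Lo T cq esy nb j0) {v : ℝ} (hv : v ∈ Ioo (0 : ℝ) 1)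
    (hv0 : p.lo + 2 * p.g * nb ≤ Q.r v) (hv1 : Q.r v + 2 * p.d0 ≤ p.hi - 2 * p.g * nb) :
    Q.nQ W g (2 * q) v (Q.Sq W g v) ≤ mbxC15 p T Lo Rp esy nb := by
  have hB : 0 ≤ mbxC15 p T Lo Rp esy nb := by
    have h1 : 0 ≤ mbxQ p.CS T Lo (4 * Rp / p.d0) nb :=
      bud_bm_Q_nonneg C.CS_pos.le (by have := I.Rp_nn; have := C.d0_pos; positivity) nb
    have := C.CS_pos
    have := C.d0_pos
    have := N.esy_nn
    unfold mbxC15
    positivity
  refine bud_bm_nQ_le hW Q g C.m_pos hb hh hv I.r_pos hB ?_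
  exact (bud_bm_c15a_chain C I N ⟨hv.1.le, hv.2.le⟩ hv0 hv1).frequently

/-! ## 7. The same tools in free form (no record): for the frame level `Bud/MomBoxFr.lean` -/

section free
variable {m : ℕ} {b h r : ℝ → ℝ} {ps : List GhPos}

/-- a local lower slope `C0 dr` of the field clock (masses `≤ vt`, radii `≥ lo`) as a GLOBAL continuous lower slope (input of `ckm_hck_slope`) -/
theorem bud_bm_g_slope (hh : GhClk1 1 h) (hrc : ContinuousOn r (Icc 0 1)) (hrm : MonotoneOn r (Icc 0 1)) (hr0 : r 0 = 0) (hr1 : r 1 = 1)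
    {lo C0 vt : ℝ} (hlo : 0 < lo) (hvt : vt ∈ Ioo (0 : ℝ) 1) (hlt : lo < r vt)
    (hs : ∀ s t, 0 < s → s ≤ t → t ≤ vt → lo ≤ r s → C0 * (r t - r s) ≤ h t - h s) :
    ∃ φ : ℝ → ℝ, ContinuousOn φ (Icc 0 1) ∧ (∀ s t, 0 < s → s ≤ t → t < 1 → φ t - φ s ≤ h t - h s) ∧
      ∀ v ∈ Icc (0 : ℝ) 1, lo ≤ r v → v ≤ vt → φ v = C0 * r v := by
  have hrt : r vt ≤ 1 := by
    have := hrm ⟨hvt.1.le, hvt.2.le⟩ ⟨zero_le_one, le_rfl⟩ hvt.2.le
    rwa [hr1] at this
  have hlo1 : lo ∈ Icc (r 0) (r 1) := by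
    rw [hr0, hr1]
    exact ⟨hlo.le, by linarith⟩
  obtain ⟨vl, hvl, hrl⟩ := intermediate_value_Icc zero_le_one hrc hlo1
  have hvl0 : 0 < vl := by
    rcases hvl.1.lt_or_eq with h' | h'
    · exact h'
    · exfalso
      rw [← h', hr0] at hrl
      linarith
  have hvlo : vl ≤ vt := by
    by_contra hcon
    have := hrm ⟨hvt.1.le, hvt.2.le⟩ hvl (not_le.1 hcon).le
    linarith
  have hcl : ∀ v, max vl (min v vt) ∈ Icc vl vt := fun v => ⟨le_max_left _ _, max_le hvlo (min_le_right _ _)⟩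
  have hcl' : ∀ v, max vl (min v vt) ∈ Icc (0 : ℝ) 1 := fun v => ⟨hvl0.le.trans (hcl v).1, (hcl v).2.trans hvt.2.le⟩
  refine ⟨fun v => C0 * r (max vl (min v vt)), ?_, ?_, ?_⟩
  · refine continuousOn_const.mul (hrc.comp ?_ fun v _ => hcl' v)
    exact (continuous_const.max (continuous_id.min continuous_const)).continuousOn
  · intro s t hs0 hst ht
    have hmono : h s ≤ h t := hh.1 ⟨hs0.le, (hst.trans ht.le)⟩ ⟨hs0.le.trans hst, ht.le⟩ hst
    show C0 * r (max vl (min t vt)) - C0 * r (max vl (min s vt)) ≤ h t - h s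
    by_cases hcase : vl < t ∧ s < vt
    · obtain ⟨h1, h2⟩ := hcase
      have es : max vl (min s vt) = max vl s := by rw [min_eq_left h2.le]
      have et : max vl (min t vt) = min t vt := max_eq_right (le_min h1.le hvlo)
      rw [es, et]
      have a1 : s ≤ max vl s := le_max_right _ _
      have a2 : min t vt ≤ t := min_le_left _ _
      have a3 : max vl s ≤ min t vt := max_le (le_min h1.le hvlo) (le_min hst h2.le)
      have a4 : 0 < max vl s := lt_max_of_lt_left hvl0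
      have a5 : lo ≤ r (max vl s) := by
        rw [← hrl]
        exact hrm hvl ⟨a4.le, a3.trans (a2.trans ht.le)⟩ (le_max_left _ _)
      have a6 := hs (max vl s) (min t vt) a4 a3 (min_le_right _ _) a5
      have a7 : h s ≤ h (max vl s) := hh.1 ⟨hs0.le, hst.trans ht.le⟩ ⟨a4.le, a3.trans (a2.trans ht.le)⟩ a1
      have a8 : h (min t vt) ≤ h t := hh.1 ⟨a4.le.trans a3, a2.trans ht.le⟩ ⟨hs0.le.trans hst, ht.le⟩ a2
      rw [← mul_sub]
      linarith
    · have e : max vl (min t vt) = max vl (min s vt) := by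
        rcases not_and_or.1 hcase with h1 | h1
        · have h1' := not_lt.1 h1
          rw [max_eq_left ((min_le_left _ _).trans h1'), max_eq_left ((min_le_left _ _).trans (hst.trans h1'))]
        · have h1' := not_lt.1 h1
          rw [min_eq_right h1', min_eq_right (h1'.trans hst)]
      rw [e, sub_self]
      linarith
  · intro v hv hlo' hvo
    show C0 * r (max vl (min v vt)) = C0 * r v
    rw [min_eq_left hvo]
    rcases le_total vl v with h1 | h1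
    · rw [max_eq_right h1]
    · rw [max_eq_left h1, hrl]
      have := hrm hv hvl h1
      rw [hrl] at this
      rw [le_antisymm this hlo']

/-- oscillation of the step `S` between two cuts, from the oscillation of `skCS` between masses (slack `ε` in radius on the left, `δ` = distance of the chain to the clock numbers) -/
theorem bud_bm_g_Sosc (hm : 0 < m) (H : CkAdm 1 b h) (hrc : ContinuousOn r (Icc 0 1)) (hrm : MonotoneOn r (Icc 0 1)) (hr0 : r 0 = 0) (hr1 : r 1 = 1)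
    {lo hi ε δ Cg d0 : ℝ} (hlo : 0 < lo) (hhi : hi < 1) (hε : 0 < ε) (hCg : 0 ≤ Cg)
    (hosc : ∀ s t, 0 < s → s ≤ t → t < 1 → lo - ε ≤ r s → r t ≤ hi →
      skCS m 1 b h (ghPosA t) - skCS m 1 b h (ghPosA s) ≤ Cg * (d0 + (r t - r s)))
    (hc : CkmCh ps) (hcl : ∀ j, 1 ≤ j → j ≤ ps.length → |(ckM m b h ps).S j - skCS m 1 b h (ckmPos ps j)| ≤ δ)
    {k l : ℕ} (hkl : k ≤ l) (hk : lo ≤ r ((ckM m b h ps).mass k)) (hl : r ((ckM m b h ps).mass l) ≤ hi) :
    (ckM m b h ps).S l - (ckM m b h ps).S k ≤ Cg * (d0 + (r ((ckM m b h ps).mass l) - r ((ckM m b h ps).mass k)) + ε) + 2 * δ := by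
  have hk1 : 1 ≤ k := by
    by_contra hcon
    have : k = 0 := by omega
    rw [this, ckm_mass, if_pos rfl, hr0] at hk
    linarith
  have hln : l ≤ ps.length := by
    by_contra hcon
    rw [ckm_mass_top m b h (not_le.1 hcon), hr1] at hl
    linarith
  have hmk : (ckM m b h ps).mass k = (ckmPos ps k).u := by rw [ckm_mass, if_neg (by omega)]
  have hml : (ckM m b h ps).mass l = (ckmPos ps l).u := by rw [ckm_mass, if_neg (by omega)]
  have hμk := bud_bm_i_mass_mem m b h hc k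
  have hμl := bud_bm_i_mass_mem m b h hc l
  have hμkl := ckm_mass_mono m b h hc hkl
  set x := (ckM m b h ps).mass k with hx
  set y := (ckM m b h ps).mass l with hy
  have hx0 : 0 < x := by
    rcases hμk.1.lt_or_eq with h' | h'
    · exact h'
    · rw [← h', hr0] at hk
      linarith
  have hy1 : y < 1 := by
    rcases hμl.2.lt_or_eq with h' | h'
    · exact h'
    · rw [h', hr1] at hl
      linarith
  obtain ⟨v, hv0, hvx, hrv⟩ := bud_bm_i_left hrc hx0 hμk.2 hε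
  have okk := ckm_pos_ok hc k
  have okl := ckm_pos_ok hc l
  have u1 : skCS m 1 b h (ckmPos ps l) ≤ skCS m 1 b h (ghPosA y) := by
    refine (exit_clk_SB hm one_pos H okl (gh_os_posA_ok hμl.1 hμl.2) ?_).2.1
    rw [gh_os_pos_le_iff, bud_bm_i_posA_u, bud_bm_i_posA_lam]
    exact Or.inr ⟨hml.symm, okl.2.2.2⟩
  have u2 : skCS m 1 b h (ghPosA v) ≤ skCS m 1 b h (ckmPos ps k) := by
    refine (exit_clk_SB hm one_pos H (gh_os_posA_ok hv0.le (hvx.le.trans hμk.2)) okk ?_).2.1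
    rw [gh_os_pos_le_iff, bud_bm_i_posA_u]
    exact Or.inl (by rw [← hmk]; exact hvx)
  have u3 := hosc v y hv0 (hvx.le.trans hμkl) hy1 (by linarith) hl
  have u4 := abs_le.1 (hcl l (hk1.trans hkl) hln)
  have u5 := abs_le.1 (hcl k hk1 (hkl.trans hln))
  have u6 : Cg * (d0 + (r y - r v)) ≤ Cg * (d0 + (r y - r x) + ε) := mul_le_mul_of_nonneg_left (by linarith) hCg
  linarith

end free

end Claimed.Agent.R286
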