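import Claimed.Agent.R286.Bud.SecInst
import Claimed.Agent.R286.Bud.HubBDefs
import Claimed.Agent.R286.Bud.Brg248
import Claimed.Agent.R286.Bud.StarW

/-!
# Row 286 (S0533), LL 07-budgets, node N13 = Lemma `bud:box-moments`, SECOND ASSERTION (C15b), l.1538-1578 "Second moments in radius and in mass"      (owner helper111; prefix `bos_bx_`)

EXIT  `bos_box_c15b : BdStd → IsSk → BudZ n → LSmall n → BudC15a n 2 s → BudC15b n 2 s c C`   (every `0 < s < 1`).      CONSUMER: helper9, `bud_bm_c15b` (`Bud/MomBoxFr.lean`).      TEX[LL:bud:box-moments]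

ROUTE (the paper's).   Box `J = [a,b] ⊆ Buf s`, `|J| ≤ C d0`.
* RADIUS: `bos_sw` (`Bud/Sec.lean`, PROVED) on `[a,b]`: floor `κ_j`, masses `≥ cv u`, constant removal `C0`, `osc S ≤ Cs d0` (N11), pointwise `D ≤ Cp d0` ((C15a) at `l = 1`), window `h = t' d0`.
* MASS, floor part: density `kbar ≤ 1` against the radius estimate (`bos_band_fl`).
* MASS, nonfloor part: the sliding estimate `bos_sw_gen` in the deterministic coordinate `s(v) = ∫^v 1_nonfloor` (`bos_bx_co`, `bos_bx_set`), NO floor denominator; traces on caps and contact: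
  `∫_{nonfloor} E tr H ≤ (3L/(cn C0)) · (mass of the box enlarged to whole caps)` (`bos_bx_tr`);   whole caps: a cap meeting the box is shorter than `4d/M` because `|α - β₀| ≤ d` (`bos_bx_cap`).
* ARITHMETIC (`bos_bx_ar`): `t' = (A/L)^{3/2} κ_j^{-1/2} ≤ λ^{0.18}` (`bds_prefactor`), `x⁶/(C0 u) = u³A³`, `1/m ≤ 2x⁶`, the logarithm `L_p² λ^{0.04} ≤ C` (`bos_Lp_sub`).
LAYERS: 1 abstract (on `BosGeo`, record `BosBx`, exit `bos_bx_main`);   2 PRODUCER of `BosBx` from a buffered violation (`bos_bx_prod`);   3 arithmetic;   4 exit.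
PROVERS: prove IN PLACE, claim `Bud/SecBox.lean#<name>`; all statements hand-checked; a false/awkward statement: one line to 111.
-/

set_option autoImplicit false

namespace Claimed.Agent.R286

open MeasureTheory Set Filter Topology

noncomputable section

/-! ## 0. Vocabulary -/

/-- the right side of the sliding estimate in the nonfloor coordinate; `TD` = bound of `∫_{nonfloor} E tr H` -/
def bosBxN (h R sg TD v0 : ℝ) : ℝ := 4 * h * R ^ 2 + 17 * h * sg ^ 2 + 64 * (TD / v0) / h + 221186 * (TD / v0 ^ 2)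

/-- **the hypotheses of the box estimate** on a `BosGeo`: box `[a,b]`, enlargement `[ra,rb]` containing the whole caps which meet the box, floor `κ`, masses `≥ v0`, removal `≥ e0`,
oscillation `sg` of `S`, pointwise bound `R` of `D`, mass `Δ` of the enlargement, upper bound `kM` of the floor density.      PRODUCER: `bos_bx_prod`. -/
structure BosBx (al r kb ef : ℝ → ℝ) (M cn Lp : ℝ) (X : CmNum) (Z : CmCaps) (a b ra rb κ v0 e0 sg R Δ kM : ℝ) : Prop where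
  num : X.Ok
  geo : BosGeo al r kb ef M cn Lp X Z
  ra0 : 0 ≤ ra
  raa : ra ≤ a
  ab : a ≤ b
  brb : b ≤ rb
  rb1 : rb ≤ 1
  κ0 : 0 < κ
  flo : ∀ s t : ℝ, a ≤ s → s ≤ t → t ≤ b → κ * (t - s) ≤ al t - al s
  v00 : 0 < v0
  v0a : v0 ≤ al a
  e00 : 0 < e0
  e0e : ∀ x ∈ Icc ra rb, e0 ≤ ef x
  osc : X.S (al b) - X.S (al a) ≤ sg
  pt : ∀ x ∈ Icc a b, X.D (al x) ≤ R
  cap : ∀ i, Z.cL i < Z.cR i → (Ioo (Z.cL i) (Z.cR i) ∩ Icc a b).Nonempty → ra ≤ Z.cL i ∧ Z.cR i ≤ rb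
  mass : al rb - al ra ≤ Δ
  kM0 : 0 ≤ kM
  kMk : ∀ x ∈ Icc a b, kb x ≤ kM

/-- the instance of `Bud/Star` carried by a buffered violation (scale `w_c`; `c0` = normalisation of the potential) -/
def BdVI.bx {X : BdFix} {W : BdWorld} (i : BdVI X W) (c0 : ℝ) : BcsIn X := ⟨⟨i.F, i.V.g, i.V.Q, i.F.wc X⟩, c0⟩

/-- **pointwise second moments in the buffer** = (C15a) at `l = 1`, in the radius variable -/
def BosBxPt (X : BdFix) (W : BdWorld) (Fam : BdFr → Prop) (n : ℕ) (s : ℝ) : Prop :=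
  ∃ (Cp : ℝ) (N0 : ℕ), 0 < Cp ∧ ∀ i : BdVI X W, BudB.VSt X W Fam n i → N0 ≤ i.F.N →
    ∀ x ∈ i.V.Buf s, i.V.Q.Dq2 W i.V.g (i.V.Q.al x) ≤ (Cp * i.V.d0) ^ 2

theorem bos_bx_eqns_cite : True := by
  have := @bosBxN.eq_1; have := @BdVI.bx.eq_1; have := @BosBxPt.eq_1
  trivial

/-! ## 1. Abstract layer -/

section abs

variable {al r kb ef : ℝ → ℝ} {M cn Lp : ℝ} {X : CmNum} {Z : CmCaps}

/-- LEAF: **the coordinate of a deterministic measurable set of masses** inside `[v1,v2]` (LL l.1573 `s(v) = ∫^v 1_nonfloor`).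
PLAN: `ρ` = indicator of `Icc 0 v1 ∪ (Icc v1 v2 ∩ E) ∪ Ioc v2 1`; `bos_co_exists` gives `al'`, `BosCo al' ρ (∫_0^1 ρ)`, `Φ(al' x) = x` with `Φ v = ∫_0^v ρ`;   `x1 = v1`, `x2 = v1 + |Icc v1 v2 ∩ E|`.
`al' x ∈ [v1,v2]`: `Φ v = v` on `[0,v1]`, `Φ v = x2 + (v - v2)` on `[v2,1]`.      The identity: `BosCo.cov` for `F·1_{[0,1]}`; `|E ∩ [v1, al' x1]| = Φ(al' x1) - Φ(v1) = 0`, `|E ∩ [al' x2, v2]| = 0`. -/
theorem bos_bx_co {E : Set ℝ} (hE : MeasurableSet E) {v1 v2 : ℝ} (h1 : 0 ≤ v1) (h12 : v1 ≤ v2) (h2 : v2 ≤ 1) :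
    ∃ (al' ϖ : ℝ → ℝ) (L x1 x2 : ℝ), BosCo al' ϖ L ∧ 0 ≤ x1 ∧ x1 ≤ x2 ∧ x2 ≤ L ∧ (∀ u, ϖ u ≤ 1) ∧ (∀ x ∈ Icc x1 x2, al' x ∈ Icc v1 v2) ∧
      ∀ F : ℝ → ℝ, Measurable F → (∃ B : ℝ, ∀ u ∈ Icc (0 : ℝ) 1, |F u| ≤ B) → ∫ x in x1..x2, F (al' x) = ∫ u in Icc v1 v2 ∩ E, F u := by
  classical
  set ρ : ℝ → ℝ := fun u => if u ≤ v1 then 1 else if u ≤ v2 then E.indicator (fun _ => (1 : ℝ)) u else 1 with hρ
  have hm : Measurable ρ := Measurable.ite measurableSet_Iic measurable_const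
    (Measurable.ite measurableSet_Iic (measurable_const.indicator hE) measurable_const)
  have h0 : ∀ u, 0 ≤ ρ u := by
    intro u
    simp only [hρ]
    split_ifs
    · exact zero_le_one
    · exact indicator_nonneg (fun _ _ => zero_le_one) u
    · exact zero_le_one
  have hle : ∀ u, ρ u ≤ 1 := by
    intro u
    simp only [hρ]
    split_ifs
    · exact le_rfl
    · exact indicator_le_self' (fun _ _ => zero_le_one) u
    · exact le_rfl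
  obtain ⟨al, hA, hΦ⟩ := bos_co_exists hm h0 ⟨1, hle⟩
  -- integrability of bounded measurable functions
  have hbint : ∀ (g : ℝ → ℝ) (B : ℝ), Measurable g → (∀ u, |g u| ≤ B) → ∀ a b : ℝ, IntervalIntegrable g volume a b := by
    intro g B hg hgB a b
    have hloc : LocallyIntegrable g volume := by
      refine (locallyIntegrable_const B).mono hg.aestronglyMeasurable (Filter.Eventually.of_forall fun u => ?_)
      rw [Real.norm_eq_abs, Real.norm_eq_abs]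
      exact (hgB u).trans (le_abs_self B)
    exact intervalIntegrable_iff.mpr ((hloc.integrableOn_isCompact isCompact_uIcc).mono_set uIoc_subset_uIcc)
  have hint : ∀ a b : ℝ, IntervalIntegrable ρ volume a b :=
    hbint ρ 1 hm (fun u => by rw [abs_of_nonneg (h0 u)]; exact hle u)
  have hadd : ∀ a b c : ℝ, (∫ u in a..b, ρ u) + ∫ u in b..c, ρ u = ∫ u in a..c, ρ u := fun a b c =>
    intervalIntegral.integral_add_adjacent_intervals (hint a b) (hint b c)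
  have hnn : ∀ a b : ℝ, a ≤ b → 0 ≤ ∫ u in a..b, ρ u := fun a b hab =>
    intervalIntegral.integral_nonneg hab (fun u _ => h0 u)
  have hΦ1 : ∀ v : ℝ, 0 ≤ v → v ≤ v1 → ∫ u in (0 : ℝ)..v, ρ u = v := by
    intro v hv0 hv
    have : ∫ u in (0 : ℝ)..v, ρ u = ∫ u in (0 : ℝ)..v, (1 : ℝ) := by
      refine intervalIntegral.integral_congr (fun u hu => ?_)
      rw [uIcc_of_le hv0] at hu
      simp only [hρ]
      rw [if_pos (hu.2.trans hv)]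
    rw [this]; simp
  have hΦ2 : ∀ v : ℝ, v2 ≤ v → ∫ u in v2..v, ρ u = v - v2 := by
    intro v hv
    have : ∫ u in v2..v, ρ u = ∫ u in v2..v, (1 : ℝ) := by
      rw [intervalIntegral.integral_of_le hv, intervalIntegral.integral_of_le hv]
      refine setIntegral_congr_fun measurableSet_Ioc (fun u hu => ?_)
      simp only [hρ]
      rw [if_neg (not_le.2 (h12.trans_lt hu.1)), if_neg (not_le.2 hu.1)]
    rw [this]; simp
  have hx12 : v1 ≤ ∫ u in (0 : ℝ)..v2, ρ u := by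
    have := hadd 0 v1 v2
    rw [hΦ1 v1 h1 le_rfl] at this
    linarith [hnn v1 v2 h12]
  have hx2L : ∫ u in (0 : ℝ)..v2, ρ u ≤ ∫ u in (0 : ℝ)..1, ρ u := by
    have := hadd 0 v2 1
    linarith [hnn v2 1 h2]
  have hmem : ∀ x ∈ Icc v1 (∫ u in (0 : ℝ)..v2, ρ u), al x ∈ Icc v1 v2 := by
    intro x hx
    have hxL : x ∈ Icc (0 : ℝ) (∫ u in (0 : ℝ)..1, ρ u) := ⟨h1.trans hx.1, hx.2.trans hx2L⟩
    have hw := hA.al_mem x hxL
    have hΦx := hΦ x hxL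
    constructor
    · by_contra hlt
      rw [not_le] at hlt
      have := hΦ1 (al x) hw.1 hlt.le
      linarith [hx.1]
    · by_contra hlt
      rw [not_le] at hlt
      have e1 := hΦ2 (al x) hlt.le
      have e2 := hadd 0 v2 (al x)
      linarith [hx.2]
  refine ⟨al, ρ, ∫ u in (0 : ℝ)..1, ρ u, v1, ∫ u in (0 : ℝ)..v2, ρ u, hA, h1, hx12, hx2L, hle, hmem, ?_⟩
  intro F hF ⟨B, hB⟩
  set x2 : ℝ := ∫ u in (0 : ℝ)..v2, ρ u with hx2
  have hsub : Icc v1 v2 ⊆ Icc (0 : ℝ) 1 := Icc_subset_Icc h1 h2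
  set F' : ℝ → ℝ := (Icc (0 : ℝ) 1).indicator F with hF'
  have hF'm : Measurable F' := hF.indicator measurableSet_Icc
  have hF'B : ∀ u, |F' u| ≤ |B| := by
    intro u
    by_cases hu : u ∈ Icc (0 : ℝ) 1
    · rw [hF', indicator_of_mem hu]; exact (hB u hu).trans (le_abs_self B)
    · rw [hF', indicator_of_notMem hu, abs_zero]; exact abs_nonneg B
  have hcov := hA.cov F' hF'm ⟨|B|, hF'B⟩ v1 x2 h1 hx12 hx2L
  have hL : ∫ x in v1..x2, F (al x) = ∫ x in v1..x2, F' (al x) := by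
    refine intervalIntegral.integral_congr (fun x hx => ?_)
    rw [uIcc_of_le hx12] at hx
    simp only [hF']
    rw [indicator_of_mem (hsub (hmem x hx))]
  rw [hL, hcov]
  set g : ℝ → ℝ := fun u => F' u * ρ u with hg
  have hgm : Measurable g := hF'm.mul hm
  have hgρ : ∀ u, |g u| ≤ |B| * ρ u := by
    intro u
    simp only [hg]
    rw [abs_mul, abs_of_nonneg (h0 u)]
    exact mul_le_mul_of_nonneg_right (hF'B u) (h0 u)
  have hgB : ∀ u, |g u| ≤ |B| := fun u => (hgρ u).trans (by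
    have := mul_le_mul_of_nonneg_left (hle u) (abs_nonneg B); simpa using this)
  have hgint := hbint g |B| hgm hgB
  have hp := hmem v1 (left_mem_Icc.2 hx12)
  have hq := hmem x2 (right_mem_Icc.2 hx12)
  have hpq : al v1 ≤ al x2 :=
    hA.al_mono.monotoneOn ⟨h1, hx12.trans hx2L⟩ ⟨h1.trans hx12, hx2L⟩ hx12
  have hzero : ∀ a b : ℝ, a ≤ b → ∫ u in a..b, ρ u = 0 → ∫ u in a..b, g u = 0 := by
    intro a b hab hz
    have := intervalIntegral.norm_integral_le_of_norm_le (μ := volume) (f := g) (g := fun u => |B| * ρ u) hab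
      (Filter.Eventually.of_forall fun u _ => by rw [Real.norm_eq_abs]; exact hgρ u) ((hint a b).const_mul _)
    rw [intervalIntegral.integral_const_mul, hz, mul_zero] at this
    exact norm_le_zero_iff.1 this
  have hz1 : ∫ u in v1..(al v1), g u = 0 := by
    refine hzero _ _ hp.1 ?_
    have e1 := hadd 0 v1 (al v1)
    rw [hΦ1 v1 h1 le_rfl, hΦ v1 ⟨h1, hx12.trans hx2L⟩] at e1
    linarith
  have hz2 : ∫ u in (al x2)..v2, g u = 0 := by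
    refine hzero _ _ hq.2 ?_
    have e1 := hadd 0 (al x2) v2
    rw [hΦ x2 ⟨h1.trans hx12, hx2L⟩] at e1
    linarith
  have e1 : ∫ u in Ioo (al v1) (al x2), g u = ∫ u in (al v1)..(al x2), g u := by
    rw [intervalIntegral.integral_of_le hpq, integral_Ioc_eq_integral_Ioo]
  have e2 : ∫ u in v1..v2, g u = ∫ u in (al v1)..(al x2), g u := by
    have a1 := intervalIntegral.integral_add_adjacent_intervals (hgint v1 (al v1)) (hgint (al v1) (al x2))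
    have a2 := intervalIntegral.integral_add_adjacent_intervals (hgint v1 (al x2)) (hgint (al x2) v2)
    linarith
  rw [e1, ← e2, intervalIntegral.integral_of_le h12]
  have e3 : ∫ u in Ioc v1 v2, g u = ∫ u in Ioc v1 v2, E.indicator F u := by
    refine setIntegral_congr_fun measurableSet_Ioc (fun u hu => ?_)
    have hu01 : u ∈ Icc (0 : ℝ) 1 := hsub ⟨hu.1.le, hu.2⟩
    simp only [hg, hF', hρ]
    rw [indicator_of_mem hu01, if_neg (not_le.2 hu.1), if_pos hu.2]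
    by_cases huE : u ∈ E
    · rw [indicator_of_mem huE, indicator_of_mem huE, mul_one]
    · rw [indicator_of_notMem huE, indicator_of_notMem huE, mul_zero]
  rw [e3, setIntegral_indicator hE]
  exact setIntegral_congr_set (Ioc_ae_eq_Icc.inter (ae_eq_refl E))

/-- **the sliding estimate on a deterministic measurable set of masses** (LL l.1573-1585: "the window indicators are deterministic weights in (A1) … no floor-density denominator") -/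
theorem bos_bx_set (hX : X.Ok) {E : Set ℝ} (hE : MeasurableSet E) {v1 v2 sg R h : ℝ} (h1 : 0 ≤ v1) (h12 : v1 ≤ v2) (h2 : v2 ≤ 1)
    (hsg : X.S v2 - X.S v1 ≤ sg) (hR : ∀ u ∈ Icc v1 v2, X.D u ≤ R) (hh : 0 < h) :
    ∫ u in Icc v1 v2 ∩ E, X.D u ^ 2 ≤ 4 * h * R ^ 2 + 17 * h * sg ^ 2 + 64 * (∫ u in Icc v1 v2 ∩ E, X.TW u) / h
      + 221186 * ∫ u in Icc v1 v2 ∩ E, X.TC u := by
  obtain ⟨al', ϖ, L, x1, x2, hA, hx1, hx12, hx2, hϖ, hmem, hcov⟩ := bos_bx_co hE h1 h12 h2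
  have hm1 := hmem x1 (left_mem_Icc.2 hx12)
  have hm2 := hmem x2 (right_mem_Icc.2 hx12)
  have hsub : Icc v1 v2 ⊆ Icc (0 : ℝ) 1 := Icc_subset_Icc h1 h2
  have hS : X.S (al' x2) - X.S (al' x1) ≤ sg := by
    have e1 := hX.S_mono (hsub hm2) (hsub (right_mem_Icc.2 h12)) hm2.2
    have e2 := hX.S_mono (hsub (left_mem_Icc.2 h12)) (hsub hm1) hm1.1
    linarith
  have key := bos_sw_gen hX hA (k0 := 1) hx1 hx12 hx2 one_pos (Eventually.of_forall fun u _ => by simpa using hϖ u) hS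
    (fun x hx => hR _ (hmem x hx)) hh
  rw [hcov (fun u => X.D u ^ 2) (hX.D_meas.pow_const 2) ⟨1, fun u hu => by
      rw [abs_of_nonneg (sq_nonneg _)]; exact pow_le_one₀ (hX.D_nn u hu) (hX.D_le u hu)⟩,
    hcov X.TW hX.TW_meas ⟨1, fun u hu => by rw [abs_of_nonneg (hX.TW_nn u hu)]; exact hX.TW_le u hu⟩,
    hcov X.TC hX.TC_meas ⟨1, fun u hu => by rw [abs_of_nonneg (hX.TC_nn u hu)]; exact hX.TC_le u hu⟩, one_mul] at key
  exact key

/-- LEAF: **traces on caps and contact of a box** (LL l.1566-1570 "enlarge endpoint caps to whole caps … (C6) and PE (20) give the same integrated W and trace bounds on caps and contact").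
PLAN: `G := bosGrp Z al (Icc (al a) (al b)) 0` is a group (`bos_grp_isGroup`); `bos_cover_units` at the cutoff `0` (the third family is empty: `0 ≤ al (cL i)`) gives `Icc \ al''Fl ⊆ G` a.e.;
`G ⊆ Icc (al ra) (al rb)` by `hcap` (al strictly increasing: `bos_al_strictMono`, `bos_capM_image`);   `bos_group_trace` with `F = TH`, `g = 1`, `τ = 3 Lp/(cn eg)`: caps `bos_ut_unit`, contact `bos_ut_ct_mass`. -/
theorem bos_bx_tr (hX : X.Ok) (hG : BosGeo al r kb ef M cn Lp X Z) {a b ra rb eg : ℝ} (hra : 0 ≤ ra) (hraa : ra ≤ a) (hab : a ≤ b)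
    (hbrb : b ≤ rb) (hrb : rb ≤ 1)
    (hcap : ∀ i, Z.cL i < Z.cR i → (Ioo (Z.cL i) (Z.cR i) ∩ Icc a b).Nonempty → ra ≤ Z.cL i ∧ Z.cR i ≤ rb)
    (heg0 : 0 < eg) (heg : ∀ x ∈ Icc ra rb, eg ≤ ef x) :
    ∫ u in Icc (al a) (al b) \ al '' Z.Fl, X.TH u ≤ 3 * Lp / (cn * eg) * (al rb - al ra) := by
  have hsm := bos_al_strictMono hG
  have hmo := hsm.monotoneOn
  have ha0 : 0 ≤ a := hra.trans hraa
  have hb1 : b ≤ 1 := hbrb.trans hrb
  have ham : a ∈ Icc (0 : ℝ) 1 := ⟨ha0, hab.trans hb1⟩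
  have hbm : b ∈ Icc (0 : ℝ) 1 := ⟨ha0.trans hab, hb1⟩
  have hram : ra ∈ Icc (0 : ℝ) 1 := ⟨hra, (hraa.trans hab).trans hb1⟩
  have hrbm : rb ∈ Icc (0 : ℝ) 1 := ⟨(ha0.trans hab).trans hbrb, hrb⟩
  have hA := bos_al_mem hG ham
  have hB := bos_al_mem hG hbm
  have hRA := bos_al_mem hG hram
  have hRB := bos_al_mem hG hrbm
  have hcn := hG.cn0
  have hLp := hG.Lp1
  have hτ : 0 ≤ 3 * Lp / (cn * eg) := by positivity
  have hGr : Z.IsGroup al (bosGrp Z al (Icc (al a) (al b)) 0) := bos_grp_isGroup hG measurableSet_Icc 0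
  -- the group lies in the enlarged band
  have hGsub : bosGrp Z al (Icc (al a) (al b)) 0 ⊆ Icc (al ra) (al rb) := by
    rintro u (hu | hu)
    · exact ⟨(hmo hram ham hraa).trans hu.1.1, hu.1.2.trans (hmo hbm hrbm hbrb)⟩
    · obtain ⟨i, ⟨hi, hmeet, _⟩, hui⟩ := Set.mem_iUnion₂.1 hu
      obtain ⟨w, hwi, hwJ⟩ := hmeet
      rw [bos_capM_image hG i] at hwi
      obtain ⟨x, hx, rfl⟩ := hwi
      have hx1 : x ∈ Icc (0 : ℝ) 1 := ⟨(hG.cap_lo i).trans hx.1.le, hx.2.le.trans (hG.cap_hi i)⟩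
      have hxa : a ≤ x := (hsm.le_iff_le ham hx1).1 hwJ.1
      have hxb : x ≤ b := (hsm.le_iff_le hx1 hbm).1 hwJ.2
      obtain ⟨c1, c2⟩ := hcap i hi ⟨x, hx, hxa, hxb⟩
      exact ⟨(hmo hram (bos_cL_mem hG i) c1).trans hui.1.le, hui.2.le.trans (hmo (bos_cR_mem hG i) hrbm c2)⟩
  have hG01 : bosGrp Z al (Icc (al a) (al b)) 0 ⊆ Icc (0 : ℝ) 1 := hGsub.trans (Icc_subset_Icc hRA.1 hRB.2)
  -- radii of the group
  have hrad : ∀ x ∈ Icc (0 : ℝ) 1, al x ∈ bosGrp Z al (Icc (al a) (al b)) 0 → x ∈ Icc ra rb := fun x hx hu =>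
    ⟨(hsm.le_iff_le hram hx).1 (hGsub hu).1, (hsm.le_iff_le hx hrbm).1 (hGsub hu).2⟩
  -- step 1: the nonfloor part of the band lies in the group
  have iTH : IntegrableOn X.TH (bosGrp Z al (Icc (al a) (al b)) 0) := cm_g_intOn hX.TH_meas hX.TH_nn hX.TH_le hG01
  have hcov := bos_cover_units hG hA.1 hB.2 (0 : ℝ)
  have hemp : (⋃ i ∈ {i | (Z.capM al i ∩ Icc (al a) (al b)).Nonempty ∧ al (Z.cL i) < 0}, Z.capM al i) = ∅ := by
    ext u
    simp only [mem_iUnion, mem_empty_iff_false, iff_false, not_exists]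
    rintro i ⟨_, hneg⟩ _
    exact absurd (bos_al_mem hG (bos_cL_mem hG i)).1 (not_le.2 hneg)
  rw [hemp, union_empty] at hcov
  have hae : (Icc (al a) (al b) \ al '' Z.Fl : Set ℝ) ≤ᵐ[volume] bosGrp Z al (Icc (al a) (al b)) 0 := by
    rw [ae_le_set, diff_diff]
    exact hcov
  have s1 : ∫ u in Icc (al a) (al b) \ al '' Z.Fl, X.TH u ≤ ∫ u in bosGrp Z al (Icc (al a) (al b)) 0, X.TH u := by
    refine setIntegral_mono_set iTH ?_ hae
    filter_upwards [ae_restrict_mem hGr.meas] with u hu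
    exact hX.TH_nn u (hG01 hu)
  -- step 2: the trace of the group
  have hctm : MeasurableSet (al '' Z.Ct) := bos_al_meas hG (hG.ct_sub.trans Ioc_subset_Icc_self) hG.ct_meas
  have s2 := bos_group_trace hG hGr (τ := 3 * Lp / (cn * eg)) (F := X.TH) hX.TH_meas hX.TH_nn ⟨1, hX.TH_le⟩
    (fun i hi hsub => bos_ut_unit hX hG hi heg0 fun x hx => by
      have hx1 : x ∈ Icc (0 : ℝ) 1 := ⟨(hG.cap_lo i).trans hx.1.le, hx.2.le.trans (hG.cap_hi i)⟩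
      refine heg x (hrad x hx1 (hsub ?_))
      rw [bos_capM_image hG i]
      exact ⟨x, hx, rfl⟩)
    (by
      have h1 := ae_restrict_of_ae_restrict_of_subset
        (inter_subset_right : bosGrp Z al (Icc (al a) (al b)) 0 ∩ al '' Z.Ct ⊆ al '' Z.Ct) (bos_ut_ct_mass hX hG)
      filter_upwards [h1, ae_restrict_mem (hGr.meas.inter hctm)] with u hu hmem
      have hu1 := hG01 hmem.1
      have hru := hG.r_mem u hu1
      have hal : al (r u) ∈ bosGrp Z al (Icc (al a) (al b)) 0 := by rw [hG.al_r u hu1]; exact hmem.1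
      have he := heg (r u) (hrad (r u) hru hal)
      have hT := hX.TH_nn u hu1
      rw [le_div_iff₀ (mul_pos hcn heg0)]
      rw [le_div_iff₀ hcn] at hu
      nlinarith)
    (fun _ => 1) measurable_const (fun _ => zero_le_one) ⟨1, fun _ => le_rfl⟩
  simp only [one_mul] at s2
  -- step 3: the mass of the group
  have s3 : ∫ _j in bosGrp Z al (Icc (al a) (al b)) 0, (1 : ℝ) ≤ al rb - al ra := by
    have h1 : ∫ _j in bosGrp Z al (Icc (al a) (al b)) 0, (1 : ℝ) ≤ ∫ _j in Icc (al ra) (al rb), (1 : ℝ) :=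
      setIntegral_mono_set (integrableOn_const (by simp)) (Eventually.of_forall fun _ => zero_le_one)
        (Eventually.of_forall hGsub)
    refine h1.trans (le_of_eq ?_)
    have hle : al ra ≤ al rb := hmo hram hrbm ((hraa.trans hab).trans hbrb)
    rw [integral_Icc_eq_integral_Ioc, ← intervalIntegral.integral_of_le hle]
    simp
  exact s1.trans (s2.trans (mul_le_mul_of_nonneg_left s3 hτ))

/-- LEAF: **a cap meeting the inner part of a buffer is short** (LL l.1567 "total mass … remain `O(d0)`").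
PLAN: `x` in the cap and in `[a,b]`; `s = max cL lo`, `t = min cR hi`; `cap_eq`: `al t - al s = M (t-s) ≤ Cβ (t-s) + 2d`, so `t - s ≤ 4d/M`; `hi < cR` would give `hi - b ≤ 4d/M`; same on the left. -/
theorem bos_bx_cap (hG : BosGeo al r kb ef M cn Lp X Z) {lo hi d Cβ a b : ℝ} (hlo : 0 ≤ lo) (hhi : hi ≤ 1) (hd : 0 ≤ d)
    (hosc : ∀ s t : ℝ, lo ≤ s → s ≤ t → t ≤ hi → al t - al s ≤ Cβ * (t - s) + 2 * d) (hM : 2 * Cβ ≤ M)
    (hla : lo + 4 * d / M < a) (hab : a ≤ b) (hbh : b + 4 * d / M < hi) {i : ℕ} (hne : (Ioo (Z.cL i) (Z.cR i) ∩ Icc a b).Nonempty) :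
    a - 4 * d / M ≤ Z.cL i ∧ Z.cR i ≤ b + 4 * d / M := by
  obtain ⟨x, hx1, hx2⟩ := hne
  have hM0 : 0 < M := lt_trans one_pos hG.M1
  have hq : 0 ≤ 4 * d / M := by positivity
  have hlox : lo < x := by linarith [hx2.1]
  have hxhi : x < hi := by linarith [hx2.2]
  have hsx : max (Z.cL i) lo ≤ x := max_le hx1.1.le hlox.le
  have hxt : x ≤ min (Z.cR i) hi := le_min hx1.2.le hxhi.le
  have e1 := hG.cap_eq i _ _ (le_max_left (Z.cL i) lo) (hsx.trans hxt) (min_le_left (Z.cR i) hi)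
  have e2 := hosc _ _ (le_max_right (Z.cL i) lo) (hsx.trans hxt) (min_le_right (Z.cR i) hi)
  have hts : 0 ≤ min (Z.cR i) hi - max (Z.cL i) lo := by linarith
  have key : min (Z.cR i) hi - max (Z.cL i) lo ≤ 4 * d / M := by
    rw [le_div_iff₀ hM0]
    have := mul_le_mul_of_nonneg_right hM hts
    nlinarith
  have hR : Z.cR i ≤ hi := by
    by_contra hcon
    rw [not_le] at hcon
    rw [min_eq_right hcon.le] at key
    linarith [hx2.2]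
  have hL : lo ≤ Z.cL i := by
    by_contra hcon
    rw [not_le] at hcon
    rw [max_eq_right hcon.le] at key
    linarith [hx2.1]
  rw [min_eq_left hR, max_eq_left hL] at key
  exact ⟨by linarith [hx1.2, hx2.1], by linarith [hx1.1, hx2.2]⟩

variable {a b ra rb κ v0 e0 sg R Δ kM : ℝ}

/-- LEAF: the nonfloor mass of a box.
PLAN: `bos_bx_set` with `E = (al '' Z.Fl)ᶜ` (`bos_al_meas`), `v1 = al a`, `v2 = al b`; `hR`: `u = al (r u)`, `r u ∈ [a,b]` (`bos_r_mono`, `r_al`);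
`TW u ≤ TH u/v0`, `TC u ≤ TH u/v0²` on `u ≥ v0` (`tw_th`, `tc_th`), `setIntegral_mono_on` (bounded measurable on a subset of `[0,1]`), `bos_bx_tr`, `mass`. -/
theorem bos_bx_nf (H : BosBx al r kb ef M cn Lp X Z a b ra rb κ v0 e0 sg R Δ kM) {h : ℝ} (hh : 0 < h) :
    ∫ u in Icc (al a) (al b) \ al '' Z.Fl, X.D u ^ 2 ≤ bosBxN h R sg (3 * Lp / (cn * e0) * Δ) v0 := by
  have hG := H.geo
  have hX := H.num
  have ha0 : 0 ≤ a := H.ra0.trans H.raa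
  have hb1 : b ≤ 1 := H.brb.trans H.rb1
  have ham : a ∈ Icc (0 : ℝ) 1 := ⟨ha0, H.ab.trans hb1⟩
  have hbm : b ∈ Icc (0 : ℝ) 1 := ⟨ha0.trans H.ab, hb1⟩
  have hmono := (bos_al_strictMono hG).monotoneOn ham hbm H.ab
  have hA := bos_al_mem hG ham
  have hB := bos_al_mem hG hbm
  have hm : MeasurableSet (al '' Z.Fl) := bos_al_meas hG hG.fl_sub hG.fl_meas
  have hsub : Icc (al a) (al b) ⊆ Icc (0 : ℝ) 1 := Icc_subset_Icc hA.1 hB.2
  have hRm : ∀ u ∈ Icc (al a) (al b), X.D u ≤ R := by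
    intro u hu
    have hu1 := hsub hu
    have h1 : a ≤ r u := by
      have := (bos_r_mono hG).monotoneOn hA hu1 hu.1
      rwa [hG.r_al a ham] at this
    have h2 : r u ≤ b := by
      have := (bos_r_mono hG).monotoneOn hu1 hB hu.2
      rwa [hG.r_al b hbm] at this
    have := H.pt (r u) ⟨h1, h2⟩
    rwa [hG.al_r u hu1] at this
  have key := bos_bx_set hX hm.compl hA.1 hmono hB.2 H.osc hRm hh
  rw [← diff_eq] at key
  have hSsub : Icc (al a) (al b) \ al '' Z.Fl ⊆ Icc (0 : ℝ) 1 := diff_subset.trans hsub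
  have hSm : MeasurableSet (Icc (al a) (al b) \ al '' Z.Fl) := measurableSet_Icc.diff hm
  have hTH := bos_bx_tr hX hG H.ra0 H.raa H.ab H.brb H.rb1 H.cap H.e00 H.e0e
  have hτ : 0 ≤ 3 * Lp / (cn * e0) := by
    have := hG.cn0; have := hG.Lp1; have := H.e00
    positivity
  have hTH' : ∫ u in Icc (al a) (al b) \ al '' Z.Fl, X.TH u ≤ 3 * Lp / (cn * e0) * Δ :=
    hTH.trans (mul_le_mul_of_nonneg_left H.mass hτ)
  have iTH : IntegrableOn X.TH (Icc (al a) (al b) \ al '' Z.Fl) := cm_g_intOn hX.TH_meas hX.TH_nn hX.TH_le hSsub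
  have iTW : IntegrableOn X.TW (Icc (al a) (al b) \ al '' Z.Fl) := cm_g_intOn hX.TW_meas hX.TW_nn hX.TW_le hSsub
  have iTC : IntegrableOn X.TC (Icc (al a) (al b) \ al '' Z.Fl) := cm_g_intOn hX.TC_meas hX.TC_nn hX.TC_le hSsub
  have hv0 := H.v00
  have hTW : ∫ u in Icc (al a) (al b) \ al '' Z.Fl, X.TW u ≤ 3 * Lp / (cn * e0) * Δ / v0 := by
    have h1 : ∫ u in Icc (al a) (al b) \ al '' Z.Fl, X.TW u ≤ ∫ u in Icc (al a) (al b) \ al '' Z.Fl, X.TH u / v0 := by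
      refine setIntegral_mono_on iTW (iTH.div_const _) hSm fun u hu => ?_
      have hu1 := hSsub hu
      have huv : v0 ≤ u := H.v0a.trans hu.1.1
      rw [le_div_iff₀ hv0]
      have h1 := hX.tw_th u hu1
      have h2 := hX.TW_nn u hu1
      nlinarith
    rw [integral_div] at h1
    exact h1.trans (div_le_div_of_nonneg_right hTH' hv0.le)
  have hTC : ∫ u in Icc (al a) (al b) \ al '' Z.Fl, X.TC u ≤ 3 * Lp / (cn * e0) * Δ / v0 ^ 2 := by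
    have h1 : ∫ u in Icc (al a) (al b) \ al '' Z.Fl, X.TC u ≤ ∫ u in Icc (al a) (al b) \ al '' Z.Fl, X.TH u / v0 ^ 2 := by
      refine setIntegral_mono_on iTC (iTH.div_const _) hSm fun u hu => ?_
      have hu1 := hSsub hu
      have huv : v0 ≤ u := H.v0a.trans hu.1.1
      rw [le_div_iff₀ (pow_pos hv0 2)]
      have h1 := hX.tc_th u hu1
      have h2 := hX.TC_nn u hu1
      have h3 : v0 ^ 2 ≤ u ^ 2 := pow_le_pow_left₀ hv0.le huv 2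
      nlinarith
    rw [integral_div] at h1
    exact h1.trans (div_le_div_of_nonneg_right hTH' (pow_pos hv0 2).le)
  unfold bosBxN
  have q1 := div_le_div_of_nonneg_right (mul_le_mul_of_nonneg_left hTW (by norm_num : (0 : ℝ) ≤ 64)) hh.le
  have q2 := mul_le_mul_of_nonneg_left hTC (by norm_num : (0 : ℝ) ≤ 221186)
  linarith

/-- LEAF: the floor mass of a box: density `≤ kM` against the radius integral.      PLAN: `bos_band_fl` at `v1 = al a`, `v2 = al b` (`r_al`), then `kb ≤ kM` under the integral (`intervalIntegral.integral_mono_on`). -/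
theorem bos_bx_fl (H : BosBx al r kb ef M cn Lp X Z a b ra rb κ v0 e0 sg R Δ kM) :
    ∫ u in al '' Z.Fl ∩ Icc (al a) (al b), X.D u ^ 2 ≤ kM * ∫ x in a..b, X.D (al x) ^ 2 := by
  have hG := H.geo
  have hX := H.num
  have ha0 : 0 ≤ a := H.ra0.trans H.raa
  have hb1 : b ≤ 1 := H.brb.trans H.rb1
  have ham : a ∈ Icc (0 : ℝ) 1 := ⟨ha0, H.ab.trans hb1⟩
  have hbm : b ∈ Icc (0 : ℝ) 1 := ⟨ha0.trans H.ab, hb1⟩
  have hmono := (bos_al_strictMono hG).monotoneOn ham hbm H.ab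
  have h1 := bos_band_fl hX hG (bos_al_mem hG ham).1 hmono (bos_al_mem hG hbm).2
  rw [hG.r_al a ham, hG.r_al b hbm] at h1
  refine h1.trans ?_
  rw [← intervalIntegral.integral_const_mul]
  obtain ⟨kmin, hk1, hk2⟩ := hG.kb_pos
  have hM0 : 0 < M := lt_trans one_pos hG.M1
  have hdm : Measurable fun x => X.D (al x) ^ 2 := (hX.D_meas.comp hG.al_meas).pow_const 2
  have hd1 : ∀ x ∈ Icc (0 : ℝ) 1, X.D (al x) ^ 2 ≤ 1 := fun x hx =>
    pow_le_one₀ (hX.D_nn _ (bos_al_mem hG hx)) (hX.D_le _ (bos_al_mem hG hx))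
  refine intervalIntegral.integral_mono_on H.ab ?_ ?_ fun x hx => ?_
  · exact bos_al_slope_int (hdm.mul hG.kb_meas) (B := 1 * M) (fun x hx => mul_nonneg (sq_nonneg _) (hk1.le.trans (hk2 x hx)))
      (fun x hx => mul_le_mul (hd1 x hx) (hG.kb_le x hx) (hk1.le.trans (hk2 x hx)) zero_le_one) ha0 H.ab hb1
  · exact (bos_al_slope_int hdm (B := 1) (fun x _ => sq_nonneg _) hd1 ha0 H.ab hb1).const_mul _
  · rw [mul_comm]
    exact mul_le_mul_of_nonneg_right (H.kMk x hx) (sq_nonneg _)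

/-- **EXIT of the abstract layer: second moments on a box, in radius and in mass**, every window `h > 0`.      TEX[LL:bud:box-moments] -/
theorem bos_bx_main (H : BosBx al r kb ef M cn Lp X Z a b ra rb κ v0 e0 sg R Δ kM) {h : ℝ} (hh : 0 < h) :
    ∫ x in a..b, X.D (al x) ^ 2 ≤ bosSwR h R sg cn e0 v0 κ ∧
      ∫ u in Icc (al a) (al b), X.D u ^ 2 ≤ bosBxN h R sg (3 * Lp / (cn * e0) * Δ) v0 + kM * bosSwR h R sg cn e0 v0 κ := by
  have hG := H.geo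
  have ha0 : 0 ≤ a := H.ra0.trans H.raa
  have hb1 : b ≤ 1 := H.brb.trans H.rb1
  have hrad : ∫ x in a..b, X.D (al x) ^ 2 ≤ bosSwR h R sg cn e0 v0 κ :=
    bos_sw H.num hG ha0 H.ab hb1 H.κ0 H.flo H.v00 H.v0a H.e00
      (fun x hx => H.e0e x ⟨H.raa.trans hx.1, hx.2.trans H.brb⟩) H.osc H.pt hh
  refine ⟨hrad, ?_⟩
  have hm : MeasurableSet (al '' Z.Fl) := bos_al_meas hG hG.fl_sub hG.fl_meas
  have hsub : Icc (al a) (al b) ⊆ Icc (0 : ℝ) 1 :=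
    Icc_subset_Icc (bos_al_mem hG ⟨ha0, H.ab.trans hb1⟩).1 (bos_al_mem hG ⟨ha0.trans H.ab, hb1⟩).2
  have hint : IntegrableOn (fun u => X.D u ^ 2) (Icc (al a) (al b)) := (bos_D2_int H.num).mono_set hsub
  have hsplit := integral_inter_add_diff (μ := volume) (f := fun u => X.D u ^ 2) (s := Icc (al a) (al b)) hm hint
  have h1 := bos_bx_nf H hh
  have h2 := bos_bx_fl H
  rw [inter_comm] at h2
  have h3 : kM * ∫ x in a..b, X.D (al x) ^ 2 ≤ kM * bosSwR h R sg cn e0 v0 κ := mul_le_mul_of_nonneg_left hrad H.kM0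
  linarith

end abs

/-! ## 2. PRODUCER: a buffered violation carries a `BosBx` on each of its boxes -/

section inst

variable {X : BdFix} {W : BdWorld} {Fam : BdFr → Prop} {K : BdCst}

/-- the first two-label numbers are `S` and `B` -/
theorem bos_bx_nuSB (hW : W.IsHub) {m : ℕ} (hm : 0 < m) {b h : ℝ → ℝ} (hb : IsClock 1 b) (hh : IsClock 1 h) {v : ℝ} (hv : v ∈ Ioo (0 : ℝ) 1) :
    W.nu m b h 2 (fun _ _ => v) (fun O => O 0 1) = (W.ps m).S b h v ∧ W.nu m b h 2 (fun _ _ => v) (fun O => O 0 1 ^ 2) = (W.ps m).B b h v := by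
  constructor
  · rw [hW.nu m b h hb hh, hW.S m hm b h hb hh v hv]
    rfl
  · rw [hW.nu m b h hb hh, hW.B m hm b h hb hh v hv]
    rfl

/-- **the second moment of the overlap around `c`**: linearity of the two-label numbers (limit of the chain integrals, `bcs_w_nu2` of 190) -/
theorem bos_bx_mQ (hW : W.IsHub) {m : ℕ} (hm : 0 < m) {b h : ℝ → ℝ} (hb : IsClock 1 b) (hh : IsClock 1 h) {v : ℝ} (hv : v ∈ Ioo (0 : ℝ) 1) (c : ℝ) :
    W.nu m b h 2 (fun _ _ => v) (fun O => |O 0 1 - c| ^ (2 : ℝ)) = (W.ps m).B b h v - 2 * c * (W.ps m).S b h v + c ^ 2 := by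
  obtain ⟨eS, eB⟩ := bos_bx_nuSB hW hm hb hh hv
  have t1 := bcs_w_nu2 hW hm hb hh hv (fun t => |t - c| ^ (2 : ℝ)) (by fun_prop)
    ⟨(1 + |c|) ^ 2, fun t ht => by
      have h1 : |t - c| ≤ 1 + |c| := (abs_sub t c).trans (by linarith [abs_le.2 ht])
      rw [Real.rpow_two, abs_of_nonneg (sq_nonneg _)]
      exact pow_le_pow_left₀ (abs_nonneg _) h1 2⟩
  have t2 := bcs_w_nu2 hW hm hb hh hv (fun t => t ^ 2) (by fun_prop)
    ⟨1, fun t ht => by rw [abs_of_nonneg (sq_nonneg _)]; exact (sq_le_one_iff_abs_le_one t).2 (abs_le.2 ht)⟩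
  have t3 := bcs_w_nu2 hW hm hb hh hv (fun t => t) measurable_id ⟨1, fun t ht => abs_le.2 ht⟩
  rw [eB] at t2
  rw [eS] at t3
  have t4 := (t2.sub (t3.const_mul (2 * c))).add_const (c ^ 2)
  refine tendsto_nhds_unique t1 (t4.congr fun F => ?_)
  have hok := bcs_w_ok hm hb hh F
  have hpr := (bcsSP m b h F).l8s_fork_prob hok (bcsIx F v)
  obtain ⟨hQm, hQb⟩ := (bcsSP m b h F).l8s_fork_Q_bd_aux hok
  have i1 : Integrable (fun q => (bcsSP m b h F).Q q ^ 2) ((bcsSP m b h F).fork (bcsIx F v)) :=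
    (bcsSP m b h F).l8s_fork_integrable_aux hok _ (hQm.pow_const 2) (c := 1) fun q => by
      rw [abs_of_nonneg (sq_nonneg _)]; exact (sq_le_one_iff_abs_le_one _).2 (hQb q)
  have i2 : Integrable (fun q => (bcsSP m b h F).Q q) ((bcsSP m b h F).fork (bcsIx F v)) :=
    (bcsSP m b h F).l8s_fork_integrable_aux hok _ hQm (c := 1) hQb
  have e : ∀ q, |(bcsSP m b h F).Q q - c| ^ (2 : ℝ) = (bcsSP m b h F).Q q ^ 2 - 2 * c * (bcsSP m b h F).Q q + c ^ 2 := fun q => by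
    rw [Real.rpow_two, sq_abs]; ring
  simp only [e]
  have i3 : Integrable (fun q => (bcsSP m b h F).Q q ^ 2 - 2 * c * (bcsSP m b h F).Q q) ((bcsSP m b h F).fork (bcsIx F v)) :=
    i1.sub (i2.const_mul _)
  rw [integral_add i3 (integrable_const _), integral_sub i1 (i2.const_mul _), integral_const_mul, integral_const]
  simp

/-- LEAF: **(C15a) at `l = 1` is the pointwise bound of `D²`.**
PLAN: `x ∈ Buf s ⊆ (0,1)` (`BudB.vst_buf_cI`, `c_I u ≤ 1`), `v = α(x) ∈ (0,1)`, `r v = x`.   `nQ W g (2·1) v (S_v) = (mQ …)^{1/2}`, `mQ W g 2 v c = ν(|O₀₁ - c|²)`; through `hW.nu`, `hW.S`, `hW.B`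
(`bmTree (fun _ _ => v) = ghR2 (ghPosA v)`, `bmTest`): `skCNu ((Ov - c)²) = skCB - 2 c skCS + c²` = linearity of `skCNu` (limit of chain integrals: `exit_clk_lim_nu`, or `ckm_nu_le` + `ckm_two` of `Cmp/P5Chain.lean` in both directions),
so `mQ = B_v - S_v² = Dq2`.      Only `Dq2 ≤ mQ` is needed.      Clocks: `hS.clk`. -/
theorem bos_bx_pt (hS : BdStd X W Fam K) (hW : W.IsSk) {n : ℕ} (hn : n ≤ X.J + 1) {s : ℝ} (hs1 : s ≤ 1) (h : BudC15a X W Fam n 2 s) :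
    BosBxPt X W Fam n s := by
  have hX := hS.fix
  obtain ⟨C, hC⟩ := Asymptotics.isBigO_iff.1 (h 1 le_rfl)
  obtain ⟨N0, h0⟩ := bd_ev_iff.1 hC
  obtain ⟨N1, h1⟩ := bos_sz_ev X hX X.cI
  refine ⟨|C| + 1, max N0 N1, by positivity, fun i hi hN x hx => ?_⟩
  have hF := BudB.vst_ok hS hi
  have hs := h1 i.F hF ((le_max_right _ _).trans hN)
  obtain ⟨hx0, hxc⟩ := BudB.vst_buf_cI hS hn hi hs1 hx
  have hx1 : x < 1 := lt_of_lt_of_le hxc hs.uK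
  obtain ⟨hρ, hal, _⟩ := bud_dens_of_bdq X hX i.F hF i.V.Q
  have hv : i.V.Q.al x ∈ Ioo (0 : ℝ) 1 := by
    rw [← hal x ⟨hx0.le, hx1.le⟩]
    exact budAl_mem (bud_gb_box hX hF) hρ ⟨hx0, hx1⟩
  obtain ⟨hcb, hch⟩ := hS.clk i.F hi.1 i.V.g (BudB.vst_g0 hS hn hi) i.V.Q
  have key := h0 (i, i.V.Q.al x) ⟨hi, ⟨hv.1.le, hv.2.le⟩, by
    show i.V.Q.r (i.V.Q.al x) ∈ i.V.Buf s
    rw [i.V.Q.r_al x ⟨hx0.le, hx1.le⟩]; exact hx⟩ ((le_max_left _ _).trans hN)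
  have hD : i.V.Q.Dq2 W i.V.g (i.V.Q.al x) = i.V.Q.mQ W i.V.g 2 (i.V.Q.al x) (i.V.Q.Sq W i.V.g (i.V.Q.al x)) := by
    unfold BdQ.mQ
    rw [bos_bx_mQ hW hs.m0 hcb hch hv]
    unfold BdQ.Dq2 BdQ.Bq BdQ.Sq
    ring
  have hD0 : 0 ≤ i.V.Q.Dq2 W i.V.g (i.V.Q.al x) := by
    rw [← bos_num_D hW hs.m0 hcb hch hv]; exact sq_nonneg _
  have key2 : Real.sqrt (i.V.Q.Dq2 W i.V.g (i.V.Q.al x)) ≤ C * |i.V.d0| := by
    have e : i.V.Q.nQ W i.V.g (2 * ((1 : ℕ) : ℝ)) (i.V.Q.al x) (i.V.Q.Sq W i.V.g (i.V.Q.al x))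
        = Real.sqrt (i.V.Q.Dq2 W i.V.g (i.V.Q.al x)) := by
      unfold BdQ.nQ
      rw [Nat.cast_one, mul_one, ← hD, Real.sqrt_eq_rpow]
    have k2 : ‖i.V.Q.nQ W i.V.g (2 * ((1 : ℕ) : ℝ)) (i.V.Q.al x) (i.V.Q.Sq W i.V.g (i.V.Q.al x))‖ ≤ C * ‖i.V.d0‖ := key
    rw [e, Real.norm_eq_abs, Real.norm_eq_abs, abs_of_nonneg (Real.sqrt_nonneg _)] at k2
    exact k2
  have hC1 : C * |i.V.d0| ≤ (|C| + 1) * |i.V.d0| := mul_le_mul_of_nonneg_right (by linarith [le_abs_self C]) (abs_nonneg _)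
  calc i.V.Q.Dq2 W i.V.g (i.V.Q.al x) = Real.sqrt (i.V.Q.Dq2 W i.V.g (i.V.Q.al x)) ^ 2 := (Real.sq_sqrt hD0).symm
    _ ≤ ((|C| + 1) * |i.V.d0|) ^ 2 := pow_le_pow_left₀ (Real.sqrt_nonneg _) (key2.trans hC1) 2
    _ = ((|C| + 1) * i.V.d0) ^ 2 := by rw [mul_pow, mul_pow, sq_abs]

/-- with the majorant `Z ≥ 1`: `a_j ≤ L` -/
theorem bos_bx_L_ge (hS : BdStd X W Fam K) {n : ℕ} (hZ : BudZ X W Fam n) :
    ∃ N0 : ℕ, ∀ i : BdVI X W, BudB.VSt X W Fam n i → N0 ≤ i.F.N → i.F.aj X ≤ i.V.L := by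
  obtain ⟨_, N1, hZ⟩ := hZ
  refine ⟨N1, fun i h hN => ?_⟩
  have hF := BudB.vst_ok hS h
  have hz := (hZ i.F (BudB.vst_at h) hN).1 i.V.g (BudB.vst_g h)
  have ha : 0 < i.F.aj X := BdFr.bds_astage_pos hF hS.fix _
  calc i.F.aj X = i.F.aj X * 1 := (mul_one _).symm
    _ ≤ i.F.aj X * i.F.Zj X W i.V.g := mul_le_mul_of_nonneg_left hz ha.le
    _ ≤ i.V.L := (BudB.vst_V h).big

/-- **the geometry of a buffered violation**: ONE normalisation `c0` for which the datum of N4 is a `BosGeo` (numbers of the changed path) AND a `BudBuf` (N11) -/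
theorem bos_bx_geo (hS : BdStd X W Fam K) (hW : W.IsSk) {n : ℕ} (hn : n ≤ X.J + 1) :
    ∃ N0 : ℕ, ∀ i : BdVI X W, BudB.VSt X W Fam n i → N0 ≤ i.F.N → ∃ (c0 : ℝ) (Z : CmCaps),
      i.F.Base X W i.V.g ∧
      BosGeo (bosAlG ((i.bx c0).geo W)) (bosRG ((i.bx c0).geo W)) (budKb i.F X) (i.F.C X) i.F.Mj ((i.F.m : ℝ) / i.F.bosLp X) (i.F.bosLp X)
        (i.V.Q.bosNum i.V.g) Z ∧
      BudBuf ((i.bx c0).geo W) i.F.beta0 (i.V.r0 - i.V.bbuf) (i.V.r0 + i.V.bbuf) (2 * i.V.d0) K.cb K.Cb ((X.phi n + X.cI) / 2 * i.F.u) i.F.C0 ∧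
      0 < i.V.r0 - i.V.bbuf ∧ i.V.r0 + i.V.bbuf < 1 := by
  have hX := hS.fix
  obtain ⟨N1, h1⟩ := bud_n4_geo X hX
  obtain ⟨N2, h2⟩ := bdg_budbuf hS hn
  refine ⟨max N1 N2, fun i hi hN => ?_⟩
  have hF := BudB.vst_ok hS hi
  have hg0 := BudB.vst_g0 hS hn hi
  have hbase : i.F.Base X W i.V.g := bdg_base hS hi.1 i.V.Q hg0
  obtain ⟨c1, _, hpot⟩ := h1 i.F hF ((le_max_left _ _).trans hN) W i.V.g hbase i.V.Q (BudB.vst_V hi).opt
  obtain ⟨_, hbuf, _, hlo, hhi⟩ := h2 i hi ((le_max_right _ _).trans hN) _ hpot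
  obtain ⟨hcb, hch⟩ := hS.clk i.F hi.1 i.V.g hg0 i.V.Q
  obtain ⟨Z, hZ, _⟩ := bos_geo_inst0 (I := i.bx (-(budGeoQ i.V.Q W i.V.g c1).H 0)) hX hW hF hbase hcb hch hbuf.ok
  exact ⟨_, Z, hbase, hZ, hbuf, hlo, hhi⟩

/-- the uniform smallness used by the producer -/
structure BosBxRoom (i : BdVI X W) (K : BdCst) (n : ℕ) (s : ℝ) : Prop where
  m0 : 0 < i.F.m
  u0 : 0 < i.F.u
  L0 : 0 < i.V.L
  /-- room between `Buf s` and the buffer -/
  room : 10 * (1 / K.cb + 1) * i.V.d0 ≤ (1 - s) * i.V.bbuf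
  /-- `1/M_j ≤ d0` -/
  Md : 1 / i.F.Mj ≤ i.V.d0
  M1 : 1 < i.F.Mj
  MC : 2 * K.Cb ≤ i.F.Mj
  /-- `2 d0 ≤ (cb plo/2) u` -/
  Lv : 2 * i.V.d0 ≤ K.cb * X.plo n / 2 * i.F.u
  kb1 : ∀ r : ℝ, 0 ≤ r → i.F.kbar X r ≤ 1
  kap0 : 0 < i.F.kap

/-- LEAF (numerics): PLAN `L0`: `BudB.vst_L_ge`; `room`: `d0 = u √L √L`, `bbuf ≥ u √L`, `√L ≤ (1-s)/(10 (1/cb+1))` by `hL`; `Md`: `bdg_invM_le_goal` + `vst_L_ge`; `M1`, `MC`: `M_j ≥ x^{-100} → ∞` (`bdg_invM_small`/`bos_sz_ev`);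
`Lv`: `hL` at `cb plo/4` (`hS.fix.pat`); `kb1`: `bdg_kbar_small`; `kap0`: `AtStage`, `st = n ≥ 1`, `bds_kstage_pos`. -/
theorem bos_bx_room (hS : BdStd X W Fam K) {n : ℕ} (hn1 : 1 ≤ n) (hn : n ≤ X.J + 1) (hZ : BudZ X W Fam n) (hL : BudB.LSmall X W Fam n)
    {s : ℝ} (hs1 : s < 1) :
    ∃ N0 : ℕ, ∀ i : BdVI X W, BudB.VSt X W Fam n i → N0 ≤ i.F.N → BosBxRoom i K n s := by
  have hX := hS.fix
  have hcb := hS.cb_pos
  have hplo : 0 < X.plo n := (hX.pat n hn).1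
  obtain ⟨e, he⟩ : ∃ e : ℝ, e = (1 - s) / (10 * (1 / K.cb + 1)) := ⟨_, rfl⟩
  have hA : 0 < 10 * (1 / K.cb + 1) := by positivity
  have he0 : 0 < e := by rw [he]; exact div_pos (by linarith) hA
  obtain ⟨N1, h1⟩ := BudB.vst_L_ge hS hZ
  obtain ⟨N2, h2⟩ := hL (e ^ 2) (by positivity)
  obtain ⟨N3, h3⟩ := hL (K.cb * X.plo n / 4) (by positivity)
  obtain ⟨N4, h4⟩ := bos_sz_ev X hX (2 * K.Cb)
  obtain ⟨N5, h5⟩ := bdg_kbar_small hX (ε := 1) one_pos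
  refine ⟨N1 + N2 + N3 + N4 + N5, fun i hi hN => ?_⟩
  have hF := BudB.vst_ok hS hi
  have hu := BudB.vst_u_pos hS hi
  have hlam := BudB.vst_lam_pos hS hi
  obtain ⟨hgoal, hL0⟩ := h1 i hi (by omega)
  have hLe := h2 i hi (by omega)
  have hLv := h3 i hi (by omega)
  have hsz := h4 i.F hF (by omega)
  have hsq : Real.sqrt i.V.L ≤ e := by
    rw [← Real.sqrt_sq he0.le]; exact Real.sqrt_le_sqrt hLe
  have hsq0 := Real.sqrt_nonneg i.V.L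
  have hss : Real.sqrt i.V.L * Real.sqrt i.V.L = i.V.L := Real.mul_self_sqrt hL0.le
  refine ⟨hsz.m0, hu, hL0, ?_, ?_, hsz.Mj1, ?_, ?_, h5 i.F hF (by omega), ?_⟩
  · have hr : 0 ≤ i.F.lam ^ X.rho := Real.rpow_nonneg hlam.le _
    have e1 : 10 * (1 / K.cb + 1) * e = 1 - s := by rw [he]; field_simp
    have e2 : 10 * (1 / K.cb + 1) * Real.sqrt i.V.L ≤ 1 - s := by
      rw [← e1]; exact mul_le_mul_of_nonneg_left hsq hA.le
    show 10 * (1 / K.cb + 1) * (i.F.u * i.V.L) ≤ (1 - s) * (i.F.u * (Real.sqrt i.V.L + i.F.lam ^ X.rho))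
    calc 10 * (1 / K.cb + 1) * (i.F.u * i.V.L)
        = (10 * (1 / K.cb + 1) * Real.sqrt i.V.L) * (i.F.u * Real.sqrt i.V.L) := by
          have e3 : (10 * (1 / K.cb + 1) * Real.sqrt i.V.L) * (i.F.u * Real.sqrt i.V.L)
              = 10 * (1 / K.cb + 1) * (i.F.u * (Real.sqrt i.V.L * Real.sqrt i.V.L)) := by ring
          rw [e3, hss]
      _ ≤ (1 - s) * (i.F.u * Real.sqrt i.V.L) := mul_le_mul_of_nonneg_right e2 (mul_nonneg hu.le hsq0)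
      _ ≤ (1 - s) * (i.F.u * (Real.sqrt i.V.L + i.F.lam ^ X.rho)) :=
          mul_le_mul_of_nonneg_left (mul_le_mul_of_nonneg_left (by linarith) hu.le) (by linarith)
  · exact (bdg_invM_le_goal hF hX).trans (mul_le_mul_of_nonneg_left hgoal hu.le)
  · have hM0 : 0 < i.F.Mj := one_pos.trans hsz.Mj1
    have h99 : i.F.x ^ 99 ≤ 1 := pow_le_one₀ hsz.x0.le hsz.x1.le
    have := hsz.Mj.trans h99
    rwa [div_le_one hM0] at this
  · show 2 * (i.F.u * i.V.L) ≤ K.cb * X.plo n / 2 * i.F.u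
    nlinarith
  · rw [hi.2.1.1, BudB.vst_st hi]
    obtain ⟨k, rfl⟩ : ∃ k, n = k + 1 := ⟨n - 1, by omega⟩
    exact BdFr.bds_kstage_pos hF hX k

/-- LEAF: **the producer, one instance.**   All fields from the two geometry records, the room and the pointwise bound.
PLAN (`gg = (i.bx c0).geo W`, `lo,hi = r0 ∓ bbuf`, `d = 2 d0`, `ℓ = 9 d0/cb`; on `[0,1]` `bosAlG gg = gg.al = Q.al` (`bos_dict0`, `bud_n4_al`); `gg.M = M_j`, `gg.kb = budKb` by `rfl`):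
`num` `bos_num_ok`;   `ra0 … rb1` room;   `flo` `Q.lo` + `kbar ≥ kap` on the patch (`BudB.vst_buf_sub`, `AtStage`; `k ≥ 0`);   `v0a` `BudB.fam_beta`, `vst_buf_al`, `vst_buf_sub`, `Lv`;   `e0e` `hS.Cconst`;
`osc` `BudBuf.S_osc` (`bud_n4_S`, `bos_num_S`), `4/M_j ≤ 4 d0`;   `pt` `bos_num_D` + `hpt` (`D ≥ 0`);   `cap` `bos_bx_cap` with `hosc := BudBuf.al_osc`;   `mass` `BudBuf.al_osc`;   `kMk` `bud_gb_Kb_eq`, `kb1`. -/
theorem bos_bx_prod1 (hS : BdStd X W Fam K) (hW : W.IsSk) {n : ℕ} (hn : n ≤ X.J + 1) {s Cp C : ℝ} (hs0 : 0 < s) (hs1 : s < 1) (hCp : 0 < Cp)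
    {i : BdVI X W} (hi : BudB.VSt X W Fam n i) (hR : BosBxRoom i K n s) {c0 : ℝ} {Z : CmCaps} (hbase : i.F.Base X W i.V.g)
    (hG : BosGeo (bosAlG ((i.bx c0).geo W)) (bosRG ((i.bx c0).geo W)) (budKb i.F X) (i.F.C X) i.F.Mj ((i.F.m : ℝ) / i.F.bosLp X) (i.F.bosLp X)
      (i.V.Q.bosNum i.V.g) Z)
    (hB : BudBuf ((i.bx c0).geo W) i.F.beta0 (i.V.r0 - i.V.bbuf) (i.V.r0 + i.V.bbuf) (2 * i.V.d0) K.cb K.Cb ((X.phi n + X.cI) / 2 * i.F.u) i.F.C0)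
    (hlo : 0 < i.V.r0 - i.V.bbuf) (hhi : i.V.r0 + i.V.bbuf < 1)
    (hpt : ∀ x ∈ i.V.Buf s, i.V.Q.Dq2 W i.V.g (i.V.Q.al x) ≤ (Cp * i.V.d0) ^ 2)
    {a b : ℝ} (ha : a ∈ i.V.Buf s) (hb : b ∈ i.V.Buf s) (hab : a ≤ b) (hC : b - a ≤ C * i.V.d0) :
    BosBx (bosAlG ((i.bx c0).geo W)) (bosRG ((i.bx c0).geo W)) (budKb i.F X) (i.F.C X) i.F.Mj ((i.F.m : ℝ) / i.F.bosLp X) (i.F.bosLp X)
      (i.V.Q.bosNum i.V.g) Z a b (a - 8 * i.V.d0 / i.F.Mj) (b + 8 * i.V.d0 / i.F.Mj) i.F.kap (K.cb * X.plo n / 2 * i.F.u) i.F.C0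
      ((|C| + 18 / K.cb + 4) * i.V.d0) (Cp * i.V.d0) ((|K.Cb| * (|C| + 16) + 4) * i.V.d0) 1 := by
  have hX := hS.fix
  have hF := BudB.vst_ok hS hi
  have hg0 := BudB.vst_g0 hS hn hi
  obtain ⟨hcb, hch⟩ := hS.clk i.F hi.1 i.V.g hg0 i.V.Q
  have hm := hR.m0
  have hu := hR.u0
  have hcb0 := hS.cb_pos
  obtain ⟨hplo, _, _, _, hphi⟩ := hX.pat n hn
  have hd0 : 0 < i.V.d0 := mul_pos hR.u0 hR.L0
  have hM0 : 0 < i.F.Mj := one_pos.trans hR.M1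
  have hbb := BudB.vst_bbuf_nonneg hS hi
  obtain ⟨gg, hgg⟩ : ∃ gg, gg = (i.bx c0).geo W := ⟨_, rfl⟩
  have hggM : gg.M = i.F.Mj := by rw [hgg]; rfl
  have dict : ∀ x ∈ Icc (0 : ℝ) 1, bosAlG ((i.bx c0).geo W) x = i.V.Q.al x := (bos_dict0 (W := W) hX (I := i.bx c0) hF).1
  have dictg : ∀ x ∈ Icc (0 : ℝ) 1, bosAlG ((i.bx c0).geo W) x = ((i.bx c0).geo W).al x := fun x hx => bos_alG_eq _ hx
  have hsm := bos_al_strictMono hG
  have hoo : ∀ x ∈ Ioo (0 : ℝ) 1, bosAlG ((i.bx c0).geo W) x ∈ Ioo (0 : ℝ) 1 := fun x hx => by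
    have h0 := hsm (left_mem_Icc.2 zero_le_one) (Ioo_subset_Icc_self hx) hx.1
    have h1 := hsm (Ioo_subset_Icc_self hx) (right_mem_Icc.2 zero_le_one) hx.2
    rw [hG.al_zero] at h0
    rw [hG.al_one] at h1
    exact ⟨h0, h1⟩
  -- the quantities
  obtain ⟨q, hq⟩ : ∃ q, q = 8 * i.V.d0 / i.F.Mj := ⟨_, rfl⟩
  have hq0 : 0 ≤ q := by rw [hq]; positivity
  have hq8 : q ≤ 8 * i.V.d0 := by
    rw [hq, div_le_iff₀ hM0]
    nlinarith [hR.M1]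
  have hinv : 0 < 1 / K.cb := by positivity
  have hroom : 10 * i.V.d0 / K.cb + 10 * i.V.d0 ≤ (1 - s) * i.V.bbuf := by
    have e : 10 * (1 / K.cb + 1) * i.V.d0 = 10 * i.V.d0 / K.cb + 10 * i.V.d0 := by ring
    rw [← e]; exact hR.room
  have hdc : 0 < i.V.d0 / K.cb := div_pos hd0 hcb0
  have hdc10 : 10 * i.V.d0 / K.cb = 10 * (i.V.d0 / K.cb) := by ring
  have ha1 : i.V.r0 - i.V.bbuf + (1 - s) * i.V.bbuf ≤ a := by have := ha.1; linarith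
  have hb1 : b ≤ i.V.r0 + i.V.bbuf - (1 - s) * i.V.bbuf := by have := hb.2; linarith
  have hra0 : 0 ≤ a - q := by linarith
  have hrb1 : b + q ≤ 1 := by linarith
  have ha' : a ∈ Ioo (0 : ℝ) 1 := ⟨by linarith, by linarith⟩
  have hb' : b ∈ Ioo (0 : ℝ) 1 := ⟨by linarith, by linarith⟩
  have hsubBuf : Icc a b ⊆ i.V.Buf s := fun x hx => ⟨ha.1.trans hx.1, hx.2.trans hb.2⟩
  have hpatch := BudB.vst_buf_sub hS hi hs1.le
  have hosc : ∀ s' t' : ℝ, i.V.r0 - i.V.bbuf ≤ s' → s' ≤ t' → t' ≤ i.V.r0 + i.V.bbuf →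
      bosAlG ((i.bx c0).geo W) t' - bosAlG ((i.bx c0).geo W) s' ≤ K.Cb * (t' - s') + 2 * (2 * i.V.d0) := fun s' t' h1 h2 h3 => by
    rw [dictg s' ⟨by linarith, by linarith⟩, dictg t' ⟨by linarith, by linarith⟩]
    exact (hB.al_osc ⟨h1, h2.trans h3⟩ ⟨h1.trans h2, h3⟩ h2).2
  have hq4 : 4 * (2 * i.V.d0) / i.F.Mj = q := by rw [hq]; ring
  rw [← hq]
  refine ⟨bos_num_ok hm hcb hch, hG, hra0, by linarith, hab, by linarith, hrb1, hR.kap0, ?_, by positivity, ?_,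
    bud_gb_C0_pos hX hF, ?_, ?_, ?_, ?_, ?_, zero_le_one, ?_⟩
  · -- flo
    intro s' t' h1 h2 h3
    have hs0' : 0 ≤ s' := ha'.1.le.trans h1
    have ht1' : t' ≤ 1 := h3.trans hb'.2.le
    obtain ⟨kmin, hk0, hk⟩ := hG.kb_pos
    have hle := intervalIntegral.integral_mono_on (μ := volume) h2 (intervalIntegrable_const (c := i.F.kap))
      (bos_al_slope_int hG.kb_meas (B := i.F.Mj) (fun x hx => hk0.le.trans (hk x hx)) hG.kb_le hs0' h2 ht1')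
      (fun x hx => by
        have hx01 : x ∈ Icc (0 : ℝ) 1 := ⟨hs0'.trans hx.1, hx.2.trans ht1'⟩
        have hxp := hpatch (hsubBuf ⟨h1.trans hx.1, hx.2.trans h3⟩)
        rw [bud_gb_Kb_eq i.F X hx01]
        unfold BdFr.kbar
        rw [if_pos (by rw [hi.2.1.2.1, hi.2.1.2.2, BudB.vst_st hi]; exact hxp)]
        have := (bud_gb_k_pos (P := i.F.call X) (bud_gb_N_pos hF) (bud_gb_us_pos hX hF) hx01.1).le
        have e : i.F.k X x = (i.F.call X).k x := rfl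
        rw [e]; linarith)
    rw [intervalIntegral.integral_const, smul_eq_mul, mul_comm] at hle
    exact hle.trans (hG.lo s' t' hs0' h2 ht1')
  · -- v0a
    rw [dict a (Ioo_subset_Icc_self ha')]
    have h1 := abs_le.1 (BudB.vst_buf_al hS hi hs1.le ha)
    have h2 := BudB.vst_buf_cI hS hn hi hs1.le ha
    have h3 := (BudB.fam_beta hS hi.1 h2.1.le h2.2.le).1
    have h4 := (hpatch ha).1
    have h5 : K.cb * (X.plo n * i.F.u) ≤ K.cb * a := mul_le_mul_of_nonneg_left h4 hcb0.le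
    have h6 := hR.Lv
    nlinarith
  · -- e0e
    intro x hx
    have h1 := hB.hiR
    have h2 : (X.phi n + X.cI) / 2 * i.F.u ≤ X.cI * i.F.u := mul_le_mul_of_nonneg_right (by linarith) hu.le
    have h3 : 0 < 1 / ((i.bx c0).geo W).M := by
      have : ((i.bx c0).geo W).M = i.F.Mj := rfl
      rw [this]; positivity
    exact (hS.Cconst i.F hi.1 x ⟨hra0.trans hx.1, by linarith [hx.2]⟩).ge
  · -- osc
    have hl : 4 * (2 * i.V.d0) / K.cb < 9 * i.V.d0 / K.cb := by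
      rw [div_lt_div_iff_of_pos_right hcb0]; linarith
    have e9 : 9 * i.V.d0 / K.cb = 9 * (i.V.d0 / K.cb) := by ring
    have hmem : ∀ x ∈ Icc a b, x ∈ Icc (i.V.r0 - i.V.bbuf + 9 * i.V.d0 / K.cb) (i.V.r0 + i.V.bbuf - 9 * i.V.d0 / K.cb) := fun x hx =>
      ⟨by linarith [hx.1], by linarith [hx.2]⟩
    have h1 := hB.S_osc hl (hmem a (left_mem_Icc.2 hab)) (hmem b (right_mem_Icc.2 hab)) hab
    have eS : ∀ x ∈ Ioo (0 : ℝ) 1, (i.V.Q.bosNum i.V.g).S (bosAlG ((i.bx c0).geo W) x) = ((i.bx c0).geo W).S x := fun x hx => by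
      rw [bos_num_S hW hm hcb hch (hoo x hx), dict x (Ioo_subset_Icc_self hx)]
      exact (bud_n4_S X hX i.F hF i.V.Q W i.V.g c0 hbase hx).symm
    rw [eS a ha', eS b hb']
    have eM : ((i.bx c0).geo W).M = i.F.Mj := rfl
    rw [eM] at h1
    have h4 : 4 / i.F.Mj ≤ 4 * i.V.d0 := by
      have := hR.Md
      have e : 4 / i.F.Mj = 4 * (1 / i.F.Mj) := by ring
      rw [e]; linarith
    have h5 : C * i.V.d0 ≤ |C| * i.V.d0 := mul_le_mul_of_nonneg_right (le_abs_self C) hd0.le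
    have e18 : (|C| + 18 / K.cb + 4) * i.V.d0 = |C| * i.V.d0 + 2 * (9 * i.V.d0 / K.cb) + 4 * i.V.d0 := by ring
    rw [e18]; linarith
  · -- pt
    intro x hx
    have hx' : x ∈ Ioo (0 : ℝ) 1 := ⟨ha'.1.trans_le hx.1, hx.2.trans_lt hb'.2⟩
    have h1 := hpt x (hsubBuf hx)
    rw [← dict x (Ioo_subset_Icc_self hx'), ← bos_num_D hW hm hcb hch (hoo x hx')] at h1
    exact le_of_abs_le (abs_le_of_sq_le_sq h1 (by positivity)) |>.trans le_rfl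
  · -- cap
    intro j _ hne
    have := bos_bx_cap hG (lo := i.V.r0 - i.V.bbuf) (hi := i.V.r0 + i.V.bbuf) (d := 2 * i.V.d0) (Cβ := K.Cb) (a := a) (b := b)
      hlo.le hhi.le (by positivity) hosc hR.MC (by rw [hq4]; linarith) hab (by rw [hq4]; linarith) hne
    rwa [hq4] at this
  · -- mass
    have h1 := hosc (a - q) (b + q) (by linarith) (by linarith) (by linarith)
    have h2 : K.Cb * (b + q - (a - q)) ≤ |K.Cb| * ((|C| + 16) * i.V.d0) := by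
      have h3 : b + q - (a - q) ≤ (|C| + 16) * i.V.d0 := by
        have h5 : C * i.V.d0 ≤ |C| * i.V.d0 := mul_le_mul_of_nonneg_right (le_abs_self C) hd0.le
        nlinarith
      have h4 : 0 ≤ b + q - (a - q) := by linarith
      calc K.Cb * (b + q - (a - q)) ≤ |K.Cb| * (b + q - (a - q)) := mul_le_mul_of_nonneg_right (le_abs_self _) h4
        _ ≤ _ := mul_le_mul_of_nonneg_left h3 (abs_nonneg _)
    have e : (|K.Cb| * (|C| + 16) + 4) * i.V.d0 = |K.Cb| * ((|C| + 16) * i.V.d0) + 2 * (2 * i.V.d0) := by ring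
    rw [e]; linarith
  · -- kMk
    intro x hx
    have hx01 : x ∈ Icc (0 : ℝ) 1 := ⟨ha'.1.le.trans hx.1, hx.2.trans hb'.2.le⟩
    rw [bud_gb_Kb_eq i.F X hx01]
    exact hR.kb1 x hx01.1

/-- LEAF: the two integrals of (C15b) are the integrals of the numbers.
PLAN: `[a,b] ⊆ (0,1)`, `Q.al` maps it into `(0,1)` (`bos_al_strictMono`, `al_zero`, `al_one`, `bos_dict0`); `bos_num_D`; `intervalIntegral.integral_congr`; `integral_of_le`, `integral_Icc_eq_integral_Ioc`, `setIntegral_congr_fun`. -/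
theorem bos_bx_conv (hS : BdStd X W Fam K) (hW : W.IsSk) {n : ℕ} (hn : n ≤ X.J + 1) {i : BdVI X W} (hi : BudB.VSt X W Fam n i) (hm : 0 < i.F.m)
    {c0 : ℝ} {Z : CmCaps}
    (hG : BosGeo (bosAlG ((i.bx c0).geo W)) (bosRG ((i.bx c0).geo W)) (budKb i.F X) (i.F.C X) i.F.Mj ((i.F.m : ℝ) / i.F.bosLp X) (i.F.bosLp X)
      (i.V.Q.bosNum i.V.g) Z) {a b : ℝ} (ha : 0 < a) (hab : a ≤ b) (hb : b < 1) :
    ∫ x in a..b, i.V.Q.Dq2 W i.V.g (i.V.Q.al x) = ∫ x in a..b, (i.V.Q.bosNum i.V.g).D (bosAlG ((i.bx c0).geo W) x) ^ 2 ∧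
      ∫ v in (i.V.Q.al a)..(i.V.Q.al b), i.V.Q.Dq2 W i.V.g v
        = ∫ u in Icc (bosAlG ((i.bx c0).geo W) a) (bosAlG ((i.bx c0).geo W) b), (i.V.Q.bosNum i.V.g).D u ^ 2 := by
  have hX := hS.fix
  have hF := BudB.vst_ok hS hi
  have hg0 := BudB.vst_g0 hS hn hi
  obtain ⟨hcb, hch⟩ := hS.clk i.F hi.1 i.V.g hg0 i.V.Q
  have dict : ∀ x ∈ Icc (0 : ℝ) 1, bosAlG ((i.bx c0).geo W) x = i.V.Q.al x := (bos_dict0 (W := W) hX (I := i.bx c0) hF).1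
  have hsm := bos_al_strictMono hG
  have hoo : ∀ x ∈ Ioo (0 : ℝ) 1, bosAlG ((i.bx c0).geo W) x ∈ Ioo (0 : ℝ) 1 := fun x hx => by
    have h0 := hsm (left_mem_Icc.2 zero_le_one) (Ioo_subset_Icc_self hx) hx.1
    have h1 := hsm (Ioo_subset_Icc_self hx) (right_mem_Icc.2 zero_le_one) hx.2
    rw [hG.al_zero] at h0
    rw [hG.al_one] at h1
    exact ⟨h0, h1⟩
  have ha' : a ∈ Ioo (0 : ℝ) 1 := ⟨ha, hab.trans_lt hb⟩
  have hb' : b ∈ Ioo (0 : ℝ) 1 := ⟨ha.trans_le hab, hb⟩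
  constructor
  · refine intervalIntegral.integral_congr fun x hx => ?_
    rw [uIcc_of_le hab] at hx
    have hx' : x ∈ Ioo (0 : ℝ) 1 := ⟨ha.trans_le hx.1, hx.2.trans_lt hb⟩
    show i.V.Q.Dq2 W i.V.g (i.V.Q.al x) = (i.V.Q.bosNum i.V.g).D (bosAlG ((i.bx c0).geo W) x) ^ 2
    rw [bos_num_D hW hm hcb hch (hoo x hx'), dict x (Ioo_subset_Icc_self hx')]
  · rw [← dict a (Ioo_subset_Icc_self ha'), ← dict b (Ioo_subset_Icc_self hb')]
    have hle : bosAlG ((i.bx c0).geo W) a ≤ bosAlG ((i.bx c0).geo W) b :=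
      hsm.monotoneOn (Ioo_subset_Icc_self ha') (Ioo_subset_Icc_self hb') hab
    rw [intervalIntegral.integral_of_le hle, ← integral_Icc_eq_integral_Ioc]
    refine setIntegral_congr_fun measurableSet_Icc fun u hu => ?_
    have hu' : u ∈ Ioo (0 : ℝ) 1 := ⟨(hoo a ha').1.trans_le hu.1, hu.2.trans_lt (hoo b hb').2⟩
    exact (bos_num_D hW hm hcb hch hu').symm

/-- **second moments on the boxes of a buffered violation, explicit right sides**, every window `h > 0` -/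
theorem bos_bx_inst (hS : BdStd X W Fam K) (hW : W.IsSk) {n : ℕ} (hn1 : 1 ≤ n) (hn : n ≤ X.J + 1) (hZ : BudZ X W Fam n)
    (hL : BudB.LSmall X W Fam n) {s : ℝ} (hs0 : 0 < s) (hs1 : s < 1) {Cp : ℝ} {N1 : ℕ} (hCp : 0 < Cp)
    (hpt : ∀ i : BdVI X W, BudB.VSt X W Fam n i → N1 ≤ i.F.N → ∀ x ∈ i.V.Buf s, i.V.Q.Dq2 W i.V.g (i.V.Q.al x) ≤ (Cp * i.V.d0) ^ 2) (C : ℝ) :
    ∃ N0 : ℕ, ∀ i : BdVI X W, BudB.VSt X W Fam n i → N0 ≤ i.F.N → 0 < i.V.d0 ∧ ∀ a ∈ i.V.Buf s, ∀ b ∈ i.V.Buf s, a ≤ b → b - a ≤ C * i.V.d0 →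
      0 ≤ ∫ x in a..b, i.V.Q.Dq2 W i.V.g (i.V.Q.al x) ∧ 0 ≤ ∫ v in (i.V.Q.al a)..(i.V.Q.al b), i.V.Q.Dq2 W i.V.g v ∧ ∀ h : ℝ, 0 < h →
      ∫ x in a..b, i.V.Q.Dq2 W i.V.g (i.V.Q.al x)
          ≤ bosSwR h (Cp * i.V.d0) ((|C| + 18 / K.cb + 4) * i.V.d0) ((i.F.m : ℝ) / i.F.bosLp X) i.F.C0 (K.cb * X.plo n / 2 * i.F.u) i.F.kap ∧
        ∫ v in (i.V.Q.al a)..(i.V.Q.al b), i.V.Q.Dq2 W i.V.g v
          ≤ bosBxN h (Cp * i.V.d0) ((|C| + 18 / K.cb + 4) * i.V.d0)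
              (3 * i.F.bosLp X / ((i.F.m : ℝ) / i.F.bosLp X * i.F.C0) * ((|K.Cb| * (|C| + 16) + 4) * i.V.d0)) (K.cb * X.plo n / 2 * i.F.u)
            + 1 * bosSwR h (Cp * i.V.d0) ((|C| + 18 / K.cb + 4) * i.V.d0) ((i.F.m : ℝ) / i.F.bosLp X) i.F.C0 (K.cb * X.plo n / 2 * i.F.u) i.F.kap := by
  obtain ⟨N2, h2⟩ := bos_bx_geo hS hW hn
  obtain ⟨N3, h3⟩ := bos_bx_room hS hn1 hn hZ hL hs1
  refine ⟨max N1 (max N2 N3), fun i hi hN => ?_⟩
  have hN1 : N1 ≤ i.F.N := (le_max_left _ _).trans hN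
  have hN2 : N2 ≤ i.F.N := ((le_max_left _ _).trans (le_max_right _ _)).trans hN
  have hN3 : N3 ≤ i.F.N := ((le_max_right _ _).trans (le_max_right _ _)).trans hN
  obtain ⟨c0, Z, hbase, hG, hB, hlo, hhi⟩ := h2 i hi hN2
  have hR := h3 i hi hN3
  have hd0 : 0 < i.V.d0 := mul_pos hR.u0 hR.L0
  refine ⟨hd0, fun a ha b hb hab hC => ?_⟩
  have hbb := BudB.vst_bbuf_nonneg hS hi
  have hsb : s * i.V.bbuf ≤ i.V.bbuf := by nlinarith
  have ha0 : 0 < a := by linarith [ha.1]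
  have hb1 : b < 1 := by linarith [hb.2]
  obtain ⟨e1, e2⟩ := bos_bx_conv hS hW hn hi hR.m0 hG ha0 hab hb1
  have H := bos_bx_prod1 hS hW hn hs0 hs1 hCp hi hR hbase hG hB hlo hhi (hpt i hi hN1) ha hb hab hC
  rw [e1, e2]
  refine ⟨intervalIntegral.integral_nonneg hab fun x _ => sq_nonneg _, setIntegral_nonneg measurableSet_Icc fun u _ => sq_nonneg _,
    fun h hh => bos_bx_main H hh⟩

end inst

/-! ## 3. Arithmetic on a frame (no world, no optimiser) -/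

/-- real-number core of `bos_bx_ar`, radius part -/
theorem bos_bx_ar_r1 {u L t κ m Lp C0 Cp Cs cv : ℝ} (hu : 0 < u) (hL0 : 0 < L) (hL1 : L ≤ 1) (ht0 : 0 < t) (ht1 : t ≤ 1) (hκ0 : 0 < κ) (hκ1 : κ ≤ 1)
    (hm : 0 < m) (hLp : 1 ≤ Lp) (hC0 : 0 < C0) (hmx : 1 / m ≤ 2 * (C0 * u ^ 4 * (κ * t ^ 2 * L ^ 3)))
    (hCs : 0 < Cs) (hcv : 0 < cv) :
    bosSwR (t * (u * L)) (Cp * (u * L)) (Cs * (u * L)) (m / Lp) C0 (cv * u) κ
      ≤ 300000 * (Cp ^ 2 + Cs ^ 2 + 2 * Cs / cv + 2 * Cs / cv ^ 2) * (Lp ^ 2 * ((u * L) ^ 3 * t)) := by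
  have hLp0 : 0 < Lp := by linarith
  have hLL : Lp ≤ Lp ^ 2 := by nlinarith
  have hL2 : 1 ≤ Lp ^ 2 := by nlinarith
  have hG : 0 < (u * L) ^ 3 * t := by positivity
  have hκtL : κ * t * L ≤ 1 := mul_le_one₀ (mul_le_one₀ hκ1 ht0.le ht1) hL0.le hL1
  have s1 : t * (u * L) * ((Cp * (u * L)) ^ 2 + (Cs * (u * L)) ^ 2) ≤ (Cp ^ 2 + Cs ^ 2) * (Lp ^ 2 * ((u * L) ^ 3 * t)) := by
    have e : t * (u * L) * ((Cp * (u * L)) ^ 2 + (Cs * (u * L)) ^ 2) = (Cp ^ 2 + Cs ^ 2) * (1 * ((u * L) ^ 3 * t)) := by ring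
    rw [e]
    exact mul_le_mul_of_nonneg_left (mul_le_mul_of_nonneg_right hL2 hG.le) (by positivity)
  have s2 : Cs * (u * L) / (m / Lp * C0 * (cv * u) * κ * (t * (u * L))) ≤ 2 * Cs / cv * (Lp ^ 2 * ((u * L) ^ 3 * t)) := by
    have e : Cs * (u * L) / (m / Lp * C0 * (cv * u) * κ * (t * (u * L))) = Cs * Lp / (cv * C0 * u * κ * t) * (1 / m) := by field_simp
    have e' : Cs * Lp / (cv * C0 * u * κ * t) * (2 * (C0 * u ^ 4 * (κ * t ^ 2 * L ^ 3))) = 2 * Cs / cv * (Lp * ((u * L) ^ 3 * t)) := by field_simp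
    rw [e]
    refine (mul_le_mul_of_nonneg_left hmx (by positivity)).trans ?_
    rw [e']
    exact mul_le_mul_of_nonneg_left (mul_le_mul_of_nonneg_right hLL hG.le) (by positivity)
  have s3 : Cs * (u * L) / (m / Lp * C0 * (cv * u) ^ 2) ≤ 2 * Cs / cv ^ 2 * (Lp ^ 2 * ((u * L) ^ 3 * t)) := by
    have e : Cs * (u * L) / (m / Lp * C0 * (cv * u) ^ 2) = Cs * Lp * L / (cv ^ 2 * C0 * u) * (1 / m) := by field_simp
    have e' : Cs * Lp * L / (cv ^ 2 * C0 * u) * (2 * (C0 * u ^ 4 * (κ * t ^ 2 * L ^ 3))) = 2 * Cs / cv ^ 2 * (Lp * ((u * L) ^ 3 * t)) * (κ * t * L) := by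
      field_simp
    rw [e]
    refine (mul_le_mul_of_nonneg_left hmx (by positivity)).trans ?_
    rw [e']
    refine (mul_le_of_le_one_right (by positivity) hκtL).trans ?_
    exact mul_le_mul_of_nonneg_left (mul_le_mul_of_nonneg_right hLL hG.le) (by positivity)
  unfold bosSwR
  have : 300000 * (Cp ^ 2 + Cs ^ 2 + 2 * Cs / cv + 2 * Cs / cv ^ 2) * (Lp ^ 2 * ((u * L) ^ 3 * t))
      = 300000 * ((Cp ^ 2 + Cs ^ 2) * (Lp ^ 2 * ((u * L) ^ 3 * t)) + 2 * Cs / cv * (Lp ^ 2 * ((u * L) ^ 3 * t)) + 2 * Cs / cv ^ 2 * (Lp ^ 2 * ((u * L) ^ 3 * t))) := by ring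
  rw [this]
  linarith

/-- real-number core of `bos_bx_ar`, nonfloor part -/
theorem bos_bx_ar_r2 {u L t κ m Lp C0 Cp Cs cv CD : ℝ} (hu : 0 < u) (hL0 : 0 < L) (hL1 : L ≤ 1) (ht0 : 0 < t) (ht1 : t ≤ 1) (hκ0 : 0 < κ) (hκ1 : κ ≤ 1)
    (hm : 0 < m) (hLp : 1 ≤ Lp) (hC0 : 0 < C0) (hmx : 1 / m ≤ 2 * (C0 * u ^ 4 * (κ * t ^ 2 * L ^ 3)))
    (hcv : 0 < cv) (hCD : 0 < CD) :
    bosBxN (t * (u * L)) (Cp * (u * L)) (Cs * (u * L)) (3 * Lp / (m / Lp * C0) * (CD * (u * L))) (cv * u)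
      ≤ (4 * Cp ^ 2 + 17 * Cs ^ 2 + 384 * CD / cv + 1327116 * CD / cv ^ 2) * (Lp ^ 2 * ((u * L) ^ 3 * t)) := by
  have hLp0 : 0 < Lp := by linarith
  have hL2 : 1 ≤ Lp ^ 2 := by nlinarith
  have hG : 0 < (u * L) ^ 3 * t := by positivity
  have hκtL : κ * t * L ≤ 1 := mul_le_one₀ (mul_le_one₀ hκ1 ht0.le ht1) hL0.le hL1
  have s1 : 4 * (t * (u * L)) * (Cp * (u * L)) ^ 2 + 17 * (t * (u * L)) * (Cs * (u * L)) ^ 2 ≤ (4 * Cp ^ 2 + 17 * Cs ^ 2) * (Lp ^ 2 * ((u * L) ^ 3 * t)) := by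
    have e : 4 * (t * (u * L)) * (Cp * (u * L)) ^ 2 + 17 * (t * (u * L)) * (Cs * (u * L)) ^ 2 = (4 * Cp ^ 2 + 17 * Cs ^ 2) * (1 * ((u * L) ^ 3 * t)) := by ring
    rw [e]
    exact mul_le_mul_of_nonneg_left (mul_le_mul_of_nonneg_right hL2 hG.le) (by positivity)
  have s2 : 3 * Lp / (m / Lp * C0) * (CD * (u * L)) / (cv * u) / (t * (u * L)) ≤ 6 * CD / cv * (Lp ^ 2 * ((u * L) ^ 3 * t)) := by
    have e : 3 * Lp / (m / Lp * C0) * (CD * (u * L)) / (cv * u) / (t * (u * L)) = 3 * Lp ^ 2 * CD / (C0 * cv * u * t) * (1 / m) := by field_simp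
    have e' : 3 * Lp ^ 2 * CD / (C0 * cv * u * t) * (2 * (C0 * u ^ 4 * (κ * t ^ 2 * L ^ 3))) = 6 * CD / cv * (Lp ^ 2 * ((u * L) ^ 3 * t)) * κ := by
      field_simp; ring
    rw [e]
    refine (mul_le_mul_of_nonneg_left hmx (by positivity)).trans ?_
    rw [e']
    exact mul_le_of_le_one_right (by positivity) hκ1
  have s3 : 3 * Lp / (m / Lp * C0) * (CD * (u * L)) / (cv * u) ^ 2 ≤ 6 * CD / cv ^ 2 * (Lp ^ 2 * ((u * L) ^ 3 * t)) := by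
    have e : 3 * Lp / (m / Lp * C0) * (CD * (u * L)) / (cv * u) ^ 2 = 3 * Lp ^ 2 * CD * L / (C0 * cv ^ 2 * u) * (1 / m) := by field_simp
    have e' : 3 * Lp ^ 2 * CD * L / (C0 * cv ^ 2 * u) * (2 * (C0 * u ^ 4 * (κ * t ^ 2 * L ^ 3))) = 6 * CD / cv ^ 2 * (Lp ^ 2 * ((u * L) ^ 3 * t)) * (κ * t * L) := by
      field_simp; ring
    rw [e]
    refine (mul_le_mul_of_nonneg_left hmx (by positivity)).trans ?_
    rw [e']
    exact mul_le_of_le_one_right (by positivity) hκtL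
  unfold bosBxN
  have : (4 * Cp ^ 2 + 17 * Cs ^ 2 + 384 * CD / cv + 1327116 * CD / cv ^ 2) * (Lp ^ 2 * ((u * L) ^ 3 * t))
      = (4 * Cp ^ 2 + 17 * Cs ^ 2) * (Lp ^ 2 * ((u * L) ^ 3 * t)) + 64 * (6 * CD / cv * (Lp ^ 2 * ((u * L) ^ 3 * t))) + 221186 * (6 * CD / cv ^ 2 * (Lp ^ 2 * ((u * L) ^ 3 * t))) := by ring
  rw [this]
  have e4 : 64 * (3 * Lp / (m / Lp * C0) * (CD * (u * L)) / (cv * u)) / (t * (u * L)) = 64 * (3 * Lp / (m / Lp * C0) * (CD * (u * L)) / (cv * u) / (t * (u * L))) := by ring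
  rw [e4]
  linarith

/-- the logarithm against the spare power of `λ` -/
theorem bos_bx_ar_r3 {Lp Cl x lam pS t : ℝ} (hx0 : 0 < x) (hl0 : 0 < lam) (hlx : lam ≤ x ^ pS) (hLp0 : 0 ≤ Lp) (hLp : Lp ≤ Cl * x ^ (-(pS / 50)))
    (ht0 : 0 ≤ t) (ht : t ≤ lam ^ (0.18 : ℝ)) : Lp ^ 2 * t ≤ Cl ^ 2 * lam ^ (0.14 : ℝ) := by
  have h1 : Lp ^ 2 ≤ (Cl * x ^ (-(pS / 50))) ^ 2 := pow_le_pow_left₀ hLp0 hLp 2
  have h2 : (x ^ (-(pS / 50))) ^ 2 = x ^ (-(pS / 25)) := by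
    rw [← Real.rpow_natCast, ← Real.rpow_mul hx0.le]; congr 1; push_cast; ring
  have h3 : lam ^ (0.18 : ℝ) = lam ^ (0.04 : ℝ) * lam ^ (0.14 : ℝ) := by rw [← Real.rpow_add hl0]; norm_num
  have h4 : lam ^ (0.04 : ℝ) ≤ x ^ (pS / 25) := by
    calc lam ^ (0.04 : ℝ) ≤ (x ^ pS) ^ (0.04 : ℝ) := Real.rpow_le_rpow hl0.le hlx (by norm_num)
      _ = x ^ (pS / 25) := by rw [← Real.rpow_mul hx0.le]; congr 1; ring
  have h5 : x ^ (-(pS / 25)) * x ^ (pS / 25) = 1 := by rw [← Real.rpow_add hx0]; simp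
  have h6 : 0 ≤ lam ^ (0.14 : ℝ) := Real.rpow_nonneg hl0.le _
  have h7 : 0 < x ^ (-(pS / 25)) := Real.rpow_pos_of_pos hx0 _
  calc Lp ^ 2 * t ≤ (Cl ^ 2 * x ^ (-(pS / 25))) * (x ^ (pS / 25) * lam ^ (0.14 : ℝ)) :=
        mul_le_mul (by rw [← h2, ← mul_pow]; exact h1) (ht.trans (by rw [h3]; exact mul_le_mul_of_nonneg_right h4 h6)) ht0 (by positivity)
    _ = Cl ^ 2 * (x ^ (-(pS / 25)) * x ^ (pS / 25)) * lam ^ (0.14 : ℝ) := by ring
    _ = _ := by rw [h5, mul_one]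

/-- LEAF (arithmetic, LL l.1555-1562).   `d0 = u L`, `h = t' d0`, `t' = (A/L)^{3/2} κ^{-1/2} ≤ λ^{0.18}` (`BdFr.bds_prefactor`, `st = n'+1`, `κ = kstage`), `t'² = (A/L)³/κ`, `κ ≤ 1` (`bud_gb_kap_le`), `L ≤ 1`;
`1/m ≤ 2 x⁶` (`BosSz.mx`), `x⁶/(C0 u) = u³ A³`, so   `sg/(cn C0 v0 κ h) ≤ C L_p d0³ t'`,   `sg/(cn C0 v0²) ≤ C L_p d0³ A³/L² ≤ C L_p d0³ t'²`,   `TD/(v0 h) ≤ C L_p² d0³ κ t'`,   `TD/v0² ≤ C L_p² d0³ t'²`;
`L_p² λ^{0.04} ≤ Cl²` (`bos_Lp_sub` at `ε = pS/50`, `λ ≤ x^{pS}`). -/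
theorem bos_bx_ar (X : BdFix) (hX : X.Ok) {Cp Cs cv CD : ℝ} (hCp : 0 < Cp) (hCs : 0 < Cs) (hcv : 0 < cv) (hCD : 0 < CD) :
    ∃ (Cc : ℝ) (N0 : ℕ), 0 < Cc ∧ ∀ F : BdFr, F.Ok X → F.AtStage X → 1 ≤ F.st → N0 ≤ F.N → ∀ L : ℝ, F.aj X ≤ L → L ≤ 1 → ∃ h : ℝ, 0 < h ∧
      bosSwR h (Cp * (F.u * L)) (Cs * (F.u * L)) ((F.m : ℝ) / F.bosLp X) F.C0 (cv * F.u) F.kap ≤ Cc * ((F.u * L) ^ 3 * F.lam ^ (0.14 : ℝ)) ∧
      bosBxN h (Cp * (F.u * L)) (Cs * (F.u * L)) (3 * F.bosLp X / ((F.m : ℝ) / F.bosLp X * F.C0) * (CD * (F.u * L))) (cv * F.u)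
        ≤ Cc * ((F.u * L) ^ 3 * F.lam ^ (0.14 : ℝ)) := by
  obtain ⟨N1, hN1⟩ := bos_sz_ev X hX 1
  obtain ⟨Cl, N2, hCl, hN2⟩ := bos_Lp_sub X hX (X.pS / 50) (by have := hX.pS_pos; positivity)
  obtain ⟨K1, hK1⟩ : ∃ K1 : ℝ, K1 = 300000 * (Cp ^ 2 + Cs ^ 2 + 2 * Cs / cv + 2 * Cs / cv ^ 2) := ⟨_, rfl⟩
  obtain ⟨K2, hK2⟩ : ∃ K2 : ℝ, K2 = 4 * Cp ^ 2 + 17 * Cs ^ 2 + 384 * CD / cv + 1327116 * CD / cv ^ 2 := ⟨_, rfl⟩
  have hK10 : 0 < K1 := by rw [hK1]; positivity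
  have hK20 : 0 < K2 := by rw [hK2]; positivity
  refine ⟨(K1 + K2) * Cl ^ 2, max N1 N2, by positivity, ?_⟩
  intro F hF hSt hst hN L haL hL1
  have hs := hN1 F hF (le_trans (le_max_left _ _) hN)
  have hLs := hN2 F hF (le_trans (le_max_right _ _) hN)
  have hLp := (bos_Lp_gap X hX F hF).1
  have hl0 := BdFr.bds_lam_pos hF
  have hl1 := BdFr.bds_lam_lt_one hF hX
  have hA0 := BdFr.bds_A_pos hF hX
  obtain ⟨n', hn'⟩ : ∃ n', F.st = n' + 1 := ⟨F.st - 1, by omega⟩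
  have hκ : F.kap = F.kstage X (n' + 1) := by rw [hSt.1, hn']
  have hκ0 : 0 < F.kap := by rw [hκ]; exact BdFr.bds_kstage_pos hF hX n'
  have hκ1 : F.kap ≤ 1 := (bud_gb_kap_le hX hF).trans (Real.rpow_le_one hl0.le hl1.le (by norm_num))
  have haj : F.astage X (n' + 1) ≤ L := by
    have := haL; unfold BdFr.aj at this; rwa [hn'] at this
  have hL0 : 0 < L := lt_of_lt_of_le (BdFr.bds_astage_pos hF hX (n' + 1)) haj
  have hAL : 0 < F.A / L := div_pos hA0 hL0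
  obtain ⟨t, ht⟩ : ∃ t : ℝ, t = (F.A / L) ^ (3 / 2 : ℝ) * F.kap ^ (-(1 / 2) : ℝ) := ⟨_, rfl⟩
  have ht0 : 0 < t := by rw [ht]; exact mul_pos (Real.rpow_pos_of_pos hAL _) (Real.rpow_pos_of_pos hκ0 _)
  have ht18 : t ≤ F.lam ^ (0.18 : ℝ) := by rw [ht, hκ]; exact BdFr.bds_prefactor hF hX n' haj
  have ht1 : t ≤ 1 := ht18.trans (Real.rpow_le_one hl0.le hl1.le (by norm_num))
  have ht2 : F.kap * t ^ 2 * L ^ 3 = F.A ^ 3 := by
    have e1 : ((F.A / L) ^ (3 / 2 : ℝ)) ^ 2 = (F.A / L) ^ 3 := by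
      rw [← Real.rpow_natCast, ← Real.rpow_mul hAL.le, ← Real.rpow_natCast]; norm_num
    have e2 : (F.kap ^ (-(1 / 2) : ℝ)) ^ 2 = F.kap⁻¹ := by
      rw [← Real.rpow_natCast, ← Real.rpow_mul hκ0.le, ← Real.rpow_neg_one]; norm_num
    rw [ht, mul_pow, e1, e2]
    field_simp
  have hΛ : 0 < F.Lam := Real.rpow_pos_of_pos hl0 _
  have hx6 : F.x ^ 6 = F.C0 * F.u ^ 4 * F.A ^ 3 := by
    have e1 : (F.Lam ^ (-(1 / 3) : ℝ)) ^ 3 = F.Lam⁻¹ := by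
      rw [← Real.rpow_natCast, ← Real.rpow_mul hΛ.le, ← Real.rpow_neg_one]; norm_num
    have hu := hs.u0
    unfold BdFr.C0 BdFr.A BdFr.Xr
    rw [mul_pow, e1]
    field_simp
  have hmx : 1 / (F.m : ℝ) ≤ 2 * (F.C0 * F.u ^ 4 * (F.kap * t ^ 2 * L ^ 3)) := by rw [ht2, ← hx6]; exact hs.mx
  have hm : (0 : ℝ) < F.m := by exact_mod_cast hs.m0
  have hfin := bos_bx_ar_r3 hs.x0 hl0 hF.lam_hi (by linarith) hLs ht0.le ht18
  have hd3 : 0 ≤ (F.u * L) ^ 3 := by have := hs.u0; positivity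
  have hfin' : F.bosLp X ^ 2 * ((F.u * L) ^ 3 * t) ≤ Cl ^ 2 * ((F.u * L) ^ 3 * F.lam ^ (0.14 : ℝ)) := by
    have := mul_le_mul_of_nonneg_left hfin hd3
    calc F.bosLp X ^ 2 * ((F.u * L) ^ 3 * t) = (F.u * L) ^ 3 * (F.bosLp X ^ 2 * t) := by ring
      _ ≤ (F.u * L) ^ 3 * (Cl ^ 2 * F.lam ^ (0.14 : ℝ)) := this
      _ = _ := by ring
  have hR0 : 0 ≤ Cl ^ 2 * ((F.u * L) ^ 3 * F.lam ^ (0.14 : ℝ)) := by
    have := Real.rpow_nonneg hl0.le (0.14 : ℝ); positivity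
  refine ⟨t * (F.u * L), mul_pos ht0 (mul_pos hs.u0 hL0), ?_, ?_⟩
  · refine (bos_bx_ar_r1 hs.u0 hL0 hL1 ht0 ht1 hκ0 hκ1 hm hLp hs.C00 hmx hCs hcv).trans ?_
    rw [← hK1]
    calc K1 * (F.bosLp X ^ 2 * ((F.u * L) ^ 3 * t)) ≤ K1 * (Cl ^ 2 * ((F.u * L) ^ 3 * F.lam ^ (0.14 : ℝ))) := mul_le_mul_of_nonneg_left hfin' hK10.le
      _ ≤ (K1 + K2) * (Cl ^ 2 * ((F.u * L) ^ 3 * F.lam ^ (0.14 : ℝ))) := mul_le_mul_of_nonneg_right (by linarith) hR0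
      _ = _ := by ring
  · refine (bos_bx_ar_r2 hs.u0 hL0 hL1 ht0 ht1 hκ0 hκ1 hm hLp hs.C00 hmx hcv hCD).trans ?_
    rw [← hK2]
    calc K2 * (F.bosLp X ^ 2 * ((F.u * L) ^ 3 * t)) ≤ K2 * (Cl ^ 2 * ((F.u * L) ^ 3 * F.lam ^ (0.14 : ℝ))) := mul_le_mul_of_nonneg_left hfin' hK20.le
      _ ≤ (K1 + K2) * (Cl ^ 2 * ((F.u * L) ^ 3 * F.lam ^ (0.14 : ℝ))) := mul_le_mul_of_nonneg_right (by linarith) hR0
      _ = _ := by ring

/-! ## 4. EXIT -/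

section exit

variable {X : BdFix} {W : BdWorld} {Fam : BdFr → Prop} {K : BdCst}

/-- **EXIT: (C15), second assertion**, on every buffer `Buf s`, `0 < s < 1`, on which the first assertion holds.      TEX[LL:bud:box-moments] -/
theorem bos_box_c15b (hS : BdStd X W Fam K) (hW : W.IsSk) {n : ℕ} (hn1 : 1 ≤ n) (hn : n ≤ X.J + 1) (hZ : BudZ X W Fam n)
    (hL : BudB.LSmall X W Fam n) {s : ℝ} (hs0 : 0 < s) (hs1 : s < 1) (h15a : BudC15a X W Fam n 2 s) (c C : ℝ) (hc : 0 < c) :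
    BudC15b X W Fam n 2 s c C := by
  have hX := hS.fix
  obtain ⟨Cp, N1, hCp, hpt⟩ := bos_bx_pt hS hW hn hs1.le h15a
  obtain ⟨N2, h2⟩ := bos_bx_inst hS hW hn1 hn hZ hL hs0 hs1 hCp hpt C
  have hcb := hS.cb_pos
  have hplo : 0 < X.plo n := (hX.pat n hn).1
  obtain ⟨Cc, N3, hCc, h3⟩ := bos_bx_ar X hX hCp (by positivity : 0 < |C| + 18 / K.cb + 4) (by positivity : 0 < K.cb * X.plo n / 2)
    (by positivity : 0 < |K.Cb| * (|C| + 16) + 4)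
  obtain ⟨N4, h4⟩ := bos_bx_L_ge hS hZ
  refine Asymptotics.IsBigO.of_bound (3 * Cc) (bd_ev_iff.2 ⟨max N2 (max N3 N4), fun i hi hN => ?_⟩)
  obtain ⟨hV, ha, hb, hcab, hCab⟩ := hi
  have hN2 : N2 ≤ i.1.F.N := (le_max_left _ _).trans hN
  have hN3 : N3 ≤ i.1.F.N := ((le_max_left _ _).trans (le_max_right _ _)).trans hN
  have hN4 : N4 ≤ i.1.F.N := ((le_max_right _ _).trans (le_max_right _ _)).trans hN
  obtain ⟨hd0, hbx⟩ := h2 i.1 hV hN2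
  have hab : i.2.1 ≤ i.2.2 := by nlinarith
  obtain ⟨p1, p2, hbd⟩ := hbx _ ha _ hb hab hCab
  have hF := BudB.vst_ok hS hV
  obtain ⟨h, hh, q1, q2⟩ := h3 i.1.F hF hV.2.1 (by rw [BudB.vst_st hV]; exact hn1) hN3 i.1.V.L (h4 i.1 hV hN4) (BudB.vst_L1 hV)
  obtain ⟨r1, r2⟩ := hbd h hh
  have hlam : 0 ≤ i.1.F.lam ^ (0.14 : ℝ) := Real.rpow_nonneg (BdFr.bds_lam_pos hF).le _
  have hdd : i.1.V.d0 = i.1.F.u * i.1.V.L := rfl
  rw [← hdd] at q1 q2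
  have hG0 : 0 ≤ i.1.V.d0 ^ 2 * i.1.F.lam ^ (0.14 : ℝ) := by positivity
  have hinv : 0 < i.1.V.d0⁻¹ := inv_pos.2 hd0
  have e3 : i.1.V.d0⁻¹ * (Cc * (i.1.V.d0 ^ 3 * i.1.F.lam ^ (0.14 : ℝ))) = Cc * (i.1.V.d0 ^ 2 * i.1.F.lam ^ (0.14 : ℝ)) := by
    field_simp
  have t1 : i.1.V.avgR i.2.1 i.2.2 (i.1.V.Q.Dq2 W i.1.V.g) ≤ Cc * (i.1.V.d0 ^ 2 * i.1.F.lam ^ (0.14 : ℝ)) := by
    rw [← e3]
    exact mul_le_mul_of_nonneg_left (r1.trans q1) hinv.le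
  have t2 : i.1.V.avgV i.2.1 i.2.2 (i.1.V.Q.Dq2 W i.1.V.g) ≤ 2 * (Cc * (i.1.V.d0 ^ 2 * i.1.F.lam ^ (0.14 : ℝ))) := by
    rw [← e3, ← mul_assoc, mul_comm (2 : ℝ), mul_assoc]
    exact mul_le_mul_of_nonneg_left (by linarith) hinv.le
  have n1 : 0 ≤ i.1.V.avgR i.2.1 i.2.2 (i.1.V.Q.Dq2 W i.1.V.g) := mul_nonneg hinv.le p1
  have n2 : 0 ≤ i.1.V.avgV i.2.1 i.2.2 (i.1.V.Q.Dq2 W i.1.V.g) := mul_nonneg hinv.le p2
  rw [Real.norm_eq_abs, Real.norm_eq_abs, abs_of_nonneg (add_nonneg n1 n2), abs_of_nonneg hG0]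
  linarith

end exit

end

end Claimed.Agent.R286
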