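import Claimed.Agent.R286.Bud.MomBoxC
import Claimed.Agent.R286.Bud.MomBoxI
import Claimed.Agent.R286.Bud.Brg248
import Claimed.Agent.R286.Bud.HubBDefs
import Claimed.Agent.R286.Bud.HpFr
import Claimed.Agent.R286.Cmp.P5Chain
import Claimed.Agent.R286.Bud.StarW
import Claimed.Agent.R286.Bud.SecBox
import Claimed.Agent.R286.Bud.PowE

/-!
# Row 286, LL sec. 7, node N13 = Lemma `bud:box-moments` (07-budgets.tex l.1461-1590): FRAME LEVEL      (owner helper9, head of N13; prefix `bud_bm_`, Props `BudBm*`)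

ENDS IN the exit of 212 (`Bud/L8.lean`): `bud_c15` = `bud_bm_c15_in` (glue, PROVED here).      ABSTRACT LEVEL (176, 174, 237: `Bud/MomBoxA,B,C.lean`): one path `P : L8P`, radius labelling `ρ`, records `MbxPar MbxGeo MbxIn`,
exits `bud_bm_ratio` (bounded ratios + `‖|X|²-S‖ ≲ d0` after `nbuf` nested buffers), `bud_bm_delta` (the fork), `bud_bm_slide`, `bud_bm_alias`.
HOSTILE READING: (C15) does NOT follow from `BdStd + IsSk` alone.   What the paper's proof consumes = `BudBmIn` (all of it is available in the stage induction `BudB.c12_all`):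

| input | what | TeX | supplier |
| `BudZ n`          | `Z ≥ 1`, hence `L ≥ a_j` (the exponent count `(A/L)³/κ_j ≤ λ^{0.36}`) | l.1290, (C11) | N10 (5) |
| `BudB.LSmall n`   | `L → 0`: `d0 ≪ b_buf` | l.1330 | N11 (248) |
| `BudB.BufGeo n`   | `|S - r| ≲ d0`, oscillation of `S` and of `α`, nonfloor points, lower potential bound in `Buf s` | l.1335-1347 | N11 (248) |
| `BudB.PotEx`      | (C6) | l.162-215 | N4 (109/86) |
| `BudB.C7a`, `BudC7al` | (C7) | l.225 | N9 (12) |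
| `BudHpIn … 2`     | the inputs of N15: (C8) at STEP level `BudHpRaw`; `BdHpStd` + (C7a) on the class `OkS` ⟹ `bud_hp_clk` (field clock of the outer dyads) | l.236-330, l.1679 | N5 (141/109/7), 8/154 |

PLAN OF THE FILE.   0. vocabulary `BdVI.sp`, `BdVI.rh`; STEP FORMS `BudBmStX`, `BudBmStA` (consumers N17 may use them directly).   1. top glue.   2. (C15a): instance of `MbxGeo`, `MbxIn`, numerics, recursion, fork, transfer.
3. (C15b).   4. (C15c).      Every `sorry` is ONE LEAF: claim it in claim286 by its Lean name, prove IN PLACE (helpers just above, name = theorem + suffix), land directly.   False or awkward statement: repair it yourself, one line to 9.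
-/

set_option autoImplicit false

namespace Claimed.Agent.R286

open MeasureTheory Set Filter Topology

noncomputable section

/-! ## 0. Vocabulary -/

namespace BdVI

variable {X : BdFix} {W : BdWorld} (i : BdVI X W)

/-- the sampled changed path of the violation, as an abstract single path of `L08/SP.lean` -/
def sp (ps : List GhPos) : L8P (SkOm i.F.m) i.F.m := skSP i.F.m 1 (i.V.Q.stp i.V.g ps)

/-- its radius labelling: the cut `k` occupies the radii `[rh k, rh (k+1)]` -/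
def rh (ps : List GhPos) : ℕ → ℝ := i.V.Q.rho ps

end BdVI

section Props

variable (X : BdFix) (W : BdWorld) (Fam : BdFr → Prop)

/-- **ALL the inputs of N13** at the stage index `n` (besides `BdStd`, `IsSk`), buffer constant `2` -/
def BudBmIn (K : BdCst) (n : ℕ) : Prop :=
  BudZ X W Fam n ∧ BudB.LSmall X W Fam n ∧ BudB.BufGeo X W Fam n ∧ BudB.PotEx X W Fam ∧ BudB.C7a X W Fam ∧ BudC7al X W Fam ∧
    BudHpIn X W Fam K 2

/-- **bounded ratios and centred square norms at STEP level** (l.1519-1525), on all fine chains, at all cuts of `Buf s`: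
`‖|X_l - X_k|²‖_{2l} ≤ C (d0 + ρ_l - ρ_k)`, `‖|X_k|² - S_k‖_{2l} ≤ C d0` -/
def BudBmStX (n : ℕ) (s : ℝ) : Prop :=
  ∀ l : ℕ, 1 ≤ l → ∃ C : ℝ, 0 ≤ C ∧ ∃ N0 : ℕ, ∀ i : BdVI X W, BudB.VSt X W Fam n i → N0 ≤ i.F.N → BmEv 1 fun ps =>
    MbxRat (i.sp ps) (i.rh ps) (i.V.r0 - s * i.V.bbuf) (i.V.r0 + s * i.V.bbuf) i.V.d0 (2 * l) C ∧
    ∀ k, i.rh ps k ∈ i.V.Buf s → ∫ ω, ((i.sp ps).nX k ω - (i.sp ps).S k) ^ (2 * l) ∂(i.sp ps).μ ≤ (C * i.V.d0) ^ (2 * l)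

/-- **(C15), first assertion, at STEP level**: on all fine chains, at all forks of `Buf s` -/
def BudBmStA (n : ℕ) (s : ℝ) : Prop :=
  ∀ l : ℕ, 1 ≤ l → ∃ C : ℝ, 0 ≤ C ∧ ∃ N0 : ℕ, ∀ i : BdVI X W, BudB.VSt X W Fam n i → N0 ≤ i.F.N → BmEv 1 fun ps =>
    ∀ k, i.rh ps k ∈ i.V.Buf s → ∫ z, ((i.sp ps).Q z - (i.sp ps).S k) ^ (2 * l) ∂((i.sp ps).fork k) ≤ (C * i.V.d0) ^ (2 * l)

end Props

variable {X : BdFix} {W : BdWorld} {Fam : BdFr → Prop} {K : BdCst}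

/-! ## 2. (C15a)

### 2.0 the parameters of the step-level instance -/

/-- **constants of the instance, fixed before the size limit**: `s0` = proportion of `BufGeo`, `nb` = number of nested buffers, `CS` = oscillation constant of `S`,
`cv u ≤` masses of the patch `≤ Cv u`, `Gm` = ratio of the outer cuts, `ch, ca` = constants of the lower bound `BdFr.hpTh` of the field clock on `[w, Gm w]` -/
structure BmC where
  s0 : ℝ
  nb : ℕ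
  CS : ℝ
  cv : ℝ
  Cv : ℝ
  Gm : ℝ
  ch : ℝ
  ca : ℝ

/-- signs and order -/
structure BmC.Ok (c : BmC) : Prop where
  s0_pos : 0 < c.s0
  s0_le : c.s0 ≤ 1
  nb_pos : 1 ≤ c.nb
  CS_nn : 0 ≤ c.CS
  cv_pos : 0 < c.cv
  cv_le : c.cv ≤ c.Cv
  Cv_ge : 1 ≤ c.Cv
  Gm_ge : 4 ≤ c.Gm
  ch_pos : 0 < c.ch
  ca_pos : 0 < c.ca

namespace BdVI

variable {X : BdFix} {W : BdWorld} (i : BdVI X W) (c : BmC)

/-- **the numerical parameters**: buffer `r0 ± (s0/2) b_buf`, gap `g = s0 b_buf/(8 nb)` (after `nb` steps: `r0 ± (s0/4) b_buf`), windows `gam = 1/(32 nb)`, mesh and first layer `x⁴⁰`,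
dyadic thresholds up to `Ls ∈ [g, 2g]`, outer blocks of ratio `Gm` from the mass `Cv u` to `1` -/
def mbP : MbxPar where
  lo := i.V.r0 - c.s0 / 2 * i.V.bbuf
  hi := i.V.r0 + c.s0 / 2 * i.V.bbuf
  g := c.s0 * i.V.bbuf / (8 * c.nb)
  d0 := i.V.d0
  gam := 1 / (32 * c.nb)
  eta := i.F.x ^ 40
  l0 := i.F.x ^ 40
  K1 := ⌈Real.logb 2 (c.s0 * i.V.bbuf / (8 * c.nb) / i.F.x ^ 40)⌉₊ + 1
  Ko := ⌈Real.logb c.Gm (1 / (c.Cv * i.F.u))⌉₊
  vlo := c.cv * i.F.u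
  vhi := c.Cv * i.F.u
  C0 := i.F.C0
  kap := i.F.kap
  CS := c.CS

/-- the outer masses `w_j = min(Gm^j Cv u, 1)` -/
def mbW (j : ℕ) : ℝ := min (c.Gm ^ j * (c.Cv * i.F.u)) 1

/-- largest mass of the outer block `j` -/
def mbMo (j : ℕ) : ℝ := i.mbW c (j + 1)

/-- end of the patch of constant strength: the radius `phi 0 · u` (`< c_I u`; at a fixed multiple of `u` beyond the patch of the stage `≥ 1`) -/
def mbRp : ℝ := X.phi 0 * i.F.u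

/-- start of the projection interval of the first outer block -/
def mbRq : ℝ := (X.phi 0 + X.phi i.F.st) / 2 * i.F.u

/-- projection costs of the outer blocks -/
def mbSo (j : ℕ) : ℝ :=
  if j = 0 then 1 / ((c.cv * i.F.u) ^ 2 * i.F.m * (i.F.C0 * (i.mbRp - i.mbRq)))
  else 1 / (i.mbW c (j - 1) ^ 2 * i.F.m * i.F.hpTh X c.ch c.ca (i.mbW c (j - 1)))

/-- the outer cuts of a chain -/
def mbO (ps : List GhPos) (j : ℕ) : ℕ :=
  if j = 0 then i.V.Q.ixR ps i.mbRp else if j < (i.mbP c).Ko then BdQ.ixV ps (i.mbW c j) else ps.length + 1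

/-- starts of the projection intervals of the outer blocks -/
def mbPo (ps : List GhPos) (j : ℕ) : ℕ := if j = 0 then i.V.Q.ixR ps i.mbRq else BdQ.ixV ps (i.mbW c (j - 1))

/-- raw bounds (C8) at the outer cuts -/
def mbRo (Q0 : ℝ) (j : ℕ) : ℝ := Q0 ^ 2 * (i.F.wc X + i.mbW c j)

/-- `κ_j γ d0³`: the denominator of the recurrence -/
def mbD : ℝ := i.F.kap * (1 / (32 * c.nb)) * i.V.d0 ^ 3

end BdVI

/-- `MbxGeo`, part A: the numbers -/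
structure MbxGA (m : ℕ) (p : MbxPar) (mo so : ℕ → ℝ) (vmin hmin : ℝ) : Prop where
  m_pos : 0 < m
  lohi : p.lo ≤ p.hi
  g_pos : 0 < p.g
  d0_pos : 0 < p.d0
  gam_pos : 0 < p.gam
  gam_le : p.gam ≤ 1
  eta_nn : 0 ≤ p.eta
  eta_l0 : p.eta ≤ p.l0
  eta_d0 : p.eta ≤ p.gam * p.d0 / 4
  l0_pos : 0 < p.l0
  l0_le : p.l0 ≤ p.gam * p.d0 / 4
  K1_pos : 1 ≤ p.K1
  vlo_pos : 0 < p.vlo
  C0_pos : 0 < p.C0
  kap_pos : 0 < p.kap
  CS_nn : 0 ≤ p.CS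
  fit : p.gam * (p.d0 + (p.hi - p.lo)) + p.eta ≤ p.g
  g_Ls : p.g ≤ p.Ls
  vmin_le : vmin ≤ p.vlo
  hmin_le : hmin ≤ p.C0 * p.l0
  mo_nn : ∀ i, 0 ≤ mo i
  mo_mono : Monotone mo
  vhi_mo : p.vhi ≤ mo 0
  so_nn : ∀ i, 0 ≤ so i

/-- `MbxGeo`, part B: the patch of constant strength (`o0` = its last cut) -/
structure MbxGB {Ω : Type} [MeasurableSpace Ω] {m : ℕ} (P : L8P Ω m) (ρ : ℕ → ℝ) (p : MbxPar) (o0 : ℕ) : Prop where
  mono : Monotone ρ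
  mesh : ∀ k < o0, p.lo ≤ ρ (k + 1) → ρ (k + 1) - ρ k ≤ p.eta
  below : ρ 0 < p.lo
  slope : ∀ k < o0, p.lo ≤ ρ k → p.C0 * (ρ (k + 1) - ρ k) ≤ P.dh k
  mass : ∀ k < o0, p.lo ≤ ρ k → p.vlo ≤ P.v k ∧ P.v k ≤ p.vhi
  floor : ∀ k, p.lo ≤ ρ k → ρ (k + 1) ≤ p.hi → p.kap * (ρ (k + 1) - ρ k) ≤ P.dv k
  o_zero : p.hi + p.Ls ≤ ρ o0
  o_le : o0 ≤ P.n

/-- `MbxGeo`, part D: the outer cuts -/
structure MbxGD {Ω : Type} [MeasurableSpace Ω] {m : ℕ} (P : L8P Ω m) (ρ : ℕ → ℝ) (p : MbxPar) (o po : ℕ → ℕ) (mo so : ℕ → ℝ) (vmin hmin : ℝ) : Prop where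
  o_mono : Monotone o
  o_top : o p.Ko = P.n + 1
  o_mass : ∀ i < p.Ko, P.v (o (i + 1) - 1) ≤ mo i
  o_proj : ∀ i < p.Ko, p.hi < ρ (po i) ∧ po i < o i ∧ vmin ≤ P.v (po i) ∧ hmin ≤ P.hlen (po i) (o i) ∧ 1 ≤ so i * mbxDen P (po i) (o i)

/-- the four parts give the record of 176 -/
theorem bud_bm_geo_mk {Ω : Type} [MeasurableSpace Ω] {m : ℕ} {P : L8P Ω m} {ρ : ℕ → ℝ} {p : MbxPar} {o po : ℕ → ℕ} {mo so : ℕ → ℝ} {vmin hmin : ℝ}
    (A : MbxGA m p mo so vmin hmin) (B : MbxGB P ρ p (o 0))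
    (S : ∀ k l, k ≤ l → p.lo ≤ ρ k → ρ l ≤ p.hi → P.S l - P.S k ≤ p.CS * (p.d0 + (ρ l - ρ k)))
    (D : MbxGD P ρ p o po mo so vmin hmin) : MbxGeo P ρ p o po mo so vmin hmin :=
  { m_pos := A.m_pos, mono := B.mono, lohi := A.lohi, g_pos := A.g_pos, d0_pos := A.d0_pos, gam_pos := A.gam_pos, gam_le := A.gam_le,
    eta_nn := A.eta_nn, eta_l0 := A.eta_l0, eta_d0 := A.eta_d0, l0_pos := A.l0_pos, l0_le := A.l0_le, K1_pos := A.K1_pos, vlo_pos := A.vlo_pos,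
    C0_pos := A.C0_pos, kap_pos := A.kap_pos, CS_nn := A.CS_nn, fit := A.fit, g_Ls := A.g_Ls, mesh := B.mesh, below := B.below, slope := B.slope,
    mass := B.mass, floor := B.floor, Sosc := S, vmin_le := A.vmin_le, hmin_le := A.hmin_le, o_mono := D.o_mono, o_top := D.o_top,
    o_zero := B.o_zero, o_le := B.o_le, mo_nn := A.mo_nn, mo_mono := A.mo_mono, vhi_mo := A.vhi_mo, so_nn := A.so_nn, o_mass := D.o_mass,
    o_proj := D.o_proj }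

section Props2

variable (X : BdFix) (W : BdWorld) (Fam : BdFr → Prop)

/-- what (C15) uses of `BufGeo + PotEx` WITHOUT the potential: `|S - r| ≤ C d0`, oscillation of `S` and of `α` in `Buf s` -/
def BudBmOsc (n : ℕ) (C s : ℝ) : Prop :=
  ∃ N0 : ℕ, ∀ i : BdVI X W, BudB.VSt X W Fam n i → N0 ≤ i.F.N →
    (∀ r ∈ i.V.Buf s, |i.V.Q.Sq W i.V.g (i.V.Q.al r) - r| ≤ C * i.V.d0) ∧
    ∀ a ∈ i.V.Buf s, ∀ b ∈ i.V.Buf s, a ≤ b →
      i.V.Q.Sq W i.V.g (i.V.Q.al b) - i.V.Q.Sq W i.V.g (i.V.Q.al a) ≤ C * (i.V.d0 + (b - a)) ∧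
      i.V.Q.al b - i.V.Q.al a ≤ C * (i.V.d0 + (b - a))

/-- the conclusion of `bud_hp_clk` (helper8/154) with explicit constants -/
def BudBmClk (Gm ch ca : ℝ) : Prop :=
  ∃ N0 : ℕ, ∀ i : BdI X, i.OkS W Fam → N0 ≤ i.F.N → ∀ ηm : ℝ, 0 < ηm →
    BmEv 1 fun ps => Cm5Clk (i.Q.hpM i.g ps) i.F.u (1 / (8 * Gm ^ 2)) Gm ηm (i.F.hpTh X ch ca) (fun w => ca * i.F.lam * w ^ 2 / 2)

/-- (C8) at step level at ONE exponent with an explicit constant -/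
def BudBmRaw (r : ℕ) (Q0 : ℝ) : Prop :=
  ∃ N0 : ℕ, ∀ i : BdI X, i.OkS W Fam → N0 ≤ i.F.N → BmEv 1 fun ps => (i.Q.hpM i.g ps).Raw (4 * r) Q0 (i.F.wc X)

/-- the geometry on all fine chains -/
def BudBmGeo (n : ℕ) (c : BmC) : Prop :=
  ∃ N0 : ℕ, ∀ i : BdVI X W, BudB.VSt X W Fam n i → N0 ≤ i.F.N → BmEv 1 fun ps =>
    (i.sp ps).Ok ∧ MbxGeo (i.sp ps) (i.rh ps) (i.mbP c) (i.mbO c ps) (i.mbPo c ps) (i.mbMo c) (i.mbSo c) (c.cv * i.F.u) (i.F.C0 * i.F.x ^ 40)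

end Props2

/-! ### 2.1 dictionary of the sampled path -/

/-- a violation as an instance of the class of N15 -/
theorem bud_bm_okS (hS : BdStd X W Fam K) {n : ℕ} (hn : n ≤ X.J + 1) {i : BdVI X W} (h : BudB.VSt X W Fam n i) :
    (⟨i.F, i.V.g, i.V.Q⟩ : BdI X).OkS W Fam := ⟨BudB.vst_I hS hn h, h.2.1⟩

/-- every sampling is a valid path -/
theorem bud_bm_sp_ok (hS : BdStd X W Fam K) {n : ℕ} (hn : n ≤ X.J + 1) {i : BdVI X W} (h : BudB.VSt X W Fam n i) (Fs : Finset GhPos) :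
    (i.sp (ghPs 1 Fs)).Ok :=
  l8i_ok _ (bud_hp_aux_m_pos (BudB.vst_ok hS h)) 1 one_pos _ (bud_hp_adm hS h.1 (BudB.vst_g0 hS hn h) i.V.Q Fs)

theorem bud_bm_kbar_nonneg {F : BdFr} (hF : F.Ok X) (r : ℝ) : 0 ≤ F.kbar X r := by
  unfold BdFr.kbar BdFr.k CmCall.k
  have h1 : 0 ≤ (F.call X).N ^ (F.call X).dl * (F.call X).us ^ 2 / (r + (F.call X).N ^ (2 * (F.call X).dl) * (F.call X).us) ^ 2 := by
    have : 0 ≤ (F.call X).N ^ (F.call X).dl := Real.rpow_nonneg (by unfold CmCall.N; positivity) _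
    positivity
  have h2 : 0 ≤ (if r ∈ Icc (F.Ilo * F.u) (F.Ihi * F.u) then F.kap else 0) := by
    split_ifs
    · exact hF.kap0
    · exact le_rfl
  linarith

theorem bud_bm_al_mono {F : BdFr} (hF : F.Ok X) (Q : BdQ F X) : MonotoneOn Q.al (Icc 0 1) := by
  intro r1 h1 r2 h2 h12
  have := Q.lo r1 r2 h1.1 h12 h2.2
  have h0 : 0 ≤ ∫ t in r1..r2, F.kbar X t :=
    intervalIntegral.integral_nonneg h12 fun t _ => bud_bm_kbar_nonneg hF t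
  linarith

theorem bud_bm_al_mem {F : BdFr} (hF : F.Ok X) (Q : BdQ F X) {t : ℝ} (ht : t ∈ Icc (0 : ℝ) 1) : Q.al t ∈ Icc (0 : ℝ) 1 := by
  have h0 := bud_bm_al_mono hF Q ⟨le_rfl, zero_le_one⟩ ht ht.1
  have h1 := bud_bm_al_mono hF Q ht ⟨zero_le_one, le_rfl⟩ ht.2
  rw [Q.al_zero] at h0
  rw [Q.al_one] at h1
  exact ⟨h0, h1⟩

theorem bud_bm_r_mono {F : BdFr} (hF : F.Ok X) (Q : BdQ F X) : MonotoneOn Q.r (Icc 0 1) := by
  intro v1 h1 v2 h2 h12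
  by_contra hlt
  have hlt : Q.r v2 < Q.r v1 := not_le.1 hlt
  have := bud_bm_al_mono hF Q (Q.r_mem v2 h2) (Q.r_mem v1 h1) hlt.le
  rw [Q.al_r v1 h1, Q.al_r v2 h2] at this
  have e : v1 = v2 := le_antisymm h12 this
  rw [e] at hlt
  exact lt_irrefl _ hlt

/-- `r = α⁻¹` is continuous on `[0,1]` (monotone and onto) -/
theorem bud_bm_r_cont {F : BdFr} (hF : F.Ok X) (Q : BdQ F X) : ContinuousOn Q.r (Icc 0 1) := by
  have hmono := bud_bm_r_mono hF Q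
  let f : Icc (0 : ℝ) 1 → Icc (0 : ℝ) 1 := fun v => ⟨Q.r v, Q.r_mem v v.2⟩
  have hf : Monotone f := fun a b hab => hmono a.2 b.2 hab
  have hs : Function.Surjective f := fun t => ⟨⟨Q.al t, bud_bm_al_mem hF Q t.2⟩, Subtype.ext (Q.r_al t t.2)⟩
  have hc : Continuous f := hf.continuous_of_surjective hs
  rw [continuousOn_iff_continuous_domRestrict]
  exact continuous_subtype_val.comp hc

/-- the radius labelling is `r(mass)` : `rh ps j = r (mass j)` at EVERY cut (`r 0 = 0`, `r 1 = 1`) -/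
theorem bud_bm_rh_eq (i : BdVI X W) (ps : List GhPos) (j : ℕ) : i.rh ps j = i.V.Q.r ((i.V.Q.hpM i.V.g ps).mass j) := by
  have e : (i.V.Q.hpM i.V.g ps).mass j = (ckM i.F.m (i.V.Q.bE i.V.g) (i.V.Q.hE i.V.g) ps).mass j := rfl
  rw [e, ckm_mass]
  unfold BdVI.rh BdQ.rho
  have h0 : i.V.Q.r 0 = 0 := by
    have := i.V.Q.r_al 0 ⟨le_rfl, zero_le_one⟩
    rwa [i.V.Q.al_zero] at this
  have h1 : i.V.Q.r 1 = 1 := by
    have := i.V.Q.r_al 1 ⟨zero_le_one, le_rfl⟩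
    rwa [i.V.Q.al_one] at this
  by_cases hj : j = 0
  · rw [if_pos hj, if_pos hj, h0]
  · rw [if_neg hj, if_neg hj]
    by_cases hl : j - 1 < ps.length
    · rw [dif_pos hl]
      unfold ckmPos
      rw [List.getD_eq_getElem _ _ hl]
    · rw [dif_neg hl]
      unfold ckmPos
      rw [List.getD_eq_default _ _ (by omega)]
      show 1 = i.V.Q.r 1
      rw [h1]

theorem bud_bm_d0_nn {n : ℕ} {i : BdVI X W} (h : BudB.VSt X W Fam n i) : 0 ≤ i.V.d0 := by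
  rw [← (BudB.vst_V h).disc]; exact abs_nonneg _

/-- **potential-free form of the buffered geometry** (`PotEx` supplies a potential, `BufGeo` is applied to it) -/
theorem bud_bm_osc (hS : BdStd X W Fam K) {n : ℕ} (hn : n ≤ X.J + 1) (hG : BudB.BufGeo X W Fam n) (hP : BudB.PotEx X W Fam) :
    ∃ C s : ℝ, 0 ≤ C ∧ 0 < s ∧ s ≤ 1 ∧ BudBmOsc X W Fam n C s := by
  obtain ⟨C, s, hs, hs1, N1, hG⟩ := hG
  obtain ⟨N2, hP⟩ := hP
  refine ⟨|C|, s, abs_nonneg _, hs, hs1, max N1 N2, fun i hi hN => ?_⟩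
  obtain ⟨H, -, hH⟩ := hP ⟨i.F, i.V.g, i.V.Q⟩ (BudB.vst_I hS hn hi) (le_trans (le_max_right _ _) hN)
  obtain ⟨g1, -, g3, -, -⟩ := hG i hi (le_trans (le_max_left _ _) hN) H hH
  have hC : C ≤ |C| := le_abs_self _
  have hd := bud_bm_d0_nn hi
  refine ⟨fun r hr => (g1 r hr).trans (mul_le_mul_of_nonneg_right hC hd), fun a ha b hb hab => ?_⟩
  have h0 : 0 ≤ i.V.d0 + (b - a) := by linarith
  exact ⟨(g3 a ha b hb hab).1.trans (mul_le_mul_of_nonneg_right hC h0), (g3 a ha b hb hab).2.trans (mul_le_mul_of_nonneg_right hC h0)⟩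

/-- the mass at the end of the patch: `α(phi 0 · u) ≤ (|Cb| c_I + 1) u` ((C7) on the widest patch) -/
theorem bud_bm_al_rp (hS : BdStd X W Fam K) {n : ℕ} (hn : n ≤ X.J + 1) (h7 : BudC7al X W Fam) :
    ∃ N0 : ℕ, ∀ i : BdVI X W, BudB.VSt X W Fam n i → N0 ≤ i.F.N → i.V.Q.al i.mbRp ≤ (|K.Cb| * X.cI + 1) * i.F.u := by
  obtain ⟨N0, h⟩ := bdg_c7 hS h7 (n := 0) (Nat.zero_le _) (ε := 1) one_pos
  refine ⟨N0, fun i hi hN => ?_⟩
  have hu := BudB.vst_u_pos hS hi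
  obtain ⟨a1, a2, a3, a4, a5⟩ := hS.fix.pat 0 (Nat.zero_le _)
  have hr : i.mbRp ∈ Icc (X.plo 0 * i.F.u) (X.phi 0 * i.F.u) :=
    ⟨mul_le_mul_of_nonneg_right (by linarith) hu.le, le_rfl⟩
  have h1 := h i.F i.V.g i.V.Q hi.1 (BudB.vst_g0 hS hn hi) (BudB.vst_V hi).opt hN _ hr
  have h0 : 0 ≤ i.mbRp := mul_nonneg (by linarith) hu.le
  have h2 := (BudB.fam_beta hS hi.1 h0 (mul_le_mul_of_nonneg_right a5.le hu.le)).2
  have h3 : K.Cb * i.mbRp ≤ |K.Cb| * (X.cI * i.F.u) :=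
    mul_le_mul (le_abs_self _) (mul_le_mul_of_nonneg_right a5.le hu.le) h0 (abs_nonneg _)
  have h4 := (abs_le.1 h1).2
  nlinarith

/-! ### 2.2 the geometry -/

/-- smallness used everywhere: `0 < L`, `a_goal ≤ L`, `d0 ≤ ε b_buf`, `0 < λ < 1` -/
theorem bud_bm_small (hS : BdStd X W Fam K) {n : ℕ} (hZ : BudZ X W Fam n) (hL : BudB.LSmall X W Fam n) {ε : ℝ} (hε : 0 < ε) :
    ∃ N0 : ℕ, ∀ i : BdVI X W, BudB.VSt X W Fam n i → N0 ≤ i.F.N →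
      0 < i.V.d0 ∧ i.V.d0 ≤ ε * i.V.bbuf ∧ 0 < i.F.lam ∧ i.F.lam ≤ 1 := by
  obtain ⟨N1, h1⟩ := BudB.vst_L_ge hS hZ
  obtain ⟨N2, h2⟩ := hL (ε ^ 2) (by positivity)
  refine ⟨max N1 N2, fun i hi hN => ?_⟩
  obtain ⟨-, hL0⟩ := h1 i hi (le_trans (le_max_left _ _) hN)
  have hL2 := h2 i hi (le_trans (le_max_right _ _) hN)
  have hu := BudB.vst_u_pos hS hi
  have hl := BudB.vst_lam_pos hS hi
  refine ⟨mul_pos hu hL0, ?_, hl, (BdFr.bds_lam_lt_one (BudB.vst_ok hS hi) hS.fix).le⟩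
  have hs : Real.sqrt i.V.L ≤ ε := by
    rw [show ε = Real.sqrt (ε ^ 2) from (Real.sqrt_sq hε.le).symm]
    exact Real.sqrt_le_sqrt hL2
  have hs0 := Real.sqrt_nonneg i.V.L
  have hsq : Real.sqrt i.V.L * Real.sqrt i.V.L = i.V.L := Real.mul_self_sqrt hL0.le
  have hr : 0 ≤ i.F.lam ^ X.rho := Real.rpow_nonneg hl.le _
  show i.F.u * i.V.L ≤ ε * (i.F.u * (Real.sqrt i.V.L + i.F.lam ^ X.rho))
  have : i.V.L ≤ ε * (Real.sqrt i.V.L + i.F.lam ^ X.rho) := by nlinarith [mul_nonneg hε.le hr]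
  calc i.F.u * i.V.L ≤ i.F.u * (ε * (Real.sqrt i.V.L + i.F.lam ^ X.rho)) := mul_le_mul_of_nonneg_left this hu.le
    _ = _ := by ring

/-- `x² ≤ u a_goal` -/
theorem bud_bm_geo_A_x2 {F : BdFr} (hF : F.Ok X) (hX : X.Ok) : F.x ^ 2 ≤ F.u * F.agoal X := by
  have hx := BdFr.bds_x_pos hF
  have hu := BdFr.bds_u_pos hF hX
  have hu1 := BdFr.bds_u_le_one hF hX
  have hl := BdFr.bds_lam_pos hF
  have hl1 := (BdFr.bds_lam_lt_one hF hX).le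
  have hs0 : 0 ≤ X.s0 := by have := BdFr.bds_s0_ge hX; linarith
  have h1 : 1 ≤ F.lam ^ (-X.s0) := Real.one_le_rpow_of_pos_of_le_one_of_nonpos hl hl1 (by linarith)
  unfold BdFr.agoal BdFr.Xr
  have e : F.u * ((F.x / F.u) ^ 2 * F.lam ^ (-X.s0)) = F.x ^ 2 / F.u * F.lam ^ (-X.s0) := by
    field_simp
  rw [e]
  have h2 : F.x ^ 2 ≤ F.x ^ 2 / F.u := by
    rw [le_div_iff₀ hu]
    nlinarith [sq_nonneg F.x]
  calc F.x ^ 2 ≤ F.x ^ 2 / F.u * 1 := by rw [mul_one]; exact h2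
    _ ≤ _ := mul_le_mul_of_nonneg_left h1 (by positivity)

/-- the outer masses -/
theorem bud_bm_geo_A_W {i : BdVI X W} {c : BmC} (hc : c.Ok) (hu : 0 < i.F.u) : (∀ j, 0 < i.mbW c j) ∧ Monotone (i.mbW c) := by
  have hG : 1 ≤ c.Gm := by have := hc.Gm_ge; linarith
  have hCv : 0 < c.Cv * i.F.u := mul_pos (by have := hc.Cv_ge; linarith) hu
  refine ⟨fun j => lt_min (mul_pos (pow_pos (by linarith) _) hCv) one_pos, fun a b hab => ?_⟩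
  exact min_le_min_right _ (mul_le_mul_of_nonneg_right (pow_le_pow_right₀ hG hab) hCv.le)

/-- **part A**: pure arithmetic of the parameters (`d0 ≥ u a_goal ≥ x²`, `d0 ≤ s0 b_buf`, `Ls = 2^⌈log₂(g/l0)⌉ l0 ≥ g`, `κ_j > 0` as `n ≥ 1`).     TEX[LL:bud:box-moments] -/
theorem bud_bm_geo_A (hS : BdStd X W Fam K) {n : ℕ} (hn1 : 1 ≤ n) (hn : n ≤ X.J + 1) (hZ : BudZ X W Fam n) (hL : BudB.LSmall X W Fam n)
    {c : BmC} (hc : c.Ok) :
    ∃ N0 : ℕ, ∀ i : BdVI X W, BudB.VSt X W Fam n i → N0 ≤ i.F.N →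
      MbxGA i.F.m (i.mbP c) (i.mbMo c) (i.mbSo c) (c.cv * i.F.u) (i.F.C0 * i.F.x ^ 40) := by
  have hs0 := hc.s0_pos
  have hnb : (1 : ℝ) ≤ c.nb := by exact_mod_cast hc.nb_pos
  have hCv : (0 : ℝ) < c.Cv := by have := hc.Cv_ge; linarith
  obtain ⟨N1, h1⟩ := bud_bm_small hS hZ hL hs0
  obtain ⟨N2, h2⟩ := BudB.vst_L_ge hS hZ
  obtain ⟨N3, h3⟩ := BudB.ev_lam hS.fix (e := 1) (ε := 1 / (128 * c.nb)) one_pos (by positivity)
  obtain ⟨N4, h4⟩ := BudB.ev_u hS.fix (ε := 1 / c.Cv) (by positivity)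
  refine ⟨max (max N1 N2) (max N3 N4), fun i hi hN => ?_⟩
  have hN1 : N1 ≤ i.F.N := le_trans (le_trans (le_max_left _ _) (le_max_left _ _)) hN
  have hN2 : N2 ≤ i.F.N := le_trans (le_trans (le_max_right _ _) (le_max_left _ _)) hN
  have hN3 : N3 ≤ i.F.N := le_trans (le_trans (le_max_left _ _) (le_max_right _ _)) hN
  have hN4 : N4 ≤ i.F.N := le_trans (le_trans (le_max_right _ _) (le_max_right _ _)) hN
  have hF := BudB.vst_ok hS hi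
  obtain ⟨hd0, hdb, hl0, hl1⟩ := h1 i hi hN1
  obtain ⟨hag, hL0⟩ := h2 i hi hN2
  have hlam := h3 i.F hF hN3
  rw [Real.rpow_one] at hlam
  have hu := BudB.vst_u_pos hS hi
  have hx := BdFr.bds_x_pos hF
  have hx1 := (BdFr.bds_x_lt_one hF).le
  have hCu : c.Cv * i.F.u ≤ 1 := by
    calc c.Cv * i.F.u ≤ c.Cv * (1 / c.Cv) := mul_le_mul_of_nonneg_left (h4 i.F hF hN4) hCv.le
      _ = 1 := by field_simp
  have hbb : 0 < i.V.bbuf :=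
    mul_pos hu (add_pos_of_nonneg_of_pos (Real.sqrt_nonneg _) (Real.rpow_pos_of_pos hl0 _))
  have hx2 : i.F.x ^ 2 ≤ i.V.d0 :=
    (bud_bm_geo_A_x2 hF hS.fix).trans (mul_le_mul_of_nonneg_left hag hu.le)
  have hx38 : i.F.x ^ 38 ≤ 1 / (128 * c.nb) := by
    have e1 : i.F.x ^ 38 ≤ i.F.x ^ 12 := pow_le_pow_of_le_one hx.le hx1 (by norm_num)
    have e2 : i.F.x ^ 12 ≤ i.F.lam := by
      have := hF.lam_lo
      rwa [show (12 : ℝ) = ((12 : ℕ) : ℝ) by norm_num, Real.rpow_natCast] at this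
    linarith
  have hx40 : i.F.x ^ 40 ≤ 1 / (32 * c.nb) * i.V.d0 / 4 := by
    calc i.F.x ^ 40 = i.F.x ^ 38 * i.F.x ^ 2 := by ring
      _ ≤ 1 / (128 * c.nb) * i.V.d0 := mul_le_mul hx38 hx2 (by positivity) (by positivity)
      _ = _ := by field_simp; ring
  obtain ⟨hW0, hWm⟩ := bud_bm_geo_A_W (i := i) hc hu
  have hg : 0 < c.s0 * i.V.bbuf / (8 * c.nb) := by positivity
  have hm : 0 < i.F.m := bud_hp_aux_m_pos hF
  obtain ⟨-, hphi, -, -⟩ := BudB.fix_nest hS.fix n hn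
  exact
    { m_pos := hm
      lohi := by
        show i.V.r0 - c.s0 / 2 * i.V.bbuf ≤ i.V.r0 + c.s0 / 2 * i.V.bbuf
        nlinarith
      g_pos := hg
      d0_pos := hd0
      gam_pos := by show (0 : ℝ) < 1 / (32 * c.nb); positivity
      gam_le := by
        show (1 : ℝ) / (32 * c.nb) ≤ 1
        rw [div_le_one (by positivity)]
        linarith
      eta_nn := by show 0 ≤ i.F.x ^ 40; positivity
      eta_l0 := le_rfl
      eta_d0 := hx40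
      l0_pos := by show 0 < i.F.x ^ 40; positivity
      l0_le := hx40
      K1_pos := by show 1 ≤ _ + 1; omega
      vlo_pos := mul_pos hc.cv_pos hu
      C0_pos := by
        show 0 < i.F.u ^ 2 * i.F.lam ^ (0.03 : ℝ)
        have := Real.rpow_pos_of_pos hl0 (0.03 : ℝ)
        positivity
      kap_pos := by
        show 0 < i.F.kap
        rw [hi.2.1.1, hi.2.2.1]
        obtain ⟨k, rfl⟩ : ∃ k, n = k + 1 := ⟨n - 1, by omega⟩
        exact BdFr.bds_kstage_pos hF hS.fix k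
      CS_nn := hc.CS_nn
      fit := by
        show 1 / (32 * c.nb) * (i.V.d0 + ((i.V.r0 + c.s0 / 2 * i.V.bbuf) - (i.V.r0 - c.s0 / 2 * i.V.bbuf))) + i.F.x ^ 40 ≤ c.s0 * i.V.bbuf / (8 * c.nb)
        have e1 : 1 / (32 * (c.nb : ℝ)) * i.V.d0 ≤ 1 / (32 * c.nb) * (c.s0 * i.V.bbuf) := mul_le_mul_of_nonneg_left hdb (by positivity)
        have e2 : c.s0 * i.V.bbuf / (8 * c.nb) = 4 * (1 / (32 * c.nb) * (c.s0 * i.V.bbuf)) := by field_simp; ring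
        have e3 : 0 ≤ 1 / (32 * (c.nb : ℝ)) * i.V.d0 := by positivity
        rw [e2]
        have e4 : 1 / (32 * (c.nb : ℝ)) * (i.V.d0 + ((i.V.r0 + c.s0 / 2 * i.V.bbuf) - (i.V.r0 - c.s0 / 2 * i.V.bbuf)))
            = 1 / (32 * (c.nb : ℝ)) * i.V.d0 + 1 / (32 * c.nb) * (c.s0 * i.V.bbuf) := by ring
        rw [e4]
        linarith
      g_Ls := by
        show c.s0 * i.V.bbuf / (8 * c.nb) ≤ 2 ^ (⌈Real.logb 2 (c.s0 * i.V.bbuf / (8 * c.nb) / i.F.x ^ 40)⌉₊ + 1 - 1) * i.F.x ^ 40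
        rw [Nat.add_sub_cancel]
        have hq : 0 < c.s0 * i.V.bbuf / (8 * c.nb) / i.F.x ^ 40 := by positivity
        have e1 : c.s0 * i.V.bbuf / (8 * c.nb) / i.F.x ^ 40 ≤ 2 ^ ⌈Real.logb 2 (c.s0 * i.V.bbuf / (8 * c.nb) / i.F.x ^ 40)⌉₊ := by
          calc c.s0 * i.V.bbuf / (8 * c.nb) / i.F.x ^ 40 = (2 : ℝ) ^ Real.logb 2 (c.s0 * i.V.bbuf / (8 * c.nb) / i.F.x ^ 40) :=
                (Real.rpow_logb (by norm_num) (by norm_num) hq).symm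
            _ ≤ (2 : ℝ) ^ ((⌈Real.logb 2 (c.s0 * i.V.bbuf / (8 * c.nb) / i.F.x ^ 40)⌉₊ : ℕ) : ℝ) :=
                Real.rpow_le_rpow_of_exponent_le (by norm_num) (Nat.le_ceil _)
            _ = _ := Real.rpow_natCast _ _
        rwa [div_le_iff₀ (by positivity)] at e1
      vmin_le := le_rfl
      hmin_le := le_rfl
      mo_nn := fun j => (hW0 _).le
      mo_mono := fun a b hab => hWm (by omega)
      vhi_mo := by
        show c.Cv * i.F.u ≤ min (c.Gm ^ (0 + 1) * (c.Cv * i.F.u)) 1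
        refine le_min ?_ hCu
        have : 1 ≤ c.Gm ^ (0 + 1) := by have := hc.Gm_ge; simp; linarith
        exact le_mul_of_one_le_left (by positivity) this
      so_nn := fun j => by
        unfold BdVI.mbSo
        split_ifs with hj
        · have : 0 ≤ i.mbRp - i.mbRq := by
            unfold BdVI.mbRp BdVI.mbRq
            rw [hi.2.2.1]
            nlinarith
          have hC0 : 0 ≤ i.F.C0 := by
            show 0 ≤ i.F.u ^ 2 * i.F.lam ^ (0.03 : ℝ)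
            have := Real.rpow_pos_of_pos hl0 (0.03 : ℝ)
            positivity
          have := hc.cv_pos
          positivity
        · have h0 : 0 ≤ i.F.hpTh X c.ch c.ca (i.mbW c (j - 1)) := by
            refine le_max_of_le_right ?_
            have := hW0 (j - 1)
            have := hc.ca_pos
            positivity
          positivity }

theorem bud_bm_r_zero {F : BdFr} (Q : BdQ F X) : Q.r 0 = 0 := by
  have := Q.r_al 0 ⟨le_rfl, zero_le_one⟩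
  rwa [Q.al_zero] at this

theorem bud_bm_r_one {F : BdFr} (Q : BdQ F X) : Q.r 1 = 1 := by
  have := Q.r_al 1 ⟨zero_le_one, le_rfl⟩
  rwa [Q.al_one] at this

theorem bud_bm_bbuf_pos (hS : BdStd X W Fam K) {n : ℕ} {i : BdVI X W} (h : BudB.VSt X W Fam n i) : 0 < i.V.bbuf :=
  mul_pos (BudB.vst_u_pos hS h) (add_pos_of_nonneg_of_pos (Real.sqrt_nonneg _) (Real.rpow_pos_of_pos (BudB.vst_lam_pos hS h) _))

/-- `c_I u < 1` -/
theorem bud_bm_cIu (hS : BdStd X W Fam K) : ∃ N0 : ℕ, ∀ F : BdFr, F.Ok X → N0 ≤ F.N → X.cI * F.u < 1 := by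
  have hcI := hS.fix.cI_pos
  obtain ⟨N0, h0⟩ := bud_env_u_small hS.fix (ε := 1 / (X.cI + 1)) (by positivity)
  refine ⟨N0, fun F hF hN => ?_⟩
  calc X.cI * F.u ≤ X.cI * (1 / (X.cI + 1)) := mul_le_mul_of_nonneg_left (h0 F hF hN) hcI.le
    _ < 1 := by rw [mul_one_div, div_lt_one (by linarith)]; linarith

/-- the extended clock is the clock on `(0,1)` -/
theorem bud_bm_ext_eq (c : ℝ → ℝ) {v : ℝ} (hv : v ∈ Ioo (0 : ℝ) 1) : bmExt c v = c v := by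
  unfold bmExt
  rw [if_neg (not_le.2 hv.1), if_pos hv.2]

/-- the mass of a radius of `(0,1)` is in `(0,1)` -/
theorem bud_bm_al_Ioo {F : BdFr} (hF : F.Ok X) (Q : BdQ F X) {t : ℝ} (ht : t ∈ Ioo (0 : ℝ) 1) : Q.al t ∈ Ioo (0 : ℝ) 1 := by
  have h1 := bud_bm_al_mem hF Q ⟨ht.1.le, ht.2.le⟩
  have h2 := Q.r_al t ⟨ht.1.le, ht.2.le⟩
  refine ⟨lt_of_le_of_ne h1.1 fun h => ?_, lt_of_le_of_ne h1.2 fun h => ?_⟩
  · rw [← h, bud_bm_r_zero] at h2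
    linarith [ht.1]
  · rw [h, bud_bm_r_one] at h2
    linarith [ht.2]

/-- the floor of the box of the stage -/
theorem bud_bm_floor {F : BdFr} (hX : X.Ok) (hF : F.Ok X) (Q : BdQ F X) {r1 r2 : ℝ} (h0 : 0 ≤ r1) (h12 : r1 ≤ r2) (h2 : r2 ≤ 1)
    (ha : F.Ilo * F.u ≤ r1) (hb : r2 ≤ F.Ihi * F.u) : F.kap * (r2 - r1) ≤ Q.al r2 - Q.al r1 := by
  refine le_trans ?_ (Q.lo r1 r2 h0 h12 h2)
  have h1 : ∫ _t in r1..r2, F.kap ≤ ∫ t in r1..r2, F.kbar X t := by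
    refine intervalIntegral.integral_mono_on h12 intervalIntegrable_const
      (bud_env_kbar_ii hX (bud_env_pos hX hF) ⟨h0, h12.trans h2⟩ ⟨h0.trans h12, h2⟩) fun t ht => ?_
    have hk : 0 ≤ F.k X t := by
      unfold BdFr.k CmCall.k
      have : 0 ≤ (F.call X).N ^ (F.call X).dl := Real.rpow_nonneg (by unfold CmCall.N; positivity) _
      positivity
    unfold BdFr.kbar
    rw [if_pos ⟨ha.trans ht.1, ht.2.trans hb⟩]
    linarith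
  rw [intervalIntegral.integral_const, smul_eq_mul] at h1
  linarith

/-- the largest sliding distance is at most `2 g` -/
theorem bud_bm_Ls_le {g l0 : ℝ} (hl0 : 0 < l0) (hg : l0 ≤ g) : (2 : ℝ) ^ (⌈Real.logb 2 (g / l0)⌉₊ + 1 - 1) * l0 ≤ 2 * g := by
  have h1 : 1 ≤ g / l0 := by rwa [le_div_iff₀ hl0, one_mul]
  have h2 : 0 ≤ Real.logb 2 (g / l0) := Real.logb_nonneg (by norm_num) h1
  have h3 : ((⌈Real.logb 2 (g / l0)⌉₊ : ℕ) : ℝ) ≤ Real.logb 2 (g / l0) + 1 := (Nat.ceil_lt_add_one h2).le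
  have h4 : (2 : ℝ) ^ (⌈Real.logb 2 (g / l0)⌉₊ + 1 - 1) ≤ 2 * (g / l0) := by
    rw [Nat.add_sub_cancel, ← Real.rpow_natCast]
    calc (2 : ℝ) ^ ((⌈Real.logb 2 (g / l0)⌉₊ : ℕ) : ℝ) ≤ (2 : ℝ) ^ (Real.logb 2 (g / l0) + 1) :=
          Real.rpow_le_rpow_of_exponent_le (by norm_num) h3
      _ = 2 * (g / l0) := by
          rw [Real.rpow_add (by norm_num), Real.rpow_logb (by norm_num) (by norm_num) (by linarith), Real.rpow_one, mul_comm]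
  calc (2 : ℝ) ^ (⌈Real.logb 2 (g / l0)⌉₊ + 1 - 1) * l0 ≤ 2 * (g / l0) * l0 := mul_le_mul_of_nonneg_right h4 hl0.le
    _ = 2 * g := by field_simp

/-- **part B**: the patch `[lo, phi 0 · u]`.   The chain contains `ghPosA (α(phi 0 u))` and has radius mesh `≤ x⁴⁰` (`ckm_mesh_fun`, `bud_bm_r_cont`, `bud_bm_rh_eq`).
`slope`: `hq - C0 min(r, c_I u)` is nondecreasing (`Cconst`, `hS.clk`, `hS.clk0`), `ckm_hck_slope`;  `mass`: `BudB.buf_mass`-type lower bound `α(lo) ≥ (cb plo/2) u`, `bud_bm_al_rp`;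
`floor`: `Q.lo` and `kbar ≥ κ_j` on the box of the stage;  `o_zero`: `Ls ≤ 2 g`, `r0 + b_buf ≤ phi n · u ≤ phi 0 · u`.     TEX[LL:bud:box-moments] -/
theorem bud_bm_geo_B (hS : BdStd X W Fam K) {n : ℕ} (hn1 : 1 ≤ n) (hn : n ≤ X.J + 1) (hZ : BudZ X W Fam n) (hL : BudB.LSmall X W Fam n)
    (h7 : BudC7al X W Fam) {c : BmC} (hc : c.Ok) (hcv : c.cv = K.cb * X.plo n / 2) (hCv : |K.Cb| * X.cI + 1 ≤ c.Cv) :
    ∃ N0 : ℕ, ∀ i : BdVI X W, BudB.VSt X W Fam n i → N0 ≤ i.F.N → BmEv 1 fun ps =>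
      MbxGB (i.sp ps) (i.rh ps) (i.mbP c) (i.mbO c ps 0) := by
  have hX := hS.fix
  obtain ⟨hplo, -, -, -, hphi⟩ := hX.pat n hn
  obtain ⟨hplo0, -, -, -, hphi0⟩ := hX.pat 0 (Nat.zero_le _)
  obtain ⟨-, hnest, -, -⟩ := BudB.fix_nest hX n hn
  have hcb := hS.cb_pos
  obtain ⟨N1, hA⟩ := bud_bm_geo_A hS hn1 hn hZ hL hc
  obtain ⟨N2, hLs⟩ := hL (K.cb * X.plo n / 4) (by positivity)
  obtain ⟨N3, hcu⟩ := bud_bm_cIu hS
  obtain ⟨N4, hrp⟩ := bud_bm_al_rp hS hn h7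
  refine ⟨max (max N1 N2) (max N3 N4), fun i hi hN => ?_⟩
  have hN1 : N1 ≤ i.F.N := le_trans (le_trans (le_max_left _ _) (le_max_left _ _)) hN
  have hN2 : N2 ≤ i.F.N := le_trans (le_trans (le_max_right _ _) (le_max_left _ _)) hN
  have hN3 : N3 ≤ i.F.N := le_trans (le_trans (le_max_left _ _) (le_max_right _ _)) hN
  have hN4 : N4 ≤ i.F.N := le_trans (le_trans (le_max_right _ _) (le_max_right _ _)) hN
  have A := hA i hi hN1
  have hF := BudB.vst_ok hS hi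
  have hu := BudB.vst_u_pos hS hi
  have hbb := bud_bm_bbuf_pos hS hi
  have hs0 := hc.s0_pos
  have hs1 := hc.s0_le
  have hg0 := BudB.vst_g0 hS hn hi
  have H := bud_hp_aux_ckadm hS hi.1 hg0 i.V.Q
  have hcIu := hcu _ hF hN3
  have hrm := bud_bm_r_mono hF i.V.Q
  have hrc := bud_bm_r_cont hF i.V.Q
  have hr0 := bud_bm_r_zero i.V.Q
  have hr1 := bud_bm_r_one i.V.Q
  have hx : 0 < i.F.x := BdFr.bds_x_pos hF
  -- the buffer
  have hloB : i.V.r0 - c.s0 / 2 * i.V.bbuf ∈ i.V.Buf 1 := ⟨by nlinarith, by nlinarith⟩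
  have hhiB : i.V.r0 + c.s0 / 2 * i.V.bbuf ∈ i.V.Buf 1 := ⟨by nlinarith, by nlinarith⟩
  have hlo : 0 < i.V.r0 - c.s0 / 2 * i.V.bbuf := (BudB.vst_buf_cI hS hn hi le_rfl hloB).1
  have hlo' := (BudB.vst_buf_sub hS hi le_rfl hloB).1
  have hhi' := (BudB.vst_buf_sub hS hi le_rfl hhiB).2
  have htop : i.V.r0 + i.V.bbuf ≤ X.phi n * i.F.u := by
    have := (BudB.vst_V hi).r0_mem.2.2
    rwa [BudB.vst_st hi] at this
  -- the end of the patch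
  have hRp : i.mbRp ∈ Ioo (0 : ℝ) 1 := ⟨mul_pos (hplo0.trans (by linarith [(hX.pat 0 (Nat.zero_le _)).2.1, (hX.pat 0 (Nat.zero_le _)).2.2.1, (hX.pat 0 (Nat.zero_le _)).2.2.2.1])) hu,
    lt_trans (mul_lt_mul_of_pos_right hphi0 hu) hcIu⟩
  have hRpc : i.mbRp < X.cI * i.F.u := mul_lt_mul_of_pos_right hphi0 hu
  obtain ⟨vt, hvt⟩ : ∃ vt : ℝ, vt = i.V.Q.al i.mbRp := ⟨_, rfl⟩
  have hvtI : vt ∈ Ioo (0 : ℝ) 1 := hvt ▸ bud_bm_al_Ioo hF i.V.Q hRp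
  have hrvt : i.V.Q.r vt = i.mbRp := by rw [hvt]; exact i.V.Q.r_al _ ⟨hRp.1.le, hRp.2.le⟩
  have hphin : X.phi n * i.F.u ≤ i.mbRp := mul_le_mul_of_nonneg_right hnest hu.le
  -- the slope
  have hslope : ∀ s t, 0 < s → s ≤ t → t ≤ vt → i.V.r0 - c.s0 / 2 * i.V.bbuf ≤ i.V.Q.r s →
      i.F.C0 * (i.V.Q.r t - i.V.Q.r s) ≤ i.V.Q.hE i.V.g t - i.V.Q.hE i.V.g s := by
    intro s t hs hst ht _
    have ht1 : t < 1 := ht.trans_lt hvtI.2
    have hsI : s ∈ Ioo (0 : ℝ) 1 := ⟨hs, hst.trans_lt ht1⟩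
    have htI : t ∈ Ioo (0 : ℝ) 1 := ⟨hs.trans_le hst, ht1⟩
    have hrt : i.V.Q.r t ≤ i.mbRp := hrvt ▸ hrm ⟨htI.1.le, htI.2.le⟩ ⟨hvtI.1.le, hvtI.2.le⟩ ht
    have hrs : i.V.Q.r s ≤ i.V.Q.r t := hrm ⟨hsI.1.le, hsI.2.le⟩ ⟨htI.1.le, htI.2.le⟩ hst
    have c1 : i.F.C X (i.V.Q.r t) = i.F.C0 := hS.Cconst _ hi.1 _ ⟨(i.V.Q.r_mem t ⟨htI.1.le, htI.2.le⟩).1, by linarith⟩
    have c2 : i.F.C X (i.V.Q.r s) = i.F.C0 := hS.Cconst _ hi.1 _ ⟨(i.V.Q.r_mem s ⟨hsI.1.le, hsI.2.le⟩).1, by linarith⟩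
    have hm : i.F.h i.V.g s ≤ i.F.h i.V.g t := (hS.clk0 _ hi.1 _ hg0).2.mono hsI htI hst
    show _ ≤ bmExt (i.V.Q.hq i.V.g) t - bmExt (i.V.Q.hq i.V.g) s
    rw [bud_bm_ext_eq _ htI, bud_bm_ext_eq _ hsI]
    unfold BdQ.hq
    rw [c1, c2]
    linarith
  obtain ⟨φ, hφc, hφs, hφv⟩ := bud_bm_g_slope H.2 hrc hrm hr0 hr1 hlo hvtI (by rw [hrvt]; nlinarith) hslope
  -- masses
  have hmlo : ∀ v ∈ Icc (0 : ℝ) 1, i.V.r0 - c.s0 / 2 * i.V.bbuf ≤ i.V.Q.r v → c.cv * i.F.u ≤ v := by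
    intro v hv hr
    have a1 : i.V.Q.al (i.V.r0 - c.s0 / 2 * i.V.bbuf) ≤ v := by
      have := bud_bm_al_mono hF i.V.Q ⟨hlo.le, hr.trans (i.V.Q.r_mem v hv).2⟩ (i.V.Q.r_mem v hv) hr
      rwa [i.V.Q.al_r v hv] at this
    have a2 := abs_le.1 (BudB.vst_buf_al hS hi le_rfl hloB)
    have a3 := (hS.beta _ hi.1 0 _ le_rfl hlo.le (BudB.vst_buf_cI hS hn hi le_rfl hloB).2.le).1
    rw [hS.beta_zero _ hi.1, sub_zero, sub_zero] at a3
    have a4 : i.V.d0 ≤ K.cb * X.plo n / 4 * i.F.u := by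
      show i.F.u * i.V.L ≤ _
      rw [mul_comm]
      exact mul_le_mul_of_nonneg_right (hLs i hi hN2) hu.le
    have a5 : K.cb * (X.plo n * i.F.u) ≤ K.cb * (i.V.r0 - c.s0 / 2 * i.V.bbuf) := mul_le_mul_of_nonneg_left hlo' hcb.le
    rw [hcv]
    nlinarith
  have hmhi : vt ≤ c.Cv * i.F.u := by
    rw [hvt]
    exact (hrp i hi hN4).trans (mul_le_mul_of_nonneg_right hCv hu.le)
  -- the chains
  have e1 := ckm_mesh_fun i.F.m (i.V.Q.bE i.V.g) (i.V.Q.hE i.V.g) hrc (δ := i.F.x ^ 40) (by positivity)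
  have e2 := ckm_contains {ghPosA vt} (fun q hq => by
    rw [Finset.mem_singleton.1 hq]
    exact gh_os_posA_ok hvtI.1.le hvtI.2.le)
  have e5 : BmEv 1 CkmCh := ckm_ev_ch fun F hF => hF
  refine ((e1.and e2).and e5).mono fun ps hps => ?_
  obtain ⟨⟨hmesh, hmem⟩, hch⟩ := hps
  have hvps : ghPosA vt ∈ ps := hmem _ (Finset.mem_singleton_self _)
  have hρ : ∀ j, i.rh ps j = i.V.Q.r ((ckM i.F.m (i.V.Q.bE i.V.g) (i.V.Q.hE i.V.g) ps).mass j) := bud_bm_rh_eq i ps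
  have hμ := bud_bm_i_mass_mem i.F.m (i.V.Q.bE i.V.g) (i.V.Q.hE i.V.g) hch
  have hμm := ckm_mass_mono i.F.m (i.V.Q.bE i.V.g) (i.V.Q.hE i.V.g) hch
  have hO0 : i.mbO c ps 0 = ghIdx ps ((ghPosA vt : GhPos) : WithTop GhPos) := by
    unfold BdVI.mbO
    rw [if_pos rfl, hvt]
    rfl
  have hsp : i.sp ps = skSP i.F.m 1 (ckStp 1 (i.V.Q.bE i.V.g) (i.V.Q.hE i.V.g) ps) := rfl
  have hlop : (i.mbP c).lo = i.V.r0 - c.s0 / 2 * i.V.bbuf := rfl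
  have hhip : (i.mbP c).hi = i.V.r0 + c.s0 / 2 * i.V.bbuf := rfl
  exact
    { mono := fun a b hab => by
        rw [hρ, hρ]
        exact hrm (hμ a) (hμ b) (hμm hab)
      mesh := fun k _ _ => by
        rw [hρ, hρ]
        exact (le_abs_self _).trans (hmesh k)
      below := by
        rw [hρ, ckm_mass, if_pos rfl, hr0]
        exact hlo
      slope := fun k hk hlo2 => by
        rw [hO0] at hk
        rw [hρ, hlop] at hlo2
        rw [hρ, hρ, hsp, bud_bm_i_dh]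
        have h1 := bud_bm_i_mass_le i.F.m (i.V.Q.bE i.V.g) (i.V.Q.hE i.V.g) hch hvtI.1.le (Nat.succ_le_of_lt hk)
        have h2 := hμm (Nat.le_succ k)
        have h3 := ckm_hck_slope i.F.m (i.V.Q.bE i.V.g) H.2 hφc hφs hch (Nat.le_succ k) ((Nat.succ_le_of_lt hk).trans (brg_t_idx_coe_le ps _))
        rw [hφv _ (hμ (k + 1)) (hlo2.trans (hrm (hμ k) (hμ (k + 1)) h2)) h1, hφv _ (hμ k) hlo2 (h2.trans h1)] at h3
        show i.F.C0 * _ ≤ _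
        linarith
      mass := fun k hk hlo2 => by
        rw [hO0] at hk
        rw [hρ, hlop] at hlo2
        rw [hsp, bud_bm_i_v]
        have h1 := bud_bm_i_mass_le i.F.m (i.V.Q.bE i.V.g) (i.V.Q.hE i.V.g) hch hvtI.1.le (Nat.succ_le_of_lt hk)
        have h2 := hμm (Nat.le_succ k)
        exact ⟨(hmlo _ (hμ k) hlo2).trans h2, h1.trans hmhi⟩
      floor := fun k hlo2 hhi2 => by
        rw [hρ, hlop] at hlo2
        rw [hρ, hhip] at hhi2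
        rw [hρ, hρ, hsp, bud_bm_i_dv]
        have h2 := hrm (hμ k) (hμ (k + 1)) (hμm (Nat.le_succ k))
        have h3 := bud_bm_floor hX hF i.V.Q (i.V.Q.r_mem _ (hμ k)).1 h2 (i.V.Q.r_mem _ (hμ (k + 1))).2
          (by rw [hi.2.1.2.1, BudB.vst_st hi]; linarith) (by rw [hi.2.1.2.2, BudB.vst_st hi]; linarith)
        rw [i.V.Q.al_r _ (hμ k), i.V.Q.al_r _ (hμ (k + 1))] at h3
        exact h3
      o_zero := by
        rw [hO0, hρ, ckm_idx_mass _ _ _ hch hvps, bud_bm_i_posA_u, hrvt, hhip]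
        have hl0g : i.F.x ^ 40 ≤ c.s0 * i.V.bbuf / (8 * c.nb) := by
          have h1 := A.fit
          have h2 : 0 ≤ (i.mbP c).gam * ((i.mbP c).d0 + ((i.mbP c).hi - (i.mbP c).lo)) :=
            mul_nonneg A.gam_pos.le (by linarith [A.d0_pos, A.lohi])
          have h3 : (i.mbP c).eta ≤ (i.mbP c).g := by linarith
          exact h3
        have hLs : (i.mbP c).Ls ≤ 2 * (c.s0 * i.V.bbuf / (8 * c.nb)) := bud_bm_Ls_le (by positivity) hl0g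
        have hnb1 : (1 : ℝ) ≤ c.nb := by exact_mod_cast hc.nb_pos
        have hg8 : c.s0 * i.V.bbuf / (8 * c.nb) ≤ c.s0 * i.V.bbuf / 8 :=
          div_le_div_of_nonneg_left (by positivity) (by norm_num) (by linarith)
        nlinarith
      o_le := by
        rw [hO0, hsp, bud_bm_i_n]
        exact brg_t_idx_coe_le ps _ }

/-- **part C**: oscillation of `S` between cuts.   `S_k` of the chain is `d0/2`-close to `skCS` at the position of the cut (`ckm_S_close`); `skCS` is monotone in the position (`exit_clk_SB`), so it lies between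
`Sq v'` (`v' < v_k`, `v' ↑ v_k`, `r` continuous, `lo` is strictly inside `Buf s0`) and `Sq v_k` (`hW.S`).     TEX[LL:bud:box-moments] -/
theorem bud_bm_geo_S (hS : BdStd X W Fam K) (hW : W.IsSk) {n : ℕ} (hn : n ≤ X.J + 1) (hZ : BudZ X W Fam n) (hL : BudB.LSmall X W Fam n)
    {c : BmC} (hc : c.Ok) {Cg : ℝ} (hO : BudBmOsc X W Fam n Cg c.s0) (hCS : Cg + 1 ≤ c.CS) :
    ∃ N0 : ℕ, ∀ i : BdVI X W, BudB.VSt X W Fam n i → N0 ≤ i.F.N → BmEv 1 fun ps =>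
      ∀ k l, k ≤ l → (i.mbP c).lo ≤ i.rh ps k → i.rh ps l ≤ (i.mbP c).hi →
        (i.sp ps).S l - (i.sp ps).S k ≤ (i.mbP c).CS * ((i.mbP c).d0 + (i.rh ps l - i.rh ps k)) := by
  obtain ⟨N1, hO⟩ := hO
  obtain ⟨N2, hLp⟩ := BudB.vst_L_ge hS hZ
  obtain ⟨N3, hcu⟩ := bud_bm_cIu hS
  refine ⟨max N1 (max N2 N3), fun i hi hN => ?_⟩
  have hN1 : N1 ≤ i.F.N := le_trans (le_max_left _ _) hN
  have hN2 : N2 ≤ i.F.N := le_trans (le_trans (le_max_left _ _) (le_max_right _ _)) hN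
  have hN3 : N3 ≤ i.F.N := le_trans (le_trans (le_max_right _ _) (le_max_right _ _)) hN
  have hF := BudB.vst_ok hS hi
  have hu := BudB.vst_u_pos hS hi
  have hd0 : 0 < i.V.d0 := mul_pos hu (hLp i hi hN2).2
  have hbb := bud_bm_bbuf_pos hS hi
  have hs0 := hc.s0_pos
  have hs1 := hc.s0_le
  have hm := bud_hp_aux_m_pos hF
  have hg0 := BudB.vst_g0 hS hn hi
  have H := bud_hp_aux_ckadm hS hi.1 hg0 i.V.Q
  have hclk := hS.clk i.F hi.1 i.V.g hg0 i.V.Q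
  obtain ⟨-, hosc⟩ := hO i hi hN1
  have hr0B : i.V.r0 ∈ i.V.Buf c.s0 := ⟨by nlinarith, by nlinarith⟩
  have hCg : 0 ≤ Cg := by
    have := (hosc _ hr0B _ hr0B le_rfl).1
    rw [sub_self, sub_self, add_zero] at this
    exact nonneg_of_mul_nonneg_left this hd0
  have hloB : i.V.r0 - c.s0 / 2 * i.V.bbuf ∈ i.V.Buf c.s0 := ⟨by nlinarith, by nlinarith⟩
  have hhiB : i.V.r0 + c.s0 / 2 * i.V.bbuf ∈ i.V.Buf c.s0 := ⟨by nlinarith, by nlinarith⟩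
  have hlo : 0 < i.V.r0 - c.s0 / 2 * i.V.bbuf := (BudB.vst_buf_cI hS hn hi hs1 hloB).1
  have hhi : i.V.r0 + c.s0 / 2 * i.V.bbuf < 1 := (BudB.vst_buf_cI hS hn hi hs1 hhiB).2.trans (hcu _ hF hN3)
  obtain ⟨ε, hε⟩ : ∃ ε : ℝ, ε = min (c.s0 / 2 * i.V.bbuf) (i.V.d0 / (4 * (Cg + 1))) := ⟨_, rfl⟩
  have hε0 : 0 < ε := by rw [hε]; exact lt_min (by positivity) (by positivity)
  have hε1 : ε ≤ c.s0 / 2 * i.V.bbuf := by rw [hε]; exact min_le_left _ _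
  have hε2 : Cg * ε ≤ i.V.d0 / 4 := by
    have h1 : ε ≤ i.V.d0 / (4 * (Cg + 1)) := by rw [hε]; exact min_le_right _ _
    calc Cg * ε ≤ (Cg + 1) * (i.V.d0 / (4 * (Cg + 1))) := mul_le_mul (by linarith) h1 hε0.le (by linarith)
      _ = i.V.d0 / 4 := by field_simp
  have hrm := bud_bm_r_mono hF i.V.Q
  have hosc' : ∀ s t, 0 < s → s ≤ t → t < 1 → i.V.r0 - c.s0 / 2 * i.V.bbuf - ε ≤ i.V.Q.r s → i.V.Q.r t ≤ i.V.r0 + c.s0 / 2 * i.V.bbuf →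
      skCS i.F.m 1 (i.V.Q.bE i.V.g) (i.V.Q.hE i.V.g) (ghPosA t) - skCS i.F.m 1 (i.V.Q.bE i.V.g) (i.V.Q.hE i.V.g) (ghPosA s)
        ≤ Cg * (i.V.d0 + (i.V.Q.r t - i.V.Q.r s)) := by
    intro s t hs hst ht h1 h2
    have hsI : s ∈ Icc (0 : ℝ) 1 := ⟨hs.le, (hst.trans ht.le)⟩
    have htI : t ∈ Icc (0 : ℝ) 1 := ⟨hs.le.trans hst, ht.le⟩
    have hrst := hrm hsI htI hst
    have a1 : i.V.Q.r s ∈ i.V.Buf c.s0 := ⟨by nlinarith, by nlinarith⟩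
    have a2 : i.V.Q.r t ∈ i.V.Buf c.s0 := ⟨by nlinarith, by nlinarith⟩
    have a3 := (hosc _ a1 _ a2 hrst).1
    rw [i.V.Q.al_r s hsI, i.V.Q.al_r t htI] at a3
    have e1 : i.V.Q.Sq W i.V.g t = skCS i.F.m 1 (i.V.Q.bE i.V.g) (i.V.Q.hE i.V.g) (ghPosA t) :=
      hW.S _ hm _ _ hclk.1 hclk.2 t ⟨hs.trans_le hst, ht⟩
    have e2 : i.V.Q.Sq W i.V.g s = skCS i.F.m 1 (i.V.Q.bE i.V.g) (i.V.Q.hE i.V.g) (ghPosA s) :=
      hW.S _ hm _ _ hclk.1 hclk.2 s ⟨hs, hst.trans_lt ht⟩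
    rw [e1, e2] at a3
    exact a3
  have e4 := ckm_S_close hm H (δ := i.V.d0 / 4) (by positivity)
  have e5 : BmEv 1 CkmCh := ckm_ev_ch fun F hF => hF
  refine (e4.and e5).mono fun ps hps k l hkl hk hl => ?_
  obtain ⟨hcl, hch⟩ := hps
  have hρ : ∀ j, i.rh ps j = i.V.Q.r ((ckM i.F.m (i.V.Q.bE i.V.g) (i.V.Q.hE i.V.g) ps).mass j) := bud_bm_rh_eq i ps
  rw [hρ] at hk hl
  have key := bud_bm_g_Sosc hm H (bud_bm_r_cont hF i.V.Q) hrm (bud_bm_r_zero i.V.Q) (bud_bm_r_one i.V.Q) hlo hhi hε0 hCg hosc' hch hcl hkl hk hl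
  rw [bud_bm_i_S, bud_bm_i_S] at key
  rw [hρ, hρ]
  have hD : 0 ≤ i.V.Q.r ((ckM i.F.m (i.V.Q.bE i.V.g) (i.V.Q.hE i.V.g) ps).mass l) - i.V.Q.r ((ckM i.F.m (i.V.Q.bE i.V.g) (i.V.Q.hE i.V.g) ps).mass k) :=
    sub_nonneg.2 (hrm (bud_bm_i_mass_mem _ _ _ hch k) (bud_bm_i_mass_mem _ _ _ hch l) (ckm_mass_mono _ _ _ hch hkl))
  show (skSP i.F.m 1 (ckStp 1 (i.V.Q.bE i.V.g) (i.V.Q.hE i.V.g) ps)).S l - (skSP i.F.m 1 (ckStp 1 (i.V.Q.bE i.V.g) (i.V.Q.hE i.V.g) ps)).S k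
    ≤ c.CS * (i.V.d0 + _)
  refine key.trans ?_
  set D := i.V.Q.r ((ckM i.F.m (i.V.Q.bE i.V.g) (i.V.Q.hE i.V.g) ps).mass l) - i.V.Q.r ((ckM i.F.m (i.V.Q.bE i.V.g) (i.V.Q.hE i.V.g) ps).mass k)
  have h9 : (Cg + 1) * (i.V.d0 + D) ≤ c.CS * (i.V.d0 + D) := mul_le_mul_of_nonneg_right hCS (by linarith)
  nlinarith

/-- the number of outer blocks -/
theorem bud_bm_W_facts {Gm y : ℝ} (hG : 4 ≤ Gm) (hy0 : 0 < y) (hy1 : y < 1) :
    1 ≤ ⌈Real.logb Gm (1 / y)⌉₊ ∧ (∀ j < ⌈Real.logb Gm (1 / y)⌉₊, Gm ^ j * y < 1) ∧ 1 ≤ Gm ^ ⌈Real.logb Gm (1 / y)⌉₊ * y := by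
  have hG1 : 1 < Gm := by linarith
  have hinv : 1 < 1 / y := by rw [lt_div_iff₀ hy0]; linarith
  have hpos : 0 < Real.logb Gm (1 / y) := Real.logb_pos hG1 hinv
  refine ⟨Nat.one_le_iff_ne_zero.2 (Nat.ceil_pos.2 hpos).ne', fun j hj => ?_, ?_⟩
  · have h1 : (j : ℝ) < Real.logb Gm (1 / y) := Nat.lt_ceil.1 hj
    rw [Real.lt_logb_iff_rpow_lt hG1 (by positivity), Real.rpow_natCast, lt_div_iff₀ hy0] at h1
    exact h1
  · have h1 : Real.logb Gm (1 / y) ≤ (⌈Real.logb Gm (1 / y)⌉₊ : ℝ) := Nat.le_ceil _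
    rw [Real.logb_le_iff_le_rpow hG1 (by positivity), Real.rpow_natCast, div_le_iff₀ hy0] at h1
    exact h1

/-- `x ≤ C_U u` -/
theorem bud_bm_x_le_u (hX : X.Ok) {F : BdFr} (hF : F.Ok X) : F.x ≤ X.CU * F.u := by
  refine le_trans ?_ hF.u_lo
  unfold BdFr.U
  have hx := BdFr.bds_x_pos hF
  have hl := BdFr.bds_lam_pos hF
  have hl1 := (BdFr.bds_lam_lt_one hF hX).le
  have hs : 0 ≤ X.sS / 2 := by
    unfold BdFix.sS
    have := hX.tau_le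
    linarith
  have h1 : 1 ≤ F.lam ^ (-(X.sS / 2)) := Real.one_le_rpow_of_pos_of_le_one_of_nonpos hl hl1 (by linarith)
  nlinarith

/-- powers of `x` are negligible against `u` -/
theorem bud_bm_x_pow_u (hX : X.Ok) {ε : ℝ} (hε : 0 < ε) (k : ℕ) (hk : 1 ≤ k) :
    ∃ N0 : ℕ, ∀ F : BdFr, F.Ok X → N0 ≤ F.N → F.x ^ (k + 1) ≤ ε * F.u := by
  have hCU := hX.CU_pos
  obtain ⟨N0, h0⟩ := bcs_num_small (k : ℝ) (ε / X.CU) (by exact_mod_cast hk) (by positivity)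
  refine ⟨N0, fun F hF hN => ?_⟩
  have h1 := h0 F hN
  rw [Real.rpow_natCast] at h1
  have hx := BdFr.bds_x_pos hF
  have hu := BdFr.bds_u_pos hF hX
  calc F.x ^ (k + 1) = F.x ^ k * F.x := pow_succ _ _
    _ ≤ ε / X.CU * (X.CU * F.u) := mul_le_mul h1 (bud_bm_x_le_u hX hF) hx.le (by positivity)
    _ = ε * F.u := by field_simp

/-- the patches of the stages `≥ 1` end strictly before the widest patch -/
theorem bud_bm_phi_lt (hX : X.Ok) {n : ℕ} (hn1 : 1 ≤ n) (hn : n ≤ X.J + 1) : X.phi n < X.phi 0 := by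
  have key : ∀ k, k ≤ X.J → X.phi (k + 1) < X.phi k := fun k hk =>
    (hX.nest k hk).2.trans (hX.pat k (by omega)).2.2.2.1
  induction n, hn1 using Nat.le_induction with
  | base => exact key 0 (by omega)
  | succ k hk ih => exact (key k (by omega)).trans (ih (by omega))

set_option maxHeartbeats 1600000 in
/-- **part D**: the outer cuts.   Block `0`: projection interval `[mbRq, mbRp]` in the patch of constant strength (slope `C0`; the chain contains both positions).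
Blocks `j ≥ 1`: `Cm5Clk.dy` at `w = mbW (j-1) ≥ u`: `hpTh w ≤ H(Gm w) - H(w) = hlen (nd w) (nd (Gm w))`, `ckm_nd`; `P.v (nd w) ≥ w`; `hmin = C0 x⁴⁰ ≤ ch c_I u C0/log N ≤ hpTh w` (`cm_re_mono`).
`Ko ≥ 1`, `Gm^(Ko-1) Cv u < 1 ≤ Gm^Ko Cv u`.     TEX[LL:bud:box-moments] l.1503-1506 -/
theorem bud_bm_geo_D (hS : BdStd X W Fam K) {n : ℕ} (hn1 : 1 ≤ n) (hn : n ≤ X.J + 1) (hZ : BudZ X W Fam n) (hL : BudB.LSmall X W Fam n)
    (h7 : BudC7al X W Fam) {c : BmC} (hc : c.Ok) (hcv : c.cv = K.cb * X.plo n / 2) (hCv : |K.Cb| * X.cI + 1 ≤ c.Cv) (hCI : X.cI ≤ c.Cv)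
    (hclk : BudBmClk X W Fam c.Gm c.ch c.ca) :
    ∃ N0 : ℕ, ∀ i : BdVI X W, BudB.VSt X W Fam n i → N0 ≤ i.F.N → BmEv 1 fun ps =>
      MbxGD (i.sp ps) (i.rh ps) (i.mbP c) (i.mbO c ps) (i.mbPo c ps) (i.mbMo c) (i.mbSo c) (c.cv * i.F.u) (i.F.C0 * i.F.x ^ 40) := by
  classical
  have hX := hS.fix
  obtain ⟨hplo, -, -, -, hphi⟩ := hX.pat n hn
  obtain ⟨hplo0, h01, h02, h03, hphi0⟩ := hX.pat 0 (Nat.zero_le _)
  have hphin := bud_bm_phi_lt hX hn1 hn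
  have hcb := hS.cb_pos
  have hCv0 : 0 < c.Cv := by linarith [hc.Cv_ge]
  have hG1 : 1 ≤ c.Gm := by linarith [hc.Gm_ge]
  obtain ⟨N1, hus⟩ := bud_env_u_small hX (ε := 1 / (2 * c.Cv)) (by positivity)
  obtain ⟨N2, hLs⟩ := hL (K.cb * X.plo n / 4) (by positivity)
  obtain ⟨N3, hcu⟩ := bud_bm_cIu hS
  obtain ⟨N4, hrp⟩ := bud_bm_al_rp hS hn h7
  obtain ⟨N5, hx1⟩ := bud_bm_x_pow_u hX (ε := (X.phi 0 - X.phi n) / 2) (by linarith) 39 (by norm_num)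
  obtain ⟨N6, hx2⟩ := bud_bm_x_pow_u hX (ε := c.ca) hc.ca_pos 27 (by norm_num)
  obtain ⟨N7, hclk⟩ := hclk
  refine ⟨N1 + N2 + N3 + N4 + N5 + N6 + N7, fun i hi hN => ?_⟩
  have hF := BudB.vst_ok hS hi
  have hu := BudB.vst_u_pos hS hi
  have hbb := bud_bm_bbuf_pos hS hi
  have hs0 := hc.s0_pos
  have hs1 := hc.s0_le
  have hg0 := BudB.vst_g0 hS hn hi
  have H := bud_hp_aux_ckadm hS hi.1 hg0 i.V.Q
  have hcIu := hcu _ hF (by omega)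
  have hrm := bud_bm_r_mono hF i.V.Q
  have hrc := bud_bm_r_cont hF i.V.Q
  have hr0 := bud_bm_r_zero i.V.Q
  have hr1 := bud_bm_r_one i.V.Q
  have hx : 0 < i.F.x := BdFr.bds_x_pos hF
  have hm : 0 < i.F.m := bud_hp_aux_m_pos hF
  have hmR : (0 : ℝ) < i.F.m := by exact_mod_cast hm
  have hC0 : 0 < i.F.C0 := bud_hp_aux_C0_pos hX hF
  have hl := BdFr.bds_lam_pos hF
  have hst := BudB.vst_st hi
  -- the buffer
  have hloB : i.V.r0 - c.s0 / 2 * i.V.bbuf ∈ i.V.Buf 1 := ⟨by nlinarith, by nlinarith⟩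
  have hlo : 0 < i.V.r0 - c.s0 / 2 * i.V.bbuf := (BudB.vst_buf_cI hS hn hi le_rfl hloB).1
  have hlo' := (BudB.vst_buf_sub hS hi le_rfl hloB).1
  have htop : i.V.r0 + i.V.bbuf ≤ X.phi n * i.F.u := by
    have := (BudB.vst_V hi).r0_mem.2.2
    rwa [hst] at this
  have hhilt : i.V.r0 + c.s0 / 2 * i.V.bbuf < X.phi n * i.F.u := by nlinarith
  -- the two radii of the block `0`
  have hRpe : i.mbRp = X.phi 0 * i.F.u := rfl
  have hRqe : i.mbRq = (X.phi 0 + X.phi n) / 2 * i.F.u := by unfold BdVI.mbRq; rw [hst]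
  have hphi00 : 0 < X.phi 0 := by linarith
  have hphin0 : 0 < X.phi n := by linarith [(hX.pat n hn).2.1, (hX.pat n hn).2.2.1, (hX.pat n hn).2.2.2.1]
  have hRp : i.mbRp ∈ Ioo (0 : ℝ) 1 := ⟨mul_pos hphi00 hu, lt_trans (mul_lt_mul_of_pos_right hphi0 hu) hcIu⟩
  have hRqp : i.mbRq < i.mbRp := by rw [hRpe, hRqe]; exact mul_lt_mul_of_pos_right (by linarith) hu
  have hRq : i.mbRq ∈ Ioo (0 : ℝ) 1 := ⟨by rw [hRqe]; positivity, hRqp.trans hRp.2⟩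
  have hRqn : X.phi n * i.F.u < i.mbRq := by rw [hRqe]; exact mul_lt_mul_of_pos_right (by linarith) hu
  have hRpc : i.mbRp < X.cI * i.F.u := mul_lt_mul_of_pos_right hphi0 hu
  obtain ⟨vt, hvt⟩ : ∃ vt : ℝ, vt = i.V.Q.al i.mbRp := ⟨_, rfl⟩
  obtain ⟨vq, hvq⟩ : ∃ vq : ℝ, vq = i.V.Q.al i.mbRq := ⟨_, rfl⟩
  have hvtI : vt ∈ Ioo (0 : ℝ) 1 := hvt ▸ bud_bm_al_Ioo hF i.V.Q hRp
  have hvqI : vq ∈ Ioo (0 : ℝ) 1 := hvq ▸ bud_bm_al_Ioo hF i.V.Q hRq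
  have hrvt : i.V.Q.r vt = i.mbRp := by rw [hvt]; exact i.V.Q.r_al _ ⟨hRp.1.le, hRp.2.le⟩
  have hrvq : i.V.Q.r vq = i.mbRq := by rw [hvq]; exact i.V.Q.r_al _ ⟨hRq.1.le, hRq.2.le⟩
  have hvqt : vq < vt := by
    by_contra hcon
    have := hrm ⟨hvtI.1.le, hvtI.2.le⟩ ⟨hvqI.1.le, hvqI.2.le⟩ (not_lt.1 hcon)
    rw [hrvt, hrvq] at this
    linarith
  -- the slope in the patch
  have hslope : ∀ s t, 0 < s → s ≤ t → t ≤ vt → i.V.r0 - c.s0 / 2 * i.V.bbuf ≤ i.V.Q.r s →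
      i.F.C0 * (i.V.Q.r t - i.V.Q.r s) ≤ i.V.Q.hE i.V.g t - i.V.Q.hE i.V.g s := by
    intro s t hs hst ht _
    have ht1 : t < 1 := ht.trans_lt hvtI.2
    have hsI : s ∈ Ioo (0 : ℝ) 1 := ⟨hs, hst.trans_lt ht1⟩
    have htI : t ∈ Ioo (0 : ℝ) 1 := ⟨hs.trans_le hst, ht1⟩
    have hrt : i.V.Q.r t ≤ i.mbRp := hrvt ▸ hrm ⟨htI.1.le, htI.2.le⟩ ⟨hvtI.1.le, hvtI.2.le⟩ ht
    have hrs : i.V.Q.r s ≤ i.V.Q.r t := hrm ⟨hsI.1.le, hsI.2.le⟩ ⟨htI.1.le, htI.2.le⟩ hst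
    have c1 : i.F.C X (i.V.Q.r t) = i.F.C0 := hS.Cconst _ hi.1 _ ⟨(i.V.Q.r_mem t ⟨htI.1.le, htI.2.le⟩).1, by linarith⟩
    have c2 : i.F.C X (i.V.Q.r s) = i.F.C0 := hS.Cconst _ hi.1 _ ⟨(i.V.Q.r_mem s ⟨hsI.1.le, hsI.2.le⟩).1, by linarith⟩
    have hm' : i.F.h i.V.g s ≤ i.F.h i.V.g t := (hS.clk0 _ hi.1 _ hg0).2.mono hsI htI hst
    show _ ≤ bmExt (i.V.Q.hq i.V.g) t - bmExt (i.V.Q.hq i.V.g) s
    rw [bud_bm_ext_eq _ htI, bud_bm_ext_eq _ hsI]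
    unfold BdQ.hq
    rw [c1, c2]
    linarith
  obtain ⟨φ, hφc, hφs, hφv⟩ := bud_bm_g_slope H.2 hrc hrm hr0 hr1 hlo hvtI (by rw [hrvt]; nlinarith) hslope
  -- masses
  have hmlo : ∀ v ∈ Icc (0 : ℝ) 1, i.V.r0 - c.s0 / 2 * i.V.bbuf ≤ i.V.Q.r v → c.cv * i.F.u ≤ v := by
    intro v hv hr
    have a1 : i.V.Q.al (i.V.r0 - c.s0 / 2 * i.V.bbuf) ≤ v := by
      have := bud_bm_al_mono hF i.V.Q ⟨hlo.le, hr.trans (i.V.Q.r_mem v hv).2⟩ (i.V.Q.r_mem v hv) hr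
      rwa [i.V.Q.al_r v hv] at this
    have a2 := abs_le.1 (BudB.vst_buf_al hS hi le_rfl hloB)
    have a3 := (hS.beta _ hi.1 0 _ le_rfl hlo.le (BudB.vst_buf_cI hS hn hi le_rfl hloB).2.le).1
    rw [hS.beta_zero _ hi.1, sub_zero, sub_zero] at a3
    have a4 : i.V.d0 ≤ K.cb * X.plo n / 4 * i.F.u := by
      show i.F.u * i.V.L ≤ _
      rw [mul_comm]
      exact mul_le_mul_of_nonneg_right (hLs i hi (by omega)) hu.le
    have a5 : K.cb * (X.plo n * i.F.u) ≤ K.cb * (i.V.r0 - c.s0 / 2 * i.V.bbuf) := mul_le_mul_of_nonneg_left hlo' hcb.le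
    have a6 : 0 ≤ K.cb * (X.plo n * i.F.u) := by positivity
    have a7 := a2.1
    rw [hcv]
    linarith
  -- the outer masses
  obtain ⟨y, hy⟩ : ∃ y : ℝ, y = c.Cv * i.F.u := ⟨_, rfl⟩
  have hy0 : 0 < y := by rw [hy]; positivity
  have hy1 : y < 1 := by
    have h1 := hus _ hF (by omega : N1 ≤ i.F.N)
    have h2 : c.Cv * i.F.u ≤ c.Cv * (1 / (2 * c.Cv)) := mul_le_mul_of_nonneg_left h1 hCv0.le
    have h3 : c.Cv * (1 / (2 * c.Cv)) = 1 / 2 := by field_simp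
    rw [hy]
    linarith
  have hvty : vt ≤ y := by
    rw [hvt, hy]
    exact (hrp i hi (by omega)).trans (mul_le_mul_of_nonneg_right hCv hu.le)
  have huy : i.F.u ≤ y := by rw [hy]; nlinarith [hc.Cv_ge]
  obtain ⟨Ko, hKo⟩ : ∃ Ko : ℕ, Ko = (i.mbP c).Ko := ⟨_, rfl⟩
  have hKoe : Ko = ⌈Real.logb c.Gm (1 / y)⌉₊ := by rw [hKo, hy]; rfl
  obtain ⟨hKo1, hWlt, hWtop⟩ := bud_bm_W_facts hc.Gm_ge hy0 hy1
  rw [← hKoe] at hKo1 hWlt hWtop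
  have hWd : ∀ j, i.mbW c j = min (c.Gm ^ j * y) 1 := fun j => by rw [hy]; rfl
  have hW : ∀ j < Ko, i.mbW c j = c.Gm ^ j * y := fun j hj => by rw [hWd]; exact min_eq_left (hWlt j hj).le
  have hWKo : i.mbW c Ko = 1 := by rw [hWd]; exact min_eq_right hWtop
  have hWmono : Monotone (i.mbW c) := fun a b hab => by
    rw [hWd, hWd]
    exact min_le_min (mul_le_mul_of_nonneg_right (pow_le_pow_right₀ hG1 hab) hy0.le) le_rfl
  have hW0 : ∀ j, 0 < i.mbW c j := fun j => by rw [hWd]; exact lt_min (by positivity) one_pos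
  have hW1 : ∀ j, i.mbW c j ≤ 1 := fun j => by rw [hWd]; exact min_le_right _ _
  have hyW : ∀ j, y ≤ i.mbW c j := fun j => by
    have := hWmono (Nat.zero_le j)
    rwa [hW 0 hKo1, pow_zero, one_mul] at this
  -- arithmetic
  have hxa : i.F.x ^ 40 ≤ i.mbRp - i.mbRq := by
    have := hx1 _ hF (by omega : N5 ≤ i.F.N)
    rw [hRpe, hRqe]
    linarith
  have hxb : i.F.C0 * i.F.x ^ 40 ≤ c.ca * i.F.lam * i.F.u ^ 3 := by
    have h1 := hx2 _ hF (by omega : N6 ≤ i.F.N)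
    have h2 : i.F.x ^ 12 ≤ i.F.lam := by
      have := hF.lam_lo
      rwa [show (12 : ℝ) = ((12 : ℕ) : ℝ) by norm_num, Real.rpow_natCast] at this
    have h3 : i.F.Lam ≤ 1 := BdFr.bds_lam_rpow_le_one hF hX (by norm_num)
    have h4 : 0 < i.F.Lam := Real.rpow_pos_of_pos hl _
    have h5 : i.F.x ^ 40 ≤ i.F.lam * (c.ca * i.F.u) := by
      calc i.F.x ^ 40 = i.F.x ^ 12 * i.F.x ^ (27 + 1) := by rw [← pow_add]
        _ ≤ i.F.lam * (c.ca * i.F.u) := mul_le_mul h2 h1 (by positivity) hl.le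
    calc i.F.C0 * i.F.x ^ 40 = i.F.u ^ 2 * i.F.Lam * i.F.x ^ 40 := rfl
      _ ≤ i.F.u ^ 2 * 1 * (i.F.lam * (c.ca * i.F.u)) :=
          mul_le_mul (mul_le_mul_of_nonneg_left h3 (by positivity)) h5 (by positivity) (by positivity)
      _ = c.ca * i.F.lam * i.F.u ^ 3 := by ring
  -- the chains
  have e1 := hclk ⟨i.F, i.V.g, i.V.Q⟩ (bud_bm_okS hS hn hi) (by show N7 ≤ i.F.N; omega) 1 one_pos
  have e2 := ckm_contains ({ghPosA vt, ghPosA vq} ∪ (Finset.range Ko).image fun j => ghPosA (i.mbW c j)) (fun q hq => by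
    rcases Finset.mem_union.1 hq with h | h
    · rcases Finset.mem_insert.1 h with h | h
      · rw [h]; exact gh_os_posA_ok hvtI.1.le hvtI.2.le
      · rw [Finset.mem_singleton.1 h]; exact gh_os_posA_ok hvqI.1.le hvqI.2.le
    · obtain ⟨j, -, rfl⟩ := Finset.mem_image.1 h
      exact gh_os_posA_ok (hW0 j).le (hW1 j))
  have e5 : BmEv 1 CkmCh := ckm_ev_ch fun F hF => hF
  refine ((e1.and e2).and e5).mono fun ps hps => ?_
  obtain ⟨⟨hC, hmem⟩, hch⟩ := hps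
  have hvtps : ghPosA vt ∈ ps := hmem _ (Finset.mem_union_left _ (Finset.mem_insert_self _ _))
  have hvqps : ghPosA vq ∈ ps := hmem _ (Finset.mem_union_left _ (Finset.mem_insert_of_mem (Finset.mem_singleton_self _)))
  have hWps : ∀ j < Ko, ghPosA (i.mbW c j) ∈ ps := fun j hj =>
    hmem _ (Finset.mem_union_right _ (Finset.mem_image.2 ⟨j, Finset.mem_range.2 hj, rfl⟩))
  obtain ⟨M, hM⟩ : ∃ M, M = ckM i.F.m (i.V.Q.bE i.V.g) (i.V.Q.hE i.V.g) ps := ⟨_, rfl⟩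
  have hCM : Cm5Clk M i.F.u (1 / (8 * c.Gm ^ 2)) c.Gm 1 (i.F.hpTh X c.ch c.ca) (fun w => c.ca * i.F.lam * w ^ 2 / 2) := by rw [hM]; exact hC
  have hρ : ∀ j, i.rh ps j = i.V.Q.r (M.mass j) := by rw [hM]; exact bud_bm_rh_eq i ps
  have hμ : ∀ j, M.mass j ∈ Icc (0 : ℝ) 1 := by rw [hM]; exact bud_bm_i_mass_mem i.F.m (i.V.Q.bE i.V.g) (i.V.Q.hE i.V.g) hch
  have hμm : Monotone M.mass := by rw [hM]; exact ckm_mass_mono i.F.m (i.V.Q.bE i.V.g) (i.V.Q.hE i.V.g) hch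
  have hidm : ∀ v, ghPosA v ∈ ps → M.mass (ghIdx ps ((ghPosA v : GhPos) : WithTop GhPos)) = v := fun v hv => by
    rw [hM, ckm_idx_mass _ _ _ hch hv, bud_bm_i_posA_u]
  have hsp : i.sp ps = skSP i.F.m 1 (ckStp 1 (i.V.Q.bE i.V.g) (i.V.Q.hE i.V.g) ps) := rfl
  have hv : ∀ k, (i.sp ps).v k = M.mass (k + 1) := fun k => by rw [hsp, hM]; exact bud_bm_i_v _ _ _ _ k
  have hhl : ∀ {a b : ℕ}, a ≤ b → (i.sp ps).hlen a b = M.hck b - M.hck a := fun {a b} hab => by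
    rw [hsp, hM]; exact bud_bm_i_hlen _ _ _ _ hab
  have hO0 : i.mbO c ps 0 = ghIdx ps ((ghPosA vt : GhPos) : WithTop GhPos) := by
    unfold BdVI.mbO
    rw [if_pos rfl, hvt]
    rfl
  have hOj : ∀ j, j ≠ 0 → j < Ko → i.mbO c ps j = ghIdx ps ((ghPosA (i.mbW c j) : GhPos) : WithTop GhPos) := fun j h0 hj => by
    unfold BdVI.mbO
    rw [if_neg h0, if_pos (hKo ▸ hj)]
    rfl
  have hOt : ∀ j, j ≠ 0 → Ko ≤ j → i.mbO c ps j = ps.length + 1 := fun j h0 hj => by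
    unfold BdVI.mbO
    rw [if_neg h0, if_neg (by rw [← hKo]; omega)]
  have hP0 : i.mbPo c ps 0 = ghIdx ps ((ghPosA vq : GhPos) : WithTop GhPos) := by
    unfold BdVI.mbPo
    rw [if_pos rfl, hvq]
    rfl
  have hPj : ∀ j, j ≠ 0 → i.mbPo c ps j = ghIdx ps ((ghPosA (i.mbW c (j - 1)) : GhPos) : WithTop GhPos) := fun j h0 => by
    unfold BdVI.mbPo
    rw [if_neg h0]
    rfl
  have hlen : ∀ v : ℝ, ghIdx ps ((ghPosA v : GhPos) : WithTop GhPos) ≤ ps.length := fun v => brg_t_idx_coe_le ps _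
  have hhip : (i.mbP c).hi = i.V.r0 + c.s0 / 2 * i.V.bbuf := rfl
  refine ⟨?_, ?_, ?_, ?_⟩
  · -- monotone
    refine monotone_nat_of_le_succ fun j => ?_
    by_cases hj0 : j = 0
    · subst hj0
      rw [hO0]
      by_cases h1 : 0 + 1 < Ko
      · rw [hOj (0 + 1) (by omega) h1]
        exact bud_bm_i_idx_mono ps (hvty.trans (hyW _))
      · rw [hOt (0 + 1) (by omega) (by omega)]
        exact (hlen _).trans (Nat.le_succ _)
    · by_cases h1 : j + 1 < Ko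
      · rw [hOj j hj0 (by omega), hOj (j + 1) (by omega) h1]
        exact bud_bm_i_idx_mono ps (hWmono (Nat.le_succ j))
      · rw [hOt (j + 1) (by omega) (by omega)]
        by_cases h2 : j < Ko
        · rw [hOj j hj0 h2]
          exact (hlen _).trans (Nat.le_succ _)
        · rw [hOt j hj0 (by omega)]
  · -- top
    rw [← hKo, hOt Ko (by omega) le_rfl, hsp, bud_bm_i_n]
  · -- masses
    intro j hj
    rw [← hKo] at hj
    rw [hv]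
    show _ ≤ i.mbW c (j + 1)
    by_cases h1 : j + 1 < Ko
    · have h2 := (bud_bm_i_node hch (hWps _ h1)).1
      rw [hOj (j + 1) (by omega) h1, Nat.sub_add_cancel h2, hidm _ (hWps _ h1)]
    · have e : j + 1 = Ko := by omega
      rw [hOt (j + 1) (by omega) (by omega), e, hWKo]
      exact (hμ _).2
  · -- projection intervals
    intro j hj
    rw [← hKo] at hj
    by_cases hj0 : j = 0
    · subst hj0
      have hlt : i.mbPo c ps 0 < i.mbO c ps 0 := by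
        rw [hP0, hO0]
        exact bud_bm_i_idx_lt hch hvqt hvtps
      have hvv : vq ≤ (i.sp ps).v (i.mbPo c ps 0) := by
        rw [hv, hP0]
        calc vq = M.mass (ghIdx ps ((ghPosA vq : GhPos) : WithTop GhPos)) := (hidm vq hvqps).symm
          _ ≤ _ := hμm (Nat.le_succ _)
      have hcvq : c.cv * i.F.u ≤ vq := hmlo vq ⟨hvqI.1.le, hvqI.2.le⟩ (by rw [hrvq]; nlinarith)
      have hh : i.F.C0 * (i.mbRp - i.mbRq) ≤ (i.sp ps).hlen (i.mbPo c ps 0) (i.mbO c ps 0) := by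
        rw [hhl hlt.le, hP0, hO0]
        have h3 := ckm_hck_slope i.F.m (i.V.Q.bE i.V.g) H.2 hφc hφs hch (bud_bm_i_idx_mono ps hvqt.le) (hlen vt)
        rw [← hM, hidm vt hvtps, hidm vq hvqps, hφv vt ⟨hvtI.1.le, hvtI.2.le⟩ (by rw [hrvt]; nlinarith) le_rfl,
          hφv vq ⟨hvqI.1.le, hvqI.2.le⟩ (by rw [hrvq]; nlinarith) hvqt.le, hrvt, hrvq] at h3
        linarith
      have hcv0 : 0 < c.cv * i.F.u := mul_pos hc.cv_pos hu
      have hdR : 0 < i.mbRp - i.mbRq := by linarith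
      refine ⟨?_, hlt, hcvq.trans hvv, ?_, ?_⟩
      · rw [hρ, hP0, hidm vq hvqps, hrvq, hhip]
        linarith
      · exact (mul_le_mul_of_nonneg_left hxa hC0.le).trans hh
      · have hD0 : 0 < (c.cv * i.F.u) ^ 2 * i.F.m * (i.F.C0 * (i.mbRp - i.mbRq)) := by positivity
        have hso : i.mbSo c 0 = 1 / ((c.cv * i.F.u) ^ 2 * i.F.m * (i.F.C0 * (i.mbRp - i.mbRq))) := by
          unfold BdVI.mbSo
          rw [if_pos rfl]
        rw [hso, one_div, ← div_eq_inv_mul, le_div_iff₀ hD0, one_mul]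
        unfold mbxDen
        exact mul_le_mul (mul_le_mul_of_nonneg_right (pow_le_pow_left₀ hcv0.le (hcvq.trans hvv) 2) hmR.le) hh (by positivity)
          (by have := hcv0.le.trans (hcvq.trans hvv); positivity)
    · obtain ⟨w, hw⟩ : ∃ w : ℝ, w = i.mbW c (j - 1) := ⟨_, rfl⟩
      have hj1 : j - 1 < Ko := by omega
      have hwe : w = c.Gm ^ (j - 1) * y := by rw [hw, hW _ hj1]
      have hGw : c.Gm * w = i.mbW c j := by
        rw [hW _ hj, hwe, ← mul_assoc, ← pow_succ']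
        congr 2
        omega
      have hw0 : 0 < w := hw ▸ hW0 _
      have huw : i.F.u ≤ w := huy.trans (hw ▸ hyW _)
      have hGw1 : c.Gm * w ≤ 1 := hGw ▸ hW1 j
      have hwlt : w < i.mbW c j := by rw [← hGw]; nlinarith [hc.Gm_ge]
      have hwps : ghPosA w ∈ ps := hw ▸ hWps _ hj1
      have hlt : i.mbPo c ps j < i.mbO c ps j := by
        rw [hPj _ hj0, hOj _ hj0 hj, ← hw]
        exact bud_bm_i_idx_lt hch hwlt (hWps _ hj)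
      have hvv : w ≤ (i.sp ps).v (i.mbPo c ps j) := by
        rw [hv, hPj _ hj0, ← hw]
        calc w = M.mass (ghIdx ps ((ghPosA w : GhPos) : WithTop GhPos)) := (hidm w hwps).symm
          _ ≤ _ := hμm (Nat.le_succ _)
      have hth : i.F.hpTh X c.ch c.ca w ≤ (i.sp ps).hlen (i.mbPo c ps j) (i.mbO c ps j) := by
        rw [hhl hlt.le, hPj _ hj0, hOj _ hj0 hj, ← hw, ← hGw]
        have h1 := hCM.dy w huw hGw1
        unfold CmPath.H at h1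
        rw [hM, ckm_nd _ _ _ hch (by positivity), ckm_nd _ _ _ hch hw0.le, ← hM] at h1
        exact h1
      have hthp : 0 < i.F.hpTh X c.ch c.ca w := hCM.th_pos w huw
      have hthu : i.F.C0 * i.F.x ^ 40 ≤ i.F.hpTh X c.ch c.ca w := by
        refine hxb.trans (le_trans ?_ (hCM.th_mono i.F.u w le_rfl huw hGw1))
        exact le_max_right _ _
      have hcvw : c.cv * i.F.u ≤ w := by
        have : c.cv * i.F.u ≤ c.Cv * i.F.u := mul_le_mul_of_nonneg_right hc.cv_le hu.le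
        rw [← hy] at this
        exact this.trans (hw ▸ hyW _)
      refine ⟨?_, hlt, hcvw.trans hvv, hthu.trans hth, ?_⟩
      · rw [hρ, hPj _ hj0, ← hw, hidm w hwps, hhip]
        have h1 : vt ≤ w := hvty.trans (hw ▸ hyW _)
        have h2 := hrm ⟨hvtI.1.le, hvtI.2.le⟩ ⟨hw0.le, hw ▸ hW1 _⟩ h1
        rw [hrvt] at h2
        nlinarith
      · have hD0 : 0 < w ^ 2 * i.F.m * i.F.hpTh X c.ch c.ca w := by positivity
        have hso : i.mbSo c j = 1 / (w ^ 2 * i.F.m * i.F.hpTh X c.ch c.ca w) := by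
          unfold BdVI.mbSo
          rw [if_neg hj0, ← hw]
        rw [hso, one_div, ← div_eq_inv_mul, le_div_iff₀ hD0, one_mul]
        unfold mbxDen
        exact mul_le_mul (mul_le_mul_of_nonneg_right (pow_le_pow_left₀ hw0.le hvv 2) hmR.le) hth hthp.le
          (by have := hw0.le.trans hvv; positivity)

/-- **the geometry on all fine chains** (glue) -/
theorem bud_bm_geo (hS : BdStd X W Fam K) (hW : W.IsSk) {n : ℕ} (hn1 : 1 ≤ n) (hn : n ≤ X.J + 1) (hZ : BudZ X W Fam n) (hL : BudB.LSmall X W Fam n)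
    (h7 : BudC7al X W Fam) {c : BmC} (hc : c.Ok) (hcv : c.cv = K.cb * X.plo n / 2) (hCv : |K.Cb| * X.cI + 1 ≤ c.Cv) (hCI : X.cI ≤ c.Cv)
    (hclk : BudBmClk X W Fam c.Gm c.ch c.ca) {Cg : ℝ} (hO : BudBmOsc X W Fam n Cg c.s0) (hCS : Cg + 1 ≤ c.CS) : BudBmGeo X W Fam n c := by
  obtain ⟨N1, h1⟩ := bud_bm_geo_A hS hn1 hn hZ hL hc
  obtain ⟨N2, h2⟩ := bud_bm_geo_B hS hn1 hn hZ hL h7 hc hcv hCv
  obtain ⟨N3, h3⟩ := bud_bm_geo_S hS hW hn hZ hL hc hO hCS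
  obtain ⟨N4, h4⟩ := bud_bm_geo_D hS hn1 hn hZ hL h7 hc hcv hCv hCI hclk
  refine ⟨max (max N1 N2) (max N3 N4), fun i hi hN => ?_⟩
  have a1 := h1 i hi (le_trans (le_trans (le_max_left _ _) (le_max_left _ _)) hN)
  have a2 := h2 i hi (le_trans (le_trans (le_max_right _ _) (le_max_left _ _)) hN)
  have a3 := h3 i hi (le_trans (le_trans (le_max_left _ _) (le_max_right _ _)) hN)
  have a4 := h4 i hi (le_trans (le_trans (le_max_right _ _) (le_max_right _ _)) hN)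
  have a0 : BmEv 1 fun ps => (i.sp ps).Ok := Filter.Eventually.of_forall fun Fs => bud_bm_sp_ok hS hn hi Fs
  exact ((a0.and a2).and (a3.and a4)).mono fun ps h => ⟨h.1.1, bud_bm_geo_mk a1 h.1.2 h.2.1 h.2.2⟩

/-! ### 2.3 the analytic inputs -/

/-- `u³A³ = x⁶/(u³Λ)` -/
theorem bud_bm_num_out_U {F : BdFr} (hF : F.Ok X) (hX : X.Ok) : F.u ^ 3 * F.A ^ 3 = F.x ^ 6 / (F.u ^ 3 * F.Lam) := by
  have hu := BdFr.bds_u_pos hF hX
  have hl := BdFr.bds_lam_pos hF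
  have hLam : 0 < F.Lam := Real.rpow_pos_of_pos hl _
  have e : (F.Lam ^ (-(1 / 3) : ℝ)) ^ 3 = F.Lam⁻¹ := by
    rw [← Real.rpow_natCast, ← Real.rpow_mul hLam.le, ← Real.rpow_neg_one]
    norm_num
  unfold BdFr.A BdFr.Xr
  rw [mul_pow, e]
  field_simp

/-- `1/m ≤ 2 x⁶` -/
theorem bud_bm_num_out_m {F : BdFr} (hF : F.Ok X) : 1 / (F.m : ℝ) ≤ 2 * F.x ^ 6 := by
  have h1 := bud_hp_aux_x6 hF
  have h2 := hF.m_lo
  have hN : (0 : ℝ) < F.N := by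
    have := hF.N2
    positivity
  have hm : (0 : ℝ) < F.m := by linarith
  have hx := BdFr.bds_x_pos hF
  rw [div_le_iff₀ hm]
  calc (1 : ℝ) = 2 * F.x ^ 6 * ((F.N : ℝ) / 2) := by linarith
    _ ≤ 2 * F.x ^ 6 * F.m := mul_le_mul_of_nonneg_left h2 (by positivity)

/-- one outer block: `so = 1/(w² m h)`, `h ≥ κ u C0/log N`, `Ro ≤ R w`, `mo ≤ Mo w`, `a u ≤ w` -/
theorem bud_bm_num_out_ar {w m h x6 u Lm lg ka a R Mo Ro mo A3 : ℝ} (hw : 0 < w) (hm : 0 < m) (hm2 : 1 / m ≤ 2 * x6) (hu : 0 < u) (hLm : 0 < Lm) (hlg : 0 < lg)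
    (hka : 0 < ka) (hh : ka * u * (u ^ 2 * Lm) / lg ≤ h) (ha : 0 < a) (haw : a * u ≤ w) (hRo0 : 0 ≤ Ro) (hRo : Ro ≤ R * w) (hmo0 : 0 ≤ mo) (hmo : mo ≤ Mo * w)
    (hU : u ^ 3 * A3 = x6 / (u ^ 3 * Lm)) (hx6 : 0 ≤ x6) :
    mo * (1 / (w ^ 2 * m * h)) * Ro ≤ 2 * Mo * R / ka * lg * (u ^ 3 * A3) ∧ 1 / (w ^ 2 * m * h) * Ro ≤ 2 * R / (ka * a) * lg * (u ^ 2 * A3) := by
  have hh0 : 0 < ka * u * (u ^ 2 * Lm) / lg := by positivity
  have hhp : 0 < h := lt_of_lt_of_le hh0 hh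
  have hR : 0 ≤ R := by
    by_contra hc
    have : R * w < 0 := mul_neg_of_neg_of_pos (not_le.1 hc) hw
    linarith
  have hMo : 0 ≤ Mo := by
    by_contra hc
    have : Mo * w < 0 := mul_neg_of_neg_of_pos (not_le.1 hc) hw
    linarith
  have hA3 : A3 = x6 / (u ^ 3 * Lm) / u ^ 3 := by
    rw [← hU]; field_simp
  have hA30 : 0 ≤ A3 := by rw [hA3]; positivity
  -- the projection cost
  have h1 : 1 / (w ^ 2 * m * h) ≤ 2 / ka * lg * (u ^ 3 * A3) / w ^ 2 := by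
    have e1 : 1 / (w ^ 2 * m * h) = 1 / m * (1 / h) / w ^ 2 := by field_simp
    have e2 : 1 / h ≤ lg / (ka * u * (u ^ 2 * Lm)) := by
      rw [div_le_div_iff₀ hhp (by positivity)]
      rw [div_le_iff₀ hlg] at hh
      linarith
    rw [e1]
    refine div_le_div_of_nonneg_right ?_ (by positivity)
    calc 1 / m * (1 / h) ≤ 2 * x6 * (lg / (ka * u * (u ^ 2 * Lm))) := mul_le_mul hm2 e2 (by positivity) (by positivity)
      _ = 2 / ka * lg * (u ^ 3 * A3) := by rw [hU]; field_simp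
  have hso0 : 0 ≤ 1 / (w ^ 2 * m * h) := by positivity
  have hB0 : 0 ≤ 2 / ka * lg * (u ^ 3 * A3) := by positivity
  have h2 : 1 / (w ^ 2 * m * h) * Ro ≤ 2 / ka * lg * (u ^ 3 * A3) * R / w := by
    calc 1 / (w ^ 2 * m * h) * Ro ≤ 2 / ka * lg * (u ^ 3 * A3) / w ^ 2 * (R * w) := mul_le_mul h1 hRo hRo0 (by positivity)
      _ = _ := by field_simp
  refine ⟨?_, ?_⟩
  · calc mo * (1 / (w ^ 2 * m * h)) * Ro = mo * (1 / (w ^ 2 * m * h) * Ro) := by ring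
      _ ≤ Mo * w * (2 / ka * lg * (u ^ 3 * A3) * R / w) := mul_le_mul hmo h2 (mul_nonneg hso0 hRo0) (by positivity)
      _ = _ := by field_simp
  · refine h2.trans ?_
    have h3 : 1 / w ≤ 1 / (a * u) := one_div_le_one_div_of_le (by positivity) haw
    calc 2 / ka * lg * (u ^ 3 * A3) * R / w = 2 / ka * lg * (u ^ 3 * A3) * R * (1 / w) := by ring
      _ ≤ 2 / ka * lg * (u ^ 3 * A3) * R * (1 / (a * u)) := mul_le_mul_of_nonneg_left h3 (by positivity)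
      _ = _ := by field_simp

/-- the outer masses: `u ≤ w_j`, `c_I u ≤ w_j ≤ 1`, `w_{j+2} ≤ Gm² w_j`, `w_1 ≤ Gm Cv u` -/
theorem bud_bm_num_out_W {c : BmC} (hc : c.Ok) (i : BdVI X W) (hu : 0 < i.F.u) (hu1 : i.F.u ≤ 1) (hCI : X.cI ≤ c.Cv) (hcu : X.cI * i.F.u ≤ 1) (j : ℕ) :
    i.F.u ≤ i.mbW c j ∧ X.cI * i.F.u ≤ i.mbW c j ∧ i.mbW c (j + 2) ≤ c.Gm ^ 2 * i.mbW c j ∧ i.mbW c 1 ≤ c.Gm * c.Cv * i.F.u := by
  have hG : (1 : ℝ) ≤ c.Gm := by linarith [hc.Gm_ge]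
  have hGj : 1 ≤ c.Gm ^ j := one_le_pow₀ hG
  have hCv := hc.Cv_ge
  have h0 : c.Cv * i.F.u ≤ c.Gm ^ j * (c.Cv * i.F.u) := le_mul_of_one_le_left (by positivity) hGj
  have h1 : i.F.u ≤ c.Cv * i.F.u := le_mul_of_one_le_left hu.le hCv
  have h2 : X.cI * i.F.u ≤ c.Cv * i.F.u := mul_le_mul_of_nonneg_right hCI hu.le
  unfold BdVI.mbW
  refine ⟨le_min (h1.trans h0) hu1, le_min (h2.trans h0) hcu, ?_, ?_⟩
  · rw [mul_min_of_nonneg _ _ (by positivity : (0 : ℝ) ≤ c.Gm ^ 2)]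
    refine le_min ((min_le_left _ _).trans (le_of_eq (by ring))) ((min_le_right _ _).trans ?_)
    rw [mul_one]
    exact one_le_pow₀ hG
  · exact (min_le_left _ _).trans (le_of_eq (by ring))

/-- `hpTh w ≥ ch c_I u C0/log N` above the patch -/
theorem bud_bm_num_out_th (hS : BdStd X W Fam K) {F : BdFr} (hF : Fam F) {ch ca w : ℝ} (hch : 0 < ch) (hw : X.cI * F.u ≤ w) (hN : 0 < Real.log F.N) :
    ch * X.cI * F.u * (F.u ^ 2 * F.Lam) / Real.log F.N ≤ F.hpTh X ch ca w := by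
  have hok := hS.ok _ hF
  have hu := BdFr.bds_u_pos hok hS.fix
  have hcI := hS.fix.cI_pos
  have h0 : 0 ≤ X.cI * F.u := by positivity
  have h1 := cm_re_mono (F.call X) (bud_hp_aux_dPE_pos hS.fix hok) (bud_hp_aux_C0_pos hS.fix hok).le (mem_Ici.2 h0) (mem_Ici.2 (h0.trans hw)) hw
  have h2 : F.C X (X.cI * F.u) = F.C0 := hS.Cconst F hF _ ⟨h0, le_rfl⟩
  have h3 : X.cI * F.u * F.C0 ≤ w * F.C X w := by
    rw [← h2]; exact h1
  unfold BdFr.hpTh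
  refine le_trans ?_ (le_max_left _ _)
  refine div_le_div_of_nonneg_right ?_ hN.le
  calc ch * X.cI * F.u * (F.u ^ 2 * F.Lam) = ch * (X.cI * F.u * F.C0) := by unfold BdFr.C0; ring
    _ ≤ ch * (w * F.C X w) := mul_le_mul_of_nonneg_left h3 hch.le
    _ = _ := by ring

/-- **the outer layers fit the bound** (l.1503-1506): `mo so Ro ≲ log N · u³A³`.   Block `0`: `Gm Cv u · Q0² 2 Gm Cv u/(cv² u² m C0 c u)`, `m ≥ x⁻⁶/2`, `x⁶/(C0 u) = u³A³`.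
Blocks `j ≥ 1`: `2 Q0² Gm⁴/(m hpTh w)`, `hpTh w ≥ ch w C(w)/log N ≥ ch c_I u C0/log N` (`cm_re_mono`, `Cconst`).     TEX[LL:bud:box-moments] -/
theorem bud_bm_num_out (hS : BdStd X W Fam K) {n : ℕ} (hn1 : 1 ≤ n) (hn : n ≤ X.J + 1) {c : BmC} (hc : c.Ok) (hCI : X.cI ≤ c.Cv) (Q0 : ℝ) :
    ∃ CB : ℝ, 0 ≤ CB ∧ ∃ N0 : ℕ, ∀ i : BdVI X W, BudB.VSt X W Fam n i → N0 ≤ i.F.N → ∀ j < (i.mbP c).Ko,
      i.mbMo c j * i.mbSo c j * i.mbRo c Q0 (j + 1) ≤ CB * Real.log i.F.N * (i.F.u ^ 3 * i.F.A ^ 3) ∧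
      i.mbSo c j * i.mbRo c Q0 (j + 1) ≤ CB * Real.log i.F.N * (i.F.u ^ 2 * i.F.A ^ 3) := by
  have hcv := hc.cv_pos
  have hCv := hc.Cv_ge
  have hGm := hc.Gm_ge
  have hch := hc.ch_pos
  have hcI := hS.fix.cI_pos
  -- the width of the first projection interval
  have hc0 : 0 < (X.phi 0 - X.phi n) / 2 := by
    obtain ⟨k, rfl⟩ : ∃ k, n = k + 1 := ⟨n - 1, by omega⟩
    have a1 := (BudB.fix_nest hS.fix k (by omega)).2.1
    have a2 := (hS.fix.nest k (by omega)).2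
    have a3 := (hS.fix.pat k (by omega)).2.2.2.1
    linarith
  set c0 := (X.phi 0 - X.phi n) / 2 with hc0d
  set R0 : ℝ := Q0 ^ 2 * (1 + c.Gm * c.Cv) / c.cv with hR0
  set R1 : ℝ := Q0 ^ 2 * (1 + c.Gm ^ 2) with hR1
  set B1 : ℝ := 2 * (c.Gm * c.Cv / c.cv) * R0 / c0 with hB1
  set B2 : ℝ := 2 * R0 / (c0 * c.cv) with hB2
  set B3 : ℝ := 2 * c.Gm ^ 2 * R1 / (c.ch * X.cI) with hB3
  set B4 : ℝ := 2 * R1 / (c.ch * X.cI * 1) with hB4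
  have hB10 : 0 ≤ B1 := by positivity
  have hB20 : 0 ≤ B2 := by positivity
  have hB30 : 0 ≤ B3 := by positivity
  have hB40 : 0 ≤ B4 := by positivity
  obtain ⟨N1, h1⟩ := bud_hp_aux_yc_small hS.fix (ε := 1) one_pos
  obtain ⟨N2, h2⟩ := bud_hp_aux_lam_small hS.fix X.bl (1 / X.cI) hS.fix.bl_pos (by positivity)
  refine ⟨B1 + B2 + B3 + B4, by positivity, max (max N1 N2) 3, fun i hi hN j _ => ?_⟩
  have hok := hS.ok _ hi.1
  have hyc := h1 i.F hok (le_trans (le_trans (le_max_left _ _) (le_max_left _ _)) hN)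
  have hlb := h2 i.F hok (le_trans (le_trans (le_max_right _ _) (le_max_left _ _)) hN)
  have hN3 : 3 ≤ i.F.N := le_trans (le_max_right _ _) hN
  have hx := BdFr.bds_x_pos hok
  have hu := BdFr.bds_u_pos hok hS.fix
  have hu1 := BdFr.bds_u_le_one hok hS.fix
  have hl := BdFr.bds_lam_pos hok
  have hXr := BdFr.bds_Xr_pos hok hS.fix
  have hLam : 0 < i.F.Lam := Real.rpow_pos_of_pos hl _
  have hA := BdFr.bds_A_pos hok hS.fix
  have hm : (0 : ℝ) < i.F.m := by exact_mod_cast bud_hp_aux_m_pos hok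
  have hlog1 : 1 ≤ Real.log i.F.N := by
    have a1 : Real.exp 1 ≤ (i.F.N : ℝ) := by
      have : (3 : ℝ) ≤ i.F.N := by exact_mod_cast hN3
      linarith [Real.exp_one_lt_d9]
    calc (1 : ℝ) = Real.log (Real.exp 1) := (Real.log_exp 1).symm
      _ ≤ Real.log i.F.N := Real.log_le_log (Real.exp_pos 1) a1
  have hlog0 : 0 < Real.log i.F.N := by linarith
  have hcu : X.cI * i.F.u ≤ 1 := by
    calc X.cI * i.F.u ≤ X.cI * (1 / X.cI) := mul_le_mul_of_nonneg_left (hok.u_hi.trans hlb) hcI.le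
      _ = 1 := by field_simp
  have hwc0 : 0 ≤ i.F.wc X := by
    unfold BdFr.wc BdFr.yc
    positivity
  have hwc : i.F.wc X ≤ i.F.u := by
    unfold BdFr.wc
    calc i.F.yc X * i.F.u ≤ 1 * i.F.u := mul_le_mul_of_nonneg_right hyc hu.le
      _ = i.F.u := one_mul _
  have hWf := bud_bm_num_out_W hc i hu hu1 hCI hcu
  have hU := bud_bm_num_out_U hok hS.fix
  have hm2 := bud_bm_num_out_m hok
  have hU3 : 0 ≤ Real.log i.F.N * (i.F.u ^ 3 * i.F.A ^ 3) := by positivity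
  have hU2 : 0 ≤ Real.log i.F.N * (i.F.u ^ 2 * i.F.A ^ 3) := by positivity
  -- it suffices to have the two bounds with some of the four constants
  have fin : ∀ {a b P Q : ℝ}, a ≤ P * Real.log i.F.N * (i.F.u ^ 3 * i.F.A ^ 3) → b ≤ Q * Real.log i.F.N * (i.F.u ^ 2 * i.F.A ^ 3) →
      P ≤ B1 + B2 + B3 + B4 → Q ≤ B1 + B2 + B3 + B4 →
      a ≤ (B1 + B2 + B3 + B4) * Real.log i.F.N * (i.F.u ^ 3 * i.F.A ^ 3) ∧ b ≤ (B1 + B2 + B3 + B4) * Real.log i.F.N * (i.F.u ^ 2 * i.F.A ^ 3) := by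
    intro a b P Q ha hb hP hQ
    refine ⟨ha.trans ?_, hb.trans ?_⟩
    · rw [mul_assoc, mul_assoc]; exact mul_le_mul_of_nonneg_right hP hU3
    · rw [mul_assoc, mul_assoc]; exact mul_le_mul_of_nonneg_right hQ hU2
  have hWpos : ∀ k, 0 < i.mbW c k := fun k => lt_of_lt_of_le hu (hWf k).1
  rcases Nat.eq_zero_or_pos j with rfl | hj
  · -- block 0
    have e1 : i.mbSo c 0 = 1 / ((c.cv * i.F.u) ^ 2 * i.F.m * (i.F.C0 * (i.mbRp - i.mbRq))) := by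
      unfold BdVI.mbSo; rw [if_pos rfl]
    have e2 : i.F.C0 * (i.mbRp - i.mbRq) = c0 * i.F.u * (i.F.u ^ 2 * i.F.Lam) := by
      unfold BdVI.mbRp BdVI.mbRq BdFr.C0
      rw [hi.2.2.1, hc0d]; ring
    have hh : c0 * i.F.u * (i.F.u ^ 2 * i.F.Lam) / Real.log i.F.N ≤ i.F.C0 * (i.mbRp - i.mbRq) := by
      rw [e2]
      exact div_le_self (by positivity) hlog1
    have hW1 := (hWf 0).2.2.2
    have hRo : i.mbRo c Q0 (0 + 1) ≤ R0 * (c.cv * i.F.u) := by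
      unfold BdVI.mbRo
      have : i.F.wc X + i.mbW c (0 + 1) ≤ (1 + c.Gm * c.Cv) * i.F.u := by
        have : i.mbW c (0 + 1) ≤ c.Gm * c.Cv * i.F.u := hW1
        linarith
      calc Q0 ^ 2 * (i.F.wc X + i.mbW c (0 + 1)) ≤ Q0 ^ 2 * ((1 + c.Gm * c.Cv) * i.F.u) := mul_le_mul_of_nonneg_left this (sq_nonneg _)
        _ = _ := by rw [hR0]; field_simp
    have hRo0 : 0 ≤ i.mbRo c Q0 (0 + 1) := by
      unfold BdVI.mbRo
      have := (hWpos (0 + 1)).le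
      positivity
    have hmo : i.mbMo c 0 ≤ c.Gm * c.Cv / c.cv * (c.cv * i.F.u) := by
      unfold BdVI.mbMo
      refine hW1.trans (le_of_eq ?_)
      field_simp
    have key := bud_bm_num_out_ar (a := c.cv) (by positivity : 0 < c.cv * i.F.u) hm hm2 hu hLam hlog0 hc0 hh hcv le_rfl hRo0 hRo (hWpos _).le hmo hU (by positivity)
    rw [e1]
    exact fin key.1 key.2 (by linarith) (by linarith)
  · -- blocks j ≥ 1
    obtain ⟨k, rfl⟩ : ∃ k, j = k + 1 := ⟨j - 1, by omega⟩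
    have e1 : i.mbSo c (k + 1) = 1 / (i.mbW c k ^ 2 * i.F.m * i.F.hpTh X c.ch c.ca (i.mbW c k)) := by
      unfold BdVI.mbSo; rw [if_neg (Nat.succ_ne_zero k)]; rfl
    obtain ⟨w1, w2, w3, -⟩ := hWf k
    have hh := bud_bm_num_out_th (ca := c.ca) hS hi.1 hch w2 hlog0
    have hRo : i.mbRo c Q0 (k + 1 + 1) ≤ R1 * i.mbW c k := by
      unfold BdVI.mbRo
      have : i.F.wc X + i.mbW c (k + 1 + 1) ≤ (1 + c.Gm ^ 2) * i.mbW c k := by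
        have : i.mbW c (k + 1 + 1) ≤ c.Gm ^ 2 * i.mbW c k := w3
        linarith
      calc Q0 ^ 2 * (i.F.wc X + i.mbW c (k + 1 + 1)) ≤ Q0 ^ 2 * ((1 + c.Gm ^ 2) * i.mbW c k) := mul_le_mul_of_nonneg_left this (sq_nonneg _)
        _ = _ := by rw [hR1]; ring
    have hRo0 : 0 ≤ i.mbRo c Q0 (k + 1 + 1) := by
      unfold BdVI.mbRo
      have := (hWpos (k + 1 + 1)).le
      positivity
    have hmo : i.mbMo c (k + 1) ≤ c.Gm ^ 2 * i.mbW c k := w3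
    have key := bud_bm_num_out_ar (a := 1) (hWpos k) hm hm2 hu hLam hlog0 (by positivity : 0 < c.ch * X.cI) hh one_pos (by linarith) hRo0 hRo (hWpos _).le hmo hU (by positivity)
    rw [e1]
    exact fin key.1 key.2 (by linarith) (by linarith)

/-- **raw moments at the cuts** from (C8) at step level: `nX = ‖X‖²`, `cmN` is the `L^{4r}` norm; lower exponent by Jensen (`ckm_raw_exp`) -/
theorem bud_bm_raw {F : BdFr} (Q : BdQ F X) (g : ℝ) (ps : List GhPos) (hok : (skSP F.m 1 (Q.stp g ps)).Ok) {r : ℕ} (hr : 1 ≤ r) {Q0 x : ℝ} (hQ0 : 0 ≤ Q0) (hx : 0 ≤ x)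
    (h : (Q.hpM g ps).Raw (4 * r) Q0 x) {j : ℕ} (hj : j ≤ ps.length + 1) {w : ℝ} (hw : (Q.hpM g ps).mass j ≤ w) :
    ∫ ω, (skSP F.m 1 (Q.stp g ps)).nX j ω ^ (2 * r) ∂(skSP F.m 1 (Q.stp g ps)).μ ≤ (Q0 ^ 2 * (x + w)) ^ (2 * r) ∧
    ∫ ω, (skSP F.m 1 (Q.stp g ps)).nX j ω ^ r ∂(skSP F.m 1 (Q.stp g ps)).μ ≤ (Q0 ^ 2 * (x + w)) ^ r := by
  have hL : (Q.hpM g ps).L = ps.length := ckm_L F.m (Q.bE g) (Q.hE g) ps
  have hjL : j ≤ (Q.hpM g ps).L + 1 := by rw [hL]; exact hj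
  have h1 := h j hjL
  have hm0 : 0 ≤ (Q.hpM g ps).mass j := by
    show 0 ≤ (if j = 0 then 0 else (skSP F.m 1 (Q.stp g ps)).v (j - 1))
    split_ifs
    · exact le_rfl
    · exact hok.v_nonneg _
  revert h1 hm0 hw
  generalize (Q.hpM g ps).mass j = mj
  intro hw h1 hm0
  change cmN (skSP F.m 1 (Q.stp g ps)).μ (4 * r) ((cm5OfL8 (skSP F.m 1 (Q.stp g ps))).X j) ≤ _ at h1
  revert h1 hok
  generalize skSP F.m 1 (Q.stp g ps) = P
  intro hok h1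
  have hpr := hok.prob
  have hbm : CmBM P.μ ((cm5OfL8 P).X j) := ⟨(cm5_l8_X_meas P hok j).aestronglyMeasurable, 1, cm5_l8_norm_le P hok j⟩
  have key : ∀ p : ℕ, 1 ≤ p → p ≤ 2 * r → ∫ ω, P.nX j ω ^ p ∂P.μ ≤ (Q0 ^ 2 * (x + w)) ^ p := by
    intro p hp1 hp2
    have e1 : ∫ ω, P.nX j ω ^ p ∂P.μ = cmN P.μ (2 * p) ((cm5OfL8 P).X j) ^ (2 * p) := by
      rw [cmN_pow_eq hbm (2 * p) (by omega)]
      refine integral_congr_ae (Filter.Eventually.of_forall fun ω => ?_)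
      show P.nX j ω ^ p = ‖(cm5OfL8 P).X j ω‖ ^ (2 * p)
      rw [pow_mul, cm5_l8_norm_sq]
    rw [e1]
    calc cmN P.μ (2 * p) ((cm5OfL8 P).X j) ^ (2 * p)
        ≤ (Q0 * Real.sqrt (x + mj)) ^ (2 * p) :=
          pow_le_pow_left₀ (cmN_nonneg _ _ _) ((cmN_exp_mono hbm (by omega) (by omega)).trans h1) _
      _ = (Q0 ^ 2 * (x + mj)) ^ p := by rw [pow_mul, mul_pow, Real.sq_sqrt (by linarith)]
      _ ≤ (Q0 ^ 2 * (x + w)) ^ p := by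
          refine pow_le_pow_left₀ (mul_nonneg (sq_nonneg _) (by linarith)) ?_ _
          exact mul_le_mul_of_nonneg_left (by linarith) (sq_nonneg _)
  exact ⟨key (2 * r) (by omega) le_rfl, key r hr (by omega)⟩

/-- the outer masses are nonnegative, at most one, nondecreasing -/
theorem bud_bm_in_W (i : BdVI X W) {c : BmC} (hc : c.Ok) (hu : 0 < i.F.u) :
    (∀ j, 0 ≤ i.mbW c j) ∧ (∀ j, i.mbW c j ≤ 1) ∧ Monotone (i.mbW c) := by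
  have hG : (1 : ℝ) ≤ c.Gm := by linarith [hc.Gm_ge]
  have ha : 0 ≤ c.Cv * i.F.u := mul_nonneg (by linarith [hc.Cv_ge]) hu.le
  refine ⟨fun j => le_min (mul_nonneg (pow_nonneg (by linarith) _) ha) zero_le_one, fun j => min_le_right _ _, fun j k hjk => ?_⟩
  exact min_le_min (mul_le_mul_of_nonneg_right (pow_le_pow_right₀ hG hjk) ha) le_rfl

/-- the last outer mass is one -/
theorem bud_bm_in_Wtop (i : BdVI X W) {c : BmC} (hc : c.Ok) (hu : 0 < i.F.u) : i.mbW c (i.mbP c).Ko = 1 := by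
  have hG : (1 : ℝ) < c.Gm := by linarith [hc.Gm_ge]
  have ha : 0 < c.Cv * i.F.u := mul_pos (by linarith [hc.Cv_ge]) hu
  refine min_eq_right ?_
  have h1 : Real.logb c.Gm (1 / (c.Cv * i.F.u)) ≤ ((i.mbP c).Ko : ℝ) := Nat.le_ceil _
  have h2 : 1 / (c.Cv * i.F.u) ≤ c.Gm ^ (i.mbP c).Ko := by
    calc 1 / (c.Cv * i.F.u) = c.Gm ^ Real.logb c.Gm (1 / (c.Cv * i.F.u)) :=
          (Real.rpow_logb (by linarith) hG.ne' (by positivity)).symm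
      _ ≤ c.Gm ^ ((i.mbP c).Ko : ℝ) := Real.rpow_le_rpow_of_exponent_le hG.le h1
      _ = c.Gm ^ (i.mbP c).Ko := Real.rpow_natCast _ _
  calc (1 : ℝ) = 1 / (c.Cv * i.F.u) * (c.Cv * i.F.u) := (one_div_mul_cancel ha.ne').symm
    _ ≤ c.Gm ^ (i.mbP c).Ko * (c.Cv * i.F.u) := mul_le_mul_of_nonneg_right h2 ha.le

/-- the outer cuts are cuts of the chain, of mass at most `mbW` -/
theorem bud_bm_in_cut (i : BdVI X W) {c : BmC} (hc : c.Ok) (hu : 0 < i.F.u) (Fs : Finset GhPos)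
    (h0 : 0 ≤ i.V.Q.al i.mbRp) (h1 : i.V.Q.al i.mbRp ≤ i.mbW c 0) {j : ℕ} (hj : j ≤ (i.mbP c).Ko) :
    i.mbO c (ghPs 1 Fs) j ≤ (ghPs 1 Fs).length + 1 ∧ (i.V.Q.hpM i.V.g (ghPs 1 Fs)).mass (i.mbO c (ghPs 1 Fs) j) ≤ i.mbW c j := by
  obtain ⟨w0, -, -⟩ := bud_bm_in_W i hc hu
  unfold BdVI.mbO
  split_ifs with a b
  · subst a
    refine ⟨(brg_t_idx_coe_le _ _).trans (Nat.le_succ _), ?_⟩
    exact (ckm_idx_mass_le0 i.F.m (i.V.Q.bE i.V.g) (i.V.Q.hE i.V.g) (ckm_ch Fs) (p := ghPosA (i.V.Q.al i.mbRp)) h0).trans h1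
  · refine ⟨(brg_t_idx_coe_le _ _).trans (Nat.le_succ _), ?_⟩
    exact ckm_idx_mass_le0 i.F.m (i.V.Q.bE i.V.g) (i.V.Q.hE i.V.g) (ckm_ch Fs) (p := ghPosA (i.mbW c j)) (w0 j)
  · refine ⟨le_rfl, ?_⟩
    have e : j = (i.mbP c).Ko := le_antisymm hj (not_lt.1 b)
    rw [e, bud_bm_in_Wtop i hc hu]
    have := ckm_mass i.F.m (i.V.Q.bE i.V.g) (i.V.Q.hE i.V.g) (ghPs 1 Fs) ((ghPs 1 Fs).length + 1)
    refine le_of_eq (this.trans ?_)
    rw [if_neg (Nat.succ_ne_zero _)]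
    unfold ckmPos
    rw [List.getD_eq_default _ _ (by simp)]
    rfl

/-- the truncation level beats the constant of the projection bound of high order -/
theorem bud_bm_in_eps {r R : ℕ} (hR : (20 * r + 1 : ℝ) ≤ 0.01 * X.pS * R) (cR : ℝ) (hcR : 0 < cR) :
    ∃ N0 : ℕ, ∀ F : BdFr, F.Ok X → N0 ≤ F.N → cR ≤ (F.x ^ 20) ^ r * (F.lam ^ (-(0.01 : ℝ))) ^ R := by
  obtain ⟨N0, h0⟩ := bud_hp_aux_N_small (1 / 6) (1 / cR) (by norm_num) (by positivity)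
  refine ⟨N0, fun F hF hN => ?_⟩
  have hx := BdFr.bds_x_pos hF
  have hx1 := (BdFr.bds_x_lt_one hF).le
  have hl := BdFr.bds_lam_pos hF
  have h1 : F.x ≤ 1 / cR := h0 F.N hN
  have h2 : cR ≤ F.x ^ (-1 : ℝ) := by
    rw [Real.rpow_neg_one, ← one_div, le_div_iff₀ hx]
    calc cR * F.x ≤ cR * (1 / cR) := mul_le_mul_of_nonneg_left h1 hcR.le
      _ = 1 := by field_simp
  have e1 : (F.x ^ 20) ^ r = F.x ^ (20 * r : ℝ) := by
    rw [← pow_mul, ← Real.rpow_natCast]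
    congr 1
    push_cast
    ring
  have e2 : (F.lam ^ (-(0.01 : ℝ))) ^ R = F.lam ^ (-(0.01 * R) : ℝ) := by
    rw [← Real.rpow_natCast, ← Real.rpow_mul hl.le]
    congr 1
    ring
  have h3 : F.x ^ (-(0.01 * X.pS * R) : ℝ) ≤ F.lam ^ (-(0.01 * R) : ℝ) := by
    have : F.x ^ (-(0.01 * X.pS * R) : ℝ) = (F.x ^ X.pS) ^ (-(0.01 * R) : ℝ) := by
      rw [← Real.rpow_mul hx.le]
      congr 1
      ring
    rw [this]
    exact Real.rpow_le_rpow_of_nonpos hl hF.lam_hi (by have : (0 : ℝ) ≤ R := Nat.cast_nonneg _; linarith)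
  rw [e1, e2]
  calc cR ≤ F.x ^ (-1 : ℝ) := h2
    _ ≤ F.x ^ ((20 * r : ℝ) + -(0.01 * X.pS * R)) := Real.rpow_le_rpow_of_exponent_ge hx hx1 (by linarith)
    _ = F.x ^ (20 * r : ℝ) * F.x ^ (-(0.01 * X.pS * R) : ℝ) := Real.rpow_add hx _ _
    _ ≤ F.x ^ (20 * r : ℝ) * F.lam ^ (-(0.01 * R) : ℝ) := mul_le_mul_of_nonneg_left h3 (Real.rpow_nonneg hx.le _)

/-- **the analytic inputs of the recurrence** at the moment order `2 r`: `l8i_proj` (orders `1`, `R`), `l8i_pin`, truncation level `th = λ^{-0.01}`, `eps = x²⁰`,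
`R ≥ (20 r + 1)/(0.01 p_*)` so that `cR ≤ x^{20 r} λ^{-0.01 R}` for large `N`; raw bounds: `bud_bm_raw` at the cuts `mbO` (`mass (mbO j) ≤ mbW j`: `ckm_idx_mass_le`, `bud_bm_al_rp`).     TEX[LL:bud:box-moments] -/
theorem bud_bm_in (hS : BdStd X W Fam K) {n : ℕ} (hn1 : 1 ≤ n) (hn : n ≤ X.J + 1) (h7 : BudC7al X W Fam) {c : BmC} (hc : c.Ok)
    (hCv : |K.Cb| * X.cI + 1 ≤ c.Cv) {r : ℕ} (hr : 1 ≤ r) {Q0 : ℝ} (hQ0 : 1 ≤ Q0) (hRaw : BudBmRaw X W Fam r Q0) {CB : ℝ} (hCB : 0 ≤ CB)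
    (hB : ∃ N0 : ℕ, ∀ i : BdVI X W, BudB.VSt X W Fam n i → N0 ≤ i.F.N → ∀ j < (i.mbP c).Ko,
      i.mbMo c j * i.mbSo c j * i.mbRo c Q0 (j + 1) ≤ CB * Real.log i.F.N * (i.F.u ^ 3 * i.F.A ^ 3)) :
    ∃ (R : ℕ) (c1 cR : ℝ), 0 ≤ c1 ∧ ∃ N0 : ℕ, ∀ i : BdVI X W, BudB.VSt X W Fam n i → N0 ≤ i.F.N → BmEv 1 fun ps =>
      MbxIn (i.sp ps) (i.mbP c) (i.mbO c ps) (i.mbMo c) (i.mbSo c) (c.cv * i.F.u) (i.F.C0 * i.F.x ^ 40) r R c1 cR (1 + (2 * r : ℝ) ^ 2 / 3)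
        (i.F.lam ^ (-(0.01 : ℝ))) (i.F.x ^ 20) (i.mbRo c Q0 0) (CB * Real.log i.F.N * (i.F.u ^ 3 * i.F.A ^ 3)) (i.mbRo c Q0) := by
  have hX := hS.fix
  have hp := hX.pS_pos
  obtain ⟨R, hR1, hRbig⟩ : ∃ R : ℕ, 1 ≤ R ∧ (20 * r + 1 : ℝ) ≤ 0.01 * X.pS * R := by
    refine ⟨⌈(20 * r + 1 : ℝ) / (0.01 * X.pS)⌉₊ + 1, by omega, ?_⟩
    have h1 : (20 * r + 1 : ℝ) / (0.01 * X.pS) ≤ (⌈(20 * r + 1 : ℝ) / (0.01 * X.pS)⌉₊ : ℝ) := Nat.le_ceil _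
    rw [div_le_iff₀ (by positivity)] at h1
    push_cast
    nlinarith
  obtain ⟨c1, hc1, P1⟩ := l8i_proj 1 le_rfl
  obtain ⟨cR, hcR, PR⟩ := l8i_proj R hR1
  obtain ⟨Na, ha⟩ := hRaw
  obtain ⟨Nb, hb⟩ := hB
  obtain ⟨Nc, hcc⟩ := bud_bm_al_rp hS hn h7
  have hCv0 : 0 < c.Cv := by linarith [hc.Cv_ge]
  obtain ⟨Nd, hd⟩ := BudB.ev_u hX (ε := min (1 / c.Cv) (1 / X.cI)) (lt_min (by positivity) (by have := hX.cI_pos; positivity))
  obtain ⟨Ne, he⟩ := bud_bm_in_eps hRbig cR hcR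
  refine ⟨R, c1, cR, hc1.le, Na + Nb + Nc + Nd + Ne, fun i hi hN => ?_⟩
  have hF := BudB.vst_ok hS hi
  have hu := BudB.vst_u_pos hS hi
  have hl := BudB.vst_lam_pos hS hi
  have hl1 := (BdFr.bds_lam_lt_one hF hX).le
  have hx := BdFr.bds_x_pos hF
  have hm1 : 1 ≤ i.F.m := bud_hp_aux_m_pos hF
  have hwc : 0 ≤ i.F.wc X := by
    have hXr : 0 < i.F.Xr := BdFr.bds_Xr_pos hF hX
    have hLam : 0 < i.F.Lam := Real.rpow_pos_of_pos hl _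
    unfold BdFr.wc BdFr.yc
    have h1 : 0 < i.F.x ^ (-(10 * X.zeta)) := Real.rpow_pos_of_pos hx _
    have h2 : 0 < i.F.Xr * i.F.Lam ^ (-(1 / 6) : ℝ) := mul_pos hXr (Real.rpow_pos_of_pos hLam _)
    have h3 : 0 < i.F.Xr ^ (3 / 4 : ℝ) * i.F.lam ^ (0.12 : ℝ) :=
      mul_pos (Real.rpow_pos_of_pos hXr _) (Real.rpow_pos_of_pos hl _)
    positivity
  have hud := hd i.F hF (by omega)
  have hu1 : c.Cv * i.F.u ≤ 1 := by
    calc c.Cv * i.F.u ≤ c.Cv * (1 / c.Cv) := mul_le_mul_of_nonneg_left (hud.trans (min_le_left _ _)) hCv0.le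
      _ = 1 := by field_simp
  have hu2 : X.cI * i.F.u ≤ 1 := by
    calc X.cI * i.F.u ≤ X.cI * (1 / X.cI) := mul_le_mul_of_nonneg_left (hud.trans (min_le_right _ _)) hX.cI_pos.le
      _ = 1 := by have := hX.cI_pos; field_simp
  obtain ⟨w0, w1, wm⟩ := bud_bm_in_W i hc hu
  obtain ⟨p0, -, -, -, p1⟩ := hX.pat 0 (Nat.zero_le _)
  have hphi0 : 0 < X.phi 0 := by
    obtain ⟨a1, a2, a3, a4, -⟩ := hX.pat 0 (Nat.zero_le _)
    linarith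
  have hRp : i.mbRp ∈ Icc (0 : ℝ) 1 := by
    refine ⟨mul_nonneg hphi0.le hu.le, ?_⟩
    calc X.phi 0 * i.F.u ≤ X.cI * i.F.u := mul_le_mul_of_nonneg_right p1.le hu.le
      _ ≤ 1 := hu2
  have hal := bud_bm_al_mem hF i.V.Q hRp
  have hal1 : i.V.Q.al i.mbRp ≤ i.mbW c 0 := by
    refine le_min ?_ hal.2
    rw [pow_zero, one_mul]
    exact (hcc i hi (by omega)).trans (mul_le_mul_of_nonneg_right hCv hu.le)
  have hC0 : 0 < i.F.C0 := by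
    unfold BdFr.C0 BdFr.Lam
    exact mul_pos (pow_pos hu 2) (Real.rpow_pos_of_pos hl _)
  have hQ0' : 0 ≤ Q0 := by linarith
  have hRo0 : ∀ j, 0 ≤ i.mbRo c Q0 j := fun j => mul_nonneg (sq_nonneg _) (add_nonneg hwc (w0 j))
  have hraw := ha ⟨i.F, i.V.g, i.V.Q⟩ (bud_bm_okS hS hn hi) (by show Na ≤ i.F.N; omega)
  refine Filter.Eventually.mono hraw fun Fs hFs => ?_
  have hadm : SkAdm 1 (i.V.Q.stp i.V.g (ghPs 1 Fs)) := bud_hp_adm hS hi.1 (BudB.vst_g0 hS hn hi) i.V.Q Fs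
  have hok := bud_bm_sp_ok hS hn hi Fs
  exact
    { r_pos := hr
      c1_nn := hc1.le
      cR_nn := hcR.le
      cp_nn := by positivity
      proj1 := P1 i.F.m 1 _ hm1 one_pos (by norm_num) hadm _ _ (mul_pos hc.cv_pos hu) (mul_pos hC0 (pow_pos hx _))
      projR := PR i.F.m 1 _ hm1 one_pos (by norm_num) hadm _ _ (mul_pos hc.cv_pos hu) (mul_pos hC0 (pow_pos hx _))
      pin := l8i_pin i.F.m hm1 1 one_pos _ hadm r hr
      th_ge := Real.one_le_rpow_of_pos_of_le_one_of_nonpos hl hl1 (by norm_num)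
      eps_nn := (pow_pos hx _).le
      eps_le := he i.F hF (by omega)
      raw := by
        obtain ⟨a1, a2⟩ := bud_bm_in_cut i hc hu Fs hal.1 hal1 (Nat.zero_le (i.mbP c).Ko)
        exact (bud_bm_raw i.V.Q i.V.g (ghPs 1 Fs) hok hr hQ0' hwc hFs a1 a2).1
      Rp_nn := hRo0 0
      rawo := fun j hj => by
        obtain ⟨a1, a2⟩ := bud_bm_in_cut i hc hu Fs hal.1 hal1 hj
        exact (bud_bm_raw i.V.Q i.V.g (ghPs 1 Fs) hok hr hQ0' hwc hFs a1 a2).2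
      Ro_nn := hRo0
      Ro_mono := fun j k hjk => mul_le_mul_of_nonneg_left (by linarith [wm hjk]) (sq_nonneg _)
      Rp_Ro := le_rfl
      mo_a := fun j _ => w1 (j + 1)
      vhi_a := hu1
      Bout := hb i hi (by omega) }

/-! ### 2.4 numerics -/

/-- cube of the stage recursion: `A³ ≤ λ^{0.36} (A/a)² L³` if `λ^{-0.12} A^{1/3} a^{2/3} ≤ L` -/
theorem bud_bm_num_AL_cube {lam A a L : ℝ} (hl : 0 < lam) (hA : 0 < A) (ha : 0 < a)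
    (h : lam ^ (-(0.12 : ℝ)) * A ^ (1 / 3 : ℝ) * a ^ (2 / 3 : ℝ) ≤ L) :
    A ^ 3 ≤ lam ^ (0.36 : ℝ) * ((A / a) ^ 2 * L ^ 3) := by
  have h0 : 0 ≤ lam ^ (-(0.12 : ℝ)) * A ^ (1 / 3 : ℝ) * a ^ (2 / 3 : ℝ) := by positivity
  have h1 := pow_le_pow_left₀ h0 h 3
  have e : (lam ^ (-(0.12 : ℝ)) * A ^ (1 / 3 : ℝ) * a ^ (2 / 3 : ℝ)) ^ 3 = lam ^ (-(0.36 : ℝ)) * A * a ^ 2 := by
    rw [mul_pow, mul_pow, ← Real.rpow_natCast (lam ^ (-(0.12 : ℝ))), ← Real.rpow_natCast (A ^ (1 / 3 : ℝ)), ← Real.rpow_natCast (a ^ (2 / 3 : ℝ)),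
      ← Real.rpow_mul hl.le, ← Real.rpow_mul hA.le, ← Real.rpow_mul ha.le]
    norm_num
  rw [e] at h1
  have h2 : lam ^ (0.36 : ℝ) * lam ^ (-(0.36 : ℝ)) = 1 := by
    rw [← Real.rpow_add hl]; norm_num
  calc A ^ 3 = lam ^ (0.36 : ℝ) * ((A / a) ^ 2 * (lam ^ (-(0.36 : ℝ)) * A * a ^ 2)) := by
        have : lam ^ (0.36 : ℝ) * ((A / a) ^ 2 * (lam ^ (-(0.36 : ℝ)) * A * a ^ 2))
            = (lam ^ (0.36 : ℝ) * lam ^ (-(0.36 : ℝ))) * ((A / a) ^ 2 * (A * a ^ 2)) := by ring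
        rw [this, h2]
        field_simp
    _ ≤ lam ^ (0.36 : ℝ) * ((A / a) ^ 2 * L ^ 3) :=
        mul_le_mul_of_nonneg_left (mul_le_mul_of_nonneg_left h1 (by positivity)) (by positivity)

/-- `a_j ≤ L` at a violation (`Z ≥ 1`) -/
theorem bud_bm_num_AL_aj (hS : BdStd X W Fam K) {n : ℕ} (hZ : BudZ X W Fam n) :
    ∃ N0 : ℕ, ∀ i : BdVI X W, BudB.VSt X W Fam n i → N0 ≤ i.F.N → i.F.astage X n ≤ i.V.L := by
  obtain ⟨C, N0, h⟩ := hZ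
  refine ⟨N0, fun i hi hN => ?_⟩
  obtain ⟨hF, hAt, hst, hV, hL1⟩ := hi
  have hok := hS.ok _ hF
  have h1 := (h i.F ⟨hF, hAt, hst⟩ hN).1 i.V.g (hst ▸ hV.g_mem)
  have h2 := hV.big
  have h3 : 0 < i.F.aj X := BdFr.bds_astage_pos hok hS.fix _
  have h4 : i.F.aj X = i.F.astage X n := by unfold BdFr.aj; rw [hst]
  rw [← h4]
  calc i.F.aj X = i.F.aj X * 1 := (mul_one _).symm
    _ ≤ i.F.aj X * i.F.Zj X W i.V.g := mul_le_mul_of_nonneg_left h1 h3.le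
    _ ≤ i.V.L := h2

/-- **the exponent count of (C11)** (l.1509-1511): `L ≥ a_j ≥ λ^{-0.12} A^{1/3} a_{j-1}^{2/3}`, `κ_j = (A/a_{j-1})²`: `A³ ≤ λ^{0.36} κ_j L³`.     TEX[LL:bud:box-moments] -/
theorem bud_bm_num_AL (hS : BdStd X W Fam K) {n : ℕ} (hn1 : 1 ≤ n) (hZ : BudZ X W Fam n) :
    ∃ N0 : ℕ, ∀ i : BdVI X W, BudB.VSt X W Fam n i → N0 ≤ i.F.N →
      i.F.A ^ 3 ≤ i.F.lam ^ (0.36 : ℝ) * (i.F.kap * i.V.L ^ 3) ∧ 0 < i.F.kap ∧ i.F.kap ≤ 1 := by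
  obtain ⟨N1, h1⟩ := bud_bm_num_AL_aj hS hZ
  obtain ⟨N2, h2⟩ := bds_big_ev X hS.fix
  obtain ⟨k, rfl⟩ : ∃ k, n = k + 1 := ⟨n - 1, by omega⟩
  refine ⟨max N1 N2, fun i hi hN => ?_⟩
  have hL := h1 i hi (le_trans (le_max_left _ _) hN)
  have hok := hS.ok _ hi.1
  have hB := h2 i.F hok (le_trans (le_max_right _ _) hN)
  have hkap : i.F.kap = (i.F.A / i.F.astage X k) ^ 2 := by
    rw [hi.2.1.1, hi.2.2.1]; rfl
  have hl := BdFr.bds_lam_pos hok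
  have hA := BdFr.bds_A_pos hok hS.fix
  have ha := BdFr.bds_astage_pos hok hS.fix k
  refine ⟨?_, ?_, ?_⟩
  · rw [hkap]
    exact bud_bm_num_AL_cube hl hA ha ((le_max_right _ _).trans hL)
  · rw [hkap]; positivity
  · have := BdFr.bds_kstage_small hok hS.fix hB (k + 1)
    rw [hi.2.1.1, hi.2.2.1]
    exact this.trans (BdFr.bds_lam_rpow_le_one hok hS.fix (by norm_num))

/-- ceiling of a logarithm -/
theorem bud_bm_num_K_ceil {b y Y B : ℝ} (hb : 1 < b) (hy : 0 < y) (hyY : y ≤ Y) (hB : 0 ≤ B) (hYB : Real.log Y ≤ B * Real.log b) :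
    ((⌈Real.logb b y⌉₊ : ℕ) : ℝ) ≤ B + 1 := by
  have hlb : 0 < Real.log b := Real.log_pos hb
  have h1 : Real.logb b y ≤ B := by
    unfold Real.logb
    rw [div_le_iff₀ hlb]
    exact (Real.log_le_log hy hyY).trans hYB
  have h2 : ((⌈Real.logb b y⌉₊ : ℕ) : ℝ) ≤ ((⌈B⌉₊ : ℕ) : ℝ) := by exact_mod_cast Nat.ceil_mono h1
  exact h2.trans (Nat.ceil_lt_add_one hB).le

/-- the number of blocks at one frame -/
theorem bud_bm_num_K_one (hS : BdStd X W Fam K) {n : ℕ} {c : BmC} (hc : c.Ok) (i : BdVI X W) (hi : BudB.VSt X W Fam n i) :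
    ((i.mbP c).K : ℝ) ≤ 61 * Real.log (1 / i.F.x) + (4 + Real.log (max X.CU 1)) ∧ Real.log i.F.N = 6 * Real.log (1 / i.F.x) ∧
      0 ≤ Real.log (1 / i.F.x) := by
  have hX := hS.fix
  have hF := BudB.vst_ok hS hi
  have hp := bud_env_pos hX hF
  have hx := hp.x0
  have hx1 := hp.x1
  have hu := hp.u0
  have hl := hp.lam0
  obtain ⟨ℓ, hℓ⟩ : ∃ ℓ, ℓ = Real.log (1 / i.F.x) := ⟨_, rfl⟩
  have hℓ0 : 0 ≤ ℓ := by
    rw [hℓ]
    apply Real.log_nonneg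
    rw [le_div_iff₀ hx]; linarith
  have hlog2 : (2 / 3 : ℝ) ≤ Real.log 2 := by
    have := Real.log_two_gt_d9
    linarith
  have hnb : (1 : ℝ) ≤ c.nb := by exact_mod_cast hc.nb_pos
  -- K1
  have hbb0 : 0 < i.V.bbuf := by
    unfold BdViol.bbuf
    have : 0 < i.F.lam ^ X.rho := Real.rpow_pos_of_pos hl _
    have := Real.sqrt_nonneg i.V.L
    positivity
  have hbb2 : i.V.bbuf ≤ 2 := by
    unfold BdViol.bbuf
    have a1 : i.F.lam ^ X.rho ≤ 1 := Real.rpow_le_one hl.le hp.lam1.le hX.rho_pos.le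
    have a2 : Real.sqrt i.V.L ≤ 1 := Real.sqrt_le_one.2 (BudB.vst_L1 hi)
    have a3 := Real.sqrt_nonneg i.V.L
    have a4 : 0 < i.F.lam ^ X.rho := Real.rpow_pos_of_pos hl _
    calc i.F.u * (Real.sqrt i.V.L + i.F.lam ^ X.rho) ≤ 1 * 2 := mul_le_mul hp.u1 (by linarith) (by linarith) zero_le_one
      _ = 2 := by norm_num
  have k1 : ((⌈Real.logb 2 (c.s0 * i.V.bbuf / (8 * c.nb) / i.F.x ^ 40)⌉₊ : ℕ) : ℝ) ≤ 60 * ℓ + 1 := by
    refine bud_bm_num_K_ceil (Y := (1 / i.F.x) ^ 40) one_lt_two ?_ ?_ (by positivity) ?_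
    · have := hc.s0_pos
      positivity
    · rw [one_div, inv_pow, ← one_div]
      apply div_le_div_of_nonneg_right _ (by positivity)
      rw [div_le_iff₀ (by positivity)]
      have := hc.s0_le
      have := hc.s0_pos
      nlinarith
    · rw [Real.log_pow, ← hℓ]
      push_cast
      nlinarith
  -- Ko
  have hGm : (1 : ℝ) ≤ Real.log c.Gm := by
    have h4 : Real.log 4 ≤ Real.log c.Gm := Real.log_le_log (by norm_num) hc.Gm_ge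
    have e4 : Real.log 4 = 2 * Real.log 2 := by
      rw [show (4 : ℝ) = 2 ^ 2 by norm_num, Real.log_pow]; norm_num
    linarith
  have hC1 : 0 ≤ Real.log (max X.CU 1) := Real.log_nonneg (le_max_right _ _)
  have hCm : 0 < max X.CU 1 := lt_of_lt_of_le one_pos (le_max_right _ _)
  have hxu : i.F.x ≤ max X.CU 1 * i.F.u := by
    have h1 := hF.u_lo
    unfold BdFr.U at h1
    have h2 : 1 ≤ i.F.lam ^ (-(X.sS / 2)) := Real.one_le_rpow_of_pos_of_le_one_of_nonpos hl hp.lam1.le (by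
      have b1 := hX.tau_le
      unfold BdFix.sS
      linarith)
    calc i.F.x ≤ i.F.x * i.F.lam ^ (-(X.sS / 2)) := le_mul_of_one_le_right hx.le h2
      _ ≤ X.CU * i.F.u := h1
      _ ≤ _ := mul_le_mul_of_nonneg_right (le_max_left _ _) hu.le
  have k2 : ((⌈Real.logb c.Gm (1 / (c.Cv * i.F.u))⌉₊ : ℕ) : ℝ) ≤ (Real.log (max X.CU 1) + ℓ) + 1 := by
    have hCv := hc.Cv_ge
    have hCv0 : 0 < c.Cv := by linarith
    have hCu : 0 < c.Cv * i.F.u := by positivity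
    refine bud_bm_num_K_ceil (Y := max X.CU 1 * (1 / i.F.x)) (by linarith [hc.Gm_ge]) ?_ ?_ (by positivity) ?_
    · positivity
    · rw [mul_one_div, div_le_div_iff₀ hCu hx]
      calc 1 * i.F.x ≤ max X.CU 1 * i.F.u := by rw [one_mul]; exact hxu
        _ ≤ max X.CU 1 * (c.Cv * i.F.u) := by
            apply mul_le_mul_of_nonneg_left _ hCm.le
            nlinarith
    · rw [Real.log_mul hCm.ne' (by positivity), ← hℓ]
      nlinarith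
  refine ⟨?_, ?_, by rw [← hℓ]; exact hℓ0⟩
  · rw [← hℓ]
    show (((⌈Real.logb 2 (c.s0 * i.V.bbuf / (8 * c.nb) / i.F.x ^ 40)⌉₊ + 1 + 1 + ⌈Real.logb c.Gm (1 / (c.Cv * i.F.u))⌉₊ : ℕ)) : ℝ) ≤ _
    push_cast
    linarith
  · unfold BdFr.x
    rw [one_div, ← Real.rpow_neg hp.N0.le, Real.log_rpow hp.N0]
    ring

/-- the number of blocks is logarithmic, hence sub-power: `K1 ≲ log(1/x⁴⁰)`, `Ko ≲ log(1/u)`, `N ≤ λ^{-6/p_*}` -/
theorem bud_bm_num_K (hS : BdStd X W Fam K) {n : ℕ} {c : BmC} (hc : c.Ok) {e : ℝ} (he : 0 < e) :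
    ∃ N0 : ℕ, ∀ i : BdVI X W, BudB.VSt X W Fam n i → N0 ≤ i.F.N →
      1 ≤ ((i.mbP c).K : ℝ) ∧ ((i.mbP c).K : ℝ) ≤ i.F.lam ^ (-e) ∧ Real.log i.F.N ≤ i.F.lam ^ (-e) := by
  have hX := hS.fix
  have hC1 : 0 ≤ Real.log (max X.CU 1) := Real.log_nonneg (le_max_right _ _)
  obtain ⟨N1, h1⟩ := BudB.ev_log hX (e := e / 2) (by positivity)
  obtain ⟨N2, h2⟩ := BudB.ev_lam hX (e := e / 2) (ε := 1 / (65 + Real.log (max X.CU 1))) (by positivity) (by positivity)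
  refine ⟨max N1 N2, fun i hi hN => ?_⟩
  have hF := BudB.vst_ok hS hi
  have hp := bud_env_pos hX hF
  have hl := hp.lam0
  have a1 := h1 i.F hF (le_trans (le_max_left _ _) hN)
  have a2 := h2 i.F hF (le_trans (le_max_right _ _) hN)
  obtain ⟨b1, b2, b3⟩ := bud_bm_num_K_one hS hc i hi
  obtain ⟨t, ht⟩ : ∃ t, t = i.F.lam ^ (-(e / 2)) := ⟨_, rfl⟩
  have ht0 : 0 < t := ht ▸ Real.rpow_pos_of_pos hl _
  have ht2 : i.F.lam ^ (-e) = t * t := by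
    rw [ht, ← Real.rpow_add hl]; congr 1; ring
  have ht3 : 65 + Real.log (max X.CU 1) ≤ t := by
    rw [ht, Real.rpow_neg hl.le, ← one_div]
    rw [le_div_iff₀ (Real.rpow_pos_of_pos hl _)]
    have := mul_le_mul_of_nonneg_left a2 (show 0 ≤ 65 + Real.log (max X.CU 1) by positivity)
    rwa [mul_one_div_cancel (by positivity)] at this
  rw [← ht] at a1
  have ht1 : 1 ≤ t := by linarith
  refine ⟨?_, ?_, ?_⟩
  · have : 1 ≤ (i.mbP c).K := by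
      unfold MbxPar.K
      omega
    exact_mod_cast this
  · rw [ht2]
    calc ((i.mbP c).K : ℝ) ≤ 61 * Real.log (1 / i.F.x) + (4 + Real.log (max X.CU 1)) := b1
      _ ≤ 61 * t + (4 + Real.log (max X.CU 1)) * t := by nlinarith
      _ = (65 + Real.log (max X.CU 1)) * t := by ring
      _ ≤ t * t := mul_le_mul_of_nonneg_right ht3 ht0.le
  · rw [ht2, b2]
    calc 6 * Real.log (1 / i.F.x) ≤ 6 * t := by linarith
      _ ≤ t * t := mul_le_mul_of_nonneg_right (by linarith) ht0.le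

/-- `1/m ≤ 2 x⁶` and `x⁶ = u⁶ Λ A³` -/
theorem bud_bm_num_xA {F : BdFr} (hF : F.Ok X) (hX : X.Ok) : 1 / (F.m : ℝ) ≤ 2 * F.x ^ 6 ∧ F.x ^ 6 = F.u ^ 6 * F.Lam * F.A ^ 3 := by
  have hp := bud_env_pos hX hF
  constructor
  · have hx6 : F.x ^ 6 = 1 / (F.N : ℝ) := by
      unfold BdFr.x
      rw [← Real.rpow_natCast, ← Real.rpow_mul hp.N0.le]
      norm_num
      rw [Real.rpow_neg_one]
    rw [hx6, div_le_iff₀ hp.m0]
    have := hF.m_lo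
    have h2 : 2 * (1 / (F.N : ℝ)) * F.m = 2 * F.m / F.N := by ring
    rw [h2, le_div_iff₀ hp.N0]
    linarith
  · unfold BdFr.A BdFr.Xr
    have hL := hp.Lam0
    have e : (F.Lam ^ (-(1 / 3) : ℝ)) ^ 3 = F.Lam⁻¹ := by
      rw [← Real.rpow_natCast, ← Real.rpow_mul hL.le]
      norm_num
      rw [Real.rpow_neg_one]
    rw [mul_pow, e]
    have hu := hp.u0
    field_simp

/-- `vhi/(vlo² m C0) ≤ 2 (Cv/cv²) u³A³` (`m ≥ N/2 = x⁻⁶/2`, `x⁶/(u³Λ) = u³A³`) -/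
theorem bud_bm_num_be (hS : BdStd X W Fam K) {n : ℕ} {c : BmC} (hc : c.Ok) (i : BdVI X W) (hi : BudB.VSt X W Fam n i) :
    (i.mbP c).vhi / ((i.mbP c).vlo ^ 2 * i.F.m * (i.mbP c).C0) ≤ 2 * (c.Cv / c.cv ^ 2) * (i.F.u ^ 3 * i.F.A ^ 3) := by
  have hF := BudB.vst_ok hS hi
  have hp := bud_env_pos hS.fix hF
  obtain ⟨h1, h2⟩ := bud_bm_num_xA hF hS.fix
  show c.Cv * i.F.u / ((c.cv * i.F.u) ^ 2 * i.F.m * (i.F.u ^ 2 * i.F.Lam)) ≤ _
  have hu := hp.u0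
  have hL := hp.Lam0
  have hm := hp.m0
  have hcv := hc.cv_pos
  have hCv : 0 < c.Cv := by linarith [hc.Cv_ge]
  have e : c.Cv * i.F.u / ((c.cv * i.F.u) ^ 2 * i.F.m * (i.F.u ^ 2 * i.F.Lam))
      = (c.Cv / c.cv ^ 2) / (i.F.u ^ 3 * i.F.Lam) * (1 / (i.F.m : ℝ)) := by
    field_simp
  rw [e]
  calc (c.Cv / c.cv ^ 2) / (i.F.u ^ 3 * i.F.Lam) * (1 / (i.F.m : ℝ))
      ≤ (c.Cv / c.cv ^ 2) / (i.F.u ^ 3 * i.F.Lam) * (2 * i.F.x ^ 6) := mul_le_mul_of_nonneg_left h1 (by positivity)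
    _ = _ := by rw [h2]; field_simp

/-- `u³A³ = x⁶/(u³Λ)` -/
theorem bud_bm_num_a_U {F : BdFr} (hF : F.Ok X) (hX : X.Ok) : F.u ^ 3 * F.A ^ 3 = F.x ^ 6 / (F.u ^ 3 * F.Lam) := by
  have hu := BdFr.bds_u_pos hF hX
  have hl := BdFr.bds_lam_pos hF
  have hLam : 0 < F.Lam := Real.rpow_pos_of_pos hl _
  have e : (F.Lam ^ (-(1 / 3) : ℝ)) ^ 3 = F.Lam⁻¹ := by
    rw [← Real.rpow_natCast, ← Real.rpow_mul hLam.le, ← Real.rpow_neg_one]
    norm_num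
  unfold BdFr.A BdFr.Xr
  rw [mul_pow, e]
  field_simp

/-- the common facts of (N-a), (N-b): `U = u³A³ ≤ λ^{0.36} 32 nb D` -/
theorem bud_bm_num_a_D (hS : BdStd X W Fam K) {n : ℕ} (hn1 : 1 ≤ n) (hZ : BudZ X W Fam n) {c : BmC} (hc : c.Ok) :
    ∃ N0 : ℕ, ∀ i : BdVI X W, BudB.VSt X W Fam n i → N0 ≤ i.F.N →
      i.F.u ^ 3 * i.F.A ^ 3 ≤ i.F.lam ^ (0.36 : ℝ) * (32 * c.nb * i.mbD c) ∧ 0 ≤ i.mbD c := by
  obtain ⟨N1, h1⟩ := bud_bm_num_AL hS hn1 hZ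
  obtain ⟨N2, h2⟩ := bud_bm_num_AL_aj hS hZ
  refine ⟨max N1 N2, fun i hi hN => ?_⟩
  obtain ⟨a1, a2, -⟩ := h1 i hi (le_trans (le_max_left _ _) hN)
  have hL := h2 i hi (le_trans (le_max_right _ _) hN)
  have hok := hS.ok _ hi.1
  have hu := BdFr.bds_u_pos hok hS.fix
  have hL0 : 0 < i.V.L := lt_of_lt_of_le (BdFr.bds_astage_pos hok hS.fix n) hL
  have hnb : (0 : ℝ) < c.nb := by exact_mod_cast hc.nb_pos
  have e : 32 * c.nb * i.mbD c = i.F.u ^ 3 * (i.F.kap * i.V.L ^ 3) := by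
    unfold BdVI.mbD BdViol.d0
    field_simp
  refine ⟨?_, ?_⟩
  · rw [e]
    calc i.F.u ^ 3 * i.F.A ^ 3 ≤ i.F.u ^ 3 * (i.F.lam ^ (0.36 : ℝ) * (i.F.kap * i.V.L ^ 3)) :=
          mul_le_mul_of_nonneg_left a1 (by positivity)
      _ = _ := by ring
  · unfold BdVI.mbD BdViol.d0
    positivity

/-- arithmetic of (N-a) -/
theorem bud_bm_num_a_ar {lam Kk c1 r be B0 G U nb D cp : ℝ} (hl : 0 < lam) (hl1 : lam ≤ 1) (hK0 : 0 ≤ Kk) (hK : Kk ≤ lam ^ (-(0.01 : ℝ))) (hr : 0 ≤ r)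
    (hbe0 : 0 ≤ be) (hbe : be ≤ B0 * U) (hG : 0 ≤ G) (hU : U ≤ lam ^ (0.36 : ℝ) * (32 * nb * D)) (hD : 0 ≤ D) (hnb : 0 ≤ nb) (hcp : 0 < cp) (hB0 : 0 ≤ B0)
    (hM : (|c1| + r) * B0 * G * (32 * nb) * (2 * cp) * lam ^ (0.12 : ℝ) ≤ 1) :
    Kk ^ 3 * ((c1 + lam ^ (-(0.01 : ℝ)) * r) * (be * G)) ≤ lam ^ (1 / 5 : ℝ) * D / (2 * cp) := by
  set t := lam ^ (-(0.01 : ℝ)) with ht
  have ht1 : 1 ≤ t := Real.one_le_rpow_of_pos_of_le_one_of_nonpos hl hl1 (by norm_num)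
  have h1 : c1 + t * r ≤ (|c1| + r) * t := by
    have : c1 ≤ |c1| * t := (le_abs_self c1).trans (le_mul_of_one_le_right (abs_nonneg _) ht1)
    linarith
  have hc1 : 0 ≤ |c1| + r := add_nonneg (abs_nonneg _) hr
  have h2 : Kk ^ 3 ≤ t ^ 3 := pow_le_pow_left₀ hK0 hK 3
  have h3 : be * G ≤ B0 * (lam ^ (0.36 : ℝ) * (32 * nb * D)) * G :=
    mul_le_mul_of_nonneg_right (hbe.trans (mul_le_mul_of_nonneg_left hU hB0)) hG
  have h4 : (c1 + t * r) * (be * G) ≤ (|c1| + r) * t * (B0 * (lam ^ (0.36 : ℝ) * (32 * nb * D)) * G) :=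
    mul_le_mul h1 h3 (mul_nonneg hbe0 hG) (by positivity)
  have h5 : 0 ≤ (|c1| + r) * t * (B0 * (lam ^ (0.36 : ℝ) * (32 * nb * D)) * G) := by positivity
  have h6 : Kk ^ 3 * ((c1 + t * r) * (be * G)) ≤ t ^ 3 * ((|c1| + r) * t * (B0 * (lam ^ (0.36 : ℝ) * (32 * nb * D)) * G)) :=
    (mul_le_mul_of_nonneg_left h4 (by positivity)).trans (mul_le_mul_of_nonneg_right h2 h5)
  have e1 : t ^ 3 * t * lam ^ (0.36 : ℝ) = lam ^ (0.12 : ℝ) * lam ^ (1 / 5 : ℝ) := by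
    rw [ht, ← Real.rpow_natCast, ← Real.rpow_mul hl.le, ← Real.rpow_add hl, ← Real.rpow_add hl, ← Real.rpow_add hl]
    norm_num
  refine h6.trans ?_
  rw [le_div_iff₀ (by positivity)]
  calc t ^ 3 * ((|c1| + r) * t * (B0 * (lam ^ (0.36 : ℝ) * (32 * nb * D)) * G)) * (2 * cp)
      = ((|c1| + r) * B0 * G * (32 * nb) * (2 * cp)) * (t ^ 3 * t * lam ^ (0.36 : ℝ)) * D := by ring
    _ = ((|c1| + r) * B0 * G * (32 * nb) * (2 * cp) * lam ^ (0.12 : ℝ)) * (lam ^ (1 / 5 : ℝ) * D) := by rw [e1]; ring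
    _ ≤ 1 * (lam ^ (1 / 5 : ℝ) * D) := mul_le_mul_of_nonneg_right hM (by positivity)
    _ = _ := one_mul _

/-- `0 ≤ vhi/(vlo² m C0)` -/
theorem bud_bm_num_a_be0 (hS : BdStd X W Fam K) {n : ℕ} {c : BmC} (hc : c.Ok) (i : BdVI X W) (hi : BudB.VSt X W Fam n i) :
    0 ≤ (i.mbP c).vhi / ((i.mbP c).vlo ^ 2 * i.F.m * (i.mbP c).C0) := by
  have hok := hS.ok _ hi.1
  have hu := BdFr.bds_u_pos hok hS.fix
  have hC0 := bud_hp_aux_C0_pos hS.fix hok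
  have h1 := hc.Cv_ge
  show 0 ≤ c.Cv * i.F.u / ((c.cv * i.F.u) ^ 2 * i.F.m * i.F.C0)
  positivity

/-- **(N-a)**: `mbxKw ≲ λ^{-0.02} u³A³ ≤ λ^{0.2} κ_j γ d0³/(2 cp)`.     TEX[LL:bud:box-moments] l.1509-1518 -/
theorem bud_bm_num_a (hS : BdStd X W Fam K) {n : ℕ} (hn1 : 1 ≤ n) (hZ : BudZ X W Fam n) {c : BmC} (hc : c.Ok) (r : ℕ) (c1 cp : ℝ) (hcp : 0 < cp) :
    ∃ N0 : ℕ, ∀ i : BdVI X W, BudB.VSt X W Fam n i → N0 ≤ i.F.N →
      mbxKw i.F.m (i.mbP c) r c1 (i.F.lam ^ (-(0.01 : ℝ))) ≤ i.F.lam ^ (1 / 5 : ℝ) * i.mbD c / (2 * cp) := by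
  have hnb : (0 : ℝ) < c.nb := by exact_mod_cast hc.nb_pos
  have hcv := hc.cv_pos
  have hCv := hc.Cv_ge
  set M : ℝ := (|c1| + r) * (2 * (c.Cv / c.cv ^ 2)) * (64 * r * (2 / (1 / (32 * c.nb)) + 3)) * (32 * c.nb) * (2 * cp) with hM
  have hM0 : 0 ≤ M := by positivity
  obtain ⟨N1, h1⟩ := bud_bm_num_a_D hS hn1 hZ hc
  obtain ⟨N2, h2⟩ := bud_bm_num_K (n := n) hS hc (e := 0.01) (by norm_num)
  obtain ⟨N3, h3⟩ := bud_hp_aux_lam_small hS.fix 0.12 (1 / (M + 1)) (by norm_num) (by positivity)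
  refine ⟨max (max N1 N2) N3, fun i hi hN => ?_⟩
  obtain ⟨a1, a2⟩ := h1 i hi (le_trans (le_trans (le_max_left _ _) (le_max_left _ _)) hN)
  obtain ⟨b1, b2, -⟩ := h2 i hi (le_trans (le_trans (le_max_right _ _) (le_max_left _ _)) hN)
  have hok := hS.ok _ hi.1
  have a3 := h3 i.F hok (le_trans (le_max_right _ _) hN)
  have hl := BdFr.bds_lam_pos hok
  have hl1 := (BdFr.bds_lam_lt_one hok hS.fix).le
  have hMl : M * i.F.lam ^ (0.12 : ℝ) ≤ 1 := by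
    calc M * i.F.lam ^ (0.12 : ℝ) ≤ M * (1 / (M + 1)) := mul_le_mul_of_nonneg_left a3 hM0
      _ ≤ 1 := by rw [mul_one_div, div_le_one (by positivity)]; linarith
  unfold mbxKw
  exact bud_bm_num_a_ar hl hl1 (by linarith) b2 (Nat.cast_nonneg r) (bud_bm_num_a_be0 hS hc i hi) (bud_bm_num_be hS hc i hi)
    (by show (0 : ℝ) ≤ 64 * r * (2 / (1 / (32 * c.nb)) + 3); positivity) a1 a2
    hnb.le hcp (by positivity) hMl

/-- frame facts of (N-b): `x² ≤ L`, `x⁶ ≤ u³A³`, `0 ≤ w_c ≤ u` -/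
theorem bud_bm_num_b_fr (hS : BdStd X W Fam K) {n : ℕ} (hZ : BudZ X W Fam n) :
    ∃ N0 : ℕ, ∀ i : BdVI X W, BudB.VSt X W Fam n i → N0 ≤ i.F.N →
      i.F.x ^ 2 ≤ i.V.L ∧ i.F.x ^ 6 ≤ i.F.u ^ 3 * i.F.A ^ 3 ∧ 0 ≤ i.F.wc X ∧ i.F.wc X ≤ i.F.u := by
  obtain ⟨N1, h1⟩ := bud_bm_num_AL_aj hS hZ
  obtain ⟨N2, h2⟩ := bds_big_ev X hS.fix
  obtain ⟨N3, h3⟩ := bud_hp_aux_yc_small hS.fix (ε := 1) one_pos
  refine ⟨max (max N1 N2) N3, fun i hi hN => ?_⟩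
  have hL := h1 i hi (le_trans (le_trans (le_max_left _ _) (le_max_left _ _)) hN)
  have hok := hS.ok _ hi.1
  have hB := h2 i.F hok (le_trans (le_trans (le_max_right _ _) (le_max_left _ _)) hN)
  have hyc := h3 i.F hok (le_trans (le_max_right _ _) hN)
  have hx := BdFr.bds_x_pos hok
  have hu := BdFr.bds_u_pos hok hS.fix
  have hu1 := BdFr.bds_u_le_one hok hS.fix
  have hl := BdFr.bds_lam_pos hok
  have hl1 := (BdFr.bds_lam_lt_one hok hS.fix).le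
  have hXr := BdFr.bds_Xr_pos hok hS.fix
  have hLam : 0 < i.F.Lam := Real.rpow_pos_of_pos hl _
  have hLam1 : i.F.Lam ≤ 1 := Real.rpow_le_one hl.le hl1 (by norm_num)
  refine ⟨?_, ?_, ?_, ?_⟩
  · have a1 : i.F.agoal X ≤ i.V.L := (BdFr.bds_astage_ge hok hS.fix hB n).trans hL
    have a2 : 1 ≤ i.F.lam ^ (-X.s0) :=
      Real.one_le_rpow_of_pos_of_le_one_of_nonpos hl hl1 (by have := BdFr.bds_s0_ge hS.fix; linarith)
    have a3 : i.F.x ≤ i.F.Xr := by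
      unfold BdFr.Xr
      rw [le_div_iff₀ hu]
      calc i.F.x * i.F.u ≤ i.F.x * 1 := mul_le_mul_of_nonneg_left hu1 hx.le
        _ = i.F.x := mul_one _
    calc i.F.x ^ 2 ≤ i.F.Xr ^ 2 := pow_le_pow_left₀ hx.le a3 2
      _ ≤ i.F.Xr ^ 2 * i.F.lam ^ (-X.s0) := le_mul_of_one_le_right (by positivity) a2
      _ ≤ i.V.L := a1
  · rw [bud_bm_num_a_U hok hS.fix, le_div_iff₀ (by positivity)]
    have a1 : i.F.u ^ 3 * i.F.Lam ≤ 1 := mul_le_one₀ (pow_le_one₀ hu.le hu1) hLam.le hLam1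
    calc i.F.x ^ 6 * (i.F.u ^ 3 * i.F.Lam) ≤ i.F.x ^ 6 * 1 := mul_le_mul_of_nonneg_left a1 (by positivity)
      _ = i.F.x ^ 6 := mul_one _
  · unfold BdFr.wc BdFr.yc
    positivity
  · unfold BdFr.wc
    calc i.F.yc X * i.F.u ≤ 1 * i.F.u := mul_le_mul_of_nonneg_right hyc hu.le
      _ = i.F.u := one_mul _

/-- arithmetic of (N-b) -/
theorem bud_bm_num_b_ar {lam Kk c1 r be B0 Rg R0 CB lg U eps vh T1 T2 T0 nb D cp : ℝ} (hl : 0 < lam) (hl1 : lam ≤ 1) (hK0 : 0 ≤ Kk) (hK : Kk ≤ lam ^ (-(0.01 : ℝ)))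
    (hr : 0 ≤ r) (hbe0 : 0 ≤ be) (hbe : be ≤ B0 * U) (hB0 : 0 ≤ B0) (hRg0 : 0 ≤ Rg) (hRg : Rg ≤ R0 * lam ^ (-(0.01 : ℝ))) (hR0 : 0 ≤ R0)
    (hlg0 : 0 ≤ lg) (hlg : lg ≤ lam ^ (-(0.01 : ℝ))) (hU0 : 0 ≤ U) (heps : eps ≤ U) (hT : vh * T1 * T2 ≤ T0 * U) (hT0 : 0 ≤ T0)
    (hU : U ≤ lam ^ (0.36 : ℝ) * (32 * nb * D)) (hD : 0 ≤ D) (hnb : 0 ≤ nb) (hcp : 0 < cp)
    (hM : ((|c1| + r) * (B0 * R0 + 4 * |CB|) + 16 + T0) * (32 * nb) * (2 * cp) * lam ^ (0.31 : ℝ) ≤ 1) :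
    Kk ^ 3 * ((c1 + lam ^ (-(0.01 : ℝ)) * r) * (be * Rg + 4 * (CB * lg * U)) + 16 * 1 * eps) + Kk * vh * T1 * T2
      ≤ lam ^ (1 / 5 : ℝ) * D / (2 * cp) * lam ^ (-(1 / 5) : ℝ) := by
  set t := lam ^ (-(0.01 : ℝ)) with ht
  have ht1 : 1 ≤ t := Real.one_le_rpow_of_pos_of_le_one_of_nonpos hl hl1 (by norm_num)
  have ht0 : 0 ≤ t := by linarith
  have hc1 : 0 ≤ |c1| + r := add_nonneg (abs_nonneg _) hr
  have h1 : |c1 + t * r| ≤ (|c1| + r) * t := by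
    calc |c1 + t * r| ≤ |c1| + |t * r| := abs_add_le _ _
      _ = |c1| + t * r := by rw [abs_of_nonneg (mul_nonneg ht0 hr)]
      _ ≤ |c1| * t + t * r := by linarith [le_mul_of_one_le_right (abs_nonneg c1) ht1]
      _ = _ := by ring
  have h2 : |be * Rg + 4 * (CB * lg * U)| ≤ (B0 * R0 + 4 * |CB|) * (t * U) := by
    have a1 : be * Rg ≤ B0 * U * (R0 * t) := mul_le_mul hbe hRg hRg0 (mul_nonneg hB0 hU0)
    have a2 : |CB * lg * U| ≤ |CB| * t * U := by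
      rw [abs_mul, abs_mul, abs_of_nonneg hlg0, abs_of_nonneg hU0]
      exact mul_le_mul_of_nonneg_right (mul_le_mul_of_nonneg_left hlg (abs_nonneg _)) hU0
    calc |be * Rg + 4 * (CB * lg * U)| ≤ |be * Rg| + |4 * (CB * lg * U)| := abs_add_le _ _
      _ = be * Rg + 4 * |CB * lg * U| := by rw [abs_of_nonneg (mul_nonneg hbe0 hRg0), abs_mul]; norm_num
      _ ≤ B0 * U * (R0 * t) + 4 * (|CB| * t * U) := by linarith
      _ = _ := by ring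
  have hE0 : 0 ≤ B0 * R0 + 4 * |CB| := by positivity
  have h3 : (c1 + t * r) * (be * Rg + 4 * (CB * lg * U)) ≤ (|c1| + r) * t * ((B0 * R0 + 4 * |CB|) * (t * U)) :=
    calc (c1 + t * r) * (be * Rg + 4 * (CB * lg * U)) ≤ |(c1 + t * r) * (be * Rg + 4 * (CB * lg * U))| := le_abs_self _
      _ = |c1 + t * r| * |be * Rg + 4 * (CB * lg * U)| := abs_mul _ _
      _ ≤ _ := mul_le_mul h1 h2 (abs_nonneg _) (by positivity)
  have ht2 : 1 ≤ t ^ 2 := one_le_pow₀ ht1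
  have h4 : (c1 + t * r) * (be * Rg + 4 * (CB * lg * U)) + 16 * 1 * eps ≤ ((|c1| + r) * (B0 * R0 + 4 * |CB|) + 16) * (t ^ 2 * U) := by
    have a1 : U ≤ t ^ 2 * U := le_mul_of_one_le_left hU0 ht2
    calc (c1 + t * r) * (be * Rg + 4 * (CB * lg * U)) + 16 * 1 * eps
        ≤ (|c1| + r) * t * ((B0 * R0 + 4 * |CB|) * (t * U)) + 16 * (t ^ 2 * U) := by linarith
      _ = _ := by ring
  have h5 : 0 ≤ ((|c1| + r) * (B0 * R0 + 4 * |CB|) + 16) * (t ^ 2 * U) := by positivity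
  have h6 : Kk ^ 3 * ((c1 + t * r) * (be * Rg + 4 * (CB * lg * U)) + 16 * 1 * eps)
      ≤ t ^ 3 * (((|c1| + r) * (B0 * R0 + 4 * |CB|) + 16) * (t ^ 2 * U)) :=
    (mul_le_mul_of_nonneg_left h4 (by positivity)).trans (mul_le_mul_of_nonneg_right (pow_le_pow_left₀ hK0 hK 3) h5)
  have h7 : Kk * vh * T1 * T2 ≤ t ^ 5 * (T0 * U) := by
    have a1 : t ≤ t ^ 5 := by
      calc t = t ^ 1 := (pow_one t).symm
        _ ≤ t ^ 5 := pow_le_pow_right₀ ht1 (by norm_num)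
    calc Kk * vh * T1 * T2 = Kk * (vh * T1 * T2) := by ring
      _ ≤ Kk * (T0 * U) := mul_le_mul_of_nonneg_left hT hK0
      _ ≤ t ^ 5 * (T0 * U) := mul_le_mul_of_nonneg_right (hK.trans a1) (mul_nonneg hT0 hU0)
  have e1 : t ^ 5 * lam ^ (0.36 : ℝ) = lam ^ (0.31 : ℝ) := by
    rw [ht, ← Real.rpow_natCast, ← Real.rpow_mul hl.le, ← Real.rpow_add hl]
    norm_num
  have e2 : lam ^ (1 / 5 : ℝ) * D / (2 * cp) * lam ^ (-(1 / 5) : ℝ) = D / (2 * cp) := by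
    have : lam ^ (1 / 5 : ℝ) * lam ^ (-(1 / 5) : ℝ) = 1 := by rw [← Real.rpow_add hl]; norm_num
    calc lam ^ (1 / 5 : ℝ) * D / (2 * cp) * lam ^ (-(1 / 5) : ℝ) = (lam ^ (1 / 5 : ℝ) * lam ^ (-(1 / 5) : ℝ)) * (D / (2 * cp)) := by ring
      _ = _ := by rw [this, one_mul]
  rw [e2, le_div_iff₀ (by positivity)]
  set M' := (|c1| + r) * (B0 * R0 + 4 * |CB|) + 16 + T0 with hM'
  have hM'0 : 0 ≤ M' := by positivity
  have h8 : Kk ^ 3 * ((c1 + t * r) * (be * Rg + 4 * (CB * lg * U)) + 16 * 1 * eps) + Kk * vh * T1 * T2 ≤ M' * t ^ 5 * U := by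
    calc _ ≤ t ^ 3 * (((|c1| + r) * (B0 * R0 + 4 * |CB|) + 16) * (t ^ 2 * U)) + t ^ 5 * (T0 * U) := add_le_add h6 h7
      _ = _ := by rw [hM']; ring
  calc (Kk ^ 3 * ((c1 + t * r) * (be * Rg + 4 * (CB * lg * U)) + 16 * 1 * eps) + Kk * vh * T1 * T2) * (2 * cp)
      ≤ (M' * t ^ 5 * (lam ^ (0.36 : ℝ) * (32 * nb * D))) * (2 * cp) :=
        mul_le_mul_of_nonneg_right (h8.trans (mul_le_mul_of_nonneg_left hU (by positivity))) (by positivity)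
    _ = (M' * (32 * nb) * (2 * cp) * (t ^ 5 * lam ^ (0.36 : ℝ))) * D := by ring
    _ ≤ 1 * D := by rw [e1]; exact mul_le_mul_of_nonneg_right hM hD
    _ = D := one_mul _

/-- `32 Rp/g ≲ λ^{-ρ}` -/
theorem bud_bm_num_b_Rg {u Q0 wc W0 Cv s0 nb sL lr t : ℝ} (hu : 0 < u) (hwc0 : 0 ≤ wc) (hwc : wc ≤ u) (hW0 : 0 ≤ W0) (hW : W0 ≤ Cv * u) (hs0 : 0 < s0) (hnb : 0 < nb)
    (hsL : 0 ≤ sL) (ht : 0 < t) (hlr : 1 ≤ lr * t) (hlr0 : 0 < lr) :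
    0 ≤ 32 * (Q0 ^ 2 * (wc + W0)) / (s0 * (u * (sL + lr)) / (8 * nb)) ∧
      32 * (Q0 ^ 2 * (wc + W0)) / (s0 * (u * (sL + lr)) / (8 * nb)) ≤ 256 * Q0 ^ 2 * (1 + Cv) * nb / s0 * t := by
  have hg : 0 < s0 * (u * (sL + lr)) / (8 * nb) := by positivity
  refine ⟨by positivity, ?_⟩
  rw [div_le_iff₀ hg]
  have h1 : wc + W0 ≤ (1 + Cv) * u := by linarith
  have hCv : 0 ≤ (1 + Cv) * u := le_trans (by positivity) h1
  have h2 : 1 ≤ t * (sL + lr) := by nlinarith [mul_nonneg ht.le hsL]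
  calc 32 * (Q0 ^ 2 * (wc + W0)) ≤ 32 * (Q0 ^ 2 * ((1 + Cv) * u)) := by
        have := mul_le_mul_of_nonneg_left h1 (sq_nonneg Q0)
        linarith
    _ = 32 * (Q0 ^ 2 * ((1 + Cv) * u)) * 1 := (mul_one _).symm
    _ ≤ 32 * (Q0 ^ 2 * ((1 + Cv) * u)) * (t * (sL + lr)) := mul_le_mul_of_nonneg_left h2 (by positivity)
    _ = 256 * Q0 ^ 2 * (1 + Cv) * nb / s0 * t * (s0 * (u * (sL + lr)) / (8 * nb)) := by field_simp; ring

/-- the first layer: `vhi l0/(gam d0) ≲ x³⁸` -/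
theorem bud_bm_num_b_T {Cv u r x nb L U : ℝ} (hCv : 0 ≤ Cv) (hu : 0 < u) (hr : 0 ≤ r) (hx : 0 < x) (hx1 : x ≤ 1) (hnb : 0 < nb) (hL : x ^ 2 ≤ L) (hU : x ^ 6 ≤ U) :
    Cv * u * (1024 * r * x ^ 40) * (2 / (1 / (32 * nb) * (u * L))) ≤ Cv * 1024 * r * 64 * nb * U := by
  have hL0 : 0 < L := lt_of_lt_of_le (by positivity) hL
  have e : Cv * u * (1024 * r * x ^ 40) * (2 / (1 / (32 * nb) * (u * L))) = Cv * 1024 * r * 64 * nb * (x ^ 40 / L) := by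
    field_simp
    ring
  rw [e]
  refine mul_le_mul_of_nonneg_left ?_ (by positivity)
  rw [div_le_iff₀ hL0]
  have h1 : x ^ 40 ≤ x ^ 6 * x ^ 2 := by
    rw [← pow_add]
    exact pow_le_pow_of_le_one hx.le hx1 (by norm_num)
  calc x ^ 40 ≤ x ^ 6 * x ^ 2 := h1
    _ ≤ U * L := mul_le_mul hU hL (by positivity) (le_trans (by positivity) hU)

/-- **(N-b)**: `mbxLn ≲ λ^{-0.03-ρ} u³A³ ≤ κ_j γ d0³/(2 cp)`: `Rp/g ≲ u/(u λ^ρ)`, `Bout ≲ log N u³A³`, `eps = x²⁰ ≪ x¹⁰ ≤ κ_j d0³`, `vhi l0/d0 ≤ x³⁸`.     TEX[LL:bud:box-moments] l.1500-1518 -/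
theorem bud_bm_num_b (hS : BdStd X W Fam K) {n : ℕ} (hn1 : 1 ≤ n) (hZ : BudZ X W Fam n) {c : BmC} (hc : c.Ok) (r : ℕ) (c1 cp Q0 CB : ℝ) (hcp : 0 < cp) :
    ∃ N0 : ℕ, ∀ i : BdVI X W, BudB.VSt X W Fam n i → N0 ≤ i.F.N →
      mbxLn i.F.m (i.mbP c) 1 r c1 (i.F.lam ^ (-(0.01 : ℝ))) (i.F.x ^ 20) (i.mbRo c Q0 0) (CB * Real.log i.F.N * (i.F.u ^ 3 * i.F.A ^ 3))
        ≤ i.F.lam ^ (1 / 5 : ℝ) * i.mbD c / (2 * cp) * i.F.lam ^ (-(1 / 5) : ℝ) := by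
  have hnb : (0 : ℝ) < c.nb := by exact_mod_cast hc.nb_pos
  have hcv := hc.cv_pos
  have hCv := hc.Cv_ge
  have hs0 := hc.s0_pos
  set M : ℝ := ((|c1| + r) * (2 * (c.Cv / c.cv ^ 2) * (256 * Q0 ^ 2 * (1 + c.Cv) * c.nb / c.s0) + 4 * |CB|) + 16 + c.Cv * 1024 * r * 64 * c.nb)
    * (32 * c.nb) * (2 * cp) with hM
  have hM0 : 0 ≤ M := by positivity
  obtain ⟨N1, h1⟩ := bud_bm_num_a_D hS hn1 hZ hc
  obtain ⟨N2, h2⟩ := bud_bm_num_K (n := n) hS hc (e := 0.01) (by norm_num)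
  obtain ⟨N3, h3⟩ := bud_hp_aux_lam_small hS.fix 0.31 (1 / (M + 1)) (by norm_num) (by positivity)
  obtain ⟨N4, h4⟩ := bud_bm_num_b_fr hS hZ
  refine ⟨max (max N1 N2) (max N3 N4), fun i hi hN => ?_⟩
  obtain ⟨a1, a2⟩ := h1 i hi (le_trans (le_trans (le_max_left _ _) (le_max_left _ _)) hN)
  obtain ⟨b1, b2, b3⟩ := h2 i hi (le_trans (le_trans (le_max_right _ _) (le_max_left _ _)) hN)
  have hok := hS.ok _ hi.1
  have a3 := h3 i.F hok (le_trans (le_trans (le_max_left _ _) (le_max_right _ _)) hN)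
  obtain ⟨d1, d2, d3, d4⟩ := h4 i hi (le_trans (le_trans (le_max_right _ _) (le_max_right _ _)) hN)
  have hl := BdFr.bds_lam_pos hok
  have hl1 := (BdFr.bds_lam_lt_one hok hS.fix).le
  have hx := BdFr.bds_x_pos hok
  have hx1 := (BdFr.bds_x_lt_one hok).le
  have hu := BdFr.bds_u_pos hok hS.fix
  have hMl : M * i.F.lam ^ (0.31 : ℝ) ≤ 1 := by
    calc M * i.F.lam ^ (0.31 : ℝ) ≤ M * (1 / (M + 1)) := mul_le_mul_of_nonneg_left a3 hM0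
      _ ≤ 1 := by rw [mul_one_div, div_le_one (by positivity)]; linarith
  have hlog : 0 ≤ Real.log i.F.N := Real.log_natCast_nonneg _
  have hU0 : 0 ≤ i.F.u ^ 3 * i.F.A ^ 3 := le_trans (by positivity) d2
  have heps : i.F.x ^ 20 ≤ i.F.u ^ 3 * i.F.A ^ 3 := (pow_le_pow_of_le_one hx.le hx1 (by norm_num)).trans d2
  have hW0 : 0 ≤ i.mbW c 0 ∧ i.mbW c 0 ≤ c.Cv * i.F.u := by
    unfold BdVI.mbW
    refine ⟨le_min (by positivity) zero_le_one, (min_le_left _ _).trans (le_of_eq (by simp))⟩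
  have hrho : 1 ≤ i.F.lam ^ X.rho * i.F.lam ^ (-(0.01 : ℝ)) := by
    rw [← Real.rpow_add hl]
    refine Real.one_le_rpow_of_pos_of_le_one_of_nonpos hl hl1 ?_
    have := hS.fix.rho_le; have := hS.fix.tau0_le; have := hS.fix.eta_le; have := hS.fix.tau_le
    linarith
  obtain ⟨g1, g2⟩ := bud_bm_num_b_Rg (Q0 := Q0) (sL := Real.sqrt i.V.L) hu d3 d4 hW0.1 hW0.2 hs0 hnb (Real.sqrt_nonneg _)
    (Real.rpow_pos_of_pos hl (-(0.01 : ℝ))) hrho (Real.rpow_pos_of_pos hl _)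
  have hT := bud_bm_num_b_T (r := r) (by linarith : 0 ≤ c.Cv) hu (Nat.cast_nonneg r) hx hx1 hnb d1 d2
  unfold mbxLn
  exact bud_bm_num_b_ar hl hl1 (by linarith) b2 (Nat.cast_nonneg r) (bud_bm_num_a_be0 hS hc i hi) (bud_bm_num_be hS hc i hi) (by positivity)
    g1 g2 (by positivity) hlog b3 hU0 heps hT (by positivity) a1 a2 hnb.le hcp hMl

/-- `w_c + w_0 ≤ 2 Cv u` eventually -/
theorem bud_bm_num_c_R (hS : BdStd X W Fam K) {n : ℕ} {c : BmC} (hc : c.Ok) (Q0 : ℝ) :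
    ∃ N0 : ℕ, ∀ i : BdVI X W, BudB.VSt X W Fam n i → N0 ≤ i.F.N →
      0 ≤ i.mbRo c Q0 0 ∧ i.mbRo c Q0 0 ≤ 2 * Q0 ^ 2 * c.Cv * i.F.u := by
  obtain ⟨Ny, hy⟩ := bud_hp_aux_yc_small hS.fix (ε := 1) one_pos
  refine ⟨Ny, fun i hi hN => ?_⟩
  have hF := BudB.vst_ok hS hi
  have hp := bud_env_pos hS.fix hF
  have hu := hp.u0
  have hCv := hc.Cv_ge
  have hyc0 : 0 ≤ i.F.yc X := by
    unfold BdFr.yc
    have h1 := hp.x0
    have h2 := hp.Xr0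
    have h3 := hp.Lam0
    have h4 := hp.lam0
    positivity
  have hwc0 : 0 ≤ i.F.wc X := mul_nonneg hyc0 hu.le
  have hwc : i.F.wc X ≤ i.F.u := by
    unfold BdFr.wc
    have := hy i.F hF hN
    nlinarith
  have hW : i.mbW c 0 ≤ c.Cv * i.F.u := by
    unfold BdVI.mbW
    refine (min_le_left _ _).trans ?_
    simp
  have hW0 : 0 ≤ i.mbW c 0 := by
    unfold BdVI.mbW
    refine le_min ?_ zero_le_one
    have : 0 < c.Cv := by linarith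
    positivity
  unfold BdVI.mbRo
  refine ⟨by positivity, ?_⟩
  have h1 : i.F.wc X + i.mbW c 0 ≤ 2 * c.Cv * i.F.u := by nlinarith
  calc Q0 ^ 2 * (i.F.wc X + i.mbW c 0) ≤ Q0 ^ 2 * (2 * c.Cv * i.F.u) := mul_le_mul_of_nonneg_left h1 (sq_nonneg _)
    _ = _ := by ring

/-- `1/L ≤ λ^{-2/p_*}` -/
theorem bud_bm_num_c_L (hS : BdStd X W Fam K) {n : ℕ} (hZ : BudZ X W Fam n) :
    ∃ N0 : ℕ, ∀ i : BdVI X W, BudB.VSt X W Fam n i → N0 ≤ i.F.N →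
      0 < i.V.L ∧ 1 / i.V.L ≤ i.F.lam ^ (-(2 / X.pS)) := by
  obtain ⟨N1, h1⟩ := BudB.vst_L_ge hS hZ
  refine ⟨N1, fun i hi hN => ?_⟩
  obtain ⟨hL, hL0⟩ := h1 i hi hN
  have hF := BudB.vst_ok hS hi
  have hp := bud_env_pos hS.fix hF
  refine ⟨hL0, ?_⟩
  have hl := hp.lam0
  have h2 : i.F.lam ^ (2 / X.pS) ≤ i.V.L := by
    refine le_trans ?_ hL
    unfold BdFr.agoal
    have a1 := BdFr.bds_Xr_ge hF hS.fix
    have a2 : i.F.lam ^ (2 / X.pS) = (i.F.lam ^ (1 / X.pS)) ^ 2 := by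
      rw [← Real.rpow_natCast, ← Real.rpow_mul hl.le]
      congr 1
      push_cast
      ring
    have a3 : 1 ≤ i.F.lam ^ (-X.s0) := Real.one_le_rpow_of_pos_of_le_one_of_nonpos hl hp.lam1.le (by
      have b1 := hS.fix.tau_le
      have b2 := hS.fix.tau0_le
      have b3 := hS.fix.eta_le
      unfold BdFix.s0 BdFix.sS
      linarith)
    rw [a2]
    calc (i.F.lam ^ (1 / X.pS)) ^ 2 ≤ i.F.Xr ^ 2 := pow_le_pow_left₀ (Real.rpow_pos_of_pos hl _).le a1 2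
      _ ≤ i.F.Xr ^ 2 * i.F.lam ^ (-X.s0) := le_mul_of_one_le_right (by positivity) a3
  rw [Real.rpow_neg hl.le, ← one_div]
  exact one_div_le_one_div_of_le (Real.rpow_pos_of_pos hl _) h2

/-- **(N-c)**: `𝒬_0 = 4 Rp/d0 ≤ 8 Q0² Cv/L ≤ 8 Q0² Cv λ^{-2/p_*}` (`L ≥ a_goal ≥ X² ≥ x²`, `λ ≤ x^{p_*}`, `w_c ≤ u`).     TEX[LL:bud:box-moments] l.1480, l.1519 -/
theorem bud_bm_num_c (hS : BdStd X W Fam K) {n : ℕ} (hZ : BudZ X W Fam n) {c : BmC} (hc : c.Ok) (Q0 : ℝ) :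
    ∃ N0 : ℕ, ∀ i : BdVI X W, BudB.VSt X W Fam n i → N0 ≤ i.F.N →
      4 * i.mbRo c Q0 0 / i.V.d0 ≤ 8 * Q0 ^ 2 * c.Cv * i.F.lam ^ (-(2 / X.pS)) := by
  obtain ⟨N1, h1⟩ := bud_bm_num_c_R hS (n := n) hc Q0
  obtain ⟨N2, h2⟩ := bud_bm_num_c_L hS hZ
  refine ⟨max N1 N2, fun i hi hN => ?_⟩
  obtain ⟨-, a1⟩ := h1 i hi (le_trans (le_max_left _ _) hN)
  obtain ⟨hL0, a2⟩ := h2 i hi (le_trans (le_max_right _ _) hN)
  have hu := BudB.vst_u_pos hS hi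
  have hCv : 0 < c.Cv := by linarith [hc.Cv_ge]
  unfold BdViol.d0
  calc 4 * i.mbRo c Q0 0 / (i.F.u * i.V.L) ≤ 4 * (2 * Q0 ^ 2 * c.Cv * i.F.u) / (i.F.u * i.V.L) := by
        apply div_le_div_of_nonneg_right _ (by positivity)
        linarith
    _ = 8 * Q0 ^ 2 * c.Cv * (1 / i.V.L) := by field_simp; ring
    _ ≤ _ := mul_le_mul_of_nonneg_left a2 (by positivity)

/-- **the recurrence is solved** (`bpe_rec_bdd`): `√(T(Q + Lo)) ≤ λ^{0.1}√Q + 1` for `T = λ^{0.2}`, `Lo = λ^{-0.2}`.     TEX[LL:bud:box-moments] l.1516-1524 -/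
theorem bud_bm_rec {lam CS B0 Kx q0 : ℝ} (hl : 0 < lam) (hl1 : lam ≤ 1) (hCS : 0 ≤ CS) (hB : 0 ≤ B0) (hq : q0 ≤ B0 * lam ^ (-Kx)) (nb : ℕ)
    (hnb : Kx * (1 / 2 : ℝ) ^ nb ≤ 2 / 10 * (1 - (1 / 2 : ℝ) ^ nb)) :
    mbxQ CS (lam ^ (1 / 5 : ℝ)) (lam ^ (-(1 / 5) : ℝ)) q0 nb ≤ 2 * bpeB (64 * (3 * CS + 1)) B0 nb := by
  have hT : 0 < lam ^ (1 / 5 : ℝ) := Real.rpow_pos_of_pos hl _
  have hTL : lam ^ (1 / 5 : ℝ) * lam ^ (-(1 / 5) : ℝ) = 1 := by rw [← Real.rpow_add hl]; norm_num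
  have hs : Real.sqrt (lam ^ (1 / 5 : ℝ)) = lam ^ (1 / 10 : ℝ) := by
    rw [Real.sqrt_eq_rpow, ← Real.rpow_mul hl.le]; norm_num
  refine bpe_rec_bdd hl hl1 (by positivity) hB (mbxQ CS (lam ^ (1 / 5 : ℝ)) (lam ^ (-(1 / 5) : ℝ)) q0) hq (fun k => ?_) nb hnb
  obtain ⟨Q, hQ⟩ : ∃ Q : ℝ, Q = mbxQ CS (lam ^ (1 / 5 : ℝ)) (lam ^ (-(1 / 5) : ℝ)) q0 k := ⟨_, rfl⟩
  show 64 * (3 * CS + Real.sqrt (lam ^ (1 / 5 : ℝ) * (mbxQ CS (lam ^ (1 / 5 : ℝ)) (lam ^ (-(1 / 5) : ℝ)) q0 k + lam ^ (-(1 / 5) : ℝ))))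
    ≤ 64 * (3 * CS + 1) * (1 + lam ^ (1 / 10 : ℝ) * Real.sqrt (mbxQ CS (lam ^ (1 / 5 : ℝ)) (lam ^ (-(1 / 5) : ℝ)) q0 k))
  rw [← hQ]
  have key : Real.sqrt (lam ^ (1 / 5 : ℝ) * (Q + lam ^ (-(1 / 5) : ℝ))) ≤ 1 + lam ^ (1 / 10 : ℝ) * Real.sqrt Q := by
    rw [mul_add, hTL]
    rcases le_or_gt 0 Q with h | h
    · rw [← hs, ← Real.sqrt_mul hT.le, Real.sqrt_le_left (by positivity)]
      nlinarith [Real.sq_sqrt (mul_nonneg hT.le h), Real.sqrt_nonneg (lam ^ (1 / 5 : ℝ) * Q)]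
    · rw [Real.sqrt_eq_zero_of_nonpos h.le, mul_zero, add_zero, Real.sqrt_le_one]
      nlinarith
  have h0 : 0 ≤ lam ^ (1 / 10 : ℝ) * Real.sqrt Q := mul_nonneg (Real.rpow_nonneg hl.le _) (Real.sqrt_nonneg _)
  nlinarith

/-- a larger constant -/
theorem bud_bm_rat_mono {Ω : Type} [MeasurableSpace Ω] {m : ℕ} {P : L8P Ω m} {ρ : ℕ → ℝ} (hρ : Monotone ρ) {lo hi d0 : ℝ} (hd : 0 ≤ d0) {q : ℕ} {Q Q' : ℝ}
    (hQ : 0 ≤ Q) (hQQ : Q ≤ Q') (h : MbxRat P ρ lo hi d0 q Q) : MbxRat P ρ lo hi d0 q Q' := by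
  intro k l hkl h0 h1
  have h2 : 0 ≤ d0 + (ρ l - ρ k) := by linarith [hρ hkl]
  exact (h k l hkl h0 h1).trans (pow_le_pow_left₀ (mul_nonneg hQ h2) (mul_le_mul_of_nonneg_right hQQ h2) q)

/-! ### 2.5 bounded ratios -/

/-- **bounded ratios** (l.1470-1525) from the geometry: `bud_bm_in`, numerics, `bud_bm_ratio` after `nb` nested buffers, `bud_bm_rec`.     TEX[LL:bud:box-moments] -/
theorem bud_bm_stx_of (hS : BdStd X W Fam K) {n : ℕ} (hn1 : 1 ≤ n) (hn : n ≤ X.J + 1) (hZ : BudZ X W Fam n) (hL : BudB.LSmall X W Fam n)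
    (h7 : BudC7al X W Fam) (hRaw : BudHpRaw X W Fam) {c : BmC} (hc : c.Ok) (hCv : |K.Cb| * X.cI + 1 ≤ c.Cv) (hCI : X.cI ≤ c.Cv)
    (hnb : 2 / X.pS * (1 / 2 : ℝ) ^ c.nb ≤ 2 / 10 * (1 - (1 / 2 : ℝ) ^ c.nb)) (hG : BudBmGeo X W Fam n c) :
    BudBmStX X W Fam n (c.s0 / 4) := by
  intro r hr
  obtain ⟨Q0, hQ0, hRw⟩ := hRaw r hr
  obtain ⟨CB, hCB, NB, hB⟩ := bud_bm_num_out hS hn1 hn hc hCI Q0
  obtain ⟨R, c1, cR, hc1, N1, hI⟩ := bud_bm_in hS hn1 hn h7 hc hCv hr hQ0 hRw hCB ⟨NB, fun i hi hN j hj => (hB i hi hN j hj).1⟩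
  have hcp : (0 : ℝ) < 1 + (2 * r : ℝ) ^ 2 / 3 := by positivity
  obtain ⟨N2, ha⟩ := bud_bm_num_a hS hn1 hZ hc r c1 _ hcp
  obtain ⟨N3, hb⟩ := bud_bm_num_b hS hn1 hZ hc r c1 _ Q0 CB hcp
  obtain ⟨N4, hq⟩ := bud_bm_num_c hS hZ hc Q0
  obtain ⟨N5, hsm⟩ := bud_bm_small hS hZ hL (ε := 1) one_pos
  obtain ⟨N6, hG⟩ := hG
  have hB0 : (0 : ℝ) ≤ 8 * Q0 ^ 2 * c.Cv := by have := hc.Cv_ge; positivity
  have hC0 : 0 ≤ 2 * bpeB (64 * (3 * c.CS + 1)) (8 * Q0 ^ 2 * c.Cv) c.nb :=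
    mul_nonneg (by norm_num) (bpeB_nonneg (by have := hc.CS_nn; positivity) hB0 _)
  refine ⟨2 * bpeB (64 * (3 * c.CS + 1)) (8 * Q0 ^ 2 * c.Cv) c.nb, hC0, max (max (max N1 N2) (max N3 N4)) (max N5 N6), fun i hi hN => ?_⟩
  have hN1 : N1 ≤ i.F.N := le_trans (le_trans (le_trans (le_max_left _ _) (le_max_left _ _)) (le_max_left _ _)) hN
  have hN2 : N2 ≤ i.F.N := le_trans (le_trans (le_trans (le_max_right _ _) (le_max_left _ _)) (le_max_left _ _)) hN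
  have hN3 : N3 ≤ i.F.N := le_trans (le_trans (le_trans (le_max_left _ _) (le_max_right _ _)) (le_max_left _ _)) hN
  have hN4 : N4 ≤ i.F.N := le_trans (le_trans (le_trans (le_max_right _ _) (le_max_right _ _)) (le_max_left _ _)) hN
  have hN5 : N5 ≤ i.F.N := le_trans (le_trans (le_max_left _ _) (le_max_right _ _)) hN
  have hN6 : N6 ≤ i.F.N := le_trans (le_trans (le_max_right _ _) (le_max_right _ _)) hN
  obtain ⟨hd0, -, hl0, hl1⟩ := hsm i hi hN5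
  have hnbR : (0 : ℝ) < c.nb := by exact_mod_cast hc.nb_pos
  have e1 : (i.mbP c).lo + 2 * (i.mbP c).g * c.nb = i.V.r0 - c.s0 / 4 * i.V.bbuf := by
    show i.V.r0 - c.s0 / 2 * i.V.bbuf + 2 * (c.s0 * i.V.bbuf / (8 * c.nb)) * c.nb = _
    field_simp
    ring
  have e2 : (i.mbP c).hi - 2 * (i.mbP c).g * c.nb = i.V.r0 + c.s0 / 4 * i.V.bbuf := by
    show i.V.r0 + c.s0 / 2 * i.V.bbuf - 2 * (c.s0 * i.V.bbuf / (8 * c.nb)) * c.nb = _
    field_simp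
    ring
  have hbb := BudB.vst_bbuf_nonneg hS hi
  have hrec := bud_bm_rec hl0 hl1 hc.CS_nn hB0 (hq i hi hN4) c.nb hnb
  refine ((hG i hi hN6).and (hI i hi hN1)).mono fun ps h => ?_
  obtain ⟨⟨hok, G⟩, I⟩ := h
  have hT : 2 * (1 + (2 * r : ℝ) ^ 2 / 3) * (i.F.lam ^ (1 / 5 : ℝ) * i.mbD c / (2 * (1 + (2 * r : ℝ) ^ 2 / 3)))
      ≤ i.F.lam ^ (1 / 5 : ℝ) * ((i.mbP c).kap * (i.mbP c).gam * (i.mbP c).d0 ^ 3) := by
    refine le_of_eq ?_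
    show _ = i.F.lam ^ (1 / 5 : ℝ) * i.mbD c
    field_simp
  have key := bud_bm_ratio hok G I (Lo := i.F.lam ^ (-(1 / 5) : ℝ)) (Real.rpow_nonneg hl0.le _) (ha i hi hN2) (hb i hi hN3) hT c.nb
    (by rw [e1, e2]; have := hc.s0_pos; nlinarith)
  rw [e1, e2] at key
  have hQnn : 0 ≤ mbxQ (i.mbP c).CS (i.F.lam ^ (1 / 5 : ℝ)) (i.F.lam ^ (-(1 / 5) : ℝ)) (4 * i.mbRo c Q0 0 / (i.mbP c).d0) c.nb := by
    obtain ⟨j, hj⟩ : ∃ j, c.nb = j + 1 := ⟨c.nb - 1, by have := hc.nb_pos; omega⟩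
    rw [hj]
    have := hc.CS_nn
    show 0 ≤ 64 * (3 * c.CS + Real.sqrt _)
    positivity
  refine ⟨bud_bm_rat_mono G.mono hd0.le hQnn hrec key.1, fun k hk => (key.2 hc.nb_pos k hk.1 hk.2).trans ?_⟩
  refine pow_le_pow_left₀ (by positivity) (mul_le_mul_of_nonneg_right ?_ hd0.le) _
  have : mbxQ (i.mbP c).CS (i.F.lam ^ (1 / 5 : ℝ)) (i.F.lam ^ (-(1 / 5) : ℝ)) (4 * i.mbRo c Q0 0 / (i.mbP c).d0) c.nb / 4
      ≤ mbxQ (i.mbP c).CS (i.F.lam ^ (1 / 5 : ℝ)) (i.F.lam ^ (-(1 / 5) : ℝ)) (4 * i.mbRo c Q0 0 / (i.mbP c).d0) c.nb := by linarith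
  exact this.trans hrec

/-! ### 2.6 the fork -/

/-- the dyadic layer at the distance `d0` -/
theorem bud_bm_j0 {Ω : Type} [MeasurableSpace Ω] {m : ℕ} {P : L8P Ω m} {ρ : ℕ → ℝ} {p : MbxPar} {o po : ℕ → ℕ} {mo so : ℕ → ℝ} {vmin hmin : ℝ}
    (G : MbxGeo P ρ p o po mo so vmin hmin) (h : p.d0 ≤ p.g) : ∃ j0 : ℕ, 1 ≤ j0 ∧ j0 ≤ p.K1 ∧ p.len j0 ≤ p.d0 ∧ p.d0 ≤ 2 * p.len j0 := by
  have hl0 : p.l0 ≤ p.d0 := by
    have h1 := G.l0_le
    have h2 : p.gam * p.d0 ≤ 1 * p.d0 := mul_le_mul_of_nonneg_right G.gam_le G.d0_pos.le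
    linarith [G.d0_pos]
  have key : ∀ n : ℕ, 1 ≤ n → p.d0 ≤ p.len n → ∃ j0 : ℕ, 1 ≤ j0 ∧ j0 ≤ n ∧ p.len j0 ≤ p.d0 ∧ p.d0 ≤ 2 * p.len j0 := by
    intro n hn
    induction n, hn using Nat.le_induction with
    | base =>
      intro hd
      have e : p.len 1 = p.l0 := by simp [MbxPar.len]
      exact ⟨1, le_rfl, le_rfl, by rw [e]; exact hl0, by linarith [G.d0_pos]⟩
    | succ n hn ih =>
      intro hd
      rcases le_or_gt p.d0 (p.len n) with h1 | h1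
      · obtain ⟨j0, a, b, c, d⟩ := ih h1
        exact ⟨j0, a, by omega, c, d⟩
      · refine ⟨n, hn, by omega, h1.le, ?_⟩
        have e : p.len (n + 1) = 2 * p.len n := by
          unfold MbxPar.len
          obtain ⟨k, rfl⟩ : ∃ k, n = k + 1 := ⟨n - 1, by omega⟩
          simp only [Nat.add_sub_cancel]
          rw [pow_succ]; ring
        rwa [e] at hd
  exact key p.K1 G.K1_pos (h.trans G.g_Ls)

/-- signs of the outer costs and raw bounds -/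
theorem bud_bm_num_e_nn (hS : BdStd X W Fam K) {n : ℕ} (hn : n ≤ X.J + 1) {c : BmC} (hc : c.Ok) (Q0 : ℝ) (i : BdVI X W) (hi : BudB.VSt X W Fam n i) (j : ℕ) :
    0 ≤ i.mbSo c j ∧ 0 ≤ i.mbRo c Q0 j := by
  have hX := hS.fix
  have hF := BudB.vst_ok hS hi
  have hp := bud_env_pos hX hF
  have hu := hp.u0
  have hCv : 0 < c.Cv := by linarith [hc.Cv_ge]
  have hGm : 0 < c.Gm := by linarith [hc.Gm_ge]
  have hW0 : ∀ k, 0 ≤ i.mbW c k := by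
    intro k
    unfold BdVI.mbW
    exact le_min (by positivity) zero_le_one
  constructor
  · unfold BdVI.mbSo
    split_ifs with hj
    · have h1 : X.phi i.F.st ≤ X.phi 0 := by
        rw [BudB.vst_st hi]
        exact (BudB.fix_nest hX n hn).2.1
      have h2 : 0 ≤ i.mbRp - i.mbRq := by
        unfold BdVI.mbRp BdVI.mbRq
        have : X.phi 0 * i.F.u - (X.phi 0 + X.phi i.F.st) / 2 * i.F.u = (X.phi 0 - X.phi i.F.st) / 2 * i.F.u := by ring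
        rw [this]
        have : 0 ≤ X.phi 0 - X.phi i.F.st := by linarith
        positivity
      have h3 := hp.C00
      positivity
    · have h1 : 0 ≤ i.F.hpTh X c.ch c.ca (i.mbW c (j - 1)) := by
        unfold BdFr.hpTh
        refine le_trans ?_ (le_max_right _ _)
        have := hW0 (j - 1)
        have := hc.ca_pos
        have := hp.lam0
        positivity
      have := hW0 (j - 1)
      positivity
  · unfold BdVI.mbRo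
    have hyc0 : 0 ≤ i.F.yc X := by
      unfold BdFr.yc
      have h1 := hp.x0
      have h2 := hp.Xr0
      have h3 := hp.Lam0
      have h4 := hp.lam0
      positivity
    have hwc0 : 0 ≤ i.F.wc X := mul_nonneg hyc0 hu.le
    have := hW0 j
    positivity

/-- pure arithmetic of the last step: `C λ^{-e} u² A³ ≤ (uL/(2K))²` -/
theorem bud_bm_num_e_ar {C lam u A L kap Kk T : ℝ} (hC : 0 ≤ C) (hl : 0 < lam) (hu : 0 < u) (hL : 0 < L) (hA0 : 0 < A)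
    (hA : A ^ 3 ≤ lam ^ (0.36 : ℝ) * (kap * L ^ 3)) (hk0 : 0 < kap) (hk : kap ≤ 1) (hK1 : 1 ≤ Kk) (hK : Kk ≤ lam ^ (-(0.1 : ℝ)))
    (hT0 : 0 ≤ T) (hT : T ≤ lam ^ (-(0.1 : ℝ))) (hs : 4 * C * lam ^ (0.06 : ℝ) ≤ 1) :
    C * T * (u ^ 2 * A ^ 3 / L) ≤ (u * L / (2 * Kk)) ^ 2 := by
  obtain ⟨t, ht⟩ : ∃ t, t = lam ^ (0.1 : ℝ) := ⟨_, rfl⟩
  have ht0 : 0 < t := ht ▸ Real.rpow_pos_of_pos hl _
  have hti : lam ^ (-(0.1 : ℝ)) = 1 / t := by rw [ht, Real.rpow_neg hl.le, one_div]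
  obtain ⟨s, hs'⟩ : ∃ s, s = lam ^ (0.06 : ℝ) := ⟨_, rfl⟩
  have hs0 : 0 < s := hs' ▸ Real.rpow_pos_of_pos hl _
  have e36 : lam ^ (0.36 : ℝ) = s * t ^ 3 := by
    rw [hs', ht, ← Real.rpow_natCast, ← Real.rpow_mul hl.le, ← Real.rpow_add hl]
    norm_num
  rw [hti] at hK hT
  rw [e36] at hA
  rw [← hs'] at hs
  have hK0 : 0 < Kk := by linarith
  have h1 : A ^ 3 ≤ s * t ^ 3 * L ^ 3 := by
    refine hA.trans ?_
    have : kap * L ^ 3 ≤ 1 * L ^ 3 := mul_le_mul_of_nonneg_right hk (by positivity)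
    have h2 : 0 ≤ s * t ^ 3 := by positivity
    nlinarith [mul_le_mul_of_nonneg_left this h2]
  have h2 : u ^ 2 * A ^ 3 / L ≤ u ^ 2 * (s * t ^ 3 * L ^ 2) := by
    rw [div_le_iff₀ hL]
    have : u ^ 2 * A ^ 3 ≤ u ^ 2 * (s * t ^ 3 * L ^ 3) := mul_le_mul_of_nonneg_left h1 (by positivity)
    calc u ^ 2 * A ^ 3 ≤ u ^ 2 * (s * t ^ 3 * L ^ 3) := this
      _ = _ := by ring
  have h3 : t ≤ 1 / Kk := by
    rw [le_div_iff₀ hK0]
    have := mul_le_mul_of_nonneg_left hK ht0.le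
    rwa [mul_one_div_cancel ht0.ne'] at this
  have h4 : t ^ 2 ≤ (1 / Kk) ^ 2 := pow_le_pow_left₀ ht0.le h3 2
  calc C * T * (u ^ 2 * A ^ 3 / L) ≤ C * (1 / t) * (u ^ 2 * (s * t ^ 3 * L ^ 2)) := by
        apply mul_le_mul (mul_le_mul_of_nonneg_left hT hC) h2 (by positivity) (by positivity)
    _ = (4 * C * s) * (u ^ 2 * L ^ 2 / 4) * t ^ 2 := by field_simp
    _ ≤ 1 * (u ^ 2 * L ^ 2 / 4) * (1 / Kk) ^ 2 := by
        apply mul_le_mul (mul_le_mul_of_nonneg_right hs (by positivity)) h4 (by positivity) (by positivity)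
    _ = _ := by field_simp; ring

/-- **(N-e)**: the synchronised later layers cost `esy ≲_∘ u A^{3/2}/√L ≪ d0/K` (l.1528-1530): `cq Rp/(vlo² m C0 d0/2) ≲ u²A³/L`, `(A/L)³ ≤ λ^{0.36}`; outer: `bud_bm_num_out`, second clause.
TEX[LL:bud:box-moments] -/
theorem bud_bm_num_e (hS : BdStd X W Fam K) {n : ℕ} (hn1 : 1 ≤ n) (hn : n ≤ X.J + 1) (hZ : BudZ X W Fam n) {c : BmC} (hc : c.Ok) (hCI : X.cI ≤ c.Cv) (cq Q0 : ℝ) :
    ∃ N0 : ℕ, ∀ i : BdVI X W, BudB.VSt X W Fam n i → N0 ≤ i.F.N →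
      (∀ j0, 1 ≤ j0 → j0 ≤ (i.mbP c).K1 → (i.mbP c).d0 ≤ 2 * (i.mbP c).len j0 →
        cq * i.mbRo c Q0 0 * mbxSg i.F.m (i.mbP c) (i.mbSo c) j0 ≤ (i.V.d0 / (2 * (i.mbP c).K)) ^ 2) ∧
      ∀ j < (i.mbP c).Ko, cq * i.mbRo c Q0 (j + 1) * i.mbSo c j ≤ (i.V.d0 / (2 * (i.mbP c).K)) ^ 2 := by
  have hX := hS.fix
  obtain ⟨N1, h1⟩ := bud_bm_num_AL hS hn1 hZ
  obtain ⟨CB, hCB, N2, h2⟩ := bud_bm_num_out hS hn1 hn hc hCI Q0
  obtain ⟨N3, h3⟩ := bud_bm_num_K hS (n := n) hc (e := 0.1) (by norm_num)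
  obtain ⟨N4, h4⟩ := bud_bm_num_c_R hS (n := n) hc Q0
  obtain ⟨N5, h5⟩ := bud_bm_num_c_L hS hZ
  have hcv := hc.cv_pos
  have hCv : 0 < c.Cv := by linarith [hc.Cv_ge]
  obtain ⟨C1, hC1⟩ : ∃ C1, C1 = |cq| * (8 * Q0 ^ 2 * c.Cv / c.cv ^ 2) := ⟨_, rfl⟩
  have hC10 : 0 ≤ C1 := by rw [hC1]; positivity
  obtain ⟨C2, hC2⟩ : ∃ C2, C2 = |cq| * CB := ⟨_, rfl⟩
  have hC20 : 0 ≤ C2 := by rw [hC2]; positivity
  obtain ⟨N6, h6⟩ := BudB.ev_lam hX (e := 0.06) (ε := 1 / (4 * (C1 + C2) + 1)) (by norm_num) (by positivity)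
  refine ⟨max (max (max N1 N2) (max N3 N4)) (max N5 N6), fun i hi hN => ?_⟩
  obtain ⟨a1, a1k, a1k'⟩ := h1 i hi (le_trans (le_trans (le_trans (le_max_left _ _) (le_max_left _ _)) (le_max_left _ _)) hN)
  have a2 := h2 i hi (le_trans (le_trans (le_trans (le_max_right _ _) (le_max_left _ _)) (le_max_left _ _)) hN)
  obtain ⟨a3, a3', a3''⟩ := h3 i hi (le_trans (le_trans (le_trans (le_max_left _ _) (le_max_right _ _)) (le_max_left _ _)) hN)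
  obtain ⟨a4, a4'⟩ := h4 i hi (le_trans (le_trans (le_trans (le_max_right _ _) (le_max_right _ _)) (le_max_left _ _)) hN)
  obtain ⟨hL0, -⟩ := h5 i hi (le_trans (le_trans (le_max_left _ _) (le_max_right _ _)) hN)
  have hF := BudB.vst_ok hS hi
  have a6 := h6 i.F hF (le_trans (le_trans (le_max_right _ _) (le_max_right _ _)) hN)
  have hp := bud_env_pos hX hF
  have hu := hp.u0
  have hl := hp.lam0
  have hA0 := hp.A0
  have hL1 := BudB.vst_L1 hi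
  have hs0 : 0 < i.F.lam ^ (0.06 : ℝ) := Real.rpow_pos_of_pos hl _
  have hsm : ∀ C : ℝ, 0 ≤ C → C ≤ C1 + C2 → 4 * C * i.F.lam ^ (0.06 : ℝ) ≤ 1 := by
    intro C hC hCC
    have b1 : (4 * (C1 + C2) + 1) * i.F.lam ^ (0.06 : ℝ) ≤ 1 := by
      have := mul_le_mul_of_nonneg_left a6 (show 0 ≤ 4 * (C1 + C2) + 1 by positivity)
      rwa [mul_one_div_cancel (by positivity)] at this
    have b2 : 4 * C * i.F.lam ^ (0.06 : ℝ) ≤ (4 * (C1 + C2) + 1) * i.F.lam ^ (0.06 : ℝ) :=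
      mul_le_mul_of_nonneg_right (by linarith) hs0.le
    linarith
  have hone : (1 : ℝ) ≤ i.F.lam ^ (-(0.1 : ℝ)) := Real.one_le_rpow_of_pos_of_le_one_of_nonpos hl hp.lam1.le (by norm_num)
  have hlogN : 0 ≤ Real.log i.F.N := Real.log_nonneg (by
    have : (2 : ℝ) ≤ i.F.N := by exact_mod_cast hF.N2
    linarith)
  constructor
  · intro j0 hj1 hjK hlen
    have key := bud_bm_num_e_ar (C := C1) (T := 1) hC10 hl hu hL0 hA0 a1 a1k a1k' a3 a3' zero_le_one hone (hsm C1 hC10 (by linarith))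
    refine le_trans ?_ key
    obtain ⟨x1, x2⟩ := bud_bm_num_xA hF hX
    have hlen' : i.F.u * i.V.L ≤ 2 * (i.mbP c).len j0 := hlen
    have hlen0 : 0 < (i.mbP c).len j0 := by
      have : 0 < i.F.u * i.V.L := by positivity
      linarith
    have hSg : mbxSg i.F.m (i.mbP c) (i.mbSo c) j0 = 1 / ((c.cv * i.F.u) ^ 2 * i.F.m * (i.F.u ^ 2 * i.F.Lam * (i.mbP c).len j0)) := by
      unfold mbxSg
      rw [if_pos hjK]
      rfl
    have hLam := hp.Lam0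
    have hm := hp.m0
    have hSg2 : mbxSg i.F.m (i.mbP c) (i.mbSo c) j0 ≤ 4 / c.cv ^ 2 * (i.F.u * i.F.A ^ 3 / i.V.L) := by
      rw [hSg]
      have e1 : 1 / ((c.cv * i.F.u) ^ 2 * i.F.m * (i.F.u ^ 2 * i.F.Lam * (i.mbP c).len j0))
          = 1 / (c.cv ^ 2 * i.F.u ^ 4 * i.F.Lam) * (1 / (i.F.m : ℝ)) * (1 / (i.mbP c).len j0) := by
        field_simp
      have e2 : 1 / (i.mbP c).len j0 ≤ 2 / (i.F.u * i.V.L) := by
        rw [div_le_div_iff₀ hlen0 (by positivity)]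
        linarith
      rw [e1]
      calc 1 / (c.cv ^ 2 * i.F.u ^ 4 * i.F.Lam) * (1 / (i.F.m : ℝ)) * (1 / (i.mbP c).len j0)
          ≤ 1 / (c.cv ^ 2 * i.F.u ^ 4 * i.F.Lam) * (2 * i.F.x ^ 6) * (2 / (i.F.u * i.V.L)) := by
            apply mul_le_mul (mul_le_mul_of_nonneg_left x1 (by positivity)) e2 (by positivity)
            have := hp.x0
            positivity
        _ = _ := by rw [x2]; field_simp; ring
    have hSg0 : 0 ≤ mbxSg i.F.m (i.mbP c) (i.mbSo c) j0 := by rw [hSg]; positivity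
    calc cq * i.mbRo c Q0 0 * mbxSg i.F.m (i.mbP c) (i.mbSo c) j0
        ≤ |cq| * (2 * Q0 ^ 2 * c.Cv * i.F.u) * (4 / c.cv ^ 2 * (i.F.u * i.F.A ^ 3 / i.V.L)) := by
          apply mul_le_mul _ hSg2 hSg0 (by positivity)
          calc cq * i.mbRo c Q0 0 ≤ |cq| * i.mbRo c Q0 0 := mul_le_mul_of_nonneg_right (le_abs_self _) a4
            _ ≤ _ := mul_le_mul_of_nonneg_left a4' (abs_nonneg _)
      _ = C1 * 1 * (i.F.u ^ 2 * i.F.A ^ 3 / i.V.L) := by rw [hC1]; field_simp; ring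
  · intro j hj
    have key := bud_bm_num_e_ar (C := C2) (T := Real.log i.F.N) hC20 hl hu hL0 hA0 a1 a1k a1k' a3 a3' hlogN a3'' (hsm C2 hC20 (by linarith))
    refine le_trans ?_ key
    obtain ⟨s1, s2⟩ := bud_bm_num_e_nn hS hn hc Q0 i hi j
    obtain ⟨-, s3⟩ := bud_bm_num_e_nn hS hn hc Q0 i hi (j + 1)
    have b := (a2 j hj).2
    calc cq * i.mbRo c Q0 (j + 1) * i.mbSo c j = cq * (i.mbSo c j * i.mbRo c Q0 (j + 1)) := by ring
      _ ≤ |cq| * (i.mbSo c j * i.mbRo c Q0 (j + 1)) := mul_le_mul_of_nonneg_right (le_abs_self _) (by positivity)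
      _ ≤ |cq| * (CB * Real.log i.F.N * (i.F.u ^ 2 * i.F.A ^ 3)) := mul_le_mul_of_nonneg_left b (abs_nonneg _)
      _ = C2 * Real.log i.F.N * (i.F.u ^ 2 * i.F.A ^ 3) := by rw [hC2]; ring
      _ ≤ C2 * Real.log i.F.N * (i.F.u ^ 2 * i.F.A ^ 3 / i.V.L) := by
          apply mul_le_mul_of_nonneg_left _ (by positivity)
          rw [le_div_iff₀ hL0]
          have : 0 ≤ i.F.u ^ 2 * i.F.A ^ 3 := by positivity
          nlinarith

/-- the inputs of `bud_bm_delta` on all fine chains: `l8i_proj r` (constant `cq^r`), raw bounds of order `r` at the outer cuts (`bud_bm_raw`) -/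
theorem bud_bm_in_d (hS : BdStd X W Fam K) {n : ℕ} (hn : n ≤ X.J + 1) (h7 : BudC7al X W Fam) {c : BmC} (hc : c.Ok)
    (hCv : |K.Cb| * X.cI + 1 ≤ c.Cv) {r : ℕ} (hr : 1 ≤ r) {Q0 : ℝ} (hQ0 : 1 ≤ Q0) (hRaw : BudBmRaw X W Fam r Q0) :
    ∃ cq : ℝ, 0 ≤ cq ∧ ∃ N0 : ℕ, ∀ i : BdVI X W, BudB.VSt X W Fam n i → N0 ≤ i.F.N → BmEv 1 fun ps =>
      (i.sp ps).Proj r (cq ^ r) (c.cv * i.F.u) (i.F.C0 * i.F.x ^ 40) ∧
      (∀ j ≤ (i.mbP c).Ko, ∫ ω, (i.sp ps).nX (i.mbO c ps j) ω ^ r ∂(i.sp ps).μ ≤ i.mbRo c Q0 j ^ r) ∧ ∀ j, 0 ≤ i.mbRo c Q0 j := by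
  have hX := hS.fix
  obtain ⟨c1, hc1, P1⟩ := l8i_proj r hr
  obtain ⟨Na, ha⟩ := hRaw
  obtain ⟨Nc, hcc⟩ := bud_bm_al_rp hS hn h7
  obtain ⟨Nd, hd⟩ := BudB.ev_u hX (ε := 1 / X.cI) (by have := hX.cI_pos; positivity)
  have ecq : (c1 ^ ((r : ℝ)⁻¹)) ^ r = c1 := Real.rpow_inv_natCast_pow hc1.le (by omega)
  refine ⟨c1 ^ ((r : ℝ)⁻¹), Real.rpow_nonneg hc1.le _, Na + Nc + Nd, fun i hi hN => ?_⟩
  have hF := BudB.vst_ok hS hi
  have hu := BudB.vst_u_pos hS hi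
  have hl := BudB.vst_lam_pos hS hi
  have hx := BdFr.bds_x_pos hF
  have hm1 : 1 ≤ i.F.m := bud_hp_aux_m_pos hF
  have hwc : 0 ≤ i.F.wc X := by
    have hXr : 0 < i.F.Xr := BdFr.bds_Xr_pos hF hX
    have hLam : 0 < i.F.Lam := Real.rpow_pos_of_pos hl _
    unfold BdFr.wc BdFr.yc
    have h1 : 0 < i.F.x ^ (-(10 * X.zeta)) := Real.rpow_pos_of_pos hx _
    have h2 : 0 < i.F.Xr * i.F.Lam ^ (-(1 / 6) : ℝ) := mul_pos hXr (Real.rpow_pos_of_pos hLam _)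
    have h3 : 0 < i.F.Xr ^ (3 / 4 : ℝ) * i.F.lam ^ (0.12 : ℝ) :=
      mul_pos (Real.rpow_pos_of_pos hXr _) (Real.rpow_pos_of_pos hl _)
    positivity
  have hud := hd i.F hF (by omega)
  have hu2 : X.cI * i.F.u ≤ 1 := by
    calc X.cI * i.F.u ≤ X.cI * (1 / X.cI) := mul_le_mul_of_nonneg_left hud hX.cI_pos.le
      _ = 1 := by have := hX.cI_pos; field_simp
  obtain ⟨w0, w1, wm⟩ := bud_bm_in_W i hc hu
  obtain ⟨a1, a2, a3, a4, p1⟩ := hX.pat 0 (Nat.zero_le _)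
  have hphi0 : 0 < X.phi 0 := by linarith
  have hRp : i.mbRp ∈ Icc (0 : ℝ) 1 := by
    refine ⟨mul_nonneg hphi0.le hu.le, ?_⟩
    calc X.phi 0 * i.F.u ≤ X.cI * i.F.u := mul_le_mul_of_nonneg_right p1.le hu.le
      _ ≤ 1 := hu2
  have hal := bud_bm_al_mem hF i.V.Q hRp
  have hal1 : i.V.Q.al i.mbRp ≤ i.mbW c 0 := by
    refine le_min ?_ hal.2
    rw [pow_zero, one_mul]
    exact (hcc i hi (by omega)).trans (mul_le_mul_of_nonneg_right hCv hu.le)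
  have hC0 : 0 < i.F.C0 := by
    unfold BdFr.C0 BdFr.Lam
    exact mul_pos (pow_pos hu 2) (Real.rpow_pos_of_pos hl _)
  have hQ0' : 0 ≤ Q0 := by linarith
  have hRo0 : ∀ j, 0 ≤ i.mbRo c Q0 j := fun j => mul_nonneg (sq_nonneg _) (add_nonneg hwc (w0 j))
  have hraw := ha ⟨i.F, i.V.g, i.V.Q⟩ (bud_bm_okS hS hn hi) (by show Na ≤ i.F.N; omega)
  refine Filter.Eventually.mono hraw fun Fs hFs => ?_
  have hadm : SkAdm 1 (i.V.Q.stp i.V.g (ghPs 1 Fs)) := bud_hp_adm hS hi.1 (BudB.vst_g0 hS hn hi) i.V.Q Fs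
  have hok := bud_bm_sp_ok hS hn hi Fs
  refine ⟨?_, fun j hj => ?_, hRo0⟩
  · rw [ecq]
    exact P1 i.F.m 1 _ hm1 one_pos (by norm_num) hadm _ _ (mul_pos hc.cv_pos hu) (mul_pos hC0 (pow_pos hx _))
  · obtain ⟨b1, b2⟩ := bud_bm_in_cut i hc hu Fs hal.1 hal1 hj
    exact (bud_bm_raw i.V.Q i.V.g (ghPs 1 Fs) hok hr hQ0' hwc hFs b1 b2).2

/-- **the fork** (l.1527-1535): `bud_bm_delta` on the buffer `r0 ± (s0/4) b_buf` of `bud_bm_stx_of`; `2 d0 ≤ (s0/8) b_buf`.     TEX[LL:bud:box-moments] -/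
theorem bud_bm_sta_of (hS : BdStd X W Fam K) {n : ℕ} (hn1 : 1 ≤ n) (hn : n ≤ X.J + 1) (hZ : BudZ X W Fam n) (hL : BudB.LSmall X W Fam n)
    (h7 : BudC7al X W Fam) (hRaw : BudHpRaw X W Fam) {c : BmC} (hc : c.Ok) (hCv : |K.Cb| * X.cI + 1 ≤ c.Cv) (hCI : X.cI ≤ c.Cv)
    (hG : BudBmGeo X W Fam n c) (hX : BudBmStX X W Fam n (c.s0 / 4)) : BudBmStA X W Fam n (c.s0 / 8) := by
  intro r hr
  obtain ⟨Q0, hQ0, hRw⟩ := hRaw r hr
  obtain ⟨Cx, hCx, N1, hX⟩ := hX r hr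
  obtain ⟨cq, hcq, N2, hD⟩ := bud_bm_in_d hS hn h7 hc hCv hr hQ0 hRw
  obtain ⟨N3, he⟩ := bud_bm_num_e hS hn1 hn hZ hc hCI cq Q0
  have hnbR : (0 : ℝ) < c.nb := by exact_mod_cast hc.nb_pos
  obtain ⟨N4, hsm⟩ := bud_bm_small hS hZ hL (ε := c.s0 / (16 * c.nb)) (by have := hc.s0_pos; positivity)
  obtain ⟨N5, hG⟩ := hG
  obtain ⟨N6, hK⟩ := bud_bm_num_K (n := n) hS hc (e := 1) one_pos
  refine ⟨Cx + 3 * c.CS + 6 * Cx + 1, by have := hc.CS_nn; positivity, max (max (max N1 N2) (max N3 N4)) (max N5 N6), fun i hi hN => ?_⟩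
  have hN1 : N1 ≤ i.F.N := le_trans (le_trans (le_trans (le_max_left _ _) (le_max_left _ _)) (le_max_left _ _)) hN
  have hN2 : N2 ≤ i.F.N := le_trans (le_trans (le_trans (le_max_right _ _) (le_max_left _ _)) (le_max_left _ _)) hN
  have hN3 : N3 ≤ i.F.N := le_trans (le_trans (le_trans (le_max_left _ _) (le_max_right _ _)) (le_max_left _ _)) hN
  have hN4 : N4 ≤ i.F.N := le_trans (le_trans (le_trans (le_max_right _ _) (le_max_right _ _)) (le_max_left _ _)) hN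
  have hN5 : N5 ≤ i.F.N := le_trans (le_trans (le_max_left _ _) (le_max_right _ _)) hN
  have hN6 : N6 ≤ i.F.N := le_trans (le_trans (le_max_right _ _) (le_max_right _ _)) hN
  obtain ⟨hd0, hdb, -, -⟩ := hsm i hi hN4
  obtain ⟨hK1, -, -⟩ := hK i hi hN6
  obtain ⟨he1, he2⟩ := he i hi hN3
  have hbb := BudB.vst_bbuf_nonneg hS hi
  have hs0 := hc.s0_pos
  have hnb1 : (1 : ℝ) ≤ c.nb := by exact_mod_cast hc.nb_pos
  have hdg : (i.mbP c).d0 ≤ (i.mbP c).g := by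
    show i.V.d0 ≤ c.s0 * i.V.bbuf / (8 * c.nb)
    refine hdb.trans (le_of_eq_of_le (by ring : c.s0 / (16 * c.nb) * i.V.bbuf = c.s0 * i.V.bbuf / (16 * c.nb)) ?_)
    exact div_le_div_of_nonneg_left (by positivity) (by positivity) (by linarith)
  have hd8 : 2 * i.V.d0 ≤ c.s0 / 8 * i.V.bbuf := by
    have h1 : c.s0 / (16 * c.nb) * i.V.bbuf ≤ c.s0 / 16 * i.V.bbuf := by
      refine mul_le_mul_of_nonneg_right ?_ hbb
      exact div_le_div_of_nonneg_left hs0.le (by norm_num) (by linarith)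
    linarith
  refine (((hG i hi hN5).and (hX i hi hN1)).and (hD i hi hN2)).mono fun ps h => ?_
  obtain ⟨⟨⟨hok, G⟩, hQn, hCc⟩, hp, hRo, hRo0⟩ := h
  obtain ⟨j0, hj1, hj0, hl1, hl2⟩ := bud_bm_j0 G hdg
  intro k hk
  have key := bud_bm_delta hok G hr hcq hp (hRo 0 (Nat.zero_le _)) (hRo0 0) hRo hRo0 hj1 hj0 hl1 hl2
    (esy := i.V.d0 / (2 * (i.mbP c).K)) (by positivity) (he1 j0 hj1 hj0 hl2) he2
    (lo' := i.V.r0 - c.s0 / 4 * i.V.bbuf) (hi' := i.V.r0 + c.s0 / 4 * i.V.bbuf)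
    (by show i.V.r0 - c.s0 / 2 * i.V.bbuf ≤ _; nlinarith) (by show _ ≤ i.V.r0 + c.s0 / 2 * i.V.bbuf; nlinarith) hCx hCx hQn
    (fun k h0 h1 => hCc k ⟨h0, h1⟩) (k := k) (by have := hk.1; nlinarith) (by show _ + 2 * i.V.d0 ≤ _; have := hk.2; nlinarith)
  refine key.trans (pow_le_pow_left₀ (by have := hc.CS_nn; have := G.d0_pos; positivity) (le_of_eq ?_) _)
  show (Cx + 3 * c.CS + 6 * Cx) * i.V.d0 + 2 * ((i.mbP c).K : ℝ) * (i.V.d0 / (2 * (i.mbP c).K)) = _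
  have : ((i.mbP c).K : ℝ) ≠ 0 := by linarith
  field_simp

/-! ### 2.7 choice of the constants, transfer -/

/-- **step forms of (C15a)**: choice of the constants (`s0, Cg`: `bud_bm_osc`; `nb`: `bpe_rec_n`; `Gm, ch, ca`: `bud_hp_clk`), then glue.     TEX[LL:bud:box-moments] -/
theorem bud_bm_st (hS : BdStd X W Fam K) (hW : W.IsSk) {n : ℕ} (hn1 : 1 ≤ n) (hn : n ≤ X.J + 1) (hI : BudBmIn X W Fam K n) :
    ∃ s : ℝ, 0 < s ∧ s ≤ 1 ∧ BudBmStX X W Fam n s ∧ BudBmStA X W Fam n (s / 2) := by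
  obtain ⟨hZ, hL, hG, hP, -, h7, C, dm, CSv, cL, CL, hH, -, -, hRaw, hcL, h7a, -, -, -⟩ := hI
  obtain ⟨Cg, s0, hCg, hs0, hs01, hO⟩ := bud_bm_osc hS hn hG hP
  obtain ⟨nb, hnb⟩ := bpe_rec_n (2 / X.pS)
  obtain ⟨Gm, hGm⟩ : ∃ Gm : ℝ, Gm = max (max 4 (2 / C.ptop)) (4 * CL / cL) := ⟨_, rfl⟩
  obtain ⟨ch, hch, hclk⟩ := bud_hp_clk hS hH hcL h7a Gm (by rw [hGm]; exact le_trans (le_max_left _ _) (le_max_left _ _))
    (by rw [hGm]; exact le_trans (le_max_right _ _) (le_max_left _ _)) (by rw [hGm]; exact le_max_right _ _)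
  obtain ⟨hplo, -, -, -, -⟩ := hS.fix.pat n hn
  have hcb := hS.cb_pos
  have hcI := hS.fix.cI_pos
  obtain ⟨c, hcd⟩ : ∃ c : BmC, c = ⟨s0, nb + 1, Cg + 1, K.cb * X.plo n / 2, max (max 1 (K.cb * X.plo n / 2)) (max (|K.Cb| * X.cI + 1) X.cI), Gm, ch, C.ca⟩ := ⟨_, rfl⟩
  have hc : c.Ok := by
    rw [hcd]
    exact ⟨hs0, hs01, by show 1 ≤ nb + 1; omega, by show 0 ≤ Cg + 1; linarith, by show 0 < K.cb * X.plo n / 2; positivity,
      le_trans (le_max_right _ _) (le_max_left _ _), le_trans (le_max_left _ _) (le_max_left _ _),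
      by show 4 ≤ Gm; rw [hGm]; exact le_trans (le_max_left _ _) (le_max_left _ _), hch, hH.ca_pos⟩
  have hcv : c.cv = K.cb * X.plo n / 2 := by rw [hcd]
  have hCv : |K.Cb| * X.cI + 1 ≤ c.Cv := by rw [hcd]; exact le_trans (le_max_left _ _) (le_max_right _ _)
  have hCI : X.cI ≤ c.Cv := by rw [hcd]; exact le_trans (le_max_right _ _) (le_max_right _ _)
  have hnb' : 2 / X.pS * (1 / 2 : ℝ) ^ c.nb ≤ 2 / 10 * (1 - (1 / 2 : ℝ) ^ c.nb) := by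
    rw [hcd]
    show 2 / X.pS * (1 / 2 : ℝ) ^ (nb + 1) ≤ 2 / 10 * (1 - (1 / 2 : ℝ) ^ (nb + 1))
    have hp : 0 < 2 / X.pS := by have := hS.fix.pS_pos; positivity
    have h2 : (0 : ℝ) < (1 / 2 : ℝ) ^ nb := by positivity
    rw [pow_succ]
    nlinarith
  have hGeo : BudBmGeo X W Fam n c :=
    bud_bm_geo hS hW hn1 hn hZ hL h7 hc hcv hCv hCI (by rw [hcd]; exact hclk) (Cg := Cg) (by rw [hcd]; exact hO) (by rw [hcd])
  have hX := bud_bm_stx_of hS hn1 hn hZ hL h7 hRaw hc hCv hCI hnb' hGeo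
  have hA := bud_bm_sta_of hS hn1 hn hZ hL h7 hRaw hc hCv hCI hGeo hX
  refine ⟨c.s0 / 4, by have := hc.s0_pos; linarith, by have := hc.s0_le; linarith, hX, ?_⟩
  rw [show c.s0 / 4 / 2 = c.s0 / 8 by ring]
  exact hA

/-- the radius label of the cut at a mass of the chain -/
theorem bud_bm_tr_rho {F : BdFr} (Q : BdQ F X) (G : Finset GhPos) {v : ℝ} (hv : ghPosA v ∈ ghPs 1 G) :
    Q.rho (ghPs 1 G) (ghIdx (ghPs 1 G) ((ghPosA v : GhPos) : WithTop GhPos)) = Q.r v := by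
  obtain ⟨j, hj1, hj, hp⟩ := ckm_exists_node hv
  have hidx := ckm_idx_pos (ckm_ch G) hj1 hj
  rw [hp] at hidx
  rw [hidx]
  unfold BdQ.rho
  rw [if_neg (by omega), dif_pos (by omega)]
  rw [ckm_pos_get hj1 hj] at hp
  rw [hp]
  rfl

/-- masses whose radius lies in the buffer are interior -/
theorem bud_bm_tr_mem (hS : BdStd X W Fam K) {n : ℕ} (hn : n ≤ X.J + 1) {i : BdVI X W} (hi : BudB.VSt X W Fam n i) (hu : X.cI * i.F.u ≤ 1)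
    {s : ℝ} (hs1 : s ≤ 1) {v : ℝ} (hv : v ∈ Icc (0 : ℝ) 1) (hr : i.V.Q.r v ∈ i.V.Buf s) : v ∈ Ioo (0 : ℝ) 1 := by
  obtain ⟨h1, h2⟩ := BudB.vst_buf_cI hS hn hi hs1 hr
  refine ⟨lt_of_le_of_ne hv.1 ?_, lt_of_le_of_ne hv.2 ?_⟩
  · intro h0
    rw [← h0] at h1
    have := i.V.Q.r_al 0 ⟨le_rfl, zero_le_one⟩
    rw [i.V.Q.al_zero] at this
    linarith
  · intro h0
    rw [h0] at h2
    have := i.V.Q.r_al 1 ⟨zero_le_one, le_rfl⟩
    rw [i.V.Q.al_one] at this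
    linarith

/-- **transfer to the tree numbers**: the chain contains `ghPosA v`; `k = ixV ps v`, `rh ps k = r v`; `l8i_fork`/`ckm_two`, `ckm_nu_le`; the centre `S_k` of the chain is `δ`-close to `Sq v` (`ckm_S_close`, `hW.S`),
Minkowski, `δ ↓ 0`; `0 < v < 1` by `bud_hp_fork`.     TEX[LL:bud:box-moments] -/
theorem bud_bm_tr_a (hS : BdStd X W Fam K) (hW : W.IsSk) {n : ℕ} (hn : n ≤ X.J + 1) {s : ℝ} (hs : 0 < s) (hs1 : s ≤ 1)
    (hA : BudBmStA X W Fam n s) : BudC15a X W Fam n 2 s := by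
  intro l hl
  obtain ⟨C, hC0, N0, h0⟩ := hA l hl
  have hcI := hS.fix.cI_pos
  obtain ⟨N1, h1⟩ := BudB.ev_u hS.fix (ε := 1 / X.cI) (by positivity)
  refine Asymptotics.IsBigO.of_bound (2 * C) (bd_ev_iff.2 ⟨max N0 N1, fun i hi hN => ?_⟩)
  obtain ⟨hi1, hv, hr⟩ := hi
  have hst : BudB.VSt X W Fam n i.1 := hi1
  have hF := BudB.vst_ok hS hst
  have hcIu : X.cI * i.1.F.u ≤ 1 := by
    have h5 : i.1.F.u ≤ 1 / X.cI := h1 _ hF (le_trans (le_max_right _ _) hN)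
    calc X.cI * i.1.F.u ≤ X.cI * (1 / X.cI) := mul_le_mul_of_nonneg_left h5 hcI.le
      _ = 1 := by field_simp
  have hv' := bud_bm_tr_mem hS hn hst hcIu hs1 hv hr
  obtain ⟨hb, hh⟩ := hS.clk _ (BudB.vst_fam hst) _ (BudB.vst_g0 hS hn hst) i.1.V.Q
  have hm : 0 < i.1.F.m := by
    have h2 := hF.N2
    have h3 := hF.m_lo
    have h4 : (2:ℝ) ≤ i.1.F.N := by exact_mod_cast h2
    have : (0:ℝ) < i.1.F.m := by linarith
    exact_mod_cast this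
  have hd0 : 0 ≤ i.1.V.d0 := by
    rw [← (BudB.vst_V hst).disc]; exact abs_nonneg _
  obtain ⟨c, hc⟩ : ∃ c : ℝ, c = i.1.V.Q.Sq W i.1.V.g i.2 := ⟨_, rfl⟩
  have hq0 : (0 : ℝ) < 2 * (l : ℝ) := by
    have : (1:ℝ) ≤ l := by exact_mod_cast hl
    linarith
  obtain ⟨m2, b2⟩ := bcs_p_test c (2 * (l : ℝ)) hq0.le
  have K3 := bcs_w_nu2 hW hm hb hh hv' (fun t => |t - c| ^ (2 * (l : ℝ))) m2 b2
  have hge : 0 ≤ i.1.V.Q.mQ W i.1.V.g (2 * (l : ℝ)) i.2 c :=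
    ge_of_tendsto' K3 fun G => integral_nonneg fun q => Real.rpow_nonneg (abs_nonneg _) _
  have key : ∀ δ : ℝ, 0 < δ → i.1.V.Q.mQ W i.1.V.g (2 * (l : ℝ)) i.2 c ≤ 2 ^ (2 * l - 1) * ((C * i.1.V.d0) ^ (2 * l) + δ ^ (2 * l)) := by
    intro δ hδ
    have KS := bcs_w_S hW hm hb hh hv'.1 le_rfl hv'.2 hδ
    have KA := h0 i.1 hst (le_trans (le_max_left _ _) hN)
    refine le_of_tendsto K3 ?_
    filter_upwards [KS, KA, eventually_ge_atTop ({ghPosA i.2} : Finset GhPos)] with G hG1 hG2 hG3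
    have hmem : ghPosA i.2 ∈ ghPs 1 G := gh_os_ps_mem.2 ⟨hG3 (by simp), gh_os_posA_ok hv'.1.le hv'.2.le⟩
    have hrho := bud_bm_tr_rho i.1.V.Q G hmem
    have hG2' := hG2 (bcsIx G i.2) (by
      show i.1.V.Q.rho (ghPs 1 G) _ ∈ _
      unfold bcsIx
      rw [hrho]; exact hr)
    have hG1' := hG1 (bcsIx G i.2) le_rfl le_rfl
    have hok := bcs_w_ok hm hb hh G
    have := (bcsSP i.1.F.m (i.1.V.Q.bq i.1.V.g) (i.1.V.Q.hq i.1.V.g) G).l8s_fork_prob hok (bcsIx G i.2)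
    obtain ⟨hQm, hQb⟩ := (bcsSP i.1.F.m (i.1.V.Q.bq i.1.V.g) (i.1.V.Q.hq i.1.V.g) G).l8s_fork_Q_bd_aux hok
    obtain ⟨Sk, hSk⟩ : ∃ Sk : ℝ, Sk = (bcsSP i.1.F.m (i.1.V.Q.bq i.1.V.g) (i.1.V.Q.hq i.1.V.g) G).S (bcsIx G i.2) := ⟨_, rfl⟩
    have hcl : |Sk - c| ≤ δ := by
      rw [hSk, hc, abs_le]
      unfold BdQ.Sq
      constructor <;> linarith [hG1'.1, hG1'.2]
    have hf : L8Bd (fun q => (bcsSP i.1.F.m (i.1.V.Q.bq i.1.V.g) (i.1.V.Q.hq i.1.V.g) G).Q q - Sk) := l8k_bd_sub ⟨hQm, 1, hQb⟩ (l8k_bd_const Sk)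
    have hf2 : L8Bd (fun q => (bcsSP i.1.F.m (i.1.V.Q.bq i.1.V.g) (i.1.V.Q.hq i.1.V.g) G).Q q - c) := l8k_bd_sub ⟨hQm, 1, hQb⟩ (l8k_bd_const c)
    have hint : ∫ q, ((bcsSP i.1.F.m (i.1.V.Q.bq i.1.V.g) (i.1.V.Q.hq i.1.V.g) G).Q q - Sk) ^ (2 * l)
        ∂((bcsSP i.1.F.m (i.1.V.Q.bq i.1.V.g) (i.1.V.Q.hq i.1.V.g) G).fork (bcsIx G i.2)) ≤ (C * i.1.V.d0) ^ (2 * l) := by
      rw [hSk]; exact hG2'
    calc ∫ q, |(bcsSP i.1.F.m (i.1.V.Q.bq i.1.V.g) (i.1.V.Q.hq i.1.V.g) G).Q q - c| ^ (2 * (l : ℝ))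
          ∂((bcsSP i.1.F.m (i.1.V.Q.bq i.1.V.g) (i.1.V.Q.hq i.1.V.g) G).fork (bcsIx G i.2))
        ≤ ∫ q, 2 ^ (2 * l - 1) * (((bcsSP i.1.F.m (i.1.V.Q.bq i.1.V.g) (i.1.V.Q.hq i.1.V.g) G).Q q - Sk) ^ (2 * l) + δ ^ (2 * l))
          ∂((bcsSP i.1.F.m (i.1.V.Q.bq i.1.V.g) (i.1.V.Q.hq i.1.V.g) G).fork (bcsIx G i.2)) := by
          refine integral_mono (l8k_bd_integrable (l8k_bd_rpow hf2 hq0.le) _)
            (l8k_bd_integrable (l8k_bd_const_mul _ (l8k_bd_add (l8k_bd_pow hf _) (l8k_bd_const _))) _) fun q => ?_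
          show |_ - c| ^ (2 * (l : ℝ)) ≤ _
          obtain ⟨t, ht⟩ : ∃ t : ℝ, t = (bcsSP i.1.F.m (i.1.V.Q.bq i.1.V.g) (i.1.V.Q.hq i.1.V.g) G).Q q := ⟨_, rfl⟩
          rw [← ht]
          have e1 : (2 * (l : ℝ)) = ((2 * l : ℕ) : ℝ) := by push_cast; ring
          rw [e1, Real.rpow_natCast]
          have e2 : |t - c| ≤ |t - Sk| + δ := by
            have : t - c = (t - Sk) + (Sk - c) := by ring
            rw [this]
            exact (abs_add_le _ _).trans (by linarith)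
          calc |t - c| ^ (2 * l) ≤ (|t - Sk| + δ) ^ (2 * l) := pow_le_pow_left₀ (abs_nonneg _) e2 _
            _ ≤ 2 ^ (2 * l - 1) * (|t - Sk| ^ (2 * l) + δ ^ (2 * l)) := add_pow_le (abs_nonneg _) hδ.le _
            _ = 2 ^ (2 * l - 1) * ((t - Sk) ^ (2 * l) + δ ^ (2 * l)) := by
                rw [pow_mul |t - Sk|, sq_abs, ← pow_mul]
      _ = 2 ^ (2 * l - 1) * ((∫ q, ((bcsSP i.1.F.m (i.1.V.Q.bq i.1.V.g) (i.1.V.Q.hq i.1.V.g) G).Q q - Sk) ^ (2 * l)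
          ∂((bcsSP i.1.F.m (i.1.V.Q.bq i.1.V.g) (i.1.V.Q.hq i.1.V.g) G).fork (bcsIx G i.2))) + δ ^ (2 * l)) := by
          rw [integral_const_mul, integral_add (l8k_bd_integrable (l8k_bd_pow hf _) _) (integrable_const _), integral_const]
          simp
      _ ≤ _ := by
          refine mul_le_mul_of_nonneg_left ?_ (by positivity)
          linarith
  have hlim : i.1.V.Q.mQ W i.1.V.g (2 * (l : ℝ)) i.2 c ≤ 2 ^ (2 * l - 1) * ((C * i.1.V.d0) ^ (2 * l) + (0:ℝ) ^ (2 * l)) := by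
    have hcont : Continuous fun δ : ℝ => (2:ℝ) ^ (2 * l - 1) * ((C * i.1.V.d0) ^ (2 * l) + δ ^ (2 * l)) := by fun_prop
    refine ge_of_tendsto ((hcont.tendsto 0).mono_left (nhdsWithin_le_nhds (s := Ioi 0))) ?_
    filter_upwards [self_mem_nhdsWithin] with δ hδ
    exact key δ hδ
  rw [zero_pow (by omega), add_zero] at hlim
  have hfin : i.1.V.Q.mQ W i.1.V.g (2 * (l : ℝ)) i.2 c ≤ (2 * C * i.1.V.d0) ^ (2 * l) := by
    refine hlim.trans ?_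
    rw [mul_assoc 2 C, mul_pow 2 (C * i.1.V.d0)]
    refine mul_le_mul_of_nonneg_right ?_ (by positivity)
    exact pow_le_pow_right₀ (by norm_num) (by omega)
  show ‖i.1.V.Q.nQ W i.1.V.g (2 * (l : ℝ)) i.2 (i.1.V.Q.Sq W i.1.V.g i.2)‖ ≤ 2 * C * ‖i.1.V.d0‖
  rw [← hc, Real.norm_eq_abs, Real.norm_eq_abs, abs_of_nonneg hd0]
  unfold BdQ.nQ
  rw [abs_of_nonneg (Real.rpow_nonneg hge _)]
  calc (i.1.V.Q.mQ W i.1.V.g (2 * (l : ℝ)) i.2 c) ^ (1 / (2 * (l : ℝ)))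
      ≤ ((2 * C * i.1.V.d0) ^ (2 * l)) ^ (1 / (2 * (l : ℝ))) := Real.rpow_le_rpow hge hfin (by positivity)
    _ = 2 * C * i.1.V.d0 := by
        rw [← Real.rpow_natCast, ← Real.rpow_mul (by positivity)]
        push_cast
        rw [mul_one_div_cancel hq0.ne', Real.rpow_one]

/-- (C15), first assertion -/
theorem bud_bm_c15a (hS : BdStd X W Fam K) (hW : W.IsSk) {n : ℕ} (hn1 : 1 ≤ n) (hn : n ≤ X.J + 1) (hI : BudBmIn X W Fam K n) :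
    ∃ s : ℝ, 0 < s ∧ s ≤ 1 ∧ BudBmStX X W Fam n s ∧ BudBmStA X W Fam n (s / 2) ∧ BudC15a X W Fam n 2 (s / 2) := by
  obtain ⟨s, hs, hs1, hX, hA⟩ := bud_bm_st hS hW hn1 hn hI
  exact ⟨s, hs, hs1, hX, hA, bud_bm_tr_a hS hW hn (by linarith) (by linarith) hA⟩

/-- (C15a) on a smaller buffer -/
theorem bud_bm_c15a_mono (hS : BdStd X W Fam K) {n : ℕ} {s s' : ℝ} (hss : s' ≤ s) (h : BudC15a X W Fam n 2 s) : BudC15a X W Fam n 2 s' := by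
  intro l hl
  obtain ⟨C, hC⟩ := Asymptotics.isBigO_iff.1 (h l hl)
  obtain ⟨N0, h0⟩ := bd_ev_iff.1 hC
  refine Asymptotics.IsBigO.of_bound C (bd_ev_iff.2 ⟨N0, fun i hi hN => h0 i ⟨hi.1, hi.2.1, ?_⟩ hN⟩)
  have hb := BudB.vst_bbuf_nonneg hS hi.1
  have : s' * i.1.V.bbuf ≤ s * i.1.V.bbuf := mul_le_mul_of_nonneg_right hss hb
  exact ⟨by linarith [hi.2.2.1], by linarith [hi.2.2.2]⟩

/-! ## 3. (C15b) -/

/-- **(C15), second assertion** (l.1538-1578), on every smaller buffer: `bos_box_c15b` of helper111 (`Bud/SecBox.lean`).     TEX[LL:bud:box-moments] -/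
theorem bud_bm_c15b (hS : BdStd X W Fam K) (hW : W.IsSk) {n : ℕ} (hn1 : 1 ≤ n) (hn : n ≤ X.J + 1) (hI : BudBmIn X W Fam K n) {s : ℝ}
    (hs : 0 < s) (hs1 : s ≤ 1) (hX : BudBmStX X W Fam n s) (hA : BudBmStA X W Fam n (s / 2)) (c C : ℝ) (hc : 0 < c) :
    BudC15b X W Fam n 2 (s / 4) c C := by
  obtain ⟨hZ, hL, _⟩ := hI
  have ha := bud_bm_tr_a hS hW hn (by linarith) (by linarith) hA
  exact bos_box_c15b hS hW hn1 hn hZ hL (by linarith) (by linarith) (bud_bm_c15a_mono hS (by linarith) ha) c C hc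

/-! ## 4. (C15c) and the exit `bud_bm_c15_in`: moved to `Bud/MomBoxAl.lean` (helper167). -/

theorem bud_bm_fr_eqns_cite : True := by
  have := @BdVI.sp.eq_1; have := @BdVI.rh.eq_1; have := @BudBmIn.eq_1; have := @BudBmStX.eq_1; have := @BudBmStA.eq_1
  have := @BdVI.mbP.eq_1; have := @BdVI.mbW.eq_1; have := @BdVI.mbMo.eq_1; have := @BdVI.mbRp.eq_1; have := @BdVI.mbRq.eq_1
  have := @BdVI.mbSo.eq_1; have := @BdVI.mbO.eq_1; have := @BdVI.mbPo.eq_1; have := @BdVI.mbRo.eq_1; have := @BdVI.mbD.eq_1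
  have := @BudBmOsc.eq_1; have := @BudBmClk.eq_1; have := @BudBmRaw.eq_1; have := @BudBmGeo.eq_1
  trivial

end

end Claimed.Agent.R286
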