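import Claimed.Agent.R286.Bud.RawSus

/-!
# Row 286, LL sec. 7, node N5: THE ABSORPTION ARGUMENT, (C8) for `X`      (head helper109; prefix `bud_rw_`; all proved by helper109)
TEX[LL:bud:outer-moments] l.262-270, 318-334.

* `bud_rw_win`      one window: `‖X_{j0}‖²_{4l} ≤ Smax + 2 √(cp/(κ|J|²) ‖∫_J W dr‖_l)` for a FUTURE radius window `J` on which `dmass ≥ κ drad`.
                    (pinned inequality with the weight `k_i = ov_i/(|J| dmass_i)`: this is the genuine change w.r.t. PE (12): no bound of the cap is used.)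
* `bud_rw_absorb`   `Q² ≤ C1 + ε Q` at the finite number `Q_raw`.
* `BudRwReg`        the discrete outer regularity: everything the bootstrap uses.      `bud_rw_raw` : `BudRwReg ⟹ Raw (4l) (√C1 + 1) w`.
* two leaves, post-projection:  NOT here: `cm5_raw2`, `cm5_tbl` of Cmp/P5Ctr.lean (helper247) apply verbatim in the MASS coordinate (they only use the dyadic clocks `Cm5Clk.dy`;
  take `ηm > 3 um` so that `Cm5Clk.sh` is void): `bud_rw_clk5`.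
-/

set_option autoImplicit false

namespace Claimed.Agent.R286

open MeasureTheory ProbabilityTheory
open scoped ENNReal NNReal

variable {n : ℕ} {Ω : Type} [MeasurableSpace Ω] {M : CmPath n Ω} {rad : ℕ → ℝ}

/-- the radius-window average of `L` -/
noncomputable def budRwAvg (M : CmPath n Ω) (rad : ℕ → ℝ) (t1 t2 : ℝ) (ω : Ω) : ℝ := (t2 - t1)⁻¹ * (M.re rad).intg M.Lf t1 t2 ω

theorem bud_rw_sum_ov (hM : M.Ok) (hr : BudRwRad M rad) {t1 t2 : ℝ} (h1 : 0 ≤ t1) (h12 : t1 ≤ t2) (h2 : t2 ≤ 1) :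
    ∑ i ∈ Finset.range (M.L + 1), (M.re rad).ov i t1 t2 = t2 - t1 :=
  CmPath.sum_ov (M := M.re rad) (CmPath.re_ok hM hr) h1 h12 h2

theorem bud_rw_avg_eq (M : CmPath n Ω) (rad : ℕ → ℝ) (t1 t2 : ℝ) (ω : Ω) :
    budRwAvg M rad t1 t2 ω = (t2 - t1)⁻¹ * ∑ i ∈ Finset.range (M.L + 1), (M.re rad).ov i t1 t2 * M.Lf i ω := rfl

theorem bud_rw_Lf_mb (hM : M.Ok) (i : ℕ) : BudRwMB (M.Lf i) := ⟨CmPath.Lf_meas hM i, 2, CmPath.Lf_bound hM i⟩

theorem bud_rw_avg_mb (hM : M.Ok) (rad : ℕ → ℝ) (t1 t2 : ℝ) : BudRwMB (budRwAvg M rad t1 t2) :=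
  (BudRwMB.sum _ fun i _ => (bud_rw_Lf_mb hM i).const_mul _).const_mul _

theorem bud_rw_cE_avg (hM : M.Ok) (j : ℕ) (t1 t2 : ℝ) (ω : Ω) :
    M.cE j (budRwAvg M rad t1 t2) ω = (t2 - t1)⁻¹ * ∑ i ∈ Finset.range (M.L + 1), (M.re rad).ov i t1 t2 * M.cE j (M.Lf i) ω := by
  have := hM.markov j
  unfold CmPath.cE
  simp only [bud_rw_avg_eq]
  rw [integral_const_mul, integral_finsetSum]
  · congr 1
    exact Finset.sum_congr rfl fun i _ => integral_const_mul _ _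
  · intro i _
    exact (CmPath.cm5k_intK hM j ω (CmPath.Lf_meas hM i) (CmPath.Lf_bound hM i)).const_mul _

theorem bud_rw_int_avg (hM : M.Ok) (t1 t2 : ℝ) :
    ∫ ω, budRwAvg M rad t1 t2 ω ∂M.P = (t2 - t1)⁻¹ * ∑ i ∈ Finset.range (M.L + 1), (M.re rad).ov i t1 t2 * (M.S i / 2) := by
  have := hM.prob
  simp only [bud_rw_avg_eq]
  rw [integral_const_mul, integral_finsetSum]
  · congr 1
    refine Finset.sum_congr rfl fun i hi => ?_
    have hi' : i ≤ M.L := Nat.lt_succ_iff.mp (Finset.mem_range.mp hi)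
    rw [integral_const_mul, CmPath.int_Lf hM hi']
  · intro i _
    exact (CmPath.cm5k_integrable M.P (CmPath.Lf_meas hM i).aestronglyMeasurable (C := 2) (fun a => by
      rw [Real.norm_eq_abs]; exact CmPath.Lf_bound hM i a)).const_mul _

/-- conditional expectation back to an earlier cut bounds `|X|²/2` by the window average (`cE_Lf_ge`, `sum_ov`) -/
theorem bud_rw_avg_ge (hM : M.Ok) (hr : BudRwRad M rad) {j0 : ℕ} {t1 t2 : ℝ} (h1 : 0 ≤ t1) (h12 : t1 < t2) (h2 : t2 ≤ 1)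
    (hfut : ∀ i, i ≤ M.L → 0 < (M.re rad).ov i t1 t2 → j0 ≤ i) (ω : Ω) :
    ‖M.X j0 ω‖ ^ 2 ≤ 2 * M.cE j0 (budRwAvg M rad t1 t2) ω := by
  have hd : 0 < t2 - t1 := sub_pos.2 h12
  have hs := bud_rw_sum_ov hM hr h1 h12.le h2
  rw [bud_rw_cE_avg hM]
  have key : ∑ i ∈ Finset.range (M.L + 1), (M.re rad).ov i t1 t2 * ‖M.X j0 ω‖ ^ 2
      ≤ ∑ i ∈ Finset.range (M.L + 1), (M.re rad).ov i t1 t2 * (2 * M.cE j0 (M.Lf i) ω) := by
    refine Finset.sum_le_sum fun i hi => ?_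
    have hi' : i ≤ M.L := Nat.lt_succ_iff.mp (Finset.mem_range.mp hi)
    rcases (CmPath.ov_nonneg (M.re rad) i t1 t2).eq_or_lt with h0 | h0
    · rw [← h0]; simp
    · exact mul_le_mul_of_nonneg_left (CmPath.cE_Lf_ge hM (hfut i hi' h0) hi' ω) h0.le
  rw [← Finset.sum_mul, hs] at key
  have e : ∑ i ∈ Finset.range (M.L + 1), (M.re rad).ov i t1 t2 * (2 * M.cE j0 (M.Lf i) ω)
      = 2 * ∑ i ∈ Finset.range (M.L + 1), (M.re rad).ov i t1 t2 * M.cE j0 (M.Lf i) ω := by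
    rw [Finset.mul_sum]; exact Finset.sum_congr rfl fun i _ => by ring
  rw [e] at key
  have h3 : ‖M.X j0 ω‖ ^ 2 = (t2 - t1)⁻¹ * ((t2 - t1) * ‖M.X j0 ω‖ ^ 2) := by field_simp
  rw [h3]
  calc (t2 - t1)⁻¹ * ((t2 - t1) * ‖M.X j0 ω‖ ^ 2)
      ≤ (t2 - t1)⁻¹ * (2 * ∑ i ∈ Finset.range (M.L + 1), (M.re rad).ov i t1 t2 * M.cE j0 (M.Lf i) ω) :=
        mul_le_mul_of_nonneg_left key (inv_nonneg.2 hd.le)
    _ = _ := by ring

/-- the mean of the window average (`int_Lf`) -/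
theorem bud_rw_avg_mean (hM : M.Ok) (hr : BudRwRad M rad) {t1 t2 Smax : ℝ} (h1 : 0 ≤ t1) (h12 : t1 < t2) (h2 : t2 ≤ 1)
    (hS : ∀ i, i ≤ M.L → 0 < (M.re rad).ov i t1 t2 → M.S i ≤ Smax) :
    0 ≤ ∫ ω, budRwAvg M rad t1 t2 ω ∂M.P ∧ ∫ ω, budRwAvg M rad t1 t2 ω ∂M.P ≤ Smax / 2 := by
  have hd : 0 < t2 - t1 := sub_pos.2 h12
  have hs := bud_rw_sum_ov hM hr h1 h12.le h2
  rw [bud_rw_int_avg hM]
  constructor
  · exact mul_nonneg (inv_nonneg.2 hd.le) (Finset.sum_nonneg fun i _ =>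
      mul_nonneg (CmPath.ov_nonneg _ _ _ _) (div_nonneg (CmPath.S_nonneg M i) (by norm_num)))
  · have key : ∑ i ∈ Finset.range (M.L + 1), (M.re rad).ov i t1 t2 * (M.S i / 2)
        ≤ ∑ i ∈ Finset.range (M.L + 1), (M.re rad).ov i t1 t2 * (Smax / 2) := by
      refine Finset.sum_le_sum fun i hi => ?_
      have hi' : i ≤ M.L := Nat.lt_succ_iff.mp (Finset.mem_range.mp hi)
      rcases (CmPath.ov_nonneg (M.re rad) i t1 t2).eq_or_lt with h0 | h0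
      · rw [← h0]; simp
      · exact mul_le_mul_of_nonneg_left (by linarith [hS i hi' h0]) h0.le
    rw [← Finset.sum_mul, hs] at key
    calc (t2 - t1)⁻¹ * ∑ i ∈ Finset.range (M.L + 1), (M.re rad).ov i t1 t2 * (M.S i / 2)
        ≤ (t2 - t1)⁻¹ * ((t2 - t1) * (Smax / 2)) := mul_le_mul_of_nonneg_left key (inv_nonneg.2 hd.le)
      _ = Smax / 2 := by field_simp

/-- the pinned inequality for the radius window, floor `dmass ≥ κ drad` -/
theorem bud_rw_avg_pin (hM : M.Ok) (hr : BudRwRad M rad) {l : ℕ} (hl : 1 ≤ l) {cp : ℝ} (hcp : 0 ≤ cp) (hPin : M.Pin l cp) {t1 t2 κ : ℝ}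
    (h1 : 0 ≤ t1) (h12 : t1 < t2) (h2 : t2 ≤ 1) (hκ : 0 < κ)
    (hfl : ∀ i, i ≤ M.L → 0 < (M.re rad).ov i t1 t2 → κ * (rad (i + 1) - rad i) ≤ M.mass (i + 1) - M.mass i) :
    cmN M.P (2 * l) (fun ω => budRwAvg M rad t1 t2 ω - ∫ ω', budRwAvg M rad t1 t2 ω' ∂M.P)
      ≤ Real.sqrt (cp / (κ * (t2 - t1) ^ 2) * cmN M.P l ((M.re rad).intg M.W t1 t2)) := by
  have := hM.prob
  have hd : 0 < t2 - t1 := sub_pos.2 h12
  have hOk := CmPath.re_ok hM hr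
  obtain ⟨k, hk⟩ : ∃ k : ℕ → ℝ, k = fun i => (M.re rad).ov i t1 t2 / ((t2 - t1) * (M.mass (i + 1) - M.mass i)) := ⟨_, rfl⟩
  have hdm : ∀ i, i ≤ M.L → 0 < (M.re rad).ov i t1 t2 →
      0 < M.mass (i + 1) - M.mass i ∧ κ * (M.re rad).ov i t1 t2 ≤ M.mass (i + 1) - M.mass i := by
    intro i hi h0
    have h3 : (M.re rad).ov i t1 t2 ≤ rad (i + 1) - rad i := CmPath.ov_le (M := M.re rad) hOk i t1 t2
    have h4 := hfl i hi h0
    have h5 : κ * (M.re rad).ov i t1 t2 ≤ κ * (rad (i + 1) - rad i) := mul_le_mul_of_nonneg_left h3 hκ.le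
    have h6 : 0 < κ * (M.re rad).ov i t1 t2 := mul_pos hκ h0
    exact ⟨by linarith, by linarith⟩
  have hk1 : ∀ i, i ≤ M.L → (M.mass (i + 1) - M.mass i) * k i = (t2 - t1)⁻¹ * (M.re rad).ov i t1 t2 := by
    intro i hi
    rw [hk]
    rcases (CmPath.ov_nonneg (M.re rad) i t1 t2).eq_or_lt with h0 | h0
    · simp [← h0]
    · have := (hdm i hi h0).1
      field_simp
  have hk2 : ∀ i, i ≤ M.L → (M.mass (i + 1) - M.mass i) * k i ^ 2 ≤ (M.re rad).ov i t1 t2 / (κ * (t2 - t1) ^ 2) := by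
    intro i hi
    rw [hk]
    rcases (CmPath.ov_nonneg (M.re rad) i t1 t2).eq_or_lt with h0 | h0
    · simp [← h0]
    · obtain ⟨a1, a2⟩ := hdm i hi h0
      have e : (M.mass (i + 1) - M.mass i) * ((M.re rad).ov i t1 t2 / ((t2 - t1) * (M.mass (i + 1) - M.mass i))) ^ 2
          = (M.re rad).ov i t1 t2 * (M.re rad).ov i t1 t2 / ((t2 - t1) ^ 2 * (M.mass (i + 1) - M.mass i)) := by
        field_simp
      rw [e, div_le_div_iff₀ (by positivity) (by positivity)]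
      have : (M.re rad).ov i t1 t2 * (κ * (M.re rad).ov i t1 t2) * (t2 - t1) ^ 2
          ≤ (M.re rad).ov i t1 t2 * (M.mass (i + 1) - M.mass i) * (t2 - t1) ^ 2 :=
        mul_le_mul_of_nonneg_right (mul_le_mul_of_nonneg_left a2 h0.le) (by positivity)
      nlinarith [this]
  have hpin := hPin k
  have e1 : ∀ ω, (∑ i ∈ Finset.range (M.L + 1), (M.mass (i + 1) - M.mass i) * k i * (M.Lf i ω - ∫ ω', M.Lf i ω' ∂M.P))
      = budRwAvg M rad t1 t2 ω - ∫ ω', budRwAvg M rad t1 t2 ω' ∂M.P := by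
    intro ω
    rw [bud_rw_int_avg hM, bud_rw_avg_eq, ← mul_sub, ← Finset.sum_sub_distrib, Finset.mul_sum]
    refine Finset.sum_congr rfl fun i hi => ?_
    have hi' : i ≤ M.L := Nat.lt_succ_iff.mp (Finset.mem_range.mp hi)
    rw [hk1 i hi', CmPath.int_Lf hM hi']
    ring
  simp only [e1] at hpin
  have hWmb : BudRwMB ((M.re rad).intg M.W t1 t2) :=
    BudRwMB.sum _ fun i hi => BudRwMB.const_mul ⟨CmPath.W_meas hM i, 16, fun ω => by
      rw [abs_of_nonneg (CmPath.W_nonneg hM i ω)]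
      exact CmPath.W_le hM (Nat.lt_succ_iff.mp (Finset.mem_range.mp hi)) ω⟩ _
  have hW0 : ∀ ω, 0 ≤ (M.re rad).intg M.W t1 t2 ω := fun ω =>
    Finset.sum_nonneg fun i _ => mul_nonneg (CmPath.ov_nonneg _ _ _ _) (CmPath.W_nonneg hM i ω)
  have hJ0 : ∀ ω, 0 ≤ ∑ i ∈ Finset.range (M.L + 1), (M.mass (i + 1) - M.mass i) * k i ^ 2 * M.W i ω := fun ω =>
    Finset.sum_nonneg fun i _ => mul_nonneg (mul_nonneg (sub_nonneg.2 (hM.mass_mono (Nat.le_succ i))) (sq_nonneg _)) (CmPath.W_nonneg hM i ω)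
  have hJ : ∀ ω, ∑ i ∈ Finset.range (M.L + 1), (M.mass (i + 1) - M.mass i) * k i ^ 2 * M.W i ω
      ≤ (M.re rad).intg M.W t1 t2 ω / (κ * (t2 - t1) ^ 2) := by
    intro ω
    show _ ≤ (∑ i ∈ Finset.range (M.L + 1), (M.re rad).ov i t1 t2 * M.W i ω) / (κ * (t2 - t1) ^ 2)
    rw [Finset.sum_div]
    refine Finset.sum_le_sum fun i hi => ?_
    have hi' : i ≤ M.L := Nat.lt_succ_iff.mp (Finset.mem_range.mp hi)
    calc (M.mass (i + 1) - M.mass i) * k i ^ 2 * M.W i ω ≤ (M.re rad).ov i t1 t2 / (κ * (t2 - t1) ^ 2) * M.W i ω :=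
          mul_le_mul_of_nonneg_right (hk2 i hi') (CmPath.W_nonneg hM i ω)
      _ = (M.re rad).ov i t1 t2 * M.W i ω / (κ * (t2 - t1) ^ 2) := by ring
  obtain ⟨hWm, CW, hCW⟩ := hWmb
  have hden : 0 < κ * (t2 - t1) ^ 2 := by positivity
  have hI : ∫ ω, (∑ i ∈ Finset.range (M.L + 1), (M.mass (i + 1) - M.mass i) * k i ^ 2 * M.W i ω) ^ l ∂M.P
      ≤ (cmN M.P l ((M.re rad).intg M.W t1 t2) / (κ * (t2 - t1) ^ 2)) ^ l := by
    calc ∫ ω, (∑ i ∈ Finset.range (M.L + 1), (M.mass (i + 1) - M.mass i) * k i ^ 2 * M.W i ω) ^ l ∂M.P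
        ≤ ∫ ω, ((M.re rad).intg M.W t1 t2 ω / (κ * (t2 - t1) ^ 2)) ^ l ∂M.P := by
          refine integral_mono_of_nonneg (Filter.Eventually.of_forall fun ω => pow_nonneg (hJ0 ω) l) ?_
            (Filter.Eventually.of_forall fun ω => pow_le_pow_left₀ (hJ0 ω) (hJ ω) l)
          refine Integrable.of_bound ((hWm.div_const _).pow_const l).aestronglyMeasurable
            ((CW / (κ * (t2 - t1) ^ 2)) ^ l) (Filter.Eventually.of_forall fun ω => ?_)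
          have h0 : 0 ≤ (M.re rad).intg M.W t1 t2 ω / (κ * (t2 - t1) ^ 2) := div_nonneg (hW0 ω) hden.le
          rw [Real.norm_eq_abs, abs_of_nonneg (pow_nonneg h0 l)]
          exact pow_le_pow_left₀ h0 (div_le_div_of_nonneg_right ((le_abs_self _).trans (hCW ω)) hden.le) l
      _ = (∫ ω, ‖(M.re rad).intg M.W t1 t2 ω‖ ^ l ∂M.P) / (κ * (t2 - t1) ^ 2) ^ l := by
          rw [← integral_div]
          refine integral_congr_ae (Filter.Eventually.of_forall fun ω => ?_)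
          simp only [Real.norm_eq_abs, abs_of_nonneg (hW0 ω), div_pow]
      _ = cmN M.P l ((M.re rad).intg M.W t1 t2) ^ l / (κ * (t2 - t1) ^ 2) ^ l := by
          rw [cmN_pow_eq (BudRwMB.bm ⟨hWm, CW, hCW⟩ M.P) l hl]
      _ = _ := by rw [div_pow]
  have hmb : BudRwMB (fun ω => budRwAvg M rad t1 t2 ω - ∫ ω', budRwAvg M rad t1 t2 ω' ∂M.P) := by
    have h := (bud_rw_avg_mb hM rad t1 t2).add (f := budRwAvg M rad t1 t2)
      (g := fun _ => -∫ ω', budRwAvg M rad t1 t2 ω' ∂M.P) ⟨measurable_const, _, fun _ => le_rfl⟩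
    simpa [sub_eq_add_neg] using h
  refine cmN_le_of_int_le (hmb.bm M.P) (2 * l) (by omega) _ (Real.sqrt_nonneg _) ?_
  have hN0 := cmN_nonneg M.P l ((M.re rad).intg M.W t1 t2)
  calc ∫ ω, ‖budRwAvg M rad t1 t2 ω - ∫ ω', budRwAvg M rad t1 t2 ω' ∂M.P‖ ^ (2 * l) ∂M.P
      = ∫ ω, (budRwAvg M rad t1 t2 ω - ∫ ω', budRwAvg M rad t1 t2 ω' ∂M.P) ^ (2 * l) ∂M.P := by
        refine integral_congr_ae (Filter.Eventually.of_forall fun ω => ?_)
        simp only [Real.norm_eq_abs]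
        rw [pow_mul, pow_mul, sq_abs]
    _ ≤ cp ^ l * (cmN M.P l ((M.re rad).intg M.W t1 t2) / (κ * (t2 - t1) ^ 2)) ^ l :=
        hpin.trans (mul_le_mul_of_nonneg_left hI (pow_nonneg hcp l))
    _ = Real.sqrt (cp / (κ * (t2 - t1) ^ 2) * cmN M.P l ((M.re rad).intg M.W t1 t2)) ^ (2 * l) := by
        rw [pow_mul, Real.sq_sqrt (by positivity), ← mul_pow]
        congr 1
        ring

/-- **one window** -/
theorem bud_rw_win (hM : M.Ok) (hr : BudRwRad M rad) {l : ℕ} (hl : 1 ≤ l) {cp : ℝ} (hcp : 0 ≤ cp) (hPin : M.Pin l cp) {j0 : ℕ} {t1 t2 κ Smax : ℝ}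
    (h1 : 0 ≤ t1) (h12 : t1 < t2) (h2 : t2 ≤ 1) (hκ : 0 < κ)
    (hfut : ∀ i, i ≤ M.L → 0 < (M.re rad).ov i t1 t2 → j0 ≤ i)
    (hfl : ∀ i, i ≤ M.L → 0 < (M.re rad).ov i t1 t2 → κ * (rad (i + 1) - rad i) ≤ M.mass (i + 1) - M.mass i)
    (hS : ∀ i, i ≤ M.L → 0 < (M.re rad).ov i t1 t2 → M.S i ≤ Smax) :
    cmN M.P (4 * l) (M.X j0) ^ 2 ≤ Smax + 2 * Real.sqrt (cp / (κ * (t2 - t1) ^ 2) * cmN M.P l ((M.re rad).intg M.W t1 t2)) := by
  have := hM.prob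
  have hA := bud_rw_avg_mb hM rad t1 t2
  obtain ⟨m0, m1⟩ := bud_rw_avg_mean hM hr h1 h12 h2 hS
  have hpin := bud_rw_avg_pin hM hr hl hcp hPin h1 h12 h2 hκ hfl
  obtain ⟨mu, hmu⟩ : ∃ mu : ℝ, mu = ∫ ω, budRwAvg M rad t1 t2 ω ∂M.P := ⟨_, rfl⟩
  rw [← hmu] at m0 m1 hpin
  have hmb : BudRwMB (fun ω => budRwAvg M rad t1 t2 ω - mu) := by
    have h := hA.add (g := fun _ => -mu) ⟨measurable_const, _, fun _ => le_rfl⟩
    simpa [sub_eq_add_neg] using h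
  have e4 : 4 * l = 2 * (2 * l) := by ring
  have hsplit : cmN M.P (2 * l) (budRwAvg M rad t1 t2) ≤ cmN M.P (2 * l) (fun ω => budRwAvg M rad t1 t2 ω - mu) + mu := by
    have h3 := cmN_add_le (hmb.bm M.P) (CmPath.su_BM_const (μ := M.P) mu) (2 * l) (by omega)
    rw [cmN_const _ _ (by omega), abs_of_nonneg m0] at h3
    refine le_trans (le_of_eq ?_) h3
    congr 1
    funext ω
    simp
  calc cmN M.P (4 * l) (M.X j0) ^ 2 = cmN M.P (2 * l) (fun ω => ‖M.X j0 ω‖ ^ 2) := by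
        rw [e4, cmN_sq (CmPath.X_bm hM j0) (2 * l) (by omega)]
    _ ≤ cmN M.P (2 * l) (fun ω => 2 * M.cE j0 (budRwAvg M rad t1 t2) ω) :=
        bud_rw_cmN_le ((bud_rw_cE_mb hM j0 hA).const_mul 2) (fun ω => by positivity)
          (fun ω => bud_rw_avg_ge hM hr h1 h12 h2 hfut ω) _
    _ = 2 * cmN M.P (2 * l) (M.cE j0 (budRwAvg M rad t1 t2)) := by
        rw [cmN_const_mul, abs_of_nonneg (by norm_num : (0:ℝ) ≤ 2)]
    _ ≤ 2 * cmN M.P (2 * l) (budRwAvg M rad t1 t2) := by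
        obtain ⟨a1, C, a2⟩ := hA
        exact mul_le_mul_of_nonneg_left (CmPath.cmN_cE_le hM j0 a1 a2 (2 * l) (by omega)) (by norm_num)
    _ ≤ _ := by linarith

/-- **absorption** at the finite number `Q_raw = max(1, max_j ‖X_j‖_p/√(w + mass j))` -/
theorem bud_rw_absorb (hM : M.Ok) {p : ℕ} (hp : 1 ≤ p) {w C1 ε : ℝ} (hw : 0 < w) (hC1 : 1 ≤ C1) (hε : 0 ≤ ε)
    (h : ∀ Q : ℝ, 1 ≤ Q → M.Raw p Q w → ∀ j, j ≤ M.L + 1 → cmN M.P p (M.X j) ^ 2 ≤ (C1 + ε * Q) * (w + M.mass j)) :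
    M.Raw p (Real.sqrt C1 + ε) w := by
  have := hM.prob
  have hpos : ∀ j, j ≤ M.L + 1 → 0 < w + M.mass j := fun j hj => by linarith [(CmPath.mass_mem hM hj).1]
  obtain ⟨js, hjs, hmax⟩ := Finset.exists_max_image (Finset.range (M.L + 2))
    (fun j => cmN M.P p (M.X j) ^ 2 / (w + M.mass j)) ⟨0, by simp⟩
  have hjs' : js ≤ M.L + 1 := by have := Finset.mem_range.1 hjs; omega
  obtain ⟨Q2, hQ2⟩ : ∃ Q2 : ℝ, Q2 = max 1 (cmN M.P p (M.X js) ^ 2 / (w + M.mass js)) := ⟨_, rfl⟩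
  have hQ21 : 1 ≤ Q2 := hQ2 ▸ le_max_left _ _
  have hQ20 : 0 ≤ Q2 := by linarith
  have hRawQ : M.Raw p (Real.sqrt Q2) w := by
    intro j hj
    have h1 : cmN M.P p (M.X j) ^ 2 / (w + M.mass j) ≤ Q2 :=
      (hmax j (Finset.mem_range.2 (by omega))).trans (hQ2 ▸ le_max_right _ _)
    have h2 : cmN M.P p (M.X j) ^ 2 ≤ Q2 * (w + M.mass j) := (div_le_iff₀ (hpos j hj)).1 h1
    rw [← Real.sqrt_mul hQ20]
    exact Real.le_sqrt_of_sq_le h2
  have hQ1 : 1 ≤ Real.sqrt Q2 := Real.one_le_sqrt.2 hQ21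
  have hkey : Q2 ≤ C1 + ε * Real.sqrt Q2 := by
    rw [hQ2]
    refine max_le ?_ ?_
    · have : 0 ≤ ε * Real.sqrt (max 1 (cmN M.P p (M.X js) ^ 2 / (w + M.mass js))) := mul_nonneg hε (Real.sqrt_nonneg _)
      linarith
    · rw [← hQ2, div_le_iff₀ (hpos js hjs')]
      exact h _ hQ1 hRawQ js hjs'
  have hle : Real.sqrt Q2 ≤ Real.sqrt C1 + ε := by
    by_contra hcon
    rw [not_le] at hcon
    have hs0 : 0 ≤ Real.sqrt C1 := Real.sqrt_nonneg _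
    have hs2 : Real.sqrt C1 ^ 2 = C1 := Real.sq_sqrt (by linarith)
    have hq2 : Real.sqrt Q2 ^ 2 = Q2 := Real.sq_sqrt hQ20
    nlinarith [mul_nonneg hs0 hε, mul_pos (sub_pos.2 hcon) (lt_of_lt_of_le zero_lt_one hQ1),
      mul_nonneg hs0 (sub_pos.2 hcon).le]
  intro j hj
  exact (hRawQ j hj).trans (mul_le_mul_of_nonneg_right hle (Real.sqrt_nonneg _))

/-- **discrete outer regularity**: all that the bootstrap uses.   `x0` = regular threshold (radius), `um` = last small scale, `z ∈ [x0, um]` = window scale, window `[z, 2z]`.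
INSTANCE: `bud_rw_reg_inst` (Bud/RawExit.lean, helper109): sampled changed path of an optimiser with outer regularity. -/
structure BudRwReg (M : CmPath n Ω) (rad : ℕ → ℝ) (K r l : ℕ) (η θ w x0 um cr Cr C0 CS cp Pi ε : ℝ) (D : ℝ → ℕ → ℝ) (G0 κ : ℝ → ℝ) : Prop where
  rd : BudRwRad M rad
  n1 : 1 ≤ n
  l1 : 1 ≤ l
  r1 : 1 ≤ r
  θ0 : 0 < θ
  θ1 : θ ≤ 1
  cr1 : cr ≤ 1
  C01 : 1 ≤ C0
  CS1 : 1 ≤ CS
  cp0 : 0 ≤ cp
  Pi1 : 1 ≤ Pi
  ε0 : 0 < ε
  x00 : 0 < x0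
  x0w : x0 ≤ C0 * w
  xum : x0 ≤ um
  /-- `r(v) = O(v + w)` everywhere -/
  rad_le : ∀ j, j ≤ M.L + 1 → rad j ≤ C0 * (w + M.mass j)
  /-- masses below the regular threshold -/
  mass_le : ∀ j, j ≤ M.L + 1 → M.mass j ≤ Cr * max (rad j) x0
  /-- `S = O(v + w)` (geometry: look ahead to a nonfloor point) -/
  S_le : ∀ j, j ≤ M.L + 1 → M.S j ≤ CS * (w + M.mass j)
  pin : M.Pin l cp
  proj2 : M.Proj 2 Pi
  projr : M.Proj (2 * r * l) Pi
  sus : ∀ z, x0 ≤ z → z ≤ um → BudRwSusH M rad K η z (2 * z) cr Cr w (D z)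
  G00 : ∀ z, 0 ≤ G0 z
  num1 : ∀ z, x0 ≤ z → z ≤ um → ∀ k, 1 ≤ k → k < K →
    budRwZ η (2 * z) k * min (2 ^ k * η) z * (w + Cr * budRwZ η (2 * z) k) ≤ G0 z * (budRwThr η z (k - 1) ^ 2 * D z k)
  num2 : ∀ z, x0 ≤ z → z ≤ um → z * θ ^ r ≤ min η z * w
  num3 : ∀ z, x0 ≤ z → z ≤ um → budRwZ η (2 * z) 0 * η * (w + Cr * budRwZ η (2 * z) 0) ≤ G0 z / n
  κ0 : ∀ z, 0 < κ z
  floor : ∀ z, x0 ≤ z → z ≤ um → ∀ i, i ≤ M.L → 0 < (M.re rad).ov i z (2 * z) → κ z * (rad (i + 1) - rad i) ≤ M.mass (i + 1) - M.mass i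
  /-- `m C(v) k(v) v⁴` diverges: the smallness which allows absorption -/
  small : ∀ z, x0 ≤ z → z ≤ um → 800 * cp * l ^ 2 * K ^ 3 * Cr * Pi ^ 2 * G0 z ≤ ε ^ 2 * (κ z * z ^ 4 * cr ^ 2 * n * θ)

/-- the constant of the raw bound -/
noncomputable def budRwC1 (um Cr C0 CS : ℝ) : ℝ := max (C0 / um) (CS * (1 + 2 * Cr * C0)) + C0

theorem bud_rw_boot_eqns_cite : True := by
  have := @budRwAvg.eq_1; have := @budRwC1.eq_1
  trivial

theorem bud_rw_C1_ge {K r l : ℕ} {η θ w x0 um cr Cr C0 CS cp Pi ε : ℝ} {D : ℝ → ℕ → ℝ} {G0 κ : ℝ → ℝ}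
    (h : BudRwReg M rad K r l η θ w x0 um cr Cr C0 CS cp Pi ε D G0 κ) : 1 ≤ budRwC1 um Cr C0 CS := by
  have hCr : 1 ≤ Cr := (h.sus x0 le_rfl h.xum).hCr
  have h1 := h.C01
  have h2 := h.CS1
  have h3 : 0 ≤ CS * (1 + 2 * Cr * C0) := by positivity
  unfold budRwC1
  linarith [le_max_right (C0 / um) (CS * (1 + 2 * Cr * C0))]

/-- the one-step inequality under `BudRwReg`.
Node `j`: if `um < rad j` then `1 ≤ (C0/um)(w + mass j)`; otherwise window `[z, 2z]`, `z = max x0 (rad j) ≤ C0 (w + mass j)`, `bud_rw_win`, `bud_rw_sus_num`, `small`. -/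
theorem bud_rw_step {K r l : ℕ} {η θ w x0 um cr Cr C0 CS cp Pi ε : ℝ} {D : ℝ → ℕ → ℝ} {G0 κ : ℝ → ℝ} (hM : M.Ok)
    (h : BudRwReg M rad K r l η θ w x0 um cr Cr C0 CS cp Pi ε D G0 κ) (hw : 0 < w) {Q : ℝ} (hQ : 1 ≤ Q) (hR : M.Raw (4 * l) Q w) {j : ℕ}
    (hj : j ≤ M.L + 1) :
    cmN M.P (4 * l) (M.X j) ^ 2 ≤ (budRwC1 um Cr C0 CS + ε * C0 * Q) * (w + M.mass j) := by
  have := hM.prob
  have hum : 0 < um := lt_of_lt_of_le h.x00 h.xum
  have hC00 : 0 < C0 := by linarith [h.C01]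
  have hCS0 : 0 < CS := by linarith [h.CS1]
  have hCr : 1 ≤ Cr := (h.sus x0 le_rfl h.xum).hCr
  have hcr : 0 < cr := (h.sus x0 le_rfl h.xum).hcr
  have hm0 : 0 ≤ M.mass j := (CmPath.mass_mem hM hj).1
  have hwm : 0 < w + M.mass j := by linarith
  have hεQ : 0 ≤ ε * C0 * Q := by have := h.ε0; positivity
  rcases lt_or_ge um (rad j) with hcase | hcase
  · have hA1 : cmN M.P (4 * l) (M.X j) ≤ 1 := by
      refine cmN_le_of_int_le (CmPath.X_bm hM j) (4 * l) (by have := h.l1; omega) 1 zero_le_one ?_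
      calc ∫ a, ‖M.X j a‖ ^ (4 * l) ∂M.P ≤ ∫ _a, (1 : ℝ) ∂M.P := by
            refine integral_mono_of_nonneg (Filter.Eventually.of_forall fun ω => by positivity) (integrable_const _)
              (Filter.Eventually.of_forall fun ω => pow_le_one₀ (norm_nonneg _) (hM.norm_le _ _))
        _ = 1 ^ (4 * l) := by simp
    have hA2 : cmN M.P (4 * l) (M.X j) ^ 2 ≤ 1 := pow_le_one₀ (cmN_nonneg _ _ _) hA1
    have h3 : 1 ≤ C0 / um * (w + M.mass j) := by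
      have h4 := h.rad_le j hj
      rw [div_mul_eq_mul_div, le_div_iff₀ hum]
      linarith
    have h5 : C0 / um ≤ budRwC1 um Cr C0 CS := by
      unfold budRwC1
      linarith [le_max_left (C0 / um) (CS * (1 + 2 * Cr * C0))]
    calc cmN M.P (4 * l) (M.X j) ^ 2 ≤ C0 / um * (w + M.mass j) := hA2.trans h3
      _ ≤ (budRwC1 um Cr C0 CS + ε * C0 * Q) * (w + M.mass j) := mul_le_mul_of_nonneg_right (by linarith) hwm.le
  · obtain ⟨z, hz⟩ : ∃ z : ℝ, z = max x0 (rad j) := ⟨_, rfl⟩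
    have hx0z : x0 ≤ z := hz ▸ le_max_left _ _
    have hjz : rad j ≤ z := hz ▸ le_max_right _ _
    have hzum : z ≤ um := hz ▸ max_le h.xum hcase
    have hz0 : 0 < z := lt_of_lt_of_le h.x00 hx0z
    have hzC : z ≤ C0 * (w + M.mass j) := by
      rw [hz]
      refine max_le ?_ (h.rad_le j hj)
      have := h.x0w
      nlinarith
    have hS := h.sus z hx0z hzum
    have hov : ∀ i, i ≤ M.L → 0 < (M.re rad).ov i z (2 * z) → z < rad (i + 1) ∧ rad i < 2 * z := by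
      intro i _ h0
      have h3 := (CmPath.ov_pos_iff (M.re rad) i z (2 * z)).1 h0
      exact ⟨lt_of_le_of_lt (le_max_right _ _) (lt_of_lt_of_le h3 (min_le_left _ _)),
        lt_of_le_of_lt (le_max_left _ _) (lt_of_lt_of_le h3 (min_le_right _ _))⟩
    have hfut : ∀ i, i ≤ M.L → 0 < (M.re rad).ov i z (2 * z) → j ≤ i := by
      intro i hi h0
      by_contra hcon
      have h3 : rad (i + 1) ≤ rad j := h.rd.mono (by omega)
      linarith [(hov i hi h0).1]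
    have hSm : ∀ i, i ≤ M.L → 0 < (M.re rad).ov i z (2 * z) → M.S i ≤ CS * (w + 2 * Cr * z) := by
      intro i hi h0
      have h3 := h.S_le i (by omega)
      have h4 := h.mass_le i (by omega)
      have h5 : max (rad i) x0 ≤ 2 * z := max_le (hov i hi h0).2.le (by linarith)
      have h6 : M.mass i ≤ 2 * Cr * z := by nlinarith
      exact h3.trans (mul_le_mul_of_nonneg_left (by linarith) hCS0.le)
    have e1 : 2 * z - z = z := by ring
    have hW := bud_rw_sus_num hM h.rd hS h.l1 h.r1 h.Pi1 hQ h.proj2 h.projr hR h.n1 h.θ0 h.θ1 (by linarith : z < 2 * z) h.cr1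
      (h.G00 z) (by rw [e1]; exact h.num1 z hx0z hzum) (by rw [e1]; exact h.num2 z hx0z hzum) (h.num3 z hx0z hzum)
    have hwin := bud_rw_win hM h.rd h.l1 h.cp0 h.pin hz0.le (by linarith : z < 2 * z) hS.ht2.le (h.κ0 z) hfut
      (h.floor z hx0z hzum) hSm
    rw [e1] at hwin
    have hn0 : (0 : ℝ) < n := by have := h.n1; exact_mod_cast (by omega : 0 < n)
    have hκz := h.κ0 z
    have hθ := h.θ0
    have hsm := h.small z hx0z hzum
    have hWb : cp / (κ z * z ^ 2) * cmN M.P l ((M.re rad).intg M.W z (2 * z)) ≤ (ε * Q * z / 2) ^ 2 := by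
      calc cp / (κ z * z ^ 2) * cmN M.P l ((M.re rad).intg M.W z (2 * z))
          ≤ cp / (κ z * z ^ 2) * (200 * l ^ 2 * K ^ 3 * Cr * Pi ^ 2 * Q ^ 2 * G0 z / (cr ^ 2 * n * θ)) :=
            mul_le_mul_of_nonneg_left hW (div_nonneg h.cp0 (by positivity))
        _ = (800 * cp * l ^ 2 * K ^ 3 * Cr * Pi ^ 2 * G0 z) * (Q ^ 2 / (4 * (κ z * z ^ 2 * cr ^ 2 * n * θ))) := by
            field_simp
            ring
        _ ≤ (ε ^ 2 * (κ z * z ^ 4 * cr ^ 2 * n * θ)) * (Q ^ 2 / (4 * (κ z * z ^ 2 * cr ^ 2 * n * θ))) :=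
            mul_le_mul_of_nonneg_right hsm (by positivity)
        _ = (ε * Q * z / 2) ^ 2 := by
            field_simp
            ring
    have hsq : Real.sqrt (cp / (κ z * z ^ 2) * cmN M.P l ((M.re rad).intg M.W z (2 * z))) ≤ ε * Q * z / 2 :=
      Real.sqrt_le_iff.2 ⟨by have := h.ε0; positivity, hWb⟩
    have h7 : CS * (1 + 2 * Cr * C0) ≤ budRwC1 um Cr C0 CS := by
      unfold budRwC1
      linarith [le_max_right (C0 / um) (CS * (1 + 2 * Cr * C0))]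
    have h8 : CS * (w + 2 * Cr * z) ≤ CS * (1 + 2 * Cr * C0) * (w + M.mass j) := by
      have h9 : 2 * Cr * z ≤ 2 * Cr * (C0 * (w + M.mass j)) := mul_le_mul_of_nonneg_left hzC (by linarith)
      have : w + 2 * Cr * z ≤ (1 + 2 * Cr * C0) * (w + M.mass j) := by nlinarith
      calc CS * (w + 2 * Cr * z) ≤ CS * ((1 + 2 * Cr * C0) * (w + M.mass j)) := mul_le_mul_of_nonneg_left this hCS0.le
        _ = _ := by ring
    have h10 : ε * Q * z ≤ ε * C0 * Q * (w + M.mass j) := by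
      have : ε * Q * z ≤ ε * Q * (C0 * (w + M.mass j)) := mul_le_mul_of_nonneg_left hzC (by have := h.ε0; positivity)
      linarith
    calc cmN M.P (4 * l) (M.X j) ^ 2 ≤ CS * (w + 2 * Cr * z) + ε * Q * z := by linarith
      _ ≤ CS * (1 + 2 * Cr * C0) * (w + M.mass j) + ε * C0 * Q * (w + M.mass j) := add_le_add h8 h10
      _ ≤ (budRwC1 um Cr C0 CS + ε * C0 * Q) * (w + M.mass j) := by
          have := mul_le_mul_of_nonneg_right h7 hwm.le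
          linarith

/-- **(C8) for `X`, abstract.**   TEX[LL:bud:outer-moments] -/
theorem bud_rw_raw {K r l : ℕ} {η θ w x0 um cr Cr C0 CS cp Pi ε : ℝ} {D : ℝ → ℕ → ℝ} {G0 κ : ℝ → ℝ} (hM : M.Ok)
    (h : BudRwReg M rad K r l η θ w x0 um cr Cr C0 CS cp Pi ε D G0 κ) (hw : 0 < w) :
    M.Raw (4 * l) (Real.sqrt (budRwC1 um Cr C0 CS) + ε * C0) w := by
  refine bud_rw_absorb hM (by have := h.l1; omega) hw (bud_rw_C1_ge h) (mul_nonneg h.ε0.le (by linarith [h.C01])) ?_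
  intro Q hQ hR j hj
  exact bud_rw_step hM h hw hQ hR hj

/-- **(C9) after the bootstrap** -/
theorem bud_rw_c9 {K r l : ℕ} {η θ w x0 um cr Cr C0 CS cp Pi ε : ℝ} {D : ℝ → ℕ → ℝ} {G0 κ : ℝ → ℝ} (hM : M.Ok)
    (h : BudRwReg M rad K r l η θ w x0 um cr Cr C0 CS cp Pi ε D G0 κ) (hw : 0 < w) {z : ℝ} (hz : x0 ≤ z) (hzu : z ≤ um) :
    cmN M.P l ((M.re rad).intg M.W z (2 * z))
      ≤ 200 * l ^ 2 * K ^ 3 * Cr * Pi ^ 2 * (Real.sqrt (budRwC1 um Cr C0 CS) + ε * C0) ^ 2 * G0 z / (cr ^ 2 * n * θ) := by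
  have hz0 : 0 < z := lt_of_lt_of_le h.x00 hz
  have e1 : 2 * z - z = z := by ring
  have hQ : 1 ≤ Real.sqrt (budRwC1 um Cr C0 CS) + ε * C0 := by
    have h1 : 1 ≤ Real.sqrt (budRwC1 um Cr C0 CS) := Real.one_le_sqrt.2 (bud_rw_C1_ge h)
    have h2 : 0 ≤ ε * C0 := mul_nonneg h.ε0.le (by linarith [h.C01])
    linarith
  exact bud_rw_sus_num hM h.rd (h.sus z hz hzu) h.l1 h.r1 h.Pi1 hQ h.proj2 h.projr (bud_rw_raw hM h hw) h.n1 h.θ0 h.θ1
    (by linarith : z < 2 * z) h.cr1 (h.G00 z) (by rw [e1]; exact h.num1 z hz hzu) (by rw [e1]; exact h.num2 z hz hzu) (h.num3 z hz hzu)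

end Claimed.Agent.R286
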