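import Claimed.Agent.R286.Cmp.P5Sus

/-!
# Row 286, LL sec. 7, node N5 = Lemma 7.4 (moments under outer regularity, (C8), (C9)): VOCABULARY      (head helper109; prefix `bud_rw_`, types `BudRw*`)

FINE LEVEL.  The abstract one-path model is `CmPath` of helper247 (Cmp/P5Mod.lean; kit Cmp/P5Kit.lean, blocking and pair bounds Cmp/P5Sus.lean).
What is NEW in LL w.r.t. PE Prop 3.4: the cap `M_j = x^(-100)` gives no bound of the mass of a cap, so the field clock has NO slope in the mass coordinate.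
All windows, layers and integrals are taken in the RADIUS coordinate `rad : ℕ → ℝ` (node `j` ↦ `r(mass j)`), the masses only enter through
(i) the Hessian weights, (ii) the denominators of (A3), (iii) the weights of the pinned inequality (A1) (floor: `dmass ≥ κ drad`).
TRICK: `M.re rad` = the same path with `mass := rad`.  `CmPath.Ok` only asks `mass` to be monotone from `0` to `1`, so `(M.re rad).Ok` and EVERY lemma of
P5Kit which does not mention `W`, `Proj`, `Pin` (nodes, overlaps, `window_comp`, `garsia`, `doob`, `cmp_bound`, ...) holds in the radius coordinate.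
-/

set_option autoImplicit false

namespace Claimed.Agent.R286

open MeasureTheory ProbabilityTheory
open scoped ENNReal NNReal

variable {n : ℕ} {Ω : Type} [MeasurableSpace Ω]

namespace CmPath

/-- the same path read in another coordinate -/
def re (M : CmPath n Ω) (rad : ℕ → ℝ) : CmPath n Ω := { M with mass := rad }

end CmPath

/-- a radius labelling of the nodes.   INSTANCE: `Q.rho ps` of Bud/Mom.lean (helper198) on the sampled changed path; theorem `bud_rw_inst` (Bud/RawExit.lean, helper109) -/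
structure BudRwRad (M : CmPath n Ω) (rad : ℕ → ℝ) : Prop where
  mono : Monotone rad
  zero : rad 0 = 0
  top : rad (M.L + 1) = 1

/-- **layer data** for the weighted sum `∑_j o_j W_j`: `K` blocks `(c j k, c j (k+1)]`, `k < K`, of the future of the fork node `j`;
`mu k` = Hessian weight of the block `k`, `pi k` = squared projection cost of the block `k ≥ 1`, `A k` = `L^l` norm of the integrated squared block `k` (true and averaged back to the fork).
INSTANCE: `bud_rw_lay` (Bud/RawSus.lean, helper109). -/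
structure BudRwLay (M : CmPath n Ω) (K : ℕ) (o : ℕ → ℝ) (c : ℕ → ℕ → ℕ) (mu pi A : ℕ → ℝ) (Pi : ℝ) (l : ℕ) : Prop where
  o_nn : ∀ j, 0 ≤ o j
  c_mono : ∀ j ≤ M.L, Monotone (c j)
  c_zero : ∀ j ≤ M.L, c j 0 = j
  c_top : ∀ j ≤ M.L, c j K = M.L + 1
  mu_nn : ∀ k, 0 ≤ mu k
  mu_ge : ∀ j ≤ M.L, 0 < o j → ∀ k < K, c j k < c j (k + 1) → M.mass (c j (k + 1)) ≤ mu k
  pi_pos : ∀ k, 0 < pi k
  proj : ∀ j ≤ M.L, 0 < o j → ∀ k, 1 ≤ k → k < K → c j k < c j (k + 1) →
    ∃ j1, j ≤ j1 ∧ j1 < c j k ∧ 0 < M.mass (j1 + 1) ∧ M.hck j1 < M.hck (c j k) ∧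
      (Pi / (M.mass (j1 + 1) * Real.sqrt (n * (M.hck (c j k) - M.hck j1)))) ^ 2 ≤ pi k
  anc : ∀ k < K, cmN M.P l (fun ω => ∑ j ∈ Finset.range (M.L + 1), o j * ‖M.dX (c j k) (c j (k + 1)) ω‖ ^ 2) ≤ A k
  anc' : ∀ k < K, cmN M.P l (fun ω => ∑ j ∈ Finset.range (M.L + 1),
    o j * M.cE j (fun ω' => ‖M.dX (c j k) (c j (k + 1)) ω'‖ ^ 2) ω) ≤ A k

/-- the right side of the layer theorem -/
noncomputable def budRwLayR (K : ℕ) (mu pi A : ℕ → ℝ) (J θ : ℝ) (r : ℕ) : ℝ :=
  K * (mu 0 * (4 * A 0) + ∑ i ∈ Finset.range K, ∑ k ∈ Finset.range K,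
    if i = 0 ∧ k = 0 then 0 else mu k * (pi (max i k) * (A (min i k) / θ + 4 * J * θ ^ (r - 1))))

/-- radius thresholds of the layers of a fork at the radius `t`: `t`, `t + η`, `t + 2η`, `t + 4η`, ... -/
noncomputable def budRwThr (η t : ℝ) : ℕ → ℝ
  | 0 => t
  | k + 1 => t + 2 ^ k * η

/-- cut nodes (radius coordinate) of the fork node `j` -/
noncomputable def budRwCut (M : CmPath n Ω) (rad : ℕ → ℝ) (η t1 : ℝ) (j k : ℕ) : ℕ :=
  if k = 0 then j else (M.re rad).ct (budRwThr η (max (rad j) t1) k)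

/-- **local data of (C9)** on the radius band `[t1,t2]`: first layer `η`, `K` layers, comparability constants `cr ≤ Cr` of mass and radius beyond `t1`,
`D k` = field clock of the radius interval `(thr (k-1), thr k]`, raw scale `w`.
INSTANCE: `bud_rw_susH` (Bud/RawExit.lean, helper109). -/
structure BudRwSusH (M : CmPath n Ω) (rad : ℕ → ℝ) (K : ℕ) (η t1 t2 cr Cr w : ℝ) (D : ℕ → ℝ) : Prop where
  hη : 0 < η
  ht1 : 0 < t1
  h12 : t1 ≤ t2
  ht2 : t2 < 1
  hw : 0 < w
  hcr : 0 < cr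
  hCr : 1 ≤ Cr
  /-- the last threshold is beyond the terminal radius -/
  hK : 1 ≤ t1 + 2 ^ (K - 1) * η
  hK1 : 1 ≤ K
  lo : ∀ j ≤ M.L + 1, t1 ≤ rad j → cr * rad j ≤ M.mass j
  hi : ∀ j ≤ M.L + 1, t1 ≤ rad j → M.mass j ≤ Cr * rad j
  D_pos : ∀ k, 0 < D k
  clk : ∀ t, t1 ≤ t → t ≤ t2 → ∀ k, 1 ≤ k → budRwThr η t k < 1 →
    D k ≤ (M.re rad).H (budRwThr η t k) - (M.re rad).H (budRwThr η t (k - 1))

/-- upper bound of the radius at the end of the layer `k` -/
noncomputable def budRwZ (η t2 : ℝ) (k : ℕ) : ℝ := min 1 (t2 + 2 ^ k * η)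
/-- Hessian weight of the layer `k` -/
noncomputable def budRwMu (Cr η t2 : ℝ) (k : ℕ) : ℝ := Cr * budRwZ η t2 k
/-- squared projection cost of the layer `k ≥ 1` (clock interval `(thr (k-1), thr k]`, masses `≥ cr thr (k-1)`) -/
noncomputable def budRwPi (n : ℕ) (Pi cr η t1 : ℝ) (D : ℕ → ℝ) (k : ℕ) : ℝ := Pi ^ 2 / ((cr * budRwThr η t1 (k - 1)) ^ 2 * (n * D k))
/-- integrated squared layer `k` -/
noncomputable def budRwA (l : ℕ) (Q w Cr η t1 t2 : ℝ) (k : ℕ) : ℝ :=
  32 * l ^ 2 * min (2 ^ k * η) (t2 - t1) * Q ^ 2 * (w + Cr * budRwZ η t2 k)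

theorem bud_rw_defs_eqns_cite : True := by
  have := @CmPath.re.eq_1; have := @budRwLayR.eq_1; have := @budRwThr.eq_1; have := @budRwThr.eq_2; have := @budRwThr.eq_def
  have := @budRwCut.eq_1; have := @budRwZ.eq_1; have := @budRwMu.eq_1; have := @budRwPi.eq_1; have := @budRwA.eq_1
  trivial

end Claimed.Agent.R286
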