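import Claimed.Agent.R286.Bud.RawExit
import Claimed.Agent.R286.Bud.RawC9
import Claimed.Agent.R286.Bud.StarX
import Claimed.Agent.R286.Cmp.P5Tbl

/-!
# Row 286, LL sec. 7, node N5 = Lemma 7.4, SECOND FILE: the two remaining exits for Lemma 7.6      (owner helper7; prefix `bud_rx_`, types `BudRx*`)
TEX[LL:bud:outer-moments] = LL `07-budgets.tex` l.217-344 (l.243-245: resampled residual; (C9)); consumer TEX[LL:bud:common-star] (helper190, `bud_star_n5`, `bcs_x_cav`).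

NO OWN SORRY.   Rests on the leaves of `Bud/RawExit.lean` (28, 32, 209) and of 109's `Bud/RawSus.lean`.

 §A `BcsRes` (resampled residual with a SHORT first projection interval):
    `bud_rx_res_abs`   abstract path: fork at the node `s` (mass `≍ v`), projection at a later node `t'`; the FIELD length `hck t' - hck s` enters directly (variant of `cm5_resid_pf`, no `Cm5Clk.sh`);
    `bud_rx_three`     three labels on one chain = residual of the abstract path (`cm5_sk_three`);      `bud_rx_rs_le`  world number `bcsRs` from the fine chains;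
    `bud_rx_res_ps`    frame level on fine chains containing the two cuts: `hck jv - hck jf ≥ sg(8Cv) (r(vc) - r(v))`;
    `bud_rx_bcsres : BcsRes`.
 §B `BcsC9` = `bud_rx_bcsc9` of helper190 (`Bud/RawC9.lean`, landed first; my duplicate is deleted).
 §C CLOSED FORMS: `bud_rx_star` (Lemma 7.6 over the Hub, no hypothesis of N5 left), `bud_rx_cav` (= `bcs_x_cav` without `h8 h9 hres`).
-/

set_option autoImplicit false

namespace Claimed.Agent.R286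

open MeasureTheory Set Filter Topology

noncomputable section

/-! ## A. The resampled residual -/

set_option maxHeartbeats 1000000 in
open CmPath in
/-- **residual after a short FIELD clock** -/
theorem bud_rx_res_abs (p : ℕ) (hp : Even p) (hp2 : 2 ≤ p) (Γ : ℝ) : ∃ C : ℝ, 0 < C ∧
    ∀ (n : ℕ) (Ω : Type) [MeasurableSpace Ω] (M : CmPath n Ω) (x0 um ηm : ℝ) (th sg : ℝ → ℝ) (Pi Q x : ℝ) (K : ℕ),
      M.Ok → Cm5Clk M x0 um Γ ηm th sg → M.Proj p Pi → 1 ≤ Pi → 1 ≤ Q → 0 < x → x ≤ x0 → M.Raw p Q x → 1 ≤ Γ ^ K * x0 →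
      ∀ (v R : ℝ) (s t' i' : ℕ), x0 ≤ v → Γ * (4 * v) ≤ 1 → 0 < R →
        s ≤ M.L → v ≤ M.mass (s + 1) → M.mass s ≤ 2 * v → s < t' → t' ≤ M.L → M.mass t' ≤ Γ * (4 * v) →
        R ^ 2 ≤ n * v * (M.hck t' - M.hck s) → R ^ 2 ≤ n * (4 * v) * th (4 * v) → s ≤ i' → i' ≤ M.L + 1 →
        cmN (M.P2 s) p (fun z : Ω × Ω => inner ℝ (M.X (M.L + 1) z.1 - M.X t' z.1) (M.X i' z.2))
          ≤ C * (K + 2) ^ 2 * (Q * Pi / R) := by
  obtain ⟨Ct, hCt, htbl⟩ := cm5_tbl_pf p hp hp2 Γ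
  refine ⟨Ct + 4 * Real.sqrt (1 + 4 * Γ), by positivity, ?_⟩
  intro n Ω _ M x0 um ηm th sg Pi Q x K hM hClk hProj hPi hQ hx hxx0 hRaw hK v R s t' i' hv hΓ4 hR0 hsL hvs hms hst ht'L' hmt hden2 hden1
    hsi' hi'
  have hp1 : 1 ≤ p := by omega
  have hΓ : 2 ≤ Γ := hClk.hΓ
  have hx0 : 0 < x0 := hClk.hx0
  have hv0 : 0 < v := hx0.trans_le hv
  have hPi0 : 0 ≤ Pi := by linarith
  have hQ0 : 0 ≤ Q := by linarith
  have := P2_prob hM s
  have := hM.prob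
  set cΓ := Real.sqrt (1 + 4 * Γ) with hcΓ
  have hcΓ0 : 0 ≤ cΓ := Real.sqrt_nonneg _
  have h4v1 : 4 * v < 1 := by nlinarith
  set is := M.nd (Γ * (4 * v)) with his
  have ht'L : t' ≤ M.L + 1 := ht'L'.trans (Nat.le_succ _)
  have hisL : is ≤ M.L + 1 := (nd_le M _).trans (Nat.le_succ _)
  have ht'is : t' ≤ is := le_nd hM ht'L' hmt
  have hmis : M.mass is ≤ Γ * (4 * v) := mass_nd_le hM (by positivity)
  have hth4pos : 0 < th (4 * v) := hClk.th_pos _ (by linarith)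
  have hθ : 0 < M.hck t' - M.hck s := by
    by_contra hcon
    have h1 : (n : ℝ) * v * (M.hck t' - M.hck s) ≤ 0 := mul_nonpos_of_nonneg_of_nonpos (by positivity) (not_lt.1 hcon)
    nlinarith [pow_pos hR0 2]
  have hsq : ∀ c : ℕ, c ≤ M.L + 1 → M.mass c ≤ Γ * (4 * v) → cmN M.P p (M.X c) ≤ cΓ * Q * Real.sqrt v := by
    intro c hc hm
    have h1 := t_raw hQ0 hRaw hc hm
    have h2 : Real.sqrt (x + Γ * (4 * v)) ≤ cΓ * Real.sqrt v := by
      rw [hcΓ, ← Real.sqrt_mul (by positivity)]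
      apply Real.sqrt_le_sqrt
      nlinarith
    calc _ ≤ Q * Real.sqrt (x + Γ * (4 * v)) := h1
      _ ≤ Q * (cΓ * Real.sqrt v) := mul_le_mul_of_nonneg_left h2 hQ0
      _ = _ := by ring
  set D := Q * Pi / R with hD
  have hD0 : 0 ≤ D := by positivity
  -- (α)
  have hα : cmN (M.P2 s) p (fun z : Ω × Ω => inner ℝ (M.X (M.L + 1) z.1 - M.X is z.1) (M.X i' z.2))
      ≤ Ct * (K + 2) ^ 2 * D := by
    have h := htbl n Ω M x0 um ηm th sg Pi Q x K hM hClk hProj hPi hQ hx hxx0 hRaw hK s is (M.L + 1) i' (4 * v) hsL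
      (by linarith) (by linarith) hΓ4 le_rfl hisL le_rfl hsi' hi'
    refine h.trans ?_
    have e : Ct * (K + 2) ^ 2 * Q * Pi / Real.sqrt (n * (4 * v) * th (4 * v))
        = Ct * (K + 2) ^ 2 * (Q * Pi / Real.sqrt (n * (4 * v) * th (4 * v))) := by ring
    rw [e]
    exact mul_le_mul_of_nonneg_left (cm5t_num3 (by positivity) hR0 hden1) (by positivity)
  -- (β1)
  have hβ1 : cmN (M.P2 s) p (fun z : Ω × Ω => inner ℝ (M.X is z.1 - M.X t' z.1) (M.X (min i' is) z.2)) ≤ 2 * cΓ * D := by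
    have h := proj_fst hM hp hp1 hProj hPi0 (le_refl s) hst le_rfl ht'L ht'is hisL hv0 hvs hθ le_rfl
      (hM.meas (min i' is)) (hM.norm_le _)
    have hγ := hsq (min i' is) ((min_le_right _ _).trans hisL) ((hM.mass_mono (min_le_right _ _)).trans hmis)
    refine h.trans ((cm5t_num n hPi0 hQ0 hcΓ0 hv0 le_rfl hθ le_rfl hγ).trans ?_)
    exact mul_le_mul_of_nonneg_left (cm5t_num3 (A := Q * Pi) (by positivity) hR0 hden2) (by positivity)
  -- (β2)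
  have hβ2 : cmN (M.P2 s) p (fun z : Ω × Ω => inner ℝ (M.X is z.1 - M.X t' z.1) (M.X i' z.2 - M.X (min i' is) z.2))
      ≤ 2 * cΓ * D := by
    by_cases hc : i' ≤ is
    · rw [min_eq_left hc]
      simp only [sub_self, inner_zero_right]
      rw [t_cmN_zero]; positivity
    · have hc' : is ≤ i' := (not_le.1 hc).le
      rw [min_eq_right hc']
      have hdy := hClk.dy (4 * v) (by linarith) hΓ4
      have hdy' : th (4 * v) ≤ M.hck is - M.hck (M.nd (4 * v)) := hdy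
      have h12 : M.nd (4 * v) < is := by
        by_contra hcon
        have := hM.hck_mono (not_lt.1 hcon)
        linarith
      have hτ : 4 * v ≤ M.mass (M.nd (4 * v) + 1) := (lt_mass_nd_succ hM h4v1).le
      have h := proj_snd hM hp hp1 hProj hPi0 (le_nd hM hsL (by linarith)) h12 le_rfl hisL hc' hi' (by positivity) hτ hth4pos hdy'
        (t_Xsub_meas hM is t') (t_Xsub_le hM _ _)
      have hγ : cmN M.P p (fun ω => M.X is ω - M.X t' ω) ≤ cΓ * Q * Real.sqrt (4 * v) := by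
        have h1 := cmN_sub_le (t_bmX hM is) (t_bmX hM t') p hp1
        have h2 := hsq is hisL hmis
        have h3 := hsq t' ht'L hmt
        have h4 : Real.sqrt (4 * v) = 2 * Real.sqrt v := by
          rw [Real.sqrt_mul (by norm_num), show (4 : ℝ) = 2 ^ 2 by norm_num, Real.sqrt_sq (by norm_num)]
        rw [h4]
        calc _ ≤ cmN M.P p (M.X is) + cmN M.P p (M.X t') := h1
          _ ≤ _ := by linarith
      refine h.trans ((cm5t_num n hPi0 hQ0 hcΓ0 (by positivity) le_rfl hth4pos le_rfl hγ).trans ?_)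
      exact mul_le_mul_of_nonneg_left (cm5t_num3 (by positivity) hR0 hden1) (by positivity)
  -- assembly
  have bα : CmBM (M.P2 s) (fun z : Ω × Ω => inner ℝ (M.X (M.L + 1) z.1 - M.X is z.1) (M.X i' z.2)) :=
    t_bm2 (g1 := fun ω => M.X (M.L + 1) ω - M.X is ω) (g2 := M.X i') s (t_Xsub_meas hM _ _) (hM.meas _)
      (t_Xsub_le hM _ _) (hM.norm_le _)
  have bβ1 : CmBM (M.P2 s) (fun z : Ω × Ω => inner ℝ (M.X is z.1 - M.X t' z.1) (M.X (min i' is) z.2)) :=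
    t_bm2 (g1 := fun ω => M.X is ω - M.X t' ω) (g2 := M.X (min i' is)) s (t_Xsub_meas hM _ _) (hM.meas _)
      (t_Xsub_le hM _ _) (hM.norm_le _)
  have bβ2 : CmBM (M.P2 s) (fun z : Ω × Ω => inner ℝ (M.X is z.1 - M.X t' z.1) (M.X i' z.2 - M.X (min i' is) z.2)) :=
    t_bm2 (g1 := fun ω => M.X is ω - M.X t' ω) (g2 := fun ω => M.X i' ω - M.X (min i' is) ω) s (t_Xsub_meas hM _ _)
      (t_Xsub_meas hM _ _) (t_Xsub_le hM _ _) (t_Xsub_le hM _ _)
  have bαβ : CmBM (M.P2 s) (fun z : Ω × Ω => inner ℝ (M.X (M.L + 1) z.1 - M.X is z.1) (M.X i' z.2)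
      + inner ℝ (M.X is z.1 - M.X t' z.1) (M.X (min i' is) z.2)) := by
    obtain ⟨m1, C1, c1⟩ := bα
    obtain ⟨m2, C2, c2⟩ := bβ1
    exact ⟨m1.add m2, C1 + C2, fun z => (norm_add_le _ _).trans (add_le_add (c1 z) (c2 z))⟩
  have e : (fun z : Ω × Ω => inner ℝ (M.X (M.L + 1) z.1 - M.X t' z.1) (M.X i' z.2))
      = fun z : Ω × Ω => (inner ℝ (M.X (M.L + 1) z.1 - M.X is z.1) (M.X i' z.2)
        + inner ℝ (M.X is z.1 - M.X t' z.1) (M.X (min i' is) z.2))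
        + inner ℝ (M.X is z.1 - M.X t' z.1) (M.X i' z.2 - M.X (min i' is) z.2) := by
    funext z
    simp only [inner_sub_left, inner_sub_right]
    ring
  rw [e]
  have h1 := cmN_add_le bαβ bβ2 p hp1
  have h2 := cmN_add_le bα bβ1 p hp1
  have hK2 : (1 : ℝ) ≤ (K + 2) ^ 2 := by
    have : (0 : ℝ) ≤ K := Nat.cast_nonneg K
    exact one_le_pow₀ (by linarith)
  have h3 : 4 * cΓ * D ≤ 4 * cΓ * D * (K + 2) ^ 2 := le_mul_of_one_le_right (by positivity) hK2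
  have e3 : (Ct + 4 * cΓ) * (K + 2) ^ 2 * D = Ct * (K + 2) ^ 2 * D + 4 * cΓ * D * (K + 2) ^ 2 := by ring
  rw [e3]
  linarith

/-- the one-sided residual of a path: fork at the node `jf`, projection of the first leaf at the node `jv` -/
def budRxRes {n : ℕ} {Ω : Type} [MeasurableSpace Ω] (M : CmPath n Ω) (p jf jv : ℕ) : ℝ :=
  cmN (M.P2 jf) p fun z : Ω × Ω => inner ℝ (M.X (M.L + 1) z.1 - M.X jv z.1) (M.X (M.L + 1) z.2)

/-- three labels on one chain (`cm5_sk_three`) -/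
theorem bud_rx_three {n : ℕ} {b h : ℝ → ℝ} (hn : 0 < n) (H : CkAdm 1 b h) (F : Finset GhPos) {v0 vc : ℝ} (hv : v0 ≤ vc) {l : ℕ} (hl : 1 ≤ l) :
    ckNuF n 1 b h 3 (bmTree fun a e => if a = 2 ∨ e = 2 then v0 else vc) (bmTest n 3 fun O => (O 0 2 - O 1 2) ^ (2 * l)) (ghPs 1 F)
      ≤ (2 * budRxRes (ckM n b h (ghPs 1 F)) (2 * l) (bcsIx F v0) (bcsIx F vc)) ^ (2 * l) := by
  have hlen : (ckStp 1 b h (ghPs 1 F)).length = (ghPs 1 F).length := (cm5_sk_L n _).symm.trans (ckm_L n b h _)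
  have hk : bcsIx F v0 ≤ bcsIx F vc := (bcs_w_ix F).1 hv
  have hkc : bcsIx F vc ≤ (ckStp 1 b h (ghPs 1 F)).length := by rw [hlen]; exact (bcs_w_ix F).2.1 vc
  have h1 := cm5_sk_three n hn (ckStp 1 b h (ghPs 1 F)) (cmk_chain_adm H F) (bcsIx F v0) (bcsIx F vc) hk hkc
    (ghDisc (ghPs 1 F) (bmTree fun a e => if a = 2 ∨ e = 2 then v0 else vc))
    (by simp [ghDisc, bmTree, bcsIx]) (by simp [ghDisc, bmTree, bcsIx]) (by simp [ghDisc, bmTree, bcsIx]) (by simp [ghDisc, bmTree, bcsIx])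
    (by simp [ghDisc, bmTree, bcsIx]) (by simp [ghDisc, bmTree, bcsIx]) l hl
  unfold ckNuF
  refine le_trans (le_of_eq ?_) h1
  congr 1

variable {X : BdFix} {W : BdWorld} {F : BdFr} {g : ℝ} {Q : BdQ F X} {w c C c0 : ℝ} {ps : List GhPos}

/-- `1 ≤ Γ^K (2w)` -/
theorem bud_rx_GamK (hcp : 0 < c) (hc1 : c ≤ 1) (hC : 1 ≤ C) {A : ℝ} (hN : BudRxNum F X C A) (hF : F.Ok X) (hw : F.wc X ≤ w) :
    1 ≤ budRxGam c C ^ budRxK F * (2 * w) := by
  have hG := bud_rx_Gam_ge hcp hc1 hC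
  have h1 := hN.K_big
  have h2 : (2 : ℝ) ^ (budRxK F - 1) ≤ budRxGam c C ^ budRxK F :=
    calc (2 : ℝ) ^ (budRxK F - 1) ≤ 2 ^ budRxK F := pow_le_pow_right₀ (by norm_num) (Nat.sub_le _ _)
      _ ≤ budRxGam c C ^ budRxK F := pow_le_pow_left₀ (by norm_num) (by linarith) _
  have h3 : budRxEta F ≤ 2 * w := by linarith [bud_rx_eta_le hN, (bud_rx_eta_pos hF).le]
  calc (1 : ℝ) ≤ 2 ^ (budRxK F - 1) * budRxEta F := h1
    _ ≤ budRxGam c C ^ budRxK F * (2 * w) := mul_le_mul h2 h3 (bud_rx_eta_pos hF).le (by positivity)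

/-- **the resampled residual, step level**: fork at the mass `v ≥ 2w`, cut `vc`, `θ = r(vc) - r(v) ≤ v`.      TEX[LL:bud:outer-moments] (l.243-245), PE Lemma 3.7 -/
theorem bud_rx_res_ps (hX : X.Ok) {c C : ℝ} (hcp : 0 < c) (hc1 : c ≤ 1) (hC : 1 ≤ C) {l : ℕ} (hl : 1 ≤ l) :
    ∃ (Ca : ℝ) (N0 : ℕ), 0 < Ca ∧ ∀ W : BdWorld, W.IsHub → ∀ (F : BdFr) (g : ℝ) (Q : BdQ F X) (w c0 : ℝ), BudRxH X W F g Q w c C c0 → N0 ≤ F.N →
      16 * budRxGam c C ^ 2 * w ≤ 1 → ∀ v vc : ℝ, 2 * w ≤ v → v < vc → vc < 1 → budRxGam c C * (4 * v) ≤ 1 → Q.r vc - Q.r v ≤ v →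
        BmEv 1 fun ps => budRxRes (Q.rxM g ps) (2 * l) (ghIdx ps ((ghPosA v : GhPos) : WithTop GhPos)) (ghIdx ps ((ghPosA vc : GhPos) : WithTop GhPos))
          ≤ Ca * ((budRxK F : ℝ) + 2) ^ 2 / Real.sqrt (F.m * v * (budRxSg F X (8 * C * v) * (Q.r vc - Q.r v))) := by
  have hG := bud_rx_Gam_ge hcp hc1 hC
  obtain ⟨Ct, hCt, HA⟩ := bud_rx_res_abs (2 * l) (even_two_mul l) (by omega) (budRxGam c C)
  obtain ⟨Pi, hPi, HP⟩ := ckm_proj l hl
  obtain ⟨N1, HR⟩ := bud_rx_raw hX hcp hC hl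
  obtain ⟨N2, hN2⟩ := bud_rx_num hX C 1 hC
  have hQ0 := bud_rx_Q0_ge c hC
  refine ⟨Ct * (budRxQ0 c C * Pi), max N1 N2, by positivity, fun W hW F g Q w c0 h hN hw v vc hwv hvc hvc1 hΓv hθv => ?_⟩
  have hw0 := bud_rx_w_pos hX h
  have hm := bud_rx_m_pos h.ok
  have hF := h.ok
  have hNum := hN2 F h.ok ((le_max_right _ _).trans hN)
  have hv0 : 0 < v := by linarith
  have hpv : (ghPosA v).Ok 1 := gh_os_posA_ok hv0.le (by linarith)
  have hpc : (ghPosA vc).Ok 1 := gh_os_posA_ok (by linarith) hvc1.le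
  have hcont := ckm_contains {ghPosA v, ghPosA vc} (fun p hp => by
    rcases Finset.mem_insert.1 hp with rfl | hp
    · exact hpv
    · rw [Finset.mem_singleton.1 hp]; exact hpc)
  -- radii
  have hθ0 : 0 < Q.r vc - Q.r v := sub_pos.2 (bud_rx_r_strict hX hF Q hv0.le hvc hvc1.le)
  have hrv := h.reg v hwv (by linarith)
  have hrc := h.reg vc (by linarith) hvc1.le
  have hrv0 : 0 < Q.r v := lt_of_lt_of_le (by positivity) hrv.1
  have hrc8 : Q.r vc ≤ 8 * C * v := by nlinarith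
  have hvcΓ : vc ≤ budRxGam c C * (4 * v) := by
    have h1 : c * vc ≤ 2 * C * v := by nlinarith
    have e : budRxGam c C * (4 * v) = 16 * C * v / c := by unfold budRxGam; ring
    rw [e, le_div_iff₀ hcp]
    nlinarith
  have hsg8 := bud_rx_sg_pos hX hF (t := 8 * C * v) (by positivity)
  have hm0 : (0 : ℝ) < F.m := by exact_mod_cast hm
  refine Filter.Eventually.mono (f := atTop) ((bud_rx_fine hX h).and ((HR W hW F g Q w c0 h ((le_max_left _ _).trans hN)).and hcont)) fun F' hF' => ?_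
  obtain ⟨hfine, hraw, hmem⟩ := hF'
  have hM : (Q.rxM g (ghPs 1 F')).Ok := ckm_ok hm (bud_rx_adm h) F'
  have hc := ckm_ch F'
  set jf := ghIdx (ghPs 1 F') ((ghPosA v : GhPos) : WithTop GhPos) with hjf
  set jv := ghIdx (ghPs 1 F') ((ghPosA vc : GhPos) : WithTop GhPos) with hjv
  have hu : ∀ t : ℝ, (ghPosA t).u = t := fun t => by simp [ghPosA, GhPos.u]
  have mf : (Q.rxM g (ghPs 1 F')).mass jf = v := by
    have := ckm_idx_mass F.m (Q.bE g) (Q.hE g) hc (hmem (ghPosA v) (by simp))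
    rw [hu] at this; exact this
  have mv : (Q.rxM g (ghPs 1 F')).mass jv = vc := by
    have := ckm_idx_mass F.m (Q.bE g) (Q.hE g) hc (hmem (ghPosA vc) (by simp))
    rw [hu] at this; exact this
  have hL : (Q.rxM g (ghPs 1 F')).L = (ghPs 1 F').length := ckm_L _ _ _ _
  have hjvL : jv ≤ (ghPs 1 F').length := brg_t_idx_coe_le _ _
  have hlt : jf < jv := by
    by_contra hcon
    have := hM.mass_mono (not_lt.1 hcon)
    rw [mf, mv] at this
    linarith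
  -- the field clock
  have hs1 := bud_rx_slope hX h hc hlt.le hjvL
  have e1 : Q.rxRad g (ghPs 1 F') jv = Q.r vc := by unfold BdQ.rxRad; rw [mv]
  have e2 : Q.rxRad g (ghPs 1 F') jf = Q.r v := by unfold BdQ.rxRad; rw [mf]
  rw [e1, e2] at hs1
  have hs2 := bud_rx_phi_slope hX hF hrv0.le (sub_pos.1 hθ0).le (hrv0.trans (sub_pos.1 hθ0))
  have hs3 := bud_rx_sg_anti hX hF (hrv0.trans (sub_pos.1 hθ0)) hrc8
  have hck : budRxSg F X (8 * C * v) * (Q.r vc - Q.r v) ≤ (Q.rxM g (ghPs 1 F')).hck jv - (Q.rxM g (ghPs 1 F')).hck jf :=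
    (mul_le_mul_of_nonneg_right hs3 hθ0.le).trans (hs2.trans hs1)
  set R2 := (F.m : ℝ) * v * (budRxSg F X (8 * C * v) * (Q.r vc - Q.r v)) with hR2
  have hR2p : 0 < R2 := by positivity
  have key := HA F.m (SkOm F.m) (Q.rxM g (ghPs 1 F')) (2 * w) (1 / (8 * budRxGam c C ^ 2)) 1 (budRxT5 F X C) (budRxS5 F X C) Pi (budRxQ0 c C) w
    (budRxK F) hM (bud_rx_clk5 hX hcp hc1 hC h hw hfine hM) (HP F.m _ _ F' hm (bud_rx_adm h)) hPi hQ0 hw0 (by linarith)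
    (ckm_raw_exp hM (by omega) (by omega) hraw) (bud_rx_GamK hcp hc1 hC hNum hF h.w_lo)
    v (Real.sqrt R2) jf jv ((Q.rxM g (ghPs 1 F')).L + 1) hwv hΓv (Real.sqrt_pos.2 hR2p) (by rw [hL]; omega)
    (by rw [← mf]; exact hM.mass_mono (Nat.le_succ _)) (by rw [mf]; linarith) hlt (by rw [hL]; exact hjvL) (by rw [mv]; exact hvcΓ)
    (by rw [Real.sq_sqrt hR2p.le, hR2]; exact mul_le_mul_of_nonneg_left hck (by positivity))
    (by
      rw [Real.sq_sqrt hR2p.le, hR2]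
      unfold budRxT5
      have e : 2 * C * (4 * v) = 8 * C * v := by ring
      rw [e]
      have h1 : budRxSg F X (8 * C * v) * (Q.r vc - Q.r v) ≤ budRxSg F X (8 * C * v) * v := mul_le_mul_of_nonneg_left hθv hsg8.le
      have h2 : budRxSg F X (8 * C * v) * v ≤ 4 * (C * (4 * v) * budRxSg F X (8 * C * v)) := by nlinarith [mul_pos hsg8 hv0]
      calc (F.m : ℝ) * v * (budRxSg F X (8 * C * v) * (Q.r vc - Q.r v)) ≤ F.m * v * (4 * (C * (4 * v) * budRxSg F X (8 * C * v))) :=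
            mul_le_mul_of_nonneg_left (h1.trans h2) (by positivity)
        _ = _ := by ring)
    (by rw [hL]; omega) le_rfl
  unfold budRxRes
  refine key.trans (le_of_eq ?_)
  ring

/-- the residual of the world from the residuals of the fine chains -/
theorem bud_rx_rs_le (hW : W.IsHub) {m : ℕ} (hm : 0 < m) {b h : ℝ → ℝ} (hb : IsClock 1 b) (hh : IsClock 1 h) {v0 vc : ℝ} (h0 : 0 < v0) (h1 : v0 ≤ vc)
    (h2 : vc < 1) {l : ℕ} (hl : 1 ≤ l) {B : ℝ}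
    (hB : BmEv 1 fun ps => budRxRes (ckM m (bmExt b) (bmExt h) ps) (2 * l) (ghIdx ps ((ghPosA v0 : GhPos) : WithTop GhPos))
      (ghIdx ps ((ghPosA vc : GhPos) : WithTop GhPos)) ≤ B) :
    bcsRs W m b h l v0 vc ≤ (2 * B) ^ (2 * l) := by
  unfold bcsRs
  rw [hW.nu m b h hb hh]
  refine ckm_nu_le hm (bcs_w_adm hb hh) (bcs_w_tree3_rt h0 h1 h2) _ ?_
  refine Filter.Eventually.mono (f := atTop) hB fun F' hF' => ?_
  refine (bud_rx_three hm (bcs_w_adm hb hh) F' h1 hl).trans ?_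
  refine pow_le_pow_left₀ (mul_nonneg (by norm_num) (cmN_nonneg _ _ _)) ?_ _
  exact mul_le_mul_of_nonneg_left hF' (by norm_num)

/-- `1/m ≤ 2 x⁶` -/
theorem bud_rx_inv_m (hF : F.Ok X) : 1 / (F.m : ℝ) ≤ 2 * F.x ^ 6 := by
  have hm0 : (0 : ℝ) < F.m := lt_of_lt_of_le one_pos (bud_gb_m_ge hF)
  have hN0 : (0:ℝ) < F.N := by have := hF.N2; positivity
  have hx6 : F.x ^ 6 = 1 / (F.N : ℝ) := by
    have : F.x ^ 6 = F.x ^ (6 : ℝ) := by rw [← Real.rpow_natCast]; norm_num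
    rw [this]
    unfold BdFr.x
    rw [← Real.rpow_mul hN0.le]
    norm_num
    rw [Real.rpow_neg_one]
  rw [hx6, div_le_iff₀ hm0]
  have := hF.m_lo
  have e : 2 * (1 / (F.N : ℝ)) * F.m = F.m / (F.N / 2) := by field_simp
  rw [e, le_div_iff₀ (by positivity)]
  linarith

/-- `(K+2)^q` is a subpower -/
theorem bud_rx_K_sub (hF : F.Ok X) (h1 : 1 ≤ -Real.log F.x) (q : ℕ) (hq : 1 ≤ q) {ε : ℝ} (hε : 0 < ε) :
    ((budRxK F : ℝ) + 2) ^ q ≤ 22 ^ q * ((q : ℝ) / ε) ^ q * F.x ^ (-ε) := by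
  obtain ⟨hx0, hx1, hlx, hNx⟩ := bcs_ha_x hF.N2
  have hK := bud_rx_num_K_le hF h1
  have hK0 : (0 : ℝ) ≤ budRxK F := Nat.cast_nonneg _
  have hexp : Real.exp (ε * (-Real.log F.x)) = F.x ^ (-ε) := by
    rw [Real.rpow_def_of_pos hx0]; congr 1; ring
  have h3 := bud_rx_pow_le_exp q hq (c := ε) hε (L := -Real.log F.x) (by linarith)
  rw [hexp] at h3
  calc ((budRxK F : ℝ) + 2) ^ q ≤ (22 * (-Real.log F.x)) ^ q := pow_le_pow_left₀ (by linarith) (by linarith) q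
    _ = 22 ^ q * (-Real.log F.x) ^ q := mul_pow _ _ _
    _ ≤ 22 ^ q * (((q : ℝ) / ε) ^ q * F.x ^ (-ε)) := mul_le_mul_of_nonneg_left h3 (by positivity)
    _ = _ := by ring

/-- the flat region of the removal slope -/
theorem bud_rx_sg_flat {t : ℝ} (ht : 0 < t) (h : t ≤ X.cd ^ 3 * F.u) : budRxSg F X t = F.C0 := by
  unfold budRxSg
  rw [min_eq_left ((one_le_div ht).2 h), mul_one]

/-- **ADAPTER: `BcsRes`** (helper190, Bud/StarLp) -/
theorem bud_rx_bcsres (hX : X.Ok) (hW : W.IsHub) {Fam : BdFr → Prop} {K : BcsK} (hK : K.Ok) : BcsRes W (BcsIn.Cls (X := X) · W Fam K) := by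
  refine ⟨2, by norm_num, fun Ka hKa l hl ε hε => ?_⟩
  have hG := bud_rx_Gam_ge hK.c0 hK.c1 hK.C1
  have hC1 := hK.C1
  obtain ⟨Ca, N1, hCa, H⟩ := bud_rx_res_ps hX hK.c0 hK.c1 hK.C1 hl
  obtain ⟨N2, hsc⟩ := bcs_num_scale X hX K.cs K.i0 (4 * budRxGam K.c K.C ^ 2 + 2 * budRxGam K.c K.C * Ka + 16 * K.C * Ka) hK.cs0 hK.i00 (by nlinarith)
  obtain ⟨N3, h3⟩ := bcs_ha_big 1 1 one_pos
  refine ⟨2 * (Ca * (22 ^ 2 * (((2 : ℕ) : ℝ) / ε) ^ 2)) * Real.sqrt 2, max N1 (max N2 N3), by positivity,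
    fun I hI hN v vc hv1 hv2 hvc hvc1 hθ1 hθ2 => ?_⟩
  have h := bud_rx_of_cls hI
  have hF := hI.ok
  have sc := hsc I.F hI.ok ((le_max_left _ _).trans ((le_max_right _ _).trans hN)) I.w hI.w_lo hI.strong
  have hL1 : 1 ≤ -Real.log I.F.x := by
    have := h3 I.F ((le_max_right _ _).trans ((le_max_right _ _).trans hN))
    linarith
  obtain ⟨Ws, hWs⟩ : ∃ Ws, Ws = I.F.Wsc X I.w := ⟨_, rfl⟩
  have eWs : I.Ws = Ws := by rw [hWs]; rfl
  rw [eWs] at hv1 hv2 hθ1 hθ2 ⊢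
  have hwW : I.w ≤ Ws := hWs ▸ sc.wW
  have hw0 := sc.w0
  have hWs0 : 0 < Ws := hw0.trans_le hwW
  have hW1 := sc.W1
  have hroom := sc.room
  rw [← hWs] at hW1 hroom
  have hMj : 0 < (4 * budRxGam K.c K.C ^ 2 + 2 * budRxGam K.c K.C * Ka + 16 * K.C * Ka) / I.F.Mj := div_pos (by positivity) sc.Mj0
  have hv0 : 0 < v := lt_of_lt_of_le (by positivity) hv1
  have hx0 := sc.x0
  have hθ0 : 0 < I.Q.r vc - I.Q.r v := lt_of_lt_of_le (by positivity) hθ1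
  have hm := bud_rx_m_pos hF
  have hm0 : (0 : ℝ) < I.F.m := by exact_mod_cast hm
  have a1 : 0 ≤ budRxGam K.c K.C ^ 2 * Ws := by positivity
  have a2 : 0 ≤ budRxGam K.c K.C * Ka * Ws := by positivity
  have a3 : 0 ≤ K.C * Ka * Ws := by positivity
  have hw16 : 16 * budRxGam K.c K.C ^ 2 * I.w ≤ 1 := by
    have : budRxGam K.c K.C ^ 2 * I.w ≤ budRxGam K.c K.C ^ 2 * Ws := mul_le_mul_of_nonneg_left hwW (by positivity)
    nlinarith
  have hΓv : budRxGam K.c K.C * (4 * v) ≤ 1 := by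
    have : budRxGam K.c K.C * v ≤ budRxGam K.c K.C * (2 * Ka * Ws) := mul_le_mul_of_nonneg_left hv2 (by positivity)
    nlinarith
  have hflat : 8 * K.C * v ≤ X.cd ^ 3 * I.F.u := by
    have h1 : K.C * v ≤ K.C * (2 * Ka * Ws) := mul_le_mul_of_nonneg_left hv2 (by positivity)
    have h2 := hroom.trans (min_le_left _ _)
    nlinarith
  have hWv : Ws ≤ v := by nlinarith
  have key := bud_rx_rs_le hW hm hI.clkb hI.clkh hv0 hvc.le hvc1 hl
    (H W hW I.F I.g I.Q I.w I.c0 h ((le_max_left _ _).trans hN) hw16 v vc (by nlinarith) hvc hvc1 hΓv (hθ2.trans hWv))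
  refine key.trans (pow_le_pow_left₀ (by positivity) ?_ _)
  rw [bud_rx_sg_flat (by positivity) hflat]
  have hC00 := sc.C00
  obtain ⟨θ, hθ⟩ : ∃ θ, θ = I.Q.r vc - I.Q.r v := ⟨_, rfl⟩
  rw [← hθ] at hθ0 ⊢
  have hK2 := bud_rx_K_sub hF hL1 2 (by norm_num) hε
  -- the square root
  have hD0 : 0 < Ws * I.F.C0 * θ := by positivity
  have hsq : Real.sqrt (Ws * I.F.C0 * θ) ≤ Real.sqrt 2 * I.F.x ^ 3 * Real.sqrt (I.F.m * v * (I.F.C0 * θ)) := by
    have e : Real.sqrt 2 * I.F.x ^ 3 * Real.sqrt (I.F.m * v * (I.F.C0 * θ)) = Real.sqrt (2 * I.F.x ^ 6 * (I.F.m * v * (I.F.C0 * θ))) := by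
      rw [Real.sqrt_mul (by positivity) (I.F.m * v * (I.F.C0 * θ)), Real.sqrt_mul (by norm_num) (I.F.x ^ 6), show I.F.x ^ 6 = (I.F.x ^ 3) ^ 2 by ring,
        Real.sqrt_sq (by positivity)]
    rw [e]
    apply Real.sqrt_le_sqrt
    have h1 := bud_rx_inv_m hF
    rw [div_le_iff₀ hm0] at h1
    have h2 : Ws * (I.F.C0 * θ) ≤ v * (I.F.C0 * θ) := mul_le_mul_of_nonneg_right hWv (by positivity)
    calc Ws * I.F.C0 * θ = 1 * (Ws * (I.F.C0 * θ)) := by ring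
      _ ≤ (2 * I.F.x ^ 6 * I.F.m) * (v * (I.F.C0 * θ)) := mul_le_mul h1 h2 (by positivity) (by positivity)
      _ = _ := by ring
  have hS1 : 0 < Real.sqrt (Ws * I.F.C0 * θ) := Real.sqrt_pos.2 hD0
  have hS2 : 0 < Real.sqrt (I.F.m * v * (I.F.C0 * θ)) := Real.sqrt_pos.2 (by positivity)
  have hxe := Real.rpow_pos_of_pos hx0 (-ε)
  have hinv : 1 / Real.sqrt (I.F.m * v * (I.F.C0 * θ)) ≤ Real.sqrt 2 * I.F.x ^ 3 / Real.sqrt (Ws * I.F.C0 * θ) := by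
    rw [div_le_div_iff₀ hS2 hS1]
    linarith
  calc 2 * (Ca * ((budRxK I.F : ℝ) + 2) ^ 2 / Real.sqrt (I.F.m * v * (I.F.C0 * θ)))
      = 2 * Ca * (((budRxK I.F : ℝ) + 2) ^ 2 * (1 / Real.sqrt (I.F.m * v * (I.F.C0 * θ)))) := by ring
    _ ≤ 2 * Ca * ((22 ^ 2 * (((2 : ℕ) : ℝ) / ε) ^ 2 * I.F.x ^ (-ε)) * (Real.sqrt 2 * I.F.x ^ 3 / Real.sqrt (Ws * I.F.C0 * θ))) :=
        mul_le_mul_of_nonneg_left (mul_le_mul hK2 hinv (by positivity) (by positivity)) (by positivity)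
    _ = _ := by ring

/-! ## C. Closed forms -/

theorem bud_rx2_eqns_cite : True := by
  have := @budRxRes.eq_1
  trivial

/-- **LEMMA 7.6 over the Hub**: no hypothesis of N5 left.      TEX[LL:bud:common-star] -/
theorem bud_rx_star (hX : X.Ok) (hW : W.IsHub) {Fam : BdFr → Prop} {K : BcsK} (hK : K.Ok) :
    BcsS1 W (BcsIn.Cls (X := X) · W Fam K) ∧ BcsS2 W (BcsIn.Cls (X := X) · W Fam K) ∧ BcsS3 W (BcsIn.Cls (X := X) · W Fam K) ∧
      BcsCut W (BcsIn.Cls (X := X) · W Fam K) K :=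
  bud_star_n5 hX hK hW (bud_rx_bcsraw hX hW hK) (bud_rx_bcsc9 hX hW hK) (bud_rx_bcsres hX hW hK)

/-- **EXPORT to Prop. 7.7** = `bcs_x_cav` (helper190) with the three exits of N5 supplied.      TEX[LL:bud:common-star] TEX[LL:bud:modified-closure] -/
theorem bud_rx_cav {Fam : BdFr → Prop} {cL CL cs i0 Kb : ℝ} (hX : X.Ok) (hW : W.IsHub) (hc : 0 < cL) (hc1 : cL ≤ 1) (hC : 1 ≤ CL) (hcs : 0 < cs) (hi0 : 0 < i0)
    (hb : BcsBase X W Fam) (hadm : Bd7Adm X W Fam Kb) (hilo : ∀ F, Fam F → i0 ≤ F.Ilo) :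
    ∃ cst K0 : ℝ, 0 < cst ∧ 1 ≤ K0 ∧ ∀ Kx Km : ℝ, K0 ≤ Kx → 1 ≤ Km → ∃ (Kup : ℝ) (Cp : ℕ → ℝ), (∀ k, 0 < Cp k) ∧
      ∀ KU et : ℝ, K0 ≤ KU → 0 < et → ∃ N0 : ℕ, ∀ i : Bd7I X, i.Str W Fam cL CL cs → N0 ≤ i.F.N →
        0 < i.w ∧ i.w ≤ i.F.Wsc X i.w ∧ Kx * i.w < 1 ∧ KU * i.F.Wsc X i.w < 1 ∧ 0 < i.F.x ∧ i.F.x < 1 ∧
        ∃ vst : ℝ, Km * i.F.Wsc X i.w ≤ vst ∧ vst ≤ Kup * i.F.Wsc X i.w ∧ vst < 1 ∧
          ∀ sv C : ℝ, i.F.x ^ cst ≤ sv →
            (i.cav C sv et (ghPosA (Kx * i.w)) (ghPosA vst) (ghPosA (KU * i.F.Wsc X i.w))).BcsF (cL * Km / 4) Cp :=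
  have hK : (⟨cL, CL, cs, i0⟩ : BcsK).Ok := ⟨hc, hc1, hC, hcs, hi0⟩
  bcs_x_cav hX hW hc hc1 hC hcs hi0 hb hadm hilo (bud_rx_bcsraw hX hW hK) (bud_rx_bcsc9 hX hW hK) (bud_rx_bcsres hX hW hK)

end

end Claimed.Agent.R286
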