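import Claimed.Agent.R286.Bud.RawDefs

/-!
# Row 286, LL sec. 7, node N5: THE LAYER THEOREM (abstract form of the proof of (C9), also of (G4))      (head helper109; prefix `bud_rw_`)
TEX[LL:bud:outer-moments] l.270-316, TEX[LL:global:residual-blocks] (application l.404-460 of 06-global.tex).

`∑_j o_j W_j` in `L^l`, for ANY system of blocks of the futures.   Paper: "fork an independent continuation at each radius, decompose both residuals into martingale increments, project the later block".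
REPAIR of the truncation paragraph (06-global l.421-450): no events, no Markov inequality.  With `z = ⟨D, Â⟩²`, `τ = π/θ`:   `z ≤ τ + z^r/τ^(r-1)`  (`bud_rw_trunc`), hence
   `⟨D,A⟩² ≤ τ |A|² + 4 ⟨D,Â⟩^(2r)/τ^(r-1)`,   and `‖E_b ⟨D,Â⟩^(2r)‖_l ≤ π^r` by (A3) of order `2rl` on the two-leaf law (swap symmetry).
Leaves: `re_ok` (proved), `bud_rw_pair_b`, `bud_rw_trunc`, `bud_rw_pair_a_pt`, `bud_rw_pair_a_rem`, `bud_rw_pair_00`, three summed forms, `bud_rw_layer`.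
-/

set_option autoImplicit false

namespace Claimed.Agent.R286

open MeasureTheory ProbabilityTheory
open scoped ENNReal NNReal

variable {n : ℕ} {Ω : Type} [MeasurableSpace Ω] {M : CmPath n Ω}

theorem CmPath.re_ok (hM : M.Ok) {rad : ℕ → ℝ} (hr : BudRwRad M rad) : (M.re rad).Ok :=
  ⟨hM.prob, hM.markov, hr.mono, hr.zero, hr.top, hM.hck_mono, hM.meas, hM.norm_le, hM.mean, hM.pre, hM.tower, hM.symm⟩

/-- the squared projection cost of the clock interval `(j1, j2]` -/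
noncomputable def budRwCost (M : CmPath n Ω) (Pi : ℝ) (j1 j2 : ℕ) : ℝ :=
  (Pi / (M.mass (j1 + 1) * Real.sqrt (n * (M.hck j2 - M.hck j1)))) ^ 2

theorem bud_rw_lay_eqns_cite : True := by
  have := @budRwCost.eq_1
  trivial

/-- project the branch `b`, fixed anchor: (A3) of order 2, pointwise -/
theorem bud_rw_pair_b (hM : M.Ok) {Pi : ℝ} (hP : M.Proj 2 Pi) {j j1 j2 i : ℕ} (hj : j ≤ j1) (h12 : j1 < j2) (h2 : j2 ≤ i)
    (hi : i ≤ M.L + 1) (hm : 0 < M.mass (j1 + 1)) (hh : M.hck j1 < M.hck j2) (ω : Ω) (V : EuclideanSpace ℝ (Fin n)) :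
    ∫ ω', inner ℝ V (M.dX j2 i ω') ^ 2 ∂(M.κ j ω) ≤ budRwCost M Pi j1 j2 * ‖V‖ ^ 2 := by
  have h := hP j j1 j2 i hj h12 h2 hi hm hh ω V
  unfold budRwCost
  simp only [CmPath.dX]
  refine h.trans (le_of_eq ?_)
  rw [mul_div_right_comm, mul_pow]

/-- the scalar inequality which replaces the truncation -/
theorem bud_rw_trunc {z τ : ℝ} (hz : 0 ≤ z) (hτ : 0 < τ) (r : ℕ) (hr : 1 ≤ r) : z ≤ τ + z ^ r / τ ^ (r - 1) := by
  have hpos : 0 < τ ^ (r - 1) := pow_pos hτ _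
  rcases le_total z τ with h | h
  · have : 0 ≤ z ^ r / τ ^ (r - 1) := div_nonneg (pow_nonneg hz _) hpos.le
    linarith
  · have h1 : z ≤ z ^ r / τ ^ (r - 1) := by
      rw [le_div_iff₀ hpos]
      calc z * τ ^ (r - 1) ≤ z * z ^ (r - 1) := mul_le_mul_of_nonneg_left (pow_le_pow_left₀ hτ.le h _) hz
        _ = z ^ r := by rw [← pow_succ', Nat.sub_add_cancel hr]
    linarith

/-- normalised anchor -/
theorem bud_rw_pair_a_pt (D A : EuclideanSpace ℝ (Fin n)) (hA : ‖A‖ ≤ 2) {τ : ℝ} (hτ : 0 < τ) (r : ℕ) (hr : 1 ≤ r) :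
    inner ℝ D A ^ 2 ≤ τ * ‖A‖ ^ 2 + 4 * inner ℝ D (‖A‖⁻¹ • A) ^ (2 * r) / τ ^ (r - 1) := by
  set z : ℝ := inner ℝ D (‖A‖⁻¹ • A) ^ 2 with hz
  have hz0 : 0 ≤ z := sq_nonneg _
  have hpos : 0 < τ ^ (r - 1) := pow_pos hτ _
  have h1 : inner ℝ D A ^ 2 = ‖A‖ ^ 2 * z := by
    rcases eq_or_ne A 0 with h0 | h0
    · simp [h0]
    · have hn : ‖A‖ ≠ 0 := norm_ne_zero_iff.2 h0
      rw [hz, inner_smul_right, mul_pow]
      field_simp
  have h2 := bud_rw_trunc hz0 hτ r hr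
  have h3 : inner ℝ D (‖A‖⁻¹ • A) ^ (2 * r) = z ^ r := by rw [hz, ← pow_mul]
  have h4 : ‖A‖ ^ 2 ≤ 4 := by nlinarith [norm_nonneg A]
  have h5 : 0 ≤ z ^ r / τ ^ (r - 1) := div_nonneg (pow_nonneg hz0 _) hpos.le
  rw [h1, h3, mul_div_assoc]
  calc ‖A‖ ^ 2 * z ≤ ‖A‖ ^ 2 * (τ + z ^ r / τ ^ (r - 1)) := mul_le_mul_of_nonneg_left h2 (sq_nonneg _)
    _ = τ * ‖A‖ ^ 2 + ‖A‖ ^ 2 * (z ^ r / τ ^ (r - 1)) := by ring
    _ ≤ τ * ‖A‖ ^ 2 + 4 * (z ^ r / τ ^ (r - 1)) := by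
        have := mul_le_mul_of_nonneg_right h4 h5
        linarith

/-- project the branch `a` against an anchor of norm `≤ 1` on the branch `b`: (A3) of order `2 r l`, swap symmetry of the two-leaf law, Jensen
(`cmN_int_snd_le`, `cmN_P2_swap`, `cmN_P2_le`) -/
theorem bud_rw_pair_a_rem (hM : M.Ok) {l r : ℕ} (hl : 1 ≤ l) (hr : 1 ≤ r) {Pi : ℝ} (hPi : 0 ≤ Pi) (hP : M.Proj (2 * r * l) Pi) {j j1 j2 i : ℕ}
    (hj : j ≤ j1) (h12 : j1 < j2) (h2 : j2 ≤ i) (hi : i ≤ M.L + 1) (hm : 0 < M.mass (j1 + 1)) (hh : M.hck j1 < M.hck j2)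
    {A : Ω → EuclideanSpace ℝ (Fin n)} (hA : Measurable A) (hA1 : ∀ ω, ‖A ω‖ ≤ 1) :
    cmN M.P l (fun ω => ∫ ω', inner ℝ (M.dX j2 i ω) (A ω') ^ (2 * r) ∂(M.κ j ω)) ≤ budRwCost M Pi j1 j2 ^ r := by
  have := hM.prob
  have := hM.markov j
  set q : ℝ := Pi / (M.mass (j1 + 1) * Real.sqrt (n * (M.hck j2 - M.hck j1))) with hq
  have hq0 : 0 ≤ q := div_nonneg hPi (mul_nonneg hm.le (Real.sqrt_nonneg _))
  have hcost : budRwCost M Pi j1 j2 = q ^ 2 := rfl
  have hdm : Measurable (M.dX j2 i) := CmPath.dX_meas hM j2 i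
  set G : Ω × Ω → ℝ := fun z => inner ℝ (M.dX j2 i z.2) (A z.1) ^ (2 * r) with hG
  have hGm : Measurable G := ((hdm.comp measurable_snd).inner (hA.comp measurable_fst)).pow_const _
  have hin : ∀ ω ω', |inner ℝ (M.dX j2 i ω') (A ω)| ≤ 2 := fun ω ω' => by
    refine (abs_real_inner_le_norm _ _).trans ?_
    have h1 := CmPath.dX_norm_le hM j2 i ω'
    have h2 := hA1 ω
    nlinarith [norm_nonneg (M.dX j2 i ω'), norm_nonneg (A ω)]
  have hGb : ∀ z, |G z| ≤ max (2 ^ (2 * r)) 1 := fun z => by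
    simp only [hG, abs_pow]
    exact (pow_le_pow_left₀ (abs_nonneg _) (hin z.1 z.2) _).trans (le_max_left _ _)
  have h1 : cmN M.P l (fun ω => ∫ ω', inner ℝ (M.dX j2 i ω) (A ω') ^ (2 * r) ∂(M.κ j ω))
      ≤ cmN (M.P2 j) l (fun z => G z.swap) :=
    CmPath.cmN_int_snd_le hM j (F := fun z => G z.swap) (hGm.comp measurable_swap) (fun z => hGb z.swap) l hl
  rw [CmPath.cmN_P2_swap hM j hGm l] at h1
  have h2 : cmN (M.P2 j) l G ≤ (q ^ 2) ^ r * cmN M.P l (fun _ : Ω => (1 : ℝ)) := by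
    refine CmPath.cmN_P2_le hM j hGm hGb measurable_const (fun _ => by simp) (fun _ => zero_le_one) l hl _
      (by positivity) (fun ω => ?_)
    have h3 := hP j j1 j2 i hj h12 h2 hi hm hh ω (A ω)
    have e : ∀ ω', |G (ω, ω')| ^ l = inner ℝ (A ω) (M.X i ω' - M.X j2 ω') ^ (2 * r * l) := fun ω' => by
      simp only [hG, CmPath.dX]
      rw [abs_of_nonneg (by rw [pow_mul]; positivity), ← pow_mul, real_inner_comm]
    simp only [e]
    refine h3.trans ?_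
    rw [mul_one, ← pow_mul, ← pow_mul, mul_div_right_comm, ← hq, ← mul_assoc]
    refine pow_le_pow_left₀ (mul_nonneg hq0 (norm_nonneg (A ω))) ?_ _
    calc q * ‖A ω‖ ≤ q * 1 := mul_le_mul_of_nonneg_left (hA1 ω) hq0
      _ = q := mul_one _
  rw [cmN_const 1 l hl, abs_one, mul_one] at h2
  rw [hcost]
  exact h1.trans h2

/-- two first blocks: Cauchy-Schwarz and `|ΔX| ≤ 2` -/
theorem bud_rw_pair_00 (hM : M.Ok) (j i1 i2 i3 i4 : ℕ) (ω : Ω) :
    ∫ ω', inner ℝ (M.dX i1 i2 ω) (M.dX i3 i4 ω') ^ 2 ∂(M.κ j ω) ≤ 4 * ‖M.dX i1 i2 ω‖ ^ 2 := by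
  have := hM.markov j
  have hb : ∀ ω', inner ℝ (M.dX i1 i2 ω) (M.dX i3 i4 ω') ^ 2 ≤ 4 * ‖M.dX i1 i2 ω‖ ^ 2 := fun ω' => by
    have h1 := abs_real_inner_le_norm (M.dX i1 i2 ω) (M.dX i3 i4 ω')
    have h2 := CmPath.dX_norm_le hM i3 i4 ω'
    have h3 : |inner ℝ (M.dX i1 i2 ω) (M.dX i3 i4 ω')| ≤ ‖M.dX i1 i2 ω‖ * 2 :=
      h1.trans (mul_le_mul_of_nonneg_left h2 (norm_nonneg _))
    calc inner ℝ (M.dX i1 i2 ω) (M.dX i3 i4 ω') ^ 2 = |inner ℝ (M.dX i1 i2 ω) (M.dX i3 i4 ω')| ^ 2 := (sq_abs _).symm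
      _ ≤ (‖M.dX i1 i2 ω‖ * 2) ^ 2 := pow_le_pow_left₀ (abs_nonneg _) h3 2
      _ = 4 * ‖M.dX i1 i2 ω‖ ^ 2 := by ring
  have h := integral_mono_of_nonneg (μ := M.κ j ω) (Filter.Eventually.of_forall fun ω' => sq_nonneg _)
    (integrable_const (4 * ‖M.dX i1 i2 ω‖ ^ 2)) (Filter.Eventually.of_forall hb)
  simpa using h

/-! ### bounded measurable real functions -/

/-- measurable and bounded -/
def BudRwMB (f : Ω → ℝ) : Prop := Measurable f ∧ ∃ C : ℝ, ∀ ω, |f ω| ≤ C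

theorem BudRwMB.bm {f : Ω → ℝ} (h : BudRwMB f) (μ : Measure Ω) : CmBM μ f :=
  ⟨h.1.aestronglyMeasurable, h.2.choose, fun a => by simpa using h.2.choose_spec a⟩

theorem BudRwMB.const_mul {f : Ω → ℝ} (h : BudRwMB f) (c : ℝ) : BudRwMB (fun ω => c * f ω) := by
  obtain ⟨hm, C, hC⟩ := h
  refine ⟨hm.const_mul c, |c| * C, fun ω => ?_⟩
  rw [abs_mul]
  exact mul_le_mul_of_nonneg_left (hC ω) (abs_nonneg c)

theorem BudRwMB.add {f g : Ω → ℝ} (hf : BudRwMB f) (hg : BudRwMB g) : BudRwMB (fun ω => f ω + g ω) := by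
  obtain ⟨hm, C, hC⟩ := hf
  obtain ⟨hm', C', hC'⟩ := hg
  exact ⟨hm.add hm', C + C', fun ω => (abs_add_le _ _).trans (add_le_add (hC ω) (hC' ω))⟩

theorem BudRwMB.sum {ι : Type} (s : Finset ι) {f : ι → Ω → ℝ} (h : ∀ i ∈ s, BudRwMB (f i)) :
    BudRwMB (fun ω => ∑ i ∈ s, f i ω) := by
  classical
  induction s using Finset.induction_on with
  | empty => exact ⟨by simp, 0, fun ω => by simp⟩
  | insert a s ha ih =>
    simp only [Finset.sum_insert ha]
    exact (h a (Finset.mem_insert_self a s)).add (ih fun i hi => h i (Finset.mem_insert_of_mem hi))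

theorem bud_rw_mb_eqns_cite : True := by
  have := @BudRwMB.eq_1
  trivial

/-- monotonicity of `cmN` on nonnegative functions -/
theorem bud_rw_cmN_le {μ : Measure Ω} [IsFiniteMeasure μ] {f g : Ω → ℝ} (hg : BudRwMB g) (hf0 : ∀ ω, 0 ≤ f ω) (h : ∀ ω, f ω ≤ g ω) (p : ℕ) :
    cmN μ p f ≤ cmN μ p g :=
  cmN_mono (hg.bm μ) p (Filter.Eventually.of_forall fun ω => by
    rw [Real.norm_of_nonneg (hf0 ω), Real.norm_of_nonneg ((hf0 ω).trans (h ω))]; exact h ω)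

theorem bud_rw_dXsq_mb (hM : M.Ok) (i i' : ℕ) : BudRwMB (fun ω => ‖M.dX i i' ω‖ ^ 2) :=
  ⟨(CmPath.dX_meas hM i i').norm.pow_const 2, 4, fun ω => by
    rw [abs_of_nonneg (by positivity)]
    have := CmPath.dX_norm_le hM i i' ω
    nlinarith [norm_nonneg (M.dX i i' ω)]⟩

theorem bud_rw_cE_mb (hM : M.Ok) (j : ℕ) {f : Ω → ℝ} (hf : BudRwMB f) : BudRwMB (M.cE j f) :=
  ⟨CmPath.cE_meas hM j hf.1, hf.2.choose, fun ω => CmPath.cE_bound hM j hf.2.choose_spec ω⟩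

theorem bud_rw_dX_self (M : CmPath n Ω) (i : ℕ) (ω : Ω) : M.dX i i ω = 0 := by simp [CmPath.dX]

section summed

variable {K : ℕ} {o : ℕ → ℝ} {c : ℕ → ℕ → ℕ} {mu pi A : ℕ → ℝ} {Pi : ℝ} {l : ℕ}

/-- the pair `(i,k)` of blocks at the fork node `j` -/
noncomputable def budRwT (M : CmPath n Ω) (c : ℕ → ℕ → ℕ) (i k j : ℕ) (ω : Ω) : ℝ :=
  ∫ ω', inner ℝ (M.dX (c j i) (c j (i + 1)) ω) (M.dX (c j k) (c j (k + 1)) ω') ^ 2 ∂(M.κ j ω)

theorem bud_rw_T_eqns_cite : True := by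
  have := @budRwT.eq_1
  trivial

theorem bud_rw_T_meas (hM : M.Ok) (c : ℕ → ℕ → ℕ) (i k j : ℕ) : Measurable (budRwT M c i k j) := by
  have := hM.markov j
  have hF : Measurable (fun z : Ω × Ω => inner ℝ (M.dX (c j i) (c j (i + 1)) z.1) (M.dX (c j k) (c j (k + 1)) z.2) ^ 2) :=
    (((CmPath.dX_meas hM _ _).comp measurable_fst).inner ((CmPath.dX_meas hM _ _).comp measurable_snd)).pow_const 2
  exact (hF.stronglyMeasurable.integral_kernel_prod_right' (κ := M.κ j)).measurable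

theorem bud_rw_T_bound (hM : M.Ok) (c : ℕ → ℕ → ℕ) (i k j : ℕ) (ω : Ω) : 0 ≤ budRwT M c i k j ω ∧ budRwT M c i k j ω ≤ 16 := by
  refine ⟨integral_nonneg fun ω' => sq_nonneg _, (bud_rw_pair_00 hM j _ _ _ _ ω).trans ?_⟩
  have := CmPath.dX_norm_le hM (c j i) (c j (i + 1)) ω
  nlinarith [norm_nonneg (M.dX (c j i) (c j (i + 1)) ω)]

theorem bud_rw_T_mb (hM : M.Ok) (c : ℕ → ℕ → ℕ) (i k j : ℕ) : BudRwMB (budRwT M c i k j) :=
  ⟨bud_rw_T_meas hM c i k j, 16, fun ω => by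
    rw [abs_of_nonneg (bud_rw_T_bound hM c i k j ω).1]; exact (bud_rw_T_bound hM c i k j ω).2⟩

/-- an empty block on the branch `b` -/
theorem bud_rw_T_empty_b (c : ℕ → ℕ → ℕ) (i : ℕ) {k j : ℕ} (h : c j k = c j (k + 1)) (ω : Ω) : budRwT M c i k j ω = 0 := by
  simp [budRwT, ← h, bud_rw_dX_self]

/-- an empty block on the branch `a` -/
theorem bud_rw_T_empty_a (c : ℕ → ℕ → ℕ) {i : ℕ} (k : ℕ) {j : ℕ} (h : c j i = c j (i + 1)) (ω : Ω) : budRwT M c i k j ω = 0 := by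
  simp [budRwT, ← h, bud_rw_dX_self]

/-- pairs `i ≤ k`, `1 ≤ k`: the block `k` of the branch `b` is projected, the anchor is the TRUE block `i` of the branch `a` -/
theorem bud_rw_sum_b (hM : M.Ok) (hl : 1 ≤ l) (hPi : 0 ≤ Pi) (hP2 : M.Proj 2 Pi) (h : BudRwLay M K o c mu pi A Pi l) {i k : ℕ}
    (hik : i ≤ k) (hk1 : 1 ≤ k) (hk : k < K) :
    cmN M.P l (fun ω => ∑ j ∈ Finset.range (M.L + 1), o j * budRwT M c i k j ω) ≤ pi k * A i := by
  have := hM.prob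
  have hpt : ∀ ω, ∀ j ∈ Finset.range (M.L + 1),
      o j * budRwT M c i k j ω ≤ pi k * (o j * ‖M.dX (c j i) (c j (i + 1)) ω‖ ^ 2) := by
    intro ω j hj
    have hjL : j ≤ M.L := Nat.lt_succ_iff.1 (Finset.mem_range.1 hj)
    rcases (h.o_nn j).eq_or_lt with h0 | h0
    · simp [← h0]
    have hT : budRwT M c i k j ω ≤ pi k * ‖M.dX (c j i) (c j (i + 1)) ω‖ ^ 2 := by
      rcases (h.c_mono j hjL (Nat.le_succ k)).eq_or_lt with he | hlt
      · rw [bud_rw_T_empty_b c i he ω]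
        exact mul_nonneg (h.pi_pos k).le (sq_nonneg _)
      · obtain ⟨j1, h1, h2, h3, h4, h5⟩ := h.proj j hjL h0 k hk1 hk hlt
        have htop : c j (k + 1) ≤ M.L + 1 := h.c_top j hjL ▸ h.c_mono j hjL (Nat.succ_le_of_lt hk)
        refine (bud_rw_pair_b hM hP2 h1 h2 hlt.le htop h3 h4 ω _).trans ?_
        exact mul_le_mul_of_nonneg_right h5 (sq_nonneg _)
    calc o j * budRwT M c i k j ω ≤ o j * (pi k * ‖M.dX (c j i) (c j (i + 1)) ω‖ ^ 2) :=
          mul_le_mul_of_nonneg_left hT h0.le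
      _ = _ := by ring
  have hmb : BudRwMB (fun ω => ∑ j ∈ Finset.range (M.L + 1), o j * ‖M.dX (c j i) (c j (i + 1)) ω‖ ^ 2) :=
    BudRwMB.sum _ fun j _ => (bud_rw_dXsq_mb hM _ _).const_mul _
  calc cmN M.P l (fun ω => ∑ j ∈ Finset.range (M.L + 1), o j * budRwT M c i k j ω)
      ≤ cmN M.P l (fun ω => pi k * ∑ j ∈ Finset.range (M.L + 1), o j * ‖M.dX (c j i) (c j (i + 1)) ω‖ ^ 2) := by
        refine bud_rw_cmN_le (hmb.const_mul _)
          (fun ω => Finset.sum_nonneg fun j _ => mul_nonneg (h.o_nn j) (bud_rw_T_bound hM c i k j ω).1) (fun ω => ?_) l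
        rw [Finset.mul_sum]
        exact Finset.sum_le_sum (hpt ω)
    _ = pi k * cmN M.P l (fun ω => ∑ j ∈ Finset.range (M.L + 1), o j * ‖M.dX (c j i) (c j (i + 1)) ω‖ ^ 2) := by
        rw [cmN_const_mul, abs_of_pos (h.pi_pos k)]
    _ ≤ pi k * A i := mul_le_mul_of_nonneg_left (h.anc i (hik.trans_lt hk)) (h.pi_pos k).le

/-- normalised increment -/
noncomputable def budRwNrm (M : CmPath n Ω) (b1 b2 : ℕ) (ω : Ω) : EuclideanSpace ℝ (Fin n) := ‖M.dX b1 b2 ω‖⁻¹ • M.dX b1 b2 ω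

/-- the high moment which replaces the exceptional event -/
noncomputable def budRwRho (M : CmPath n Ω) (r j a1 a2 b1 b2 : ℕ) (ω : Ω) : ℝ :=
  ∫ ω', inner ℝ (M.dX a1 a2 ω) (budRwNrm M b1 b2 ω') ^ (2 * r) ∂(M.κ j ω)

theorem bud_rw_rho_eqns_cite : True := by
  have := @budRwNrm.eq_1; have := @budRwRho.eq_1
  trivial

theorem bud_rw_nrm_meas (hM : M.Ok) (b1 b2 : ℕ) : Measurable (budRwNrm M b1 b2) :=
  ((CmPath.dX_meas hM _ _).norm.inv).smul (CmPath.dX_meas hM _ _)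

theorem bud_rw_nrm_le (M : CmPath n Ω) (b1 b2 : ℕ) (ω : Ω) : ‖budRwNrm M b1 b2 ω‖ ≤ 1 := by
  simp only [budRwNrm, norm_smul, norm_inv, norm_norm]
  exact inv_mul_le_one

theorem bud_rw_rho_in (hM : M.Ok) (r a1 a2 b1 b2 : ℕ) (ω ω' : Ω) :
    |inner ℝ (M.dX a1 a2 ω) (budRwNrm M b1 b2 ω') ^ (2 * r)| ≤ 2 ^ (2 * r) := by
  rw [abs_pow]
  refine pow_le_pow_left₀ (abs_nonneg _) ((abs_real_inner_le_norm _ _).trans ?_) _
  have h1 := CmPath.dX_norm_le hM a1 a2 ω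
  have h2 := bud_rw_nrm_le M b1 b2 ω'
  nlinarith [norm_nonneg (M.dX a1 a2 ω), norm_nonneg (budRwNrm M b1 b2 ω')]

theorem bud_rw_rho_nonneg (M : CmPath n Ω) (r j a1 a2 b1 b2 : ℕ) (ω : Ω) : 0 ≤ budRwRho M r j a1 a2 b1 b2 ω :=
  integral_nonneg fun ω' => by rw [pow_mul]; positivity

theorem bud_rw_rho_mb (hM : M.Ok) (r j a1 a2 b1 b2 : ℕ) : BudRwMB (budRwRho M r j a1 a2 b1 b2) := by
  have := hM.markov j
  have hF : Measurable (fun z : Ω × Ω => inner ℝ (M.dX a1 a2 z.1) (budRwNrm M b1 b2 z.2) ^ (2 * r)) :=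
    (((CmPath.dX_meas hM _ _).comp measurable_fst).inner ((bud_rw_nrm_meas hM b1 b2).comp measurable_snd)).pow_const _
  refine ⟨(hF.stronglyMeasurable.integral_kernel_prod_right' (κ := M.κ j)).measurable, 2 ^ (2 * r), fun ω => ?_⟩
  have h1 := norm_integral_le_of_norm_le_const (μ := M.κ j ω)
    (f := fun ω' => inner ℝ (M.dX a1 a2 ω) (budRwNrm M b1 b2 ω') ^ (2 * r)) (C := 2 ^ (2 * r))
    (Filter.Eventually.of_forall fun x => by simpa using bud_rw_rho_in hM r a1 a2 b1 b2 ω x)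
  simpa [budRwRho] using h1

/-- pointwise bound of a pair whose block on the branch `a` is projected -/
theorem bud_rw_T_le_a (hM : M.Ok) {r : ℕ} (hr : 1 ≤ r) {τ : ℝ} (hτ : 0 < τ) (j a1 a2 b1 b2 : ℕ) (ω : Ω) :
    ∫ ω', inner ℝ (M.dX a1 a2 ω) (M.dX b1 b2 ω') ^ 2 ∂(M.κ j ω)
      ≤ τ * M.cE j (fun ω' => ‖M.dX b1 b2 ω'‖ ^ 2) ω + 4 / τ ^ (r - 1) * budRwRho M r j a1 a2 b1 b2 ω := by
  have i1 : Integrable (fun ω' => ‖M.dX b1 b2 ω'‖ ^ 2) (M.κ j ω) :=
    CmPath.cm5k_intK hM j ω (bud_rw_dXsq_mb hM _ _).1 (bud_rw_dXsq_mb hM _ _).2.choose_spec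
  have i2 : Integrable (fun ω' => inner ℝ (M.dX a1 a2 ω) (budRwNrm M b1 b2 ω') ^ (2 * r)) (M.κ j ω) :=
    CmPath.cm5k_intK hM j ω ((measurable_const.inner (bud_rw_nrm_meas hM b1 b2)).pow_const _)
      (bud_rw_rho_in hM r a1 a2 b1 b2 ω)
  have h1 : ∫ ω', inner ℝ (M.dX a1 a2 ω) (M.dX b1 b2 ω') ^ 2 ∂(M.κ j ω) ≤ ∫ ω', (τ * ‖M.dX b1 b2 ω'‖ ^ 2
      + 4 / τ ^ (r - 1) * inner ℝ (M.dX a1 a2 ω) (budRwNrm M b1 b2 ω') ^ (2 * r)) ∂(M.κ j ω) := by
    refine integral_mono_of_nonneg (Filter.Eventually.of_forall fun ω' => sq_nonneg _)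
      ((i1.const_mul _).add (i2.const_mul _)) (Filter.Eventually.of_forall fun ω' => ?_)
    have := bud_rw_pair_a_pt (M.dX a1 a2 ω) (M.dX b1 b2 ω') (CmPath.dX_norm_le hM _ _ ω') hτ r hr
    simp only [budRwNrm]
    rw [div_mul_eq_mul_div]
    exact this
  rw [integral_add (i1.const_mul _) (i2.const_mul _), integral_const_mul, integral_const_mul] at h1
  exact h1

/-- pairs `k < i`: the block `i` of the branch `a` is projected, the anchor is the block `k` of the branch `b`, averaged back to the fork -/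
theorem bud_rw_sum_a (hM : M.Ok) (hl : 1 ≤ l) {r : ℕ} (hr : 1 ≤ r) (hPi : 0 ≤ Pi) (hPr : M.Proj (2 * r * l) Pi)
    (h : BudRwLay M K o c mu pi A Pi l) {J θ : ℝ} (hJ : ∑ j ∈ Finset.range (M.L + 1), o j ≤ J) (hθ : 0 < θ) {i k : ℕ}
    (hki : k < i) (hi : i < K) :
    cmN M.P l (fun ω => ∑ j ∈ Finset.range (M.L + 1), o j * budRwT M c i k j ω) ≤ pi i * (A k / θ + 4 * J * θ ^ (r - 1)) := by
  have := hM.prob
  have hP0 := h.pi_pos i
  obtain ⟨τ, hτd⟩ : ∃ τ : ℝ, τ = pi i / θ := ⟨_, rfl⟩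
  have hτ : 0 < τ := hτd ▸ div_pos hP0 hθ
  have hτp : 0 < τ ^ (r - 1) := pow_pos hτ _
  obtain ⟨ρ, hρ⟩ : ∃ ρ : ℕ → Ω → ℝ, ρ = fun j => budRwRho M r j (c j i) (c j (i + 1)) (c j k) (c j (k + 1)) := ⟨_, rfl⟩
  have hρmb : ∀ j, BudRwMB (ρ j) := fun j => by rw [hρ]; exact bud_rw_rho_mb hM _ _ _ _ _ _
  obtain ⟨E, hE⟩ : ∃ E : ℕ → Ω → ℝ, E = fun j => M.cE j (fun ω' => ‖M.dX (c j k) (c j (k + 1)) ω'‖ ^ 2) := ⟨_, rfl⟩
  have hEmb : ∀ j, BudRwMB (E j) := fun j => by rw [hE]; exact bud_rw_cE_mb hM j (bud_rw_dXsq_mb hM _ _)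
  have hT : ∀ j ω, budRwT M c i k j ω ≤ τ * E j ω + 4 / τ ^ (r - 1) * ρ j ω := fun j ω => by
    rw [hE, hρ]; exact bud_rw_T_le_a hM hr hτ j _ _ _ _ ω
  have hanc : cmN M.P l (fun ω => ∑ j ∈ Finset.range (M.L + 1), o j * E j ω) ≤ A k := by
    rw [hE]; exact h.anc' k (hki.trans hi)
  -- norms of the remainders
  have hρN : ∀ j ∈ Finset.range (M.L + 1), o j * cmN M.P l (ρ j) ≤ o j * pi i ^ r := by
    intro j hj
    have hjL : j ≤ M.L := Nat.lt_succ_iff.1 (Finset.mem_range.1 hj)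
    rcases (h.o_nn j).eq_or_lt with h0 | h0
    · simp [← h0]
    refine mul_le_mul_of_nonneg_left ?_ h0.le
    rcases (h.c_mono j hjL (Nat.le_succ i)).eq_or_lt with he | hlt
    · have : ρ j = fun _ => (0 : ℝ) := by
        funext ω
        have h2r : 2 * r ≠ 0 := by omega
        simp [hρ, budRwRho, ← he, bud_rw_dX_self, h2r]
      rw [this, cmN_const 0 l hl, abs_zero]
      exact pow_nonneg hP0.le _
    · obtain ⟨j1, h1, h2, h3, h4, h5⟩ := h.proj j hjL h0 i (by omega) hi hlt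
      have htop : c j (i + 1) ≤ M.L + 1 := h.c_top j hjL ▸ h.c_mono j hjL (Nat.succ_le_of_lt hi)
      rw [hρ]
      refine (bud_rw_pair_a_rem hM hl hr hPi hPr h1 h2 hlt.le htop h3 h4 (bud_rw_nrm_meas hM _ _)
        (bud_rw_nrm_le M _ _)).trans ?_
      exact pow_le_pow_left₀ (sq_nonneg _) h5 _
  have mb1 : BudRwMB (fun ω => ∑ j ∈ Finset.range (M.L + 1), o j * E j ω) := BudRwMB.sum _ fun j _ => (hEmb j).const_mul _
  have mb2 : BudRwMB (fun ω => ∑ j ∈ Finset.range (M.L + 1), o j * ρ j ω) := BudRwMB.sum _ fun j _ => (hρmb j).const_mul _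
  have hc4 : 0 ≤ 4 / τ ^ (r - 1) := by positivity
  calc cmN M.P l (fun ω => ∑ j ∈ Finset.range (M.L + 1), o j * budRwT M c i k j ω)
      ≤ cmN M.P l (fun ω => τ * (∑ j ∈ Finset.range (M.L + 1), o j * E j ω)
          + 4 / τ ^ (r - 1) * ∑ j ∈ Finset.range (M.L + 1), o j * ρ j ω) := by
        refine bud_rw_cmN_le ((mb1.const_mul _).add (mb2.const_mul _))
          (fun ω => Finset.sum_nonneg fun j _ => mul_nonneg (h.o_nn j) (bud_rw_T_bound hM c i k j ω).1) (fun ω => ?_) l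
        rw [Finset.mul_sum, Finset.mul_sum, ← Finset.sum_add_distrib]
        refine Finset.sum_le_sum fun j _ => ?_
        calc o j * budRwT M c i k j ω ≤ o j * (τ * E j ω + 4 / τ ^ (r - 1) * ρ j ω) :=
              mul_le_mul_of_nonneg_left (hT j ω) (h.o_nn j)
          _ = _ := by ring
    _ ≤ τ * cmN M.P l (fun ω => ∑ j ∈ Finset.range (M.L + 1), o j * E j ω)
          + 4 / τ ^ (r - 1) * cmN M.P l (fun ω => ∑ j ∈ Finset.range (M.L + 1), o j * ρ j ω) := by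
        refine (cmN_add_le ((mb1.const_mul _).bm _) ((mb2.const_mul _).bm _) l hl).trans ?_
        rw [cmN_const_mul, cmN_const_mul, abs_of_pos hτ, abs_of_nonneg hc4]
    _ ≤ τ * A k + 4 / τ ^ (r - 1) * (J * pi i ^ r) := by
        refine add_le_add (mul_le_mul_of_nonneg_left hanc hτ.le) (mul_le_mul_of_nonneg_left ?_ hc4)
        calc cmN M.P l (fun ω => ∑ j ∈ Finset.range (M.L + 1), o j * ρ j ω)
            ≤ ∑ j ∈ Finset.range (M.L + 1), cmN M.P l (fun ω => o j * ρ j ω) :=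
              cmN_sum_le _ _ (fun j _ => ((hρmb j).const_mul _).bm _) l hl
          _ = ∑ j ∈ Finset.range (M.L + 1), o j * cmN M.P l (ρ j) := by
              refine Finset.sum_congr rfl fun j _ => ?_
              rw [cmN_const_mul, abs_of_nonneg (h.o_nn j)]
          _ ≤ ∑ j ∈ Finset.range (M.L + 1), o j * pi i ^ r := Finset.sum_le_sum hρN
          _ = (∑ j ∈ Finset.range (M.L + 1), o j) * pi i ^ r := by rw [Finset.sum_mul]
          _ ≤ J * pi i ^ r := mul_le_mul_of_nonneg_right hJ (pow_nonneg hP0.le _)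
    _ = pi i * (A k / θ + 4 * J * θ ^ (r - 1)) := by
        obtain ⟨s, rfl⟩ : ∃ s, r = s + 1 := ⟨r - 1, by omega⟩
        simp only [Nat.add_sub_cancel, hτd, div_pow]
        have h1 : pi i ≠ 0 := hP0.ne'
        have h2 : θ ≠ 0 := hθ.ne'
        field_simp
        ring

/-- the pair `(0,0)` -/
theorem bud_rw_sum_00 (hM : M.Ok) (hl : 1 ≤ l) (h : BudRwLay M K o c mu pi A Pi l) (hK : 1 ≤ K) :
    cmN M.P l (fun ω => ∑ j ∈ Finset.range (M.L + 1), o j * budRwT M c 0 0 j ω) ≤ 4 * A 0 := by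
  have := hM.prob
  have hmb : BudRwMB (fun ω => ∑ j ∈ Finset.range (M.L + 1), o j * ‖M.dX (c j 0) (c j (0 + 1)) ω‖ ^ 2) :=
    BudRwMB.sum _ fun j _ => (bud_rw_dXsq_mb hM _ _).const_mul _
  calc cmN M.P l (fun ω => ∑ j ∈ Finset.range (M.L + 1), o j * budRwT M c 0 0 j ω)
      ≤ cmN M.P l (fun ω => 4 * ∑ j ∈ Finset.range (M.L + 1), o j * ‖M.dX (c j 0) (c j (0 + 1)) ω‖ ^ 2) := by
        refine bud_rw_cmN_le (hmb.const_mul _)
          (fun ω => Finset.sum_nonneg fun j _ => mul_nonneg (h.o_nn j) (bud_rw_T_bound hM c 0 0 j ω).1) (fun ω => ?_) l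
        rw [Finset.mul_sum]
        refine Finset.sum_le_sum fun j _ => ?_
        calc o j * budRwT M c 0 0 j ω ≤ o j * (4 * ‖M.dX (c j 0) (c j (0 + 1)) ω‖ ^ 2) :=
              mul_le_mul_of_nonneg_left (bud_rw_pair_00 hM j _ _ _ _ ω) (h.o_nn j)
          _ = _ := by ring
    _ = 4 * cmN M.P l (fun ω => ∑ j ∈ Finset.range (M.L + 1), o j * ‖M.dX (c j 0) (c j (0 + 1)) ω‖ ^ 2) := by
        rw [cmN_const_mul, abs_of_pos (by norm_num : (0:ℝ) < 4)]
    _ ≤ 4 * A 0 := mul_le_mul_of_nonneg_left (h.anc 0 hK) (by norm_num)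

/-- **THE LAYER THEOREM.**   TEX[LL:bud:outer-moments] (C9), abstract.
Proof: `CmPath.W_layers` at every `j` with `o j > 0`, `mu_ge` (empty blocks contribute `0`), `cmN_sum_le`, the three summed forms, `θ ≤ 1`. -/
theorem bud_rw_layer (hM : M.Ok) (hl : 1 ≤ l) {r : ℕ} (hr : 1 ≤ r) (hPi : 0 ≤ Pi) (hP2 : M.Proj 2 Pi) (hPr : M.Proj (2 * r * l) Pi)
    (h : BudRwLay M K o c mu pi A Pi l) {J θ : ℝ} (hJ : ∑ j ∈ Finset.range (M.L + 1), o j ≤ J) (hθ : 0 < θ) (hθ1 : θ ≤ 1) :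
    cmN M.P l (fun ω => ∑ j ∈ Finset.range (M.L + 1), o j * M.W j ω) ≤ budRwLayR K mu pi A J θ r := by
  have := hM.prob
  have hK : 1 ≤ K := by
    by_contra hK0
    have hK0' : K = 0 := by omega
    have h1 := h.c_zero 0 (Nat.zero_le _)
    have h2 := h.c_top 0 (Nat.zero_le _)
    rw [hK0', h1] at h2
    omega
  have hJ0 : 0 ≤ J := (Finset.sum_nonneg fun j _ => h.o_nn j).trans hJ
  have hA0 : ∀ k < K, 0 ≤ A k := fun k hk => (cmN_nonneg _ _ _).trans (h.anc k hk)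
  obtain ⟨U, hU⟩ : ∃ U : ℕ → ℕ → Ω → ℝ, U = fun i k ω => ∑ j ∈ Finset.range (M.L + 1), o j * budRwT M c i k j ω := ⟨_, rfl⟩
  have hUmb : ∀ i k, BudRwMB (U i k) := fun i k => by
    rw [hU]; exact BudRwMB.sum _ fun j _ => (bud_rw_T_mb hM c i k j).const_mul _
  -- bound of each pair
  obtain ⟨bd, hbd⟩ : ∃ bd : ℕ → ℕ → ℝ, bd = fun i k => if i = 0 ∧ k = 0 then 4 * A 0
      else pi (max i k) * (A (min i k) / θ + 4 * J * θ ^ (r - 1)) := ⟨_, rfl⟩
  have hUN : ∀ i < K, ∀ k < K, cmN M.P l (U i k) ≤ bd i k := by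
    intro i hi k hk
    rw [hU, hbd]
    by_cases h00 : i = 0 ∧ k = 0
    · obtain ⟨rfl, rfl⟩ := h00
      simpa using bud_rw_sum_00 hM hl h hK
    · simp only [h00, if_false]
      rcases le_or_gt i k with hik | hki
      · have hk1 : 1 ≤ k := by
          by_contra hk0
          exact h00 ⟨by omega, by omega⟩
        rw [max_eq_right hik, min_eq_left hik]
        refine (bud_rw_sum_b hM hl hPi hP2 h hik hk1 hk).trans (mul_le_mul_of_nonneg_left ?_ (h.pi_pos k).le)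
        have h1 : A i ≤ A i / θ := by
          rw [le_div_iff₀ hθ]
          nlinarith [hA0 i hi]
        have h2 : 0 ≤ 4 * J * θ ^ (r - 1) := by positivity
        linarith
      · rw [max_eq_left hki.le, min_eq_right hki.le]
        exact bud_rw_sum_a hM hl hr hPi hPr h hJ hθ hki hi
  -- pointwise domination
  have hpt : ∀ ω, ∑ j ∈ Finset.range (M.L + 1), o j * M.W j ω
      ≤ K * ∑ i ∈ Finset.range K, ∑ k ∈ Finset.range K, mu k * U i k ω := by
    intro ω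
    have h1 : ∀ j ∈ Finset.range (M.L + 1), o j * M.W j ω
        ≤ K * ∑ i ∈ Finset.range K, ∑ k ∈ Finset.range K, mu k * (o j * budRwT M c i k j ω) := by
      intro j hj
      have hjL : j ≤ M.L := Nat.lt_succ_iff.1 (Finset.mem_range.1 hj)
      rcases (h.o_nn j).eq_or_lt with h0 | h0
      · simp [← h0]
      have hW := CmPath.W_layers hM hjL (c j) K (h.c_mono j hjL) (h.c_zero j hjL) (h.c_top j hjL) ω
      calc o j * M.W j ω ≤ o j * (K * ∑ i ∈ Finset.range K, ∑ k ∈ Finset.range K,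
            M.mass (c j (k + 1)) * budRwT M c i k j ω) := mul_le_mul_of_nonneg_left hW h0.le
        _ ≤ o j * (K * ∑ i ∈ Finset.range K, ∑ k ∈ Finset.range K, mu k * budRwT M c i k j ω) := by
            refine mul_le_mul_of_nonneg_left (mul_le_mul_of_nonneg_left ?_ (Nat.cast_nonneg K)) h0.le
            refine Finset.sum_le_sum fun i _ => Finset.sum_le_sum fun k hk => ?_
            rcases (h.c_mono j hjL (Nat.le_succ k)).eq_or_lt with he | hlt
            · rw [bud_rw_T_empty_b c i he ω]; simp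
            · exact mul_le_mul_of_nonneg_right (h.mu_ge j hjL h0 k (Finset.mem_range.1 hk) hlt)
                (bud_rw_T_bound hM c i k j ω).1
        _ = K * ∑ i ∈ Finset.range K, ∑ k ∈ Finset.range K, mu k * (o j * budRwT M c i k j ω) := by
            rw [mul_left_comm, Finset.mul_sum]
            congr 1
            refine Finset.sum_congr rfl fun i _ => ?_
            rw [Finset.mul_sum]
            refine Finset.sum_congr rfl fun k _ => ?_
            ring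
    refine (Finset.sum_le_sum h1).trans (le_of_eq ?_)
    rw [← Finset.mul_sum, Finset.sum_comm]
    congr 1
    refine Finset.sum_congr rfl fun i _ => ?_
    rw [Finset.sum_comm]
    refine Finset.sum_congr rfl fun k _ => ?_
    rw [hU, Finset.mul_sum]
  have mbS : BudRwMB (fun ω => ∑ i ∈ Finset.range K, ∑ k ∈ Finset.range K, mu k * U i k ω) :=
    BudRwMB.sum _ fun i _ => BudRwMB.sum _ fun k _ => (hUmb i k).const_mul _
  calc cmN M.P l (fun ω => ∑ j ∈ Finset.range (M.L + 1), o j * M.W j ω)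
      ≤ cmN M.P l (fun ω => K * ∑ i ∈ Finset.range K, ∑ k ∈ Finset.range K, mu k * U i k ω) :=
        bud_rw_cmN_le (mbS.const_mul _)
          (fun ω => Finset.sum_nonneg fun j _ => mul_nonneg (h.o_nn j) (CmPath.W_nonneg hM j ω)) hpt l
    _ = K * cmN M.P l (fun ω => ∑ i ∈ Finset.range K, ∑ k ∈ Finset.range K, mu k * U i k ω) := by
        rw [cmN_const_mul, abs_of_nonneg (Nat.cast_nonneg K)]
    _ ≤ K * ∑ i ∈ Finset.range K, ∑ k ∈ Finset.range K, mu k * bd i k := by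
        refine mul_le_mul_of_nonneg_left ?_ (Nat.cast_nonneg K)
        refine (cmN_sum_le _ _ (fun i _ => (BudRwMB.sum _ fun k _ => (hUmb i k).const_mul _).bm _) l hl).trans ?_
        refine Finset.sum_le_sum fun i hi => ?_
        refine (cmN_sum_le _ _ (fun k _ => ((hUmb i k).const_mul _).bm _) l hl).trans ?_
        refine Finset.sum_le_sum fun k hk => ?_
        rw [cmN_const_mul, abs_of_nonneg (h.mu_nn k)]
        exact mul_le_mul_of_nonneg_left (hUN i (Finset.mem_range.1 hi) k (Finset.mem_range.1 hk)) (h.mu_nn k)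
    _ = budRwLayR K mu pi A J θ r := by
        unfold budRwLayR
        congr 1
        have e : ∀ i k, mu k * bd i k = (if i = 0 ∧ k = 0 then mu 0 * (4 * A 0) else 0)
            + (if i = 0 ∧ k = 0 then 0 else mu k * (pi (max i k) * (A (min i k) / θ + 4 * J * θ ^ (r - 1)))) := by
          intro i k
          rw [hbd]
          by_cases h00 : i = 0 ∧ k = 0
          · obtain ⟨rfl, rfl⟩ := h00; simp
          · simp [h00]
        simp only [e, Finset.sum_add_distrib]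
        congr 1
        rw [Finset.sum_eq_single 0, Finset.sum_eq_single 0]
        · simp
        · intro k _ hk; simp [hk]
        · intro h0; exact absurd (Finset.mem_range.2 hK) h0
        · intro i _ hi; simp [hi]
        · intro h0; exact absurd (Finset.mem_range.2 hK) h0

end summed

end Claimed.Agent.R286
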