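import Claimed.Agent.R286.Bud.RawExit
import Claimed.Agent.R286.Bud.StarW

/-!
# Row 286 (S0533), LL sec. 7, node N5/N8: THE RESAMPLED RESIDUAL WITH A SHORT FIRST PROJECTION INTERVAL      (owner helper198; prefix `brr_`)
TEX[LL:bud:outer-moments] TEX[LL:bud:common-star]

EXIT: `brr_bcsres : BcsRes W (BcsIn.Cls . W Fam K)` (the last ask of `bd7cc_sup` with `BcsC9`).
* `brr_resid`   chain level: `cm5_resid_pf` (38, PE Lemma 3.7) with the field length of the first interval `[s, t']` as a HYPOTHESIS (no slope in the mass is available at the scale `x W`):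
                `X_(L+1) - X_t' = (X_(L+1) - X_is) + (X_is - X_t')`, `is = nd (4 Γ v)`: two-branch layer lemma `cm5_tbl_pf` + one projection on `[s, t']` + one on the dyad `[4v, 4 Γ v]`.
* `brr_rx`      one optimiser under outer regularity, in the flat zone `8 C v ≤ c_d³ u`: field length `≥ φ(r(vc) - η/4) - φ(r(v)) ≥ C0 θ/2` (`bud_rx_slope`, `bud_rx_phi_slope`, mesh in the radius).
* `brr_bcsres`   the class of Lemma 7.6 (`bcs_num_scale` gives the room).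
-/

set_option autoImplicit false

namespace Claimed.Agent.R286

open MeasureTheory Set Filter Topology

noncomputable section

/-! ## 1. chain level -/

set_option maxHeartbeats 1000000 in
open CmPath in
/-- residual after a short clock whose FIELD length `θ` is given (PE Lemma 3.7, l.706-722; LL l.530-532) -/
theorem brr_resid (p : ℕ) (hp : Even p) (hp2 : 2 ≤ p) (Γ : ℝ) : ∃ C : ℝ, 0 < C ∧
    ∀ (n : ℕ) (Ω : Type) [MeasurableSpace Ω] (M : CmPath n Ω) (x0 um ηm : ℝ) (th sg : ℝ → ℝ) (Pi Q x : ℝ) (K : ℕ),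
      0 < n → M.Ok → Cm5Clk M x0 um Γ ηm th sg → M.Proj p Pi → 1 ≤ Pi → 1 ≤ Q → 0 < x → x ≤ x0 → M.Raw p Q x → 1 ≤ Γ ^ K * x0 →
      ∀ (v θ : ℝ) (s t' i' : ℕ), x0 ≤ v → Γ * (4 * v) ≤ 1 → 0 < θ → θ ≤ th (4 * v) →
        s ≤ M.L → M.mass s ≤ 2 * v → v ≤ M.mass (s + 1) → s < t' → t' ≤ M.nd (Γ * (4 * v)) → θ ≤ M.hck t' - M.hck s → s ≤ i' → i' ≤ M.L + 1 →
        cmN (M.P2 s) p (fun z : Ω × Ω => inner ℝ (M.X (M.L + 1) z.1 - M.X t' z.1) (M.X i' z.2))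
          ≤ C * (K + 2) ^ 2 * (Q * Pi / Real.sqrt (n * v * θ)) := by
  obtain ⟨Ct, hCt, htbl⟩ := cm5_tbl_pf p hp hp2 Γ
  refine ⟨Ct + 4 * Real.sqrt (1 + 4 * Γ), by positivity, ?_⟩
  intro n Ω _ M x0 um ηm th sg Pi Q x K hn hM hClk hProj hPi hQ hx hxx0 hRaw hK v θ s t' i' hv hΓ4 hθ hθth hsL hms hτ hst' ht'is hθ'
    hsi' hi'
  have hp1 : 1 ≤ p := by omega
  have hn' : (0 : ℝ) < n := by exact_mod_cast hn
  have hΓ : 2 ≤ Γ := hClk.hΓ
  have hx0 : 0 < x0 := hClk.hx0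
  have hv0 : 0 < v := hx0.trans_le hv
  have hPi0 : 0 ≤ Pi := by linarith
  have hQ0 : 0 ≤ Q := by linarith
  have := P2_prob hM s
  have := hM.prob
  set cΓ := Real.sqrt (1 + 4 * Γ) with hcΓ
  have hcΓ0 : 0 ≤ cΓ := Real.sqrt_nonneg _
  have h4v1 : 4 * v < 1 := by nlinarith
  set is := M.nd (Γ * (4 * v)) with his
  have hisL : is ≤ M.L + 1 := (nd_le M _).trans (Nat.le_succ _)
  have ht'L : t' ≤ M.L + 1 := ht'is.trans hisL
  have hmis : M.mass is ≤ Γ * (4 * v) := mass_nd_le hM (by positivity)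
  have hth4pos : 0 < th (4 * v) := hClk.th_pos _ (by linarith)
  set D := Q * Pi / Real.sqrt (n * v * θ) with hD
  have hD0 : 0 ≤ D := by positivity
  have hsD : 0 < Real.sqrt (n * v * θ) := Real.sqrt_pos.2 (by positivity)
  have hden1 : Q * Pi / Real.sqrt (n * (4 * v) * th (4 * v)) ≤ D := by
    refine div_le_div_of_nonneg_left (by positivity) hsD (Real.sqrt_le_sqrt ?_)
    have h1 : (n : ℝ) * v * θ ≤ n * v * th (4 * v) := mul_le_mul_of_nonneg_left hθth (by positivity)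
    have h2 : 0 ≤ (n : ℝ) * v * th (4 * v) := by positivity
    nlinarith
  have hsq : ∀ c : ℕ, c ≤ M.L + 1 → M.mass c ≤ Γ * (4 * v) → cmN M.P p (M.X c) ≤ cΓ * Q * Real.sqrt v := by
    intro c hc hm
    have h1 := t_raw hQ0 hRaw hc hm
    have h2 : Real.sqrt (x + Γ * (4 * v)) ≤ cΓ * Real.sqrt v := by
      rw [hcΓ, ← Real.sqrt_mul (by positivity)]
      apply Real.sqrt_le_sqrt
      nlinarith
    calc _ ≤ Q * Real.sqrt (x + Γ * (4 * v)) := h1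
      _ ≤ Q * (cΓ * Real.sqrt v) := mul_le_mul_of_nonneg_left h2 hQ0
      _ = _ := by ring
  -- (α)
  have hα : cmN (M.P2 s) p (fun z : Ω × Ω => inner ℝ (M.X (M.L + 1) z.1 - M.X is z.1) (M.X i' z.2))
      ≤ Ct * (K + 2) ^ 2 * D := by
    have h := htbl n Ω M x0 um ηm th sg Pi Q x K hM hClk hProj hPi hQ hx hxx0 hRaw hK s is (M.L + 1) i' (4 * v) hsL
      (by linarith) (by linarith) hΓ4 le_rfl hisL le_rfl hsi' hi'
    refine h.trans ?_
    have e : Ct * (K + 2) ^ 2 * Q * Pi / Real.sqrt (n * (4 * v) * th (4 * v))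
        = Ct * (K + 2) ^ 2 * (Q * Pi / Real.sqrt (n * (4 * v) * th (4 * v))) := by ring
    rw [e]
    exact mul_le_mul_of_nonneg_left hden1 (by positivity)
  -- (β1)
  have hβ1 : cmN (M.P2 s) p (fun z : Ω × Ω => inner ℝ (M.X is z.1 - M.X t' z.1) (M.X (min i' is) z.2)) ≤ 2 * cΓ * D := by
    have h := proj_fst hM hp hp1 hProj hPi0 (le_refl s) hst' le_rfl ht'L ht'is hisL hv0 hτ hθ hθ'
      (hM.meas (min i' is)) (hM.norm_le _)
    have hγ := hsq (min i' is) ((min_le_right _ _).trans hisL) ((hM.mass_mono (min_le_right _ _)).trans hmis)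
    exact h.trans (cm5t_num n hPi0 hQ0 hcΓ0 hv0 le_rfl hθ le_rfl hγ)
  -- (β2)
  have hβ2 : cmN (M.P2 s) p (fun z : Ω × Ω => inner ℝ (M.X is z.1 - M.X t' z.1) (M.X i' z.2 - M.X (min i' is) z.2))
      ≤ 2 * cΓ * D := by
    by_cases hc : i' ≤ is
    · rw [min_eq_left hc]
      simp only [sub_self, inner_zero_right]
      rw [t_cmN_zero]; positivity
    · have hc' : is ≤ i' := (not_le.1 hc).le
      rw [min_eq_right hc']
      have hdy := hClk.dy (4 * v) (by linarith) hΓ4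
      have hdy' : th (4 * v) ≤ M.hck is - M.hck (M.nd (4 * v)) := hdy
      have h12 : M.nd (4 * v) < is := by
        by_contra hcon
        have := hM.hck_mono (not_lt.1 hcon)
        linarith
      have hτ4 : 4 * v ≤ M.mass (M.nd (4 * v) + 1) := (lt_mass_nd_succ hM h4v1).le
      have h := proj_snd hM hp hp1 hProj hPi0 (le_nd hM hsL (by linarith)) h12 le_rfl hisL hc' hi' (by positivity) hτ4 hth4pos hdy'
        (t_Xsub_meas hM is t') (t_Xsub_le hM _ _)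
      have hγ : cmN M.P p (fun ω => M.X is ω - M.X t' ω) ≤ cΓ * Q * Real.sqrt (4 * v) := by
        have h1 := cmN_sub_le (t_bmX hM is) (t_bmX hM t') p hp1
        have h2 := hsq is hisL hmis
        have h3 := hsq t' ht'L ((hM.mass_mono ht'is).trans hmis)
        have h4 : Real.sqrt (4 * v) = 2 * Real.sqrt v := by
          rw [Real.sqrt_mul (by norm_num), show (4 : ℝ) = 2 ^ 2 by norm_num, Real.sqrt_sq (by norm_num)]
        rw [h4]
        calc _ ≤ cmN M.P p (M.X is) + cmN M.P p (M.X t') := h1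
          _ ≤ _ := by linarith
      refine h.trans ((cm5t_num n hPi0 hQ0 hcΓ0 (by positivity) le_rfl hth4pos le_rfl hγ).trans ?_)
      exact mul_le_mul_of_nonneg_left hden1 (by positivity)
  -- assembly
  have bα : CmBM (M.P2 s) (fun z : Ω × Ω => inner ℝ (M.X (M.L + 1) z.1 - M.X is z.1) (M.X i' z.2)) :=
    t_bm2 (g1 := fun ω => M.X (M.L + 1) ω - M.X is ω) (g2 := M.X i') s (t_Xsub_meas hM _ _) (hM.meas _)
      (t_Xsub_le hM _ _) (hM.norm_le _)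
  have bβ1 : CmBM (M.P2 s) (fun z : Ω × Ω => inner ℝ (M.X is z.1 - M.X t' z.1) (M.X (min i' is) z.2)) :=
    t_bm2 (g1 := fun ω => M.X is ω - M.X t' ω) (g2 := M.X (min i' is)) s (t_Xsub_meas hM _ _) (hM.meas _)
      (t_Xsub_le hM _ _) (hM.norm_le _)
  have bβ2 : CmBM (M.P2 s) (fun z : Ω × Ω => inner ℝ (M.X is z.1 - M.X t' z.1) (M.X i' z.2 - M.X (min i' is) z.2)) :=
    t_bm2 (g1 := fun ω => M.X is ω - M.X t' ω) (g2 := fun ω => M.X i' ω - M.X (min i' is) ω) s (t_Xsub_meas hM _ _)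
      (t_Xsub_meas hM _ _) (t_Xsub_le hM _ _) (t_Xsub_le hM _ _)
  have bαβ : CmBM (M.P2 s) (fun z : Ω × Ω => inner ℝ (M.X (M.L + 1) z.1 - M.X is z.1) (M.X i' z.2)
      + inner ℝ (M.X is z.1 - M.X t' z.1) (M.X (min i' is) z.2)) := by
    obtain ⟨m1, C1, c1⟩ := bα
    obtain ⟨m2, C2, c2⟩ := bβ1
    exact ⟨m1.add m2, C1 + C2, fun z => (norm_add_le _ _).trans (add_le_add (c1 z) (c2 z))⟩
  have e : (fun z : Ω × Ω => inner ℝ (M.X (M.L + 1) z.1 - M.X t' z.1) (M.X i' z.2))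
      = fun z : Ω × Ω => (inner ℝ (M.X (M.L + 1) z.1 - M.X is z.1) (M.X i' z.2)
        + inner ℝ (M.X is z.1 - M.X t' z.1) (M.X (min i' is) z.2))
        + inner ℝ (M.X is z.1 - M.X t' z.1) (M.X i' z.2 - M.X (min i' is) z.2) := by
    funext z
    simp only [inner_sub_left, inner_sub_right]
    ring
  rw [e]
  have h1 := cmN_add_le bαβ bβ2 p hp1
  have h2 := cmN_add_le bα bβ1 p hp1
  have hK2 : (1 : ℝ) ≤ (K + 2) ^ 2 := by
    have : (0 : ℝ) ≤ K := Nat.cast_nonneg K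
    nlinarith
  have h3 : 4 * cΓ * D ≤ 4 * cΓ * D * (K + 2) ^ 2 := le_mul_of_one_le_right (by positivity) hK2
  calc _ ≤ Ct * (K + 2) ^ 2 * D + 2 * cΓ * D + 2 * cΓ * D := by linarith
    _ ≤ (Ct + 4 * cΓ) * (K + 2) ^ 2 * D := by nlinarith

/-! ## 2. numerics of the frame -/

section num
variable {X : BdFix} {F : BdFr}

/-- the number of layers is a logarithm: `K + 2 ≤ (22/e) x^(-e)` (as `bd7cc_K_le` of helper33) -/
theorem brr_K_le (X : BdFix) {e : ℝ} (he : 0 < e) : ∃ N0 : ℕ, ∀ F : BdFr, F.Ok X → N0 ≤ F.N → (budRxK F : ℝ) + 2 ≤ 22 / e * F.x ^ (-e) := by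
  obtain ⟨N0, h0⟩ := bd7_ar_x_small X (a := 1) (ε := Real.exp (-1)) one_pos (Real.exp_pos _)
  refine ⟨N0, fun F h hN => ?_⟩
  have hx := BdFr.x_pos' h
  have h1 := h0 F h hN
  rw [Real.rpow_one] at h1
  have h2 : Real.log F.x ≤ -1 := by
    have := Real.log_le_log hx h1
    rwa [Real.log_exp] at this
  have h3 := bud_rx_num_K_le h (by linarith)
  have h4 : -Real.log F.x ≤ F.x ^ (-e) / e := by
    have := Real.log_le_rpow_div (inv_pos.2 hx).le he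
    rw [Real.log_inv, Real.inv_rpow hx.le, ← Real.rpow_neg hx.le] at this
    exact this
  calc (budRxK F : ℝ) + 2 ≤ 22 * (-Real.log F.x) := by linarith
    _ ≤ 22 * (F.x ^ (-e) / e) := by linarith
    _ = _ := by ring

/-- `x⁶ m ≥ 1/2` -/
theorem brr_xm (h : F.Ok X) : 1 / 2 ≤ F.x ^ 6 * F.m := by
  have hx := BdFr.x_pos' h
  have hNpos : (0 : ℝ) < F.N := by
    have := h.N2
    exact_mod_cast (by omega : 0 < F.N)
  have e : F.x ^ 6 * F.N = 1 := by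
    unfold BdFr.x
    rw [← Real.rpow_natCast, ← Real.rpow_mul hNpos.le]
    norm_num
    rw [Real.rpow_neg_one, inv_mul_cancel₀ hNpos.ne']
  have := mul_le_mul_of_nonneg_left h.m_lo (pow_pos hx 6).le
  nlinarith

/-- the slope of the removed field clock in the flat zone -/
theorem brr_sg_flat {t : ℝ} (ht : 0 < t) (h : t ≤ X.cd ^ 3 * F.u) : budRxSg F X t = F.C0 := by
  unfold budRxSg
  rw [min_eq_left ((one_le_div ht).2 h), mul_one]

/-- the first layer is below the shortest interval: `η = x⁷ ≤ x W` -/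
theorem brr_eta_le (hX : X.Ok) (h : F.Ok X) {Wv : ℝ} (hW : F.wc X ≤ Wv) : budRxEta F ≤ F.x * Wv := by
  obtain ⟨hx0, hx1, _⟩ := bcs_ha_x h.N2
  have h1 := bud_rx_num_xwc hX h
  unfold budRxEta
  calc F.x ^ 7 = F.x * F.x * F.x ^ 5 := by ring
    _ ≤ F.x * F.x * 1 := mul_le_mul_of_nonneg_left (pow_le_one₀ hx0.le hx1.le) (by positivity)
    _ ≤ F.x * Wv := by rw [mul_one]; exact mul_le_mul_of_nonneg_left (h1.trans hW) hx0.le

end num

/-! ## 3. one optimiser under outer regularity, flat zone -/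

variable {X : BdFix}

set_option maxHeartbeats 1000000 in
/-- **the resampled residual with a short first interval** for one optimiser: labels `0, 1` split at the mass `vc`, the label `2` leaves at the mass `v`; `θ = r(vc) - r(v) ∈ [x W, W]`, `w ≤ W ≤ v`.
TEX[LL:bud:outer-moments] -/
theorem brr_rx (hX : X.Ok) {c C : ℝ} (hcp : 0 < c) (hc1 : c ≤ 1) (hC : 1 ≤ C) {l : ℕ} (hl : 1 ≤ l) {ε : ℝ} (hε : 0 < ε) :
    ∃ (K : ℝ) (N0 : ℕ), 0 < K ∧ ∀ W : BdWorld, W.IsHub → ∀ (F : BdFr) (g : ℝ) (Q : BdQ F X) (w c0 : ℝ), BudRxH X W F g Q w c C c0 → N0 ≤ F.N →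
      ∀ v vc Wv : ℝ, 2 * w ≤ v → w ≤ Wv → Wv ≤ v → v < vc → vc < 1 → 8 * C * v ≤ X.cd ^ 3 * F.u → 16 * budRxGam c C ^ 2 * v ≤ 1 →
        F.x * Wv ≤ Q.r vc - Q.r v → Q.r vc - Q.r v ≤ Wv →
        skCNu F.m 1 (Q.bE g) (Q.hE g) 3 (bmTree fun a e => if a = 2 ∨ e = 2 then v else vc)
            (fun σ => (skOv (σ 0) (σ 2) - skOv (σ 1) (σ 2)) ^ (2 * l))
          ≤ (K * F.x ^ (-ε) * (F.x ^ 3 / Real.sqrt (Wv * F.C0 * (Q.r vc - Q.r v)))) ^ (2 * l) := by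
  have hG := bud_rx_Gam_ge hcp hc1 hC
  have hG0 : 0 < budRxGam c C := by linarith
  have hQ0 := bud_rx_Q0_ge c hC
  obtain ⟨Ct, hCt, HT⟩ := brr_resid (2 * l) (even_two_mul l) (by omega) (budRxGam c C)
  obtain ⟨Pi, hPi, HP⟩ := ckm_proj l hl
  obtain ⟨N1, HR⟩ := bud_rx_raw hX hcp hC hl
  obtain ⟨N2, hN2⟩ := bud_rx_num hX C 1 hC
  obtain ⟨N3, hKl⟩ := brr_K_le X (e := ε / 2) (by positivity)
  have hPi0 : 0 < Pi := by linarith
  have hQ00 : 0 < budRxQ0 c C := by linarith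
  refine ⟨4 * Ct * budRxQ0 c C * Pi * (22 / (ε / 2)) ^ 2, max N1 (max N2 N3), by positivity,
    fun W hW F g Q w c0 h hN v vc Wv hwv hwW hWv hvc hvc1 hflat hsm hθ1 hθ2 => ?_⟩
  have n1 : N1 ≤ F.N := (le_max_left _ _).trans hN
  have n2 : N2 ≤ F.N := ((le_max_left _ _).trans (le_max_right _ _)).trans hN
  have n3 : N3 ≤ F.N := ((le_max_right _ _).trans (le_max_right _ _)).trans hN
  have hw0 := bud_rx_w_pos hX h
  have hm := bud_rx_m_pos h.ok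
  have hm' : (0 : ℝ) < F.m := by exact_mod_cast hm
  have hNum := hN2 F h.ok n2
  have hx := BdFr.x_pos' h.ok
  have hC0 := bud_gb_C0_pos hX h.ok
  have hv0 : 0 < v := by linarith
  have hv1 : v ≤ 1 := by linarith
  have hW0 : 0 < Wv := hw0.trans_le hwW
  obtain ⟨θ, hθd⟩ : ∃ θ, θ = Q.r vc - Q.r v := ⟨_, rfl⟩
  rw [← hθd] at hθ1 hθ2 ⊢
  have hθ0 : 0 < θ := lt_of_lt_of_le (mul_pos hx hW0) hθ1
  have hw : 16 * budRxGam c C ^ 2 * w ≤ 1 := by
    have : 16 * budRxGam c C ^ 2 * w ≤ 16 * budRxGam c C ^ 2 * v := mul_le_mul_of_nonneg_left (by linarith) (by positivity)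
    linarith
  have hΓ4 : budRxGam c C * (4 * v) ≤ 1 := by nlinarith
  have hη : budRxEta F ≤ θ := (brr_eta_le hX h.ok (h.w_lo.trans hwW)).trans hθ1
  -- radii
  have hrv := (h.reg v hwv hv1).2
  have hrvc := (h.reg vc (by linarith) hvc1.le).1
  have hrvc2 : Q.r vc ≤ 2 * C * v := by nlinarith
  have hvcΓ : vc ≤ budRxGam c C * (4 * v) := by
    unfold budRxGam
    rw [div_mul_eq_mul_div, le_div_iff₀ hcp]
    nlinarith
  have hle : ghPosA v ≤ ghPosA vc := gh_pt_posA_le hvc.le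
  refine ckm_nu_le hm (bud_rx_adm h) (bcs_w_tree3_rt hv0 hvc.le hvc1) _ ?_
  refine Filter.Eventually.mono (f := atTop) ((bud_rx_fine hX h).and (HR W hW F g Q w c0 h n1)) fun F' hF' => ?_
  beta_reduce at hF' ⊢
  have hM : (Q.rxM g (ghPs 1 F')).Ok := ckm_ok hm (bud_rx_adm h) F'
  have hc := ckm_ch F'
  have hadm := cmk_chain_adm (bud_rx_adm h) F'
  have hL : (Q.rxM g (ghPs 1 F')).L = (ckStp 1 (Q.bE g) (Q.hE g) (ghPs 1 F')).length := rfl
  have hL' : (Q.rxM g (ghPs 1 F')).L = (ghPs 1 F').length := ckm_L F.m _ _ _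
  have es : (Q.rxM g (ghPs 1 F')).nd v = ghIdx (ghPs 1 F') ((ghPosA v : GhPos) : WithTop GhPos) := ckm_nd F.m _ _ hc hv0.le
  have et : (Q.rxM g (ghPs 1 F')).nd vc = ghIdx (ghPs 1 F') ((ghPosA vc : GhPos) : WithTop GhPos) := ckm_nd F.m _ _ hc (by linarith)
  have hiv : ghIdx (ghPs 1 F') ((ghPosA vc : GhPos) : WithTop GhPos) ≤ (Q.rxM g (ghPs 1 F')).L := hL' ▸ brg_t_idx_coe_le _ _
  have h3 := cm5_sk_three F.m hm (ckStp 1 (Q.bE g) (Q.hE g) (ghPs 1 F')) hadm (ghIdx (ghPs 1 F') ((ghPosA v : GhPos) : WithTop GhPos))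
    (ghIdx (ghPs 1 F') ((ghPosA vc : GhPos) : WithTop GhPos))
    (brg_t_idx_mono _ (WithTop.coe_le_coe.2 hle)) (hL ▸ hiv)
    (ghDisc (ghPs 1 F') (bmTree fun a e => if a = 2 ∨ e = 2 then v else vc))
    (by simp [ghDisc, bmTree]) (by simp [ghDisc, bmTree]) (by simp [ghDisc, bmTree]) (by simp [ghDisc, bmTree]) (by simp [ghDisc, bmTree])
    (by simp [ghDisc, bmTree]) l hl
  refine le_trans h3 ?_
  rw [← es, ← et]
  have hK : 1 ≤ budRxGam c C ^ budRxK F * (2 * w) := by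
    have h1 := hNum.K_big
    have h2 : (2 : ℝ) ^ (budRxK F - 1) ≤ budRxGam c C ^ budRxK F :=
      calc (2 : ℝ) ^ (budRxK F - 1) ≤ 2 ^ budRxK F := pow_le_pow_right₀ (by norm_num) (Nat.sub_le _ _)
        _ ≤ budRxGam c C ^ budRxK F := pow_le_pow_left₀ (by norm_num) (by linarith) _
    have h3 : budRxEta F ≤ 2 * w := by linarith [bud_rx_eta_le hNum, h.w_lo]
    calc (1 : ℝ) ≤ 2 ^ (budRxK F - 1) * budRxEta F := h1
      _ ≤ budRxGam c C ^ budRxK F * (2 * w) := mul_le_mul h2 h3 (bud_rx_eta_pos h.ok).le (by positivity)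
  -- the nodes
  have a1 : (Q.rxM g (ghPs 1 F')).mass ((Q.rxM g (ghPs 1 F')).nd v) ≤ v := CmPath.mass_nd_le hM hv0.le
  have a2 : v < (Q.rxM g (ghPs 1 F')).mass ((Q.rxM g (ghPs 1 F')).nd v + 1) := CmPath.lt_mass_nd_succ hM (by linarith)
  have a3 : vc < (Q.rxM g (ghPs 1 F')).mass ((Q.rxM g (ghPs 1 F')).nd vc + 1) := CmPath.lt_mass_nd_succ hM hvc1
  have a4 : (Q.rxM g (ghPs 1 F')).mass ((Q.rxM g (ghPs 1 F')).nd vc) ≤ vc := CmPath.mass_nd_le hM (by linarith)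
  have a5 : (Q.rxM g (ghPs 1 F')).nd vc ≤ (Q.rxM g (ghPs 1 F')).nd (budRxGam c C * (4 * v)) := CmPath.nd_mono hM (by linarith) hvcΓ
  have a6 : (Q.rxM g (ghPs 1 F')).nd v ≤ (Q.rxM g (ghPs 1 F')).L := CmPath.nd_le _ v
  have a7 : (Q.rxM g (ghPs 1 F')).nd v ≤ (Q.rxM g (ghPs 1 F')).nd vc := CmPath.nd_mono hM hv0.le hvc.le
  -- the radii of the nodes
  have hmono := (bcs_hc_r hX h.ok Q).1
  have r1 : Q.rxRad g (ghPs 1 F') ((Q.rxM g (ghPs 1 F')).nd v) ≤ Q.r v := hmono (bud_rx_mass_mem Q g hc _) ⟨hv0.le, hv1⟩ a1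
  have r2 : Q.r vc ≤ Q.rxRad g (ghPs 1 F') ((Q.rxM g (ghPs 1 F')).nd vc + 1) :=
    hmono ⟨by linarith, hvc1.le⟩ (bud_rx_mass_mem Q g hc _) a3.le
  have r3 := hF'.1.mesh_r ((Q.rxM g (ghPs 1 F')).nd vc)
  have r4 : Q.rxRad g (ghPs 1 F') ((Q.rxM g (ghPs 1 F')).nd vc) ≤ Q.r vc := hmono (bud_rx_mass_mem Q g hc _) ⟨by linarith, hvc1.le⟩ a4
  have r0 : 0 ≤ Q.rxRad g (ghPs 1 F') ((Q.rxM g (ghPs 1 F')).nd v) := (Q.r_mem _ (bud_rx_mass_mem Q g hc _)).1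
  obtain ⟨ρs, hρs⟩ : ∃ ρ, ρ = Q.rxRad g (ghPs 1 F') ((Q.rxM g (ghPs 1 F')).nd v) := ⟨_, rfl⟩
  obtain ⟨ρt, hρt⟩ : ∃ ρ, ρ = Q.rxRad g (ghPs 1 F') ((Q.rxM g (ghPs 1 F')).nd vc) := ⟨_, rfl⟩
  have s1 := bud_rx_slope hX h hc a7 (hL' ▸ CmPath.nd_le _ vc)
  rw [← hρs, ← hρt] at s1
  rw [← hρs] at r1 r0
  rw [← hρt] at r3 r4
  have r5 : θ / 2 ≤ ρt - ρs := by linarith
  have s2 := bud_rx_phi_slope hX h.ok r0 (by linarith : ρs ≤ ρt) (by linarith : 0 < ρt)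
  rw [brr_sg_flat (by linarith : 0 < ρt) (by nlinarith : ρt ≤ X.cd ^ 3 * F.u)] at s2
  have hfield : F.C0 * (θ / 2) ≤ (Q.rxM g (ghPs 1 F')).hck ((Q.rxM g (ghPs 1 F')).nd vc) - (Q.rxM g (ghPs 1 F')).hck ((Q.rxM g (ghPs 1 F')).nd v) :=
    (mul_le_mul_of_nonneg_left r5 hC0.le).trans (s2.trans s1)
  have hfpos : 0 < F.C0 * (θ / 2) := by positivity
  have hst : (Q.rxM g (ghPs 1 F')).nd v < (Q.rxM g (ghPs 1 F')).nd vc := by
    by_contra hcon
    have := hM.hck_mono (not_lt.1 hcon)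
    linarith
  have hth : F.C0 * (θ / 2) ≤ budRxT5 F X C (4 * v) := by
    unfold budRxT5
    rw [brr_sg_flat (by positivity) (by linarith : 2 * C * (4 * v) ≤ X.cd ^ 3 * F.u)]
    have h1 : θ / 2 ≤ C * (4 * v) := by nlinarith
    calc F.C0 * (θ / 2) ≤ F.C0 * (C * (4 * v)) := mul_le_mul_of_nonneg_left h1 hC0.le
      _ = _ := by ring
  have h4 := HT F.m (SkOm F.m) (Q.rxM g (ghPs 1 F')) (2 * w) (1 / (8 * budRxGam c C ^ 2)) 1 (budRxT5 F X C) (budRxS5 F X C) Pi (budRxQ0 c C) w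
    (budRxK F) hm hM (bud_rx_clk5 hX hcp hc1 hC h hw hF'.1 hM) (HP F.m _ _ F' hm (bud_rx_adm h)) hPi hQ0 hw0 (by linarith)
    (ckm_raw_exp hM (by omega) (by omega) hF'.2) hK v (F.C0 * (θ / 2))
    ((Q.rxM g (ghPs 1 F')).nd v) ((Q.rxM g (ghPs 1 F')).nd vc) ((Q.rxM g (ghPs 1 F')).L + 1) hwv hΓ4 hfpos hth a6 (by linarith) a2.le hst a5 hfield
    (a6.trans (Nat.le_succ _)) le_rfl
  refine pow_le_pow_left₀ (mul_nonneg zero_le_two (cmN_nonneg _ _ _)) ?_ _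
  refine (mul_le_mul_of_nonneg_left h4 zero_le_two).trans ?_
  -- numerics
  obtain ⟨B, hB⟩ : ∃ B, B = Real.sqrt (F.m * v * (F.C0 * (θ / 2))) := ⟨_, rfl⟩
  obtain ⟨A, hA⟩ : ∃ A, A = Real.sqrt (Wv * F.C0 * θ) := ⟨_, rfl⟩
  rw [← hA, ← hB]
  have hAB : A ≤ 2 * F.x ^ 3 * B := by
    rw [hA, hB]
    calc Real.sqrt (Wv * F.C0 * θ) ≤ Real.sqrt ((2 * F.x ^ 3) ^ 2 * (F.m * v * (F.C0 * (θ / 2)))) := Real.sqrt_le_sqrt (by
          have e1 : (2 * F.x ^ 3) ^ 2 * (F.m * v * (F.C0 * (θ / 2))) = 2 * (F.x ^ 6 * F.m) * (v * F.C0 * θ) := by ring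
          rw [e1]
          have h1 : Wv * F.C0 * θ ≤ v * F.C0 * θ := by gcongr
          have h2 : 0 ≤ v * F.C0 * θ := by positivity
          nlinarith [brr_xm h.ok])
      _ = _ := by rw [Real.sqrt_mul (sq_nonneg _), Real.sqrt_sq (by positivity)]
  have hA0 : 0 < A := hA ▸ Real.sqrt_pos.2 (by positivity)
  have hB0 : 0 < B := hB ▸ Real.sqrt_pos.2 (by positivity)
  have hk := hKl F h.ok n3
  have hk0 : (0 : ℝ) ≤ (budRxK F : ℝ) + 2 := by positivity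
  have p2 := Real.rpow_pos_of_pos hx (-(ε / 2))
  have hk2 : ((budRxK F : ℝ) + 2) ^ 2 ≤ (22 / (ε / 2)) ^ 2 * F.x ^ (-ε) := by
    have e1 : F.x ^ (-ε) = (F.x ^ (-(ε / 2))) ^ 2 := by
      rw [← Real.rpow_natCast, ← Real.rpow_mul hx.le]
      congr 1; push_cast; ring
    rw [e1, ← mul_pow]
    exact pow_le_pow_left₀ hk0 hk 2
  have hinv : budRxQ0 c C * Pi / B ≤ budRxQ0 c C * Pi * (2 * F.x ^ 3 / A) := by
    rw [← mul_div_assoc, div_le_div_iff₀ hB0 hA0]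
    calc budRxQ0 c C * Pi * A ≤ budRxQ0 c C * Pi * (2 * F.x ^ 3 * B) := mul_le_mul_of_nonneg_left hAB (by positivity)
      _ = _ := by ring
  calc 2 * (Ct * ((budRxK F : ℝ) + 2) ^ 2 * (budRxQ0 c C * Pi / B))
      ≤ 2 * (Ct * ((22 / (ε / 2)) ^ 2 * F.x ^ (-ε)) * (budRxQ0 c C * Pi * (2 * F.x ^ 3 / A))) := by gcongr
    _ = _ := by ring

/-! ## 4. the class of Lemma 7.6 -/

/-- **EXIT: `BcsRes`** (helper190, Bud/StarLp)      TEX[LL:bud:common-star] -/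
theorem brr_bcsres {W : BdWorld} (hX : X.Ok) (hW : W.IsHub) {Fam : BdFr → Prop} {K : BcsK} (hK : K.Ok) :
    BcsRes W (BcsIn.Cls (X := X) · W Fam K) := by
  refine ⟨2, by norm_num, fun Ka hKa l hl ε hε => ?_⟩
  obtain ⟨Kc, N0, hKc, H⟩ := brr_rx hX hK.c0 hK.c1 hK.C1 hl hε
  have hG := bud_rx_Gam_ge hK.c0 hK.c1 hK.C1
  have hC1 := hK.C1
  obtain ⟨N1, hsc⟩ := bcs_num_scale X hX K.cs K.i0 (16 * K.C * Ka + 32 * budRxGam K.c K.C ^ 2 * Ka) hK.cs0 hK.i00 (by nlinarith)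
  refine ⟨Kc, max N0 N1, hKc, fun I hI hN v vc h1 h2 h3 h4 h5 h6 => ?_⟩
  have h := bud_rx_of_cls hI
  have sc := hsc I.F hI.ok ((le_max_right _ _).trans hN) I.w hI.w_lo hI.strong
  obtain ⟨Wv, hWv⟩ : ∃ Wv, Wv = I.Ws := ⟨_, rfl⟩
  have hWs : Wv = I.F.Wsc X I.w := hWv
  rw [← hWv] at h1 h2 h5 h6 ⊢
  have hwW : I.w ≤ Wv := hWs ▸ sc.wW
  have hW0 : 0 < Wv := sc.w0.trans_le hwW
  have hroom := sc.room
  have hW1 := sc.W1
  rw [← hWs] at hroom hW1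
  have hMj : 0 ≤ (16 * K.C * Ka + 32 * budRxGam K.c K.C ^ 2 * Ka) / I.F.Mj := div_nonneg (by positivity) sc.Mj0.le
  have hroom' : (16 * K.C * Ka + 32 * budRxGam K.c K.C ^ 2 * Ka) * Wv ≤ X.cd ^ 3 * I.F.u := by
    have := hroom.trans (min_le_left _ _)
    linarith
  have hKW : 0 ≤ Ka * Wv := by positivity
  unfold bcsRs
  rw [hW.nu I.F.m _ _ hI.clkb hI.clkh]
  have e : bmTest I.F.m 3 (fun O => (O 0 2 - O 1 2) ^ (2 * l)) = fun σ => (skOv (σ 0) (σ 2) - skOv (σ 1) (σ 2)) ^ (2 * l) := by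
    funext σ
    simp [bmTest]
  rw [e]
  refine H W hW I.F I.g I.Q I.w I.c0 h ((le_max_left _ _).trans hN) v vc Wv ?_ hwW ?_ h3 h4 ?_ ?_ h5 h6
  · nlinarith
  · nlinarith
  · have : 8 * K.C * v ≤ 16 * K.C * (Ka * Wv) := by nlinarith
    nlinarith [sq_nonneg (budRxGam K.c K.C)]
  · have : 16 * budRxGam K.c K.C ^ 2 * v ≤ 32 * budRxGam K.c K.C ^ 2 * (Ka * Wv) := by nlinarith [sq_nonneg (budRxGam K.c K.C)]
    nlinarith

end

end Claimed.Agent.R286
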