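import Claimed.Agent.R286.Bud.RawLay

/-!
# Row 286, LL sec. 7, node N5: INTEGRATED ANCHORS and (C9) IN THE RADIUS COORDINATE      (head helper109; prefix `bud_rw_`; PROVER helper39, whole file, in place)
TEX[LL:bud:outer-moments] l.270-316;  TEX[LL:global:residual-blocks] (global-grid), (global-dual-doob).

* `bud_rw_anc_comp`   `‖∑_j ov_j E_j |X_{c' j} - X_{c j}|²‖_p ≤ p² η ‖X_N‖²_{2p}`      = `window_comp` of P5Kit for `M.re rad` + conditional orthogonality;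
* `bud_rw_anc_true`   `‖∑_j ov_j |X_{c' j} - X_{c j}|²‖_p ≤ 32 p η ‖X_N‖²_{2p}`        = (global-grid).   Proof (Garsia-Neveu): `a_j = ov_j |X_{c' j} - X_{c j}|²` is known at the node `c' j`;
       `A_k = ∑_{c' j ≤ k} a_j`;   MULTIPLICITY: the nodes `j` with `c j < ν ≤ c' j` have their cells in `[rad ν - η, rad ν]`, so their total overlap is `≤ η` (`sum_ov_le` for `M.re rad`);
       `E_k[A_N - A_{k-1}] ≤ η E_k|X_N - X_k|² + 4 η X*² ≤ E_k[8 η X*²]`;   `A_N^p ≤ p ∑ A_k^{p-1}(A_k - A_{k-1})` (`Kit164.pow_sum_le`), Abel, `Kit164.closing`;   `doob` at `2p`.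
       (Second route: `l6m_overlap` of LL06/MartGrid.lean through the natural filtration of `X`.)
* `bud_rw_lay`        the dyadic radius layers form a `BudRwLay`;
* `bud_rw_sus`        (C9) with the explicit right side;      `bud_rw_sus_num`   (C9) in closed form `200 l² K³ Cr Π² Q² G0/(cr² n θ)`.
-/

set_option autoImplicit false

namespace Claimed.Agent.R286

open MeasureTheory ProbabilityTheory
open scoped ENNReal NNReal
open CmPath

variable {n : ℕ} {Ω : Type} [MeasurableSpace Ω] {M : CmPath n Ω} {rad : ℕ → ℝ}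

/-- `E_j |X_{c'} - X_c|² = E_j |X_{c'}|² - E_j |X_c|²` for `j ≤ c ≤ c'` -/
theorem bud_rw_cE_dX (hM : M.Ok) {j c c' : ℕ} (hjc : j ≤ c) (hcc : c ≤ c') (hc' : c' ≤ M.L + 1) (ω : Ω) :
    M.cE j (fun ω' => ‖M.dX c c' ω'‖ ^ 2) ω
      = M.cE j (fun ω' => ‖M.X c' ω'‖ ^ 2) ω - M.cE j (fun ω' => ‖M.X c ω'‖ ^ 2) ω := by
  rcases Nat.lt_or_ge M.L c with hcL | hcL
  · have e : c' = c := by omega
    subst e
    simp [CmPath.dX, CmPath.cE]
  · have hm : Measurable (fun ω' => ‖M.dX c c' ω'‖ ^ 2) := (dX_meas hM c c').norm.pow_const 2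
    have hb : ∀ ω', |‖M.dX c c' ω'‖ ^ 2| ≤ 4 := fun ω' => cmp_bound_le4 hM c c' ω'
    have h1 := cE_tower hM hjc hm hb
    have h2 : M.cE c (fun ω' => ‖M.dX c c' ω'‖ ^ 2)
        = fun ω'' => M.cE c (fun ω' => ‖M.X c' ω'‖ ^ 2) ω'' - ‖M.X c ω''‖ ^ 2 := by
      funext ω''
      exact cE_incr_sq hM hcc hcL hc' ω''
    have hs := cmp_bound_sqBM hM c'
    have hs' := cmp_bound_sqBM hM c
    have h3 := cE_tower hM hjc hs.1 hs.2
    rw [← h1, h2, ← h3]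
    have i1 : Integrable (M.cE c (fun ω' => ‖M.X c' ω'‖ ^ 2)) (M.κ j ω) :=
      cm5k_intK hM j ω (cE_meas hM c hs.1) (cE_bound hM c hs.2)
    have i2 : Integrable (fun ω' => ‖M.X c ω'‖ ^ 2) (M.κ j ω) := cm5k_intK hM j ω hs'.1 hs'.2
    exact integral_sub i1 i2

/-- conditional orthogonality: a later sub-block is dominated by the whole increment from the fork -/
theorem bud_rw_cE_sub (hM : M.Ok) {j c c' : ℕ} (hj : j ≤ M.L) (hjc : j ≤ c) (hcc : c ≤ c') (hc' : c' ≤ M.L + 1) (ω : Ω) :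
    M.cE j (fun ω' => ‖M.dX c c' ω'‖ ^ 2) ω ≤ M.cE j (fun ω' => ‖M.X c' ω' - M.X j ω'‖ ^ 2) ω := by
  rw [bud_rw_cE_dX hM hjc hcc hc' ω, cE_incr_sq hM (hjc.trans hcc) hj hc' ω]
  have := cm5k_sq_sub hM hjc hj (hcc.trans hc') ω
  linarith

/-- a weighted sum of bounded measurable functions -/
theorem bud_rw_BM_sum (hM : M.Ok) (N : ℕ) (o : ℕ → ℝ) {f : ℕ → Ω → ℝ} (hf : ∀ j, Measurable (f j)) {C : ℝ}
    (hC : ∀ j ω, |f j ω| ≤ C) : CmBM M.P (fun ω => ∑ j ∈ Finset.range N, o j * f j ω) :=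
  su_BM_sum _ fun j _ => su_BM_cmul _ (su_BM_of (hf j) (hC j))

/-- integrated anchor averaged back to the fork -/
theorem bud_rw_anc_comp (hM : M.Ok) (hr : BudRwRad M rad) (t1 t2 η : ℝ) (hη : 0 ≤ η) (c c' : ℕ → ℕ) (N : ℕ) (hN : N ≤ M.L + 1)
    (hc : ∀ j, j ≤ M.L → 0 < (M.re rad).ov j t1 t2 → j ≤ c j ∧ c j ≤ c' j ∧ c' j ≤ N ∧ rad (c' j) ≤ max (rad j) t1 + η)
    (p : ℕ) (hp : 1 ≤ p) :
    cmN M.P p (fun ω => ∑ j ∈ Finset.range (M.L + 1), (M.re rad).ov j t1 t2 * M.cE j (fun ω' => ‖M.dX (c j) (c' j) ω'‖ ^ 2) ω)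
      ≤ p ^ 2 * η * cmN M.P (2 * p) (M.X N) ^ 2 := by
  have := hM.prob
  have hw := window_comp (M := M.re rad) (CmPath.re_ok hM hr) t1 t2 η hη c' N hN
    (fun j hj hov => ⟨(hc j hj hov).1.trans (hc j hj hov).2.1, (hc j hj hov).2.2.1, (hc j hj hov).2.2.2⟩) p hp
  refine le_trans ?_ hw
  have hBM : CmBM M.P (fun ω => ∑ j ∈ Finset.range (M.L + 1),
      (M.re rad).ov j t1 t2 * M.cE j (fun ω' => ‖M.X (c' j) ω' - M.X j ω'‖ ^ 2) ω) :=
    bud_rw_BM_sum hM _ _ (fun j => cE_meas hM j (((hM.meas _).sub (hM.meas _)).norm.pow_const 2))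
      (fun j => cE_bound hM j (cmp_bound_le4 hM j (c' j)))
  refine cmN_mono (μ := M.P) hBM p (Filter.Eventually.of_forall fun ω => ?_)
  have hnn : ∀ (g : ℕ → Ω → ℝ), (∀ j ω', 0 ≤ g j ω') →
      0 ≤ ∑ j ∈ Finset.range (M.L + 1), (M.re rad).ov j t1 t2 * M.cE j (g j) ω := fun g hg =>
    Finset.sum_nonneg fun j _ => mul_nonneg (ov_nonneg _ _ _ _) (integral_nonneg fun ω' => hg j ω')
  rw [Real.norm_of_nonneg (hnn _ fun j ω' => by positivity), Real.norm_of_nonneg (hnn _ fun j ω' => by positivity)]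
  refine Finset.sum_le_sum fun j hj => ?_
  have hjL : j ≤ M.L := Nat.lt_succ_iff.mp (Finset.mem_range.mp hj)
  rcases (ov_nonneg (M.re rad) j t1 t2).eq_or_lt with h0 | h0
  · rw [← h0]; simp
  · obtain ⟨a1, a2, a3, _⟩ := hc j hjL h0
    exact mul_le_mul_of_nonneg_left (bud_rw_cE_sub hM hjL a1 a2 (a3.trans hN) ω) h0.le

/-- multiplicity of the windows -/
theorem bud_rw_mult (hM : M.Ok) (hr : BudRwRad M rad) (t1 t2 η : ℝ) (hη : 0 ≤ η) (c c' : ℕ → ℕ)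
    (hc : ∀ j, j ≤ M.L → 0 < (M.re rad).ov j t1 t2 → j ≤ c j ∧ rad (c' j) ≤ max (rad j) t1 + η) (ν : ℕ) :
    ∑ j ∈ (Finset.range (M.L + 1)).filter (fun j => c j < ν ∧ ν ≤ c' j), (M.re rad).ov j t1 t2 ≤ η := by
  rw [← Finset.sum_filter_of_ne (p := fun j => 0 < (M.re rad).ov j t1 t2)
    (fun j _ h => lt_of_le_of_ne (ov_nonneg _ _ _ _) (Ne.symm h))]
  refine sum_ov_le (M := M.re rad) (CmPath.re_ok hM hr) _ t1 t2 (rad ν) η (fun j hj => ?_) hη
  rw [Finset.mem_filter, Finset.mem_filter, Finset.mem_range] at hj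
  obtain ⟨⟨hjL, h1, h2⟩, hov⟩ := hj
  obtain ⟨a1, a2⟩ := hc j (Nat.lt_succ_iff.mp hjL) hov
  constructor
  · have : rad ν ≤ rad (c' j) := hr.mono h2
    show rad ν - η ≤ max (rad j) t1
    linarith
  · exact hr.mono (by omega)

/-- Abel summation: `∑_j B_{j+1} a_j = ∑_k (B_{k+1} - B_k) ∑_{j ≥ k} a_j` when `B_0 = 0` -/
theorem bud_rw_abel (B a : ℕ → ℝ) (hB : B 0 = 0) (N : ℕ) :
    ∑ j ∈ Finset.range (N + 1), B (j + 1) * a j
      = ∑ k ∈ Finset.range (N + 1), (B (k + 1) - B k) * ∑ j ∈ Finset.Icc k N, a j := by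
  have h1 : ∀ j, B (j + 1) = ∑ k ∈ Finset.range (j + 1), (B (k + 1) - B k) := fun j => by
    rw [Finset.sum_range_sub, hB, sub_zero]
  calc ∑ j ∈ Finset.range (N + 1), B (j + 1) * a j
      = ∑ j ∈ Finset.range (N + 1), ∑ k ∈ Finset.range (j + 1), (B (k + 1) - B k) * a j := by
        refine Finset.sum_congr rfl fun j _ => ?_
        rw [h1 j, Finset.sum_mul]
    _ = ∑ k ∈ Finset.range (N + 1), ∑ j ∈ Finset.Icc k N, (B (k + 1) - B k) * a j := by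
        refine Finset.sum_comm' fun j k => ?_
        simp only [Finset.mem_range, Finset.mem_Icc]
        omega
    _ = _ := by
        refine Finset.sum_congr rfl fun k _ => ?_
        rw [Finset.mul_sum]

/-- **Garsia-Neveu**, kernel form: `a e ≥ 0` known at the node `e` (`1 ≤ e ≤ N`), and the conditional remainders are dominated by `g`.
`hdom` is asked in the test-function form (tests = nonnegative bounded functions of the prefix at `k`); the last term is dominated pointwise (the terminal spin is not `Pre (L+1)`).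
Proof: `A_k = ∑_{e ≤ k} a e`; `A_N^p ≤ p ∑_k A_k^(p-1) a_k = p ∑_k (A_k^(p-1) - A_(k-1)^(p-1)) ∑_{e ≥ k} a_e` (`Kit164.pow_sum_le`, Abel); tests `φ_k = A_k^(p-1) - A_(k-1)^(p-1)`; `cmN_self_bound`. -/
theorem bud_rw_gn (hM : M.Ok) (N : ℕ) (a : ℕ → Ω → ℝ) (g : Ω → ℝ) (ham : ∀ e, Measurable (a e)) (hgm : Measurable g) {C : ℝ}
    (ha0 : ∀ e ω, 0 ≤ a e ω) (haC : ∀ e ω, a e ω ≤ C) (hg0 : ∀ ω, 0 ≤ g ω) (hgC : ∀ ω, g ω ≤ C)
    (hpre : ∀ e, e < N → M.Pre e (a e))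
    (hdom : ∀ k, k < N → ∀ φ : Ω → ℝ, Measurable φ → (∀ ω, 0 ≤ φ ω) → (∃ B : ℝ, ∀ ω, φ ω ≤ B) → M.Pre k φ →
      ∫ ω, φ ω * ∑ e ∈ Finset.Icc k N, a e ω ∂M.P ≤ ∫ ω, φ ω * g ω ∂M.P)
    (htop : ∀ ω, a N ω ≤ g ω)
    (p : ℕ) (hp : 1 ≤ p) :
    cmN M.P p (fun ω => ∑ e ∈ Finset.Icc 0 N, a e ω) ≤ p * cmN M.P p g := by
  have := hM.prob
  obtain ⟨q, rfl⟩ : ∃ q, p = q + 1 := ⟨p - 1, by omega⟩
  simp only [← Nat.range_succ_eq_Icc_zero]
  -- partial sums and their powers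
  obtain ⟨A, hA⟩ : ∃ A : ℕ → Ω → ℝ, A = fun k ω => ∑ e ∈ Finset.range k, a e ω := ⟨_, rfl⟩
  obtain ⟨B, hB⟩ : ∃ B : ℕ → Ω → ℝ, B = fun k ω => if k = 0 then 0 else A k ω ^ q := ⟨_, rfl⟩
  have hAm : ∀ k, Measurable (A k) := fun k => by
    rw [hA]; exact Finset.measurable_sum _ fun e _ => ham e
  have hA0 : ∀ k ω, 0 ≤ A k ω := fun k ω => by
    rw [hA]; exact Finset.sum_nonneg fun e _ => ha0 e ω
  have hAC : ∀ k ω, A k ω ≤ k * C := fun k ω => by
    rw [hA]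
    have := Finset.sum_le_card_nsmul (Finset.range k) (fun e => a e ω) C fun e _ => haC e ω
    simpa using this
  have hAmono : ∀ k ω, A k ω ≤ A (k + 1) ω := fun k ω => by
    rw [hA]; simp only [Finset.sum_range_succ]; linarith [ha0 k ω]
  have hBs : ∀ k ω, B (k + 1) ω = A (k + 1) ω ^ q := fun k ω => by rw [hB]; simp
  have hB00 : ∀ ω, B 0 ω = 0 := fun ω => by rw [hB]; simp
  have hBm : ∀ k, Measurable (B k) := fun k => by
    rcases Nat.eq_zero_or_pos k with h | h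
    · subst h
      have : B 0 = fun _ => 0 := funext hB00
      rw [this]; exact measurable_const
    · obtain ⟨k', rfl⟩ : ∃ k', k = k' + 1 := ⟨k - 1, by omega⟩
      have : B (k' + 1) = fun ω => A (k' + 1) ω ^ q := funext (hBs k')
      rw [this]; exact (hAm _).pow_const q
  have hBmono : ∀ k ω, B k ω ≤ B (k + 1) ω := fun k ω => by
    rcases Nat.eq_zero_or_pos k with h | h
    · subst h
      rw [hB00, hBs]; exact pow_nonneg (hA0 _ _) _
    · obtain ⟨k', rfl⟩ : ∃ k', k = k' + 1 := ⟨k - 1, by omega⟩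
      rw [hBs, hBs]; exact pow_le_pow_left₀ (hA0 _ _) (hAmono _ _) _
  have hB0 : ∀ k ω, 0 ≤ B k ω := fun k ω => by
    induction k with
    | zero => rw [hB00]
    | succ k ih => exact ih.trans (hBmono k ω)
  have hBC : ∀ k ω, B (k + 1) ω ≤ (((k + 1 : ℕ) : ℝ) * C) ^ q := fun k ω => by
    rw [hBs]; exact pow_le_pow_left₀ (hA0 _ _) (hAC _ _) _
  have hBpre : ∀ k, k ≤ N → ∀ j, k ≤ j + 1 → M.Pre j (B k) := by
    intro k hk j hkj
    have h1 : M.Pre j (A k) := by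
      rw [hA]
      refine Pre.sum _ fun e he => ?_
      have he' := Finset.mem_range.mp he
      exact (hpre e (by omega)).mono (by omega)
    rw [hB]
    exact h1.comp fun x => if k = 0 then 0 else x ^ q
  -- the tests
  obtain ⟨φ, hφ⟩ : ∃ φ : ℕ → Ω → ℝ, φ = fun k ω => B (k + 1) ω - B k ω := ⟨_, rfl⟩
  have hφm : ∀ k, Measurable (φ k) := fun k => by rw [hφ]; exact (hBm _).sub (hBm _)
  have hφ0 : ∀ k ω, 0 ≤ φ k ω := fun k ω => by rw [hφ]; exact sub_nonneg.mpr (hBmono k ω)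
  have hφC : ∀ k ω, φ k ω ≤ (((k + 1 : ℕ) : ℝ) * C) ^ q := fun k ω => by
    rw [hφ]; show B (k + 1) ω - B k ω ≤ _
    linarith [hBC k ω, hB0 k ω]
  have hφpre : ∀ k, k < N → M.Pre k (φ k) := fun k hk => by
    rw [hφ]
    exact (hBpre (k + 1) hk k le_rfl).comp₂ (hBpre k hk.le k (by omega)) fun x y => x - y
  -- integrability
  have hint : ∀ f : Ω → ℝ, Measurable f → (∃ D : ℝ, ∀ ω, |f ω| ≤ D) → Integrable f M.P := fun f hf ⟨D, hD⟩ =>
    cm5k_integrable M.P hf.aestronglyMeasurable (C := D) (fun ω => by simpa using hD ω)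
  have htail_m : ∀ k, Measurable (fun ω => ∑ e ∈ Finset.Icc k N, a e ω) := fun k =>
    Finset.measurable_sum _ fun e _ => ham e
  have htail0 : ∀ k ω, 0 ≤ ∑ e ∈ Finset.Icc k N, a e ω := fun k ω => Finset.sum_nonneg fun e _ => ha0 e ω
  have htailC : ∀ k ω, ∑ e ∈ Finset.Icc k N, a e ω ≤ (Finset.Icc k N).card * C := fun k ω => by
    have := Finset.sum_le_card_nsmul (Finset.Icc k N) (fun e => a e ω) C fun e _ => haC e ω
    simpa using this
  have hi1 : ∀ k, Integrable (fun ω => φ k ω * ∑ e ∈ Finset.Icc k N, a e ω) M.P := fun k =>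
    hint _ ((hφm k).mul (htail_m k)) ⟨(((k + 1 : ℕ) : ℝ) * C) ^ q * ((Finset.Icc k N).card * C), fun ω => by
      rw [abs_of_nonneg (mul_nonneg (hφ0 k ω) (htail0 k ω))]
      exact mul_le_mul (hφC k ω) (htailC k ω) (htail0 k ω) ((hφ0 k ω).trans (hφC k ω))⟩
  have hi2 : ∀ k, Integrable (fun ω => φ k ω * g ω) M.P := fun k =>
    hint _ ((hφm k).mul hgm) ⟨(((k + 1 : ℕ) : ℝ) * C) ^ q * C, fun ω => by
      rw [abs_of_nonneg (mul_nonneg (hφ0 k ω) (hg0 ω))]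
      exact mul_le_mul (hφC k ω) (hgC ω) (hg0 ω) ((hφ0 k ω).trans (hφC k ω))⟩
  -- each term
  have hterm : ∀ k ∈ Finset.range (N + 1),
      ∫ ω, φ k ω * ∑ e ∈ Finset.Icc k N, a e ω ∂M.P ≤ ∫ ω, φ k ω * g ω ∂M.P := by
    intro k hk
    rcases Nat.lt_or_ge k N with h | h
    · exact hdom k h (φ k) (hφm k) (hφ0 k) ⟨_, hφC k⟩ (hφpre k h)
    · have hkN : k = N := by have := Finset.mem_range.mp hk; omega
      subst hkN
      refine integral_mono (hi1 k) (hi2 k) fun ω => ?_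
      simp only [Finset.Icc_self, Finset.sum_singleton]
      exact mul_le_mul_of_nonneg_left (htop ω) (hφ0 k ω)
  -- the `p`-th power inequality
  have hmain : ∫ ω, A (N + 1) ω ^ (q + 1) ∂M.P ≤ ((q + 1 : ℕ) : ℝ) * ∫ ω, A (N + 1) ω ^ (q + 1 - 1) * g ω ∂M.P := by
    have e1 : ∀ ω, A (N + 1) ω ^ (q + 1)
        ≤ ((q : ℝ) + 1) * ∑ k ∈ Finset.range (N + 1), φ k ω * ∑ e ∈ Finset.Icc k N, a e ω := by
      intro ω
      have h1 := Kit164.pow_sum_le q (fun e => a e ω) (fun e => ha0 e ω) (N + 1)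
      have h2 := bud_rw_abel (fun k => B k ω) (fun e => a e ω) (hB00 ω) N
      have h3 : ∑ j ∈ Finset.range (N + 1), (∑ i ∈ Finset.range (j + 1), a i ω) ^ q * a j ω
          = ∑ j ∈ Finset.range (N + 1), B (j + 1) ω * a j ω := by
        refine Finset.sum_congr rfl fun j _ => ?_
        rw [hBs, hA]
      rw [h3, h2] at h1
      rw [hφ, hA]
      exact h1
    have e2 : ∀ ω, ∑ k ∈ Finset.range (N + 1), φ k ω * g ω = A (N + 1) ω ^ (q + 1 - 1) * g ω := by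
      intro ω
      rw [← Finset.sum_mul, hφ, Finset.sum_range_sub (fun k => B k ω), hB00, sub_zero, hBs]
      simp
    have hiA : Integrable (fun ω => A (N + 1) ω ^ (q + 1)) M.P :=
      hint _ ((hAm _).pow_const _) ⟨(((N + 1 : ℕ) : ℝ) * C) ^ (q + 1), fun ω => by
        rw [abs_of_nonneg (pow_nonneg (hA0 _ _) _)]
        exact pow_le_pow_left₀ (hA0 _ _) (hAC _ _) _⟩
    calc ∫ ω, A (N + 1) ω ^ (q + 1) ∂M.P
        ≤ ∫ ω, ((q : ℝ) + 1) * ∑ k ∈ Finset.range (N + 1), φ k ω * ∑ e ∈ Finset.Icc k N, a e ω ∂M.P :=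
          integral_mono hiA ((integrable_finsetSum _ fun k _ => hi1 k).const_mul _) e1
      _ = ((q : ℝ) + 1) * ∑ k ∈ Finset.range (N + 1), ∫ ω, φ k ω * ∑ e ∈ Finset.Icc k N, a e ω ∂M.P := by
          rw [integral_const_mul, integral_finsetSum _ fun k _ => hi1 k]
      _ ≤ ((q : ℝ) + 1) * ∑ k ∈ Finset.range (N + 1), ∫ ω, φ k ω * g ω ∂M.P :=
          mul_le_mul_of_nonneg_left (Finset.sum_le_sum hterm) (by positivity)
      _ = ((q + 1 : ℕ) : ℝ) * ∫ ω, A (N + 1) ω ^ (q + 1 - 1) * g ω ∂M.P := by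
          rw [← integral_finsetSum _ fun k _ => hi2 k]
          simp only [e2]
          push_cast
          ring
  have hABM : CmBM M.P (A (N + 1)) := su_BM_of (hAm _) (C := ((N + 1 : ℕ) : ℝ) * C) fun ω => by
    rw [abs_of_nonneg (hA0 _ _)]; exact hAC _ _
  have hgBM : CmBM M.P g := su_BM_of hgm (C := C) fun ω => by rw [abs_of_nonneg (hg0 ω)]; exact hgC ω
  have := cmN_self_bound hABM hgBM (hA0 _) hg0 (q + 1) hp ((q + 1 : ℕ) : ℝ) (by positivity) hmain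
  rw [hA] at this
  exact this

/-- windows of multiplicity `≤ η` against a nondecreasing sequence -/
theorem bud_rw_mult_sum (T : Finset ℕ) (o : ℕ → ℝ) (c c' : ℕ → ℕ) (s : ℕ → ℝ) (k N : ℕ) {η : ℝ}
    (hc : ∀ j ∈ T, k ≤ c j ∧ c j ≤ c' j ∧ c' j ≤ N) (hs : ∀ ν, k ≤ ν → ν < N → s ν ≤ s (ν + 1)) (hkN : k ≤ N)
    (hmult : ∀ ν, ∑ j ∈ T.filter (fun j => c j < ν ∧ ν ≤ c' j), o j ≤ η) :
    ∑ j ∈ T, o j * (s (c' j) - s (c j)) ≤ η * (s N - s k) := by
  have h1 : ∀ j ∈ T, o j * (s (c' j) - s (c j))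
      = ∑ ν ∈ Finset.Ico k N, (if c j < ν + 1 ∧ ν + 1 ≤ c' j then o j else 0) * (s (ν + 1) - s ν) := by
    intro j hj
    obtain ⟨a1, a2, a3⟩ := hc j hj
    rw [← Finset.sum_Ico_sub s a2, Finset.mul_sum]
    have hsub : Finset.Ico (c j) (c' j) ⊆ Finset.Ico k N := Finset.Ico_subset_Ico a1 a3
    rw [← Finset.sum_subset hsub]
    · refine Finset.sum_congr rfl fun ν hν => ?_
      rw [Finset.mem_Ico] at hν
      rw [if_pos ⟨by omega, by omega⟩]
    · intro ν _ hν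
      rw [Finset.mem_Ico] at hν
      rw [if_neg (by omega), zero_mul]
  rw [Finset.sum_congr rfl h1, Finset.sum_comm]
  have h2 : η * (s N - s k) = ∑ ν ∈ Finset.Ico k N, η * (s (ν + 1) - s ν) := by
    rw [← Finset.mul_sum, Finset.sum_Ico_sub s hkN]
  rw [h2]
  refine Finset.sum_le_sum fun ν hν => ?_
  rw [Finset.mem_Ico] at hν
  rw [← Finset.sum_mul, ← Finset.sum_filter]
  exact mul_le_mul_of_nonneg_right (hmult (ν + 1)) (sub_nonneg.mpr (hs ν hν.1 hν.2))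

/-- the blocks that cross a node `ν` -/
theorem bud_rw_cross (M : CmPath n Ω) (T : Finset ℕ) (o : ℕ → ℝ) (ho : ∀ j, 0 ≤ o j) (c c' : ℕ → ℕ) (N ν : ℕ) {η : ℝ}
    (hc : ∀ j ∈ T, c j ≤ c' j ∧ c' j ≤ N)
    (hmult : ∑ j ∈ T.filter (fun j => c j < ν ∧ ν ≤ c' j), o j ≤ η) (ω : Ω) :
    ∑ j ∈ T.filter (fun j => c j < ν ∧ ν ≤ c' j), o j * ‖M.dX (c j) (c' j) ω‖ ^ 2 ≤ 4 * η * M.Zs N ω ^ 2 := by
  have h1 : ∀ j ∈ T.filter (fun j => c j < ν ∧ ν ≤ c' j),
      o j * ‖M.dX (c j) (c' j) ω‖ ^ 2 ≤ o j * (4 * M.Zs N ω ^ 2) := by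
    intro j hj
    obtain ⟨a1, a2⟩ := hc j (Finset.mem_filter.mp hj).1
    refine mul_le_mul_of_nonneg_left ?_ (ho j)
    have b1 := le_Zs M a2 ω
    have b2 := le_Zs M (a1.trans a2) ω
    have b3 : ‖M.dX (c j) (c' j) ω‖ ≤ 2 * M.Zs N ω := by
      unfold CmPath.dX
      exact (norm_sub_le _ _).trans (by linarith)
    calc ‖M.dX (c j) (c' j) ω‖ ^ 2 ≤ (2 * M.Zs N ω) ^ 2 := pow_le_pow_left₀ (norm_nonneg _) b3 2
      _ = 4 * M.Zs N ω ^ 2 := by ring
  refine (Finset.sum_le_sum h1).trans ?_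
  rw [← Finset.sum_mul]
  have : 0 ≤ 4 * M.Zs N ω ^ 2 := by positivity
  calc _ ≤ η * (4 * M.Zs N ω ^ 2) := mul_le_mul_of_nonneg_right hmult this
    _ = _ := by ring

/-- the blocks beyond the node `k`, averaged back to `k` -/
theorem bud_rw_beyond (hM : M.Ok) (T : Finset ℕ) (o : ℕ → ℝ) (c c' : ℕ → ℕ) (k N : ℕ) (hN : N ≤ M.L + 1) (hkN : k ≤ N) {η : ℝ}
    (hη : 0 ≤ η) (hc : ∀ j ∈ T, k ≤ c j ∧ c j ≤ c' j ∧ c' j ≤ N)
    (hmult : ∀ ν, ∑ j ∈ T.filter (fun j => c j < ν ∧ ν ≤ c' j), o j ≤ η) (ω : Ω) :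
    M.cE k (fun ω' => ∑ j ∈ T, o j * ‖M.dX (c j) (c' j) ω'‖ ^ 2) ω ≤ η * M.cE k (fun ω' => ‖M.X N ω'‖ ^ 2) ω := by
  have hm : ∀ j, Measurable (fun ω => ‖M.dX (c j) (c' j) ω‖ ^ 2) := fun j => (dX_meas hM _ _).norm.pow_const 2
  have hb : ∀ j ω, |‖M.dX (c j) (c' j) ω‖ ^ 2| ≤ 4 := fun j ω => cmp_bound_le4 hM (c j) (c' j) ω
  have e1 : M.cE k (fun ω' => ∑ j ∈ T, o j * ‖M.dX (c j) (c' j) ω'‖ ^ 2) ω
      = ∑ j ∈ T, o j * M.cE k (fun ω' => ‖M.dX (c j) (c' j) ω'‖ ^ 2) ω := by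
    unfold CmPath.cE
    rw [integral_finsetSum _ fun j _ => (cm5k_intK hM k ω (hm j) (hb j)).const_mul _]
    refine Finset.sum_congr rfl fun j _ => ?_
    rw [integral_const_mul]
  have e2 : ∑ j ∈ T, o j * M.cE k (fun ω' => ‖M.dX (c j) (c' j) ω'‖ ^ 2) ω
      = ∑ j ∈ T, o j * (M.cE k (fun ω' => ‖M.X (c' j) ω'‖ ^ 2) ω - M.cE k (fun ω' => ‖M.X (c j) ω'‖ ^ 2) ω) := by
    refine Finset.sum_congr rfl fun j hj => ?_
    obtain ⟨a1, a2, a3⟩ := hc j hj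
    rw [bud_rw_cE_dX hM a1 a2 (a3.trans hN) ω]
  rw [e1, e2]
  have h3 := bud_rw_mult_sum T o c c' (fun ν => M.cE k (fun ω' => ‖M.X ν ω'‖ ^ 2) ω) k N hc (fun ν h1 h2 => by
    have := bud_rw_cE_dX hM h1 (Nat.le_succ ν) (by omega : ν + 1 ≤ M.L + 1) ω
    have h0 : 0 ≤ M.cE k (fun ω' => ‖M.dX ν (ν + 1) ω'‖ ^ 2) ω := integral_nonneg fun _ => by positivity
    show M.cE k (fun ω' => ‖M.X ν ω'‖ ^ 2) ω ≤ M.cE k (fun ω' => ‖M.X (ν + 1) ω'‖ ^ 2) ω
    linarith) hkN hmult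
  refine h3.trans (mul_le_mul_of_nonneg_left ?_ hη)
  have h0 : 0 ≤ M.cE k (fun ω' => ‖M.X k ω'‖ ^ 2) ω := integral_nonneg fun _ => by positivity
  show M.cE k (fun ω' => ‖M.X N ω'‖ ^ 2) ω - M.cE k (fun ω' => ‖M.X k ω'‖ ^ 2) ω ≤ _
  linarith

/-- the test identity with two constants -/
theorem bud_rw_test (hM : M.Ok) {j : ℕ} {f g : Ω → ℝ} (hf : Measurable f) (hgm : Measurable g) (hg : M.Pre j g) {C C' : ℝ}
    (hC : ∀ ω, |f ω| ≤ C) (hC' : ∀ ω, |g ω| ≤ C') :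
    ∫ ω, g ω * M.cE j f ω ∂M.P = ∫ ω, g ω * f ω ∂M.P :=
  int_mul_cE hM hf hgm hg (C := max C C') (fun ω => (hC ω).trans (le_max_left _ _)) fun ω => (hC' ω).trans (le_max_right _ _)

/-- **(global-grid)**, abstract weights: windows of multiplicity `≤ η` -/
theorem bud_rw_anc_gen (hM : M.Ok) (T : Finset ℕ) (o : ℕ → ℝ) (ho : ∀ j, 0 ≤ o j) (c c' : ℕ → ℕ) (N : ℕ) (hN : N ≤ M.L + 1)
    {η : ℝ} (hη : 0 ≤ η) (hc : ∀ j ∈ T, c j ≤ c' j ∧ c' j ≤ N)
    (hmult : ∀ ν, ∑ j ∈ T.filter (fun j => c j < ν ∧ ν ≤ c' j), o j ≤ η) (p : ℕ) (hp : 1 ≤ p) :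
    cmN M.P p (fun ω => ∑ j ∈ T, o j * ‖M.dX (c j) (c' j) ω‖ ^ 2) ≤ 32 * p * η * cmN M.P (2 * p) (M.X N) ^ 2 := by
  have := hM.prob
  obtain ⟨f, hf⟩ : ∃ f : ℕ → Ω → ℝ, f = fun j ω => o j * ‖M.dX (c j) (c' j) ω‖ ^ 2 := ⟨_, rfl⟩
  obtain ⟨a, ha⟩ : ∃ a : ℕ → Ω → ℝ, a = fun e ω => ∑ j ∈ T, if c' j = e then f j ω else 0 := ⟨_, rfl⟩
  obtain ⟨g, hg⟩ : ∃ g : Ω → ℝ, g = fun ω => 8 * η * M.Zs N ω ^ 2 := ⟨_, rfl⟩
  obtain ⟨S, hS⟩ : ∃ S : ℝ, S = ∑ j ∈ T, o j * 4 := ⟨_, rfl⟩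
  have hfm : ∀ j, Measurable (f j) := fun j => by
    rw [hf]; exact ((dX_meas hM _ _).norm.pow_const 2).const_mul _
  have hf0 : ∀ j ω, 0 ≤ f j ω := fun j ω => by
    rw [hf]; exact mul_nonneg (ho j) (by positivity)
  have hf4 : ∀ j ω, f j ω ≤ o j * 4 := fun j ω => by
    rw [hf]; exact mul_le_mul_of_nonneg_left ((le_abs_self _).trans (cmp_bound_le4 hM (c j) (c' j) ω)) (ho j)
  have hsubS : ∀ (T' : Finset ℕ), T' ⊆ T → ∀ ω, ∑ j ∈ T', f j ω ≤ S := fun T' hT' ω => by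
    rw [hS]
    exact (Finset.sum_le_sum fun j _ => hf4 j ω).trans
      (Finset.sum_le_sum_of_subset_of_nonneg hT' fun j _ _ => mul_nonneg (ho j) (by norm_num))
  have hS0 : 0 ≤ S := by rw [hS]; exact Finset.sum_nonneg fun j _ => mul_nonneg (ho j) (by norm_num)
  have ham : ∀ e, Measurable (a e) := fun e => by
    rw [ha]; exact Finset.measurable_sum _ fun j _ => Measurable.ite (MeasurableSet.const _) (hfm j) measurable_const
  have ha0 : ∀ e ω, 0 ≤ a e ω := fun e ω => by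
    rw [ha]; exact Finset.sum_nonneg fun j _ => by split_ifs <;> simp [hf0]
  have haS : ∀ e ω, a e ω ≤ S := fun e ω => by
    rw [ha]; show ∑ j ∈ T, (if c' j = e then f j ω else 0) ≤ S
    rw [← Finset.sum_filter]; exact hsubS _ (Finset.filter_subset _ _) ω
  have hgm : Measurable g := by rw [hg]; exact ((Zs_meas hM N).pow_const 2).const_mul _
  have hg0 : ∀ ω, 0 ≤ g ω := fun ω => by rw [hg]; positivity
  have hg8 : ∀ ω, g ω ≤ 8 * η := fun ω => by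
    rw [hg]
    have h1 : M.Zs N ω ^ 2 ≤ 1 := pow_le_one₀ (Zs_nonneg M N ω) (Zs_le_one hM N ω)
    have : 8 * η * M.Zs N ω ^ 2 ≤ 8 * η * 1 := mul_le_mul_of_nonneg_left h1 (by positivity)
    linarith
  -- tails
  have htail : ∀ k ω, ∑ e ∈ Finset.Icc k N, a e ω
      = ∑ j ∈ T.filter (fun j => k ≤ c j), f j ω + ∑ j ∈ T.filter (fun j => c j < k ∧ k ≤ c' j), f j ω := by
    intro k ω
    rw [ha]
    show ∑ e ∈ Finset.Icc k N, ∑ j ∈ T, (if c' j = e then f j ω else 0) = _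
    rw [Finset.sum_comm, Finset.sum_filter, Finset.sum_filter, ← Finset.sum_add_distrib]
    refine Finset.sum_congr rfl fun j hj => ?_
    obtain ⟨a1, a2⟩ := hc j hj
    rw [Finset.sum_ite_eq]
    simp only [Finset.mem_Icc]
    by_cases h1 : k ≤ c j
    · rw [if_pos ⟨by omega, a2⟩, if_pos h1, if_neg (by omega), add_zero]
    · by_cases h2 : k ≤ c' j
      · rw [if_pos ⟨h2, a2⟩, if_neg h1, if_pos ⟨by omega, h2⟩, zero_add]
      · rw [if_neg (by omega), if_neg h1, if_neg (by omega), add_zero]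
  have hcross : ∀ k ω, ∑ j ∈ T.filter (fun j => c j < k ∧ k ≤ c' j), f j ω ≤ 4 * η * M.Zs N ω ^ 2 := fun k ω => by
    rw [hf]; exact bud_rw_cross M T o ho c c' N k hc (hmult k) ω
  have hint : ∀ u : Ω → ℝ, Measurable u → (∃ D : ℝ, ∀ ω, |u ω| ≤ D) → Integrable u M.P := fun u hu ⟨D, hD⟩ =>
    cm5k_integrable M.P hu.aestronglyMeasurable (C := D) (fun ω => by simpa using hD ω)
  -- Garsia-Neveu
  have hGN := bud_rw_gn hM N a g ham hgm (C := S + 8 * η) ha0 (fun e ω => (haS e ω).trans (by linarith))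
    hg0 (fun ω => (hg8 ω).trans (by linarith))
    (fun e he => by
      rw [ha]
      refine Pre.sum _ fun j hj => ?_
      by_cases h : c' j = e
      · simp only [if_pos h]
        rw [hf]
        obtain ⟨a1, _⟩ := hc j hj
        have p1 : M.Pre e (M.X (c' j)) := X_pre hM h.le (by omega)
        have p2 : M.Pre e (M.X (c j)) := X_pre hM (by omega) (by omega)
        exact p1.comp₂ p2 fun x y => o j * ‖x - y‖ ^ 2
      · simp only [if_neg h]
        exact fun _ _ _ => Filter.Eventually.of_forall fun _ => rfl)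
    (fun k hk φ hφm hφ0 ⟨B, hφB⟩ hφpre => by
      have hφabs : ∀ ω, |φ ω| ≤ B := fun ω => by rw [abs_of_nonneg (hφ0 ω)]; exact hφB ω
      have hB0 : ∀ ω : Ω, 0 ≤ B := fun ω => (hφ0 ω).trans (hφB ω)
      obtain ⟨F1, hF1⟩ : ∃ F1 : Ω → ℝ, F1 = fun ω => ∑ j ∈ T.filter (fun j => k ≤ c j), f j ω := ⟨_, rfl⟩
      obtain ⟨F2, hF2⟩ : ∃ F2 : Ω → ℝ, F2 = fun ω => ∑ j ∈ T.filter (fun j => c j < k ∧ k ≤ c' j), f j ω := ⟨_, rfl⟩
      obtain ⟨G, hG⟩ : ∃ G : Ω → ℝ, G = fun ω => ‖M.X N ω‖ ^ 2 := ⟨_, rfl⟩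
      have hF1m : Measurable F1 := by rw [hF1]; exact Finset.measurable_sum _ fun j _ => hfm j
      have hF2m : Measurable F2 := by rw [hF2]; exact Finset.measurable_sum _ fun j _ => hfm j
      have hF10 : ∀ ω, 0 ≤ F1 ω := fun ω => by rw [hF1]; exact Finset.sum_nonneg fun j _ => hf0 j ω
      have hF20 : ∀ ω, 0 ≤ F2 ω := fun ω => by rw [hF2]; exact Finset.sum_nonneg fun j _ => hf0 j ω
      have hF1S : ∀ ω, |F1 ω| ≤ S := fun ω => by
        rw [abs_of_nonneg (hF10 ω), hF1]; exact hsubS _ (Finset.filter_subset _ _) ω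
      have hF2S : ∀ ω, |F2 ω| ≤ S := fun ω => by
        rw [abs_of_nonneg (hF20 ω), hF2]; exact hsubS _ (Finset.filter_subset _ _) ω
      have hGm : Measurable G := by rw [hG]; exact (cmp_bound_sqBM hM N).1
      have hG1 : ∀ ω, |G ω| ≤ 1 := by rw [hG]; exact (cmp_bound_sqBM hM N).2
      have hmulint : ∀ u : Ω → ℝ, Measurable u → ∀ D : ℝ, (∀ ω, |u ω| ≤ D) → Integrable (fun ω => φ ω * u ω) M.P :=
        fun u hu D hD => hint _ (hφm.mul hu) ⟨B * D, fun ω => by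
          rw [abs_mul]; exact mul_le_mul (hφabs ω) (hD ω) (abs_nonneg _) (hB0 ω)⟩
      have hbey : ∀ ω, M.cE k F1 ω ≤ η * M.cE k G ω := fun ω => by
        rw [hF1, hG, hf]
        refine bud_rw_beyond hM (T.filter fun j => k ≤ c j) o c c' k N hN hk.le hη (fun j hj => ?_) (fun ν => ?_) ω
        · rw [Finset.mem_filter] at hj
          exact ⟨hj.2, hc j hj.1⟩
        · refine le_trans (Finset.sum_le_sum_of_subset_of_nonneg ?_ fun j _ _ => ho j) (hmult ν)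
          exact Finset.filter_subset_filter _ (Finset.filter_subset _ _)
      have e1 : ∫ ω, φ ω * F1 ω ∂M.P ≤ ∫ ω, φ ω * (η * M.Zs N ω ^ 2) ∂M.P := by
        rw [← bud_rw_test hM hF1m hφm hφpre hF1S hφabs]
        have s1 : ∫ ω, φ ω * M.cE k F1 ω ∂M.P ≤ ∫ ω, η * (φ ω * M.cE k G ω) ∂M.P := by
          refine integral_mono (hmulint _ (cE_meas hM k hF1m) S (cE_bound hM k hF1S))
            ((hmulint _ (cE_meas hM k hGm) 1 (cE_bound hM k hG1)).const_mul η) fun ω => ?_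
          have := mul_le_mul_of_nonneg_left (hbey ω) (hφ0 ω)
          show φ ω * M.cE k F1 ω ≤ η * (φ ω * M.cE k G ω)
          linarith
        rw [integral_const_mul, bud_rw_test hM hGm hφm hφpre hG1 hφabs, ← integral_const_mul] at s1
        refine s1.trans (integral_mono ((hmulint _ hGm 1 hG1).const_mul η)
          (hmulint _ (((Zs_meas hM N).pow_const 2).const_mul η) η fun ω => ?_) fun ω => ?_)
        · have h1 : M.Zs N ω ^ 2 ≤ 1 := pow_le_one₀ (Zs_nonneg M N ω) (Zs_le_one hM N ω)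
          rw [abs_of_nonneg (by positivity)]
          exact mul_le_of_le_one_right hη h1
        · have h1 : G ω ≤ M.Zs N ω ^ 2 := by
            rw [hG]; exact pow_le_pow_left₀ (norm_nonneg _) (le_Zs M le_rfl ω) 2
          have := mul_le_mul_of_nonneg_left h1 (mul_nonneg hη (hφ0 ω))
          show η * (φ ω * G ω) ≤ φ ω * (η * M.Zs N ω ^ 2)
          linarith
      have e2 : ∫ ω, φ ω * F2 ω ∂M.P ≤ ∫ ω, φ ω * (4 * η * M.Zs N ω ^ 2) ∂M.P := by
        refine integral_mono (hmulint _ hF2m S hF2S)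
          (hmulint _ (((Zs_meas hM N).pow_const 2).const_mul (4 * η)) (4 * η) fun ω => ?_) fun ω => ?_
        · have h1 : M.Zs N ω ^ 2 ≤ 1 := pow_le_one₀ (Zs_nonneg M N ω) (Zs_le_one hM N ω)
          rw [abs_of_nonneg (by positivity)]
          exact mul_le_of_le_one_right (by positivity) h1
        · refine mul_le_mul_of_nonneg_left ?_ (hφ0 ω)
          rw [hF2]; exact hcross k ω
      have e3 : ∫ ω, φ ω * ∑ e ∈ Finset.Icc k N, a e ω ∂M.P = ∫ ω, φ ω * F1 ω ∂M.P + ∫ ω, φ ω * F2 ω ∂M.P := by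
        rw [← integral_add (hmulint _ hF1m S hF1S) (hmulint _ hF2m S hF2S)]
        refine integral_congr_ae (Filter.Eventually.of_forall fun ω => ?_)
        show φ ω * ∑ e ∈ Finset.Icc k N, a e ω = φ ω * F1 ω + φ ω * F2 ω
        rw [htail k ω, hF1, hF2]; ring
      have hZi : ∀ b : ℝ, 0 ≤ b → Integrable (fun ω => φ ω * (b * M.Zs N ω ^ 2)) M.P := fun b hb =>
        hmulint _ (((Zs_meas hM N).pow_const 2).const_mul b) b fun ω => by
          have h1 : M.Zs N ω ^ 2 ≤ 1 := pow_le_one₀ (Zs_nonneg M N ω) (Zs_le_one hM N ω)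
          rw [abs_of_nonneg (by positivity)]
          exact mul_le_of_le_one_right hb h1
      have e4 : ∫ ω, φ ω * (η * M.Zs N ω ^ 2) ∂M.P + ∫ ω, φ ω * (4 * η * M.Zs N ω ^ 2) ∂M.P ≤ ∫ ω, φ ω * g ω ∂M.P := by
        rw [← integral_add (hZi η hη) (hZi (4 * η) (by positivity)), hg]
        refine integral_mono ((hZi η hη).add (hZi (4 * η) (by positivity))) (hZi (8 * η) (by positivity)) fun ω => ?_
        have : 0 ≤ φ ω * (η * M.Zs N ω ^ 2) := mul_nonneg (hφ0 ω) (by positivity)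
        show φ ω * (η * M.Zs N ω ^ 2) + φ ω * (4 * η * M.Zs N ω ^ 2) ≤ φ ω * (8 * η * M.Zs N ω ^ 2)
        nlinarith
      rw [e3]
      linarith)
    (fun ω => by
      have h1 := htail N ω
      rw [Finset.Icc_self, Finset.sum_singleton] at h1
      have h2 : ∑ j ∈ T.filter (fun j => N ≤ c j), f j ω = 0 := by
        refine Finset.sum_eq_zero fun j hj => ?_
        rw [Finset.mem_filter] at hj
        obtain ⟨a1, a2⟩ := hc j hj.1
        have e : c' j = c j := by omega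
        rw [hf]; simp [CmPath.dX, e]
      rw [h1, h2, zero_add, hg]
      have := hcross N ω
      have h0 : 0 ≤ η * M.Zs N ω ^ 2 := by positivity
      linarith) p hp
  -- identify the two sides
  have hL : (fun ω => ∑ e ∈ Finset.Icc 0 N, a e ω) = fun ω => ∑ j ∈ T, o j * ‖M.dX (c j) (c' j) ω‖ ^ 2 := by
    funext ω
    rw [htail 0 ω]
    have h1 : T.filter (fun j => 0 ≤ c j) = T := Finset.filter_true_of_mem fun j _ => Nat.zero_le _
    have h2 : T.filter (fun j => c j < 0 ∧ 0 ≤ c' j) = ∅ := Finset.filter_false_of_mem fun j _ h => by omega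
    rw [h1, h2, Finset.sum_empty, add_zero, hf]
  rw [hL] at hGN
  refine hGN.trans ?_
  have hZBM : CmBM M.P (M.Zs N) := su_BM_of (Zs_meas hM N) (C := 1) fun ω => by
    rw [abs_of_nonneg (Zs_nonneg M N ω)]; exact Zs_le_one hM N ω
  have hgN : cmN M.P p g = 8 * η * cmN M.P (2 * p) (M.Zs N) ^ 2 := by
    rw [hg, cmN_const_mul, abs_of_nonneg (by positivity), ← cmN_sq hZBM p hp]
    simp only [Real.norm_eq_abs, sq_abs]
  have hdoob := doob hM N hN (2 * p) (by omega)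
  have hdoob' : cmN M.P (2 * p) (M.Zs N) ≤ 2 * cmN M.P (2 * p) (M.X N) := hdoob
  have h3 : cmN M.P (2 * p) (M.Zs N) ^ 2 ≤ (2 * cmN M.P (2 * p) (M.X N)) ^ 2 :=
    pow_le_pow_left₀ (cmN_nonneg _ _ _) hdoob' 2
  rw [hgN]
  have h4 : (p : ℝ) * (8 * η * cmN M.P (2 * p) (M.Zs N) ^ 2) ≤ p * (8 * η * (2 * cmN M.P (2 * p) (M.X N)) ^ 2) := by
    gcongr
  calc _ ≤ _ := h4
    _ = _ := by ring

/-- **(global-grid)** in the radius coordinate: integrated TRUE anchor -/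
theorem bud_rw_anc_true (hM : M.Ok) (hr : BudRwRad M rad) (t1 t2 η : ℝ) (hη : 0 ≤ η) (c c' : ℕ → ℕ) (N : ℕ) (hN : N ≤ M.L + 1)
    (hc : ∀ j, j ≤ M.L → 0 < (M.re rad).ov j t1 t2 → j ≤ c j ∧ c j ≤ c' j ∧ c' j ≤ N ∧ rad (c' j) ≤ max (rad j) t1 + η)
    (p : ℕ) (hp : 1 ≤ p) :
    cmN M.P p (fun ω => ∑ j ∈ Finset.range (M.L + 1), (M.re rad).ov j t1 t2 * ‖M.dX (c j) (c' j) ω‖ ^ 2)
      ≤ 32 * p * η * cmN M.P (2 * p) (M.X N) ^ 2 := by
  have h := bud_rw_anc_gen hM ((Finset.range (M.L + 1)).filter fun j => 0 < (M.re rad).ov j t1 t2)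
    (fun j => (M.re rad).ov j t1 t2) (fun j => ov_nonneg _ _ _ _) c c' N hN hη
    (fun j hj => by
      rw [Finset.mem_filter, Finset.mem_range] at hj
      obtain ⟨_, a2, a3, _⟩ := hc j (by omega) hj.2
      exact ⟨a2, a3⟩)
    (fun ν => by
      refine le_trans (Finset.sum_le_sum_of_subset_of_nonneg ?_ fun j _ _ => ov_nonneg _ _ _ _)
        (bud_rw_mult hM hr t1 t2 η hη c c' (fun j hj hov => ⟨(hc j hj hov).1, (hc j hj hov).2.2.2⟩) ν)
      exact Finset.filter_subset_filter _ (Finset.filter_subset _ _)) p hp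
  have e : (fun ω => ∑ j ∈ Finset.range (M.L + 1), (M.re rad).ov j t1 t2 * ‖M.dX (c j) (c' j) ω‖ ^ 2)
      = fun ω => ∑ j ∈ (Finset.range (M.L + 1)).filter (fun j => 0 < (M.re rad).ov j t1 t2),
          (M.re rad).ov j t1 t2 * ‖M.dX (c j) (c' j) ω‖ ^ 2 := by
    funext ω
    refine (Finset.sum_filter_of_ne fun j _ h => ?_).symm
    exact lt_of_le_of_ne (ov_nonneg _ _ _ _) fun h0 => h (by rw [← h0, zero_mul])
  rw [e]
  exact h

/-- the `L^l` norm of one squared block under the raw bound -/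
theorem bud_rw_blk_raw (hM : M.Ok) {l : ℕ} (hl : 1 ≤ l) {Q w s : ℝ} (hQ : 0 ≤ Q) (hw : 0 ≤ w) (hs : 0 ≤ s) (hR : M.Raw (4 * l) Q w)
    {i i' : ℕ} (hii : i ≤ i') (hi' : i' ≤ M.L + 1) (hm : i < i' → M.mass i' ≤ s) :
    cmN M.P l (fun ω => ‖M.dX i i' ω‖ ^ 2) ≤ 4 * Q ^ 2 * (w + s) := by
  have := hM.prob
  have hBM : CmBM M.P (M.dX i i') := ⟨(dX_meas hM i i').aestronglyMeasurable, 2, dX_norm_le hM i i'⟩
  rw [cmN_sq hBM l hl]
  rcases hii.eq_or_lt with h | h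
  · subst h
    have h0 : M.dX i i = fun _ => 0 := by funext ω; simp [CmPath.dX]
    have h1 : cmN M.P (2 * l) (M.dX i i) = 0 := by
      rw [h0]; simp [cmN]
    rw [h1]
    have : 0 ≤ 4 * Q ^ 2 * (w + s) := by positivity
    simpa using this
  · have h1 : cmN M.P (2 * l) (M.dX i i') ≤ cmN M.P (4 * l) (M.dX i i') := cmN_exp_mono hBM (by omega) (by omega)
    have h2 := dX_raw hM (p := 4 * l) (by omega) hQ hw hR hii hi' (hm h)
    have h3 : 0 ≤ cmN M.P (2 * l) (M.dX i i') := cmN_nonneg _ _ _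
    calc cmN M.P (2 * l) (M.dX i i') ^ 2 ≤ (2 * Q * Real.sqrt (w + s)) ^ 2 := by
          exact pow_le_pow_left₀ h3 (h1.trans h2) 2
      _ = 4 * Q ^ 2 * (w + s) := by
          rw [mul_pow, mul_pow, Real.sq_sqrt (by linarith)]; ring

/-- anchors without integration (large layers): Minkowski + raw bound -/
theorem bud_rw_anc_raw (hM : M.Ok) (hr : BudRwRad M rad) {t1 t2 : ℝ} (h1 : 0 ≤ t1) (h12 : t1 ≤ t2) (h2 : t2 ≤ 1) (c c' : ℕ → ℕ) {l : ℕ} (hl : 1 ≤ l)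
    {Q w s : ℝ} (hQ : 0 ≤ Q) (hw : 0 ≤ w) (hs : 0 ≤ s) (hR : M.Raw (4 * l) Q w)
    (hc : ∀ j, j ≤ M.L → 0 < (M.re rad).ov j t1 t2 → c j ≤ c' j ∧ c' j ≤ M.L + 1 ∧ (c j < c' j → M.mass (c' j) ≤ s)) :
    cmN M.P l (fun ω => ∑ j ∈ Finset.range (M.L + 1), (M.re rad).ov j t1 t2 * ‖M.dX (c j) (c' j) ω‖ ^ 2) ≤ 4 * (t2 - t1) * Q ^ 2 * (w + s) ∧
    cmN M.P l (fun ω => ∑ j ∈ Finset.range (M.L + 1), (M.re rad).ov j t1 t2 * M.cE j (fun ω' => ‖M.dX (c j) (c' j) ω'‖ ^ 2) ω)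
      ≤ 4 * (t2 - t1) * Q ^ 2 * (w + s) := by
  have := hM.prob
  have hsum : ∑ j ∈ Finset.range (M.L + 1), (M.re rad).ov j t1 t2 = t2 - t1 :=
    sum_ov (M := M.re rad) (CmPath.re_ok hM hr) h1 h12 h2
  have hm : ∀ j, Measurable (fun ω => ‖M.dX (c j) (c' j) ω‖ ^ 2) := fun j => (dX_meas hM _ _).norm.pow_const 2
  have hb : ∀ j ω, |‖M.dX (c j) (c' j) ω‖ ^ 2| ≤ 4 := fun j ω => cmp_bound_le4 hM (c j) (c' j) ω
  -- a general Minkowski step
  have key : ∀ f : ℕ → Ω → ℝ, (∀ j, Measurable (f j)) → (∀ j ω, |f j ω| ≤ 4) →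
      (∀ j, j ≤ M.L → 0 < (M.re rad).ov j t1 t2 → cmN M.P l (f j) ≤ cmN M.P l (fun ω => ‖M.dX (c j) (c' j) ω‖ ^ 2)) →
      cmN M.P l (fun ω => ∑ j ∈ Finset.range (M.L + 1), (M.re rad).ov j t1 t2 * f j ω) ≤ 4 * (t2 - t1) * Q ^ 2 * (w + s) := by
    intro f hfm hfb hf
    refine (cmN_sum_le _ _ (fun j _ => su_BM_cmul _ (su_BM_of (hfm j) (hfb j))) l hl).trans ?_
    have e : 4 * (t2 - t1) * Q ^ 2 * (w + s)
        = ∑ j ∈ Finset.range (M.L + 1), (M.re rad).ov j t1 t2 * (4 * Q ^ 2 * (w + s)) := by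
      rw [← Finset.sum_mul, hsum]; ring
    rw [e]
    refine Finset.sum_le_sum fun j hj => ?_
    have hjL : j ≤ M.L := Nat.lt_succ_iff.mp (Finset.mem_range.mp hj)
    rw [cmN_const_mul, abs_of_nonneg (ov_nonneg _ _ _ _)]
    rcases (ov_nonneg (M.re rad) j t1 t2).eq_or_lt with h0 | h0
    · rw [← h0]; simp
    · obtain ⟨a1, a2, a3⟩ := hc j hjL h0
      refine mul_le_mul_of_nonneg_left ((hf j hjL h0).trans ?_) h0.le
      rcases a1.eq_or_lt with h | h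
      · -- empty block
        have h0' : (fun ω => ‖M.dX (c j) (c' j) ω‖ ^ 2) = fun _ => (0 : ℝ) := by
          funext ω; simp [CmPath.dX, h]
        rw [h0']
        have hz : cmN M.P l (fun _ : Ω => (0 : ℝ)) = 0 := by simp [cmN]
        rw [hz]
        positivity
      · exact bud_rw_blk_raw hM hl hQ hw hs hR a1 a2 a3
  exact ⟨key _ hm hb fun j _ _ => le_rfl,
    key _ (fun j => cE_meas hM j (hm j)) (fun j => cE_bound hM j (hb j)) fun j _ _ => cmN_cE_le hM j (hm j) (hb j) l hl⟩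

section layers

variable {K : ℕ} {η t1 t2 cr Cr w : ℝ} {D : ℕ → ℝ}

/-- a node whose cell meets the band is the node of its fork radius -/
theorem bud_rw_nd_fork (hM : M.Ok) (hr : BudRwRad M rad) {j : ℕ} (hj : j ≤ M.L) (hov : 0 < (M.re rad).ov j t1 t2) :
    (M.re rad).nd (max (rad j) t1) = j ∧ max (rad j) t1 < rad (j + 1) ∧ t1 ≤ max (rad j) t1 ∧ max (rad j) t1 ≤ t2 := by
  obtain ⟨a1, a2, a3⟩ := sus_fork (M := M.re rad) (CmPath.re_ok hM hr) hj hov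
  exact ⟨a3, a1, le_max_right _ _, a2.le⟩

theorem bud_rw_thr_mono (hη : 0 ≤ η) (t : ℝ) : Monotone (budRwThr η t) := by
  refine monotone_nat_of_le_succ fun k => ?_
  cases k with
  | zero =>
    simp only [budRwThr]
    have : 0 ≤ 2 ^ 0 * η := by positivity
    linarith
  | succ k =>
    simp only [budRwThr]
    have : (2 : ℝ) ^ k * η ≤ 2 ^ (k + 1) * η := by
      gcongr
      · norm_num
      · omega
    linarith

theorem bud_rw_thr_ge (hη : 0 ≤ η) (t : ℝ) (k : ℕ) : t ≤ budRwThr η t k :=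
  bud_rw_thr_mono hη t (Nat.zero_le k)

theorem bud_rw_cut_mono (hM : M.Ok) (hr : BudRwRad M rad) (hη : 0 ≤ η) (ht1 : 0 ≤ t1) {j : ℕ} (hj : j ≤ M.L) :
    Monotone (budRwCut M rad η t1 j) := by
  have hOk := CmPath.re_ok hM hr
  have ht0 : 0 ≤ max (rad j) t1 := ht1.trans (le_max_right _ _)
  refine monotone_nat_of_le_succ fun k => ?_
  unfold budRwCut
  rw [if_neg (Nat.succ_ne_zero k)]
  split_ifs with h
  · exact le_ct (M := M.re rad) hOk hj ((le_max_left _ _).trans (bud_rw_thr_ge hη _ _))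
  · exact ct_mono (M := M.re rad) hOk (ht0.trans (bud_rw_thr_ge hη _ _)) (bud_rw_thr_mono hη _ (Nat.le_succ k))

/-- radius of a cut node -/
theorem bud_rw_rad_cut (hM : M.Ok) (hr : BudRwRad M rad) (hη : 0 ≤ η) (ht1 : 0 ≤ t1) {j : ℕ} (hj : j ≤ M.L) (k : ℕ) :
    rad (budRwCut M rad η t1 j k) ≤ min 1 (budRwThr η (max (rad j) t1) k) ∧ budRwCut M rad η t1 j k ≤ M.L + 1 := by
  have hOk := CmPath.re_ok hM hr
  have ht0 : 0 ≤ max (rad j) t1 := ht1.trans (le_max_right _ _)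
  unfold budRwCut
  split_ifs with h
  · subst h
    exact ⟨le_min (mass_mem (M := M.re rad) hOk (show j ≤ M.L + 1 by omega)).2 (le_max_left _ _), by omega⟩
  · have h1 := ct_le (M.re rad) (budRwThr η (max (rad j) t1) k)
    exact ⟨le_min (mass_mem (M := M.re rad) hOk h1).2 (mass_ct_le (M := M.re rad) hOk (ht0.trans (bud_rw_thr_ge hη _ _))), h1⟩

/-- radius of a cut node -/
theorem bud_rw_rad_cut_le (hM : M.Ok) (hr : BudRwRad M rad) (hη : 0 ≤ η) (ht1 : 0 ≤ t1) {j : ℕ} (hj : j ≤ M.L) (k : ℕ) :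
    rad (budRwCut M rad η t1 j k) ≤ min 1 (budRwThr η (max (rad j) t1) k) ∨ budRwCut M rad η t1 j k = M.L + 1 :=
  Or.inl (bud_rw_rad_cut hM hr hη ht1 hj k).1

theorem bud_rw_thr_succ (η t : ℝ) (k : ℕ) : budRwThr η t (k + 1) = t + 2 ^ k * η := rfl

theorem bud_rw_thr_le {η t t' : ℝ} (h : t ≤ t') (k : ℕ) : budRwThr η t k ≤ budRwThr η t' k := by
  cases k with
  | zero => exact h
  | succ k => simp only [budRwThr]; linarith

theorem bud_rw_cut_succ (M : CmPath n Ω) (rad : ℕ → ℝ) (η t1 : ℝ) (j k : ℕ) :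
    budRwCut M rad η t1 j (k + 1) = (M.re rad).ct (max (rad j) t1 + 2 ^ k * η) := by
  unfold budRwCut
  rw [if_neg (Nat.succ_ne_zero k)]
  rfl

/-- a nonempty block ends beyond `t1`, and its mass is controlled -/
theorem bud_rw_blk_mass (hM : M.Ok) (hr : BudRwRad M rad) (hS : BudRwSusH M rad K η t1 t2 cr Cr w D) {j : ℕ} (hj : j ≤ M.L)
    (hov : 0 < (M.re rad).ov j t1 t2) {k : ℕ} (hlt : budRwCut M rad η t1 j k < budRwCut M rad η t1 j (k + 1)) :
    M.mass (budRwCut M rad η t1 j (k + 1)) ≤ Cr * budRwZ η t2 k := by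
  obtain ⟨_, a2, a3, a4⟩ := bud_rw_nd_fork hM hr hj hov
  have hmono := bud_rw_cut_mono hM hr hS.hη.le hS.ht1.le hj
  have h0 : budRwCut M rad η t1 j 0 = j := by simp [budRwCut]
  have h1 : j + 1 ≤ budRwCut M rad η t1 j (k + 1) := by
    have := hmono (Nat.zero_le k)
    rw [h0] at this
    omega
  obtain ⟨b1, b2⟩ := bud_rw_rad_cut hM hr hS.hη.le hS.ht1.le hj (k + 1)
  have h2 : t1 ≤ rad (budRwCut M rad η t1 j (k + 1)) := by
    have := hr.mono h1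
    linarith
  refine (hS.hi _ b2 h2).trans (mul_le_mul_of_nonneg_left ?_ (by linarith [hS.hCr]))
  refine b1.trans ?_
  unfold budRwZ
  rw [bud_rw_thr_succ]
  exact min_le_min le_rfl (by linarith)

theorem bud_rw_Z_nonneg (hη : 0 ≤ η) (ht2 : 0 ≤ t2) (k : ℕ) : 0 ≤ budRwZ η t2 k := by
  unfold budRwZ
  exact le_min zero_le_one (by positivity)

/-- both integrated anchors of the layer `k` -/
theorem bud_rw_lay_anc (hM : M.Ok) (hr : BudRwRad M rad) (hS : BudRwSusH M rad K η t1 t2 cr Cr w D) {l : ℕ} (hl : 1 ≤ l) {Q : ℝ}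
    (hQ : 1 ≤ Q) (hR : M.Raw (4 * l) Q w) (k : ℕ) :
    cmN M.P l (fun ω => ∑ j ∈ Finset.range (M.L + 1),
        (M.re rad).ov j t1 t2 * ‖M.dX (budRwCut M rad η t1 j k) (budRwCut M rad η t1 j (k + 1)) ω‖ ^ 2) ≤ budRwA l Q w Cr η t1 t2 k ∧
    cmN M.P l (fun ω => ∑ j ∈ Finset.range (M.L + 1),
        (M.re rad).ov j t1 t2 * M.cE j (fun ω' => ‖M.dX (budRwCut M rad η t1 j k) (budRwCut M rad η t1 j (k + 1)) ω'‖ ^ 2) ω)
      ≤ budRwA l Q w Cr η t1 t2 k := by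
  have := hM.prob
  have hOk := CmPath.re_ok hM hr
  have hη := hS.hη
  have ht1 := hS.ht1
  have ht20 : 0 ≤ t2 := ht1.le.trans hS.h12
  have hCr0 : 0 ≤ Cr := by linarith [hS.hCr]
  have hZ0 := bud_rw_Z_nonneg (t2 := t2) hη.le ht20 k
  have hQ0 : 0 ≤ Q := by linarith
  have hl1 : (1 : ℝ) ≤ l := by exact_mod_cast hl
  have hl2 : (l : ℝ) ≤ (l : ℝ) ^ 2 := by nlinarith
  have hws : 0 ≤ w + Cr * budRwZ η t2 k := by have := hS.hw; positivity
  have hmono : ∀ j, j ≤ M.L → Monotone (budRwCut M rad η t1 j) := fun j hj => bud_rw_cut_mono hM hr hη.le ht1.le hj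
  have h00 : ∀ j, budRwCut M rad η t1 j 0 = j := fun j => by simp [budRwCut]
  unfold budRwA
  rcases le_total (2 ^ k * η) (t2 - t1) with hmin | hmin
  · rw [min_eq_left hmin]
    -- integrated anchors
    obtain ⟨N, hN⟩ : ∃ N : ℕ, N = (M.re rad).ct (t2 + 2 ^ k * η) := ⟨_, rfl⟩
    have hNL : N ≤ M.L + 1 := hN ▸ ct_le (M.re rad) _
    have hη' : (0 : ℝ) ≤ 2 ^ k * η := by positivity
    have hc : ∀ j, j ≤ M.L → 0 < (M.re rad).ov j t1 t2 → j ≤ budRwCut M rad η t1 j k ∧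
        budRwCut M rad η t1 j k ≤ budRwCut M rad η t1 j (k + 1) ∧ budRwCut M rad η t1 j (k + 1) ≤ N ∧
        rad (budRwCut M rad η t1 j (k + 1)) ≤ max (rad j) t1 + 2 ^ k * η := by
      intro j hj hov
      obtain ⟨_, a2, a3, a4⟩ := bud_rw_nd_fork hM hr hj hov
      refine ⟨?_, hmono j hj (Nat.le_succ k), ?_, ?_⟩
      · have := hmono j hj (Nat.zero_le k)
        rwa [h00] at this
      · rw [bud_rw_cut_succ, hN]
        exact ct_mono (M := M.re rad) hOk (by linarith) (by linarith)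
      · exact ((bud_rw_rad_cut hM hr hη.le ht1.le hj (k + 1)).1.trans (min_le_right _ _)).trans (le_of_eq (bud_rw_thr_succ _ _ _))
    have hT := bud_rw_anc_true hM hr t1 t2 (2 ^ k * η) hη' (fun j => budRwCut M rad η t1 j k)
      (fun j => budRwCut M rad η t1 j (k + 1)) N hNL hc l hl
    have hC := bud_rw_anc_comp hM hr t1 t2 (2 ^ k * η) hη' (fun j => budRwCut M rad η t1 j k)
      (fun j => budRwCut M rad η t1 j (k + 1)) N hNL hc l hl
    rcases le_or_gt t1 (rad N) with hcase | hcase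
    · -- the regular case
      have hradN : rad N ≤ budRwZ η t2 k := by
        unfold budRwZ
        rw [hN]
        exact le_min (mass_mem (M := M.re rad) hOk (ct_le _ _)).2 (mass_ct_le (M := M.re rad) hOk (by positivity))
      have hmN : M.mass N ≤ Cr * budRwZ η t2 k := (hS.hi N hNL hcase).trans (mul_le_mul_of_nonneg_left hradN hCr0)
      have hX : cmN M.P (2 * l) (M.X N) ^ 2 ≤ Q ^ 2 * (w + Cr * budRwZ η t2 k) := by
        have h1 : cmN M.P (2 * l) (M.X N) ≤ cmN M.P (4 * l) (M.X N) := cmN_exp_mono (X_bm hM N) (by omega) (by omega)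
        have h2 := hR N hNL
        have hm0 := (mass_mem hM hNL).1
        have hw := hS.hw
        calc cmN M.P (2 * l) (M.X N) ^ 2 ≤ (Q * Real.sqrt (w + M.mass N)) ^ 2 :=
              pow_le_pow_left₀ (cmN_nonneg _ _ _) (h1.trans h2) 2
          _ = Q ^ 2 * (w + M.mass N) := by rw [mul_pow, Real.sq_sqrt (by linarith)]
          _ ≤ _ := mul_le_mul_of_nonneg_left (by linarith) (by positivity)
      constructor
      · refine hT.trans ?_
        calc 32 * (l : ℝ) * (2 ^ k * η) * cmN M.P (2 * l) (M.X N) ^ 2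
            ≤ 32 * (l : ℝ) ^ 2 * (2 ^ k * η) * (Q ^ 2 * (w + Cr * budRwZ η t2 k)) := by
              refine mul_le_mul ?_ hX (by positivity) (by positivity)
              exact mul_le_mul_of_nonneg_right (by linarith) hη'
          _ = _ := by ring
      · refine hC.trans ?_
        calc (l : ℝ) ^ 2 * (2 ^ k * η) * cmN M.P (2 * l) (M.X N) ^ 2
            ≤ 32 * (l : ℝ) ^ 2 * (2 ^ k * η) * (Q ^ 2 * (w + Cr * budRwZ η t2 k)) := by
              refine mul_le_mul ?_ hX (by positivity) (by positivity)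
              exact mul_le_mul_of_nonneg_right (by nlinarith [sq_nonneg (l : ℝ)]) hη'
          _ = _ := by ring
    · -- coarse grid: all blocks are empty
      have hemp : ∀ j, j ≤ M.L → 0 < (M.re rad).ov j t1 t2 → budRwCut M rad η t1 j k = budRwCut M rad η t1 j (k + 1) := by
        intro j hj hov
        obtain ⟨c1, c2, c3, _⟩ := hc j hj hov
        obtain ⟨_, a2, a3, a4⟩ := bud_rw_nd_fork hM hr hj hov
        by_contra hne
        have h1 : j + 1 ≤ N := by omega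
        have := hr.mono h1
        linarith
      have hR0 : 0 ≤ 32 * (l : ℝ) ^ 2 * (2 ^ k * η) * Q ^ 2 * (w + Cr * budRwZ η t2 k) := by positivity
      have hz : cmN M.P l (fun _ : Ω => (0 : ℝ)) = 0 := by simp [cmN]
      constructor
      · have e : (fun ω => ∑ j ∈ Finset.range (M.L + 1),
            (M.re rad).ov j t1 t2 * ‖M.dX (budRwCut M rad η t1 j k) (budRwCut M rad η t1 j (k + 1)) ω‖ ^ 2) = fun _ => (0 : ℝ) := by
          funext ω
          refine Finset.sum_eq_zero fun j hj => ?_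
          have hjL : j ≤ M.L := Nat.lt_succ_iff.mp (Finset.mem_range.mp hj)
          rcases (ov_nonneg (M.re rad) j t1 t2).eq_or_lt with h0 | h0
          · rw [← h0]; simp
          · rw [hemp j hjL h0, bud_rw_dX_self]; simp
        rw [e, hz]; exact hR0
      · have e : (fun ω => ∑ j ∈ Finset.range (M.L + 1), (M.re rad).ov j t1 t2 *
            M.cE j (fun ω' => ‖M.dX (budRwCut M rad η t1 j k) (budRwCut M rad η t1 j (k + 1)) ω'‖ ^ 2) ω) = fun _ => (0 : ℝ) := by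
          funext ω
          refine Finset.sum_eq_zero fun j hj => ?_
          have hjL : j ≤ M.L := Nat.lt_succ_iff.mp (Finset.mem_range.mp hj)
          rcases (ov_nonneg (M.re rad) j t1 t2).eq_or_lt with h0 | h0
          · rw [← h0]; simp
          · rw [hemp j hjL h0]; simp [bud_rw_dX_self, CmPath.cE]
        rw [e, hz]; exact hR0
  · rw [min_eq_right hmin]
    have hd : 0 ≤ t2 - t1 := sub_nonneg.2 hS.h12
    obtain ⟨r1, r2⟩ := bud_rw_anc_raw hM hr ht1.le hS.h12 hS.ht2.le (fun j => budRwCut M rad η t1 j k)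
      (fun j => budRwCut M rad η t1 j (k + 1)) hl hQ0 hS.hw.le (mul_nonneg hCr0 hZ0) hR
      (fun j hj hov => ⟨hmono j hj (Nat.le_succ k), (bud_rw_rad_cut hM hr hη.le ht1.le hj (k + 1)).2,
        fun hlt => bud_rw_blk_mass hM hr hS hj hov hlt⟩)
    have hfin : 4 * (t2 - t1) * Q ^ 2 * (w + Cr * budRwZ η t2 k) ≤ 32 * (l : ℝ) ^ 2 * (t2 - t1) * Q ^ 2 * (w + Cr * budRwZ η t2 k) := by
      refine mul_le_mul_of_nonneg_right (mul_le_mul_of_nonneg_right (mul_le_mul_of_nonneg_right ?_ hd) (by positivity)) hws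
      nlinarith
    exact ⟨r1.trans hfin, r2.trans hfin⟩

/-- the projection field of the layer data -/
theorem bud_rw_lay_proj (hM : M.Ok) (hr : BudRwRad M rad) (hS : BudRwSusH M rad K η t1 t2 cr Cr w D) {Pi : ℝ} (hn : 1 ≤ n)
    {j : ℕ} (hj : j ≤ M.L) (hov : 0 < (M.re rad).ov j t1 t2) {k : ℕ} (hk : 1 ≤ k)
    (hlt : budRwCut M rad η t1 j k < budRwCut M rad η t1 j (k + 1)) :
    ∃ j1, j ≤ j1 ∧ j1 < budRwCut M rad η t1 j k ∧ 0 < M.mass (j1 + 1) ∧ M.hck j1 < M.hck (budRwCut M rad η t1 j k) ∧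
      (Pi / (M.mass (j1 + 1) * Real.sqrt (n * (M.hck (budRwCut M rad η t1 j k) - M.hck j1)))) ^ 2 ≤ budRwPi n Pi cr η t1 D k := by
  have hOk := CmPath.re_ok hM hr
  have hη := hS.hη
  have ht1 := hS.ht1
  obtain ⟨a1, a2, a3, a4⟩ := bud_rw_nd_fork hM hr hj hov
  obtain ⟨t, ht⟩ : ∃ t : ℝ, t = max (rad j) t1 := ⟨_, rfl⟩
  rw [← ht] at a1 a2 a3 a4
  have hmono := bud_rw_cut_mono hM hr hη.le ht1.le hj
  have h00 : budRwCut M rad η t1 j 0 = j := by simp [budRwCut]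
  have hthr := bud_rw_thr_mono hη.le t
  -- the threshold `k` is below `1`
  have hck : budRwCut M rad η t1 j k = (M.re rad).ct (budRwThr η t k) := by
    unfold budRwCut; rw [if_neg (by omega), ht]
  have hk1 : budRwThr η t k < 1 := by
    by_contra hcon
    have h1 : budRwCut M rad η t1 j k = M.L + 1 := by
      rw [hck]; unfold ct; rw [if_neg hcon]; rfl
    have h2 := (bud_rw_rad_cut hM hr hη.le ht1.le hj (k + 1)).2
    omega
  have hck' : budRwCut M rad η t1 j k = (M.re rad).nd (budRwThr η t k) := by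
    rw [hck]; unfold ct; rw [if_pos hk1]
  have hk0 : budRwThr η t (k - 1) < 1 := lt_of_le_of_lt (hthr (Nat.sub_le k 1)) hk1
  have hj1 : budRwCut M rad η t1 j (k - 1) = (M.re rad).nd (budRwThr η t (k - 1)) := by
    rcases Nat.eq_or_lt_of_le hk with h | h
    · rw [← h]
      show budRwCut M rad η t1 j 0 = (M.re rad).nd t
      rw [h00, a1]
    · unfold budRwCut; rw [if_neg (by omega), ← ht]; unfold ct; rw [if_pos hk0]
  have hclk := hS.clk t a3 a4 k hk hk1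
  have hD := hS.D_pos k
  have hH : D k ≤ M.hck (budRwCut M rad η t1 j k) - M.hck (budRwCut M rad η t1 j (k - 1)) := by
    rw [hck', hj1]; exact hclk
  have hlt' : M.hck (budRwCut M rad η t1 j (k - 1)) < M.hck (budRwCut M rad η t1 j k) := by linarith
  have hjlt : budRwCut M rad η t1 j (k - 1) < budRwCut M rad η t1 j k := by
    by_contra hcon
    have := hM.hck_mono (not_lt.1 hcon)
    linarith
  have hjL : budRwCut M rad η t1 j (k - 1) + 1 ≤ M.L + 1 := by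
    rw [hj1]; exact Nat.succ_le_succ (nd_le (M.re rad) _)
  have hrad : budRwThr η t (k - 1) < rad (budRwCut M rad η t1 j (k - 1) + 1) := by
    rw [hj1]; exact lt_mass_nd_succ (M := M.re rad) hOk hk0
  have htt : t ≤ budRwThr η t (k - 1) := bud_rw_thr_ge hη.le t _
  have hth1 : budRwThr η t1 (k - 1) ≤ budRwThr η t (k - 1) := bud_rw_thr_le a3 _
  have hth0 : 0 < budRwThr η t1 (k - 1) := lt_of_lt_of_le ht1 (bud_rw_thr_ge hη.le t1 _)
  have hlo := hS.lo _ hjL (by linarith)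
  have hcr := hS.hcr
  have hmass : cr * budRwThr η t1 (k - 1) ≤ M.mass (budRwCut M rad η t1 j (k - 1) + 1) := by
    refine le_trans (mul_le_mul_of_nonneg_left ?_ hcr.le) hlo
    linarith
  have hm0 : 0 < cr * budRwThr η t1 (k - 1) := mul_pos hcr hth0
  refine ⟨budRwCut M rad η t1 j (k - 1), ?_, hjlt, lt_of_lt_of_le hm0 hmass, hlt', ?_⟩
  · have := hmono (Nat.zero_le (k - 1))
    rwa [h00] at this
  · have hn0 : (0 : ℝ) < n := by exact_mod_cast (by omega : 0 < n)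
    unfold budRwPi
    rw [div_pow, mul_pow, Real.sq_sqrt (by nlinarith)]
    refine div_le_div_of_nonneg_left (sq_nonneg _) (by positivity) ?_
    refine mul_le_mul (pow_le_pow_left₀ hm0.le hmass 2) (mul_le_mul_of_nonneg_left hH hn0.le) (by positivity) (by positivity)

/-- **the dyadic radius layers are layer data** -/
theorem bud_rw_lay (hM : M.Ok) (hr : BudRwRad M rad) (hS : BudRwSusH M rad K η t1 t2 cr Cr w D) {l : ℕ} (hl : 1 ≤ l) {Pi Q : ℝ} (hPi : 0 < Pi)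
    (hQ : 1 ≤ Q) (hR : M.Raw (4 * l) Q w) (hn : 1 ≤ n) :
    BudRwLay M K (fun j => (M.re rad).ov j t1 t2) (budRwCut M rad η t1) (budRwMu Cr η t2) (budRwPi n Pi cr η t1 D)
      (budRwA l Q w Cr η t1 t2) Pi l := by
  have hη := hS.hη
  have ht1 := hS.ht1
  have ht20 : 0 ≤ t2 := ht1.le.trans hS.h12
  have hCr0 : 0 ≤ Cr := by linarith [hS.hCr]
  refine ⟨fun j => ov_nonneg _ _ _ _, fun j hj => bud_rw_cut_mono hM hr hη.le ht1.le hj, fun j _ => by simp [budRwCut], ?_,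
    fun k => mul_nonneg hCr0 (bud_rw_Z_nonneg hη.le ht20 k), fun j hj hov k _ hlt => bud_rw_blk_mass hM hr hS hj hov hlt, ?_,
    fun j hj hov k hk _ hlt => bud_rw_lay_proj hM hr hS hn hj hov hk hlt,
    fun k _ => (bud_rw_lay_anc hM hr hS hl hQ hR k).1, fun k _ => (bud_rw_lay_anc hM hr hS hl hQ hR k).2⟩
  · intro j _
    obtain ⟨K', rfl⟩ : ∃ K', K = K' + 1 := ⟨K - 1, by have := hS.hK1; omega⟩
    rw [bud_rw_cut_succ]
    unfold ct
    rw [if_neg]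
    · rfl
    · have h1 := hS.hK
      simp only [Nat.add_sub_cancel] at h1
      have := le_max_right (rad j) t1
      rw [not_lt]
      linarith
  · intro k
    have hn0 : (0 : ℝ) < n := by exact_mod_cast (by omega : 0 < n)
    have hth0 : 0 < budRwThr η t1 (k - 1) := lt_of_lt_of_le ht1 (bud_rw_thr_ge hη.le t1 _)
    have := hS.D_pos k
    have := hS.hcr
    unfold budRwPi
    positivity

/-- **(C9), explicit right side.**   TEX[LL:bud:outer-moments] -/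
theorem bud_rw_sus (hM : M.Ok) (hr : BudRwRad M rad) (hS : BudRwSusH M rad K η t1 t2 cr Cr w D) {l r : ℕ} (hl : 1 ≤ l) (hr1 : 1 ≤ r) {Pi Q θ : ℝ}
    (hPi : 0 < Pi) (hQ : 1 ≤ Q) (hP2 : M.Proj 2 Pi) (hPr : M.Proj (2 * r * l) Pi) (hR : M.Raw (4 * l) Q w) (hn : 1 ≤ n) (hθ : 0 < θ) (hθ1 : θ ≤ 1) :
    cmN M.P l ((M.re rad).intg M.W t1 t2)
      ≤ budRwLayR K (budRwMu Cr η t2) (budRwPi n Pi cr η t1 D) (budRwA l Q w Cr η t1 t2) (t2 - t1) θ r :=
  bud_rw_layer hM hl hr1 hPi.le hP2 hPr (bud_rw_lay hM hr hS hl hPi hQ hR hn)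
    (sum_ov (M := M.re rad) (CmPath.re_ok hM hr) hS.ht1.le hS.h12 hS.ht2.le).le hθ hθ1

theorem bud_rw_Z_mono (hη : 0 ≤ η) (t2 : ℝ) : Monotone (budRwZ η t2) := by
  intro a b hab
  unfold budRwZ
  refine min_le_min le_rfl ?_
  have : (2 : ℝ) ^ a ≤ 2 ^ b := pow_le_pow_right₀ (by norm_num) hab
  nlinarith

set_option maxHeartbeats 1000000 in
/-- pure arithmetic: the right side of `bud_rw_sus` under the three numerical conditions
(`G0 ≍ 1/e(v)`: short layers `z ≍ v`, `D k ≍ e(v) 2^k η`; large layers `D k ≍ e(z) z`, `z e(z) ≳ v e(v)`, `t2 - t1 ≲ v`). -/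
theorem bud_rw_layR_num {n K l r : ℕ} {η t1 t2 cr Cr w Pi Q θ G0 : ℝ} {D : ℕ → ℝ} (hn : 1 ≤ n) (hK : 1 ≤ K) (hl : 1 ≤ l) (hr1 : 1 ≤ r) (hη : 0 < η)
    (ht1 : 0 < t1) (h12 : t1 < t2) (hw : 0 < w) (hcr : 0 < cr) (hcr1 : cr ≤ 1) (hCr : 1 ≤ Cr) (hPi : 1 ≤ Pi) (hQ : 1 ≤ Q) (hθ : 0 < θ) (hθ1 : θ ≤ 1)
    (hD : ∀ k, 0 < D k) (hG0 : 0 ≤ G0)
    (h1 : ∀ k, 1 ≤ k → k < K →
      budRwZ η t2 k * min (2 ^ k * η) (t2 - t1) * (w + Cr * budRwZ η t2 k) ≤ G0 * (budRwThr η t1 (k - 1) ^ 2 * D k))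
    (h2 : (t2 - t1) * θ ^ r ≤ min η (t2 - t1) * w)
    (h3 : budRwZ η t2 0 * η * (w + Cr * budRwZ η t2 0) ≤ G0 / n) :
    budRwLayR K (budRwMu Cr η t2) (budRwPi n Pi cr η t1 D) (budRwA l Q w Cr η t1 t2) (t2 - t1) θ r
      ≤ 200 * l ^ 2 * K ^ 3 * Cr * Pi ^ 2 * Q ^ 2 * G0 / (cr ^ 2 * n * θ) := by
  have hn0 : (0 : ℝ) < n := by exact_mod_cast (by omega : 0 < n)
  have hl1 : (1 : ℝ) ≤ l := by exact_mod_cast hl
  have hK1 : (1 : ℝ) ≤ K := by exact_mod_cast hK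
  have hCr0 : 0 < Cr := by linarith
  have hQ0 : 0 < Q := by linarith
  have hPi0 : 0 < Pi := by linarith
  obtain ⟨J, hJ⟩ : ∃ J : ℝ, J = t2 - t1 := ⟨_, rfl⟩
  rw [← hJ] at h1 h2 ⊢
  have hJ0 : 0 < J := by rw [hJ]; linarith
  have hZm := bud_rw_Z_mono hη.le t2
  have hZ0 : ∀ k, 0 ≤ budRwZ η t2 k := bud_rw_Z_nonneg hη.le (by linarith)
  obtain ⟨m, hm⟩ : ∃ m : ℕ → ℝ, m = fun k => min (2 ^ k * η) J := ⟨_, rfl⟩
  have hm0 : ∀ k, 0 ≤ m k := fun k => by rw [hm]; exact le_min (by positivity) hJ0.le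
  have hmm : Monotone m := by
    intro a b hab
    rw [hm]
    refine min_le_min ?_ le_rfl
    have : (2 : ℝ) ^ a ≤ 2 ^ b := pow_le_pow_right₀ (by norm_num) hab
    nlinarith
  have hm00 : m 0 = min η J := by rw [hm]; simp
  obtain ⟨a, ha⟩ : ∃ a : ℕ → ℝ, a = fun k => w + Cr * budRwZ η t2 k := ⟨_, rfl⟩
  have ha0 : ∀ k, 0 < a k := fun k => by rw [ha]; have := hZ0 k; positivity
  have haw : ∀ k, w ≤ a k := fun k => by rw [ha]; have := mul_nonneg hCr0.le (hZ0 k); simp only; linarith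
  have ham : Monotone a := by
    intro x y hxy
    rw [ha]
    have := mul_le_mul_of_nonneg_left (hZm hxy) hCr0.le
    simp only
    linarith
  have hA : ∀ k, budRwA l Q w Cr η t1 t2 k = 32 * (l : ℝ) ^ 2 * m k * Q ^ 2 * a k := fun k => by
    unfold budRwA; rw [hm, ha, hJ]
  obtain ⟨B, hB⟩ : ∃ B : ℝ, B = (l : ℝ) ^ 2 * Cr * Pi ^ 2 * Q ^ 2 * G0 / (cr ^ 2 * n * θ) := ⟨_, rfl⟩
  have hB0 : 0 ≤ B := by rw [hB]; positivity
  have hfac : 1 ≤ Pi ^ 2 / (cr ^ 2 * θ) := by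
    rw [le_div_iff₀ (by positivity)]
    have h4 : cr ^ 2 ≤ 1 := pow_le_one₀ hcr.le hcr1
    have h5 : cr ^ 2 * θ ≤ 1 := mul_le_one₀ h4 hθ.le hθ1
    nlinarith
  have hfirst : budRwMu Cr η t2 0 * (4 * budRwA l Q w Cr η t1 t2 0) ≤ 128 * B := by
    rw [hA]
    unfold budRwMu
    have h4 : m 0 ≤ η := by rw [hm00]; exact min_le_left _ _
    have h3' : budRwZ η t2 0 * η * a 0 ≤ G0 / n := by rw [ha]; exact h3
    calc Cr * budRwZ η t2 0 * (4 * (32 * (l : ℝ) ^ 2 * m 0 * Q ^ 2 * a 0))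
        = 128 * (l : ℝ) ^ 2 * Q ^ 2 * Cr * (budRwZ η t2 0 * m 0 * a 0) := by ring
      _ ≤ 128 * (l : ℝ) ^ 2 * Q ^ 2 * Cr * (budRwZ η t2 0 * η * a 0) := by
          refine mul_le_mul_of_nonneg_left ?_ (by positivity)
          exact mul_le_mul_of_nonneg_right (mul_le_mul_of_nonneg_left h4 (hZ0 0)) (ha0 0).le
      _ ≤ 128 * (l : ℝ) ^ 2 * Q ^ 2 * Cr * (G0 / n) := mul_le_mul_of_nonneg_left h3' (by positivity)
      _ = 128 * (l : ℝ) ^ 2 * Q ^ 2 * Cr * (G0 / n) * 1 := by ring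
      _ ≤ 128 * (l : ℝ) ^ 2 * Q ^ 2 * Cr * (G0 / n) * (Pi ^ 2 / (cr ^ 2 * θ)) := mul_le_mul_of_nonneg_left hfac (by positivity)
      _ = 128 * B := by rw [hB]; field_simp
  have hpair : ∀ i k, i < K → k < K → ¬ (i = 0 ∧ k = 0) →
      budRwMu Cr η t2 k * (budRwPi n Pi cr η t1 D (max i k) * (budRwA l Q w Cr η t1 t2 (min i k) / θ + 4 * J * θ ^ (r - 1))) ≤ 36 * B := by
    intro i k hi hk hik
    obtain ⟨q, hq⟩ : ∃ q : ℕ, q = max i k := ⟨_, rfl⟩
    rw [← hq]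
    have hq1 : 1 ≤ q := by
      rw [hq]
      rcases Nat.eq_zero_or_pos i with h | h
      · rcases Nat.eq_zero_or_pos k with h' | h'
        · exact absurd ⟨h, h'⟩ hik
        · exact h'.trans_le (le_max_right _ _)
      · exact h.trans_le (le_max_left _ _)
    have hqK : q < K := by rw [hq]; exact max_lt hi hk
    have hkq : k ≤ q := hq ▸ le_max_right _ _
    have hpq : min i k ≤ q := (min_le_right _ _).trans hkq
    have hT0 : 0 < budRwThr η t1 (q - 1) := lt_of_lt_of_le ht1 (bud_rw_thr_ge hη.le t1 _)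
    have hDq := hD q
    have hX : budRwZ η t2 q * m q * a q ≤ G0 * (budRwThr η t1 (q - 1) ^ 2 * D q) := by
      rw [hm, ha]; exact h1 q hq1 hqK
    have hX' : budRwZ η t2 q * m q * a q / (budRwThr η t1 (q - 1) ^ 2 * D q) ≤ G0 := by
      rw [div_le_iff₀ (by positivity)]; exact hX
    have hmu : budRwMu Cr η t2 k ≤ Cr * budRwZ η t2 q := mul_le_mul_of_nonneg_left (hZm hkq) hCr0.le
    have hmu0 : 0 ≤ budRwMu Cr η t2 k := mul_nonneg hCr0.le (hZ0 k)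
    have hAp : budRwA l Q w Cr η t1 t2 (min i k) ≤ 32 * (l : ℝ) ^ 2 * Q ^ 2 * (m q * a q) := by
      rw [hA]
      calc 32 * (l : ℝ) ^ 2 * m (min i k) * Q ^ 2 * a (min i k) = 32 * (l : ℝ) ^ 2 * Q ^ 2 * (m (min i k) * a (min i k)) := by ring
        _ ≤ _ := mul_le_mul_of_nonneg_left (mul_le_mul (hmm hpq) (ham hpq) (ha0 _).le (hm0 _)) (by positivity)
    have hlQ : 1 ≤ (l : ℝ) ^ 2 * Q ^ 2 := by
      have h5 : 1 ≤ (l : ℝ) ^ 2 := one_le_pow₀ hl1
      have h6 : 1 ≤ Q ^ 2 := one_le_pow₀ hQ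
      nlinarith
    have hrem : 4 * J * θ ^ (r - 1) ≤ 4 * (l : ℝ) ^ 2 * Q ^ 2 * (m q * a q) / θ := by
      rw [le_div_iff₀ hθ]
      have e : 4 * J * θ ^ (r - 1) * θ = 4 * (J * θ ^ r) := by
        obtain ⟨r', rfl⟩ : ∃ r', r = r' + 1 := ⟨r - 1, by omega⟩
        simp only [Nat.add_sub_cancel]
        ring
      rw [e]
      have h5 : J * θ ^ r ≤ m q * a q := by
        refine h2.trans ?_
        rw [← hm00]
        exact mul_le_mul (hmm (Nat.zero_le q)) (haw q) hw.le (hm0 q)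
      have h6 : 0 ≤ m q * a q := mul_nonneg (hm0 q) (ha0 q).le
      nlinarith
    have hS : budRwA l Q w Cr η t1 t2 (min i k) / θ + 4 * J * θ ^ (r - 1) ≤ 36 * (l : ℝ) ^ 2 * Q ^ 2 * (m q * a q) / θ := by
      have h5 := div_le_div_of_nonneg_right hAp hθ.le
      calc budRwA l Q w Cr η t1 t2 (min i k) / θ + 4 * J * θ ^ (r - 1)
          ≤ 32 * (l : ℝ) ^ 2 * Q ^ 2 * (m q * a q) / θ + 4 * (l : ℝ) ^ 2 * Q ^ 2 * (m q * a q) / θ := add_le_add h5 hrem
        _ = _ := by ring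
    have hpi0 : 0 ≤ budRwPi n Pi cr η t1 D q := by unfold budRwPi; positivity
    have hS0 : 0 ≤ 36 * (l : ℝ) ^ 2 * Q ^ 2 * (m q * a q) / θ := by
      have := hm0 q; have := ha0 q; positivity
    calc budRwMu Cr η t2 k * (budRwPi n Pi cr η t1 D q * (budRwA l Q w Cr η t1 t2 (min i k) / θ + 4 * J * θ ^ (r - 1)))
        ≤ Cr * budRwZ η t2 q * (budRwPi n Pi cr η t1 D q * (36 * (l : ℝ) ^ 2 * Q ^ 2 * (m q * a q) / θ)) :=
          mul_le_mul hmu (mul_le_mul_of_nonneg_left hS hpi0) (by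
            refine mul_nonneg hpi0 ?_
            have h7 : 0 ≤ budRwA l Q w Cr η t1 t2 (min i k) := by
              rw [hA]; have := hm0 (min i k); have := ha0 (min i k); positivity
            positivity) (mul_nonneg hCr0.le (hZ0 q))
      _ = 36 * ((l : ℝ) ^ 2 * Cr * Pi ^ 2 * Q ^ 2 / (cr ^ 2 * n * θ)) *
            (budRwZ η t2 q * m q * a q / (budRwThr η t1 (q - 1) ^ 2 * D q)) := by
          unfold budRwPi
          field_simp
      _ ≤ 36 * ((l : ℝ) ^ 2 * Cr * Pi ^ 2 * Q ^ 2 / (cr ^ 2 * n * θ)) * G0 := mul_le_mul_of_nonneg_left hX' (by positivity)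
      _ = 36 * B := by rw [hB]; ring
  have hsum : ∑ i ∈ Finset.range K, ∑ k ∈ Finset.range K,
      (if i = 0 ∧ k = 0 then 0 else budRwMu Cr η t2 k * (budRwPi n Pi cr η t1 D (max i k) *
        (budRwA l Q w Cr η t1 t2 (min i k) / θ + 4 * J * θ ^ (r - 1)))) ≤ (K : ℝ) * (K * (36 * B)) := by
    calc _ ≤ ∑ _i ∈ Finset.range K, ∑ _k ∈ Finset.range K, 36 * B := by
          refine Finset.sum_le_sum fun i hi => Finset.sum_le_sum fun k hk => ?_
          split_ifs with hik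
          · positivity
          · exact hpair i k (Finset.mem_range.1 hi) (Finset.mem_range.1 hk) hik
      _ = _ := by simp
  unfold budRwLayR
  have hK2 : (1 : ℝ) ≤ (K : ℝ) * K := one_le_mul_of_one_le_of_one_le hK1 hK1
  calc (K : ℝ) * (budRwMu Cr η t2 0 * (4 * budRwA l Q w Cr η t1 t2 0) + ∑ i ∈ Finset.range K, ∑ k ∈ Finset.range K,
      (if i = 0 ∧ k = 0 then 0 else budRwMu Cr η t2 k * (budRwPi n Pi cr η t1 D (max i k) *
        (budRwA l Q w Cr η t1 t2 (min i k) / θ + 4 * J * θ ^ (r - 1)))))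
      ≤ (K : ℝ) * (128 * B + (K : ℝ) * (K * (36 * B))) := mul_le_mul_of_nonneg_left (add_le_add hfirst hsum) (by positivity)
    _ ≤ (K : ℝ) * (200 * ((K : ℝ) * K) * B) := by
        refine mul_le_mul_of_nonneg_left ?_ (by positivity)
        nlinarith [mul_nonneg (sub_nonneg.2 hK2) hB0]
    _ = _ := by rw [hB]; ring


/-- **(C9), closed form.**   TEX[LL:bud:outer-moments] -/
theorem bud_rw_sus_num (hM : M.Ok) (hr : BudRwRad M rad) (hS : BudRwSusH M rad K η t1 t2 cr Cr w D) {l r : ℕ} (hl : 1 ≤ l) (hr1 : 1 ≤ r)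
    {Pi Q θ G0 : ℝ} (hPi : 1 ≤ Pi) (hQ : 1 ≤ Q) (hP2 : M.Proj 2 Pi) (hPr : M.Proj (2 * r * l) Pi) (hR : M.Raw (4 * l) Q w) (hn : 1 ≤ n)
    (hθ : 0 < θ) (hθ1 : θ ≤ 1) (h12 : t1 < t2) (hcr1 : cr ≤ 1) (hG0 : 0 ≤ G0)
    (h1 : ∀ k, 1 ≤ k → k < K →
      budRwZ η t2 k * min (2 ^ k * η) (t2 - t1) * (w + Cr * budRwZ η t2 k) ≤ G0 * (budRwThr η t1 (k - 1) ^ 2 * D k))
    (h2 : (t2 - t1) * θ ^ r ≤ min η (t2 - t1) * w)
    (h3 : budRwZ η t2 0 * η * (w + Cr * budRwZ η t2 0) ≤ G0 / n) :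
    cmN M.P l ((M.re rad).intg M.W t1 t2) ≤ 200 * l ^ 2 * K ^ 3 * Cr * Pi ^ 2 * Q ^ 2 * G0 / (cr ^ 2 * n * θ) :=
  (bud_rw_sus hM hr hS hl hr1 (by linarith) hQ hP2 hPr hR hn hθ hθ1).trans
    (bud_rw_layR_num hn hS.hK1 hl hr1 hS.hη hS.ht1 h12 hS.hw hS.hcr hcr1 hS.hCr hPi hQ hθ hθ1 hS.D_pos hG0 h1 h2 h3)

end layers

end Claimed.Agent.R286
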