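import Mathlib

/-!
# Row 286, node N18 (RIG): real-analysis tools, Mathlib only      OWNER helper184

* `rg_ibp`       integration by parts for primitives of `L¹` functions
* `rg_sq_lb_right`, `rg_sq_lb_left`   a Lipschitz function that is `≥ ε` at a point has `∫ f² ≥ ε³/(8M)` next to it
* `rg_interp`    bounds on `g, g'` between two points where `g` is bounded, `g'` Lipschitz
* `rg_trend_int` `z + θ Y z` monotone ⟹ `Y` interval integrable
* `rg_shift`     `∫ (m(z+η) - m(z-η)) dz ≤ 4 η C`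
-/

set_option autoImplicit false

namespace Claimed.Agent.R286

open MeasureTheory Set

private theorem rg_ac_prim {u : ℝ → ℝ} {a b : ℝ} (c : ℝ) (hu : IntervalIntegrable u volume a b) :
    AbsolutelyContinuousOnInterval (fun x => c + ∫ t in a..x, u t) a b := by
  have h0 : AbsolutelyContinuousOnInterval (fun _ : ℝ => c) a b :=
    (LipschitzOnWith.absolutelyContinuousOnInterval (K := 0)
      ((LipschitzWith.const c).lipschitzOnWith))
  exact h0.add (hu.absolutelyContinuousOnInterval_intervalIntegral (c := a) (by simp))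

private theorem rg_deriv_prim {u : ℝ → ℝ} {a b : ℝ} (c : ℝ) (hu : IntervalIntegrable u volume a b) :
    ∀ᵐ x, x ∈ uIcc a b → deriv (fun x => c + ∫ t in a..x, u t) x = u x := by
  filter_upwards [hu.ae_hasDerivAt_integral] with x hx hxm
  exact ((hx hxm a (by simp)).const_add c).deriv

theorem rg_ibp {U V u v : ℝ → ℝ} {a b : ℝ} (hab : a ≤ b)
    (hu : IntervalIntegrable u volume a b) (hv : IntervalIntegrable v volume a b)
    (hU : ∀ x ∈ Icc a b, U x - U a = ∫ t in a..x, u t)
    (hV : ∀ x ∈ Icc a b, V x - V a = ∫ t in a..x, v t) :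
    ∫ x in a..b, (U x * v x + u x * V x) = U b * V b - U a * V a := by
  have h := AbsolutelyContinuousOnInterval.integral_deriv_mul_eq_sub
    (rg_ac_prim (U a) hu) (rg_ac_prim (V a) hv)
  have hUb := hU b ⟨hab, le_rfl⟩
  have hVb := hV b ⟨hab, le_rfl⟩
  have e1 : U b * V b - U a * V a
      = (U a + ∫ t in a..b, u t) * (V a + ∫ t in a..b, v t)
        - (U a + ∫ t in a..a, u t) * (V a + ∫ t in a..a, v t) := by
    rw [← hUb, ← hVb]; simp
  rw [e1, ← h]
  apply intervalIntegral.integral_congr_ae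
  filter_upwards [rg_deriv_prim (U a) hu, rg_deriv_prim (V a) hv] with x hx1 hx2 hx3
  have hx4 : x ∈ uIcc a b := uIoc_subset_uIcc hx3
  have hx5 : x ∈ Icc a b := by rwa [uIcc_of_le hab] at hx4
  rw [hx1 hx4, hx2 hx4, ← hU x hx5, ← hV x hx5]
  ring

theorem rg_ibp_int {U v : ℝ → ℝ} {u : ℝ → ℝ} {a b : ℝ} (hab : a ≤ b)
    (hu : IntervalIntegrable u volume a b) (hv : IntervalIntegrable v volume a b)
    (hU : ∀ x ∈ Icc a b, U x - U a = ∫ t in a..x, u t) :
    IntervalIntegrable (fun x => U x * v x) volume a b := by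
  have hc : ContinuousOn U (uIcc a b) := by
    have h1 := (rg_ac_prim (U a) hu).continuousOn
    refine h1.congr ?_
    intro x hx
    rw [uIcc_of_le hab] at hx
    have := hU x hx
    simp only
    linarith
  exact hv.continuousOn_mul hc

theorem rg_sq_lb_right {f : ℝ → ℝ} {z ε M : ℝ} (hε : 0 < ε) (hM : 0 < M)
    (hl : ∀ x ∈ Icc z (z + ε / (2 * M)), |f x - f z| ≤ M * (x - z)) (hz : ε ≤ |f z|)
    (hf : IntervalIntegrable (fun x => f x ^ 2) volume z (z + ε / (2 * M))) :
    ε ^ 3 / (8 * M) ≤ ∫ x in z..(z + ε / (2 * M)), f x ^ 2 := by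
  have hd : 0 < ε / (2 * M) := by positivity
  have h1 : ∫ _x in z..(z + ε / (2 * M)), (ε / 2) ^ 2 ≤ ∫ x in z..(z + ε / (2 * M)), f x ^ 2 := by
    apply intervalIntegral.integral_mono_on (by linarith) (by simp) hf
    intro x hx
    have h2 := hl x hx
    have h3 : M * (x - z) ≤ ε / 2 := by
      have : x - z ≤ ε / (2 * M) := by linarith [hx.2]
      calc M * (x - z) ≤ M * (ε / (2 * M)) := by gcongr
        _ = ε / 2 := by field_simp
    have h4 : ε / 2 ≤ |f x| := by
      have : |f z| - |f x| ≤ |f x - f z| := by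
        rw [abs_sub_comm]; exact abs_sub_abs_le_abs_sub _ _
      linarith
    rw [← sq_abs (f x)]
    gcongr
  have h5 : ∫ _x in z..(z + ε / (2 * M)), (ε / 2) ^ 2 = ε ^ 3 / (8 * M) := by
    rw [intervalIntegral.integral_const]
    simp only [add_sub_cancel_left, smul_eq_mul]
    field_simp
    ring
  linarith

theorem rg_sq_lb_left {f : ℝ → ℝ} {z ε M : ℝ} (hε : 0 < ε) (hM : 0 < M)
    (hl : ∀ x ∈ Icc (z - ε / (2 * M)) z, |f x - f z| ≤ M * (z - x)) (hz : ε ≤ |f z|)
    (hf : IntervalIntegrable (fun x => f x ^ 2) volume (z - ε / (2 * M)) z) :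
    ε ^ 3 / (8 * M) ≤ ∫ x in (z - ε / (2 * M))..z, f x ^ 2 := by
  have hd : 0 < ε / (2 * M) := by positivity
  have h1 : ∫ _x in (z - ε / (2 * M))..z, (ε / 2) ^ 2 ≤ ∫ x in (z - ε / (2 * M))..z, f x ^ 2 := by
    apply intervalIntegral.integral_mono_on (by linarith) (by simp) hf
    intro x hx
    have h2 := hl x hx
    have h3 : M * (z - x) ≤ ε / 2 := by
      have : z - x ≤ ε / (2 * M) := by linarith [hx.1]
      calc M * (z - x) ≤ M * (ε / (2 * M)) := by gcongr
        _ = ε / 2 := by field_simp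
    have h4 : ε / 2 ≤ |f x| := by
      have : |f z| - |f x| ≤ |f x - f z| := by
        rw [abs_sub_comm]; exact abs_sub_abs_le_abs_sub _ _
      linarith
    rw [← sq_abs (f x)]
    gcongr
  have h5 : ∫ _x in (z - ε / (2 * M))..z, (ε / 2) ^ 2 = ε ^ 3 / (8 * M) := by
    rw [intervalIntegral.integral_const]
    simp only [sub_sub_cancel, smul_eq_mul]
    field_simp
    ring
  linarith

theorem rg_trend_int {Y : ℝ → ℝ} {θ a b : ℝ} (hθ : 0 < θ) (hab : a ≤ b)
    (hm : MonotoneOn (fun z => z + θ * Y z) (Icc a b)) : IntervalIntegrable Y volume a b := by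
  have h1 : IntervalIntegrable (fun z => z + θ * Y z) volume a b := by
    apply MonotoneOn.intervalIntegrable
    rwa [uIcc_of_le hab]
  have h2 : IntervalIntegrable (fun z : ℝ => z) volume a b := continuous_id.intervalIntegrable _ _
  have h3 := (h1.sub h2).const_mul θ⁻¹
  refine h3.congr ?_
  intro z _
  simp only
  field_simp
  ring

theorem rg_interp {g g1 : ℝ → ℝ} {p q K M : ℝ} (hpq : 1 ≤ q - p)
    (hg : ∀ x ∈ Icc p q, HasDerivAt g (g1 x) x)
    (hl : ∀ x ∈ Icc p q, ∀ y ∈ Icc p q, |g1 x - g1 y| ≤ M * |x - y|)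
    (hp : |g p| ≤ K) (hq : |g q| ≤ K) :
    ∀ x ∈ Icc p q, |g1 x| ≤ 2 * K + M * (q - p) ∧ |g x| ≤ K + (2 * K + M * (q - p)) * (q - p) := by
  have hlt : p < q := by linarith
  have hK : 0 ≤ K := le_trans (abs_nonneg _) hp
  have hM : 0 ≤ M := by
    have h := hl p ⟨le_rfl, hlt.le⟩ q ⟨hlt.le, le_rfl⟩
    have h2 : 0 < |p - q| := abs_pos.mpr (by linarith)
    by_contra hneg
    push Not at hneg
    have : M * |p - q| < 0 := mul_neg_of_neg_of_pos hneg h2
    linarith [abs_nonneg (g1 p - g1 q)]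
  obtain ⟨c, hc, hcd⟩ := exists_hasDerivAt_eq_slope g g1 hlt
    (fun x hx => (hg x hx).continuousAt.continuousWithinAt)
    (fun x hx => hg x ⟨hx.1.le, hx.2.le⟩)
  have hcI : c ∈ Icc p q := ⟨hc.1.le, hc.2.le⟩
  have hc1 : |g1 c| ≤ 2 * K := by
    rw [hcd, abs_div, abs_of_pos (by linarith : 0 < q - p)]
    rw [div_le_iff₀ (by linarith)]
    have h1 : |g q - g p| ≤ 2 * K := by
      calc |g q - g p| ≤ |g q| + |g p| := abs_sub _ _
        _ ≤ 2 * K := by linarith
    nlinarith
  have hB : ∀ x ∈ Icc p q, |g1 x| ≤ 2 * K + M * (q - p) := by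
    intro x hx
    have h1 := hl x hx c hcI
    have h2 : |x - c| ≤ q - p := by
      rw [abs_le]; constructor <;> linarith [hx.1, hx.2, hcI.1, hcI.2]
    have h3 : M * |x - c| ≤ M * (q - p) := by gcongr
    have h4 : |g1 x| ≤ |g1 x - g1 c| + |g1 c| := by
      have := abs_add_le (g1 x - g1 c) (g1 c)
      simpa using this
    linarith
  intro x hx
  refine ⟨hB x hx, ?_⟩
  have h5 := (convex_Icc p q).norm_image_sub_le_of_norm_hasDerivWithin_le
    (f := g) (f' := g1) (C := 2 * K + M * (q - p))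
    (fun y hy => (hg y hy).hasDerivWithinAt) (fun y hy => by simpa using hB y hy)
    ⟨le_rfl, hlt.le⟩ hx
  simp only [Real.norm_eq_abs] at h5
  have h6 : |x - p| ≤ q - p := by
    rw [abs_le]; constructor <;> linarith [hx.1, hx.2]
  have hC0 : 0 ≤ 2 * K + M * (q - p) := by
    have : 0 ≤ M * (q - p) := mul_nonneg hM (by linarith)
    linarith
  have h7 : (2 * K + M * (q - p)) * |x - p| ≤ (2 * K + M * (q - p)) * (q - p) := by gcongr
  have h8 : |g x| ≤ |g x - g p| + |g p| := by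
    have := abs_add_le (g x - g p) (g p)
    simpa using this
  linarith

theorem rg_shift {m : ℝ → ℝ} {z₁ z₂ η C : ℝ} (h12 : z₁ ≤ z₂) (hη : 0 ≤ η)
    (hc : ContinuousOn m (Icc (z₁ - η) (z₂ + η))) (hb : ∀ z ∈ Icc (z₁ - η) (z₂ + η), |m z| ≤ C) :
    ∫ z in z₁..z₂, (m (z + η) - m (z - η)) ≤ 4 * η * C := by
  have hI : ∀ s t, s ∈ Icc (z₁ - η) (z₂ + η) → t ∈ Icc (z₁ - η) (z₂ + η) →
      IntervalIntegrable m volume s t := by
    intro s t hs ht
    apply ContinuousOn.intervalIntegrable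
    exact hc.mono (by
      intro x hx
      rcases le_total s t with h | h
      · rw [uIcc_of_le h] at hx; exact ⟨hs.1.trans hx.1, hx.2.trans ht.2⟩
      · rw [uIcc_of_ge h] at hx; exact ⟨ht.1.trans hx.1, hx.2.trans hs.2⟩)
  have m1 : z₁ - η ∈ Icc (z₁ - η) (z₂ + η) := ⟨le_rfl, by linarith⟩
  have m2 : z₁ + η ∈ Icc (z₁ - η) (z₂ + η) := ⟨by linarith, by linarith⟩
  have m3 : z₂ - η ∈ Icc (z₁ - η) (z₂ + η) := ⟨by linarith, by linarith⟩
  have m4 : z₂ + η ∈ Icc (z₁ - η) (z₂ + η) := ⟨by linarith, le_rfl⟩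
  have i1 : IntervalIntegrable (fun z => m (z + η)) volume z₁ z₂ := by
    have := (hI _ _ m2 m4).comp_add_right η
    simpa using this
  have i2 : IntervalIntegrable (fun z => m (z - η)) volume z₁ z₂ := by
    have := (hI _ _ m1 m3).comp_sub_right η
    simpa using this
  rw [intervalIntegral.integral_sub i1 i2, intervalIntegral.integral_comp_add_right,
    intervalIntegral.integral_comp_sub_right]
  have e : (∫ x in (z₁ + η)..(z₂ + η), m x) - ∫ x in (z₁ - η)..(z₂ - η), m x
      = (∫ x in (z₂ - η)..(z₂ + η), m x) - ∫ x in (z₁ - η)..(z₁ + η), m x := by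
    have a1 := intervalIntegral.integral_add_adjacent_intervals (hI _ _ m1 m2) (hI _ _ m2 m4)
    have a2 := intervalIntegral.integral_add_adjacent_intervals (hI _ _ m1 m3) (hI _ _ m3 m4)
    linarith
  rw [e]
  have b1 : |∫ x in (z₂ - η)..(z₂ + η), m x| ≤ C * |z₂ + η - (z₂ - η)| := by
    rw [← Real.norm_eq_abs]
    apply intervalIntegral.norm_integral_le_of_norm_le_const
    intro x hx
    rw [Real.norm_eq_abs]
    rw [uIoc_of_le (by linarith)] at hx
    exact hb x ⟨by linarith [hx.1], hx.2⟩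
  have b2 : |∫ x in (z₁ - η)..(z₁ + η), m x| ≤ C * |z₁ + η - (z₁ - η)| := by
    rw [← Real.norm_eq_abs]
    apply intervalIntegral.norm_integral_le_of_norm_le_const
    intro x hx
    rw [Real.norm_eq_abs]
    rw [uIoc_of_le (by linarith)] at hx
    exact hb x ⟨hx.1.le, by linarith [hx.2]⟩
  have c1 : |z₂ + η - (z₂ - η)| = 2 * η := by rw [abs_of_nonneg (by linarith)]; ring
  have c2 : |z₁ + η - (z₁ - η)| = 2 * η := by rw [abs_of_nonneg (by linarith)]; ring
  rw [c1] at b1
  rw [c2] at b2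
  have d1 := (abs_le.mp b1).2
  have d2 := (abs_le.mp b2).1
  linarith

end Claimed.Agent.R286
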