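import Claimed.Agent.R286.Bud.RigDefs
import Claimed.Agent.R286.Bud.RigTool

/-!
# Row 286, node N18 (RIG), regime A, unit A1a: constants, mass, nonfloor points, boxes      ARCHITECT helper184, PROVER: see header line below
PROVER: helper231 (rgA_ebox, rgA_ebox1, rgA_good); top half helper85 (done)

Everything is at ONE record `d` with `h : d.Ok C cβ A cD δ W`.  Plan and all computations: header of `Bud/RigA2.lean`
and origin/helper184:notes/R286/RIGA_plan.md.   Constants (functions of `C cβ A` only):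
`rgL` length (in units of `θ`) of an interval that must contain nonfloor mass `≥ θ/2`;  `rgM` Lipschitz constant of `g1`;
`rgK` bound of `g` at calibrated points;  `rgaG1`, `rgaG` bounds of `g1`, `g`;  `rgaS` margin of the inner window;  `rgδ` basic smallness.
-/

set_option autoImplicit false

namespace Claimed.Agent.R286

open MeasureTheory Set

noncomputable def rgL (C cβ : ℝ) : ℝ := 2 * (2 * C + 1) / cβ
noncomputable def rgM (C A : ℝ) : ℝ := A * C + 1
noncomputable def rgK (C cβ : ℝ) : ℝ := C ^ 2 / cβ + 1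
noncomputable def rgaG1 (C cβ A : ℝ) : ℝ := 2 * rgK C cβ + rgM C A * (2 * rgL C cβ + 6)
noncomputable def rgaG (C cβ A : ℝ) : ℝ := rgK C cβ + rgaG1 C cβ A * (2 * rgL C cβ + 6)
noncomputable def rgaS (C cβ : ℝ) : ℝ := 2 * rgL C cβ + 2 * C + 12
noncomputable def rgδ (C cβ : ℝ) : ℝ := min (min (1 / 8) (cβ / 2)) (1 / (C + 4 * rgL C cβ + 8))

theorem bud_rigA1_eqns_cite : True := by
  have := @rgL.eq_1
  have := @rgM.eq_1
  have := @rgK.eq_1
  have := @rgaG1.eq_1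
  have := @rgaG.eq_1
  have := @rgaS.eq_1
  have := @rgδ.eq_1
  trivial

variable {d : RigD} {C cβ A cD δ W : ℝ}

/-- (1) the mass of an interval -/
theorem rgA_rho (h : d.Ok C cβ A cD δ W) {z₁ z₂ : ℝ} (h₁ : z₁ ∈ Icc (-W) W) (h₂ : z₂ ∈ Icc (-W) W) :
    ∫ z in z₁..z₂, d.ρ z = d.θ * (d.m z₂ - d.m z₁) + ∫ z in z₁..z₂, d.β z := by
  have hW : -W ≤ W := h₁.1.trans h₁.2
  have hu : uIcc z₁ z₂ ⊆ uIcc (-W) W := by
    rw [uIcc_of_le hW]; exact uIcc_subset_Icc h₁ h₂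
  rw [h.m_eq z₁ h₁ z₂ h₂, intervalIntegral.integral_sub (h.ρ_int.mono_set hu) (h.β_int.mono_set hu)]
  ring

/-- `m` is continuous on the window -/
theorem rgA_m_cont (h : d.Ok C cβ A cD δ W) : ContinuousOn d.m (Icc (-W) W) := by
  rcases lt_or_ge W (-W) with hW | hW
  · rw [Icc_eq_empty (not_le.2 hW)]; exact continuousOn_empty _
  have hθ := h.θ_pos
  have h0 : -W ∈ Icc (-W) W := ⟨le_rfl, hW⟩
  have hc : ContinuousOn (fun x => ∫ t in (-W)..x, (d.ρ t - d.β t)) (uIcc (-W) W) :=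
    intervalIntegral.continuousOn_primitive_interval' (h.ρ_int.sub h.β_int) left_mem_uIcc
  rw [uIcc_of_le hW] at hc
  have hc2 : ContinuousOn (fun x => d.m (-W) + d.θ⁻¹ * ∫ t in (-W)..x, (d.ρ t - d.β t)) (Icc (-W) W) :=
    continuousOn_const.add (continuousOn_const.mul hc)
  refine hc2.congr fun x hx => ?_
  simp only
  rw [← h.m_eq (-W) h0 x hx]
  field_simp
  ring

/-- (2) nonfloor mass `≥ θ/2` in every interval of length `rgL θ` -/
theorem rgA_mass (h : d.Ok C cβ A cD δ W) (hC : 0 < C) (hcβ : 0 < cβ) (hδ0 : 0 < δ) (hδ : δ ≤ rgδ C cβ)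
    {p : ℝ} (hp : -W ≤ p) (hp' : p + rgL C cβ * d.θ ≤ W) :
    d.θ / 2 ≤ ∫ z in p..(p + rgL C cβ * d.θ), (d.Fᶜ).indicator d.ρ z := by
  have hθ := h.θ_pos
  have hL : 0 < rgL C cβ := by unfold rgL; positivity
  have hδc : δ ≤ cβ / 2 := hδ.trans ((min_le_left _ _).trans (min_le_right _ _))
  have hδL : δ ≤ 1 / (C + 4 * rgL C cβ + 8) := hδ.trans (min_le_right _ _)
  have hpq : p ≤ p + rgL C cβ * d.θ := by nlinarith
  have hsub : Icc p (p + rgL C cβ * d.θ) ⊆ Icc (-W) W := Icc_subset_Icc hp hp'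
  have hu : uIcc p (p + rgL C cβ * d.θ) ⊆ uIcc (-W) W := by
    rw [uIcc_of_le hpq, uIcc_of_le (by linarith)]; exact hsub
  have hp₁ : p ∈ Icc (-W) W := hsub ⟨le_rfl, hpq⟩
  have hp₂ : p + rgL C cβ * d.θ ∈ Icc (-W) W := hsub ⟨hpq, le_rfl⟩
  have hρi : IntervalIntegrable d.ρ volume p (p + rgL C cβ * d.θ) := h.ρ_int.mono_set hu
  have hβi : IntervalIntegrable d.β volume p (p + rgL C cβ * d.θ) := h.β_int.mono_set hu
  have hind : ∀ T : Set ℝ, MeasurableSet T →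
      IntervalIntegrable (T.indicator d.ρ) volume p (p + rgL C cβ * d.θ) := by
    intro T hT
    rw [intervalIntegrable_iff] at hρi ⊢
    exact hρi.indicator hT
  -- total mass
  have h1 := rgA_rho h hp₁ hp₂
  have h2 : (cβ - δ) * (rgL C cβ * d.θ) ≤ ∫ z in p..(p + rgL C cβ * d.θ), d.β z := by
    have : ∫ _z in p..(p + rgL C cβ * d.θ), (cβ - δ) ≤ ∫ z in p..(p + rgL C cβ * d.θ), d.β z := by
      refine intervalIntegral.integral_mono_on hpq (by simp) hβi fun z hz => ?_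
      have := (abs_le.1 (h.β_near z (hsub hz))).1
      linarith
    rw [intervalIntegral.integral_const, smul_eq_mul] at this
    linarith
  have h3 : -(2 * C) ≤ d.m (p + rgL C cβ * d.θ) - d.m p := by
    have a1 := (abs_le.1 (h.m_bd _ hp₂)).1
    have a2 := (abs_le.1 (h.m_bd _ hp₁)).2
    linarith
  have h4 : cβ / 2 * rgL C cβ = 2 * C + 1 := by
    unfold rgL; field_simp
  have h5 : d.θ ≤ ∫ z in p..(p + rgL C cβ * d.θ), d.ρ z := by
    have b1 : d.θ * (-(2 * C)) ≤ d.θ * (d.m (p + rgL C cβ * d.θ) - d.m p) :=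
      mul_le_mul_of_nonneg_left h3 hθ.le
    have b2 : cβ / 2 * (rgL C cβ * d.θ) ≤ (cβ - δ) * (rgL C cβ * d.θ) :=
      mul_le_mul_of_nonneg_right (by linarith) (by positivity)
    have b3 : cβ / 2 * (rgL C cβ * d.θ) = (2 * C + 1) * d.θ := by rw [← mul_assoc, h4]
    nlinarith
  -- floor part
  have h6 : ∫ z in p..(p + rgL C cβ * d.θ), d.F.indicator d.ρ z ≤ δ * (rgL C cβ * d.θ) := by
    have : ∫ z in p..(p + rgL C cβ * d.θ), d.F.indicator d.ρ z ≤ ∫ _z in p..(p + rgL C cβ * d.θ), δ := by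
      refine intervalIntegral.integral_mono_on hpq (hind _ h.F_meas) (by simp) fun z hz => ?_
      by_cases hF : z ∈ d.F
      · rw [indicator_of_mem hF]; exact h.ρ_floor z (hsub hz) hF
      · rw [indicator_of_notMem hF]; exact hδ0.le
    rw [intervalIntegral.integral_const, smul_eq_mul] at this
    linarith
  have h7 : δ * (rgL C cβ * d.θ) ≤ d.θ / 4 := by
    have c1 : δ * (C + 4 * rgL C cβ + 8) ≤ 1 := by
      rwa [le_div_iff₀ (by positivity)] at hδL
    have c2 : δ * rgL C cβ ≤ 1 / 4 := by nlinarith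
    nlinarith
  have h8 : ∫ z in p..(p + rgL C cβ * d.θ), d.ρ z
      = (∫ z in p..(p + rgL C cβ * d.θ), d.F.indicator d.ρ z)
        + ∫ z in p..(p + rgL C cβ * d.θ), (d.Fᶜ).indicator d.ρ z := by
    rw [← intervalIntegral.integral_add (hind _ h.F_meas) (hind _ h.F_meas.compl)]
    refine intervalIntegral.integral_congr fun z _ => ?_
    exact (congrFun (indicator_self_add_compl d.F d.ρ) z).symm
  linarith

/-- (3) a nonfloor point -/
theorem rgA_nonfloor (h : d.Ok C cβ A cD δ W) (hC : 0 < C) (hcβ : 0 < cβ) (hδ0 : 0 < δ) (hδ : δ ≤ rgδ C cβ)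
    {p : ℝ} (hp : -W ≤ p) (hp' : p + rgL C cβ * d.θ ≤ W) :
    ∃ z ∈ Icc p (p + rgL C cβ * d.θ), z ∉ d.F := by
  by_contra hcon
  push Not at hcon
  have hθ := h.θ_pos
  have hL : 0 < rgL C cβ := by unfold rgL; positivity
  have hpq : p ≤ p + rgL C cβ * d.θ := by nlinarith
  have h1 := rgA_mass h hC hcβ hδ0 hδ hp hp'
  have h2 : ∫ z in p..(p + rgL C cβ * d.θ), (d.Fᶜ).indicator d.ρ z = ∫ _z in p..(p + rgL C cβ * d.θ), (0 : ℝ) := by
    refine intervalIntegral.integral_congr fun z hz => ?_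
    rw [uIcc_of_le hpq] at hz
    exact indicator_of_notMem (s := d.Fᶜ) (fun hc => hc (hcon z hz)) _
  rw [h2] at h1
  simp at h1
  linarith

/-- the integrand of (H7) is integrable on the window -/
theorem rgA_ebox_int (h : d.Ok C cβ A cD δ W) (hW : -W ≤ W) :
    IntervalIntegrable (fun z => |d.e cβ z| * (1 + d.ρ z)) volume (-W) W := by
  have h1 := h.e_int.abs
  have h2 := h.eρ_int.abs
  refine (intervalIntegrable_congr (fun z hz => ?_)).mp (h1.add h2)
  rw [uIoc_of_le hW] at hz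
  have := h.ρ_nonneg z ⟨hz.1.le, hz.2⟩
  simp only [abs_mul, abs_of_nonneg this]
  ring

/-- (4) `e` on an arbitrary interval (cover by boxes) -/
theorem rgA_ebox (h : d.Ok C cβ A cD δ W) (hδ0 : 0 < δ) {z₁ z₂ : ℝ} (h₁ : -W ≤ z₁) (h12 : z₁ ≤ z₂) (h₂ : z₂ + d.θ ≤ W) :
    ∫ z in z₁..z₂, |d.e cβ z| * (1 + d.ρ z) ≤ δ * (z₂ - z₁ + d.θ) * min 1 (d.R 0) := by
  have hθ := h.θ_pos
  have hW : -W ≤ W := by linarith
  have hint := rgA_ebox_int h hW
  have hmin : 0 ≤ min 1 (d.R 0) := le_min zero_le_one h.R_pos.le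
  set N := ⌈(z₂ - z₁) / d.θ⌉₊ with hN
  have hq0 : 0 ≤ (z₂ - z₁) / d.θ := div_nonneg (by linarith) hθ.le
  have hN1 : (z₂ - z₁) / d.θ ≤ N := Nat.le_ceil _
  have hN2 : (N : ℝ) < (z₂ - z₁) / d.θ + 1 := Nat.ceil_lt_add_one hq0
  have hN1' : z₂ - z₁ ≤ N * d.θ := by rwa [div_le_iff₀ hθ] at hN1
  have hN2' : N * d.θ ≤ z₂ - z₁ + d.θ := by
    have : (N : ℝ) * d.θ < ((z₂ - z₁) / d.θ + 1) * d.θ := mul_lt_mul_of_pos_right hN2 hθ
    have e : ((z₂ - z₁) / d.θ + 1) * d.θ = z₂ - z₁ + d.θ := by field_simp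
    linarith
  have hsubint : ∀ a b, -W ≤ a → a ≤ b → b ≤ W →
      IntervalIntegrable (fun z => |d.e cβ z| * (1 + d.ρ z)) volume a b := by
    intro a b ha hab hb
    refine hint.mono_set ?_
    rw [uIcc_of_le hab, uIcc_of_le hW]
    exact Icc_subset_Icc ha hb
  have hle : ∀ i : ℕ, i ≤ N → z₁ + i * d.θ ≤ W := by
    intro i hi
    have : (i : ℝ) * d.θ ≤ N * d.θ := mul_le_mul_of_nonneg_right (by exact_mod_cast hi) hθ.le
    linarith
  have hge : ∀ i : ℕ, -W ≤ z₁ + i * d.θ := by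
    intro i
    have : 0 ≤ (i : ℝ) * d.θ := by positivity
    linarith
  have hstep : ∀ i : ℕ, z₁ + ((i + 1 : ℕ) : ℝ) * d.θ = z₁ + i * d.θ + d.θ := by
    intro i; push_cast; ring
  have hsum := intervalIntegral.sum_integral_adjacent_intervals
    (a := fun i : ℕ => z₁ + (i : ℝ) * d.θ) (n := N) (μ := volume)
    (f := fun z => |d.e cβ z| * (1 + d.ρ z)) (fun i hi => by
      refine hsubint _ _ (hge i) ?_ (hle (i + 1) hi)
      rw [hstep i]; linarith)
  have e0 : z₁ + ((0 : ℕ) : ℝ) * d.θ = z₁ := by simp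
  simp only [e0] at hsum
  have hmono : ∫ z in z₁..z₂, |d.e cβ z| * (1 + d.ρ z)
      ≤ ∫ z in z₁..(z₁ + N * d.θ), |d.e cβ z| * (1 + d.ρ z) := by
    refine intervalIntegral.integral_mono_interval le_rfl h12 (by linarith) ?_
      (hsubint _ _ h₁ (by linarith) (hle N le_rfl))
    rw [Filter.EventuallyLE, ae_restrict_iff' measurableSet_Ioc]
    refine Filter.Eventually.of_forall fun z hz => ?_
    have := h.ρ_nonneg z ⟨by linarith [hz.1], hz.2.trans (hle N le_rfl)⟩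
    simp only [Pi.zero_apply]
    positivity
  have hbox : ∀ i ∈ Finset.range N,
      ∫ z in (z₁ + (i : ℝ) * d.θ)..(z₁ + ((i + 1 : ℕ) : ℝ) * d.θ), |d.e cβ z| * (1 + d.ρ z)
        ≤ δ * d.θ * min 1 (d.R 0) := by
    intro i hi
    rw [hstep i]
    refine h.e_box _ (hge i) ?_
    rw [← hstep i]
    exact hle (i + 1) (Finset.mem_range.mp hi)
  calc _ ≤ _ := hmono
    _ = ∑ i ∈ Finset.range N,
        ∫ z in (z₁ + (i : ℝ) * d.θ)..(z₁ + ((i + 1 : ℕ) : ℝ) * d.θ), |d.e cβ z| * (1 + d.ρ z) := hsum.symm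
    _ ≤ ∑ _i ∈ Finset.range N, δ * d.θ * min 1 (d.R 0) := Finset.sum_le_sum hbox
    _ = δ * (N * d.θ) * min 1 (d.R 0) := by
        rw [Finset.sum_const, Finset.card_range, nsmul_eq_mul]; ring
    _ ≤ δ * (z₂ - z₁ + d.θ) * min 1 (d.R 0) :=
        mul_le_mul_of_nonneg_right (mul_le_mul_of_nonneg_left hN2' hδ0.le) hmin

/-- (4') the radius part alone -/
theorem rgA_ebox1 (h : d.Ok C cβ A cD δ W) (hδ0 : 0 < δ) {z₁ z₂ : ℝ} (h₁ : -W ≤ z₁) (h12 : z₁ ≤ z₂) (h₂ : z₂ + d.θ ≤ W) :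
    ∫ z in z₁..z₂, |d.e cβ z| ≤ δ * (z₂ - z₁ + d.θ) := by
  have hθ := h.θ_pos
  have hW : -W ≤ W := by linarith
  have hsub : uIcc z₁ z₂ ⊆ uIcc (-W) W := by
    rw [uIcc_of_le h12, uIcc_of_le hW]
    exact Icc_subset_Icc h₁ (by linarith)
  have h1 : ∫ z in z₁..z₂, |d.e cβ z| ≤ ∫ z in z₁..z₂, |d.e cβ z| * (1 + d.ρ z) := by
    refine intervalIntegral.integral_mono_on h12 (h.e_int.abs.mono_set hsub)
      ((rgA_ebox_int h hW).mono_set hsub) (fun z hz => ?_)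
    have := h.ρ_nonneg z ⟨h₁.trans hz.1, by linarith [hz.2]⟩
    nlinarith [abs_nonneg (d.e cβ z)]
  have h2 := rgA_ebox h hδ0 h₁ h12 h₂
  have h3 : δ * (z₂ - z₁ + d.θ) * min 1 (d.R 0) ≤ δ * (z₂ - z₁ + d.θ) * 1 :=
    mul_le_mul_of_nonneg_left (min_le_left _ _) (mul_nonneg hδ0.le (by linarith))
  linarith

/-- (5) a nonfloor point where `e` is small (uses the MASS average) -/
theorem rgA_good (h : d.Ok C cβ A cD δ W) (hC : 0 < C) (hcβ : 0 < cβ) (hδ0 : 0 < δ) (hδ : δ ≤ rgδ C cβ)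
    {p : ℝ} (hp : -W ≤ p) (hp' : p + (rgL C cβ + 1) * d.θ ≤ W) :
    ∃ z ∈ Icc p (p + rgL C cβ * d.θ), z ∉ d.F ∧ |d.e cβ z| ≤ 4 * (rgL C cβ + 1) * δ * min 1 (d.R 0) := by
  have hθ := h.θ_pos
  have hL : 0 < rgL C cβ := by unfold rgL; positivity
  have hmin : 0 < min 1 (d.R 0) := lt_min one_pos h.R_pos
  set q := p + rgL C cβ * d.θ with hq
  have hpq : p ≤ q := by have : 0 ≤ rgL C cβ * d.θ := by positivity
                         linarith
  have hqW : q + d.θ ≤ W := by rw [hq]; linarith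
  have hW : -W ≤ W := by linarith
  set κ := 4 * (rgL C cβ + 1) * δ * min 1 (d.R 0) with hκ
  have hκ0 : 0 < κ := by positivity
  by_contra hcon
  push Not at hcon
  have hsub : uIcc p q ⊆ uIcc (-W) W := by
    rw [uIcc_of_le hpq, uIcc_of_le hW]
    exact Icc_subset_Icc hp (by linarith)
  have hmass := rgA_mass h hC hcβ hδ0 hδ hp (by linarith : p + rgL C cβ * d.θ ≤ W)
  have hbox := rgA_ebox h hδ0 hp hpq hqW
  have hρi : IntervalIntegrable ((d.Fᶜ).indicator d.ρ) volume p q := by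
    have h1 : IntervalIntegrable d.ρ volume p q := h.ρ_int.mono_set hsub
    rw [intervalIntegrable_iff] at h1 ⊢
    exact h1.indicator h.F_meas.compl
  have hlow : ∫ z in p..q, κ * (d.Fᶜ).indicator d.ρ z ≤ ∫ z in p..q, |d.e cβ z| * (1 + d.ρ z) := by
    refine intervalIntegral.integral_mono_on hpq (hρi.const_mul κ)
      ((rgA_ebox_int h hW).mono_set hsub) (fun z hz => ?_)
    have hρ0 := h.ρ_nonneg z ⟨hp.trans hz.1, by linarith [hz.2]⟩
    by_cases hzF : z ∈ d.F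
    · rw [indicator_of_notMem (by simpa using hzF), mul_zero]
      positivity
    · rw [indicator_of_mem (by simpa using hzF)]
      have := (hcon z hz hzF).le
      nlinarith [abs_nonneg (d.e cβ z)]
  rw [intervalIntegral.integral_const_mul] at hlow
  have h5 : κ * (d.θ / 2) ≤ δ * (q - p + d.θ) * min 1 (d.R 0) :=
    (mul_le_mul_of_nonneg_left hmass hκ0.le).trans (hlow.trans hbox)
  have h6 : q - p + d.θ = (rgL C cβ + 1) * d.θ := by rw [hq]; ring
  rw [h6, hκ] at h5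
  have h7 : 0 < (rgL C cβ + 1) * δ * min 1 (d.R 0) * d.θ := by positivity
  nlinarith

end Claimed.Agent.R286
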