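import Claimed.Agent.R286.Bud.RigA1

/-!
# Row 286, node N18 (RIG), regime A, unit A1b: calibration, a priori bounds on g, g1, smallness of Y      ARCHITECT helper184
PROVER: helper88 (DONE, 0 holes)
Computations: header of Bud/RigA2.lean + origin/helper184:notes/R286/RIGA_plan.md
-/

set_option autoImplicit false

namespace Claimed.Agent.R286

open MeasureTheory Set

variable {d : RigD} {C cβ A cD δ W : ℝ}

theorem rgA1b_δ (hC : 0 < C) (hcβ : 0 < cβ) (hδ : δ ≤ rgδ C cβ) :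
    δ ≤ 1 / 8 ∧ δ * (C + 4 * rgL C cβ + 8) ≤ 1 ∧ 0 < rgL C cβ := by
  have hL : 0 < rgL C cβ := by unfold rgL; positivity
  refine ⟨hδ.trans ((min_le_left _ _).trans (min_le_left _ _)), ?_, hL⟩
  have h1 : δ ≤ 1 / (C + 4 * rgL C cβ + 8) := hδ.trans (min_le_right _ _)
  rwa [le_div_iff₀ (by positivity)] at h1

/-- (6) calibration of `g` at such a point -/
theorem rgA_cal (h : d.Ok C cβ A cD δ W) (hC : 0 < C) (hcβ : 0 < cβ) (hδ0 : 0 < δ) (hδ : δ ≤ rgδ C cβ)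
    {z : ℝ} (hz : z ∈ Icc (-W) W) (hF : z ∉ d.F) (he : |d.e cβ z| ≤ 4 * (rgL C cβ + 1) * δ * min 1 (d.R 0)) :
    |d.g (d.φ z)| ≤ rgK C cβ ∧ |d.φ z - z| ≤ 2 * δ * d.θ := by
  obtain ⟨hδ8, hδL, hL⟩ := rgA1b_δ hC hcβ hδ
  have hR0 := h.R_pos
  have hθ := h.θ_pos
  have hoff := h.Y_off z hz hF
  have hY1 : |d.Y z| ≤ δ := by
    have : 1 * |d.Y z| ≤ max 1 (d.R 0) * |d.Y z| := mul_le_mul_of_nonneg_right (le_max_left _ _) (abs_nonneg _)
    linarith
  have hY2 : d.R 0 * |d.Y z| ≤ δ := by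
    have : d.R 0 * |d.Y z| ≤ max 1 (d.R 0) * |d.Y z| := mul_le_mul_of_nonneg_right (le_max_right _ _) (abs_nonneg _)
    linarith
  constructor
  · have hRz : |d.R z| ≤ (1 + δ) * d.R 0 := by
      have h1 := h.R_near z hz
      have h2 : |d.R z| ≤ |d.R z - d.R 0| + |d.R 0| := by
        have := abs_add_le (d.R z - d.R 0) (d.R 0)
        simpa using this
      rw [abs_of_pos hR0] at h2
      linarith
    have hRY : |d.R z * d.Y z| ≤ 2 * δ := by
      rw [abs_mul]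
      calc |d.R z| * |d.Y z| ≤ (1 + δ) * d.R 0 * |d.Y z| := mul_le_mul_of_nonneg_right hRz (abs_nonneg _)
        _ = (1 + δ) * (d.R 0 * |d.Y z|) := by ring
        _ ≤ (1 + δ) * δ := mul_le_mul_of_nonneg_left hY2 (by linarith)
        _ ≤ 2 * δ := by nlinarith
    have hm : |d.m z / cβ| ≤ C / cβ := by
      rw [abs_div, abs_of_pos hcβ]
      exact div_le_div_of_nonneg_right (h.m_bd z hz) hcβ.le
    have hD : |d.D z * (d.Y z - d.m z / cβ)| ≤ C * (δ + C / cβ) := by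
      rw [abs_mul, abs_of_nonneg (h.D_nonneg z hz)]
      apply mul_le_mul (h.D_le z hz) _ (abs_nonneg _) hC.le
      exact (abs_sub _ _).trans (add_le_add hY1 hm)
    have he' : |d.e cβ z| ≤ 4 * (rgL C cβ + 1) * δ := by
      refine he.trans ?_
      have : 4 * (rgL C cβ + 1) * δ * min 1 (d.R 0) ≤ 4 * (rgL C cβ + 1) * δ * 1 :=
        mul_le_mul_of_nonneg_left (min_le_left _ _) (by positivity)
      linarith
    have hg : d.g (d.φ z) = d.e cβ z + d.R z * d.Y z + d.D z * (d.Y z - d.m z / cβ) := by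
      unfold RigD.e; ring
    rw [hg]
    have h3 := abs_add_three (d.e cβ z) (d.R z * d.Y z) (d.D z * (d.Y z - d.m z / cβ))
    refine h3.trans ?_
    unfold rgK
    have e1 : C * (δ + C / cβ) = C * δ + C ^ 2 / cβ := by ring
    nlinarith
  · have h1 := h.φ_near z hz
    have h2 : |d.φ z - z| ≤ |d.φ z - z - d.θ * d.Y z| + |d.θ * d.Y z| := by
      have := abs_add_le (d.φ z - z - d.θ * d.Y z) (d.θ * d.Y z)
      simpa using this
    rw [abs_mul, abs_of_pos hθ] at h2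
    have h3 : d.θ * |d.Y z| ≤ d.θ * δ := mul_le_mul_of_nonneg_left hY1 hθ.le
    linarith

/-- (7) `g1` is Lipschitz -/
theorem rgA_lip (h : d.Ok C cβ A cD δ W) (hA : 0 < A) (hδ : δ ≤ 1) {z₁ z₂ : ℝ} (h₁ : z₁ ∈ Icc (-W) W) (h₂ : z₂ ∈ Icc (-W) W) :
    |d.g1 z₁ - d.g1 z₂| ≤ rgM C A * |z₁ - z₂| := by
  have key : ∀ x ∈ Icc (-W) W, ∀ y ∈ Icc (-W) W, x ≤ y → |d.g1 y - d.g1 x| ≤ rgM C A * (y - x) := by
    intro x hx y hy hxy
    have h1 := h.g1_eq x hx y hy hxy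
    have h2 : ‖∫ z in x..y, d.mt z‖ ≤ C * |y - x| := by
      apply intervalIntegral.norm_integral_le_of_norm_le_const
      intro z hz
      rw [uIoc_of_le hxy] at hz
      exact h.mt_bd z ⟨hx.1.trans hz.1.le, hz.2.trans hy.2⟩
    rw [Real.norm_eq_abs, abs_of_nonneg (sub_nonneg.mpr hxy)] at h2
    have h3 : |d.g1 y - d.g1 x| ≤ |d.g1 y - d.g1 x + A * ∫ z in x..y, d.mt z| + |A * ∫ z in x..y, d.mt z| := by
      have := abs_sub (d.g1 y - d.g1 x + A * ∫ z in x..y, d.mt z) (A * ∫ z in x..y, d.mt z)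
      simpa using this
    rw [abs_mul, abs_of_pos hA] at h3
    have h4 : A * |∫ z in x..y, d.mt z| ≤ A * (C * (y - x)) := mul_le_mul_of_nonneg_left h2 hA.le
    have h5 : δ * (y - x) ≤ 1 * (y - x) := mul_le_mul_of_nonneg_right hδ (sub_nonneg.mpr hxy)
    unfold rgM
    nlinarith
  rcases le_total z₁ z₂ with h12 | h12
  · rw [abs_sub_comm, abs_sub_comm z₁ z₂, abs_of_nonneg (sub_nonneg.mpr h12)]
    exact key z₁ h₁ z₂ h₂ h12
  · rw [abs_of_nonneg (sub_nonneg.mpr h12)]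
    exact key z₂ h₂ z₁ h₁ h12

/-- `g1` is continuous on the window -/
theorem rgA_g1_cont (h : d.Ok C cβ A cD δ W) (hA : 0 < A) (hδ : δ ≤ 1) : ContinuousOn d.g1 (Icc (-W) W) := by
  have hl : LipschitzOnWith (Real.toNNReal (rgM C A)) d.g1 (Icc (-W) W) := by
    refine LipschitzOnWith.of_dist_le_mul fun x hx y hy => ?_
    rw [Real.dist_eq, Real.dist_eq]
    refine (rgA_lip h hA hδ hx hy).trans ?_
    exact mul_le_mul_of_nonneg_right (Real.le_coe_toNNReal _) (abs_nonneg _)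
  exact hl.continuousOn

/-- `g1 ^ 2` is interval integrable inside the window -/
theorem rgA_g1sq_int (h : d.Ok C cβ A cD δ W) (hA : 0 < A) (hδ : δ ≤ 1) {z₁ z₂ : ℝ} (h₁ : z₁ ∈ Icc (-W) W) (h₂ : z₂ ∈ Icc (-W) W) :
    IntervalIntegrable (fun z => d.g1 z ^ 2) volume z₁ z₂ := by
  refine ContinuousOn.intervalIntegrable ?_
  refine ((rgA_g1_cont h hA hδ).pow 2).mono ?_
  exact uIcc_subset_Icc h₁ h₂
/-- (8) a priori bounds on `g`, `g1`, independent of `W` -/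
theorem rgA_gbd (h : d.Ok C cβ A cD δ W) (hC : 0 < C) (hcβ : 0 < cβ) (hA : 0 < A) (hδ0 : 0 < δ) (hδ : δ ≤ rgδ C cβ)
    {z : ℝ} (hz : z ∈ Icc (-(W - (rgL C cβ + 4))) (W - (rgL C cβ + 4))) :
    |d.g1 z| ≤ rgaG1 C cβ A ∧ |d.g z| ≤ rgaG C cβ A := by
  obtain ⟨hδ8, hδL, hL⟩ := rgA1b_δ hC hcβ hδ
  have hθ := h.θ_pos
  have hθ1 := h.θ_le
  set L := rgL C cβ with hLdef
  have hLθ : L * d.θ ≤ L := by nlinarith
  have hLθ0 : 0 ≤ L * d.θ := by positivity
  have hδθ : 2 * δ * d.θ ≤ 1 / 4 := by nlinarith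
  have hδθ0 : 0 ≤ 2 * δ * d.θ := by positivity
  obtain ⟨hz1, hz2⟩ := hz
  obtain ⟨za, hza, hFa, hea⟩ := rgA_good h hC hcβ hδ0 hδ (p := z - 2 - L * d.θ) (by linarith) (by nlinarith)
  obtain ⟨zb, hzb, hFb, heb⟩ := rgA_good h hC hcβ hδ0 hδ (p := z + 2) (by linarith) (by nlinarith)
  have hzaW : za ∈ Icc (-W) W := ⟨by linarith [hza.1], by linarith [hza.2]⟩
  have hzbW : zb ∈ Icc (-W) W := ⟨by linarith [hzb.1], by linarith [hzb.2]⟩
  obtain ⟨hga, hpa⟩ := rgA_cal h hC hcβ hδ0 hδ hzaW hFa hea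
  obtain ⟨hgb, hpb⟩ := rgA_cal h hC hcβ hδ0 hδ hzbW hFb heb
  rw [abs_le] at hpa hpb
  have hza1 := hza.1
  have hza2 := hza.2
  have hzb1 := hzb.1
  have hzb2 := hzb.2
  have hsub : Icc (d.φ za) (d.φ zb) ⊆ Icc (-W) W := by
    apply Icc_subset_Icc
    · linarith [hpa.1]
    · linarith [hpb.2]
  have hpq1 : 1 ≤ d.φ zb - d.φ za := by linarith [hpa.2, hpb.1]
  have hpq2 : d.φ zb - d.φ za ≤ 2 * L + 6 := by linarith [hpa.1, hpb.2]
  have hint := rg_interp (g := d.g) (g1 := d.g1) (K := rgK C cβ) (M := rgM C A) hpq1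
    (fun x hx => h.g_der x (hsub hx))
    (fun x hx y hy => rgA_lip h hA (by linarith) (hsub hx) (hsub hy)) hga hgb z
    ⟨by linarith [hpa.2], by linarith [hpb.1]⟩
  have hM : 0 < rgM C A := by unfold rgM; positivity
  have hK : 0 < rgK C cβ := by unfold rgK; positivity
  have h1 : 2 * rgK C cβ + rgM C A * (d.φ zb - d.φ za) ≤ rgaG1 C cβ A := by
    unfold rgaG1
    have := mul_le_mul_of_nonneg_left hpq2 hM.le
    linarith
  have hG1 : 0 ≤ rgaG1 C cβ A := by unfold rgaG1; positivity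
  refine ⟨hint.1.trans h1, hint.2.trans ?_⟩
  unfold rgaG
  have h2 : (2 * rgK C cβ + rgM C A * (d.φ zb - d.φ za)) * (d.φ zb - d.φ za)
      ≤ rgaG1 C cβ A * (2 * L + 6) := mul_le_mul h1 hpq2 (by linarith) hG1
  linarith

/-- pointwise bound of `Y` through (C20), one unit inside the domain of (8) -/
theorem rgA1b_Ypt (h : d.Ok C cβ A cD δ W) (hC : 0 < C) (hcβ : 0 < cβ) (hA : 0 < A) (hδ0 : 0 < δ) (hδ : δ ≤ rgδ C cβ)
    {x : ℝ} (hx : x ∈ Icc (-(W - (rgL C cβ + C + 6))) (W - (rgL C cβ + C + 6))) :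
    |d.Y x| ≤ 2 * (rgaG C cβ A + C ^ 2 * (1 + 1 / cβ) + |d.e cβ x|) / d.R 0 := by
  obtain ⟨hδ8, hδL, hL⟩ := rgA1b_δ hC hcβ hδ
  have hθ := h.θ_pos
  have hθ1 := h.θ_le
  have hR0 := h.R_pos
  obtain ⟨hx1, hx2⟩ := hx
  have hxW : x ∈ Icc (-W) W := ⟨by linarith, by linarith⟩
  have hYC := h.Y_bd x hxW
  have hφ : |d.φ x - x| ≤ C + 1 := by
    have h1 := h.φ_near x hxW
    have h2 : |d.φ x - x| ≤ |d.φ x - x - d.θ * d.Y x| + |d.θ * d.Y x| := by
      have := abs_add_le (d.φ x - x - d.θ * d.Y x) (d.θ * d.Y x)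
      simpa using this
    rw [abs_mul, abs_of_pos hθ] at h2
    have h3 : d.θ * |d.Y x| ≤ 1 * C := mul_le_mul hθ1 hYC (abs_nonneg _) zero_le_one
    have h4 : δ * d.θ ≤ 1 := by nlinarith
    linarith
  rw [abs_le] at hφ
  have hg := (rgA_gbd h hC hcβ hA hδ0 hδ (z := d.φ x) ⟨by linarith [hφ.1], by linarith [hφ.2]⟩).2
  have hm : |d.m x / cβ| ≤ C / cβ := by
    rw [abs_div, abs_of_pos hcβ]
    exact div_le_div_of_nonneg_right (h.m_bd x hxW) hcβ.le
  have hD : |d.D x * (d.Y x - d.m x / cβ)| ≤ C * (C + C / cβ) := by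
    rw [abs_mul, abs_of_nonneg (h.D_nonneg x hxW)]
    apply mul_le_mul (h.D_le x hxW) _ (abs_nonneg _) hC.le
    exact (abs_sub _ _).trans (add_le_add hYC hm)
  have hRx : d.R 0 / 2 ≤ d.R x := by
    have h1 := (abs_le.mp (h.R_near x hxW)).1
    nlinarith
  have hRY : d.R x * d.Y x = d.g (d.φ x) - d.e cβ x - d.D x * (d.Y x - d.m x / cβ) := by
    unfold RigD.e; ring
  have h5 : |d.R x * d.Y x| ≤ rgaG C cβ A + |d.e cβ x| + C * (C + C / cβ) := by
    rw [hRY]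
    have h6 := abs_sub (d.g (d.φ x) - d.e cβ x) (d.D x * (d.Y x - d.m x / cβ))
    have h7 := abs_sub (d.g (d.φ x)) (d.e cβ x)
    linarith
  rw [abs_mul, abs_of_pos (by linarith : 0 < d.R x)] at h5
  have h8 : d.R 0 / 2 * |d.Y x| ≤ d.R x * |d.Y x| := mul_le_mul_of_nonneg_right hRx (abs_nonneg _)
  rw [le_div_iff₀ hR0]
  have e1 : C * (C + C / cβ) = C ^ 2 * (1 + 1 / cβ) := by ring
  rw [e1] at h5
  linarith

/-- (9) `Y` is uniformly small when `R 0` is large -/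
theorem rgA_Y (h : d.Ok C cβ A cD δ W) (hC : 0 < C) (hcβ : 0 < cβ) (hA : 0 < A) (hδ0 : 0 < δ) (hδ : δ ≤ rgδ C cβ)
    {ε : ℝ} (hε0 : 0 < ε) (hε1 : ε ≤ 1) (hR : 16 * (rgaG C cβ A + C ^ 2 * (1 + 1 / cβ) + 1) ≤ d.R 0 * ε ^ 2)
    {z : ℝ} (hz : z ∈ Icc (-(W - (rgL C cβ + C + 7))) (W - (rgL C cβ + C + 7))) :
    |d.Y z| ≤ ε := by
  obtain ⟨hδ8, hδL, hL⟩ := rgA1b_δ hC hcβ hδ
  have hθ := h.θ_pos
  have hθ1 := h.θ_le
  have hR0 := h.R_pos
  obtain ⟨hz1, hz2⟩ := hz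
  set B : ℝ := rgaG C cβ A + C ^ 2 * (1 + 1 / cβ) with hB
  have hB0 : 0 ≤ B := by
    have hG : 0 ≤ rgaG C cβ A := by
      unfold rgaG rgaG1 rgK rgM
      positivity
    have : 0 ≤ C ^ 2 * (1 + 1 / cβ) := by positivity
    linarith
  have hlen : ε * d.θ / 2 ≤ 1 / 2 := by nlinarith
  have hlen0 : 0 < ε * d.θ / 2 := by positivity
  -- no interval of length `ε θ / 2` near `z` on which `|Y| ≥ ε / 2`
  have key : ∀ p q : ℝ, z - 1 ≤ p → q ≤ z + 1 → q - p = ε * d.θ / 2 →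
      (∀ x ∈ Icc p q, ε / 2 ≤ |d.Y x|) → False := by
    intro p q hp hq hpq hY
    have hle : p ≤ q := by linarith
    have hsub : Icc p q ⊆ Icc (-W) W := Icc_subset_Icc (by linarith) (by linarith)
    have hu : uIcc p q ⊆ uIcc (-W) W := by
      rw [uIcc_of_le hle, uIcc_of_le (by linarith)]; exact hsub
    have hYint : IntervalIntegrable d.Y volume p q := rg_trend_int hθ hle (h.Y_mono.mono hsub)
    have heint : IntervalIntegrable (fun x => |d.e cβ x|) volume p q := (h.e_int.mono_set hu).abs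
    have hUint : IntervalIntegrable (fun x => 2 * (B + |d.e cβ x|) / d.R 0) volume p q :=
      ((intervalIntegrable_const.add heint).const_mul 2).div_const _
    have i1 : ∫ _x in p..q, ε / 2 ≤ ∫ x in p..q, |d.Y x| :=
      intervalIntegral.integral_mono_on hle intervalIntegrable_const hYint.abs hY
    have i2 : ∫ x in p..q, |d.Y x| ≤ ∫ x in p..q, 2 * (B + |d.e cβ x|) / d.R 0 :=
      intervalIntegral.integral_mono_on hle hYint.abs hUint (fun x hx =>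
        rgA1b_Ypt h hC hcβ hA hδ0 hδ ⟨by linarith [hx.1], by linarith [hx.2]⟩)
    have i3 : ∫ x in p..q, |d.e cβ x| ≤ δ * (q - p + d.θ) :=
      rgA_ebox1 h hδ0 (by linarith) hle (by linarith)
    have e1 : ∫ _x in p..q, ε / 2 = (q - p) * (ε / 2) := by
      rw [intervalIntegral.integral_const, smul_eq_mul]
    have e2 : ∫ x in p..q, 2 * (B + |d.e cβ x|) / d.R 0
        = 2 * ((q - p) * B + ∫ x in p..q, |d.e cβ x|) / d.R 0 := by
      rw [intervalIntegral.integral_div, intervalIntegral.integral_const_mul,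
        intervalIntegral.integral_add intervalIntegrable_const heint, intervalIntegral.integral_const, smul_eq_mul]
    rw [e1] at i1
    rw [e2] at i2
    have i4 : (q - p) * (ε / 2) ≤ 2 * ((q - p) * B + δ * (q - p + d.θ)) / d.R 0 := by
      refine (i1.trans i2).trans ?_
      apply div_le_div_of_nonneg_right _ hR0.le
      linarith
    rw [le_div_iff₀ hR0, hpq] at i4
    -- `R0 ε² θ / 4 ≤ 2 (B ε θ / 2 + δ (ε θ / 2 + θ))`
    have j1 : ε * d.θ / 2 * (ε / 2) * d.R 0 = d.R 0 * ε ^ 2 * (d.θ / 4) := by ring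
    rw [j1] at i4
    have j2 : 16 * (B + 1) * (d.θ / 4) ≤ d.R 0 * ε ^ 2 * (d.θ / 4) :=
      mul_le_mul_of_nonneg_right hR (by positivity)
    have j3 : ε * d.θ / 2 * B ≤ d.θ / 2 * B := by
      apply mul_le_mul_of_nonneg_right _ hB0
      nlinarith
    have j4 : δ * (ε * d.θ / 2 + d.θ) ≤ 1 / 8 * (2 * d.θ) := by
      apply mul_le_mul hδ8 _ (by positivity) (by norm_num)
      nlinarith
    nlinarith
  by_contra hcon
  push Not at hcon
  have hzW : z ∈ Icc (-W) W := ⟨by linarith, by linarith⟩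
  rcases lt_or_ge 0 (d.Y z) with hpos | hneg
  · rw [abs_of_pos hpos] at hcon
    apply key z (z + ε * d.θ / 2) (by linarith) (by linarith) (by ring)
    intro x hx
    have hxW : x ∈ Icc (-W) W := ⟨by linarith [hx.1], by linarith [hx.2]⟩
    have hm := h.Y_mono hzW hxW hx.1
    simp only at hm
    have h1 : d.θ * (ε / 2) ≤ d.θ * d.Y x := by
      have h2 : d.θ * ε ≤ d.θ * d.Y z := mul_le_mul_of_nonneg_left hcon.le hθ.le
      have := hx.2
      nlinarith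
    exact (le_of_mul_le_mul_left h1 hθ).trans (le_abs_self _)
  · rw [abs_of_nonpos hneg] at hcon
    apply key (z - ε * d.θ / 2) z (by linarith) (by linarith) (by ring)
    intro x hx
    have hxW : x ∈ Icc (-W) W := ⟨by linarith [hx.1], by linarith [hx.2]⟩
    have hm := h.Y_mono hxW hzW hx.2
    simp only at hm
    have h1 : d.θ * (ε / 2) ≤ d.θ * (-d.Y x) := by
      have h2 : d.θ * ε ≤ d.θ * (-d.Y z) := mul_le_mul_of_nonneg_left hcon.le hθ.le
      have := hx.1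
      nlinarith
    exact (le_of_mul_le_mul_left h1 hθ).trans (neg_le_abs _)

end Claimed.Agent.R286
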