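import Claimed.Agent.R286.Bud.RigA1b

/-!
# Row 286, node N18 (RIG), regime A, unit A1c: transport mt - m, the error of J' = -g - l1 m      ARCHITECT helper184
PROVER: helper39 (done)
Computations: header of Bud/RigA2.lean + origin/helper184:notes/R286/RIGA_plan.md
-/

set_option autoImplicit false

namespace Claimed.Agent.R286

open MeasureTheory Set

variable {d : RigD} {C cβ A cD δ W : ℝ}

theorem rgA_consts (hC : 0 < C) (hcβ : 0 < cβ) (hδ : δ ≤ rgδ C cβ) :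
    0 < rgL C cβ ∧ δ ≤ 1 / 8 ∧ δ ≤ cβ / 2 := by
  refine ⟨by unfold rgL; positivity, ?_, ?_⟩
  · exact hδ.trans ((min_le_left _ _).trans (min_le_left _ _))
  · exact hδ.trans ((min_le_left _ _).trans (min_le_right _ _))

/-- interval integral of an indicator of a smaller closed interval -/
theorem rgA_ind_int {f : ℝ → ℝ} {lo hi a b : ℝ} (h1 : lo < a) (h2 : a ≤ b) (h3 : b ≤ hi) :
    ∫ x in lo..hi, (Icc a b).indicator f x = ∫ x in a..b, f x := by
  rw [intervalIntegral.integral_of_le (by linarith), intervalIntegral.integral_of_le h2,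
    setIntegral_indicator measurableSet_Icc, ← integral_Icc_eq_integral_Ioc]
  congr 2
  ext x
  simp only [mem_inter_iff, mem_Ioc, mem_Icc]
  constructor
  · rintro ⟨_, h⟩; exact h
  · rintro ⟨h4, h5⟩; exact ⟨⟨by linarith, by linarith⟩, h4, h5⟩

/-- (10) transport, pointwise: `Ysm` = conclusion of (9) -/
theorem rgA_tr (h : d.Ok C cβ A cD δ W) (hC : 0 < C) (hcβ : 0 < cβ) (hδ0 : 0 < δ) (hδ : δ ≤ rgδ C cβ)
    {ε : ℝ} (hε0 : 0 < ε) (hε1 : ε ≤ 1)
    (Ysm : ∀ z ∈ Icc (-(W - (rgL C cβ + C + 7))) (W - (rgL C cβ + C + 7)), |d.Y z| ≤ ε)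
    {z : ℝ} (hz : z ∈ Icc (-(W - rgaS C cβ)) (W - rgaS C cβ)) :
    |d.mt z - d.m z| ≤ d.m (z + d.θ * (ε + δ)) - d.m (z - d.θ * (ε + δ)) + 2 * (cβ + 1) * (ε + δ) := by
  obtain ⟨hL, hδ8, hδc⟩ := rgA_consts hC hcβ hδ
  have hθ := h.θ_pos
  have hθ1 := h.θ_le
  set η := d.θ * (ε + δ) with hη
  have hη0 : 0 < η := by positivity
  have hη2 : η ≤ 9 / 8 := by
    have : d.θ * (ε + δ) ≤ 1 * (1 + 1 / 8) := by gcongr
    linarith
  have hS : rgaS C cβ = 2 * rgL C cβ + 2 * C + 12 := rfl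
  have hzW : z ∈ Icc (-(W - (C + 2))) (W - (C + 2)) := ⟨by linarith [hz.1], by linarith [hz.2]⟩
  have h1 := h.transp z hzW
  -- window facts
  have hwin : ∀ z', z' ∈ Icc (z - (C + 2)) (z + (C + 2)) →
      z' ∈ Icc (-(W - (rgL C cβ + C + 7))) (W - (rgL C cβ + C + 7)) := fun z' hz' =>
    ⟨by linarith [hz.1, hz'.1], by linarith [hz.2, hz'.2]⟩
  have hwin' : ∀ z', z' ∈ Icc (z - (C + 2)) (z + (C + 2)) → z' ∈ Icc (-W) W := fun z' hz' =>
    ⟨by linarith [hz.1, hz'.1], by linarith [hz.2, hz'.2]⟩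
  -- pointwise bound of `cross`
  have hcr : ∀ z' ∈ Icc (z - (C + 2)) (z + (C + 2)),
      d.cross z z' ≤ (Icc (z - η) (z + η)).indicator d.ρ z' := by
    intro z' hz'
    have hρ := h.ρ_nonneg z' (hwin' z' hz')
    have hφ := abs_le.1 (h.φ_near z' (hwin' z' hz'))
    have hY := abs_le.1 (Ysm z' (hwin z' hz'))
    have hY1 : d.θ * d.Y z' ≤ d.θ * ε := by gcongr; exact hY.2
    have hY2 : d.θ * (-ε) ≤ d.θ * d.Y z' := by gcongr; exact hY.1
    unfold RigD.cross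
    split_ifs with hc
    · have hmem : z' ∈ Icc (z - η) (z + η) := by
        rcases hc with ⟨c1, c2⟩ | ⟨c1, c2⟩
        · constructor
          · rw [hη]; nlinarith [hφ.2]
          · linarith
        · constructor
          · linarith
          · rw [hη]; nlinarith [hφ.1]
      rw [indicator_of_mem hmem]
    · by_cases hmem : z' ∈ Icc (z - η) (z + η)
      · rw [indicator_of_mem hmem]; exact hρ
      · rw [indicator_of_notMem hmem]
  have m1 : z - η ∈ Icc (-W) W := hwin' _ ⟨by linarith, by linarith⟩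
  have m2 : z + η ∈ Icc (-W) W := hwin' _ ⟨by linarith, by linarith⟩
  have hρi : IntervalIntegrable d.ρ volume (z - η) (z + η) :=
    h.ρ_int.mono_set (by
      rw [uIcc_of_le (by linarith), uIcc_of_le (by linarith [m1.1, m1.2])]
      exact Icc_subset_Icc m1.1 m2.2)
  have hρ0 : 0 ≤ ∫ x in (z - η)..(z + η), d.ρ x :=
    intervalIntegral.integral_nonneg (by linarith) fun x hx =>
      h.ρ_nonneg x (hwin' x ⟨by linarith [hx.1], by linarith [hx.2]⟩)
  have h2 : ∫ z' in (z - (C + 2))..(z + (C + 2)), d.cross z z' ≤ ∫ x in (z - η)..(z + η), d.ρ x := by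
    by_cases hi : IntervalIntegrable (d.cross z) volume (z - (C + 2)) (z + (C + 2))
    · rw [← rgA_ind_int (f := d.ρ) (lo := z - (C + 2)) (hi := z + (C + 2)) (by linarith) (by linarith) (by linarith)]
      refine intervalIntegral.integral_mono_on (by linarith) hi ?_ hcr
      rw [intervalIntegrable_iff_integrableOn_Ioc_of_le (by linarith)]
      have h3 : IntegrableOn d.ρ (Icc (z - η) (z + η)) volume := by
        rw [integrableOn_Icc_iff_integrableOn_Ioc]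
        exact (intervalIntegrable_iff_integrableOn_Ioc_of_le (by linarith)).1 hρi
      exact (h3.integrable_indicator measurableSet_Icc).integrableOn
    · rw [intervalIntegral.integral_undef hi]; exact hρ0
  have h3 := rgA_rho h m1 m2
  have h4 : ∫ x in (z - η)..(z + η), d.β x ≤ ∫ _x in (z - η)..(z + η), (cβ + δ) := by
    refine intervalIntegral.integral_mono_on (by linarith)
      (h.β_int.mono_set (by
        rw [uIcc_of_le (by linarith), uIcc_of_le (by linarith [m1.1, m1.2])]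
        exact Icc_subset_Icc m1.1 m2.2)) (by simp) fun x hx => ?_
    have := abs_le.1 (h.β_near x (hwin' x ⟨by linarith [hx.1], by linarith [hx.2]⟩))
    linarith [this.2]
  rw [intervalIntegral.integral_const, smul_eq_mul] at h4
  have h5 : d.θ * |d.mt z - d.m z| ≤ d.θ * (d.m (z + η) - d.m (z - η) + 2 * (cβ + 1) * (ε + δ)) := by
    have h6 : (z + η - (z - η)) * (cβ + δ) ≤ d.θ * (2 * (cβ + 1) * (ε + δ)) := by
      have : (z + η - (z - η)) * (cβ + δ) = d.θ * (2 * (cβ + δ) * (ε + δ)) := by rw [hη]; ring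
      rw [this]
      gcongr
      linarith
    nlinarith
  exact le_of_mul_le_mul_left h5 hθ

/-- (10') transport, integrated -/
theorem rgA_trI (h : d.Ok C cβ A cD δ W) (hC : 0 < C) (hcβ : 0 < cβ) (hδ0 : 0 < δ) (hδ : δ ≤ rgδ C cβ)
    {ε : ℝ} (hε0 : 0 < ε) (hε1 : ε ≤ 1)
    (Ysm : ∀ z ∈ Icc (-(W - (rgL C cβ + C + 7))) (W - (rgL C cβ + C + 7)), |d.Y z| ≤ ε)
    {z₁ z₂ : ℝ} (h₁ : -(W - rgaS C cβ) ≤ z₁) (h12 : z₁ ≤ z₂) (h₂ : z₂ ≤ W - rgaS C cβ) :
    ∫ z in z₁..z₂, |d.mt z - d.m z| ≤ (ε + δ) * (4 * C * d.θ + 2 * (cβ + 1) * (z₂ - z₁)) := by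
  obtain ⟨hL, hδ8, hδc⟩ := rgA_consts hC hcβ hδ
  have hθ := h.θ_pos
  have hθ1 := h.θ_le
  set η := d.θ * (ε + δ) with hη
  have hη0 : 0 < η := by positivity
  have hη2 : η ≤ 9 / 8 := by
    have : d.θ * (ε + δ) ≤ 1 * (1 + 1 / 8) := by gcongr
    linarith
  have hS : rgaS C cβ = 2 * rgL C cβ + 2 * C + 12 := rfl
  have hsub : Icc (z₁ - η) (z₂ + η) ⊆ Icc (-W) W := Icc_subset_Icc (by linarith) (by linarith)
  have hmc : ContinuousOn d.m (Icc (z₁ - η) (z₂ + η)) := (rgA_m_cont h).mono hsub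
  have hsub2 : uIcc z₁ z₂ ⊆ uIcc (-W) W := by
    rw [uIcc_of_le h12, uIcc_of_le (by linarith)]
    exact Icc_subset_Icc (by linarith) (by linarith)
  have hmi : IntervalIntegrable d.m volume z₁ z₂ :=
    ((rgA_m_cont h).mono (by rw [uIcc_of_le h12]; exact Icc_subset_Icc (by linarith) (by linarith))).intervalIntegrable
  have hi1 : IntervalIntegrable (fun z => |d.mt z - d.m z|) volume z₁ z₂ :=
    ((h.mt_int.mono_set hsub2).sub hmi).abs
  have hsh1 : IntervalIntegrable (fun z => d.m (z + η)) volume z₁ z₂ := by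
    refine ContinuousOn.intervalIntegrable ?_
    rw [uIcc_of_le h12]
    refine hmc.comp (continuous_id.add continuous_const).continuousOn fun x hx => ?_
    exact ⟨by linarith [hx.1], by linarith [hx.2]⟩
  have hsh2 : IntervalIntegrable (fun z => d.m (z - η)) volume z₁ z₂ := by
    refine ContinuousOn.intervalIntegrable ?_
    rw [uIcc_of_le h12]
    refine hmc.comp (continuous_id.sub continuous_const).continuousOn fun x hx => ?_
    exact ⟨by linarith [hx.1], by linarith [hx.2]⟩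
  have h3 : ∫ z in z₁..z₂, |d.mt z - d.m z|
      ≤ ∫ z in z₁..z₂, ((d.m (z + η) - d.m (z - η)) + 2 * (cβ + 1) * (ε + δ)) := by
    refine intervalIntegral.integral_mono_on h12 hi1 ((hsh1.sub hsh2).add (by simp)) fun z hz => ?_
    exact rgA_tr h hC hcβ hδ0 hδ hε0 hε1 Ysm ⟨by linarith [hz.1], by linarith [hz.2]⟩
  rw [intervalIntegral.integral_add (hsh1.sub hsh2) (by simp), intervalIntegral.integral_const, smul_eq_mul] at h3
  have h4 := rg_shift (m := d.m) (C := C) h12 hη0.le hmc fun z hz => h.m_bd z (hsub hz)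
  have h5 : 4 * η * C = (ε + δ) * (4 * C * d.θ) := by rw [hη]; ring
  nlinarith

/-- the error of `J' = -g - ℓ₁ m`, `J = R(0) H`, `ℓ₁ = D(0)/cβ` -/
noncomputable def RigD.err (d : RigD) (cβ : ℝ) (z : ℝ) : ℝ := -(d.R 0 * d.Y z) + d.g z + d.D 0 / cβ * d.m z

noncomputable def rgE1 (C cβ A ε δ : ℝ) : ℝ :=
  rgaG1 C cβ A * (ε + δ) + 2 * δ * rgaG C cβ A + 2 * C * ε + (δ + 2 * δ * C) * C / cβ

theorem bud_rigA1c_eqns_cite : True := by
  have := @RigD.err.eq_1
  have := @rgE1.eq_1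
  trivial

/-- (11) pointwise bound of `err` -/
theorem rgA_err (h : d.Ok C cβ A cD δ W) (hC : 0 < C) (hcβ : 0 < cβ) (hA : 0 < A) (hδ0 : 0 < δ) (hδ : δ ≤ rgδ C cβ)
    {ε : ℝ} (hε0 : 0 < ε) (hε1 : ε ≤ 1)
    (Ysm : ∀ z ∈ Icc (-(W - (rgL C cβ + C + 7))) (W - (rgL C cβ + C + 7)), |d.Y z| ≤ ε)
    {z : ℝ} (hz : z ∈ Icc (-(W - rgaS C cβ)) (W - rgaS C cβ)) :
    |d.err cβ z| ≤ rgE1 C cβ A ε δ + 2 * |d.e cβ z| := by
  obtain ⟨hL, hδ8, hδc⟩ := rgA_consts hC hcβ hδ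
  have hθ := h.θ_pos
  have hθ1 := h.θ_le
  have hS : rgaS C cβ = 2 * rgL C cβ + 2 * C + 12 := rfl
  have hzW : z ∈ Icc (-W) W := ⟨by linarith [hz.1], by linarith [hz.2]⟩
  have hzY : z ∈ Icc (-(W - (rgL C cβ + C + 7))) (W - (rgL C cβ + C + 7)) :=
    ⟨by linarith [hz.1], by linarith [hz.2]⟩
  have hY := Ysm z hzY
  have hφ := h.φ_near z hzW
  -- `|φ z - z| ≤ θ (ε + δ) ≤ ε + δ`
  have hφz : |d.φ z - z| ≤ ε + δ := by
    have e1 : |d.φ z - z| ≤ |d.φ z - z - d.θ * d.Y z| + |d.θ * d.Y z| := by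
      have := abs_add_le (d.φ z - z - d.θ * d.Y z) (d.θ * d.Y z)
      simpa using this
    have e2 : |d.θ * d.Y z| ≤ 1 * ε := by
      rw [abs_mul, abs_of_pos hθ]; gcongr
    have e3 : δ * d.θ ≤ δ * 1 := by gcongr
    linarith
  have hφz' := abs_le.1 hφz
  -- the segment between `z` and `φ z` lies in the domain of (8)
  set I := Icc (-(W - (rgL C cβ + 4))) (W - (rgL C cβ + 4)) with hI
  have hzI : z ∈ I := ⟨by linarith [hz.1], by linarith [hz.2]⟩
  have hφI : d.φ z ∈ I := ⟨by linarith [hz.1, hφz'.1], by linarith [hz.2, hφz'.2]⟩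
  have hIW : I ⊆ Icc (-W) W := Icc_subset_Icc (by linarith) (by linarith)
  have hG1 : ∀ y ∈ I, |d.g1 y| ≤ rgaG1 C cβ A := fun y hy => (rgA_gbd h hC hcβ hA hδ0 hδ hy).1
  have hGφ : |d.g (d.φ z)| ≤ rgaG C cβ A := (rgA_gbd h hC hcβ hA hδ0 hδ hφI).2
  have hG10 : 0 ≤ rgaG1 C cβ A := (abs_nonneg _).trans (hG1 z hzI)
  have hG0 : 0 ≤ rgaG C cβ A := (abs_nonneg _).trans hGφ
  have hgg : |d.g z - d.g (d.φ z)| ≤ rgaG1 C cβ A * (ε + δ) := by
    have := (convex_Icc _ _).norm_image_sub_le_of_norm_hasDerivWithin_le (f := d.g) (f' := d.g1)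
      (C := rgaG1 C cβ A) (s := I) (fun y hy => (h.g_der y (hIW hy)).hasDerivWithinAt)
      (fun y hy => by simpa using hG1 y hy) hφI hzI
    simp only [Real.norm_eq_abs] at this
    have e : |z - d.φ z| ≤ ε + δ := by rw [abs_sub_comm]; exact hφz
    calc |d.g z - d.g (d.φ z)| ≤ rgaG1 C cβ A * |z - d.φ z| := this
      _ ≤ rgaG1 C cβ A * (ε + δ) := by gcongr
  -- `κ = R 0 / R z`
  have hR0 := h.R_pos
  have hRn := abs_le.1 (h.R_near z hzW)
  have hRz : 0 < d.R z := by nlinarith [hRn.1]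
  set κ := d.R 0 / d.R z with hκ
  have hκR : κ * d.R z = d.R 0 := by rw [hκ]; field_simp
  have hκ0 : 0 < κ := by positivity
  have hκ1 : |1 - κ| ≤ 2 * δ := by
    have e1 : (1 - κ) * d.R z = d.R z - d.R 0 := by rw [sub_mul, hκR]; ring
    have e2 : |1 - κ| * d.R z ≤ δ * d.R 0 := by
      have e0 : |1 - κ| * d.R z = |(1 - κ) * d.R z| := by rw [abs_mul, abs_of_pos hRz]
      rw [e0, e1]; exact h.R_near z hzW
    have e3 : d.R 0 ≤ 2 * d.R z := by nlinarith [hRn.1]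
    have e4 : |1 - κ| * d.R z ≤ (2 * δ) * d.R z := by nlinarith
    exact le_of_mul_le_mul_right e4 hRz
  have hκ2 : κ ≤ 2 := by
    have := (abs_le.1 hκ1).1
    linarith
  -- decomposition
  have hdec : d.err cβ z = (d.g z - d.g (d.φ z)) + (1 - κ) * d.g (d.φ z) + κ * (d.D z * d.Y z)
      + (d.D 0 - κ * d.D z) * (d.m z / cβ) + κ * d.e cβ z := by
    unfold RigD.err RigD.e
    rw [← hκR]
    ring
  have hD0 := h.D_nonneg z hzW
  have hDC := h.D_le z hzW
  have hDn := h.D_near z hzW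
  have hm := h.m_bd z hzW
  have t2 : |(1 - κ) * d.g (d.φ z)| ≤ 2 * δ * rgaG C cβ A := by
    rw [abs_mul]; gcongr
  have t3 : |κ * (d.D z * d.Y z)| ≤ 2 * C * ε := by
    rw [abs_mul, abs_mul, abs_of_pos hκ0, abs_of_nonneg hD0]
    calc κ * (d.D z * |d.Y z|) ≤ 2 * (C * ε) := by gcongr
      _ = 2 * C * ε := by ring
  have t4 : |(d.D 0 - κ * d.D z) * (d.m z / cβ)| ≤ (δ + 2 * δ * C) * C / cβ := by
    rw [abs_mul, abs_div, abs_of_pos hcβ]
    have e1 : |d.D 0 - κ * d.D z| ≤ δ + 2 * δ * C := by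
      have e2 : d.D 0 - κ * d.D z = -(d.D z - d.D 0) + (1 - κ) * d.D z := by ring
      rw [e2]
      refine (abs_add_le _ _).trans ?_
      rw [abs_neg, abs_mul, abs_of_nonneg hD0]
      have : |1 - κ| * d.D z ≤ 2 * δ * C := by gcongr
      linarith
    calc |d.D 0 - κ * d.D z| * (|d.m z| / cβ) ≤ (δ + 2 * δ * C) * (C / cβ) := by gcongr
      _ = (δ + 2 * δ * C) * C / cβ := by ring
  have t5 : |κ * d.e cβ z| ≤ 2 * |d.e cβ z| := by
    rw [abs_mul, abs_of_pos hκ0]; gcongr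
  rw [hdec]
  unfold rgE1
  have a1 := abs_add_le ((d.g z - d.g (d.φ z)) + (1 - κ) * d.g (d.φ z) + κ * (d.D z * d.Y z)
      + (d.D 0 - κ * d.D z) * (d.m z / cβ)) (κ * d.e cβ z)
  have a2 := abs_add_le ((d.g z - d.g (d.φ z)) + (1 - κ) * d.g (d.φ z) + κ * (d.D z * d.Y z))
      ((d.D 0 - κ * d.D z) * (d.m z / cβ))
  have a3 := abs_add_le ((d.g z - d.g (d.φ z)) + (1 - κ) * d.g (d.φ z)) (κ * (d.D z * d.Y z))
  have a4 := abs_add_le (d.g z - d.g (d.φ z)) ((1 - κ) * d.g (d.φ z))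
  linarith

end Claimed.Agent.R286
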