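import Claimed.Agent.R286.Bud.RigA1c

/-!
# Row 286, node N18 (RIG), regime A, unit A2a: energy inequality (+ PLAN of all of regime A)      ARCHITECT helper184
PROVER: helper85 (done)

PLAN (direct, no compactness; replaces LL l.2071-2124).  `J = R(0)·H`, `ℓ₁ = D(0)/cβ`, `err = J' + g + ℓ₁ m` (`RigD.err`), `R(0) ≥ RA` large.
* (12) `rgA_pre`   `∫ H (ρ-β) ≤ 0` (H_sign) + `rg_ibp` (U = H, u = -Y, V = θ m, v = ρ-β) gives `∫ Y m ≤ -[H m]`; at NONFLOOR end points `R(0)|H| ≤ δθ`;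
                   `R(0) Y = g + ℓ₁ m - err`, `|err| ≤ E1 + 2|e|` (11), `∫|e| ≤ δ(Δ+θ)` (4').
* (13) `rgA_gm`    `r(z) := g1 z - g1 z₁ + A ∫_{z₁}^z mt` is `≤ δ (z - z₁)` (g1_eq);  `rg_ibp` (U = g, u = g1, V = ∫ mt, v = mt):
                   `A ∫ g mt = -[g g1] + ∫ g1² + g(z₂) r(z₂) - ∫ g1 r`.
* (14) `rgA_energy` = (12) + (13) + (10').
* (15) `rgA_end`   blocks of length `rgL+1`; each contains a nonfloor point (3); if `|g1| ≥ εg` at all of them, `∫ g1² ≥ N εg³/(8M)` (`rg_sq_lb_right`).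
* `rgA_E`          a priori bound `∫ g1² ≤ A E0` between two far nonfloor points, then (15) at both ends, then (14) again: energy `≤ κ`.
* (16) `rgA_low`   `|m 0| = 1` and `θ m' ≥ -(cβ+δ)`: `|m| ≥ 1/2` on one side of `0`, length `θ/(2(cβ+1))`.
* `rgA_one` (θ = 1) `g1` moves by `≥ A η₀/4` across that interval (g1_eq, (10')), so `∫ g1² ≥ c₁ > A κ`.
* `rgA_lt`  (θ < 1, so `ℓ₁ ≥ cD/cβ`)  energy small ⟹ `|g1| ≤ ε'` ⟹ (`R(0)∫Y = O(δθ)` between nonfloor points, `∫ m = -[g1]/A + ..`) `|g| ≤ ε₂` on `[-(L+2), L+2]`;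
                   then (12) between nonfloor points `t₁ ∈ [-η₀-Lθ, -η₀]`, `t₂ ∈ [η₀, η₀+Lθ]`: `ℓ₁ θ/(8(cβ+1)) ≤ ℓ₁ ∫ m² ≤ θ·small`.
-/

set_option autoImplicit false

namespace Claimed.Agent.R286

open MeasureTheory Set

variable {d : RigD} {C cβ A cD δ W : ℝ}

/-- (12) -/
theorem rgA_pre (h : d.Ok C cβ A cD δ W) (hC : 0 < C) (hcβ : 0 < cβ) (hA : 0 < A) (hδ0 : 0 < δ) (hδ : δ ≤ rgδ C cβ)
    {ε : ℝ} (hε0 : 0 < ε) (hε1 : ε ≤ 1)
    (Ysm : ∀ z ∈ Icc (-(W - (rgL C cβ + C + 7))) (W - (rgL C cβ + C + 7)), |d.Y z| ≤ ε)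
    {z₁ z₂ : ℝ} (h₁ : -(W - rgaS C cβ) ≤ z₁) (h12 : z₁ ≤ z₂) (h₂ : z₂ ≤ W - rgaS C cβ) (hF₁ : z₁ ∉ d.F) (hF₂ : z₂ ∉ d.F) :
    ∫ z in z₁..z₂, (d.g z * d.m z + d.D 0 / cβ * d.m z ^ 2)
      ≤ 2 * δ * d.θ * C + C * (rgE1 C cβ A ε δ * (z₂ - z₁) + 2 * δ * (z₂ - z₁ + d.θ)) := by
  obtain ⟨hL, hδ8, hδc⟩ := rgA_consts hC hcβ hδ
  have hθ := h.θ_pos
  have hθ1 := h.θ_le
  have hR := h.R_pos
  have hS : rgaS C cβ = 2 * rgL C cβ + 2 * C + 12 := rfl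
  have hsub : Icc z₁ z₂ ⊆ Icc (-W) W := Icc_subset_Icc (by linarith) (by linarith)
  have hsubS : Icc z₁ z₂ ⊆ Icc (-(W - rgaS C cβ)) (W - rgaS C cβ) := Icc_subset_Icc h₁ h₂
  have hu : uIcc z₁ z₂ ⊆ uIcc (-W) W := by
    rw [uIcc_of_le h12, uIcc_of_le (by linarith)]; exact hsub
  have hz₁ : z₁ ∈ Icc (-W) W := hsub ⟨le_rfl, h12⟩
  have hz₂ : z₂ ∈ Icc (-W) W := hsub ⟨h12, le_rfl⟩
  have hmc : ContinuousOn d.m (uIcc z₁ z₂) := by rw [uIcc_of_le h12]; exact (rgA_m_cont h).mono hsub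
  have hgc : ContinuousOn d.g (uIcc z₁ z₂) := by
    rw [uIcc_of_le h12]; exact fun x hx => (h.g_der x (hsub hx)).continuousAt.continuousWithinAt
  have hYi : IntervalIntegrable d.Y volume z₁ z₂ := rg_trend_int hθ h12 (h.Y_mono.mono hsub)
  have hρβ : IntervalIntegrable (fun z => d.ρ z - d.β z) volume z₁ z₂ :=
    (h.ρ_int.mono_set hu).sub (h.β_int.mono_set hu)
  have hYm : IntervalIntegrable (fun z => d.Y z * d.m z) volume z₁ z₂ := hYi.mul_continuousOn hmc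
  have hei : IntervalIntegrable (fun z => |d.e cβ z|) volume z₁ z₂ := (h.e_int.mono_set hu).abs
  have herr : IntervalIntegrable (d.err cβ) volume z₁ z₂ :=
    ((hYi.const_mul (d.R 0)).neg.add hgc.intervalIntegrable).add (hmc.intervalIntegrable.const_mul _)
  have herrm : IntervalIntegrable (fun z => d.err cβ z * d.m z) volume z₁ z₂ := herr.mul_continuousOn hmc
  have hHU : ∀ x ∈ Icc z₁ z₂, d.H x - d.H z₁ = ∫ t in z₁..x, (fun z => - d.Y z) t := fun x hx => by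
    rw [h.H_eq z₁ hz₁ x (hsub hx), intervalIntegral.integral_neg]
  have hibp := rg_ibp (U := d.H) (u := fun z => - d.Y z) (V := fun z => d.θ * d.m z)
    (v := fun z => d.ρ z - d.β z) h12 hYi.neg hρβ hHU
    (fun x hx => by rw [← mul_sub]; exact h.m_eq z₁ hz₁ x (hsub hx))
  have hHi : IntervalIntegrable (fun z => d.H z * (d.ρ z - d.β z)) volume z₁ z₂ :=
    rg_ibp_int h12 hYi.neg hρβ hHU
  have hsign : ∫ z in z₁..z₂, d.H z * (d.ρ z - d.β z) ≤ 0 := by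
    rw [intervalIntegral.integral_of_le h12]
    refine setIntegral_nonpos_ae measurableSet_Ioc ?_
    filter_upwards [h.H_sign] with z hz hz'
    exact hz (hsub (Ioc_subset_Icc_self hz'))
  have hsplit : ∫ z in z₁..z₂, (d.H z * (d.ρ z - d.β z) + - d.Y z * (d.θ * d.m z))
      = (∫ z in z₁..z₂, d.H z * (d.ρ z - d.β z)) - d.θ * ∫ z in z₁..z₂, d.Y z * d.m z := by
    have e : (fun z => d.H z * (d.ρ z - d.β z) + - d.Y z * (d.θ * d.m z))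
        = fun z => d.H z * (d.ρ z - d.β z) - d.θ * (d.Y z * d.m z) := by
      funext z; ring
    rw [e, intervalIntegral.integral_sub hHi (hYm.const_mul _), intervalIntegral.integral_const_mul]
  rw [hsplit] at hibp
  have hYm_le : ∫ z in z₁..z₂, d.Y z * d.m z ≤ d.H z₁ * d.m z₁ - d.H z₂ * d.m z₂ := by
    have : d.θ * (∫ z in z₁..z₂, d.Y z * d.m z) ≤ d.θ * (d.H z₁ * d.m z₁ - d.H z₂ * d.m z₂) := by
      nlinarith
    exact le_of_mul_le_mul_left this hθ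
  have hH : ∀ z ∈ Icc (-W) W, z ∉ d.F → |d.R 0 * d.H z| ≤ δ * d.θ := by
    intro z hz hF
    have a1 := h.H_off z hz hF
    have a2 := h.H_lb z hz
    have a3 : max 1 (d.R 0) * d.H z ≤ d.R 0 * d.H z :=
      mul_le_mul_of_nonpos_right (le_max_right _ _) a1
    rw [abs_le]
    exact ⟨by linarith, by nlinarith⟩
  have hRY : d.R 0 * ∫ z in z₁..z₂, d.Y z * d.m z ≤ 2 * δ * d.θ * C := by
    have b1 : d.R 0 * ∫ z in z₁..z₂, d.Y z * d.m z ≤ d.R 0 * (d.H z₁ * d.m z₁ - d.H z₂ * d.m z₂) :=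
      mul_le_mul_of_nonneg_left hYm_le hR.le
    have b2 : |d.R 0 * d.H z₁ * d.m z₁| ≤ δ * d.θ * C := by
      rw [abs_mul]
      exact mul_le_mul (hH z₁ hz₁ hF₁) (h.m_bd z₁ hz₁) (abs_nonneg _) (by positivity)
    have b3 : |d.R 0 * d.H z₂ * d.m z₂| ≤ δ * d.θ * C := by
      rw [abs_mul]
      exact mul_le_mul (hH z₂ hz₂ hF₂) (h.m_bd z₂ hz₂) (abs_nonneg _) (by positivity)
    have b4 := (abs_le.1 b2).2
    have b5 := (abs_le.1 b3).1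
    nlinarith
  have herr_le : ∫ z in z₁..z₂, d.err cβ z * d.m z
      ≤ C * (rgE1 C cβ A ε δ * (z₂ - z₁) + 2 * δ * (z₂ - z₁ + d.θ)) := by
    have c1 : ∫ z in z₁..z₂, d.err cβ z * d.m z
        ≤ ∫ z in z₁..z₂, C * (rgE1 C cβ A ε δ + 2 * |d.e cβ z|) := by
      refine intervalIntegral.integral_mono_on h12 herrm
        (((by simp : IntervalIntegrable (fun _ => rgE1 C cβ A ε δ) volume z₁ z₂).add
          (hei.const_mul 2)).const_mul C) fun z hz => ?_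
      have c2 := rgA_err h hC hcβ hA hδ0 hδ hε0 hε1 Ysm (hsubS hz)
      have c3 := h.m_bd z (hsub hz)
      calc d.err cβ z * d.m z ≤ |d.err cβ z * d.m z| := le_abs_self _
        _ = |d.m z| * |d.err cβ z| := by rw [abs_mul, mul_comm]
        _ ≤ C * (rgE1 C cβ A ε δ + 2 * |d.e cβ z|) := mul_le_mul c3 c2 (abs_nonneg _) hC.le
    have c4 : ∫ z in z₁..z₂, C * (rgE1 C cβ A ε δ + 2 * |d.e cβ z|)
        = C * (rgE1 C cβ A ε δ * (z₂ - z₁) + 2 * ∫ z in z₁..z₂, |d.e cβ z|) := by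
      rw [intervalIntegral.integral_const_mul, intervalIntegral.integral_add (by simp) (hei.const_mul 2),
        intervalIntegral.integral_const, intervalIntegral.integral_const_mul, smul_eq_mul]
      ring
    have c5 := rgA_ebox1 h hδ0 (z₁ := z₁) (z₂ := z₂) (by linarith) h12 (by linarith)
    rw [c4] at c1
    refine c1.trans (mul_le_mul_of_nonneg_left ?_ hC.le)
    linarith
  have hfin : ∫ z in z₁..z₂, (d.g z * d.m z + d.D 0 / cβ * d.m z ^ 2)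
      = d.R 0 * (∫ z in z₁..z₂, d.Y z * d.m z) + ∫ z in z₁..z₂, d.err cβ z * d.m z := by
    rw [← intervalIntegral.integral_const_mul, ← intervalIntegral.integral_add (hYm.const_mul _) herrm]
    refine intervalIntegral.integral_congr fun z _ => ?_
    simp only [RigD.err]
    ring
  rw [hfin]
  linarith

/-- (13) -/
theorem rgA_gm (h : d.Ok C cβ A cD δ W) (hC : 0 < C) (hcβ : 0 < cβ) (hA : 0 < A) (hδ0 : 0 < δ) (hδ : δ ≤ rgδ C cβ)
    {z₁ z₂ : ℝ} (h₁ : -(W - rgaS C cβ) ≤ z₁) (h12 : z₁ ≤ z₂) (h₂ : z₂ ≤ W - rgaS C cβ) :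
    |A * (∫ z in z₁..z₂, d.g z * d.mt z) + (d.g z₂ * d.g1 z₂ - d.g z₁ * d.g1 z₁) - ∫ z in z₁..z₂, d.g1 z ^ 2|
      ≤ δ * (rgaG C cβ A * (z₂ - z₁) + rgaG1 C cβ A * (z₂ - z₁) ^ 2) := by
  obtain ⟨hL, hδ8, hδc⟩ := rgA_consts hC hcβ hδ
  have hS : rgaS C cβ = 2 * rgL C cβ + 2 * C + 12 := rfl
  have hδ1 : δ ≤ 1 := by linarith
  have hsub : Icc z₁ z₂ ⊆ Icc (-W) W := Icc_subset_Icc (by linarith) (by linarith)
  have hsub8 : Icc z₁ z₂ ⊆ Icc (-(W - (rgL C cβ + 4))) (W - (rgL C cβ + 4)) :=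
    Icc_subset_Icc (by linarith) (by linarith)
  have hu : uIcc z₁ z₂ ⊆ uIcc (-W) W := by
    rw [uIcc_of_le h12, uIcc_of_le (by linarith)]; exact hsub
  have hz₁ : z₁ ∈ Icc (-W) W := hsub ⟨le_rfl, h12⟩
  have hgc : ContinuousOn d.g (uIcc z₁ z₂) := by
    rw [uIcc_of_le h12]; exact fun x hx => (h.g_der x (hsub hx)).continuousAt.continuousWithinAt
  have hg1c : ContinuousOn d.g1 (uIcc z₁ z₂) := by
    rw [uIcc_of_le h12]; exact (rgA_g1_cont h hA hδ1).mono hsub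
  have hg1i : IntervalIntegrable d.g1 volume z₁ z₂ := hg1c.intervalIntegrable
  have hmti : IntervalIntegrable d.mt volume z₁ z₂ := h.mt_int.mono_set hu
  have hgU : ∀ x ∈ Icc z₁ z₂, d.g x - d.g z₁ = ∫ t in z₁..x, d.g1 t := fun x hx => by
    symm
    refine intervalIntegral.integral_eq_sub_of_hasDerivAt (fun y hy => h.g_der y ?_) ?_
    · rw [uIcc_of_le hx.1] at hy; exact hsub ⟨hy.1, hy.2.trans hx.2⟩
    · exact (hg1c.mono (by
        rw [uIcc_of_le hx.1, uIcc_of_le h12]; exact Icc_subset_Icc le_rfl hx.2)).intervalIntegrable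
  have hibp := rg_ibp (U := d.g) (u := d.g1) (V := fun z => ∫ t in z₁..z, d.mt t) (v := d.mt) h12 hg1i hmti hgU
    (fun x _ => by simp)
  have hVc : ContinuousOn (fun z => ∫ t in z₁..z, d.mt t) (uIcc z₁ z₂) :=
    intervalIntegral.continuousOn_primitive_interval' hmti left_mem_uIcc
  have hrb : ∀ z ∈ Icc z₁ z₂, |d.g1 z - d.g1 z₁ + A * ∫ t in z₁..z, d.mt t| ≤ δ * (z - z₁) :=
    fun z hz => h.g1_eq z₁ hz₁ z (hsub hz) hz.1
  have hgmt : IntervalIntegrable (fun z => d.g z * d.mt z) volume z₁ z₂ := hmti.continuousOn_mul hgc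
  have hg1V : IntervalIntegrable (fun z => d.g1 z * ∫ t in z₁..z, d.mt t) volume z₁ z₂ :=
    (hg1c.mul hVc).intervalIntegrable
  have hg1sq : IntervalIntegrable (fun z => d.g1 z ^ 2) volume z₁ z₂ := (hg1c.pow 2).intervalIntegrable
  rw [intervalIntegral.integral_add hgmt hg1V] at hibp
  simp only [intervalIntegral.integral_same, mul_zero, sub_zero] at hibp
  have e1 : ∫ z in z₁..z₂, d.g1 z * (d.g1 z - d.g1 z₁ + A * ∫ t in z₁..z, d.mt t)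
      = (∫ z in z₁..z₂, d.g1 z ^ 2) - d.g1 z₁ * (∫ z in z₁..z₂, d.g1 z)
        + A * ∫ z in z₁..z₂, d.g1 z * ∫ t in z₁..z, d.mt t := by
    rw [← intervalIntegral.integral_const_mul, ← intervalIntegral.integral_const_mul,
      ← intervalIntegral.integral_sub hg1sq (hg1i.const_mul _),
      ← intervalIntegral.integral_add (hg1sq.sub (hg1i.const_mul _)) (hg1V.const_mul _)]
    refine intervalIntegral.integral_congr fun z _ => ?_
    ring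
  have e2 : ∫ z in z₁..z₂, d.g1 z = d.g z₂ - d.g z₁ := (hgU z₂ ⟨h12, le_rfl⟩).symm
  have key : A * (∫ z in z₁..z₂, d.g z * d.mt z) + (d.g z₂ * d.g1 z₂ - d.g z₁ * d.g1 z₁)
        - ∫ z in z₁..z₂, d.g1 z ^ 2
      = d.g z₂ * (d.g1 z₂ - d.g1 z₁ + A * ∫ t in z₁..z₂, d.mt t)
        - ∫ z in z₁..z₂, d.g1 z * (d.g1 z - d.g1 z₁ + A * ∫ t in z₁..z, d.mt t) := by
    rw [e1, e2]
    linear_combination A * hibp
  rw [key]
  have hG0 : 0 ≤ rgaG1 C cβ A := (abs_nonneg _).trans (rgA_gbd h hC hcβ hA hδ0 hδ (hsub8 ⟨le_rfl, h12⟩)).1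
  have b1 : |d.g z₂ * (d.g1 z₂ - d.g1 z₁ + A * ∫ t in z₁..z₂, d.mt t)| ≤ rgaG C cβ A * (δ * (z₂ - z₁)) := by
    rw [abs_mul]
    exact mul_le_mul (rgA_gbd h hC hcβ hA hδ0 hδ (hsub8 ⟨h12, le_rfl⟩)).2 (hrb z₂ ⟨h12, le_rfl⟩) (abs_nonneg _)
      ((abs_nonneg _).trans (rgA_gbd h hC hcβ hA hδ0 hδ (hsub8 ⟨h12, le_rfl⟩)).2)
  have b2 : |∫ z in z₁..z₂, d.g1 z * (d.g1 z - d.g1 z₁ + A * ∫ t in z₁..z, d.mt t)|
      ≤ rgaG1 C cβ A * (δ * (z₂ - z₁)) * (z₂ - z₁) := by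
    have := intervalIntegral.norm_integral_le_of_norm_le_const (a := z₁) (b := z₂)
      (f := fun z => d.g1 z * (d.g1 z - d.g1 z₁ + A * ∫ t in z₁..z, d.mt t))
      (C := rgaG1 C cβ A * (δ * (z₂ - z₁))) (fun z hz => by
        rw [uIoc_of_le h12] at hz
        have hz' : z ∈ Icc z₁ z₂ := Ioc_subset_Icc_self hz
        rw [Real.norm_eq_abs, abs_mul]
        refine mul_le_mul (rgA_gbd h hC hcβ hA hδ0 hδ (hsub8 hz')).1 ((hrb z hz').trans ?_) (abs_nonneg _) hG0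
        exact mul_le_mul_of_nonneg_left (by linarith [hz'.2]) hδ0.le)
    rwa [Real.norm_eq_abs, abs_of_nonneg (sub_nonneg.2 h12)] at this
  calc |d.g z₂ * (d.g1 z₂ - d.g1 z₁ + A * ∫ t in z₁..z₂, d.mt t)
        - ∫ z in z₁..z₂, d.g1 z * (d.g1 z - d.g1 z₁ + A * ∫ t in z₁..z, d.mt t)|
      ≤ |d.g z₂ * (d.g1 z₂ - d.g1 z₁ + A * ∫ t in z₁..z₂, d.mt t)|
        + |∫ z in z₁..z₂, d.g1 z * (d.g1 z - d.g1 z₁ + A * ∫ t in z₁..z, d.mt t)| := abs_sub _ _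
    _ ≤ rgaG C cβ A * (δ * (z₂ - z₁)) + rgaG1 C cβ A * (δ * (z₂ - z₁)) * (z₂ - z₁) := add_le_add b1 b2
    _ = δ * (rgaG C cβ A * (z₂ - z₁) + rgaG1 C cβ A * (z₂ - z₁) ^ 2) := by ring

noncomputable def rgErr (C cβ A ε δ Δ : ℝ) : ℝ :=
  2 * δ * C + C * (rgE1 C cβ A ε δ * Δ + 2 * δ * (Δ + 1)) + rgaG C cβ A * (ε + δ) * (4 * C + 2 * (cβ + 1) * Δ)
    + δ * (rgaG C cβ A * Δ + rgaG1 C cβ A * Δ ^ 2) / A

theorem bud_rigA2_eqns_cite : True := by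
  have := @rgErr.eq_1
  trivial

/-- (14) the energy inequality between two nonfloor points -/
theorem rgA_energy (h : d.Ok C cβ A cD δ W) (hC : 0 < C) (hcβ : 0 < cβ) (hA : 0 < A) (hδ0 : 0 < δ) (hδ : δ ≤ rgδ C cβ)
    {ε : ℝ} (hε0 : 0 < ε) (hε1 : ε ≤ 1)
    (Ysm : ∀ z ∈ Icc (-(W - (rgL C cβ + C + 7))) (W - (rgL C cβ + C + 7)), |d.Y z| ≤ ε)
    {z₁ z₂ : ℝ} (h₁ : -(W - rgaS C cβ) ≤ z₁) (h12 : z₁ ≤ z₂) (h₂ : z₂ ≤ W - rgaS C cβ) (hF₁ : z₁ ∉ d.F) (hF₂ : z₂ ∉ d.F) :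
    (∫ z in z₁..z₂, d.g1 z ^ 2) / A + d.D 0 / cβ * ∫ z in z₁..z₂, d.m z ^ 2
      ≤ (d.g z₂ * d.g1 z₂ - d.g z₁ * d.g1 z₁) / A + rgErr C cβ A ε δ (z₂ - z₁) := by
  obtain ⟨hL, hδ8, hδc⟩ := rgA_consts hC hcβ hδ
  have hθ := h.θ_pos
  have hθ1 := h.θ_le
  have hS : rgaS C cβ = 2 * rgL C cβ + 2 * C + 12 := rfl
  have hsub : Icc z₁ z₂ ⊆ Icc (-W) W := Icc_subset_Icc (by linarith) (by linarith)
  have hsub8 : Icc z₁ z₂ ⊆ Icc (-(W - (rgL C cβ + 4))) (W - (rgL C cβ + 4)) :=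
    Icc_subset_Icc (by linarith) (by linarith)
  have hu : uIcc z₁ z₂ ⊆ uIcc (-W) W := by
    rw [uIcc_of_le h12, uIcc_of_le (by linarith)]; exact hsub
  have hmc : ContinuousOn d.m (uIcc z₁ z₂) := by rw [uIcc_of_le h12]; exact (rgA_m_cont h).mono hsub
  have hgc : ContinuousOn d.g (uIcc z₁ z₂) := by
    rw [uIcc_of_le h12]; exact fun x hx => (h.g_der x (hsub hx)).continuousAt.continuousWithinAt
  have hmti : IntervalIntegrable d.mt volume z₁ z₂ := h.mt_int.mono_set hu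
  have hgmt : IntervalIntegrable (fun z => d.g z * d.mt z) volume z₁ z₂ := hmti.continuousOn_mul hgc
  have hgm : IntervalIntegrable (fun z => d.g z * d.m z) volume z₁ z₂ := (hgc.mul hmc).intervalIntegrable
  have hm2 : IntervalIntegrable (fun z => d.D 0 / cβ * d.m z ^ 2) volume z₁ z₂ :=
    ((hmc.pow 2).intervalIntegrable).const_mul _
  have habs : IntervalIntegrable (fun z => |d.mt z - d.m z|) volume z₁ z₂ :=
    (hmti.sub hmc.intervalIntegrable).abs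
  have P := rgA_pre h hC hcβ hA hδ0 hδ hε0 hε1 Ysm h₁ h12 h₂ hF₁ hF₂
  have Gm := (abs_le.1 (rgA_gm h hC hcβ hA hδ0 hδ h₁ h12 h₂)).1
  have T := rgA_trI h hC hcβ hδ0 hδ hε0 hε1 Ysm h₁ h12 h₂
  rw [intervalIntegral.integral_add hgm hm2, intervalIntegral.integral_const_mul] at P
  have hG0 : 0 ≤ rgaG C cβ A := (abs_nonneg _).trans (rgA_gbd h hC hcβ hA hδ0 hδ (hsub8 ⟨le_rfl, h12⟩)).2
  have D : (∫ z in z₁..z₂, d.g z * d.mt z) - ∫ z in z₁..z₂, d.g z * d.m z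
      ≤ rgaG C cβ A * ∫ z in z₁..z₂, |d.mt z - d.m z| := by
    rw [← intervalIntegral.integral_sub hgmt hgm, ← intervalIntegral.integral_const_mul]
    refine intervalIntegral.integral_mono_on h12 (hgmt.sub hgm) (habs.const_mul _) fun z hz => ?_
    calc d.g z * d.mt z - d.g z * d.m z = d.g z * (d.mt z - d.m z) := by ring
      _ ≤ |d.g z * (d.mt z - d.m z)| := le_abs_self _
      _ = |d.g z| * |d.mt z - d.m z| := abs_mul _ _
      _ ≤ rgaG C cβ A * |d.mt z - d.m z| :=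
        mul_le_mul_of_nonneg_right (rgA_gbd h hC hcβ hA hδ0 hδ (hsub8 hz)).2 (abs_nonneg _)
  have T' : ∫ z in z₁..z₂, |d.mt z - d.m z| ≤ (ε + δ) * (4 * C + 2 * (cβ + 1) * (z₂ - z₁)) := by
    refine T.trans (mul_le_mul_of_nonneg_left ?_ (by positivity))
    nlinarith
  have D' : rgaG C cβ A * ∫ z in z₁..z₂, |d.mt z - d.m z|
      ≤ rgaG C cβ A * (ε + δ) * (4 * C + 2 * (cβ + 1) * (z₂ - z₁)) := by
    rw [mul_assoc]
    exact mul_le_mul_of_nonneg_left T' hG0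
  have P' : 2 * δ * d.θ * C + C * (rgE1 C cβ A ε δ * (z₂ - z₁) + 2 * δ * (z₂ - z₁ + d.θ))
      ≤ 2 * δ * C + C * (rgE1 C cβ A ε δ * (z₂ - z₁) + 2 * δ * (z₂ - z₁ + 1)) := by
    have p1 : 2 * δ * d.θ * C ≤ 2 * δ * C := by nlinarith [mul_pos hδ0 hC]
    have p2 : C * (2 * δ * (z₂ - z₁ + d.θ)) ≤ C * (2 * δ * (z₂ - z₁ + 1)) := by gcongr
    nlinarith
  have Q : (∫ z in z₁..z₂, d.g1 z ^ 2) / A
      ≤ (∫ z in z₁..z₂, d.g z * d.mt z) + (d.g z₂ * d.g1 z₂ - d.g z₁ * d.g1 z₁) / A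
        + δ * (rgaG C cβ A * (z₂ - z₁) + rgaG1 C cβ A * (z₂ - z₁) ^ 2) / A := by
    rw [div_le_iff₀ hA]
    have : ((∫ z in z₁..z₂, d.g z * d.mt z) + (d.g z₂ * d.g1 z₂ - d.g z₁ * d.g1 z₁) / A
        + δ * (rgaG C cβ A * (z₂ - z₁) + rgaG1 C cβ A * (z₂ - z₁) ^ 2) / A) * A
        = A * (∫ z in z₁..z₂, d.g z * d.mt z) + (d.g z₂ * d.g1 z₂ - d.g z₁ * d.g1 z₁)
          + δ * (rgaG C cβ A * (z₂ - z₁) + rgaG1 C cβ A * (z₂ - z₁) ^ 2) := by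
      field_simp
    rw [this]
    linarith
  unfold rgErr
  linarith

end Claimed.Agent.R286
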