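import Claimed.Agent.R286.Bud.RigA2

/-!
# Row 286, node N18 (RIG), regime A, unit A2b: good end points, the energy is small      ARCHITECT helper184
PROVER: helper184 (DONE, 0 holes).  Also here (cite freely downstream): positivity of the constants `rgL_pos rgM_pos rgK_pos rgaG1_pos rgaG_pos rgδ_pos rgδ_le_one`.
-/

set_option autoImplicit false

namespace Claimed.Agent.R286

open MeasureTheory Set

variable {d : RigD} {C cβ A cD δ W : ℝ}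

theorem rgδ_le_one (C cβ : ℝ) : rgδ C cβ ≤ 1 := by
  unfold rgδ
  exact (min_le_left _ _).trans ((min_le_left _ _).trans (by norm_num))

theorem rgL_pos {C cβ : ℝ} (hC : 0 < C) (hcβ : 0 < cβ) : 0 < rgL C cβ := by unfold rgL; positivity

theorem rgM_pos {C A : ℝ} (hC : 0 < C) (hA : 0 < A) : 0 < rgM C A := by unfold rgM; positivity

/-- one block -/
theorem rgA_block (h : d.Ok C cβ A cD δ W) (hC : 0 < C) (hcβ : 0 < cβ) (hA : 0 < A) (hδ0 : 0 < δ) (hδ : δ ≤ rgδ C cβ)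
    {b εg : ℝ} (hb : -W ≤ b) (hb' : b + (rgL C cβ + 1) ≤ W) (hεg : 0 < εg) (hεg' : εg ≤ 2 * rgM C A)
    (hall : ∀ z ∈ Icc b (b + (rgL C cβ + 1)), z ∉ d.F → εg ≤ |d.g1 z|) :
    εg ^ 3 / (8 * rgM C A) ≤ ∫ z in b..(b + (rgL C cβ + 1)), d.g1 z ^ 2 := by
  have hL := rgL_pos hC hcβ
  have hM := rgM_pos hC hA
  have hδ1 : δ ≤ 1 := hδ.trans (rgδ_le_one _ _)
  have hθ0 := h.θ_pos
  have hθ1 := h.θ_le
  have hLθ : rgL C cβ * d.θ ≤ rgL C cβ := by nlinarith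
  obtain ⟨z, hz, hzF⟩ := rgA_nonfloor h hC hcβ hδ0 hδ hb (by linarith)
  have hstep : εg / (2 * rgM C A) ≤ 1 := by
    rw [div_le_one (by positivity)]; exact hεg'
  have hstep0 : 0 < εg / (2 * rgM C A) := by positivity
  have hzI : z ∈ Icc b (b + (rgL C cβ + 1)) := ⟨hz.1, by linarith [hz.2]⟩
  have hzε := hall z hzI hzF
  have hw : ∀ x ∈ Icc z (z + εg / (2 * rgM C A)), x ∈ Icc (-W) W := fun x hx =>
    ⟨by linarith [hx.1, hz.1], by linarith [hx.2, hz.2]⟩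
  have hzW : z ∈ Icc (-W) W := hw z ⟨le_rfl, by linarith⟩
  have h1 : εg ^ 3 / (8 * rgM C A) ≤ ∫ x in z..(z + εg / (2 * rgM C A)), d.g1 x ^ 2 := by
    refine rg_sq_lb_right hεg hM (fun x hx => ?_) hzε
      (rgA_g1sq_int h hA hδ1 hzW (hw _ ⟨by linarith, le_rfl⟩))
    have := rgA_lip h hA hδ1 (hw x hx) hzW
    rwa [abs_of_nonneg (by linarith [hx.1] : (0:ℝ) ≤ x - z)] at this
  refine h1.trans ?_
  refine intervalIntegral.integral_mono_interval hz.1 (by linarith) (by linarith [hz.2]) ?_ ?_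
  · exact Filter.Eventually.of_forall fun x => sq_nonneg _
  · exact rgA_g1sq_int h hA hδ1 ⟨hb, by linarith⟩ ⟨by linarith, hb'⟩

/-- (15) a nonfloor point where `g1` is small -/
theorem rgA_end (h : d.Ok C cβ A cD δ W) (hC : 0 < C) (hcβ : 0 < cβ) (hA : 0 < A) (hδ0 : 0 < δ) (hδ : δ ≤ rgδ C cβ)
    {a εg E : ℝ} {N : ℕ} (ha : -W ≤ a) (ha' : a + N * (rgL C cβ + 1) ≤ W) (hεg : 0 < εg) (hεg' : εg ≤ 2 * rgM C A)
    (hE : ∫ z in a..(a + N * (rgL C cβ + 1)), d.g1 z ^ 2 ≤ E) (hN : E < N * (εg ^ 3 / (8 * rgM C A))) :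
    ∃ z ∈ Icc a (a + N * (rgL C cβ + 1)), z ∉ d.F ∧ |d.g1 z| < εg := by
  by_contra hcon
  have hall : ∀ z ∈ Icc a (a + N * (rgL C cβ + 1)), z ∉ d.F → εg ≤ |d.g1 z| := by
    intro z hz hF
    by_contra hlt
    exact hcon ⟨z, hz, hF, not_le.1 hlt⟩
  have hL := rgL_pos hC hcβ
  have hδ1 : δ ≤ 1 := hδ.trans (rgδ_le_one _ _)
  have key : ∀ k : ℕ, k ≤ N → (k : ℝ) * (εg ^ 3 / (8 * rgM C A)) ≤ ∫ z in a..(a + k * (rgL C cβ + 1)), d.g1 z ^ 2 := by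
    intro k
    induction k with
    | zero => intro _; simp
    | succ k ih =>
      intro hk
      have hk' : k ≤ N := Nat.le_of_succ_le hk
      have hkN : ((k : ℝ) + 1) ≤ N := by exact_mod_cast hk
      have hk0 : (0 : ℝ) ≤ k := Nat.cast_nonneg k
      have e1 : ((k : ℝ) + 1) * (rgL C cβ + 1) ≤ N * (rgL C cβ + 1) :=
        mul_le_mul_of_nonneg_right hkN (by linarith)
      have e0 : 0 ≤ (k : ℝ) * (rgL C cβ + 1) := by positivity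
      have hb : -W ≤ a + k * (rgL C cβ + 1) := by linarith
      have hb' : a + k * (rgL C cβ + 1) + (rgL C cβ + 1) ≤ W := by nlinarith
      have hblk := rgA_block h hC hcβ hA hδ0 hδ hb hb' hεg hεg' (fun z hz hF =>
        hall z ⟨by linarith [hz.1], by nlinarith [hz.2]⟩ hF)
      have hadd : ∫ z in a..(a + ((k + 1 : ℕ) : ℝ) * (rgL C cβ + 1)), d.g1 z ^ 2
          = (∫ z in a..(a + k * (rgL C cβ + 1)), d.g1 z ^ 2)
            + ∫ z in (a + k * (rgL C cβ + 1))..(a + k * (rgL C cβ + 1) + (rgL C cβ + 1)), d.g1 z ^ 2 := by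
        rw [intervalIntegral.integral_add_adjacent_intervals]
        · congr 1; push_cast; ring
        · exact rgA_g1sq_int h hA hδ1 ⟨ha, by linarith⟩ ⟨hb, by linarith⟩
        · exact rgA_g1sq_int h hA hδ1 ⟨hb, by linarith⟩ ⟨by linarith, hb'⟩
      rw [hadd]
      have := ih hk'
      push_cast
      linarith
  have := key N le_rfl
  linarith

theorem rgK_pos {C cβ : ℝ} (hC : 0 < C) (hcβ : 0 < cβ) : 0 < rgK C cβ := by unfold rgK; positivity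
theorem rgaG1_pos {C cβ A : ℝ} (hC : 0 < C) (hcβ : 0 < cβ) (hA : 0 < A) : 0 < rgaG1 C cβ A := by
  have := rgK_pos hC hcβ; have := rgM_pos hC hA; have := rgL_pos hC hcβ
  unfold rgaG1; positivity
theorem rgaG_pos {C cβ A : ℝ} (hC : 0 < C) (hcβ : 0 < cβ) (hA : 0 < A) : 0 < rgaG C cβ A := by
  have := rgK_pos hC hcβ; have := rgaG1_pos hC hcβ hA; have := rgL_pos hC hcβ
  unfold rgaG; positivity
theorem rgδ_pos {C cβ : ℝ} (hC : 0 < C) (hcβ : 0 < cβ) : 0 < rgδ C cβ := by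
  have := rgL_pos hC hcβ
  unfold rgδ
  refine lt_min (lt_min (by norm_num) (by positivity)) (by positivity)

/-- the coefficient of `t` in `rgE1 t t` -/
noncomputable def rgE1c (C cβ A : ℝ) : ℝ := 2 * rgaG1 C cβ A + 2 * rgaG C cβ A + 2 * C + (1 + 2 * C) * C / cβ
/-- the coefficient of `t` in `rgErr t t Δ` -/
noncomputable def rgErrc (C cβ A Δ : ℝ) : ℝ :=
  2 * C + C * (rgE1c C cβ A * Δ + 2 * (Δ + 1)) + 2 * rgaG C cβ A * (4 * C + 2 * (cβ + 1) * Δ)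
    + (rgaG C cβ A * Δ + rgaG1 C cβ A * Δ ^ 2) / A

theorem bud_rigA2b_eqns_cite : True := by
  have := @rgE1c.eq_1
  have := @rgErrc.eq_1
  trivial

theorem rgE1_diag (C cβ A t : ℝ) : rgE1 C cβ A t t = t * rgE1c C cβ A := by
  unfold rgE1 rgE1c; ring

theorem rgErr_diag (C cβ A t Δ : ℝ) : rgErr C cβ A t t Δ = t * rgErrc C cβ A Δ := by
  unfold rgErr rgErrc; rw [rgE1_diag]; ring

theorem rgE1c_pos {C cβ A : ℝ} (hC : 0 < C) (hcβ : 0 < cβ) (hA : 0 < A) : 0 < rgE1c C cβ A := by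
  have := rgaG1_pos hC hcβ hA; have := rgaG_pos hC hcβ hA
  unfold rgE1c; positivity

theorem rgErrc_mono {C cβ A Δ Δ' : ℝ} (hC : 0 < C) (hcβ : 0 < cβ) (hA : 0 < A) (h0 : 0 ≤ Δ) (h : Δ ≤ Δ') :
    rgErrc C cβ A Δ ≤ rgErrc C cβ A Δ' := by
  have h1 := rgaG1_pos hC hcβ hA; have h2 := rgaG_pos hC hcβ hA; have h3 := rgE1c_pos hC hcβ hA
  unfold rgErrc
  gcongr

theorem rgErrc_pos {C cβ A Δ : ℝ} (hC : 0 < C) (hcβ : 0 < cβ) (hA : 0 < A) (h0 : 0 ≤ Δ) : 0 < rgErrc C cβ A Δ := by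
  have h1 := rgaG1_pos hC hcβ hA; have h2 := rgaG_pos hC hcβ hA; have h3 := rgE1c_pos hC hcβ hA
  unfold rgErrc
  positivity

/-- record level part of `rgA_E` -/
theorem rgA_E_rec {t κ εg : ℝ} {N : ℕ} (h : d.Ok C cβ A cD t W) (hC : 0 < C) (hcβ : 0 < cβ) (hA : 0 < A)
    (htp : 0 < t) (ht1 : t ≤ rgδ C cβ) (ht3 : t ≤ 1)
    (hR' : 16 * (rgaG C cβ A + C ^ 2 * (1 + 1 / cβ) + 1) ≤ d.R 0 * t ^ 2)
    (hεgp : 0 < εg) (hεg1 : rgaG C cβ A * εg ≤ κ * A / 4) (hεg2 : εg ≤ 2 * rgM C A)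
    (hNc : A * (2 * rgaG C cβ A * rgaG1 C cβ A / A + 1) < N * (εg ^ 3 / (8 * rgM C A)))
    (hW : W = rgaS C cβ + (2 * rgL C cβ + 6) + N * (rgL C cβ + 1) + rgL C cβ + 2)
    (hErr : ∀ Δ : ℝ, 0 ≤ Δ → Δ ≤ 2 * W → rgErr C cβ A t t Δ ≤ min 1 (κ / 2)) :
    (∀ z ∈ Icc (-(W - (rgL C cβ + C + 7))) (W - (rgL C cβ + C + 7)), |d.Y z| ≤ t) ∧
        ∃ z₁ z₂ : ℝ, -(W - rgaS C cβ) ≤ z₁ ∧ z₁ ≤ -(2 * rgL C cβ + 6) ∧ 2 * rgL C cβ + 6 ≤ z₂ ∧ z₂ ≤ W - rgaS C cβ ∧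
          z₁ ∉ d.F ∧ z₂ ∉ d.F ∧
          (∫ z in z₁..z₂, d.g1 z ^ 2) / A + d.D 0 / cβ * ∫ z in z₁..z₂, d.m z ^ 2 ≤ κ := by
  have hL := rgL_pos hC hcβ
  have hM := rgM_pos hC hA
  have hG := rgaG_pos hC hcβ hA
  have hG1 := rgaG1_pos hC hcβ hA
  have hS : 0 < rgaS C cβ := by unfold rgaS; positivity
  have hSL : rgL C cβ + 4 ≤ rgaS C cβ := by unfold rgaS; linarith
  have hN0 : (0 : ℝ) ≤ N := Nat.cast_nonneg N
  obtain ⟨X, hX⟩ : ∃ X : ℝ, X = (N : ℝ) * (rgL C cβ + 1) := ⟨_, rfl⟩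
  have hX0 : 0 ≤ X := by rw [hX]; positivity
  rw [← hX] at hW
  have hWp : 0 < W := by rw [hW]; positivity
  have Ysm : ∀ z ∈ Icc (-(W - (rgL C cβ + C + 7))) (W - (rgL C cβ + C + 7)), |d.Y z| ≤ t := fun z hz =>
    rgA_Y h hC hcβ hA htp ht1 htp ht3 hR' hz
  refine ⟨Ysm, ?_⟩
  have hθ0 := h.θ_pos
  have hθ1 := h.θ_le
  have hLθ : rgL C cβ * d.θ ≤ rgL C cβ := by nlinarith
  have hLθ0 : 0 ≤ rgL C cβ * d.θ := by positivity
  -- outer nonfloor points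
  obtain ⟨y₂, hy₂, hy₂F⟩ := rgA_nonfloor h hC hcβ htp ht1 (p := (2 * rgL C cβ + 6) + X)
    (by linarith) (by linarith)
  obtain ⟨y₁, hy₁, hy₁F⟩ := rgA_nonfloor h hC hcβ htp ht1 (p := -((2 * rgL C cβ + 6) + X) - rgL C cβ * d.θ)
    (by linarith) (by linarith)
  have hy₁l : -(W - rgaS C cβ) ≤ y₁ := by have := hy₁.1; linarith
  have hy₁u : y₁ ≤ -((2 * rgL C cβ + 6) + X) := by have := hy₁.2; linarith
  have hy₂l : (2 * rgL C cβ + 6) + X ≤ y₂ := hy₂.1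
  have hy₂u : y₂ ≤ W - rgaS C cβ := by have := hy₂.2; linarith
  have hgb : ∀ z, -(W - rgaS C cβ) ≤ z → z ≤ W - rgaS C cβ → |d.g1 z| ≤ rgaG1 C cβ A ∧ |d.g z| ≤ rgaG C cβ A :=
    fun z h1 h2 => rgA_gbd h hC hcβ hA htp ht1 ⟨by linarith, by linarith⟩
  have hwin : ∀ z, -(W - rgaS C cβ) ≤ z → z ≤ W - rgaS C cβ → z ∈ Icc (-W) W :=
    fun z h1 h2 => ⟨by linarith, by linarith⟩
  have hD0 : 0 ≤ d.D 0 / cβ := div_nonneg (h.D_nonneg 0 ⟨by linarith, hWp.le⟩) hcβ.le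
  have hprod : ∀ z g', -(W - rgaS C cβ) ≤ z → z ≤ W - rgaS C cβ → |d.g1 z| ≤ g' →
      |d.g z * d.g1 z| ≤ rgaG C cβ A * g' := by
    intro z g' h1 h2 h3
    rw [abs_mul]
    exact mul_le_mul (hgb z h1 h2).2 h3 (abs_nonneg _) hG.le
  -- a priori bound
  have hap : ∫ z in y₁..y₂, d.g1 z ^ 2 ≤ A * (2 * rgaG C cβ A * rgaG1 C cβ A / A + 1) := by
    have hen := rgA_energy h hC hcβ hA htp ht1 htp ht3 Ysm hy₁l (by linarith) hy₂u hy₁F hy₂F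
    have hm2 : 0 ≤ ∫ z in y₁..y₂, d.m z ^ 2 :=
      intervalIntegral.integral_nonneg (by linarith) fun z _ => sq_nonneg _
    have he := (hErr (y₂ - y₁) (by linarith) (by linarith)).trans (min_le_left _ _)
    have p1 := hprod y₁ _ hy₁l (by linarith) (hgb y₁ hy₁l (by linarith)).1
    have p2 := hprod y₂ _ (by linarith) hy₂u (hgb y₂ (by linarith) hy₂u).1
    have hb : (d.g y₂ * d.g1 y₂ - d.g y₁ * d.g1 y₁) / A ≤ 2 * rgaG C cβ A * rgaG1 C cβ A / A := by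
      apply div_le_div_of_nonneg_right _ hA.le
      have := abs_le.1 p1; have := abs_le.1 p2
      linarith
    have h3 : (∫ z in y₁..y₂, d.g1 z ^ 2) / A ≤ 2 * rgaG C cβ A * rgaG1 C cβ A / A + 1 := by
      have : 0 ≤ d.D 0 / cβ * ∫ z in y₁..y₂, d.m z ^ 2 := mul_nonneg hD0 hm2
      linarith
    rw [div_le_iff₀ hA] at h3
    linarith
  have hsqi : ∀ a b, a ∈ Icc (-W) W → b ∈ Icc (-W) W → IntervalIntegrable (fun z => d.g1 z ^ 2) volume a b :=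
    fun a b ha hb => rgA_g1sq_int h hA ht3 ha hb
  -- right end
  obtain ⟨z₂, hz₂, hz₂F, hz₂g⟩ := rgA_end h hC hcβ hA htp ht1 (a := 2 * rgL C cβ + 6) (εg := εg)
    (E := A * (2 * rgaG C cβ A * rgaG1 C cβ A / A + 1)) (N := N)
    (by linarith) (by rw [← hX]; linarith) hεgp hεg2
    ((intervalIntegral.integral_mono_interval (by linarith) (by rw [← hX]; linarith) (by rw [← hX]; exact hy₂l)
      (Filter.Eventually.of_forall fun x => sq_nonneg _)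
      (hsqi _ _ (hwin _ hy₁l (by linarith)) (hwin _ (by linarith) hy₂u))).trans hap) hNc
  -- left end
  obtain ⟨z₁, hz₁, hz₁F, hz₁g⟩ := rgA_end h hC hcβ hA htp ht1 (a := -((2 * rgL C cβ + 6) + X)) (εg := εg)
    (E := A * (2 * rgaG C cβ A * rgaG1 C cβ A / A + 1)) (N := N)
    (by linarith) (by rw [← hX]; linarith) hεgp hεg2
    ((intervalIntegral.integral_mono_interval hy₁u (by rw [← hX]; linarith) (by rw [← hX]; linarith)
      (Filter.Eventually.of_forall fun x => sq_nonneg _)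
      (hsqi _ _ (hwin _ hy₁l (by linarith)) (hwin _ (by linarith) hy₂u))).trans hap) hNc
  rw [← hX] at hz₁ hz₂
  have a1 : -(W - rgaS C cβ) ≤ z₁ := by have := hz₁.1; linarith
  have a2 : z₁ ≤ -(2 * rgL C cβ + 6) := by have := hz₁.2; linarith
  have a3 : 2 * rgL C cβ + 6 ≤ z₂ := hz₂.1
  have a4 : z₂ ≤ W - rgaS C cβ := by have := hz₂.2; linarith
  refine ⟨z₁, z₂, a1, a2, a3, a4, hz₁F, hz₂F, ?_⟩
  have hen := rgA_energy h hC hcβ hA htp ht1 htp ht3 Ysm a1 (by linarith) a4 hz₁F hz₂F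
  have he := (hErr (z₂ - z₁) (by linarith) (by linarith)).trans (min_le_right _ _)
  have p1 := hprod z₁ εg a1 (by linarith) hz₁g.le
  have p2 := hprod z₂ εg (by linarith) a4 hz₂g.le
  have hb : (d.g z₂ * d.g1 z₂ - d.g z₁ * d.g1 z₁) / A ≤ κ / 2 := by
    rw [div_le_iff₀ hA]
    have := abs_le.1 p1; have := abs_le.1 p2
    linarith
  linarith

/-- the energy between two suitable nonfloor points is `≤ κ` -/
theorem rgA_E (C cβ A cD κ : ℝ) (hC : 0 < C) (hcβ : 0 < cβ) (hA : 0 < A) (hcD : 0 < cD) (hκ : 0 < κ) :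
    ∃ δ W RA ε : ℝ, 0 < δ ∧ δ ≤ rgδ C cβ ∧ δ ≤ κ ∧ 0 < ε ∧ ε ≤ 1 ∧ ε ≤ κ ∧ rgE1 C cβ A ε δ ≤ κ ∧ 0 < RA ∧
      rgaS C cβ + 2 * rgL C cβ + 8 ≤ W ∧
      ∀ d : RigD, d.Ok C cβ A cD δ W → RA ≤ d.R 0 →
        (∀ z ∈ Icc (-(W - (rgL C cβ + C + 7))) (W - (rgL C cβ + C + 7)), |d.Y z| ≤ ε) ∧
        ∃ z₁ z₂ : ℝ, -(W - rgaS C cβ) ≤ z₁ ∧ z₁ ≤ -(2 * rgL C cβ + 6) ∧ 2 * rgL C cβ + 6 ≤ z₂ ∧ z₂ ≤ W - rgaS C cβ ∧
          z₁ ∉ d.F ∧ z₂ ∉ d.F ∧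
          (∫ z in z₁..z₂, d.g1 z ^ 2) / A + d.D 0 / cβ * ∫ z in z₁..z₂, d.m z ^ 2 ≤ κ := by
  have hL := rgL_pos hC hcβ
  have hM := rgM_pos hC hA
  have hG := rgaG_pos hC hcβ hA
  have hG1 := rgaG1_pos hC hcβ hA
  have hS : 0 < rgaS C cβ := by unfold rgaS; positivity
  obtain ⟨εg, hεg⟩ : ∃ εg : ℝ, εg = min (κ * A / (4 * rgaG C cβ A)) (2 * rgM C A) := ⟨_, rfl⟩
  have hεgp : 0 < εg := by rw [hεg]; exact lt_min (by positivity) (by positivity)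
  have hεg2 : εg ≤ 2 * rgM C A := by rw [hεg]; exact min_le_right _ _
  have hεg1 : rgaG C cβ A * εg ≤ κ * A / 4 := by
    have : εg ≤ κ * A / (4 * rgaG C cβ A) := by rw [hεg]; exact min_le_left _ _
    calc rgaG C cβ A * εg ≤ rgaG C cβ A * (κ * A / (4 * rgaG C cβ A)) := mul_le_mul_of_nonneg_left this hG.le
      _ = κ * A / 4 := by field_simp
  have hcp : 0 < εg ^ 3 / (8 * rgM C A) := by positivity
  obtain ⟨N, hNc⟩ : ∃ N : ℕ, A * (2 * rgaG C cβ A * rgaG1 C cβ A / A + 1) < N * (εg ^ 3 / (8 * rgM C A)) := by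
    obtain ⟨N, hN⟩ := exists_nat_gt (A * (2 * rgaG C cβ A * rgaG1 C cβ A / A + 1) / (εg ^ 3 / (8 * rgM C A)))
    exact ⟨N, by rwa [div_lt_iff₀ hcp] at hN⟩
  have hN0 : (0 : ℝ) ≤ N := Nat.cast_nonneg N
  obtain ⟨W, hW⟩ : ∃ W : ℝ, W = rgaS C cβ + (2 * rgL C cβ + 6) + N * (rgL C cβ + 1) + rgL C cβ + 2 := ⟨_, rfl⟩
  have hNL : 0 ≤ (N : ℝ) * (rgL C cβ + 1) := by positivity
  have hWp : 0 < W := by rw [hW]; positivity
  have hPmp : 0 < rgErrc C cβ A (2 * W) := rgErrc_pos hC hcβ hA (by positivity)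
  have he1p := rgE1c_pos hC hcβ hA
  obtain ⟨t, ht⟩ : ∃ t : ℝ, t = min (min (rgδ C cβ) (min κ 1))
      (min (κ / rgE1c C cβ A) (min 1 (κ / 2) / rgErrc C cβ A (2 * W))) := ⟨_, rfl⟩
  have htp : 0 < t := by
    rw [ht]
    refine lt_min (lt_min (rgδ_pos hC hcβ) (lt_min hκ one_pos)) (lt_min (by positivity) ?_)
    exact div_pos (lt_min one_pos (by positivity)) hPmp
  have ht1 : t ≤ rgδ C cβ := by rw [ht]; exact (min_le_left _ _).trans (min_le_left _ _)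
  have ht2 : t ≤ κ := by rw [ht]; exact (min_le_left _ _).trans ((min_le_right _ _).trans (min_le_left _ _))
  have ht3 : t ≤ 1 := by rw [ht]; exact (min_le_left _ _).trans ((min_le_right _ _).trans (min_le_right _ _))
  have ht4 : t * rgE1c C cβ A ≤ κ := by
    have : t ≤ κ / rgE1c C cβ A := by rw [ht]; exact (min_le_right _ _).trans (min_le_left _ _)
    rwa [le_div_iff₀ he1p] at this
  have ht5 : t * rgErrc C cβ A (2 * W) ≤ min 1 (κ / 2) := by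
    have : t ≤ min 1 (κ / 2) / rgErrc C cβ A (2 * W) := by
      rw [ht]; exact (min_le_right _ _).trans (min_le_right _ _)
    rwa [le_div_iff₀ hPmp] at this
  have hErr : ∀ Δ : ℝ, 0 ≤ Δ → Δ ≤ 2 * W → rgErr C cβ A t t Δ ≤ min 1 (κ / 2) := by
    intro Δ h0 h1
    rw [rgErr_diag]
    exact (mul_le_mul_of_nonneg_left (rgErrc_mono hC hcβ hA h0 h1) htp.le).trans ht5
  have hBp : 0 < 16 * (rgaG C cβ A + C ^ 2 * (1 + 1 / cβ) + 1) := by positivity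
  refine ⟨t, W, 16 * (rgaG C cβ A + C ^ 2 * (1 + 1 / cβ) + 1) / t ^ 2, t, htp, ht1, ht2, htp, ht3, ht2,
    by rw [rgE1_diag]; exact ht4, by positivity, by rw [hW]; linarith, fun d h hR => ?_⟩
  have hR' : 16 * (rgaG C cβ A + C ^ 2 * (1 + 1 / cβ) + 1) ≤ d.R 0 * t ^ 2 := by
    rwa [div_le_iff₀ (by positivity)] at hR
  exact rgA_E_rec h hC hcβ hA htp ht1 ht3 hR' hεgp hεg1 hεg2 hNc hW hErr

end Claimed.Agent.R286
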