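import Mathlib

/-!
# Row 286, LL sec. 7, l.2126-2216 (node N18, regime B): the LIMIT problem      OWNER helper39

Defs-free, Mathlib only.  `RigLim C cβ A` = the limit objects of a sequence of records `RigD` (Bud/RigDefs.lean, helper184) that are
`Ok` with `δ_n → 0`, `W_n → ∞`, `θ = 1`, `R_n 0` bounded.   EXIT `bud_rg_lim_false : RigLim C cβ A → False`.
(BudRigB = "a sequence of Ok records produces a RigLim" (helper44, field by field) + this file.)

Dictionary:  `m = lim m_n`, `s = lim φ_n = lim (z + Y_n)`, `g = lim g_n`, `g1 = lim g_n'`, `J = lim H_n`, `Rinf = lim R_n 0`.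
`RigLim.Supp z₀` : `z₀` is a point of increase of `a(z) = cβ z + m z` (support of `μ = d(c_β z + m_∞)`, LL l.2143).
Fields:
* `supp_g, supp_J`        LL l.2143-2157  ("we conclude that `J̄ = g = 0` on `supp μ`, even if `R_n → 0`")
* `supp_sr`               LL l.2168-2170  ("monotonicity and the endpoint approximants give `s ∈ [a',b']`"; only the lower bracket is needed)
* `closure`               LL l.2160-2166  (`g(s(z)) = (lim R_n) Y(z)` a.e.; INTEGRATED form: no a.e. selection needed)
* `rel_r`                 LL l.2180-2197  (the RELATIVE error when `R_n → 0`, integrated over `[c,d]`)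
REMARK: the mirror image ("reflection excludes `g'(b') > 0`") is NOT needed: the right-hand argument works at EVERY support point
(`bud_rg_sign`: `g' ≤ 0` on the support), in particular at both ends of a gap, and the cubic lemma gives `g'(a') + g'(b') > 0`.
TEX[LL:bud:strengthening] (part: bounded rescaled removal, after the limit)
-/

set_option autoImplicit false

namespace Claimed.Agent.R286

open MeasureTheory Set Filter Topology

/-- a monotone function that increases on `[p,q]` has a point of increase in `[p,q]` -/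
theorem bud_rg_incr_pt {a : ℝ → ℝ} (ha : Monotone a) {p q : ℝ} (hpq : p ≤ q) (h : a p < a q) :
    ∃ z ∈ Icc p q, ∀ δ, 0 < δ → a (z - δ) < a (z + δ) := by
  by_contra hne
  push Not at hne
  set S : Set ℝ := {t | t ∈ Icc p q ∧ a t = a p} with hS
  have hpS : p ∈ S := ⟨⟨le_rfl, hpq⟩, rfl⟩
  have hbdd : BddAbove S := ⟨q, fun t ht => ht.1.2⟩
  set T := sSup S with hT
  have hTp : p ≤ T := le_csSup hbdd hpS
  have hTq : T ≤ q := csSup_le ⟨p, hpS⟩ fun t ht => ht.1.2
  obtain ⟨δ, hδ, hle⟩ := hne T ⟨hTp, hTq⟩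
  obtain ⟨t, htS, htT⟩ := exists_lt_of_lt_csSup ⟨p, hpS⟩ (show T - δ < T by linarith)
  have htT' : t ≤ T := le_csSup hbdd htS
  have hconst : ∀ y, T - δ ≤ y → y ≤ T + δ → a y = a p := by
    intro y h1 h2
    have e1 : a (T - δ) ≤ a y := ha h1
    have e2 : a y ≤ a (T + δ) := ha h2
    have e3 : a (T - δ) ≤ a t := ha htT.le
    have e4 : a t ≤ a (T + δ) := ha (by linarith)
    have e5 := htS.2
    linarith
  have hy : min (T + δ) q ∈ S := by
    refine ⟨⟨le_min (by linarith) hpq, min_le_right _ _⟩, hconst _ (le_min (by linarith) (by linarith)) (min_le_left _ _)⟩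
  have hyT : min (T + δ) q ≤ T := le_csSup hbdd hy
  have hq : q ≤ T := by
    rcases min_le_iff.1 hyT with h1 | h1
    · linarith
    · exact h1
  have : a q = a p := hconst q (by linarith) (by linarith)
  linarith

/-- the set of points of increase is closed from the left -/
theorem bud_rg_incr_sSup {a : ℝ → ℝ} (ha : Monotone a) {S : Set ℝ} (hne : S.Nonempty) (hb : BddAbove S)
    (hS : ∀ y ∈ S, ∀ δ, 0 < δ → a (y - δ) < a (y + δ)) :
    ∀ δ, 0 < δ → a (sSup S - δ) < a (sSup S + δ) := by
  intro δ hδ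
  obtain ⟨y, hyS, hy⟩ := exists_lt_of_lt_csSup hne (show sSup S - δ < sSup S by linarith)
  have hy' : y ≤ sSup S := le_csSup hb hyS
  have h1 := hS y hyS (δ - (sSup S - y)) (by linarith)
  have h2 : y - (δ - (sSup S - y)) = sSup S - δ := by ring
  rw [h2] at h1
  exact lt_of_lt_of_le h1 (ha (by linarith))

theorem bud_rg_incr_sInf {a : ℝ → ℝ} (ha : Monotone a) {S : Set ℝ} (hne : S.Nonempty) (hb : BddBelow S)
    (hS : ∀ y ∈ S, ∀ δ, 0 < δ → a (y - δ) < a (y + δ)) :
    ∀ δ, 0 < δ → a (sInf S - δ) < a (sInf S + δ) := by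
  intro δ hδ
  obtain ⟨y, hyS, hy⟩ := exists_lt_of_csInf_lt hne (show sInf S < sInf S + δ by linarith)
  have hy' : sInf S ≤ y := csInf_le hb hyS
  have h1 := hS y hyS (δ - (y - sInf S)) (by linarith)
  have h2 : y + (δ - (y - sInf S)) = sInf S + δ := by ring
  rw [h2] at h1
  exact lt_of_le_of_lt (ha (by linarith)) h1

/-- a function with `f z₀ = 0`, `f' z₀ > 0` is positive just to the right of `z₀` -/
theorem bud_rg_pos_right {f : ℝ → ℝ} {f' z₀ : ℝ} (hf : HasDerivAt f f' z₀) (h0 : f z₀ = 0) (hpos : 0 < f') :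
    ∃ η, 0 < η ∧ ∀ y, z₀ < y → y ≤ z₀ + η → 0 < f y := by
  have h1 := (hasDerivAt_iff_isLittleO.1 hf).def (half_pos hpos)
  obtain ⟨ε, hε, hball⟩ := Metric.eventually_nhds_iff.1 h1
  refine ⟨ε / 2, by positivity, fun y hy1 hy2 => ?_⟩
  have hd : dist y z₀ < ε := by
    rw [Real.dist_eq, abs_of_pos (by linarith)]; linarith
  have h2 := hball hd
  rw [h0, Real.norm_eq_abs, Real.norm_eq_abs, abs_of_pos (show 0 < y - z₀ by linarith), smul_eq_mul] at h2
  have h3 := (abs_le.1 h2).1
  nlinarith

/-- if all interval integrals of `E` vanish then `E` vanishes at its continuity points -/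
theorem bud_rg_zero_of_int {E : ℝ → ℝ} (hm : Measurable E) (hi : ∀ p q, IntervalIntegrable E volume p q)
    (h0 : ∀ p q, ∫ z in p..q, E z = 0) {z : ℝ} (hc : ContinuousAt E z) : E z = 0 := by
  have h1 : HasDerivAt (fun u => ∫ x in (0:ℝ)..u, E x) (E z) z :=
    intervalIntegral.integral_hasDerivAt_right (hi 0 z) hm.stronglyMeasurable.stronglyMeasurableAtFilter hc
  have h2 : (fun u => ∫ x in (0:ℝ)..u, E x) = fun _ => (0:ℝ) := funext fun u => h0 0 u
  rw [h2] at h1
  exact h1.unique (hasDerivAt_const z (0:ℝ))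

/-- `g ∘ s` is interval integrable for continuous `g`, monotone `s` -/
theorem bud_rg_comp_int {g s : ℝ → ℝ} (hg : Continuous g) (hs : Monotone s) (p q : ℝ) :
    IntervalIntegrable (fun z => g (s z)) volume p q := by
  have hmeas : Measurable (fun z => g (s z)) := hg.measurable.comp hs.measurable
  obtain ⟨M, hM⟩ := (isCompact_Icc (a := s (min p q)) (b := s (max p q))).exists_bound_of_continuousOn hg.continuousOn
  rw [intervalIntegrable_iff]
  refine Measure.integrableOn_of_bounded (M := M) (by simp [uIoc]) hmeas.aestronglyMeasurable ?_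
  refine (ae_restrict_iff' measurableSet_uIoc).2 (Eventually.of_forall fun z hz => ?_)
  have hz' : z ∈ Icc (min p q) (max p q) := ⟨hz.1.le, hz.2⟩
  exact hM _ ⟨hs hz'.1, hs hz'.2⟩

/-- **sign lemma** (LL l.2172-2197): no point `z₀` with `g z₀ = J z₀ = 0`, `s ≥ z₀` to its right, `g' z₀ > 0`. -/
theorem bud_rg_sign {g g1 s J : ℝ → ℝ} {Rinf z₀ : ℝ} (hs : Monotone s) (hg : ∀ z, HasDerivAt g (g1 z) z)
    (hJ0 : ∀ z, 0 ≤ J z) (hJ : ∀ z₁ z₂, J z₂ - J z₁ = -∫ z in z₁..z₂, (s z - z)) (hR : 0 ≤ Rinf)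
    (hcl : ∀ p q, ∫ z in p..q, (g (s z) - Rinf * (s z - z)) = 0)
    (hgz : g z₀ = 0) (hJz : J z₀ = 0) (hsr : ∀ z, z₀ < z → z₀ ≤ s z)
    (hrel : Rinf = 0 → ∀ c d, z₀ < c → c < d → s d = z₀ → 0 ≤ ∫ z in c..d, (s z - z))
    (hpos : 0 < g1 z₀) : False := by
  have hgc : Continuous g := continuous_iff_continuousAt.2 fun z => (hg z).continuousAt
  obtain ⟨η, hη, hgpos⟩ := bud_rg_pos_right (hg z₀) hgz hpos
  have hYi : ∀ p q, IntervalIntegrable (fun z => s z - z) volume p q := fun p q =>
    (hs.intervalIntegrable).sub (continuous_id.intervalIntegrable p q)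
  -- the closure identity at continuity points of `s`
  have hgood : ∀ z, ContinuousAt s z → g (s z) = Rinf * (s z - z) := by
    intro z hz
    have hm : Measurable (fun z => g (s z) - Rinf * (s z - z)) :=
      (hgc.measurable.comp hs.measurable).sub ((hs.measurable.sub measurable_id).const_mul Rinf)
    have hi : ∀ p q, IntervalIntegrable (fun z => g (s z) - Rinf * (s z - z)) volume p q := fun p q =>
      (bud_rg_comp_int hgc hs p q).sub ((hYi p q).const_mul Rinf)
    have hc : ContinuousAt (fun z => g (s z) - Rinf * (s z - z)) z :=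
      (ContinuousAt.comp (f := s) (g := g) hgc.continuousAt hz).sub ((hz.sub continuousAt_id).const_mul Rinf)
    have := bud_rg_zero_of_int hm hi hcl hc
    linarith
  -- good points are dense
  have hdense : Dense {x | ContinuousAt s x} := by
    have h1 := hs.countable_not_continuousAt.dense_compl ℝ
    have h2 : {x | ¬ContinuousAt s x}ᶜ = {x | ContinuousAt s x} := by
      ext x; simp
    rwa [h2] at h1
  -- at good points just to the right of `z₀` : `z < s z`
  have hkey : ∀ z, ContinuousAt s z → z₀ < z → z < z₀ + η → z < s z := by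
    intro z hzc hz1 hz2
    have h1 := hsr z hz1
    have h2 := hgood z hzc
    rcases eq_or_lt_of_le h1 with h3 | h3
    · -- `s z = z₀`
      exfalso
      rw [← h3, hgz] at h2
      have hR0 : Rinf = 0 := by
        rcases mul_eq_zero.1 h2.symm with h4 | h4
        · exact h4
        · linarith
      set c := z₀ + (z - z₀) / 3 with hc
      set d := z₀ + 2 * (z - z₀) / 3 with hd
      have hc1 : z₀ < c := by rw [hc]; linarith
      have hcd : c < d := by rw [hc, hd]; linarith
      have hdz : d < z := by rw [hd]; linarith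
      have hsd : ∀ t, z₀ < t → t ≤ z → s t = z₀ := fun t ht1 ht2 =>
        le_antisymm ((hs ht2).trans h3.symm.le) (hsr t ht1)
      have h5 := hrel hR0 c d hc1 hcd (hsd d (by linarith) hdz.le)
      have h6 : ∫ t in c..d, (s t - t) ≤ ∫ t in c..d, (z₀ - c) := by
        refine intervalIntegral.integral_mono_on hcd.le (hYi c d) (by simp) fun t ht => ?_
        rw [hsd t (by linarith [ht.1]) (by linarith [ht.2])]
        linarith [ht.1]
      rw [intervalIntegral.integral_const, smul_eq_mul] at h6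
      nlinarith
    · by_cases h4 : s z ≤ z₀ + η
      · have h5 := hgpos (s z) h3 h4
        rw [h2] at h5
        have h6 : 0 < s z - z := by
          by_contra h7
          have h8 : s z - z ≤ 0 := not_lt.1 h7
          nlinarith
        linarith
      · linarith
  -- everywhere just to the right of `z₀` : `t ≤ s t`
  have hall : ∀ t, z₀ < t → t < z₀ + η → t ≤ s t := by
    intro t ht1 ht2
    refine le_of_forall_lt fun y hy => ?_
    obtain ⟨z, hzc, hz1, hz2⟩ := hdense.exists_between (show max y z₀ < t from max_lt hy ht1)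
    have h1 := hkey z hzc (lt_of_le_of_lt (le_max_right _ _) hz1) (by linarith)
    have h2 := hs hz2.le
    have h3 := le_max_left y z₀
    linarith
  -- a good point and the contradiction
  obtain ⟨z1, hz1c, hz11, hz12⟩ := hdense.exists_between (show z₀ < z₀ + η by linarith)
  have hz1s := hkey z1 hz1c hz11 hz12
  set z2 := min (s z1) (z₀ + η) with hz2
  have hz12' : z1 < z2 := lt_min hz1s hz12
  have hJ1 : J z1 ≤ 0 := by
    have h1 := hJ z₀ z1
    have h2 : 0 ≤ ∫ t in z₀..z1, (s t - t) := by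
      refine intervalIntegral.integral_nonneg_of_ae_restrict hz11.le ?_
      have h3 : ∀ᵐ t ∂(volume.restrict (Icc z₀ z1)), t ≠ z₀ := by
        refine ae_restrict_of_ae ?_
        exact compl_mem_ae_iff.2 (measure_singleton z₀)
      filter_upwards [h3, ae_restrict_mem measurableSet_Icc] with t ht1 ht2
      have := hall t (lt_of_le_of_ne ht2.1 (Ne.symm ht1)) (by linarith [ht2.2])
      simpa using this
    linarith
  have hJ2 : J z2 < J z1 := by
    have h1 := hJ z1 z2
    have h2 : ∫ t in z1..z2, (z2 - t) ≤ ∫ t in z1..z2, (s t - t) := by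
      refine intervalIntegral.integral_mono_on hz12'.le
        ((continuous_const.sub continuous_id).intervalIntegrable _ _) (hYi _ _) fun t ht => ?_
      have := hs ht.1
      have h3 : z2 ≤ s z1 := min_le_left _ _
      linarith
    have h3 : ∫ t in z1..z2, (z2 - t) = (z2 - z1) ^ 2 / 2 := by
      rw [intervalIntegral.integral_sub (by simp) (by simp)]
      simp
      ring
    have h4 : 0 < (z2 - z1) ^ 2 / 2 := by
      have : 0 < z2 - z1 := by linarith
      positivity
    linarith
  have := hJ0 z2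
  linarith

/-- **cubic lemma** (LL l.2199-2203): `g(a') = g(b') = 0`, `g'' = -A m`, `m = κ - cβ z` on the gap: `g'(a') + g'(b') = A cβ (b'-a')²/6`. -/
theorem bud_rg_cubic {g g1 m : ℝ → ℝ} {A cβ κ a' b' : ℝ} (hab : a' < b')
    (hg : ∀ z, HasDerivAt g (g1 z) z) (hg1 : ∀ z₁ z₂, g1 z₂ - g1 z₁ = -(A * ∫ z in z₁..z₂, m z))
    (hm : ∀ z ∈ Ioo a' b', m z = κ - cβ * z) (ha : g a' = 0) (hb : g b' = 0) :
    g1 a' + g1 b' = A * cβ * (b' - a') ^ 2 / 6 := by
  -- formula for `g1` on `[a',b']`
  have hf : ∀ z ∈ Icc a' b', g1 z = g1 a' - A * (κ * (z - a') - cβ * (z ^ 2 - a' ^ 2) / 2) := by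
    intro z hz
    have h1 := hg1 a' z
    have h2 : ∫ t in a'..z, m t = ∫ t in a'..z, (κ - cβ * t) := by
      refine intervalIntegral.integral_congr_ae ?_
      have h3 : ∀ᵐ t ∂(volume : Measure ℝ), t ≠ b' := compl_mem_ae_iff.2 (measure_singleton b')
      filter_upwards [h3] with t ht1 ht2
      rw [uIoc_of_le hz.1] at ht2
      exact hm t ⟨ht2.1, lt_of_le_of_ne (ht2.2.trans hz.2) ht1⟩
    have h4 : ∫ t in a'..z, (κ - cβ * t) = κ * (z - a') - cβ * (z ^ 2 - a' ^ 2) / 2 := by
      have h : IntervalIntegrable (fun x : ℝ => cβ * x) volume a' z :=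
        (continuous_const.mul continuous_id).intervalIntegrable _ _
      rw [intervalIntegral.integral_sub (by simp) h, intervalIntegral.integral_const_mul, integral_id,
        intervalIntegral.integral_const, smul_eq_mul]
      ring
    rw [h2, h4] at h1
    linarith
  -- compare `g` with the cubic
  set P : ℝ → ℝ := fun z => g1 a' * (z - a') - A * (κ * (z - a') ^ 2 / 2 - cβ * ((z ^ 3 - a' ^ 3) / 6 - a' ^ 2 * (z - a') / 2)) with hP
  have hPd : ∀ z, HasDerivAt P (g1 a' - A * (κ * (z - a') - cβ * (z ^ 2 - a' ^ 2) / 2)) z := by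
    intro z
    have e1 : HasDerivAt (fun z : ℝ => z - a') 1 z := (hasDerivAt_id z).sub_const a'
    have e2 : HasDerivAt (fun z : ℝ => (z - a') ^ 2) (2 * (z - a')) z := by
      simpa using e1.fun_pow 2
    have e3 : HasDerivAt (fun z : ℝ => z ^ 3 - a' ^ 3) (3 * z ^ 2) z := by
      simpa using ((hasDerivAt_id z).fun_pow 3).sub_const (a' ^ 3)
    have e4 := (e1.const_mul (g1 a')).fun_sub ((((e2.const_mul κ).div_const 2).fun_sub
      (((e3.div_const 6).fun_sub ((e1.const_mul (a' ^ 2)).div_const 2)).const_mul cβ)).const_mul A)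
    exact e4.congr_deriv (by ring)
  obtain ⟨c, hc, hslope⟩ := exists_hasDerivAt_eq_slope (fun z => g z - P z)
    (fun z => g1 z - (g1 a' - A * (κ * (z - a') - cβ * (z ^ 2 - a' ^ 2) / 2))) hab
    (fun z _ => ((hg z).sub (hPd z)).continuousAt.continuousWithinAt)
    (fun z _ => (hg z).sub (hPd z))
  have h0 : g1 c - (g1 a' - A * (κ * (c - a') - cβ * (c ^ 2 - a' ^ 2) / 2)) = 0 := by
    rw [hf c ⟨hc.1.le, hc.2.le⟩]; ring
  rw [h0] at hslope
  have hne : b' - a' ≠ 0 := by linarith
  have h1 : g b' - P b' - (g a' - P a') = 0 := by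
    have := hslope.symm
    rcases div_eq_zero_iff.1 this with h | h
    · exact h
    · exact absurd h hne
  have hPa : P a' = 0 := by simp [hP]
  rw [ha, hb, hPa] at h1
  have hPb : P b' = 0 := by linarith
  have h2 := hf b' ⟨hab.le, le_rfl⟩
  -- algebra
  have h3 : g1 a' - A * (κ * (b' - a') / 2 - cβ * ((b' ^ 2 + a' * b' + a' ^ 2) / 6 - a' ^ 2 / 2)) = 0 := by
    have h4 : P b' = (b' - a') * (g1 a' - A * (κ * (b' - a') / 2 - cβ * ((b' ^ 2 + a' * b' + a' ^ 2) / 6 - a' ^ 2 / 2))) := by
      simp only [hP]; ring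
    rw [h4] at hPb
    rcases mul_eq_zero.1 hPb with h | h
    · exact absurd h hne
    · exact h
  rw [h2]
  linear_combination 2 * h3

/-- full support is impossible (LL l.2205-2216) -/
theorem bud_rg_full {m : ℝ → ℝ} {cβ : ℝ} (hcβ : 0 < cβ) (ha : Monotone (fun z => cβ * z + m z))
    (h0 : ∀ z₁ z₂, ∫ z in z₁..z₂, m z = 0) : m 0 = 0 := by
  have hai : ∀ p q, IntervalIntegrable (fun z => cβ * z + m z) volume p q := fun p q => ha.intervalIntegrable
  have hli : ∀ p q, IntervalIntegrable (fun z : ℝ => cβ * z) volume p q := fun p q =>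
    (continuous_const.mul continuous_id).intervalIntegrable _ _
  have hmi : ∀ p q, IntervalIntegrable m volume p q := fun p q => by
    have := (hai p q).sub (hli p q)
    simpa using this
  have hint : ∀ p q, ∫ z in p..q, (cβ * z + m z) = cβ * (q ^ 2 - p ^ 2) / 2 := by
    intro p q
    rw [intervalIntegral.integral_add (hli p q) (hmi p q), h0, intervalIntegral.integral_const_mul, integral_id]
    ring
  have hup : ∀ h, 0 < h → m 0 ≤ cβ * h / 2 := by
    intro h hh
    have h1 : ∫ _z in (0:ℝ)..h, (m 0) ≤ ∫ z in (0:ℝ)..h, (cβ * z + m z) := by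
      refine intervalIntegral.integral_mono_on hh.le (by simp) (hai _ _) fun z hz => ?_
      have := ha hz.1
      simpa using this
    rw [hint, intervalIntegral.integral_const, smul_eq_mul] at h1
    have h2 : h * m 0 ≤ h * (cβ * h / 2) := by nlinarith
    exact le_of_mul_le_mul_left h2 hh
  have hlo : ∀ h, 0 < h → -(cβ * h / 2) ≤ m 0 := by
    intro h hh
    have h1 : ∫ z in (-h)..(0:ℝ), (cβ * z + m z) ≤ ∫ _z in (-h)..(0:ℝ), (m 0) := by
      refine intervalIntegral.integral_mono_on (by linarith) (hai _ _) (by simp) fun z hz => ?_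
      have := ha hz.2
      simpa using this
    rw [hint, intervalIntegral.integral_const, smul_eq_mul] at h1
    have h2 : h * (-(cβ * h / 2)) ≤ h * m 0 := by nlinarith
    exact le_of_mul_le_mul_left h2 hh
  refine le_antisymm ?_ ?_
  · refine le_of_forall_pos_le_add fun ε hε => ?_
    have := hup (2 * ε / cβ) (by positivity)
    have h2 : cβ * (2 * ε / cβ) / 2 = ε := by field_simp
    linarith
  · refine le_of_forall_pos_le_add fun ε hε => ?_
    have := hlo (2 * ε / cβ) (by positivity)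
    have h2 : cβ * (2 * ε / cβ) / 2 = ε := by field_simp
    linarith

/-- the limit objects of regime B (`θ = 1`, bounded rescaled removal) -/
structure RigLim (C cβ A : ℝ) where
  m : ℝ → ℝ
  s : ℝ → ℝ
  g : ℝ → ℝ
  g1 : ℝ → ℝ
  J : ℝ → ℝ
  Rinf : ℝ
  m_bd : ∀ z, |m z| ≤ C
  m_zero : |m 0| = 1
  a_mono : Monotone (fun z => cβ * z + m z)
  s_mono : Monotone s
  g_der : ∀ z, HasDerivAt g (g1 z) z
  g1_eq : ∀ z₁ z₂, g1 z₂ - g1 z₁ = -(A * ∫ z in z₁..z₂, m z)
  J_nonneg : ∀ z, 0 ≤ J z
  J_eq : ∀ z₁ z₂, J z₂ - J z₁ = -∫ z in z₁..z₂, (s z - z)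
  R_nonneg : 0 ≤ Rinf
  supp_g : ∀ z₀, (∀ δ, 0 < δ → cβ * (z₀ - δ) + m (z₀ - δ) < cβ * (z₀ + δ) + m (z₀ + δ)) → g z₀ = 0
  supp_J : ∀ z₀, (∀ δ, 0 < δ → cβ * (z₀ - δ) + m (z₀ - δ) < cβ * (z₀ + δ) + m (z₀ + δ)) → J z₀ = 0
  supp_sr : ∀ z₀, (∀ δ, 0 < δ → cβ * (z₀ - δ) + m (z₀ - δ) < cβ * (z₀ + δ) + m (z₀ + δ)) →
    ∀ z, z₀ < z → z₀ ≤ s z
  closure : ∀ p q, ∫ z in p..q, (g (s z) - Rinf * (s z - z)) = 0
  rel_r : Rinf = 0 → ∀ z₀, (∀ δ, 0 < δ → cβ * (z₀ - δ) + m (z₀ - δ) < cβ * (z₀ + δ) + m (z₀ + δ)) →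
    0 < g1 z₀ → ∀ c d, z₀ < c → c < d → s d = z₀ → 0 ≤ ∫ z in c..d, (s z - z)

/-- **regime B after the limit**: the limit problem has no solution (support gaps, cubic lemma, sign of the potential). -/
theorem bud_rg_lim_false {C cβ A : ℝ} (hcβ : 0 < cβ) (hA : 0 < A) (L : RigLim C cβ A) : False := by
  set a : ℝ → ℝ := fun z => cβ * z + L.m z with ha
  have ham : Monotone a := L.a_mono
  -- `g' ≤ 0` on the support
  have hsign : ∀ z₀, (∀ δ, 0 < δ → a (z₀ - δ) < a (z₀ + δ)) → L.g1 z₀ ≤ 0 := by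
    intro z₀ hz
    by_contra hpos
    exact bud_rg_sign L.s_mono L.g_der L.J_nonneg L.J_eq L.R_nonneg L.closure (L.supp_g z₀ hz)
      (L.supp_J z₀ hz) (L.supp_sr z₀ hz) (fun hR => L.rel_r hR z₀ hz (not_le.1 hpos)) (not_le.1 hpos)
  -- long intervals carry mass
  have hC : 0 ≤ C := (abs_nonneg _).trans (L.m_bd 0)
  set T := (2 * C + 1) / cβ with hT
  have hTpos : 0 < T := by positivity
  have hmass : ∀ z, a z < a (z + T) := by
    intro z
    have h1 := abs_le.1 (L.m_bd z)
    have h2 := abs_le.1 (L.m_bd (z + T))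
    have h3 : cβ * T = 2 * C + 1 := by rw [hT]; field_simp
    simp only [ha]
    nlinarith
  by_cases hall : ∀ z, ∀ δ, 0 < δ → a (z - δ) < a (z + δ)
  · -- full support
    have hg0 : L.g = fun _ => 0 := funext fun z => L.supp_g z (hall z)
    have hg1 : ∀ z, L.g1 z = 0 := by
      intro z
      have h1 := L.g_der z
      rw [hg0] at h1
      exact h1.unique (hasDerivAt_const z (0:ℝ))
    have hint : ∀ z₁ z₂, ∫ z in z₁..z₂, L.m z = 0 := by
      intro z₁ z₂
      have h1 := L.g1_eq z₁ z₂
      rw [hg1, hg1] at h1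
      have h2 : A * ∫ z in z₁..z₂, L.m z = 0 := by linarith
      rcases mul_eq_zero.1 h2 with h | h
      · exact absurd h hA.ne'
      · exact h
    have h0 := bud_rg_full hcβ L.a_mono hint
    have h1 := L.m_zero
    rw [h0] at h1
    simp at h1
  · -- a gap
    push Not at hall
    obtain ⟨z, δ₀, hδ₀, hz⟩ := hall
    set Sl : Set ℝ := {y | y ≤ z ∧ ∀ δ, 0 < δ → a (y - δ) < a (y + δ)} with hSl
    set Sr : Set ℝ := {y | z ≤ y ∧ ∀ δ, 0 < δ → a (y - δ) < a (y + δ)} with hSr
    have hSlne : Sl.Nonempty := by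
      obtain ⟨y, hy, hyS⟩ := bud_rg_incr_pt ham (show z - T ≤ z by linarith)
        (by have := hmass (z - T); simpa using this)
      exact ⟨y, hy.2, hyS⟩
    have hSrne : Sr.Nonempty := by
      obtain ⟨y, hy, hyS⟩ := bud_rg_incr_pt ham (show z ≤ z + T by linarith) (hmass z)
      exact ⟨y, hy.1, hyS⟩
    have hSlb : BddAbove Sl := ⟨z, fun y hy => hy.1⟩
    have hSrb : BddBelow Sr := ⟨z, fun y hy => hy.1⟩
    set a' := sSup Sl with ha'
    set b' := sInf Sr with hb'
    have ha's : ∀ δ, 0 < δ → a (a' - δ) < a (a' + δ) := bud_rg_incr_sSup ham hSlne hSlb fun y hy => hy.2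
    have hb's : ∀ δ, 0 < δ → a (b' - δ) < a (b' + δ) := bud_rg_incr_sInf ham hSrne hSrb fun y hy => hy.2
    have ha'z : a' ≤ z := csSup_le hSlne fun y hy => hy.1
    have hzb' : z ≤ b' := le_csInf hSrne fun y hy => hy.1
    have ha'ne : a' ≠ z := by
      intro h
      have := ha's δ₀ hδ₀
      rw [h] at this
      linarith
    have hb'ne : b' ≠ z := by
      intro h
      have := hb's δ₀ hδ₀
      rw [h] at this
      linarith
    have ha'lt : a' < z := lt_of_le_of_ne ha'z ha'ne
    have hltb' : z < b' := lt_of_le_of_ne hzb' (Ne.symm hb'ne)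
    -- `a` is constant on the gap
    have hconst : ∀ y ∈ Ioo a' b', a y = a z := by
      have hno : ∀ p q, a' < p → p ≤ q → q < b' → a p = a q := by
        intro p q hp hpq hq
        by_contra hne
        have hlt : a p < a q := lt_of_le_of_ne (ham hpq) hne
        obtain ⟨y, hy, hyS⟩ := bud_rg_incr_pt ham hpq hlt
        rcases le_total y z with h | h
        · have : y ≤ a' := le_csSup hSlb ⟨h, hyS⟩
          linarith [hy.1]
        · have : b' ≤ y := csInf_le hSrb ⟨h, hyS⟩
          linarith [hy.2]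
      intro y hy
      rcases le_total y z with h | h
      · exact hno y z hy.1 h hltb'
      · exact (hno z y ha'lt h hy.2).symm
    have hm : ∀ y ∈ Ioo a' b', L.m y = a z - cβ * y := by
      intro y hy
      have := hconst y hy
      simp only [ha] at this ⊢
      linarith
    have hcub := bud_rg_cubic (ha'lt.trans hltb') L.g_der L.g1_eq hm (L.supp_g a' ha's) (L.supp_g b' hb's)
    have h1 := hsign a' ha's
    have h2 := hsign b' hb's
    have h3 : 0 < A * cβ * (b' - a') ^ 2 / 6 := by
      have : 0 < b' - a' := by linarith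
      positivity
    linarith

end Claimed.Agent.R286
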