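import Claimed.Agent.R286.Bud.RigA1b

/-!
# Row 286, node N18 (RIG), regime B: the fixed-record part of `rgB_rel` (relative error, LL l.2180-2197)      helper27

One record `d`, `θ = 1`.  `p` = support point, `a` = nonfloor approximant of `p` with `|e a| ≤ ε' min 1 (R 0)`, `g1 p > G/2 > 0`,
`z₀ = p + 2ℓ` with `z₀ + Y z₀ ≤ p + η`.  Then on `[p+ℓ, z₀]`:  `Y ≤ -ℓ/2` (monotonicity of `z + Y`), `g(φ z) ≥ g(φ a) ≥ -o(R 0)`, so (C20) forces
`|e| ≥ R(0) ℓ/4` on the whole interval: impossible by the box bound `rgA_ebox`.   No limit of integrals is needed.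
-/

set_option autoImplicit false

namespace Claimed.Agent.R286

open MeasureTheory Set

variable {d : RigD} {C cβ A cD δ W : ℝ}

/-- value of `g ∘ φ` at a nonfloor point with relatively small `e`: `≥ -o(R 0)` and `≤ o(R 0)` -/
theorem rgB_rel_a (h : d.Ok C cβ A cD δ W) (hcβ : 0 < cβ) (hδ0 : 0 < δ) {a ε' : ℝ} (hε0 : 0 < ε')
    (haW : a ∈ Icc (-W) W) (haF : a ∉ d.F) (hae : |d.e cβ a| ≤ ε' * min 1 (d.R 0)) :
    |d.g (d.φ a)| ≤ d.R 0 * ((1 + δ) * δ + δ * (δ + C / cβ) + ε') ∧ |d.Y a| ≤ δ := by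
  have hR0 := h.R_pos
  have hminR : min 1 (d.R 0) ≤ d.R 0 := min_le_right _ _
  have hYa : |d.Y a| ≤ δ := by
    have h4 := h.Y_off a haW haF
    have : 1 * |d.Y a| ≤ max 1 (d.R 0) * |d.Y a| :=
      mul_le_mul_of_nonneg_right (le_max_left _ _) (abs_nonneg _)
    linarith
  refine ⟨?_, hYa⟩
  have hRa := abs_le.1 (h.R_near a haW)
  have e1 : d.g (d.φ a) = d.e cβ a + d.R a * d.Y a + d.D a * (d.Y a - d.m a / cβ) := by
    unfold RigD.e; ring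
  have b1 : |d.e cβ a| ≤ ε' * d.R 0 :=
    hae.trans (mul_le_mul_of_nonneg_left hminR hε0.le)
  have b2 : |d.R a * d.Y a| ≤ (1 + δ) * d.R 0 * δ := by
    rw [abs_mul]
    have h6 : |d.R a| ≤ (1 + δ) * d.R 0 := by
      rw [abs_le]; constructor <;> nlinarith [hRa.1, hRa.2]
    exact mul_le_mul h6 hYa (abs_nonneg _) (by positivity)
  have b3 : |d.D a * (d.Y a - d.m a / cβ)| ≤ δ * d.R 0 * (δ + C / cβ) := by
    rw [abs_mul, abs_of_nonneg (h.D_nonneg a haW)]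
    have h6 : |d.Y a - d.m a / cβ| ≤ δ + C / cβ := by
      calc |d.Y a - d.m a / cβ| ≤ |d.Y a| + |d.m a / cβ| := abs_sub _ _
        _ ≤ δ + C / cβ := by
          rw [abs_div, abs_of_pos hcβ]
          have := h.m_bd a haW
          gcongr
    exact mul_le_mul (h.D_R a haW) h6 (abs_nonneg _) (by positivity)
  rw [e1]
  calc _ ≤ |d.e cβ a + d.R a * d.Y a| + |d.D a * (d.Y a - d.m a / cβ)| := abs_add_le _ _
    _ ≤ |d.e cβ a| + |d.R a * d.Y a| + |d.D a * (d.Y a - d.m a / cβ)| := by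
      gcongr; exact abs_add_le _ _
    _ ≤ ε' * d.R 0 + (1 + δ) * d.R 0 * δ + δ * d.R 0 * (δ + C / cβ) := by linarith
    _ = _ := by ring

/-- `g` is nondecreasing near a point where `g1` is positive -/
theorem rgB_rel_mono (h : d.Ok C cβ A cD δ W) (hA : 0 < A) (hδ1 : δ ≤ 1) {p r G : ℝ} (hr0 : 0 < r)
    (hrM : rgM C A * r ≤ G / 4) (hg1 : G / 2 < d.g1 p) (hW : Icc (p - r) (p + r) ⊆ Icc (-W) W) :
    MonotoneOn d.g (Icc (p - r) (p + r)) := by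
  have hM0 : 0 ≤ rgM C A * r := by
    have h5 := rgA_lip h hA hδ1 (hW ⟨by linarith, by linarith⟩ : p ∈ Icc (-W) W)
      (hW ⟨by linarith, le_rfl⟩ : p + r ∈ Icc (-W) W)
    have e : |p - (p + r)| = r := by
      rw [show p - (p + r) = -r by ring, abs_neg, abs_of_pos hr0]
    rw [e] at h5
    exact (abs_nonneg _).trans h5
  apply monotoneOn_of_hasDerivWithinAt_nonneg (f' := d.g1) (convex_Icc _ _)
  · intro x hx
    exact (h.g_der x (hW hx)).continuousAt.continuousWithinAt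
  · intro x hx
    rw [interior_Icc] at hx
    exact (h.g_der x (hW (Ioo_subset_Icc_self hx))).hasDerivWithinAt
  · intro x hx
    rw [interior_Icc] at hx
    have h5 := rgA_lip h hA hδ1 (hW (Ioo_subset_Icc_self hx))
      (hW ⟨by linarith, by linarith⟩ : p ∈ Icc (-W) W)
    have h6 : |x - p| ≤ r := by rw [abs_le]; constructor <;> linarith [hx.1, hx.2]
    have hM : 0 ≤ rgM C A := by
      by_contra hneg
      have : rgM C A * r < 0 := mul_neg_of_neg_of_pos (not_le.1 hneg) hr0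
      linarith
    have h7 : rgM C A * |x - p| ≤ rgM C A * r := mul_le_mul_of_nonneg_left h6 hM
    have h8 := (abs_le.1 h5).1
    linarith

/-- (C20) at a point where `Y ≤ -ℓ/2` and `g(φ z) ≥ -R(0) B`: `e` is large -/
theorem rgB_rel_e (h : d.Ok C cβ A cD δ W) (hC : 0 < C) (hcβ : 0 < cβ) (hδ0 : 0 < δ) (hδ1 : δ ≤ 1)
    {z ℓ B : ℝ} (hℓ0 : 0 < ℓ) (hzW : z ∈ Icc (-W) W) (hYz : d.Y z ≤ -(ℓ / 2))
    (hg : -(d.R 0 * B) ≤ d.g (d.φ z)) :
    d.R 0 * ((1 - δ) * (ℓ / 2) - δ * (C * (1 + 1 / cβ)) - B) ≤ |d.e cβ z| * (1 + d.ρ z) := by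
  have hR0 := h.R_pos
  have hRz := abs_le.1 (h.R_near z hzW)
  have e1 : d.g (d.φ z) = d.e cβ z + d.R z * d.Y z + d.D z * (d.Y z - d.m z / cβ) := by
    unfold RigD.e; ring
  have b2 : d.R z * d.Y z ≤ -((1 - δ) * d.R 0 * (ℓ / 2)) := by
    have h6 : (1 - δ) * d.R 0 ≤ d.R z := by nlinarith [hRz.1]
    have h7 : 0 ≤ (1 - δ) * d.R 0 := mul_nonneg (by linarith) hR0.le
    nlinarith
  have b3 : d.D z * (d.Y z - d.m z / cβ) ≤ δ * d.R 0 * (C * (1 + 1 / cβ)) := by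
    have h5 : |d.D z * (d.Y z - d.m z / cβ)| ≤ δ * d.R 0 * (C * (1 + 1 / cβ)) := by
      rw [abs_mul, abs_of_nonneg (h.D_nonneg z hzW)]
      have h6 : |d.Y z - d.m z / cβ| ≤ C * (1 + 1 / cβ) := by
        calc |d.Y z - d.m z / cβ| ≤ |d.Y z| + |d.m z / cβ| := abs_sub _ _
          _ ≤ C + C / cβ := by
            rw [abs_div, abs_of_pos hcβ]
            have := h.m_bd z hzW
            have := h.Y_bd z hzW
            gcongr
          _ = C * (1 + 1 / cβ) := by ring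
      exact mul_le_mul (h.D_R z hzW) h6 (abs_nonneg _) (by positivity)
    exact (abs_le.1 h5).2
  have key : d.R 0 * ((1 - δ) * (ℓ / 2) - δ * (C * (1 + 1 / cβ)) - B) ≤ d.e cβ z := by
    rw [e1] at hg
    have e2 : d.R 0 * ((1 - δ) * (ℓ / 2) - δ * (C * (1 + 1 / cβ)) - B)
        = (1 - δ) * d.R 0 * (ℓ / 2) - δ * d.R 0 * (C * (1 + 1 / cβ)) - d.R 0 * B := by ring
    rw [e2]; linarith
  have hρ := h.ρ_nonneg z hzW
  have b5 : d.e cβ z ≤ |d.e cβ z| := le_abs_self _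
  have b6 : |d.e cβ z| ≤ |d.e cβ z| * (1 + d.ρ z) := by
    nlinarith [abs_nonneg (d.e cβ z)]
  linarith

/-- `|e| (1 + ρ) ≥ R(0) c` on a whole interval contradicts the box bound -/
theorem rgB_rel_box (h : d.Ok C cβ A cD δ W) (hδ0 : 0 < δ) (hθ : d.θ = 1) {z₁ z₂ c : ℝ}
    (h₁ : -W ≤ z₁) (h12 : z₁ ≤ z₂) (h₂ : z₂ + 1 ≤ W)
    (hel : ∀ z ∈ Icc z₁ z₂, d.R 0 * c ≤ |d.e cβ z| * (1 + d.ρ z)) :
    (z₂ - z₁) * c ≤ δ * (z₂ - z₁ + 1) := by
  have hR0 := h.R_pos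
  have hminR : min 1 (d.R 0) ≤ d.R 0 := min_le_right _ _
  have hs' : Icc z₁ z₂ ⊆ Icc (-W) W := Icc_subset_Icc h₁ (by linarith)
  have hu : uIcc z₁ z₂ ⊆ uIcc (-W) W := by
    rw [uIcc_of_le h12, uIcc_of_le (by linarith)]; exact hs'
  have iE : IntervalIntegrable (fun z => |d.e cβ z| * (1 + d.ρ z)) volume z₁ z₂ := by
    refine (intervalIntegrable_congr (f := fun z => |d.e cβ z| + |d.e cβ z * d.ρ z|) ?_).1
      ((h.e_int.mono_set hu).abs.add (h.eρ_int.mono_set hu).abs)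
    intro z hz'
    rw [uIoc_of_le h12] at hz'
    have := h.ρ_nonneg z (hs' ⟨hz'.1.le, hz'.2⟩)
    simp only [abs_mul, abs_of_nonneg this]; ring
  have i1 : ∫ _z in z₁..z₂, d.R 0 * c ≤ ∫ z in z₁..z₂, |d.e cβ z| * (1 + d.ρ z) :=
    intervalIntegral.integral_mono_on h12 (by simp) iE hel
  have i2 := rgA_ebox h hδ0 h₁ h12 (by rw [hθ]; exact h₂)
  rw [intervalIntegral.integral_const, smul_eq_mul] at i1
  rw [hθ] at i2
  have i3 : δ * (z₂ - z₁ + 1) * min 1 (d.R 0) ≤ δ * (z₂ - z₁ + 1) * d.R 0 :=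
    mul_le_mul_of_nonneg_left hminR (by have : 0 ≤ z₂ - z₁ := by linarith
                                        positivity)
  have i4 : d.R 0 * ((z₂ - z₁) * c) ≤ d.R 0 * (δ * (z₂ - z₁ + 1)) := by
    calc d.R 0 * ((z₂ - z₁) * c) = (z₂ - z₁) * (d.R 0 * c) := by ring
      _ ≤ δ * (z₂ - z₁ + 1) * d.R 0 := i1.trans (i2.trans i3)
      _ = _ := by ring
  exact le_of_mul_le_mul_left i4 hR0

/-- the fixed-record contradiction -/
theorem rgB_rel_fix (h : d.Ok C cβ A cD δ W) (hC : 0 < C) (hcβ : 0 < cβ) (hA : 0 < A)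
    (hθ : d.θ = 1) {p ℓ r ε' G a : ℝ} (hℓ0 : 0 < ℓ) (hr0 : 0 < r) (hrM : rgM C A * r ≤ G / 4)
    (hδ0 : 0 < δ) (hδ1 : δ ≤ 1) (hδ2 : δ ≤ r / 4)
    (hδ3 : δ * (ℓ / 2 + C * (1 + 1 / cβ) + 3 + C / cβ) ≤ ℓ / 16) (hδ4 : δ * (ℓ + 1) ≤ ℓ ^ 2 / 8)
    (hε0 : 0 < ε') (hε1 : ε' ≤ ℓ / 16) (hε2 : ε' ≤ r / 2)
    (hW : ∀ x, p - r - 1 ≤ x → x ≤ p + 2 * ℓ + 1 → x ∈ Icc (-W) W) (hrl : r ≤ 2 * ℓ + 1)
    (hY1 : (p + 2 * ℓ) + d.Y (p + 2 * ℓ) ≤ p + ℓ / 2) (hY2 : (p + 2 * ℓ) + d.Y (p + 2 * ℓ) ≤ p + r / 2)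
    (hg1 : G / 2 < d.g1 p)
    (ha : a ∈ Icc (p - ε') (p + ε')) (haF : a ∉ d.F) (hae : |d.e cβ a| ≤ ε' * min 1 (d.R 0)) :
    False := by
  set z₀ : ℝ := p + 2 * ℓ with hz₀
  have haW : a ∈ Icc (-W) W := hW a (by linarith [ha.1]) (by linarith [ha.2])
  have hz₀W : z₀ ∈ Icc (-W) W := hW z₀ (by linarith) (by linarith)
  obtain ⟨hga, hYa⟩ := rgB_rel_a h hcβ hδ0 hε0 haW haF hae
  have hgm := rgB_rel_mono h hA hδ1 hr0 hrM hg1
    (fun x hx => hW x (by linarith [hx.1]) (by linarith [hx.2]))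
  have hφa := abs_le.1 (h.φ_near a haW)
  rw [hθ] at hφa
  have hYa' := abs_le.1 hYa
  have hφa1 : p - r ≤ d.φ a := by linarith [ha.1, hφa.1, hYa'.1]
  have hφz₀ := abs_le.1 (h.φ_near z₀ hz₀W)
  rw [hθ] at hφz₀
  have hφz₀1 : d.φ z₀ ≤ p + r := by linarith [hφz₀.2]
  set B : ℝ := (1 + δ) * δ + δ * (δ + C / cβ) + ε' with hB
  have key2 : ℓ / 4 ≤ (1 - δ) * (ℓ / 2) - δ * (C * (1 + 1 / cβ)) - B := by
    have e2 : δ * (ℓ / 2 + C * (1 + 1 / cβ) + 3 + C / cβ)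
        = δ * (ℓ / 2) + δ * (C * (1 + 1 / cβ)) + 3 * δ + δ * (C / cβ) := by ring
    have e3 : δ * δ ≤ δ := by nlinarith
    rw [hB]
    nlinarith
  have hel : ∀ z ∈ Icc (p + ℓ) z₀, d.R 0 * (ℓ / 4) ≤ |d.e cβ z| * (1 + d.ρ z) := by
    intro z hz'
    have hzW : z ∈ Icc (-W) W := hW z (by linarith [hz'.1]) (by linarith [hz'.2])
    have haz : a ≤ z := by linarith [ha.2, hz'.1]
    have m1 : d.φ a ≤ d.φ z := h.φ_mono haW hzW haz
    have m2 : d.φ z ≤ d.φ z₀ := h.φ_mono hzW hz₀W hz'.2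
    have m3 : d.g (d.φ a) ≤ d.g (d.φ z) :=
      hgm ⟨hφa1, by linarith⟩ ⟨by linarith, by linarith⟩ m1
    have hYz : d.Y z ≤ -(ℓ / 2) := by
      have := h.Y_mono hzW hz₀W hz'.2
      simp only [hθ, one_mul] at this
      linarith [hz'.1]
    have h9 := rgB_rel_e h hC hcβ hδ0 hδ1 hℓ0 hzW hYz (B := B) (by linarith [(abs_le.1 hga).1])
    exact (mul_le_mul_of_nonneg_left key2 h.R_pos.le).trans h9
  have hbox := rgB_rel_box h hδ0 hθ (hW (p + ℓ) (by linarith) (by linarith)).1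
    (by rw [hz₀]; linarith) (by have := (hW (z₀ + 1) (by linarith) (by linarith)).2; linarith) hel
  have e4 : z₀ - (p + ℓ) = ℓ := by rw [hz₀]; ring
  rw [e4] at hbox
  nlinarith [pow_pos hℓ0 2]

end Claimed.Agent.R286
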