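import Claimed.Agent.R286.Bud.RigA1b
import Claimed.Agent.R286.Bud.RigBRel
import Claimed.Agent.R286.Bud.RigBLim
import Claimed.Agent.R286.Tool.ULim

/-!
# Row 286, LL sec. 7, node N18, regime B: THE CUT of the extraction  `records ⟹ RigLim`      (helper162; node contract `Bud/RigDefs.lean` 184, limit problem `Bud/RigBLim.lean` 39)

FRAME (no subsequences, no diagonal argument).  `k : RigC` = the four constants, `k.F` = the filter of better and better records (`δ → 0`, `W → ∞`),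
`k.FB RA = k.F ⊓ {θ = 1, R 0 < RA}`.  `o(1)` of the paper = `∀ K ε, ∀ᶠ d in k.F, …`; use `filter_upwards`.   If `BudRigB` fails, `k.FB RA` is `NeBot`;
take an ULTRAFILTER `U ≤ k.FB RA`: every bounded quantity has a `U`-limit AT EVERY POINT (`Tool/ULim.lean`, 114: `tl_114_lim_abs`, `tl_114_mono_trend_L1`, `tl_114_ascoli`, `tl_114_C1`, …).
`RigBL k RA` = such a `U` with the pointwise limits `m Y H g g1 Rinf`.   All a.e. statements of the paper are replaced by INTEGRATED ones.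

PROVED HERE: the frame (`RigC.ev_F`, `ev_ok`, `ev_FB`, `ev_B`, `bud_rigB_of_ev`), `rgB_gbd`, the glue `rgB_lim`, `bud_rigB`.
LEAVES (sorried; edit only your theorem, land each; if a leaf is false as typed FIX IT HERE and tell 162 + 41 + 44):
| leaf          | owner | content |
| `rgB_calfix`  | 39    | fixed record: nonfloor point with small `e` in an interval of positive mass |
| `rgB_cross`   | 41    | fixed record: pointwise bound of the crossing mass (replaces Fubini) |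
| `rgB_mt`      | 41    | `∫ |mt - m| → 0`, all regimes [cross, rgA_rho, rg_shift] |
| `rgB_Hbd`     | 44    | `|H| ≤ (rgL + 1) C` [rgA_nonfloor] |
| `rgB_exist`   | 44    | existence of `RigBL` [gbd, Hbd] |
| `rgB_mono`    | 44    | `m_bd m_zero a_mono s_mono R_nonneg` |
| `rgB_pot`     | 44    | `J_eq J_nonneg` |
| `rgB_g`       | 44    | `g_der g1_eq` [mt, rgA_lip] |
| `rgB_apx`     | 39    | nonfloor approximants with RELATIVELY small error at support points [calfix, rgA_rho] |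
| `rgB_supp`    | 39    | `supp_g supp_J supp_sr` [apx, gbd] |
| `rgB_c20`     | 41    | `closure` [gbd, rgA_ebox1] |
| `rgB_rel`     | 41    | `rel_r` (in the strong form `p < z₀ → s z₀ ≠ p`) [apx, supp, gbd, rgA_lip] |
SHARED HELPERS (proved, after `rgB_mono`): `rgB_gphi rgB_ebox_min rgB_gcal rgB_glip rgB_g1lip rgB_unif`, `RigBL.g_unif g1_unif Y_L1 Y_int Yd_int Y_bd`.
HEAD of this file: helper41 (162's ruling 02:50Z).  All 12 statements re-checked by hand against `RigD.Ok` (41, 03:00Z): none found false.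
-/

set_option autoImplicit false

namespace Claimed.Agent.R286

open MeasureTheory Set Filter Topology

/-- the four fixed constants of `BudRig` -/
structure RigC where
  C : ℝ
  cβ : ℝ
  A : ℝ
  cD : ℝ
  hC : 0 < C
  hcβ : 0 < cβ
  hA : 0 < A
  hcD : 0 < cD

namespace RigC

variable (k : RigC)

/-- `d` is a record with smallness `δ` on the window `[-W, W]` -/
def ok (δ W : ℝ) (d : RigD) : Prop := d.Ok k.C k.cβ k.A k.cD δ W

/-- the filter `δ → 0`, `W → ∞` -/
def F : Filter RigD := ⨅ n : ℕ, 𝓟 {d | k.ok (1 / ((n : ℝ) + 1)) ((n : ℝ) + 1) d}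

/-- regime B -/
def FB (RA : ℝ) : Filter RigD := k.F ⊓ 𝓟 {d | d.θ = 1 ∧ d.R 0 < RA}

theorem ev_F {Φ : RigD → Prop} :
    (∀ᶠ d in k.F, Φ d) ↔ ∃ δ W : ℝ, 0 < δ ∧ 0 < W ∧ ∀ d, k.ok δ W d → Φ d := by
  have hdir : Directed (· ≥ ·) fun n : ℕ => {d | k.ok (1 / ((n : ℝ) + 1)) ((n : ℝ) + 1) d} := by
    intro a b
    refine ⟨max a b, ?_, ?_⟩
    · intro d hd
      have h1 : (a : ℝ) ≤ ((max a b : ℕ) : ℝ) := by exact_mod_cast le_max_left a b
      exact RigD.Ok.mono hd (one_div_le_one_div_of_le (by positivity) (by linarith)) (by positivity)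
        (by linarith)
    · intro d hd
      have h1 : (b : ℝ) ≤ ((max a b : ℕ) : ℝ) := by exact_mod_cast le_max_right a b
      exact RigD.Ok.mono hd (one_div_le_one_div_of_le (by positivity) (by linarith)) (by positivity)
        (by linarith)
  have hb := Filter.hasBasis_iInf_principal hdir
  constructor
  · intro h
    obtain ⟨n, -, hn⟩ := hb.eventually_iff.1 h
    exact ⟨1 / ((n : ℝ) + 1), (n : ℝ) + 1, by positivity, by positivity, fun d hd => hn hd⟩
  · rintro ⟨δ, W, hδ, hW, h⟩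
    obtain ⟨n, hn⟩ := exists_nat_ge (max (1 / δ) W)
    refine hb.eventually_iff.2 ⟨n, trivial, fun d hd => h d ?_⟩
    have h1 : 1 / δ ≤ (n : ℝ) + 1 := by linarith [le_max_left (1 / δ) W]
    have h2 : W ≤ (n : ℝ) + 1 := by linarith [le_max_right (1 / δ) W]
    refine RigD.Ok.mono hd ?_ hW.le h2
    rw [div_le_iff₀ (by positivity)]
    rw [div_le_iff₀ hδ] at h1
    linarith

/-- THE basic fact: eventually the record is `Ok` with any prescribed `δ`, `W` -/
theorem ev_ok {δ W : ℝ} (hδ : 0 < δ) (hW : 0 < W) : ∀ᶠ d in k.F, k.ok δ W d :=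
  k.ev_F.2 ⟨δ, W, hδ, hW, fun _ h => h⟩

theorem FB_le (RA : ℝ) : k.FB RA ≤ k.F := inf_le_left

theorem ev_B (RA : ℝ) : ∀ᶠ d in k.FB RA, d.θ = 1 ∧ d.R 0 < RA :=
  Filter.Eventually.filter_mono inf_le_right (mem_principal_self _ : _ ∈ 𝓟 _)

theorem ev_FB {RA : ℝ} {Φ : RigD → Prop} :
    (∀ᶠ d in k.FB RA, Φ d) ↔
      ∃ δ W : ℝ, 0 < δ ∧ 0 < W ∧ ∀ d, k.ok δ W d → d.θ = 1 → d.R 0 < RA → Φ d := by
  constructor
  · intro h
    obtain ⟨s, hs, t, ht, hst⟩ := Filter.mem_inf_iff.1 h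
    obtain ⟨δ, W, hδ, hW, h1⟩ := k.ev_F.1 hs
    refine ⟨δ, W, hδ, hW, fun d hd hθ hR => ?_⟩
    have h2 : d ∈ s ∩ t := ⟨h1 d hd, Filter.mem_principal.1 ht ⟨hθ, hR⟩⟩
    rw [← hst] at h2
    exact h2
  · rintro ⟨δ, W, hδ, hW, h⟩
    filter_upwards [(k.ev_ok hδ hW).filter_mono (k.FB_le RA), k.ev_B RA] with d h1 h2
    exact h d h1 h2.1 h2.2

end RigC

theorem bud_rigB_of_ev (h : ∀ (k : RigC) (RA : ℝ), 0 < RA → ∀ᶠ _d in k.FB RA, False) : BudRigB := by
  intro C cβ A cD RA hC hcβ hA hcD hRA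
  obtain ⟨δ, W, hδ, hW, h1⟩ := (RigC.ev_FB ⟨C, cβ, A, cD, hC, hcβ, hA, hcD⟩).1 (h _ RA hRA)
  exact ⟨δ, W, hδ, hW, fun d hd hθ => not_lt.1 fun hR => h1 d hd hθ hR⟩

/-! ## 1. Fixed record -/

/-- a nonfloor point with small `e` in an interval of positive mass: otherwise
`δ (z₂-z₁+θ) min 1 (R 0) ≥ ∫ |e| ρ` (`rgA_ebox`) `≥ κ ∫_{Fᶜ} ρ ≥ κ (∫ ρ - δ (z₂-z₁))` (`ρ_floor`) -/
theorem rgB_calfix (k : RigC) {δ W : ℝ} {d : RigD} (h : k.ok δ W d) (hδ : 0 < δ)
    {z₁ z₂ κ : ℝ} (h₁ : -W ≤ z₁) (h12 : z₁ ≤ z₂) (h₂ : z₂ + d.θ ≤ W) (hκ : 0 ≤ κ)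
    (hm : δ * (z₂ - z₁ + d.θ) * min 1 (d.R 0) < κ * ((∫ z in z₁..z₂, d.ρ z) - δ * (z₂ - z₁))) :
    ∃ z ∈ Icc z₁ z₂, z ∉ d.F ∧ |d.e k.cβ z| ≤ κ := by
  by_contra hcon
  push Not at hcon
  have h' : d.Ok k.C k.cβ k.A k.cD δ W := h
  have hθ := h'.θ_pos
  have hs : Icc z₁ z₂ ⊆ Icc (-W) W := Icc_subset_Icc h₁ (by linarith)
  have hu : uIcc z₁ z₂ ⊆ uIcc (-W) W := by
    rw [uIcc_of_le h12, uIcc_of_le (by linarith)]; exact hs
  have iρ : IntervalIntegrable d.ρ volume z₁ z₂ := h'.ρ_int.mono_set hu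
  have iE : IntervalIntegrable (fun z => |d.e k.cβ z| * (1 + d.ρ z)) volume z₁ z₂ := by
    refine (intervalIntegrable_congr (f := fun z => |d.e k.cβ z| + |d.e k.cβ z * d.ρ z|) ?_).1
      ((h'.e_int.mono_set hu).abs.add (h'.eρ_int.mono_set hu).abs)
    intro z hz
    rw [uIoc_of_le h12] at hz
    have := h'.ρ_nonneg z (hs ⟨hz.1.le, hz.2⟩)
    simp only [abs_mul, abs_of_nonneg this]; ring
  have h1 : ∫ z in z₁..z₂, κ * (d.ρ z - δ) ≤ ∫ z in z₁..z₂, |d.e k.cβ z| * (1 + d.ρ z) := by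
    apply intervalIntegral.integral_mono_on h12 ((iρ.sub (by simp)).const_mul κ) iE
    intro z hz
    have hρ := h'.ρ_nonneg z (hs hz)
    by_cases hF : z ∈ d.F
    · have := h'.ρ_floor z (hs hz) hF
      have h3 : κ * (d.ρ z - δ) ≤ 0 := mul_nonpos_of_nonneg_of_nonpos hκ (by linarith)
      exact h3.trans (mul_nonneg (abs_nonneg _) (by linarith))
    · have := hcon z hz hF
      nlinarith
  have h2 := rgA_ebox h' hδ h₁ h12 h₂
  rw [intervalIntegral.integral_const_mul, intervalIntegral.integral_sub iρ (by simp),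
    intervalIntegral.integral_const, smul_eq_mul, mul_comm (z₂ - z₁) δ] at h1
  linarith

/-- pointwise bound of the crossing mass, NO Fubini.  A nonfloor `z'` has `|φ z' - z'| ≤ θ|Y| + δθ ≤ 2δθ` (`Y_off`, `φ_near`), so it crosses `z` only if `|z' - z| ≤ 2δθ`;
a floor `z'` has `ρ ≤ δ`, `|φ z' - z'| ≤ (C+δ)θ`.  Hence `cross z z' ≤ δ 1[|z'-z| ≤ (C+1)θ] + ρ z' 1[|z'-z| ≤ 2δθ]` on the window.
(If `cross z ·` is not interval integrable its integral is `0`: nothing to prove.) -/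
theorem rgB_cross (k : RigC) {δ W : ℝ} {d : RigD} (h : k.ok δ W d) (hδ : 0 < δ) (hδ1 : δ ≤ 1 / 2)
    {z : ℝ} (hz : z ∈ Icc (-(W - (k.C + 2))) (W - (k.C + 2))) :
    d.θ * |d.mt z - d.m z| ≤
      2 * (k.C + 1) * δ * d.θ + ∫ z' in (z - 2 * δ * d.θ)..(z + 2 * δ * d.θ), d.ρ z' := by
  have hC := k.hC
  have hθ0 := h.θ_pos
  have hθ1 := h.θ_le
  have h0 := h.transp z hz
  set a := z - (k.C + 2) with ha
  set b := z + (k.C + 2) with hb
  set η := 2 * δ * d.θ with hη
  set ζ := (k.C + 1) * d.θ with hζ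
  have hη0 : 0 < η := by positivity
  have hηζ : η ≤ ζ := by rw [hη, hζ]; nlinarith
  have hζ2 : ζ ≤ k.C + 1 := by rw [hζ]; nlinarith
  have hwin : ∀ x ∈ Icc a b, x ∈ Icc (-W) W := fun x hx =>
    ⟨by linarith [hx.1, hz.1], by linarith [hx.2, hz.2]⟩
  have hρI : IntervalIntegrable d.ρ volume (z - η) (z + η) := by
    refine h.ρ_int.mono_set ?_
    rw [uIcc_of_le (by linarith), uIcc_of_le (by linarith [hz.1, hz.2])]
    exact fun x hx => hwin x ⟨by linarith [hx.1], by linarith [hx.2]⟩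
  have hρ0 : 0 ≤ ∫ z' in (z - η)..(z + η), d.ρ z' :=
    intervalIntegral.integral_nonneg (by linarith)
      (fun u hu => h.ρ_nonneg u (hwin u ⟨by linarith [hu.1], by linarith [hu.2]⟩))
  by_cases hI : IntervalIntegrable (d.cross z) volume a b
  swap
  · rw [intervalIntegral.integral_undef hI] at h0
    have : 0 ≤ 2 * (k.C + 1) * δ * d.θ := by positivity
    linarith
  -- displacement bounds
  have hdisF : ∀ x ∈ Icc a b, |d.φ x - x| ≤ ζ := by
    intro x hx
    have h1 := h.φ_near x (hwin x hx)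
    have h2 := h.Y_bd x (hwin x hx)
    have h3 : |d.φ x - x| ≤ |d.φ x - x - d.θ * d.Y x| + |d.θ * d.Y x| := by
      have := abs_add_le (d.φ x - x - d.θ * d.Y x) (d.θ * d.Y x)
      simpa using this
    rw [abs_mul, abs_of_pos hθ0] at h3
    have h4 : d.θ * |d.Y x| ≤ d.θ * k.C := by gcongr
    rw [hζ]; nlinarith
  have hdisN : ∀ x ∈ Icc a b, x ∉ d.F → |d.φ x - x| ≤ η := by
    intro x hx hF
    have h1 := h.φ_near x (hwin x hx)
    have h2 := h.Y_off x (hwin x hx) hF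
    have h2' : |d.Y x| ≤ δ := by
      have : 1 * |d.Y x| ≤ max 1 (d.R 0) * |d.Y x| :=
        mul_le_mul_of_nonneg_right (le_max_left _ _) (abs_nonneg _)
      linarith
    have h3 : |d.φ x - x| ≤ |d.φ x - x - d.θ * d.Y x| + |d.θ * d.Y x| := by
      have := abs_add_le (d.φ x - x - d.θ * d.Y x) (d.θ * d.Y x)
      simpa using this
    rw [abs_mul, abs_of_pos hθ0] at h3
    have h4 : d.θ * |d.Y x| ≤ d.θ * δ := by gcongr
    rw [hη]; nlinarith
  have hcr : ∀ x, |d.φ x - x| < |x - z| → d.cross z x = 0 := by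
    intro x hx
    unfold RigD.cross
    rw [if_neg]
    rintro (⟨h1, h2⟩ | ⟨h1, h2⟩)
    · rw [abs_of_nonpos (by linarith : x - z ≤ 0)] at hx
      have := le_abs_self (d.φ x - x)
      linarith
    · rw [abs_of_pos (by linarith : 0 < x - z)] at hx
      have := neg_abs_le (d.φ x - x)
      linarith
  have hcρ : ∀ x ∈ Icc a b, d.cross z x ≤ d.ρ x := by
    intro x hx
    unfold RigD.cross
    split_ifs
    · exact le_rfl
    · exact h.ρ_nonneg x (hwin x hx)
  have hc0 : ∀ x ∈ Icc a b, ζ < |x - z| → d.cross z x = 0 := fun x hx h1 =>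
    hcr x (lt_of_le_of_lt (hdisF x hx) h1)
  have hcδ : ∀ x ∈ Icc a b, η < |x - z| → d.cross z x ≤ δ := by
    intro x hx h1
    by_cases hF : x ∈ d.F
    · exact (hcρ x hx).trans (h.ρ_floor x (hwin x hx) hF)
    · rw [hcr x (lt_of_le_of_lt (hdisN x hx hF) h1)]; exact hδ.le
  -- the five pieces
  have hsub : ∀ p q, a ≤ p → p ≤ q → q ≤ b → IntervalIntegrable (d.cross z) volume p q := by
    intro p q h1 h2 h3
    refine hI.mono_set ?_
    rw [uIcc_of_le h2, uIcc_of_le (by linarith)]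
    exact Icc_subset_Icc h1 h3
  have i1 := hsub a (z - ζ) le_rfl (by linarith) (by linarith)
  have i2 := hsub (z - ζ) (z - η) (by linarith) (by linarith) (by linarith)
  have i3 := hsub (z - η) (z + η) (by linarith) (by linarith) (by linarith)
  have i4 := hsub (z + η) (z + ζ) (by linarith) (by linarith) (by linarith)
  have i5 := hsub (z + ζ) b (by linarith) (by linarith) le_rfl
  have hsplit : ∫ x in a..b, d.cross z x = (∫ x in a..(z - ζ), d.cross z x)
      + (∫ x in (z - ζ)..(z - η), d.cross z x) + (∫ x in (z - η)..(z + η), d.cross z x)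
      + (∫ x in (z + η)..(z + ζ), d.cross z x) + ∫ x in (z + ζ)..b, d.cross z x := by
    rw [intervalIntegral.integral_add_adjacent_intervals i1 i2,
      intervalIntegral.integral_add_adjacent_intervals (i1.trans i2) i3,
      intervalIntegral.integral_add_adjacent_intervals ((i1.trans i2).trans i3) i4,
      intervalIntegral.integral_add_adjacent_intervals (((i1.trans i2).trans i3).trans i4) i5]
  have e1 : ∫ x in a..(z - ζ), d.cross z x ≤ ∫ _x in a..(z - ζ), (0 : ℝ) := by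
    refine intervalIntegral.integral_mono_on_of_le_Ioo (by linarith) i1 (by simp) fun x hx => ?_
    refine (hc0 x ⟨hx.1.le, by linarith [hx.2]⟩ ?_).le
    rw [abs_of_neg (by linarith [hx.2])]; linarith [hx.2]
  have e5 : ∫ x in (z + ζ)..b, d.cross z x ≤ ∫ _x in (z + ζ)..b, (0 : ℝ) := by
    refine intervalIntegral.integral_mono_on_of_le_Ioo (by linarith) i5 (by simp) fun x hx => ?_
    refine (hc0 x ⟨by linarith [hx.1], hx.2.le⟩ ?_).le
    rw [abs_of_pos (by linarith [hx.1])]; linarith [hx.1]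
  have e2 : ∫ x in (z - ζ)..(z - η), d.cross z x ≤ ∫ _x in (z - ζ)..(z - η), δ := by
    refine intervalIntegral.integral_mono_on_of_le_Ioo (by linarith) i2 (by simp) fun x hx => ?_
    refine hcδ x ⟨by linarith [hx.1], by linarith [hx.2]⟩ ?_
    rw [abs_of_neg (by linarith [hx.2])]; linarith [hx.2]
  have e4 : ∫ x in (z + η)..(z + ζ), d.cross z x ≤ ∫ _x in (z + η)..(z + ζ), δ := by
    refine intervalIntegral.integral_mono_on_of_le_Ioo (by linarith) i4 (by simp) fun x hx => ?_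
    refine hcδ x ⟨by linarith [hx.1], by linarith [hx.2]⟩ ?_
    rw [abs_of_pos (by linarith [hx.1])]; linarith [hx.1]
  have e3 : ∫ x in (z - η)..(z + η), d.cross z x ≤ ∫ x in (z - η)..(z + η), d.ρ x :=
    intervalIntegral.integral_mono_on (by linarith) i3 hρI fun x hx =>
      hcρ x ⟨by linarith [hx.1], by linarith [hx.2]⟩
  simp only [intervalIntegral.integral_const, smul_eq_mul, mul_zero] at e1 e2 e4 e5
  have hfin : (z - η - (z - ζ)) * δ + (z + ζ - (z + η)) * δ ≤ 2 * (k.C + 1) * δ * d.θ := by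
    rw [hζ]; nlinarith
  linarith

/-! ## 2. All regimes (filter `k.F`) -/

/-- `mt - m → 0` in `L¹_loc`, ALL regimes: integrate `rgB_cross`; `∫_{z-η}^{z+η} ρ = θ (m (z+η) - m (z-η)) + ∫_{z-η}^{z+η} β` (`rgA_rho`), `η = 2δθ`;
`∫_{-K}^{K} (m (z+η) - m (z-η)) dz ≤ 4ηC` (`rg_shift`, `rgA_m_cont`, `m_bd`), `∫_{z-η}^{z+η} β ≤ 2η (cβ+δ)`.   Total `≤ θ δ (4K(C+1) + 8C + 8K(cβ+1))`. -/
theorem rgB_mt (k : RigC) (K : ℝ) {ε : ℝ} (hε : 0 < ε) :
    ∀ᶠ d in k.F, (∫ z in (-K)..K, |d.mt z - d.m z|) ≤ ε := by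
  have hC := k.hC
  have hcβ := k.hcβ
  rcases le_total K 0 with hK | hK
  · refine Eventually.of_forall fun d => ?_
    rw [intervalIntegral.integral_symm]
    have : 0 ≤ ∫ z in K..(-K), |d.mt z - d.m z| :=
      intervalIntegral.integral_nonneg (by linarith) fun _ _ => abs_nonneg _
    linarith
  set T := 4 * K * (k.C + 1) + 8 * K * (k.cβ + 1) + 8 * k.C + 1 with hT
  have hT0 : 0 < T := by positivity
  have hδ : 0 < min (1 / 2) (ε / T) := lt_min (by norm_num) (by positivity)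
  have hW : 0 < K + k.C + 3 := by positivity
  filter_upwards [k.ev_ok hδ hW] with d h
  set δ := min (1 / 2) (ε / T) with hδdef
  set W := K + k.C + 3 with hWdef
  have hδ1 : δ ≤ 1 / 2 := min_le_left _ _
  have hδε : δ * T ≤ ε := by
    have : δ ≤ ε / T := min_le_right _ _
    rwa [le_div_iff₀ hT0] at this
  have hθ0 := h.θ_pos
  have hθ1 := h.θ_le
  set η := 2 * δ * d.θ with hη
  have hη0 : 0 < η := by positivity
  have hη1 : η ≤ 1 := by rw [hη]; nlinarith
  have hmc : ContinuousOn d.m (Icc (-W) W) := rgA_m_cont h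
  have hsub : Icc (-K - η) (K + η) ⊆ Icc (-W) W := Icc_subset_Icc (by linarith) (by linarith)
  -- pointwise bound
  have hpt : ∀ z ∈ Icc (-K) K, |d.mt z - d.m z| ≤
      (2 * (k.C + 1) * δ + 4 * δ * (k.cβ + 1)) + (d.m (z + η) - d.m (z - η)) := by
    intro z hz
    have h1 := rgB_cross k h hδ hδ1 (z := z) ⟨by linarith [hz.1], by linarith [hz.2]⟩
    have m1 : z - η ∈ Icc (-W) W := hsub ⟨by linarith [hz.1], by linarith [hz.2]⟩
    have m2 : z + η ∈ Icc (-W) W := hsub ⟨by linarith [hz.1], by linarith [hz.2]⟩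
    rw [← hη, rgA_rho h m1 m2] at h1
    have h2 : ∫ x in (z - η)..(z + η), d.β x ≤ ∫ _x in (z - η)..(z + η), (k.cβ + 1) := by
      refine intervalIntegral.integral_mono_on (by linarith) ?_ (by simp) fun x hx => ?_
      · refine h.β_int.mono_set ?_
        rw [uIcc_of_le (by linarith), uIcc_of_le (by linarith)]
        exact Icc_subset_Icc m1.1 m2.2
      · have := (abs_le.1 (h.β_near x ⟨m1.1.trans hx.1, hx.2.trans m2.2⟩)).2
        linarith
    simp only [intervalIntegral.integral_const, smul_eq_mul] at h2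
    have h3 : (z + η - (z - η)) * (k.cβ + 1) = d.θ * (4 * δ * (k.cβ + 1)) := by rw [hη]; ring
    rw [h3] at h2
    have h4 : d.θ * |d.mt z - d.m z| ≤ d.θ * ((2 * (k.C + 1) * δ + 4 * δ * (k.cβ + 1)) +
        (d.m (z + η) - d.m (z - η))) := by nlinarith
    exact le_of_mul_le_mul_left h4 hθ0
  have hi1 : IntervalIntegrable (fun z => |d.mt z - d.m z|) volume (-K) K := by
    have a1 : IntervalIntegrable d.mt volume (-K) K := by
      refine h.mt_int.mono_set ?_
      rw [uIcc_of_le (by linarith), uIcc_of_le (by linarith)]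
      exact Icc_subset_Icc (by linarith) (by linarith)
    have a2 : IntervalIntegrable d.m volume (-K) K := by
      refine ContinuousOn.intervalIntegrable (hmc.mono ?_)
      rw [uIcc_of_le (by linarith)]
      exact Icc_subset_Icc (by linarith) (by linarith)
    exact (a1.sub a2).abs
  have hi2 : IntervalIntegrable (fun z => d.m (z + η) - d.m (z - η)) volume (-K) K := by
    refine ContinuousOn.intervalIntegrable ?_
    rw [uIcc_of_le (by linarith)]
    refine ContinuousOn.sub ?_ ?_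
    · refine hmc.comp (by fun_prop) fun z hz => hsub ⟨by linarith [hz.1], by linarith [hz.2]⟩
    · refine hmc.comp (by fun_prop) fun z hz => hsub ⟨by linarith [hz.1], by linarith [hz.2]⟩
  have h5 := intervalIntegral.integral_mono_on (by linarith) hi1
    ((intervalIntegrable_const (c := 2 * (k.C + 1) * δ + 4 * δ * (k.cβ + 1))).add hi2) hpt
  rw [intervalIntegral.integral_add intervalIntegrable_const hi2] at h5
  have h6 := rg_shift (m := d.m) (z₁ := -K) (z₂ := K) (η := η) (C := k.C) (by linarith) hη0.le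
    (hmc.mono hsub) (fun z hz => h.m_bd z (hsub hz))
  simp only [intervalIntegral.integral_const, smul_eq_mul] at h5
  have h7 : 4 * η * k.C ≤ 8 * δ * k.C := by
    have : δ * k.C * d.θ ≤ δ * k.C * 1 := by gcongr
    rw [hη]; nlinarith
  have h8 : (K - -K) * (2 * (k.C + 1) * δ + 4 * δ * (k.cβ + 1)) + 8 * δ * k.C ≤ δ * T := by
    rw [hT]; nlinarith
  linarith

/-- bounds on `g1`, `g` independent of the compact -/
theorem rgB_gbd (k : RigC) (K : ℝ) :
    ∀ᶠ d in k.F, ∀ z ∈ Icc (-K) K, |d.g1 z| ≤ rgaG1 k.C k.cβ k.A ∧ |d.g z| ≤ rgaG k.C k.cβ k.A := by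
  have hL : 0 < rgL k.C k.cβ := by
    have := k.hC; have := k.hcβ; unfold rgL; positivity
  have hδ : 0 < rgδ k.C k.cβ := by
    have := k.hC; have := k.hcβ
    unfold rgδ
    refine lt_min (lt_min (by norm_num) (by positivity)) (by positivity)
  have hW : 0 < |K| + (rgL k.C k.cβ + 4) := by positivity
  filter_upwards [k.ev_ok hδ hW] with d hd z hz
  refine rgA_gbd hd k.hC k.hcβ k.hA hδ le_rfl ?_
  have h1 := le_abs_self K
  constructor
  · have := hz.1; linarith
  · have := hz.2; linarith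

/-- `-δ ≤ H` (`H_lb`), and `H z = H z* + ∫_z^{z*} Y ≤ rgL θ C` for a nonfloor `z* ∈ [z, z + rgL θ]` (`rgA_nonfloor`, `H_off`, `H_eq`, `Y_bd`) -/
theorem rgB_Hbd (k : RigC) (K : ℝ) :
    ∀ᶠ d in k.F, ∀ z ∈ Icc (-K) K, |d.H z| ≤ (rgL k.C k.cβ + 1) * k.C := by
  have hC := k.hC
  have hL : 0 < rgL k.C k.cβ := by
    have := k.hC; have := k.hcβ; unfold rgL; positivity
  have hδr : 0 < rgδ k.C k.cβ := by
    have := k.hC; have := k.hcβ
    unfold rgδ
    refine lt_min (lt_min (by norm_num) (by positivity)) (by positivity)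
  have hδ : 0 < min (rgδ k.C k.cβ) k.C := lt_min hδr hC
  have hW : 0 < |K| + rgL k.C k.cβ + 1 := by positivity
  filter_upwards [k.ev_ok hδ hW] with d hd z hz
  have h : d.Ok k.C k.cβ k.A k.cD (min (rgδ k.C k.cβ) k.C) (|K| + rgL k.C k.cβ + 1) := hd
  have hθ0 := h.θ_pos
  have hθ1 := h.θ_le
  have hK1 := le_abs_self K
  have hLθ : rgL k.C k.cβ * d.θ ≤ rgL k.C k.cβ := by nlinarith
  have hLθ0 : 0 ≤ rgL k.C k.cβ * d.θ := by positivity
  have hzm : z ∈ Icc (-(|K| + rgL k.C k.cβ + 1)) (|K| + rgL k.C k.cβ + 1) :=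
    ⟨by linarith [hz.1], by linarith [hz.2]⟩
  obtain ⟨x, hx, hxF⟩ := rgA_nonfloor h k.hC k.hcβ hδ (min_le_left _ _) (p := z) hzm.1
    (by linarith [hz.2])
  have hxm : x ∈ Icc (-(|K| + rgL k.C k.cβ + 1)) (|K| + rgL k.C k.cβ + 1) :=
    ⟨by linarith [hx.1, hzm.1], by linarith [hx.2, hz.2]⟩
  have h1 := h.H_off x hxm hxF
  have h2 := h.H_eq z hzm x hxm
  have h3 : |∫ t in z..x, d.Y t| ≤ k.C * (x - z) := by
    have := intervalIntegral.norm_integral_le_of_norm_le_const (a := z) (b := x) (f := d.Y) (C := k.C)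
      (by
        intro t ht
        rw [uIoc_of_le hx.1] at ht
        exact h.Y_bd t ⟨by linarith [ht.1, hzm.1], by linarith [ht.2, hxm.2]⟩)
    rwa [Real.norm_eq_abs, abs_of_nonneg (by linarith [hx.1] : 0 ≤ x - z)] at this
  have h4 := h.H_lb z hzm
  have h5 : -k.C ≤ d.H z := by
    by_contra hcon
    push Not at hcon
    have hneg : d.H z < 0 := by linarith
    have h6 : max 1 (d.R 0) * d.H z ≤ 1 * d.H z :=
      mul_le_mul_of_nonpos_right (le_max_left _ _) hneg.le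
    have h7 : min (rgδ k.C k.cβ) k.C * d.θ ≤ k.C * 1 :=
      mul_le_mul (min_le_right _ _) hθ1 hθ0.le hC.le
    linarith
  have h8 : k.C * (x - z) ≤ k.C * rgL k.C k.cβ := by
    apply mul_le_mul_of_nonneg_left _ hC.le
    linarith [hx.2]
  have h9 := (abs_le.1 h3).2
  rw [abs_le]
  constructor
  · nlinarith
  · nlinarith

/-! ## 3. Regime B: ultrafilter and pointwise limits -/

/-- an ultrafilter of records of regime B together with the pointwise limits -/
structure RigBL (k : RigC) (RA : ℝ) where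
  U : Ultrafilter RigD
  le : (U : Filter RigD) ≤ k.FB RA
  m : ℝ → ℝ
  Y : ℝ → ℝ
  H : ℝ → ℝ
  g : ℝ → ℝ
  g1 : ℝ → ℝ
  Rinf : ℝ
  hm : ∀ z, Tendsto (fun d : RigD => d.m z) U (𝓝 (m z))
  hY : ∀ z, Tendsto (fun d : RigD => d.Y z) U (𝓝 (Y z))
  hH : ∀ z, Tendsto (fun d : RigD => d.H z) U (𝓝 (H z))
  hg : ∀ z, Tendsto (fun d : RigD => d.g z) U (𝓝 (g z))
  hg1 : ∀ z, Tendsto (fun d : RigD => d.g1 z) U (𝓝 (g1 z))
  hR : Tendsto (fun d : RigD => d.R 0) U (𝓝 Rinf)

namespace RigBL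

variable {k : RigC} {RA : ℝ} (L : RigBL k RA)

/-- `s = lim φ_d = z + Y` -/
def s (z : ℝ) : ℝ := z + L.Y z

/-- support point of `d(cβ z + m)` (verbatim the hypothesis of the fields of `RigLim`) -/
def Supp (z₀ : ℝ) : Prop :=
  ∀ δ, 0 < δ → k.cβ * (z₀ - δ) + L.m (z₀ - δ) < k.cβ * (z₀ + δ) + L.m (z₀ + δ)

theorem le_F : (L.U : Filter RigD) ≤ k.F := L.le.trans (k.FB_le RA)

/-- eventually along `U` the record is `Ok δ W`, `θ = 1`, `R 0 < RA` -/
theorem ev {δ W : ℝ} (hδ : 0 < δ) (hW : 0 < W) :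
    ∀ᶠ d in (L.U : Filter RigD), k.ok δ W d ∧ d.θ = 1 ∧ d.R 0 < RA :=
  ((k.ev_ok hδ hW).filter_mono L.le_F).and ((k.ev_B RA).filter_mono L.le)

end RigBL

/-- all quantities are eventually bounded at each point: `tl_114_lim_abs` + choice -/
theorem rgB_exist (k : RigC) {RA : ℝ} (hRA : 0 < RA) (hne : (k.FB RA).NeBot) : Nonempty (RigBL k RA) := by
  set U : Ultrafilter RigD := Ultrafilter.of (k.FB RA) with hU
  have hle : (U : Filter RigD) ≤ k.FB RA := Ultrafilter.of_le _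
  have hleF : (U : Filter RigD) ≤ k.F := hle.trans (k.FB_le RA)
  have hok : ∀ z : ℝ, ∀ᶠ d in (U : Filter RigD), k.ok 1 (|z| + 1) d := fun z =>
    (k.ev_ok one_pos (by positivity)).filter_mono hleF
  have hzm : ∀ z : ℝ, z ∈ Icc (-(|z| + 1)) (|z| + 1) := fun z =>
    ⟨by linarith [neg_abs_le z], by linarith [le_abs_self z]⟩
  have hzK : ∀ z : ℝ, z ∈ Icc (-|z|) |z| := fun z => ⟨neg_abs_le z, le_abs_self z⟩
  obtain ⟨m, hm⟩ := tl_114_pointwise U (f := fun (d : RigD) z => d.m z) (s := univ)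
    (fun z _ => ⟨k.C, (hok z).mono fun d hd => RigD.Ok.m_bd hd z (hzm z)⟩)
  obtain ⟨Y, hY⟩ := tl_114_pointwise U (f := fun (d : RigD) z => d.Y z) (s := univ)
    (fun z _ => ⟨k.C, (hok z).mono fun d hd => RigD.Ok.Y_bd hd z (hzm z)⟩)
  obtain ⟨H, hH⟩ := tl_114_pointwise U (f := fun (d : RigD) z => d.H z) (s := univ)
    (fun z _ => ⟨_, ((rgB_Hbd k |z|).filter_mono hleF).mono fun d hd => hd z (hzK z)⟩)
  obtain ⟨g, hg⟩ := tl_114_pointwise U (f := fun (d : RigD) z => d.g z) (s := univ)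
    (fun z _ => ⟨_, ((rgB_gbd k |z|).filter_mono hleF).mono fun d hd => (hd z (hzK z)).2⟩)
  obtain ⟨g1, hg1⟩ := tl_114_pointwise U (f := fun (d : RigD) z => d.g1 z) (s := univ)
    (fun z _ => ⟨_, ((rgB_gbd k |z|).filter_mono hleF).mono fun d hd => (hd z (hzK z)).1⟩)
  obtain ⟨Rinf, -, hR⟩ := tl_114_lim_abs U (a := fun d : RigD => d.R 0) (M := RA) (by
    filter_upwards [hok 0, (k.ev_B RA).filter_mono hle] with d h1 h2
    rw [abs_of_pos (RigD.Ok.R_pos h1)]
    exact h2.2.le)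
  exact ⟨⟨U, hle, m, Y, H, g, g1, Rinf, fun z => hm z trivial, fun z => hY z trivial,
    fun z => hH z trivial, fun z => hg z trivial, fun z => hg1 z trivial, hR⟩⟩

/-- limits of pointwise inequalities (`m_bd`, `m_zero`, `m_eq + ρ_nonneg + β_near`, `Y_mono`, `R_pos`) -/
theorem rgB_mono {k : RigC} {RA : ℝ} (L : RigBL k RA) :
    (∀ z, |L.m z| ≤ k.C) ∧ |L.m 0| = 1 ∧ (Monotone fun z => k.cβ * z + L.m z) ∧ Monotone L.s ∧ 0 ≤ L.Rinf := by
  have hzm : ∀ z : ℝ, z ∈ Icc (-(|z| + 1)) (|z| + 1) := fun z =>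
    ⟨by linarith [neg_abs_le z], by linarith [le_abs_self z]⟩
  refine ⟨fun z => ?_, ?_, ?_, ?_, ?_⟩
  · refine le_of_tendsto (L.hm z).abs ?_
    filter_upwards [L.ev one_pos (by positivity : 0 < |z| + 1)] with d hd
    exact RigD.Ok.m_bd hd.1 z (hzm z)
  · refine tendsto_nhds_unique (L.hm 0).abs ?_
    refine tendsto_const_nhds.congr' ?_
    filter_upwards [L.ev one_pos one_pos] with d hd
    exact (RigD.Ok.m_zero hd.1).symm
  · intro z₁ z₂ h12
    simp only
    apply le_of_forall_pos_le_add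
    intro ε hε
    have hδ : 0 < ε / (z₂ - z₁ + 1) := by
      have : 0 < z₂ - z₁ + 1 := by linarith
      positivity
    have hlim : Tendsto (fun d : RigD => k.cβ * z₂ + d.m z₂ + ε - (k.cβ * z₁ + d.m z₁)) L.U
        (𝓝 (k.cβ * z₂ + L.m z₂ + ε - (k.cβ * z₁ + L.m z₁))) :=
      (((L.hm z₂).const_add _).add_const _).sub ((L.hm z₁).const_add _)
    have : 0 ≤ k.cβ * z₂ + L.m z₂ + ε - (k.cβ * z₁ + L.m z₁) := by
      refine ge_of_tendsto hlim ?_
      filter_upwards [L.ev hδ (by positivity : 0 < |z₁| + |z₂| + 1)] with d hd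
      obtain ⟨hok, hθ, -⟩ := hd
      have h : d.Ok k.C k.cβ k.A k.cD (ε / (z₂ - z₁ + 1)) (|z₁| + |z₂| + 1) := hok
      have m1 : z₁ ∈ Icc (-(|z₁| + |z₂| + 1)) (|z₁| + |z₂| + 1) :=
        ⟨by linarith [neg_abs_le z₁, abs_nonneg z₂], by linarith [le_abs_self z₁, abs_nonneg z₂]⟩
      have m2 : z₂ ∈ Icc (-(|z₁| + |z₂| + 1)) (|z₁| + |z₂| + 1) :=
        ⟨by linarith [neg_abs_le z₂, abs_nonneg z₁], by linarith [le_abs_self z₂, abs_nonneg z₁]⟩
      have hu : uIcc z₁ z₂ ⊆ uIcc (-(|z₁| + |z₂| + 1)) (|z₁| + |z₂| + 1) := by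
        rw [uIcc_of_le h12, uIcc_of_le (by linarith [m1.1, m1.2])]
        exact Icc_subset_Icc m1.1 m2.2
      have e1 := h.m_eq z₁ m1 z₂ m2
      rw [hθ, one_mul] at e1
      have e2 : ∫ z in z₁..z₂, (-(k.cβ + ε / (z₂ - z₁ + 1))) ≤ ∫ z in z₁..z₂, (d.ρ z - d.β z) := by
        apply intervalIntegral.integral_mono_on h12 (by simp)
          ((h.ρ_int.mono_set hu).sub (h.β_int.mono_set hu))
        intro z hz
        have hzw : z ∈ Icc (-(|z₁| + |z₂| + 1)) (|z₁| + |z₂| + 1) :=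
          ⟨by linarith [hz.1, m1.1], by linarith [hz.2, m2.2]⟩
        have a1 := h.ρ_nonneg z hzw
        have a2 := (abs_le.1 (h.β_near z hzw)).2
        linarith
      rw [intervalIntegral.integral_const, smul_eq_mul, ← e1] at e2
      have e3 : (z₂ - z₁) * (ε / (z₂ - z₁ + 1)) ≤ ε := by
        rw [mul_div_assoc', div_le_iff₀ (by linarith)]
        nlinarith
      nlinarith
    linarith
  · intro z₁ z₂ h12
    unfold RigBL.s
    refine le_of_tendsto_of_tendsto ((L.hY z₁).const_add z₁) ((L.hY z₂).const_add z₂) ?_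
    filter_upwards [L.ev one_pos (by positivity : 0 < |z₁| + |z₂| + 1)] with d hd
    obtain ⟨hok, hθ, -⟩ := hd
    have m1 : z₁ ∈ Icc (-(|z₁| + |z₂| + 1)) (|z₁| + |z₂| + 1) :=
      ⟨by linarith [neg_abs_le z₁, abs_nonneg z₂], by linarith [le_abs_self z₁, abs_nonneg z₂]⟩
    have m2 : z₂ ∈ Icc (-(|z₁| + |z₂| + 1)) (|z₁| + |z₂| + 1) :=
      ⟨by linarith [neg_abs_le z₂, abs_nonneg z₁], by linarith [le_abs_self z₂, abs_nonneg z₁]⟩
    have := RigD.Ok.Y_mono hok m1 m2 h12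
    simpa [hθ] using this
  · refine ge_of_tendsto L.hR ?_
    filter_upwards [L.ev one_pos one_pos] with d hd
    exact (RigD.Ok.R_pos hd.1).le

/-! ### shared helpers (helper41): fixed-record forms of (C20), equi-Lipschitz bounds, uniform and `L¹` convergence along `U` -/

/-- (C20) solved for `g(φ)`, pointwise, relative to `R 0` -/
theorem rgB_gphi (k : RigC) {δ W : ℝ} {d : RigD} (h : k.ok δ W d) (hδ : 0 < δ) {z : ℝ}
    (hz : z ∈ Icc (-W) W) :
    |d.g (d.φ z) - d.R 0 * d.Y z| ≤ |d.e k.cβ z| + δ * d.R 0 * (2 * k.C + k.C / k.cβ) := by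
  have hC := k.hC
  have hcβ := k.hcβ
  have hR := h.R_pos
  have e1 : d.g (d.φ z) - d.R 0 * d.Y z
      = d.e k.cβ z + (d.R z - d.R 0) * d.Y z + d.D z * (d.Y z - d.m z / k.cβ) := by
    unfold RigD.e; ring
  have hY := h.Y_bd z hz
  have hm := h.m_bd z hz
  have b1 : |(d.R z - d.R 0) * d.Y z| ≤ δ * d.R 0 * k.C := by
    rw [abs_mul]
    exact mul_le_mul (h.R_near z hz) hY (abs_nonneg _) (by positivity)
  have b2 : |d.Y z - d.m z / k.cβ| ≤ k.C + k.C / k.cβ := by
    have h1 : |d.m z / k.cβ| ≤ k.C / k.cβ := by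
      rw [abs_div, abs_of_pos hcβ]; gcongr
    exact (abs_sub _ _).trans (add_le_add hY h1)
  have b3 : |d.D z * (d.Y z - d.m z / k.cβ)| ≤ δ * d.R 0 * (k.C + k.C / k.cβ) := by
    rw [abs_mul, abs_of_nonneg (h.D_nonneg z hz)]
    exact mul_le_mul (h.D_R z hz) b2 (abs_nonneg _) (by positivity)
  rw [e1]
  have t1 := abs_add_le (d.e k.cβ z + (d.R z - d.R 0) * d.Y z) (d.D z * (d.Y z - d.m z / k.cβ))
  have t2 := abs_add_le (d.e k.cβ z) ((d.R z - d.R 0) * d.Y z)
  nlinarith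

/-- the radius average of `e` RELATIVE to `min 1 (R 0)` -/
theorem rgB_ebox_min (k : RigC) {δ W : ℝ} {d : RigD} (h : k.ok δ W d) (hδ : 0 < δ) {z₁ z₂ : ℝ}
    (h₁ : -W ≤ z₁) (h12 : z₁ ≤ z₂) (h₂ : z₂ + d.θ ≤ W) :
    IntervalIntegrable (fun z => |d.e k.cβ z|) volume z₁ z₂ ∧
      ∫ z in z₁..z₂, |d.e k.cβ z| ≤ δ * (z₂ - z₁ + d.θ) * min 1 (d.R 0) := by
  have hθ := h.θ_pos
  have hsub : uIcc z₁ z₂ ⊆ uIcc (-W) W := by
    rw [uIcc_of_le h12, uIcc_of_le (by linarith)]
    exact Icc_subset_Icc h₁ (by linarith)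
  have i1 : IntervalIntegrable (fun z => |d.e k.cβ z|) volume z₁ z₂ := (h.e_int.mono_set hsub).abs
  have i2 : IntervalIntegrable (fun z => |d.e k.cβ z * d.ρ z|) volume z₁ z₂ :=
    (h.eρ_int.mono_set hsub).abs
  refine ⟨i1, le_trans ?_ (rgA_ebox h hδ h₁ h12 h₂)⟩
  have i3 : IntervalIntegrable (fun z => |d.e k.cβ z| * (1 + d.ρ z)) volume z₁ z₂ := by
    refine (i1.add i2).congr ?_
    intro z hz
    rw [uIoc_of_le h12] at hz
    have hρ := h.ρ_nonneg z ⟨by linarith [hz.1], by linarith [hz.2]⟩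
    simp only [abs_mul, abs_of_nonneg hρ]
    ring
  refine intervalIntegral.integral_mono_on h12 i1 i3 fun z hz => ?_
  have hρ := h.ρ_nonneg z ⟨by linarith [hz.1], by linarith [hz.2]⟩
  nlinarith [abs_nonneg (d.e k.cβ z)]

/-- calibration at a nonfloor point, RELATIVE to `R 0` -/
theorem rgB_gcal (k : RigC) {δ W : ℝ} {d : RigD} (h : k.ok δ W d) (hδ : 0 < δ) {z : ℝ}
    (hz : z ∈ Icc (-W) W) (hF : z ∉ d.F) :
    |d.Y z| ≤ δ ∧ |d.φ z - z| ≤ 2 * δ * d.θ ∧
      |d.g (d.φ z)| ≤ |d.e k.cβ z| + δ * d.R 0 * (2 * k.C + k.C / k.cβ + 1) := by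
  have hθ0 := h.θ_pos
  have hR := h.R_pos
  have h2 := h.Y_off z hz hF
  have hY : |d.Y z| ≤ δ := by
    have : 1 * |d.Y z| ≤ max 1 (d.R 0) * |d.Y z| :=
      mul_le_mul_of_nonneg_right (le_max_left _ _) (abs_nonneg _)
    linarith
  refine ⟨hY, ?_, ?_⟩
  · have h1 := h.φ_near z hz
    have h3 : |d.φ z - z| ≤ |d.φ z - z - d.θ * d.Y z| + |d.θ * d.Y z| := by
      have := abs_add_le (d.φ z - z - d.θ * d.Y z) (d.θ * d.Y z)
      simpa using this
    rw [abs_mul, abs_of_pos hθ0] at h3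
    have h4 : d.θ * |d.Y z| ≤ d.θ * δ := by gcongr
    nlinarith
  · have h1 := rgB_gphi k h hδ hz
    have h3 : |d.g (d.φ z)| ≤ |d.g (d.φ z) - d.R 0 * d.Y z| + |d.R 0 * d.Y z| := by
      have := abs_add_le (d.g (d.φ z) - d.R 0 * d.Y z) (d.R 0 * d.Y z)
      simpa using this
    rw [abs_mul, abs_of_pos hR] at h3
    have h4 : d.R 0 * |d.Y z| ≤ d.R 0 * δ := by gcongr
    nlinarith

/-- `g_d` is eventually `rgaG1`-Lipschitz on every compact -/
theorem rgB_glip (k : RigC) (K : ℝ) :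
    ∀ᶠ d in k.F, ∀ x ∈ Icc (-K) K, ∀ y ∈ Icc (-K) K,
      |d.g x - d.g y| ≤ rgaG1 k.C k.cβ k.A * |x - y| := by
  filter_upwards [rgB_gbd k K, k.ev_ok one_pos (show 0 < |K| + 1 by positivity)] with d h1 h2 x hx y hy
  have hK := le_abs_self K
  have h5 := (convex_Icc (-K) K).norm_image_sub_le_of_norm_hasDerivWithin_le
    (f := d.g) (f' := d.g1) (C := rgaG1 k.C k.cβ k.A)
    (fun u hu => (h2.g_der u ⟨by linarith [hu.1], by linarith [hu.2]⟩).hasDerivWithinAt)
    (fun u hu => by simpa using (h1 u hu).1) hy hx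
  simpa using h5

/-- `g1_d` is eventually `rgM`-Lipschitz on every compact -/
theorem rgB_g1lip (k : RigC) (K : ℝ) :
    ∀ᶠ d in k.F, ∀ x ∈ Icc (-K) K, ∀ y ∈ Icc (-K) K, |d.g1 x - d.g1 y| ≤ rgM k.C k.A * |x - y| := by
  filter_upwards [k.ev_ok one_pos (show 0 < |K| + 1 by positivity)] with d h2 x hx y hy
  have hK := le_abs_self K
  exact rgA_lip h2 k.hA le_rfl ⟨by linarith [hx.1], by linarith [hx.2]⟩
    ⟨by linarith [hy.1], by linarith [hy.2]⟩

/-- equi-Lipschitz + pointwise convergence ⟹ uniform convergence on `[a, b]` (any filter) -/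
theorem rgB_unif {ι : Type*} (U : Filter ι) {f : ι → ℝ → ℝ} {g : ℝ → ℝ} {M a b : ℝ}
    (hL : ∀ᶠ n in U, ∀ x ∈ Icc a b, ∀ y ∈ Icc a b, |f n x - f n y| ≤ M * |x - y|)
    (hl : ∀ x ∈ Icc a b, Tendsto (fun n => f n x) U (𝓝 (g x))) {ε : ℝ} (hε : 0 < ε) :
    ∀ᶠ n in U, ∀ x ∈ Icc a b, |f n x - g x| ≤ ε := by
  have h1 : ∀ᶠ n in U, LipschitzOnWith (Real.toNNReal M) (f n) (Icc a b) := by
    filter_upwards [hL] with n hn
    refine LipschitzOnWith.of_dist_le_mul fun x hx y hy => ?_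
    rw [Real.dist_eq, Real.dist_eq]
    exact (hn x hx y hy).trans (mul_le_mul_of_nonneg_right (Real.le_coe_toNNReal _) (abs_nonneg _))
  have h2 := tl_114_lipschitz_unif U h1 hl (isCompact_Icc.totallyBounded) (le_refl _)
  rw [Metric.tendstoUniformlyOn_iff] at h2
  filter_upwards [h2 ε hε] with n hn x hx
  have := hn x hx
  rw [Real.dist_eq, abs_sub_comm] at this
  exact this.le

theorem RigBL.g_unif {k : RigC} {RA : ℝ} (L : RigBL k RA) (K : ℝ) {ε : ℝ} (hε : 0 < ε) :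
    ∀ᶠ d in (L.U : Filter RigD), ∀ x ∈ Icc (-K) K, |d.g x - L.g x| ≤ ε :=
  rgB_unif _ ((rgB_glip k K).filter_mono L.le_F) (fun x _ => L.hg x) hε

theorem RigBL.g1_unif {k : RigC} {RA : ℝ} (L : RigBL k RA) (K : ℝ) {ε : ℝ} (hε : 0 < ε) :
    ∀ᶠ d in (L.U : Filter RigD), ∀ x ∈ Icc (-K) K, |d.g1 x - L.g1 x| ≤ ε :=
  rgB_unif _ ((rgB_g1lip k K).filter_mono L.le_F) (fun x _ => L.hg1 x) hε

/-- `Y_d → Y` in `L¹_loc` along `U`, with the integrability facts -/
theorem RigBL.Y_L1 {k : RigC} {RA : ℝ} (L : RigBL k RA) {p q : ℝ} (hpq : p ≤ q) :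
    Tendsto (fun d : RigD => ∫ z in p..q, |d.Y z - L.Y z|) L.U (𝓝 0) := by
  refine tl_114_mono_trend_L1 (L.U : Filter RigD) (fun z => z) hpq ?_ (fun z _ => L.hY z)
  filter_upwards [L.ev one_pos (show 0 < |p| + |q| + 1 by positivity)] with d hd
  have h1 := hd.1.Y_mono
  rw [hd.2.1] at h1
  have hp := neg_abs_le p
  have hq := le_abs_self q
  have hp0 := abs_nonneg p
  have hq0 := abs_nonneg q
  refine (h1.mono (Icc_subset_Icc (by linarith) (by linarith))).congr ?_
  intro z _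
  simp only
  ring

theorem RigBL.Y_int {k : RigC} {RA : ℝ} (L : RigBL k RA) (p q : ℝ) :
    IntervalIntegrable L.Y volume p q := by
  have h1 : IntervalIntegrable L.s volume p q := (rgB_mono L).2.2.2.1.intervalIntegrable
  have h2 : IntervalIntegrable (fun z : ℝ => z) volume p q := continuous_id.intervalIntegrable _ _
  refine (h1.sub h2).congr ?_
  intro z _
  simp [RigBL.s]

theorem RigBL.Yd_int {k : RigC} {RA : ℝ} (L : RigBL k RA) {p q : ℝ} (hpq : p ≤ q) :
    ∀ᶠ d in (L.U : Filter RigD), IntervalIntegrable d.Y volume p q := by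
  filter_upwards [L.ev one_pos (show 0 < |p| + |q| + 1 by positivity)] with d hd
  have hp := neg_abs_le p
  have hq := le_abs_self q
  have hp0 := abs_nonneg p
  have hq0 := abs_nonneg q
  exact rg_trend_int hd.1.θ_pos hpq (hd.1.Y_mono.mono (Icc_subset_Icc (by linarith) (by linarith)))

theorem RigBL.Y_bd {k : RigC} {RA : ℝ} (L : RigBL k RA) (z : ℝ) : |L.Y z| ≤ k.C := by
  refine le_of_tendsto (L.hY z).abs ?_
  filter_upwards [L.ev one_pos (show 0 < |z| + 1 by positivity)] with d hd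
  exact hd.1.Y_bd z ⟨by linarith [neg_abs_le z], by linarith [le_abs_self z]⟩

/-- `H_d z₂ - H_d z₁ = -∫ Y_d`, `∫ Y_d → ∫ Y` (`tl_114_mono_trend_L1`), `H_d ≥ -δ` -/
theorem rgB_pot {k : RigC} {RA : ℝ} (L : RigBL k RA) :
    (∀ z, 0 ≤ L.H z) ∧ ∀ z₁ z₂, L.H z₂ - L.H z₁ = -∫ z in z₁..z₂, (L.s z - z) := by
  have hint : ∀ {p q : ℝ}, p ≤ q →
      Tendsto (fun d : RigD => ∫ z in p..q, d.Y z) L.U (𝓝 (∫ z in p..q, L.Y z)) := by
    intro p q hpq
    rw [tendsto_iff_dist_tendsto_zero]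
    refine squeeze_zero' (Eventually.of_forall fun _ => dist_nonneg) ?_ (L.Y_L1 hpq)
    filter_upwards [L.Yd_int hpq] with d hd
    rw [Real.dist_eq, ← intervalIntegral.integral_sub hd (L.Y_int p q)]
    exact intervalIntegral.abs_integral_le_integral_abs hpq
  have hle : ∀ {z₁ z₂ : ℝ}, z₁ ≤ z₂ → L.H z₂ - L.H z₁ = -∫ z in z₁..z₂, L.Y z := by
    intro z₁ z₂ h12
    have t1 : Tendsto (fun d : RigD => d.H z₂ - d.H z₁) L.U (𝓝 (L.H z₂ - L.H z₁)) :=
      (L.hH z₂).sub (L.hH z₁)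
    have t2 : Tendsto (fun d : RigD => -∫ z in z₁..z₂, d.Y z) L.U (𝓝 (-∫ z in z₁..z₂, L.Y z)) :=
      (hint h12).neg
    refine tendsto_nhds_unique (t1.congr' ?_) t2
    filter_upwards [L.ev one_pos (show 0 < |z₁| + |z₂| + 1 by positivity)] with d hd
    have a1 := abs_le.1 (le_refl |z₁|)
    have a2 := abs_le.1 (le_refl |z₂|)
    have n1 := abs_nonneg z₁
    have n2 := abs_nonneg z₂
    exact hd.1.H_eq z₁ ⟨by linarith, by linarith⟩ z₂ ⟨by linarith, by linarith⟩
  have hsY : ∀ z₁ z₂ : ℝ, ∫ z in z₁..z₂, (L.s z - z) = ∫ z in z₁..z₂, L.Y z := by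
    intro z₁ z₂
    apply intervalIntegral.integral_congr
    intro z _
    simp [RigBL.s]
  refine ⟨fun z => ?_, fun z₁ z₂ => ?_⟩
  · refine le_of_forall_pos_le_add fun ε hε => ?_
    have t1 : Tendsto (fun d : RigD => d.H z + ε) L.U (𝓝 (L.H z + ε)) := (L.hH z).add_const ε
    refine ge_of_tendsto t1 ?_
    filter_upwards [L.ev hε (show 0 < |z| + 1 by positivity)] with d hd
    have a1 := abs_le.1 (le_refl |z|)
    have h1 := hd.1.H_lb z ⟨by linarith, by linarith⟩
    rw [hd.2.1, mul_one] at h1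
    by_contra hneg
    have hH : d.H z < 0 := by linarith
    have h2 : max 1 (d.R 0) * d.H z ≤ 1 * d.H z :=
      mul_le_mul_of_nonpos_right (le_max_left _ _) hH.le
    linarith
  · rw [hsY]
    rcases le_total z₁ z₂ with h | h
    · exact hle h
    · have := hle h
      rw [intervalIntegral.integral_symm]
      linarith

/-- `g1_d` equi-Lipschitz (`rgA_lip`): `tl_114_C1`;   `g1_eq`, `rgB_mt`, `∫ m_d → ∫ m` (`tl_114_mono_trend_L1`) -/
theorem rgB_g {k : RigC} {RA : ℝ} (L : RigBL k RA) :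
    (∀ z, HasDerivAt L.g (L.g1 z) z) ∧ ∀ z₁ z₂, L.g1 z₂ - L.g1 z₁ = -(k.A * ∫ z in z₁..z₂, L.m z) := by
  have hA := k.hA
  have hmi : ∀ a b : ℝ, IntervalIntegrable L.m volume a b := by
    intro a b
    have h1 : IntervalIntegrable (fun z => k.cβ * z + L.m z) volume a b :=
      ((rgB_mono L).2.2.1).intervalIntegrable
    have h2 := h1.sub ((continuous_const.mul continuous_id).intervalIntegrable (μ := volume) a b
      : IntervalIntegrable (fun z : ℝ => k.cβ * z) volume a b)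
    refine h2.congr ?_
    intro z _
    simp
  have key : ∀ a b : ℝ, a ≤ b → L.g1 b - L.g1 a + k.A * ∫ z in a..b, L.m z = 0 := by
    intro a b hab
    set K : ℝ := |a| + |b| with hK
    have hK0 : 0 ≤ K := by positivity
    have ha1 : -K ≤ a := by linarith [neg_abs_le a, abs_nonneg b]
    have hb1 : b ≤ K := by linarith [le_abs_self b, abs_nonneg a]
    have hW : 0 < K + 1 := by positivity
    have hsub : Icc a b ⊆ Icc (-(K + 1)) (K + 1) := Icc_subset_Icc (by linarith) (by linarith)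
    have hsubK : Icc (-K) K ⊆ Icc (-(K + 1)) (K + 1) := Icc_subset_Icc (by linarith) (by linarith)
    have hm : ∀ᶠ d in (L.U : Filter RigD), MonotoneOn (fun x => d.m x + (k.cβ + 1) * x) (Icc a b) := by
      filter_upwards [L.ev one_pos hW] with d hd
      obtain ⟨hok, hθ, -⟩ := hd
      have h : d.Ok k.C k.cβ k.A k.cD 1 (K + 1) := hok
      intro x hx y hy hxy
      have mx := hsub hx
      have my := hsub hy
      have hu : uIcc x y ⊆ uIcc (-(K + 1)) (K + 1) := by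
        rw [uIcc_of_le hxy, uIcc_of_le (by linarith)]
        exact Icc_subset_Icc mx.1 my.2
      have e1 := h.m_eq x mx y my
      rw [hθ, one_mul] at e1
      have e2 : ∫ z in x..y, (-(k.cβ + 1)) ≤ ∫ z in x..y, (d.ρ z - d.β z) := by
        apply intervalIntegral.integral_mono_on hxy (by simp)
          ((h.ρ_int.mono_set hu).sub (h.β_int.mono_set hu))
        intro z hz
        have hzw : z ∈ Icc (-(K + 1)) (K + 1) := ⟨by linarith [hz.1, mx.1], by linarith [hz.2, my.2]⟩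
        have a1 := h.ρ_nonneg z hzw
        have a2 := (abs_le.1 (h.β_near z hzw)).2
        linarith
      rw [intervalIntegral.integral_const, smul_eq_mul, ← e1] at e2
      simp only
      nlinarith
    have hL1 := tl_114_mono_trend_L1 (L.U : Filter RigD) (f := fun (d : RigD) z => d.m z) (g := L.m)
      (fun x => (k.cβ + 1) * x) hab hm (fun x _ => L.hm x)
    have hmd : ∀ d : RigD, k.ok 1 (K + 1) d → ∀ p q, -K ≤ p → p ≤ q → q ≤ K →
        IntervalIntegrable d.m volume p q := by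
      intro d hd p q h1 h2 h3
      refine ContinuousOn.intervalIntegrable ((rgA_m_cont hd).mono ?_)
      rw [uIcc_of_le h2]
      exact Icc_subset_Icc (by linarith) (by linarith)
    have hmtd : ∀ d : RigD, k.ok 1 (K + 1) d → ∀ p q, -K ≤ p → p ≤ q → q ≤ K →
        IntervalIntegrable d.mt volume p q := by
      intro d hd p q h1 h2 h3
      refine (RigD.Ok.mt_int hd).mono_set ?_
      rw [uIcc_of_le h2, uIcc_of_le (by linarith)]
      exact Icc_subset_Icc (by linarith) (by linarith)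
    have hint : Tendsto (fun d : RigD => ∫ z in a..b, d.m z) L.U (𝓝 (∫ z in a..b, L.m z)) := by
      rw [tendsto_iff_dist_tendsto_zero]
      refine squeeze_zero' (Eventually.of_forall fun _ => dist_nonneg) ?_ hL1
      filter_upwards [L.ev one_pos hW] with d hd
      rw [Real.dist_eq, ← intervalIntegral.integral_sub (hmd d hd.1 a b ha1 hab hb1) (hmi a b)]
      exact intervalIntegral.abs_integral_le_integral_abs hab
    have hlim : Tendsto (fun d : RigD => |d.g1 b - d.g1 a + k.A * ∫ z in a..b, d.m z|) L.U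
        (𝓝 |L.g1 b - L.g1 a + k.A * ∫ z in a..b, L.m z|) :=
      (((L.hg1 b).sub (L.hg1 a)).add (hint.const_mul k.A)).abs
    have hle : ∀ ε, 0 < ε → |L.g1 b - L.g1 a + k.A * ∫ z in a..b, L.m z| ≤ ε := by
      intro ε hε
      have hδ : 0 < min 1 (ε / (2 * (b - a + 1))) := by
        have : 0 < b - a + 1 := by linarith
        exact lt_min one_pos (by positivity)
      have hε' : 0 < ε / (2 * k.A) := by positivity
      refine le_of_tendsto hlim ?_
      filter_upwards [L.ev hδ hW, (rgB_mt k K hε').filter_mono L.le_F] with d hd hmt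
      obtain ⟨hok, hθ, -⟩ := hd
      have h : d.Ok k.C k.cβ k.A k.cD (min 1 (ε / (2 * (b - a + 1)))) (K + 1) := hok
      have hok1 : k.ok 1 (K + 1) d := RigD.Ok.mono h (min_le_left _ _) hW.le le_rfl
      have c1 := h.g1_eq a (hsub ⟨le_rfl, hab⟩) b (hsub ⟨hab, le_rfl⟩) hab
      have c2 : min 1 (ε / (2 * (b - a + 1))) * (b - a) ≤ ε / 2 := by
        have t1 : min 1 (ε / (2 * (b - a + 1))) ≤ ε / (2 * (b - a + 1)) := min_le_right _ _
        have t2 : ε / (2 * (b - a + 1)) * (b - a) ≤ ε / 2 := by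
          rw [div_mul_eq_mul_div, div_le_iff₀ (by linarith)]
          nlinarith
        have t3 : min 1 (ε / (2 * (b - a + 1))) * (b - a) ≤ ε / (2 * (b - a + 1)) * (b - a) :=
          mul_le_mul_of_nonneg_right t1 (by linarith)
        linarith
      have iab := ((hmtd d hok1 a b ha1 hab hb1).sub (hmd d hok1 a b ha1 hab hb1))
      have iK := ((hmtd d hok1 (-K) K le_rfl (by linarith) le_rfl).sub
        (hmd d hok1 (-K) K le_rfl (by linarith) le_rfl)).abs
      have c3 : |(∫ z in a..b, d.mt z) - ∫ z in a..b, d.m z| ≤ ε / (2 * k.A) := by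
        rw [← intervalIntegral.integral_sub (hmtd d hok1 a b ha1 hab hb1) (hmd d hok1 a b ha1 hab hb1)]
        refine (intervalIntegral.abs_integral_le_integral_abs hab).trans ?_
        refine le_trans ?_ hmt
        exact intervalIntegral.integral_mono_interval ha1 hab hb1
          (Eventually.of_forall fun z => abs_nonneg _) iK
      have c4 : k.A * |(∫ z in a..b, d.mt z) - ∫ z in a..b, d.m z| ≤ ε / 2 := by
        calc k.A * |(∫ z in a..b, d.mt z) - ∫ z in a..b, d.m z| ≤ k.A * (ε / (2 * k.A)) := by gcongr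
          _ = ε / 2 := by field_simp
      have c5 : d.g1 b - d.g1 a + k.A * ∫ z in a..b, d.m z
          = (d.g1 b - d.g1 a + k.A * ∫ z in a..b, d.mt z)
            - k.A * ((∫ z in a..b, d.mt z) - ∫ z in a..b, d.m z) := by ring
      rw [c5]
      refine (abs_sub _ _).trans ?_
      rw [abs_mul, abs_of_pos hA]
      linarith
    have : |L.g1 b - L.g1 a + k.A * ∫ z in a..b, L.m z| ≤ 0 :=
      le_of_forall_pos_le_add (fun ε hε => by simpa using hle ε hε)
    exact abs_eq_zero.1 (le_antisymm this (abs_nonneg _))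
  constructor
  · intro z
    have hW : 0 < |z| + 2 := by positivity
    have hsub : Icc (z - 1) (z + 1) ⊆ Icc (-(|z| + 2)) (|z| + 2) :=
      Icc_subset_Icc (by linarith [neg_abs_le z]) (by linarith [le_abs_self z])
    have hzs : z ∈ Icc (z - 1) (z + 1) := ⟨by linarith, by linarith⟩
    have hzK : z ∈ Icc (-|z|) |z| := ⟨neg_abs_le z, le_abs_self z⟩
    obtain ⟨G, G', hder, -, hp, hp', -, -⟩ := tl_114_C1 L.U (f := fun (d : RigD) x => d.g x)
      (f' := fun (d : RigD) x => d.g1 x) (s := Icc (z - 1) (z + 1)) ordConnected_Icc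
      (C := Real.toNNReal (rgM k.C k.A)) (x0 := z)
      (M := max (rgaG k.C k.cβ k.A) (rgaG1 k.C k.cβ k.A))
      (by
        filter_upwards [L.ev one_pos hW] with d hd x hx
        exact (RigD.Ok.g_der hd.1 x (hsub hx)).hasDerivWithinAt)
      (by
        filter_upwards [L.ev one_pos hW] with d hd
        refine LipschitzOnWith.of_dist_le_mul fun x hx y hy => ?_
        rw [Real.dist_eq, Real.dist_eq]
        refine (rgA_lip hd.1 hA le_rfl (hsub hx) (hsub hy)).trans ?_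
        exact mul_le_mul_of_nonneg_right (Real.le_coe_toNNReal _) (abs_nonneg _))
      hzs
      (((rgB_gbd k |z|).filter_mono L.le_F).mono fun d hd => (hd z hzK).2.trans (le_max_left _ _))
      (((rgB_gbd k |z|).filter_mono L.le_F).mono fun d hd => (hd z hzK).1.trans (le_max_right _ _))
    have e1 : ∀ x ∈ Icc (z - 1) (z + 1), L.g x = G x := fun x hx =>
      tendsto_nhds_unique (L.hg x) (hp x hx)
    have e2 : L.g1 z = G' z := tendsto_nhds_unique (L.hg1 z) (hp' z hzs)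
    rw [e2]
    refine (hder z).congr_of_eventuallyEq ?_
    filter_upwards [Icc_mem_nhds (by linarith : z - 1 < z) (by linarith : z < z + 1)] with x hx
    exact e1 x hx
  · intro z₁ z₂
    rcases le_total z₁ z₂ with h | h
    · have := key z₁ z₂ h
      linarith
    · have := key z₂ z₁ h
      rw [intervalIntegral.integral_symm]
      linarith

/-- nonfloor approximants with RELATIVELY small error at a support point:
`∫_{p-ε}^{p+ε} ρ_d = m_d(p+ε) - m_d(p-ε) + ∫ β_d → a(p+ε) - a(p-ε) > 0`, then `rgB_calfix` with `κ = ε min 1 (R 0)` -/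
theorem rgB_apx {k : RigC} {RA : ℝ} (L : RigBL k RA) {p : ℝ} (hp : L.Supp p) {ε : ℝ} (hε : 0 < ε) :
    ∀ᶠ d in (L.U : Filter RigD), ∃ z ∈ Icc (p - ε) (p + ε), z ∉ d.F ∧ |d.e k.cβ z| ≤ ε * min 1 (d.R 0) := by
  have hμ := hp ε hε
  set μ₀ : ℝ := (k.cβ * (p + ε) + L.m (p + ε)) - (k.cβ * (p - ε) + L.m (p - ε)) with hμ₀
  have hμ0 : 0 < μ₀ := by rw [hμ₀]; linarith
  set δ : ℝ := min (μ₀ / (16 * ε)) (ε * μ₀ / (4 * (2 * ε + 1))) with hδd
  have hδ : 0 < δ := lt_min (by positivity) (by positivity)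
  have hδ1 : δ * (16 * ε) ≤ μ₀ := by
    have : δ ≤ μ₀ / (16 * ε) := min_le_left _ _
    rwa [le_div_iff₀ (by positivity)] at this
  have hδ2 : δ * (4 * (2 * ε + 1)) ≤ ε * μ₀ := by
    have : δ ≤ ε * μ₀ / (4 * (2 * ε + 1)) := min_le_right _ _
    rwa [le_div_iff₀ (by positivity)] at this
  have hW : 0 < |p| + ε + 1 := by positivity
  have t1 : ∀ᶠ d in (L.U : Filter RigD), L.m (p + ε) - μ₀ / 8 < d.m (p + ε) :=
    (L.hm (p + ε)).eventually (lt_mem_nhds (by linarith))
  have t2 : ∀ᶠ d in (L.U : Filter RigD), d.m (p - ε) < L.m (p - ε) + μ₀ / 8 :=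
    (L.hm (p - ε)).eventually (gt_mem_nhds (by linarith))
  filter_upwards [L.ev hδ hW, t1, t2] with d hd h1 h2
  obtain ⟨hok, hθ, -⟩ := hd
  have hok' : d.Ok k.C k.cβ k.A k.cD δ (|p| + ε + 1) := hok
  have hpa := abs_le.1 (le_refl |p|)
  have hI1 : p - ε ∈ Icc (-(|p| + ε + 1)) (|p| + ε + 1) := ⟨by linarith, by linarith⟩
  have hI2 : p + ε ∈ Icc (-(|p| + ε + 1)) (|p| + ε + 1) := ⟨by linarith, by linarith⟩
  have hmin : 0 < min 1 (d.R 0) := lt_min one_pos hok'.R_pos
  have hρ := rgA_rho hok' hI1 hI2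
  have iβ : IntervalIntegrable d.β volume (p - ε) (p + ε) := by
    apply hok'.β_int.mono_set
    rw [uIcc_of_le (by linarith), uIcc_of_le (by linarith)]
    exact Icc_subset_Icc hI1.1 hI2.2
  have hβ : ∫ z in (p - ε)..(p + ε), (k.cβ - δ) ≤ ∫ z in (p - ε)..(p + ε), d.β z := by
    apply intervalIntegral.integral_mono_on (by linarith) (by simp) iβ
    intro z hz
    have := hok'.β_near z ⟨by linarith [hz.1], by linarith [hz.2]⟩
    rw [abs_le] at this; linarith
  rw [intervalIntegral.integral_const, smul_eq_mul] at hβ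
  rw [hθ, one_mul] at hρ
  have hmass : μ₀ / 2 ≤ (∫ z in (p - ε)..(p + ε), d.ρ z) - δ * ((p + ε) - (p - ε)) := by
    rw [hρ]
    have e1 : (p + ε) - (p - ε) = 2 * ε := by ring
    rw [e1] at hβ ⊢
    have e2 : μ₀ = k.cβ * (2 * ε) + (L.m (p + ε) - L.m (p - ε)) := by rw [hμ₀]; ring
    nlinarith
  refine rgB_calfix k hok hδ hI1.1 (by linarith) (by rw [hθ]; linarith) (by positivity) ?_
  rw [hθ]
  have e1 : (p + ε) - (p - ε) + 1 = 2 * ε + 1 := by ring
  rw [e1]
  calc δ * (2 * ε + 1) * min 1 (d.R 0) ≤ (ε * μ₀ / 4) * min 1 (d.R 0) := by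
        apply mul_le_mul_of_nonneg_right _ hmin.le
        linarith
    _ < (ε * (μ₀ / 2)) * min 1 (d.R 0) := by
        apply mul_lt_mul_of_pos_right _ hmin
        nlinarith
    _ = ε * min 1 (d.R 0) * (μ₀ / 2) := by ring
    _ ≤ _ := mul_le_mul_of_nonneg_left hmass (by positivity)

/-- at an approximant `z_d`: `|Y| ≤ δ`, `H ∈ [-δ, 0]`, `|g (φ z_d)| ≤ R(0) (2δ + δ (1 + C/cβ) + ε)`, `|φ z_d - z_d| ≤ 2δ`; `g_d`, `H_d` equi-Lipschitz; `φ_d` monotone -/
theorem rgB_supp {k : RigC} {RA : ℝ} (L : RigBL k RA) {p : ℝ} (hp : L.Supp p) :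
    L.g p = 0 ∧ L.H p = 0 ∧ ∀ z, p < z → p ≤ L.s z := by
  have hC := k.hC
  have hcβ := k.hcβ
  set G1 := rgaG1 k.C k.cβ k.A with hG1
  -- the basic package at an approximant
  have key : ∀ ε δ : ℝ, 0 < ε → ε ≤ 1 → 0 < δ → δ ≤ 1 → ∀ z : ℝ,
      ∀ᶠ d in (L.U : Filter RigD),
        |d.H p| ≤ δ + k.C * ε ∧
        |d.g p| ≤ ε + 2 * δ + δ * RA * (1 + k.C / k.cβ) + |G1| * (ε + 2 * δ) ∧
        (p + ε ≤ z → p - ε - δ ≤ z + d.Y z) ∧ (z ≤ p - ε → z + d.Y z ≤ p + ε + δ) := by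
    intro ε δ hε hε1 hδ hδ1 z
    have hW : 0 < |p| + |z| + 4 := by positivity
    filter_upwards [L.ev hδ hW, rgB_apx L hp hε,
      (rgB_gbd k (|p| + 4)).filter_mono L.le_F] with d hd hapx hgb
    obtain ⟨hok, hθ, hR⟩ := hd
    obtain ⟨zd, hzd, hzF, hze⟩ := hapx
    have hok' : d.Ok k.C k.cβ k.A k.cD δ (|p| + |z| + 4) := hok
    have hp1 := le_abs_self p
    have hp2 := neg_abs_le p
    have hz1 := le_abs_self z
    have hz2 := neg_abs_le z
    have hz0 := abs_nonneg z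
    have hp0 := abs_nonneg p
    have hpW : p ∈ Icc (-(|p| + |z| + 4)) (|p| + |z| + 4) := ⟨by linarith, by linarith⟩
    have hzW : z ∈ Icc (-(|p| + |z| + 4)) (|p| + |z| + 4) := ⟨by linarith, by linarith⟩
    have hzdW : zd ∈ Icc (-(|p| + |z| + 4)) (|p| + |z| + 4) :=
      ⟨by linarith [hzd.1], by linarith [hzd.2]⟩
    have hR0 := hok'.R_pos
    have hmax1 : 1 ≤ max 1 (d.R 0) := le_max_left _ _
    have hmaxR : d.R 0 ≤ max 1 (d.R 0) := le_max_right _ _
    have hYoff := hok'.Y_off zd hzdW hzF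
    have hY0 := abs_nonneg (d.Y zd)
    have hY : |d.Y zd| ≤ δ := by nlinarith
    have hRY : d.R 0 * |d.Y zd| ≤ δ := by nlinarith
    -- the potential
    have hHz : |d.H zd| ≤ δ := by
      have h1 := hok'.H_off zd hzdW hzF
      have h2 := hok'.H_lb zd hzdW
      rw [hθ, mul_one] at h2
      rw [abs_of_nonpos h1]
      nlinarith
    have hHlip : |d.H p - d.H zd| ≤ k.C * ε := by
      rw [hok'.H_eq zd hzdW p hpW, abs_neg]
      have h1 : |∫ t in zd..p, d.Y t| ≤ k.C * |p - zd| := by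
        rw [← Real.norm_eq_abs]
        refine intervalIntegral.norm_integral_le_of_norm_le_const (fun t ht => ?_)
        rw [Real.norm_eq_abs]
        refine hok'.Y_bd t ?_
        rcases le_total zd p with hh | hh
        · rw [uIoc_of_le hh] at ht
          exact ⟨by linarith [ht.1, hzdW.1], by linarith [ht.2, hpW.2]⟩
        · rw [uIoc_of_ge hh] at ht
          exact ⟨by linarith [ht.1, hpW.1], by linarith [ht.2, hzdW.2]⟩
      have h2 : |p - zd| ≤ ε := abs_le.mpr ⟨by linarith [hzd.2], by linarith [hzd.1]⟩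
      exact h1.trans (mul_le_mul_of_nonneg_left h2 hC.le)
    have hH : |d.H p| ≤ δ + k.C * ε := by
      have : |d.H p| ≤ |d.H p - d.H zd| + |d.H zd| := by
        have := abs_add_le (d.H p - d.H zd) (d.H zd)
        simpa using this
      linarith
    -- the scalar defect
    have hφ : |d.φ zd - zd| ≤ 2 * δ := by
      have h1 := hok'.φ_near zd hzdW
      rw [hθ, mul_one, one_mul] at h1
      have : |d.φ zd - zd| ≤ |d.φ zd - zd - d.Y zd| + |d.Y zd| := by
        have := abs_add_le (d.φ zd - zd - d.Y zd) (d.Y zd)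
        simpa using this
      linarith
    have hφp : |d.φ zd - p| ≤ ε + 2 * δ := by
      have h2 : |zd - p| ≤ ε := abs_le.mpr ⟨by linarith [hzd.1], by linarith [hzd.2]⟩
      have : |d.φ zd - p| ≤ |d.φ zd - zd| + |zd - p| := by
        have := abs_add_le (d.φ zd - zd) (zd - p)
        simpa using this
      linarith
    have hgφ : |d.g (d.φ zd)| ≤ ε + 2 * δ + δ * RA * (1 + k.C / k.cβ) := by
      have e1 : d.g (d.φ zd) = d.e k.cβ zd + d.R zd * d.Y zd + d.D zd * (d.Y zd - d.m zd / k.cβ) := by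
        unfold RigD.e; ring
      have b1 : |d.e k.cβ zd| ≤ ε := by
        have : min 1 (d.R 0) ≤ 1 := min_le_left _ _
        have h0 : 0 ≤ min 1 (d.R 0) := le_min zero_le_one hR0.le
        nlinarith
      have b2 : |d.R zd * d.Y zd| ≤ 2 * δ := by
        rw [abs_mul]
        have h1 := hok'.R_near zd hzdW
        have h2 : |d.R zd| ≤ 2 * d.R 0 := by
          have : |d.R zd| ≤ |d.R zd - d.R 0| + |d.R 0| := by
            have := abs_add_le (d.R zd - d.R 0) (d.R 0)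
            simpa using this
          rw [abs_of_pos hR0] at this
          nlinarith
        calc |d.R zd| * |d.Y zd| ≤ 2 * d.R 0 * |d.Y zd| := mul_le_mul_of_nonneg_right h2 hY0
          _ ≤ 2 * δ := by nlinarith
      have b3 : |d.D zd * (d.Y zd - d.m zd / k.cβ)| ≤ δ * RA * (1 + k.C / k.cβ) := by
        rw [abs_mul, abs_of_nonneg (hok'.D_nonneg zd hzdW)]
        have h1 : d.D zd ≤ δ * RA := (hok'.D_R zd hzdW).trans (mul_le_mul_of_nonneg_left hR.le hδ.le)
        have h2 : |d.Y zd - d.m zd / k.cβ| ≤ 1 + k.C / k.cβ := by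
          have h3 : |d.m zd / k.cβ| ≤ k.C / k.cβ := by
            rw [abs_div, abs_of_pos hcβ]
            exact div_le_div_of_nonneg_right (hok'.m_bd zd hzdW) hcβ.le
          have := abs_sub (d.Y zd) (d.m zd / k.cβ)
          linarith
        exact mul_le_mul h1 h2 (abs_nonneg _) (mul_nonneg hδ.le (hR0.trans hR).le)
      rw [e1]
      have := abs_add_le (d.e k.cβ zd + d.R zd * d.Y zd) (d.D zd * (d.Y zd - d.m zd / k.cβ))
      have := abs_add_le (d.e k.cβ zd) (d.R zd * d.Y zd)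
      linarith
    have hglip : |d.g p - d.g (d.φ zd)| ≤ |G1| * (ε + 2 * δ) := by
      have hsub : ∀ t ∈ uIcc (d.φ zd) p, t ∈ Icc (-(|p| + 4)) (|p| + 4) := by
        intro t ht
        have h3 := abs_le.mp hφp
        rcases le_total (d.φ zd) p with hh | hh
        · rw [uIcc_of_le hh] at ht
          exact ⟨by linarith [ht.1, h3.1], by linarith [ht.2]⟩
        · rw [uIcc_of_ge hh] at ht
          exact ⟨by linarith [ht.1], by linarith [ht.2, h3.2]⟩
      have hmv := Convex.norm_image_sub_le_of_norm_hasDerivWithin_le (f := d.g) (f' := d.g1)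
        (C := |G1|) (s := uIcc (d.φ zd) p) (x := d.φ zd) (y := p)
        (fun t ht => (hok'.g_der t ⟨by linarith [(hsub t ht).1], by linarith [(hsub t ht).2]⟩).hasDerivWithinAt)
        (fun t ht => by
          rw [Real.norm_eq_abs]
          exact ((hgb t (hsub t ht)).1).trans (le_abs_self _))
        (convex_uIcc _ _) left_mem_uIcc right_mem_uIcc
      rw [Real.norm_eq_abs, Real.norm_eq_abs] at hmv
      rw [abs_sub_comm p (d.φ zd)] at hmv
      exact hmv.trans (mul_le_mul_of_nonneg_left hφp (abs_nonneg _))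
    have hg : |d.g p| ≤ ε + 2 * δ + δ * RA * (1 + k.C / k.cβ) + |G1| * (ε + 2 * δ) := by
      have : |d.g p| ≤ |d.g p - d.g (d.φ zd)| + |d.g (d.φ zd)| := by
        have := abs_add_le (d.g p - d.g (d.φ zd)) (d.g (d.φ zd))
        simpa using this
      linarith
    refine ⟨hH, hg, fun hz => ?_, fun hz => ?_⟩
    · have := hok'.Y_mono hzdW hzW (by linarith [hzd.2])
      simp only [hθ, one_mul] at this
      have h3 := (abs_le.mp hY).1
      linarith [hzd.1]
    · have := hok'.Y_mono hzW hzdW (by linarith [hzd.1])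
      simp only [hθ, one_mul] at this
      have h3 := (abs_le.mp hY).2
      linarith [hzd.2]
  have hRA : 0 ≤ RA := by
    obtain ⟨d, hd⟩ := (L.ev one_pos one_pos).exists
    exact (hd.1.R_pos.trans hd.2.2).le
  refine ⟨?_, ?_, ?_⟩
  · -- `g p = 0`
    have hb : ∀ η : ℝ, 0 < η → η ≤ 1 →
        |L.g p| ≤ η * (3 + RA * (1 + k.C / k.cβ) + 3 * |G1|) := by
      intro η hη hη1
      have h1 := (L.hg p).abs
      refine le_of_tendsto h1 ((key η η hη hη1 hη hη1 0).mono fun d hd => ?_)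
      have := hd.2.1
      nlinarith
    set M := 3 + RA * (1 + k.C / k.cβ) + 3 * |G1| with hM
    have hM0 : 0 < M := by positivity
    by_contra hne
    have hpos : 0 < |L.g p| := abs_pos.mpr hne
    have h2 := hb (min 1 (|L.g p| / (2 * M))) (lt_min one_pos (by positivity)) (min_le_left _ _)
    have h3 : min 1 (|L.g p| / (2 * M)) * M ≤ |L.g p| / (2 * M) * M :=
      mul_le_mul_of_nonneg_right (min_le_right _ _) hM0.le
    have h4 : |L.g p| / (2 * M) * M = |L.g p| / 2 := by field_simp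
    linarith
  · have hb : ∀ η : ℝ, 0 < η → η ≤ 1 → |L.H p| ≤ η * (1 + k.C) := by
      intro η hη hη1
      have h1 := (L.hH p).abs
      refine le_of_tendsto h1 ((key η η hη hη1 hη hη1 0).mono fun d hd => ?_)
      have := hd.1
      nlinarith
    set M := 1 + k.C with hM
    have hM0 : 0 < M := by positivity
    by_contra hne
    have hpos : 0 < |L.H p| := abs_pos.mpr hne
    have h2 := hb (min 1 (|L.H p| / (2 * M))) (lt_min one_pos (by positivity)) (min_le_left _ _)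
    have h3 : min 1 (|L.H p| / (2 * M)) * M ≤ |L.H p| / (2 * M) * M :=
      mul_le_mul_of_nonneg_right (min_le_right _ _) hM0.le
    have h4 : |L.H p| / (2 * M) * M = |L.H p| / 2 := by field_simp
    linarith
  · intro z hz
    refine le_of_forall_pos_le_add fun η hη => ?_
    set ε := min (min 1 (η / 2)) (z - p) with hε
    have hε0 : 0 < ε := lt_min (lt_min one_pos (by positivity)) (by linarith)
    have hε1 : ε ≤ 1 := (min_le_left _ _).trans (min_le_left _ _)
    have hε2 : ε ≤ η / 2 := (min_le_left _ _).trans (min_le_right _ _)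
    have hε3 : ε ≤ z - p := min_le_right _ _
    have hl : Tendsto (fun d : RigD => z + d.Y z) L.U (𝓝 (L.s z)) := (L.hY z).const_add z
    have : p - ε - ε ≤ L.s z :=
      ge_of_tendsto hl ((key ε ε hε0 hε1 hε0 hε1 z).mono fun d hd => hd.2.2.1 (by linarith))
    linarith

/-- `|∫_p^q (g(s z) - Rinf (s z - z))| ≤ ∫ |g(s) - g_d(s)| + Cg ∫ (|Y - Y_d| + δ) + ∫ |e_d| + ∫ |R_d Y_d - Rinf Y| + δ RA (C + C/cβ) |q-p| → 0` -/
theorem rgB_c20 {k : RigC} {RA : ℝ} (L : RigBL k RA) (p q : ℝ) :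
    ∫ z in p..q, (L.g (L.s z) - L.Rinf * (L.s z - z)) = 0 := by
  wlog hpq : p ≤ q generalizing p q
  · rw [intervalIntegral.integral_symm, this q p (le_of_not_ge hpq), neg_zero]
  have hC := k.hC
  have hcβ := k.hcβ
  set G1 := rgaG1 k.C k.cβ k.A with hG1def
  set K2 := 2 * k.C + k.C / k.cβ with hK2
  have hK20 : 0 < K2 := by positivity
  set K := |p| + |q| + k.C + 1 with hK
  have hp1 := neg_abs_le p
  have hq1 := le_abs_self q
  have hp0 := abs_nonneg p
  have hq0 := abs_nonneg q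
  have hK0 : 0 < K := by positivity
  -- `RA`, `G1` are nonnegative
  obtain ⟨d0, hd0, hd0'⟩ := ((L.ev one_pos one_pos).and ((rgB_gbd k 0).filter_mono L.le_F)).exists
  have hRA : 0 < RA := hd0.1.R_pos.trans hd0.2.2
  have hG1 : 0 ≤ G1 := (abs_nonneg _).trans (hd0' 0 (by simp)).1
  set ℓ := q - p with hℓ
  have hℓ0 : 0 ≤ ℓ := by linarith
  set T := ℓ * (1 + G1 + RA * K2 + k.C) + (G1 + RA) + (ℓ + 1) with hT
  have hT0 : 0 < T := by positivity
  refine abs_eq_zero.1 (le_antisymm (le_of_forall_pos_le_add fun ε hε => ?_) (abs_nonneg _))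
  set τ := min 1 (ε / T) with hτ
  have hτ0 : 0 < τ := lt_min one_pos (by positivity)
  have hτle : τ ≤ 1 := min_le_left _ _
  have hτT : τ * T ≤ ε := by
    have : τ ≤ ε / T := min_le_right _ _
    rwa [le_div_iff₀ hT0] at this
  have hRlim : ∀ᶠ d in (L.U : Filter RigD), |d.R 0 - L.Rinf| ≤ τ := by
    have := (tendsto_order.1 ((L.hR.sub_const L.Rinf).abs)).2 τ (by simpa using hτ0)
    exact this.mono fun d hd => hd.le
  have hYlim : ∀ᶠ d in (L.U : Filter RigD), (∫ z in p..q, |d.Y z - L.Y z|) ≤ τ :=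
    ((tendsto_order.1 (L.Y_L1 hpq)).2 τ hτ0).mono fun d hd => hd.le
  obtain ⟨d, ⟨⟨⟨⟨⟨hd, hθ, hR⟩, hgu⟩, hgl⟩, hRl⟩, hYl⟩, hYi⟩ :=
    ((((((L.ev hτ0 (show 0 < K + 2 by positivity)).and (L.g_unif K hτ0)).and
      ((rgB_glip k K).filter_mono L.le_F)).and hRlim).and hYlim).and (L.Yd_int hpq)).exists
  have hR0 := hd.R_pos
  obtain ⟨hei, heb⟩ := rgB_ebox_min k hd hτ0 (z₁ := p) (z₂ := q) (by linarith) hpq
    (by rw [hθ]; linarith)
  have hdY : IntervalIntegrable (fun z => |d.Y z - L.Y z|) volume p q := (hYi.sub (L.Y_int p q)).abs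
  -- the pointwise bound
  have hpt : ∀ z ∈ Ioc p q, ‖L.g (L.s z) - L.Rinf * (L.s z - z)‖ ≤
      τ * (1 + G1 + RA * K2 + k.C) + (G1 + RA) * |d.Y z - L.Y z| + |d.e k.cβ z| := by
    intro z hz
    have hzW : z ∈ Icc (-(K + 2)) (K + 2) := ⟨by linarith [hz.1], by linarith [hz.2]⟩
    have hY := L.Y_bd z
    have hYd := hd.Y_bd z hzW
    have hφ := hd.φ_near z hzW
    rw [hθ, one_mul, mul_one] at hφ
    have hτ1 : |d.φ z - z| ≤ k.C + τ := by
      have := abs_add_le (d.φ z - z - d.Y z) (d.Y z)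
      simp only [sub_add_cancel] at this
      linarith
    have hsK : L.s z ∈ Icc (-K) K := by
      have := abs_le.1 hY
      constructor <;> simp only [RigBL.s] <;> linarith [hz.1, hz.2]
    have hφK : d.φ z ∈ Icc (-K) K := by
      have := abs_le.1 hτ1
      constructor <;> linarith [hz.1, hz.2]
    have a1 := hgu (L.s z) hsK
    have a2 := hgl (L.s z) hsK (d.φ z) hφK
    have a3 : |L.s z - d.φ z| ≤ |d.Y z - L.Y z| + τ := by
      have e : L.s z - d.φ z = -(d.Y z - L.Y z) + -(d.φ z - z - d.Y z) := by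
        simp only [RigBL.s]; ring
      rw [e]
      refine (abs_add_le _ _).trans ?_
      rw [abs_neg, abs_neg]
      linarith
    have a4 := rgB_gphi k hd hτ0 hzW
    have a5 : |d.R 0 * d.Y z - L.Rinf * L.Y z| ≤ RA * |d.Y z - L.Y z| + τ * k.C := by
      have e : d.R 0 * d.Y z - L.Rinf * L.Y z
          = d.R 0 * (d.Y z - L.Y z) + (d.R 0 - L.Rinf) * L.Y z := by ring
      rw [e]
      refine (abs_add_le _ _).trans ?_
      rw [abs_mul, abs_mul, abs_of_pos hR0]
      have b1 : d.R 0 * |d.Y z - L.Y z| ≤ RA * |d.Y z - L.Y z| := by gcongr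
      have b2 : |d.R 0 - L.Rinf| * |L.Y z| ≤ τ * k.C := by gcongr
      linarith
    have e : L.g (L.s z) - L.Rinf * (L.s z - z)
        = -(d.g (L.s z) - L.g (L.s z)) + (d.g (L.s z) - d.g (d.φ z))
          + (d.g (d.φ z) - d.R 0 * d.Y z) + (d.R 0 * d.Y z - L.Rinf * L.Y z) := by
      simp only [RigBL.s]; ring
    rw [Real.norm_eq_abs, e]
    have t1 := abs_add_le (-(d.g (L.s z) - L.g (L.s z)) + (d.g (L.s z) - d.g (d.φ z))
          + (d.g (d.φ z) - d.R 0 * d.Y z)) (d.R 0 * d.Y z - L.Rinf * L.Y z)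
    have t2 := abs_add_le (-(d.g (L.s z) - L.g (L.s z)) + (d.g (L.s z) - d.g (d.φ z)))
          (d.g (d.φ z) - d.R 0 * d.Y z)
    have t3 := abs_add_le (-(d.g (L.s z) - L.g (L.s z))) (d.g (L.s z) - d.g (d.φ z))
    rw [abs_neg] at t3
    have b3 : G1 * |L.s z - d.φ z| ≤ G1 * (|d.Y z - L.Y z| + τ) := by gcongr
    have b4 : τ * d.R 0 * K2 ≤ τ * RA * K2 := by gcongr
    linarith
  have hbI : IntervalIntegrable (fun z => τ * (1 + G1 + RA * K2 + k.C)
      + (G1 + RA) * |d.Y z - L.Y z| + |d.e k.cβ z|) volume p q :=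
    (intervalIntegrable_const.add (hdY.const_mul _)).add hei
  have hmain := intervalIntegral.norm_integral_le_of_norm_le hpq
    (Eventually.of_forall hpt) hbI
  have r1 : ∫ z in p..q, (τ * (1 + G1 + RA * K2 + k.C) + (G1 + RA) * |d.Y z - L.Y z| + |d.e k.cβ z|)
      = (q - p) * (τ * (1 + G1 + RA * K2 + k.C)) + (G1 + RA) * (∫ z in p..q, |d.Y z - L.Y z|)
        + ∫ z in p..q, |d.e k.cβ z| := by
    rw [intervalIntegral.integral_add (intervalIntegrable_const.add (hdY.const_mul _)) hei,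
      intervalIntegral.integral_add intervalIntegrable_const (hdY.const_mul _),
      intervalIntegral.integral_const, smul_eq_mul]
    congr 2
    exact intervalIntegral.integral_const_mul _ _
  rw [r1, Real.norm_eq_abs] at hmain
  have c1 : (G1 + RA) * (∫ z in p..q, |d.Y z - L.Y z|) ≤ (G1 + RA) * τ := by gcongr
  have c2 : τ * (q - p + d.θ) * min 1 (d.R 0) ≤ τ * (ℓ + 1) := by
    rw [hθ]
    have : min 1 (d.R 0) ≤ 1 := min_le_left _ _
    have h0 : 0 ≤ τ * (q - p + 1) := by positivity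
    nlinarith
  have c3 : (q - p) * (τ * (1 + G1 + RA * K2 + k.C)) + (G1 + RA) * τ + τ * (ℓ + 1) = τ * T := by
    rw [hT]; ring
  linarith

/-- the RELATIVE error.  If `p < z₀`, `s z₀ = p`: then `s z = p` on `(p, z₀]` (`rgB_supp`, `s` monotone); integrate (C20)/R(0) over `[(p+z₀)/2, z₀]`:
`∫ g_d(φ_d)/R_d(0) → ∫ Y < 0`, while `g_d(φ_d z) ≥ g_d(φ_d z_d^a) ≥ -o(R_d(0))` (`g1_d > 0` near `p`, `φ_d` monotone, `φ_d z ≤ φ_d z₀ → p`, `z_d^a` = approximant of `rgB_apx`).
(The mirror image is not needed by 39's `RigLim`.) -/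
theorem rgB_rel {k : RigC} {RA : ℝ} (L : RigBL k RA) (hR : L.Rinf = 0) {p : ℝ} (hp : L.Supp p) (hg : 0 < L.g1 p)
    {z₀ : ℝ} (hz : p < z₀) : L.s z₀ ≠ p := by
  intro hs
  have hC := k.hC
  have hcβ := k.hcβ
  have hA := k.hA
  set ℓ : ℝ := (z₀ - p) / 2 with hℓ
  have hℓ0 : 0 < ℓ := by rw [hℓ]; linarith
  have hz₀ : z₀ = p + 2 * ℓ := by rw [hℓ]; ring
  set G : ℝ := L.g1 p with hG
  have hM0 : 0 < rgM k.C k.A := by unfold rgM; positivity
  set r : ℝ := min (G / (4 * rgM k.C k.A)) 1 with hr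
  have hr0 : 0 < r := lt_min (by positivity) one_pos
  have hrM : rgM k.C k.A * r ≤ G / 4 := by
    have : r ≤ G / (4 * rgM k.C k.A) := min_le_left _ _
    rw [le_div_iff₀ (by positivity)] at this
    linarith
  have hr1 : r ≤ 1 := min_le_right _ _
  set K₁ : ℝ := ℓ / 2 + k.C * (1 + 1 / k.cβ) + 3 + k.C / k.cβ with hK₁
  have hK₁0 : 0 < K₁ := by positivity
  set η : ℝ := min (ℓ / 2) (r / 2) with hη
  have hη0 : 0 < η := lt_min (by positivity) (by positivity)
  have hη1 : η ≤ ℓ / 2 := min_le_left _ _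
  have hη2 : η ≤ r / 2 := min_le_right _ _
  set ε' : ℝ := min (ℓ / 16) (r / 2) with hε'
  have hε0 : 0 < ε' := lt_min (by positivity) (by positivity)
  set δ : ℝ := min (min 1 (r / 4)) (min (ℓ / (16 * K₁)) (ℓ ^ 2 / (8 * (ℓ + 1)))) with hδd
  have hδ0 : 0 < δ :=
    lt_min (lt_min one_pos (by positivity)) (lt_min (by positivity) (by positivity))
  have hδ3 : δ * K₁ ≤ ℓ / 16 := by
    have : δ ≤ ℓ / (16 * K₁) := (min_le_right _ _).trans (min_le_left _ _)
    rw [le_div_iff₀ (by positivity)] at this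
    linarith
  have hδ4 : δ * (ℓ + 1) ≤ ℓ ^ 2 / 8 := by
    have : δ ≤ ℓ ^ 2 / (8 * (ℓ + 1)) := (min_le_right _ _).trans (min_le_right _ _)
    rw [le_div_iff₀ (by positivity)] at this
    linarith
  have hW : 0 < |p| + 2 * ℓ + 3 := by positivity
  have t1 : ∀ᶠ d in (L.U : Filter RigD), d.Y z₀ < L.Y z₀ + η :=
    (L.hY z₀).eventually (gt_mem_nhds (by linarith))
  have t2 : ∀ᶠ d in (L.U : Filter RigD), G / 2 < d.g1 p :=
    (L.hg1 p).eventually (lt_mem_nhds (by linarith))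
  have hfalse : ∀ᶠ _d in (L.U : Filter RigD), False := by
    filter_upwards [L.ev hδ0 hW, t1, t2, rgB_apx L hp hε0] with d hd h1 h2 h3
    obtain ⟨hok, hθ, -⟩ := hd
    obtain ⟨a, ha, haF, hae⟩ := h3
    have hpa := abs_le.1 (le_refl |p|)
    have hsY : z₀ + L.Y z₀ = p := hs
    rw [hz₀] at h1 hsY
    exact rgB_rel_fix hok hC hcβ hA hθ hℓ0 hr0 hrM hδ0 ((min_le_left _ _).trans (min_le_left _ _))
      ((min_le_left _ _).trans (min_le_right _ _)) hδ3 hδ4 hε0 (min_le_left _ _) (min_le_right _ _)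
      (fun x hx1 hx2 => ⟨by linarith, by linarith⟩) (by linarith) (by linarith) (by linarith) h2
      ha haF hae
  obtain ⟨_, hf⟩ := hfalse.exists
  exact hf

/-! ## 4. Glue -/

/-- the limit objects solve the limit problem -/
def rgB_lim {k : RigC} {RA : ℝ} (L : RigBL k RA) : RigLim k.C k.cβ k.A where
  m := L.m
  s := L.s
  g := L.g
  g1 := L.g1
  J := L.H
  Rinf := L.Rinf
  m_bd := (rgB_mono L).1
  m_zero := (rgB_mono L).2.1
  a_mono := (rgB_mono L).2.2.1
  s_mono := (rgB_mono L).2.2.2.1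
  g_der := (rgB_g L).1
  g1_eq := (rgB_g L).2
  J_nonneg := (rgB_pot L).1
  J_eq := (rgB_pot L).2
  R_nonneg := (rgB_mono L).2.2.2.2
  supp_g := fun _ h => (rgB_supp L h).1
  supp_J := fun _ h => (rgB_supp L h).2.1
  supp_sr := fun _ h => (rgB_supp L h).2.2
  closure := rgB_c20 L
  rel_r := fun hR z₀ h hg c d hc hcd hs => absurd hs (rgB_rel L hR h hg (hc.trans hcd))

/-- **regime B** -/
theorem bud_rigB : BudRigB := by
  refine bud_rigB_of_ev fun k RA hRA => ?_
  by_contra hne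
  have hne' : (k.FB RA).NeBot := by
    rw [Filter.neBot_iff]
    intro hbot
    exact hne (by rw [hbot]; exact Filter.eventually_bot)
  obtain ⟨L⟩ := rgB_exist k hRA hne'
  exact bud_rg_lim_false k.hcβ k.hA (rgB_lim L)

end Claimed.Agent.R286
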