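import Claimed.Agent.R286.Bud.RigA2b
import Claimed.Agent.R286.Bud.RigBCut

/-!
# Row 286, node N18 (RIG), regime A, unit A2c: lower bound at 0, the two contradictions, `bud_rigA`      ARCHITECT helper184
PROVER: helper96 (rgA_low, rgA_one), helper39 (rgA_lt): DONE, 0 holes in this file
-/

set_option autoImplicit false

namespace Claimed.Agent.R286

open MeasureTheory Set

variable {d : RigD} {C cβ A cD δ W : ℝ}

theorem rgA_C_ge (h : d.Ok C cβ A cD δ W) (hW : 0 ≤ W) : 1 ≤ C := by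
  have := h.m_bd 0 ⟨by linarith, hW⟩
  rwa [h.m_zero] at this

/-- `θ (m z₂ - m z₁) ≥ -(cβ + δ)(z₂ - z₁)` -/
theorem rgA_m_lower (h : d.Ok C cβ A cD δ W) {z₁ z₂ : ℝ} (h₁ : z₁ ∈ Icc (-W) W) (h₂ : z₂ ∈ Icc (-W) W) (h12 : z₁ ≤ z₂) :
    -((cβ + δ) * (z₂ - z₁)) ≤ d.θ * (d.m z₂ - d.m z₁) := by
  rw [h.m_eq z₁ h₁ z₂ h₂]
  have hW : -W ≤ W := h₁.1.trans h₁.2
  have hsub : uIcc z₁ z₂ ⊆ uIcc (-W) W := by
    rw [uIcc_of_le h12, uIcc_of_le hW]; exact Icc_subset_Icc h₁.1 h₂.2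
  have hint : IntervalIntegrable (fun z => d.ρ z - d.β z) volume z₁ z₂ :=
    (h.ρ_int.sub h.β_int).mono_set hsub
  have h1 : ∫ _z in z₁..z₂, (-(cβ + δ)) ≤ ∫ z in z₁..z₂, (d.ρ z - d.β z) := by
    apply intervalIntegral.integral_mono_on h12 intervalIntegrable_const hint
    intro z hz
    have hzW : z ∈ Icc (-W) W := ⟨h₁.1.trans hz.1, hz.2.trans h₂.2⟩
    have a1 := h.ρ_nonneg z hzW
    have a2 := (abs_le.mp (h.β_near z hzW)).2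
    linarith
  rw [intervalIntegral.integral_const, smul_eq_mul] at h1
  linarith

/-- (16) -/
theorem rgA_low (h : d.Ok C cβ A cD δ W) (hcβ : 0 < cβ) (hδ0 : 0 < δ) (hδ : δ ≤ 1) (hW : 1 ≤ W) :
    (∀ z ∈ Icc 0 (d.θ / (2 * (cβ + 1))), 1 / 2 ≤ d.m z) ∨ (∀ z ∈ Icc (-(d.θ / (2 * (cβ + 1)))) 0, d.m z ≤ -(1 / 2)) := by
  have hθ := h.θ_pos
  have hθ1 := h.θ_le
  have hη : d.θ / (2 * (cβ + 1)) ≤ 1 := by
    rw [div_le_one (by positivity)]; linarith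
  have h0 : (0:ℝ) ∈ Icc (-W) W := ⟨by linarith, by linarith⟩
  have hkey : ∀ x : ℝ, 0 ≤ x → x ≤ d.θ / (2 * (cβ + 1)) → (cβ + δ) * x ≤ d.θ / 2 := by
    intro x hx0 hx
    rw [le_div_iff₀ (by positivity)] at hx
    nlinarith
  rcases abs_eq (zero_le_one' ℝ) |>.mp h.m_zero with hm | hm
  · left
    intro z hz
    have hzW : z ∈ Icc (-W) W := ⟨by linarith [hz.1], by linarith [hz.2]⟩
    have h1 := rgA_m_lower h h0 hzW hz.1
    have h2 := hkey z hz.1 hz.2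
    rw [hm, sub_zero] at h1
    nlinarith
  · right
    intro z hz
    have hzW : z ∈ Icc (-W) W := ⟨by linarith [hz.1], by linarith [hz.2]⟩
    have h1 := rgA_m_lower h hzW h0 hz.2
    have h2 := hkey (-z) (by linarith [hz.2]) (by linarith [hz.1])
    rw [hm, zero_sub] at h1
    nlinarith

/-- small energy ⟹ `g1` small, one unit away from the right end -/
theorem rgA_g1_small (h : d.Ok C cβ A cD δ W) (hC : 0 < C) (hA : 0 < A) (hδ : δ ≤ 1) {z₁ z₂ E ε' : ℝ} (h₁ : -W ≤ z₁) (h₂ : z₂ ≤ W)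
    (hε' : 0 < ε') (hε'M : ε' ≤ 2 * rgM C A) (hE : ∫ z in z₁..z₂, d.g1 z ^ 2 ≤ E) (hlt : E < ε' ^ 3 / (8 * rgM C A))
    {z : ℝ} (hz : z ∈ Icc z₁ (z₂ - 1)) : |d.g1 z| < ε' := by
  by_contra hcon
  rw [not_lt] at hcon
  have hM : 0 < rgM C A := by unfold rgM; positivity
  have hlen : ε' / (2 * rgM C A) ≤ 1 := by rw [div_le_one (by positivity)]; exact hε'M
  have hlen0 : 0 < ε' / (2 * rgM C A) := by positivity
  have hzW : z ∈ Icc (-W) W := ⟨h₁.trans hz.1, by linarith [hz.2]⟩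
  have hz'W : z + ε' / (2 * rgM C A) ∈ Icc (-W) W := ⟨by linarith [hzW.1], by linarith [hz.2]⟩
  have h12 : z₁ ≤ z₂ := by linarith [hz.1, hz.2]
  have hb := rg_sq_lb_right (f := d.g1) (z := z) hε' hM
    (fun x hx => by
      have hxW : x ∈ Icc (-W) W := ⟨hzW.1.trans hx.1, hx.2.trans hz'W.2⟩
      have := rgA_lip h hA hδ hxW hzW
      rwa [abs_of_nonneg (by linarith [hx.1] : 0 ≤ x - z)] at this) hcon
    (rgA_g1sq_int h hA hδ hzW hz'W)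
  have hmono : ∫ x in z..(z + ε' / (2 * rgM C A)), d.g1 x ^ 2 ≤ ∫ x in z₁..z₂, d.g1 x ^ 2 :=
    intervalIntegral.integral_mono_interval hz.1 (by linarith) (by linarith [hz.2])
      (Filter.Eventually.of_forall fun x => sq_nonneg _)
      (rgA_g1sq_int h hA hδ ⟨h₁, h12.trans h₂⟩ ⟨h₁.trans h12, h₂⟩)
  linarith

theorem rgA_m_int (h : d.Ok C cβ A cD δ W) {p q : ℝ} (hp : p ∈ Icc (-W) W) (hq : q ∈ Icc (-W) W) :
    IntervalIntegrable d.m volume p q :=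
  ((rgA_m_cont h).mono (uIcc_subset_Icc hp hq)).intervalIntegrable

theorem rgA_mt_int (h : d.Ok C cβ A cD δ W) {p q : ℝ} (hp : p ∈ Icc (-W) W) (hq : q ∈ Icc (-W) W) :
    IntervalIntegrable d.mt volume p q := by
  refine h.mt_int.mono_set ?_
  rw [uIcc_of_le (hp.1.trans hp.2)]
  exact uIcc_subset_Icc hp hq

/-- the energy controls `∫ g1²` -/
theorem rgA_energy_g1 (h : d.Ok C cβ A cD δ W) (hcβ : 0 < cβ) (hA : 0 < A) (hW : 0 ≤ W) {z₁ z₂ κ : ℝ} (h12 : z₁ ≤ z₂)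
    (hE : (∫ z in z₁..z₂, d.g1 z ^ 2) / A + d.D 0 / cβ * ∫ z in z₁..z₂, d.m z ^ 2 ≤ κ) :
    ∫ z in z₁..z₂, d.g1 z ^ 2 ≤ A * κ := by
  have hD : 0 ≤ d.D 0 := h.D_nonneg 0 ⟨by linarith, hW⟩
  have hm : 0 ≤ ∫ z in z₁..z₂, d.m z ^ 2 := intervalIntegral.integral_nonneg h12 fun z _ => sq_nonneg _
  have h1 : 0 ≤ d.D 0 / cβ * ∫ z in z₁..z₂, d.m z ^ 2 := mul_nonneg (div_nonneg hD hcβ.le) hm
  have h2 : (∫ z in z₁..z₂, d.g1 z ^ 2) / A ≤ κ := by linarith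
  rw [div_le_iff₀ hA] at h2
  linarith

/-- `g1` moves across an interval where `|m| ≥ 1/2` -/
theorem rgA_g1_move (h : d.Ok C cβ A cD δ W) (hC : 0 < C) (hcβ : 0 < cβ) (hA : 0 < A) (hδ0 : 0 < δ) (hδ : δ ≤ rgδ C cβ)
    {ε : ℝ} (hε0 : 0 < ε) (hε1 : ε ≤ 1)
    (Ysm : ∀ z ∈ Icc (-(W - (rgL C cβ + C + 7))) (W - (rgL C cβ + C + 7)), |d.Y z| ≤ ε)
    {p q : ℝ} (h₁ : -(W - rgaS C cβ) ≤ p) (hpq : p ≤ q) (h₂ : q ≤ W - rgaS C cβ)
    (hm : (∀ z ∈ Icc p q, 1 / 2 ≤ d.m z) ∨ (∀ z ∈ Icc p q, d.m z ≤ -(1 / 2))) :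
    A * ((q - p) / 2 - (ε + δ) * (4 * C * d.θ + 2 * (cβ + 1) * (q - p))) - δ * (q - p) ≤ |d.g1 q| + |d.g1 p| := by
  have hS : 0 < rgaS C cβ := by unfold rgaS rgL; positivity
  have hpW : p ∈ Icc (-W) W := ⟨by linarith, by linarith⟩
  have hqW : q ∈ Icc (-W) W := ⟨by linarith, by linarith⟩
  have im := rgA_m_int h hpW hqW
  have imt := rgA_mt_int h hpW hqW
  have h1 : (q - p) / 2 ≤ |∫ z in p..q, d.m z| := by
    rcases hm with hm | hm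
    · have : ∫ _z in p..q, (1 / 2 : ℝ) ≤ ∫ z in p..q, d.m z :=
        intervalIntegral.integral_mono_on hpq intervalIntegrable_const im hm
      rw [intervalIntegral.integral_const, smul_eq_mul] at this
      exact le_trans (by linarith) (le_abs_self _)
    · have : ∫ z in p..q, d.m z ≤ ∫ _z in p..q, (-(1 / 2) : ℝ) :=
        intervalIntegral.integral_mono_on hpq im intervalIntegrable_const hm
      rw [intervalIntegral.integral_const, smul_eq_mul] at this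
      exact le_trans (by linarith) (neg_le_abs _)
  have h2 := rgA_trI h hC hcβ hδ0 hδ hε0 hε1 Ysm h₁ hpq h₂
  have h3 : |(∫ z in p..q, d.mt z) - ∫ z in p..q, d.m z| ≤ ∫ z in p..q, |d.mt z - d.m z| := by
    rw [← intervalIntegral.integral_sub imt im]
    exact intervalIntegral.abs_integral_le_integral_abs hpq
  have h4 := h.g1_eq p hpW q hqW hpq
  have h5 : |∫ z in p..q, d.m z| ≤ |∫ z in p..q, d.mt z| + |(∫ z in p..q, d.mt z) - ∫ z in p..q, d.m z| := by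
    have := abs_sub_abs_le_abs_sub (∫ z in p..q, d.m z) (∫ z in p..q, d.mt z)
    rw [abs_sub_comm] at this
    linarith
  have h6 : A * |∫ z in p..q, d.mt z| ≤ |d.g1 q| + |d.g1 p| + δ * (q - p) := by
    have e : A * |∫ z in p..q, d.mt z| = |A * ∫ z in p..q, d.mt z| := by rw [abs_mul, abs_of_pos hA]
    rw [e]
    have e2 : A * ∫ z in p..q, d.mt z = (d.g1 q - d.g1 p + A * ∫ z in p..q, d.mt z) - d.g1 q + d.g1 p := by ring
    rw [e2]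
    have t1 := abs_add_le ((d.g1 q - d.g1 p + A * ∫ z in p..q, d.mt z) - d.g1 q) (d.g1 p)
    have t2 := abs_sub (d.g1 q - d.g1 p + A * ∫ z in p..q, d.mt z) (d.g1 q)
    linarith
  have h7 : (q - p) / 2 - (ε + δ) * (4 * C * d.θ + 2 * (cβ + 1) * (q - p)) ≤ |∫ z in p..q, d.mt z| := by linarith
  have := mul_le_mul_of_nonneg_left h7 hA.le
  linarith

/-- contradiction for `θ = 1`, fixed record -/
theorem rgA_one_fix (h : d.Ok C cβ A cD δ W) (hθ : d.θ = 1) (hC : 0 < C) (hcβ : 0 < cβ) (hA : 0 < A) (hδ0 : 0 < δ)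
    (hδ : δ ≤ rgδ C cβ) {ε κ η z₁ z₂ : ℝ} (hη : η = 1 / (2 * (cβ + 1))) (hδκ : δ ≤ κ) (hε0 : 0 < ε) (hε1 : ε ≤ 1) (hεκ : ε ≤ κ)
    (hW : rgaS C cβ + 2 * rgL C cβ + 8 ≤ W)
    (Ysm : ∀ z ∈ Icc (-(W - (rgL C cβ + C + 7))) (W - (rgL C cβ + C + 7)), |d.Y z| ≤ ε)
    (b1 : -(W - rgaS C cβ) ≤ z₁) (b2 : z₁ ≤ -(2 * rgL C cβ + 6)) (b3 : 2 * rgL C cβ + 6 ≤ z₂) (b4 : z₂ ≤ W - rgaS C cβ)
    (hE : (∫ z in z₁..z₂, d.g1 z ^ 2) / A + d.D 0 / cβ * ∫ z in z₁..z₂, d.m z ^ 2 ≤ κ)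
    (hk : κ * (2 * A * (4 * C + 1) + η) ≤ A * η / 4) (hlt : A * κ < (A * η / 8) ^ 3 / (8 * rgM C A)) : False := by
  have hη0 : 0 < η := by rw [hη]; positivity
  have hη1 : η ≤ 1 / 2 := by
    rw [hη, div_le_div_iff₀ (by positivity) (by norm_num)]; linarith
  have ha₀0 : 0 < A * η / 8 := by positivity
  have hM : 0 < rgM C A := by unfold rgM; positivity
  have hL : 0 < rgL C cβ := by unfold rgL; positivity
  have hS : 0 < rgaS C cβ := by unfold rgaS; positivity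
  have hW0 : 0 ≤ W := by linarith
  have hC1 : 1 ≤ C := rgA_C_ge h hW0
  have hδ1 : δ ≤ 1 := hδ.trans (rgδ_le_one C cβ)
  have h12 : z₁ ≤ z₂ := by linarith
  have hg := rgA_energy_g1 h hcβ hA hW0 h12 hE
  have hκ0 : 0 < κ := lt_of_lt_of_le hδ0 hδκ
  have ha₀M : A * η / 8 ≤ 2 * rgM C A := by
    have : A * η / 8 ≤ A := by nlinarith
    have h2 : A ≤ rgM C A := by unfold rgM; nlinarith
    linarith
  have hsmall : ∀ z ∈ Icc (-1 : ℝ) 1, |d.g1 z| < A * η / 8 := fun z hz =>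
    rgA_g1_small h hC hA hδ1 (by linarith) (by linarith) ha₀0 ha₀M hg hlt ⟨by linarith [hz.1], by linarith [hz.2]⟩
  have hlow := rgA_low h hcβ hδ0 hδ1 (by linarith)
  rw [hθ, ← hη] at hlow
  have hmove : ∃ p q : ℝ, p ∈ Icc (-1 : ℝ) 1 ∧ q ∈ Icc (-1 : ℝ) 1 ∧ q - p = η ∧
      A * ((q - p) / 2 - (ε + δ) * (4 * C * d.θ + 2 * (cβ + 1) * (q - p))) - δ * (q - p) ≤ |d.g1 q| + |d.g1 p| := by
    rcases hlow with hl | hl
    · refine ⟨0, η, ⟨by norm_num, by norm_num⟩, ⟨by linarith, by linarith⟩, by ring, ?_⟩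
      exact rgA_g1_move h hC hcβ hA hδ0 hδ hε0 hε1 Ysm (by linarith) hη0.le (by linarith) (Or.inl hl)
    · refine ⟨-η, 0, ⟨by linarith, by linarith⟩, ⟨by norm_num, by norm_num⟩, by ring, ?_⟩
      exact rgA_g1_move h hC hcβ hA hδ0 hδ hε0 hε1 Ysm (by linarith) (by linarith) (by linarith) (Or.inr hl)
  obtain ⟨p, q, hp, hq, hqp, hmv⟩ := hmove
  rw [hqp, hθ] at hmv
  have e1 : 2 * (cβ + 1) * η = 1 := by rw [hη]; field_simp
  rw [e1] at hmv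
  have s1 := hsmall p hp
  have s2 := hsmall q hq
  have t1 : A * ((ε + δ) * (4 * C * 1 + 1)) ≤ κ * (2 * A * (4 * C + 1)) := by
    have : (ε + δ) ≤ 2 * κ := by linarith
    have h41 : 0 ≤ A * (4 * C + 1) := by positivity
    nlinarith
  have t2 : δ * η ≤ κ * η := mul_le_mul_of_nonneg_right hδκ hη0.le
  nlinarith

/-- contradiction for `θ = 1` -/
theorem rgA_one (C cβ A cD : ℝ) (hC : 0 < C) (hcβ : 0 < cβ) (hA : 0 < A) (hcD : 0 < cD) :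
    ∃ κ₁ : ℝ, 0 < κ₁ ∧ ∀ (d : RigD) (δ W ε κ z₁ z₂ : ℝ), d.Ok C cβ A cD δ W → d.θ = 1 → κ ≤ κ₁ →
      0 < δ → δ ≤ rgδ C cβ → δ ≤ κ → 0 < ε → ε ≤ 1 → ε ≤ κ → rgE1 C cβ A ε δ ≤ κ → rgaS C cβ + 2 * rgL C cβ + 8 ≤ W →
      (∀ z ∈ Icc (-(W - (rgL C cβ + C + 7))) (W - (rgL C cβ + C + 7)), |d.Y z| ≤ ε) →
      -(W - rgaS C cβ) ≤ z₁ → z₁ ≤ -(2 * rgL C cβ + 6) → 2 * rgL C cβ + 6 ≤ z₂ → z₂ ≤ W - rgaS C cβ → z₁ ∉ d.F → z₂ ∉ d.F →
      (∫ z in z₁..z₂, d.g1 z ^ 2) / A + d.D 0 / cβ * ∫ z in z₁..z₂, d.m z ^ 2 ≤ κ → False := by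
  obtain ⟨η, hη⟩ : ∃ η : ℝ, η = 1 / (2 * (cβ + 1)) := ⟨_, rfl⟩
  have hη0 : 0 < η := by rw [hη]; positivity
  have hM : 0 < rgM C A := by unfold rgM; positivity
  obtain ⟨k1, hk1⟩ : ∃ k1 : ℝ, k1 = A * η / (4 * (2 * A * (4 * C + 1) + η)) := ⟨_, rfl⟩
  obtain ⟨k2, hk2⟩ : ∃ k2 : ℝ, k2 = (A * η / 8) ^ 3 / (16 * rgM C A * A) := ⟨_, rfl⟩
  have hk10 : 0 < k1 := by rw [hk1]; positivity
  have hk20 : 0 < k2 := by rw [hk2]; positivity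
  refine ⟨min k1 k2, lt_min hk10 hk20, ?_⟩
  intro d δ W ε κ z₁ z₂ h hθ hκ hδ0 hδ hδκ hε0 hε1 hεκ _ hW Ysm b1 b2 b3 b4 _ _ hE
  have hκ1 : κ ≤ k1 := hκ.trans (min_le_left _ _)
  have hκ2 : κ ≤ k2 := hκ.trans (min_le_right _ _)
  refine rgA_one_fix h hθ hC hcβ hA hδ0 hδ hη hδκ hε0 hε1 hεκ hW Ysm b1 b2 b3 b4 hE ?_ ?_
  · have : k1 * (2 * A * (4 * C + 1) + η) = A * η / 4 := by rw [hk1]; field_simp
    calc κ * (2 * A * (4 * C + 1) + η) ≤ k1 * (2 * A * (4 * C + 1) + η) :=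
          mul_le_mul_of_nonneg_right hκ1 (by positivity)
      _ = A * η / 4 := this
  · have e1 : A * k2 = (A * η / 8) ^ 3 / (16 * rgM C A) := by rw [hk2]; field_simp
    have e2 : (A * η / 8) ^ 3 / (16 * rgM C A) < (A * η / 8) ^ 3 / (8 * rgM C A) := by
      apply div_lt_div_of_pos_left (by positivity) (by positivity); linarith
    have e3 : A * κ ≤ A * k2 := mul_le_mul_of_nonneg_left hκ2 hA.le
    linarith

/-- at a nonfloor point `R(0) H ∈ [-δθ, 0]` -/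
theorem rgA_RH (h : d.Ok C cβ A cD δ W) {z : ℝ} (hz : z ∈ Icc (-W) W) (hF : z ∉ d.F) :
    -(δ * d.θ) ≤ d.R 0 * d.H z ∧ d.R 0 * d.H z ≤ 0 := by
  have h1 := h.H_lb z hz
  have h2 := h.H_off z hz hF
  have h3 := h.R_pos
  constructor
  · have : max 1 (d.R 0) * d.H z ≤ d.R 0 * d.H z := by
      have h4 : d.R 0 ≤ max 1 (d.R 0) := le_max_right _ _
      nlinarith
    linarith
  · nlinarith

/-- `|∫ err| ≤ E1 Δ + 2 δ (Δ + θ)` -/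
theorem rgA_err_int (h : d.Ok C cβ A cD δ W) (hC : 0 < C) (hcβ : 0 < cβ) (hA : 0 < A) (hδ0 : 0 < δ) (hδ : δ ≤ rgδ C cβ)
    {ε : ℝ} (hε0 : 0 < ε) (hε1 : ε ≤ 1)
    (Ysm : ∀ z ∈ Icc (-(W - (rgL C cβ + C + 7))) (W - (rgL C cβ + C + 7)), |d.Y z| ≤ ε)
    {za zb : ℝ} (h₁ : -(W - rgaS C cβ) ≤ za) (hab : za ≤ zb) (h₂ : zb ≤ W - rgaS C cβ)
    (herri : IntervalIntegrable (d.err cβ) volume za zb) :
    |∫ y in za..zb, d.err cβ y| ≤ rgE1 C cβ A ε δ * (zb - za) + 2 * (δ * (zb - za + d.θ)) := by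
  obtain ⟨hL, hδ8, hδc⟩ := rgA_consts hC hcβ hδ
  have hS : rgaS C cβ = 2 * rgL C cβ + 2 * C + 12 := rfl
  have hθ1 := h.θ_le
  have hsub : uIcc za zb ⊆ uIcc (-W) W := by
    rw [uIcc_of_le hab, uIcc_of_le (by linarith)]; exact Icc_subset_Icc (by linarith) (by linarith)
  have hei : IntervalIntegrable (d.e cβ) volume za zb := h.e_int.mono_set hsub
  refine (intervalIntegral.abs_integral_le_integral_abs hab).trans ?_
  have e1 : ∫ y in za..zb, |d.err cβ y| ≤ ∫ y in za..zb, (rgE1 C cβ A ε δ + 2 * |d.e cβ y|) := by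
    refine intervalIntegral.integral_mono_on hab herri.abs
      ((by simp : IntervalIntegrable (fun _ => rgE1 C cβ A ε δ) volume za zb).add (hei.abs.const_mul 2)) fun y hy => ?_
    exact rgA_err h hC hcβ hA hδ0 hδ hε0 hε1 Ysm ⟨by linarith [hy.1], by linarith [hy.2]⟩
  rw [intervalIntegral.integral_add (by simp) (hei.abs.const_mul 2), intervalIntegral.integral_const,
    intervalIntegral.integral_const_mul, smul_eq_mul] at e1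
  have e2 := rgA_ebox1 h hδ0 (z₁ := za) (z₂ := zb) (by linarith) hab (by linarith)
  linarith

/-- `|∫ m| ≤ (|Δ g1| + δ Δ)/A + ∫ |mt - m|` -/
theorem rgA_mI (h : d.Ok C cβ A cD δ W) (hA : 0 < A) {za zb : ℝ} (hzaW : za ∈ Icc (-W) W) (hzbW : zb ∈ Icc (-W) W)
    (hab : za ≤ zb) :
    |∫ y in za..zb, d.m y| ≤ (|d.g1 zb| + |d.g1 za| + δ * (zb - za)) / A + ∫ y in za..zb, |d.mt y - d.m y| := by
  have hsubI : Icc za zb ⊆ Icc (-W) W := Icc_subset_Icc hzaW.1 hzbW.2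
  have hsub : uIcc za zb ⊆ uIcc (-W) W := by
    rw [uIcc_of_le hab, uIcc_of_le (by linarith [hzaW.1, hzaW.2])]; exact hsubI
  have hmi : IntervalIntegrable d.m volume za zb :=
    ((rgA_m_cont h).mono (by rw [uIcc_of_le hab]; exact hsubI)).intervalIntegrable
  have hmti : IntervalIntegrable d.mt volume za zb := h.mt_int.mono_set hsub
  have hmt : |∫ y in za..zb, d.mt y| ≤ (|d.g1 zb| + |d.g1 za| + δ * (zb - za)) / A := by
    rw [le_div_iff₀ hA, mul_comm]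
    have e1 := h.g1_eq za hzaW zb hzbW hab
    have e4 : |A * ∫ y in za..zb, d.mt y| ≤ |d.g1 zb - d.g1 za + A * ∫ y in za..zb, d.mt y| + |d.g1 zb - d.g1 za| := by
      have := abs_sub (d.g1 zb - d.g1 za + A * ∫ y in za..zb, d.mt y) (d.g1 zb - d.g1 za)
      simpa using this
    have e5 : |d.g1 zb - d.g1 za| ≤ |d.g1 zb| + |d.g1 za| := abs_sub _ _
    rw [abs_mul, abs_of_pos hA] at e4
    linarith
  have e1 : |(∫ y in za..zb, d.mt y) - ∫ y in za..zb, d.m y| ≤ ∫ y in za..zb, |d.mt y - d.m y| := by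
    rw [← intervalIntegral.integral_sub hmti hmi]
    exact intervalIntegral.abs_integral_le_integral_abs hab
  have e2 : |∫ y in za..zb, d.m y| ≤ |∫ y in za..zb, d.mt y| + |(∫ y in za..zb, d.mt y) - ∫ y in za..zb, d.m y| := by
    have := abs_sub (∫ y in za..zb, d.mt y) ((∫ y in za..zb, d.mt y) - ∫ y in za..zb, d.m y)
    simpa using this
  linarith

/-- `∫ g = ∫ err + R(0) ∫ Y - ℓ₁ ∫ m`, `R(0) |∫ Y| ≤ δ θ` between nonfloor points -/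
theorem rgA_g_int (h : d.Ok C cβ A cD δ W) {za zb : ℝ} (hzaW : za ∈ Icc (-W) W) (hzbW : zb ∈ Icc (-W) W)
    (hab : za ≤ zb) (hzaF : za ∉ d.F) (hzbF : zb ∉ d.F) :
    IntervalIntegrable (d.err cβ) volume za zb ∧ IntervalIntegrable d.g volume za zb ∧
    |∫ y in za..zb, d.g y| ≤ |∫ y in za..zb, d.err cβ y| + δ * d.θ + |d.D 0 / cβ| * |∫ y in za..zb, d.m y| := by
  have hθ := h.θ_pos
  have hsubI : Icc za zb ⊆ Icc (-W) W := Icc_subset_Icc hzaW.1 hzbW.2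
  have hYi : IntervalIntegrable d.Y volume za zb := rg_trend_int hθ hab (h.Y_mono.mono hsubI)
  have hmi : IntervalIntegrable d.m volume za zb :=
    ((rgA_m_cont h).mono (by rw [uIcc_of_le hab]; exact hsubI)).intervalIntegrable
  have hgc : ContinuousOn d.g (Icc za zb) := fun y hy => (h.g_der y (hsubI hy)).continuousAt.continuousWithinAt
  have hgi : IntervalIntegrable d.g volume za zb := by
    refine ContinuousOn.intervalIntegrable ?_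
    rwa [uIcc_of_le hab]
  have i1 : IntervalIntegrable (fun y => -(d.R 0 * d.Y y)) volume za zb := (hYi.const_mul (d.R 0)).neg
  have i2 : IntervalIntegrable (fun y => -(d.R 0 * d.Y y) + d.g y) volume za zb := i1.add hgi
  have i3 : IntervalIntegrable (fun y => d.D 0 / cβ * d.m y) volume za zb := hmi.const_mul _
  have herri : IntervalIntegrable (d.err cβ) volume za zb := i2.add i3
  refine ⟨herri, hgi, ?_⟩
  have hRa := rgA_RH h hzaW hzaF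
  have hRb := rgA_RH h hzbW hzbF
  have hHeq := h.H_eq za hzaW zb hzbW
  have hRY : |d.R 0 * ∫ y in za..zb, d.Y y| ≤ δ * d.θ := by
    have : d.R 0 * ∫ y in za..zb, d.Y y = d.R 0 * d.H za - d.R 0 * d.H zb := by
      have : ∫ y in za..zb, d.Y y = d.H za - d.H zb := by linarith
      rw [this]; ring
    rw [this, abs_le]
    constructor <;> linarith [hRa.1, hRa.2, hRb.1, hRb.2]
  have hsplit : ∫ y in za..zb, d.err cβ y
      = -(d.R 0 * ∫ y in za..zb, d.Y y) + (∫ y in za..zb, d.g y) + d.D 0 / cβ * ∫ y in za..zb, d.m y := by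
    have e0 : ∫ y in za..zb, d.err cβ y = ∫ y in za..zb, ((-(d.R 0 * d.Y y) + d.g y) + d.D 0 / cβ * d.m y) := rfl
    rw [e0, intervalIntegral.integral_add i2 i3, intervalIntegral.integral_add i1 hgi, intervalIntegral.integral_neg,
      intervalIntegral.integral_const_mul, intervalIntegral.integral_const_mul]
  have e1 : ∫ y in za..zb, d.g y = (∫ y in za..zb, d.err cβ y) + d.R 0 * (∫ y in za..zb, d.Y y)
      - d.D 0 / cβ * ∫ y in za..zb, d.m y := by rw [hsplit]; ring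
  rw [e1, ← abs_mul]
  have a1 := abs_sub ((∫ y in za..zb, d.err cβ y) + d.R 0 * (∫ y in za..zb, d.Y y)) (d.D 0 / cβ * ∫ y in za..zb, d.m y)
  have a2 := abs_add_le (∫ y in za..zb, d.err cβ y) (d.R 0 * (∫ y in za..zb, d.Y y))
  linarith

/-- a function with small derivative is close to its mean -/
theorem rgA_mean {g g1 : ℝ → ℝ} {za zb z ε' : ℝ} (hab : za < zb) (hg : ∀ y ∈ Icc za zb, HasDerivAt g (g1 y) y)
    (hg1 : ∀ y ∈ Icc za zb, |g1 y| ≤ ε') (hgi : IntervalIntegrable g volume za zb) (hz : z ∈ Icc za zb) :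
    (zb - za) * |g z| ≤ |∫ y in za..zb, g y| + (zb - za) * (ε' * (zb - za)) := by
  have hε'0 : 0 ≤ ε' := (abs_nonneg _).trans (hg1 z hz)
  have hlip : ∀ y ∈ Icc za zb, |g z - g y| ≤ ε' * (zb - za) := by
    intro y hy
    have := (convex_Icc za zb).norm_image_sub_le_of_norm_hasDerivWithin_le (f := g) (f' := g1)
      (C := ε') (fun w hw => (hg w hw).hasDerivWithinAt)
      (fun w hw => by simpa using hg1 w hw) hy hz
    simp only [Real.norm_eq_abs] at this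
    have e : |z - y| ≤ zb - za := by
      rw [abs_le]; constructor <;> linarith [hy.1, hy.2, hz.1, hz.2]
    calc |g z - g y| ≤ ε' * |z - y| := this
      _ ≤ ε' * (zb - za) := by gcongr
  have hav : |(zb - za) * g z - ∫ y in za..zb, g y| ≤ (zb - za) * (ε' * (zb - za)) := by
    have e1 : (zb - za) * g z - ∫ y in za..zb, g y = ∫ y in za..zb, (g z - g y) := by
      rw [intervalIntegral.integral_sub (by simp) hgi, intervalIntegral.integral_const, smul_eq_mul]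
    rw [e1]
    refine (intervalIntegral.abs_integral_le_integral_abs hab.le).trans ?_
    have e2 : ∫ y in za..zb, |g z - g y| ≤ ∫ _y in za..zb, (ε' * (zb - za)) := by
      refine intervalIntegral.integral_mono_on hab.le
        (((by simp : IntervalIntegrable (fun _ => g z) volume za zb).sub hgi).abs) (by simp) hlip
    rw [intervalIntegral.integral_const, smul_eq_mul] at e2
    exact e2
  have e1 : (zb - za) * |g z| = |(zb - za) * g z| := by rw [abs_mul, abs_of_pos (by linarith : 0 < zb - za)]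
  have e2 : |(zb - za) * g z| ≤ |(zb - za) * g z - ∫ y in za..zb, g y| + |∫ y in za..zb, g y| := by
    have := abs_add_le ((zb - za) * g z - ∫ y in za..zb, g y) (∫ y in za..zb, g y)
    simpa using this
  linarith

/-- `0 ≤ rgE1` -/
theorem rgE1_nonneg {C cβ A ε δ : ℝ} (hC : 0 < C) (hcβ : 0 < cβ) (hA : 0 < A) (hε0 : 0 < ε) (hδ0 : 0 < δ) :
    0 ≤ rgE1 C cβ A ε δ := by
  have h1 := rgaG1_pos hC hcβ hA
  have h2 := rgaG_pos hC hcβ hA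
  unfold rgE1
  positivity

/-- `|g| ≤ B` between two nonfloor points at distance in `[1, Λ]` when `|g1| ≤ ε'` there -/
theorem rgA_g_bd (h : d.Ok C cβ A cD δ W) (hC : 0 < C) (hcβ : 0 < cβ) (hA : 0 < A) (hδ0 : 0 < δ) (hδ : δ ≤ rgδ C cβ)
    {ε : ℝ} (hε0 : 0 < ε) (hε1 : ε ≤ 1)
    (Ysm : ∀ z ∈ Icc (-(W - (rgL C cβ + C + 7))) (W - (rgL C cβ + C + 7)), |d.Y z| ≤ ε)
    {za zb ε' Λ : ℝ} (h₁ : -(W - rgaS C cβ) ≤ za) (hab : za + 1 ≤ zb) (hΛ : zb - za ≤ Λ) (h₂ : zb ≤ W - rgaS C cβ)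
    (hzaF : za ∉ d.F) (hzbF : zb ∉ d.F) (hg1 : ∀ y ∈ Icc za zb, |d.g1 y| ≤ ε') {z : ℝ} (hz : z ∈ Icc za zb) :
    |d.g z| ≤ rgE1 C cβ A ε δ * Λ + 2 * (δ * (Λ + 1)) + δ
      + C / cβ * ((2 * ε' + δ * Λ) / A + (ε + δ) * (4 * C + 2 * (cβ + 1) * Λ)) + ε' * Λ := by
  obtain ⟨hL, hδ8, hδc⟩ := rgA_consts hC hcβ hδ
  have hS : rgaS C cβ = 2 * rgL C cβ + 2 * C + 12 := rfl
  have hθ := h.θ_pos
  have hθ1 := h.θ_le
  have hab' : za ≤ zb := by linarith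
  have hzaW : za ∈ Icc (-W) W := ⟨by linarith, by linarith⟩
  have hzbW : zb ∈ Icc (-W) W := ⟨by linarith, by linarith⟩
  have h0W : (0:ℝ) ∈ Icc (-W) W := ⟨by linarith, by linarith⟩
  have hE0 := rgE1_nonneg (C := C) (cβ := cβ) (A := A) hC hcβ hA hε0 hδ0
  have hε'0 : 0 ≤ ε' := (abs_nonneg _).trans (hg1 z hz)
  obtain ⟨herri, hgi, hgI⟩ := rgA_g_int h hzaW hzbW hab' hzaF hzbF
  have herr := rgA_err_int h hC hcβ hA hδ0 hδ hε0 hε1 Ysm h₁ hab' h₂ herri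
  have hmI := rgA_mI h hA hzaW hzbW hab'
  have htr := rgA_trI h hC hcβ hδ0 hδ hε0 hε1 Ysm h₁ hab' h₂
  have hmean := rgA_mean (g := d.g) (g1 := d.g1) (by linarith : za < zb)
    (fun y hy => h.g_der y ⟨hzaW.1.trans hy.1, hy.2.trans hzbW.2⟩) hg1 hgi hz
  -- the four pieces
  have b1 : |∫ y in za..zb, d.err cβ y| ≤ rgE1 C cβ A ε δ * Λ + 2 * (δ * (Λ + 1)) := by
    have e1 : rgE1 C cβ A ε δ * (zb - za) ≤ rgE1 C cβ A ε δ * Λ := by gcongr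
    have e2 : δ * (zb - za + d.θ) ≤ δ * (Λ + 1) := by gcongr
    linarith
  have b2 : δ * d.θ ≤ δ := by nlinarith
  have b3 : |d.D 0 / cβ| ≤ C / cβ := by
    rw [abs_of_nonneg (div_nonneg (h.D_nonneg 0 h0W) hcβ.le)]
    have := h.D_le 0 h0W
    gcongr
  have b4 : |∫ y in za..zb, d.m y| ≤ (2 * ε' + δ * Λ) / A + (ε + δ) * (4 * C + 2 * (cβ + 1) * Λ) := by
    have e1 : (|d.g1 zb| + |d.g1 za| + δ * (zb - za)) / A ≤ (2 * ε' + δ * Λ) / A := by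
      have a1 := hg1 zb ⟨hab', le_rfl⟩
      have a2 := hg1 za ⟨le_rfl, hab'⟩
      have a3 : δ * (zb - za) ≤ δ * Λ := by gcongr
      gcongr
      linarith
    have e2 : (ε + δ) * (4 * C * d.θ + 2 * (cβ + 1) * (zb - za)) ≤ (ε + δ) * (4 * C + 2 * (cβ + 1) * Λ) := by
      have a1 : 4 * C * d.θ ≤ 4 * C := by nlinarith
      have a2 : 2 * (cβ + 1) * (zb - za) ≤ 2 * (cβ + 1) * Λ := by gcongr
      gcongr
    linarith
  have b5 : |d.D 0 / cβ| * |∫ y in za..zb, d.m y|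
      ≤ C / cβ * ((2 * ε' + δ * Λ) / A + (ε + δ) * (4 * C + 2 * (cβ + 1) * Λ)) := by
    gcongr
  have b6 : |∫ y in za..zb, d.g y| ≤ rgE1 C cβ A ε δ * Λ + 2 * (δ * (Λ + 1)) + δ
      + C / cβ * ((2 * ε' + δ * Λ) / A + (ε + δ) * (4 * C + 2 * (cβ + 1) * Λ)) := by linarith
  -- divide by the length
  have hlen : 1 ≤ zb - za := by linarith
  have b7 : |d.g z| ≤ |∫ y in za..zb, d.g y| + ε' * (zb - za) := by
    have e0 : 0 ≤ |∫ y in za..zb, d.g y| := abs_nonneg _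
    have e1 : (zb - za) * |d.g z| ≤ (zb - za) * (|∫ y in za..zb, d.g y| + ε' * (zb - za)) := by
      have : |∫ y in za..zb, d.g y| ≤ (zb - za) * |∫ y in za..zb, d.g y| := by nlinarith
      linarith
    exact le_of_mul_le_mul_left e1 (by linarith)
  have b8 : ε' * (zb - za) ≤ ε' * Λ := by gcongr
  linarith

/-- `∫ m² ≥ η₀/4` across `[t₁, t₂] ⊇ [-η₀, η₀]`, `η₀ = θ/(2(cβ+1))` -/
theorem rgA_msq_lb (h : d.Ok C cβ A cD δ W) (hcβ : 0 < cβ) (hδ0 : 0 < δ) (hδ : δ ≤ 1) (hW : 1 ≤ W) {t₁ t₂ : ℝ}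
    (h₁ : -W ≤ t₁) (h₂ : t₂ ≤ W) (ht₁ : t₁ ≤ -(d.θ / (2 * (cβ + 1)))) (ht₂ : d.θ / (2 * (cβ + 1)) ≤ t₂) :
    d.θ / (2 * (cβ + 1)) / 4 ≤ ∫ z in t₁..t₂, d.m z ^ 2 := by
  have hθ := h.θ_pos
  have hη0 : 0 < d.θ / (2 * (cβ + 1)) := by positivity
  have hsq : ∀ {p q : ℝ}, -W ≤ p → p ≤ q → q ≤ W → IntervalIntegrable (fun z => d.m z ^ 2) volume p q := by
    intro p q hp hpq hq
    refine ContinuousOn.intervalIntegrable ?_
    rw [uIcc_of_le hpq]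
    exact ((rgA_m_cont h).pow 2).mono (Icc_subset_Icc hp hq)
  have hbig := hsq h₁ (by linarith : t₁ ≤ t₂) h₂
  have hnn : 0 ≤ᵐ[volume.restrict (Ioc t₁ t₂)] fun z => d.m z ^ 2 :=
    Filter.Eventually.of_forall fun z => sq_nonneg _
  rcases rgA_low h hcβ hδ0 hδ hW with hl | hl
  · have e1 : ∫ _z in (0:ℝ)..(d.θ / (2 * (cβ + 1))), (1 / 4 : ℝ) ≤ ∫ z in (0:ℝ)..(d.θ / (2 * (cβ + 1))), d.m z ^ 2 := by
      refine intervalIntegral.integral_mono_on hη0.le (by simp) (hsq (by linarith) hη0.le (by linarith)) fun z hz => ?_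
      have := hl z hz
      nlinarith
    rw [intervalIntegral.integral_const, smul_eq_mul] at e1
    have e2 := intervalIntegral.integral_mono_interval (by linarith : t₁ ≤ 0) hη0.le ht₂ hnn hbig
    linarith
  · have e1 : ∫ _z in (-(d.θ / (2 * (cβ + 1))))..(0:ℝ), (1 / 4 : ℝ) ≤ ∫ z in (-(d.θ / (2 * (cβ + 1))))..(0:ℝ), d.m z ^ 2 := by
      refine intervalIntegral.integral_mono_on (by linarith) (by simp) (hsq (by linarith) (by linarith) (by linarith))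
        fun z hz => ?_
      have := hl z hz
      nlinarith
    rw [intervalIntegral.integral_const, smul_eq_mul] at e1
    have e2 := intervalIntegral.integral_mono_interval ht₁ (by linarith : -(d.θ / (2 * (cβ + 1))) ≤ 0)
      (by linarith : (0:ℝ) ≤ t₂) hnn hbig
    linarith

/-- (12) with `|g| ≤ ε₂` and `ℓ₁ ≥ cD/cβ` -/
theorem rgA_lt_ineq (h : d.Ok C cβ A cD δ W) (hθ1 : d.θ < 1) (hC : 0 < C) (hcβ : 0 < cβ) (hA : 0 < A) (hδ0 : 0 < δ)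
    (hδ : δ ≤ rgδ C cβ) {ε : ℝ} (hε0 : 0 < ε) (hε1 : ε ≤ 1)
    (Ysm : ∀ z ∈ Icc (-(W - (rgL C cβ + C + 7))) (W - (rgL C cβ + C + 7)), |d.Y z| ≤ ε)
    {t₁ t₂ ε₂ : ℝ} (h₁ : -(W - rgaS C cβ) ≤ t₁) (h₂ : t₂ ≤ W - rgaS C cβ) (hF₁ : t₁ ∉ d.F) (hF₂ : t₂ ∉ d.F)
    (ht₁ : t₁ ≤ -(d.θ / (2 * (cβ + 1)))) (ht₂ : d.θ / (2 * (cβ + 1)) ≤ t₂) (hg : ∀ z ∈ Icc t₁ t₂, |d.g z| ≤ ε₂) :
    cD / cβ * (d.θ / (2 * (cβ + 1)) / 4) ≤ ε₂ * C * (t₂ - t₁) + (2 * δ * d.θ * C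
      + C * (rgE1 C cβ A ε δ * (t₂ - t₁) + 2 * δ * (t₂ - t₁ + d.θ))) := by
  obtain ⟨hL, hδ8, hδc⟩ := rgA_consts hC hcβ hδ
  have hS : rgaS C cβ = 2 * rgL C cβ + 2 * C + 12 := rfl
  have hθ := h.θ_pos
  have hη0 : 0 < d.θ / (2 * (cβ + 1)) := by positivity
  have h12 : t₁ ≤ t₂ := by linarith
  have ht1W : t₁ ∈ Icc (-W) W := ⟨by linarith, by linarith⟩
  have ht2W : t₂ ∈ Icc (-W) W := ⟨by linarith, by linarith⟩
  have hsubI : Icc t₁ t₂ ⊆ Icc (-W) W := Icc_subset_Icc ht1W.1 ht2W.2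
  have hpre := rgA_pre h hC hcβ hA hδ0 hδ hε0 hε1 Ysm h₁ h12 h₂ hF₁ hF₂
  have hmc : ContinuousOn d.m (Icc t₁ t₂) := (rgA_m_cont h).mono hsubI
  have hgc : ContinuousOn d.g (Icc t₁ t₂) := fun y hy => (h.g_der y (hsubI hy)).continuousAt.continuousWithinAt
  have i1 : IntervalIntegrable (fun z => d.g z * d.m z) volume t₁ t₂ := by
    refine ContinuousOn.intervalIntegrable ?_
    rw [uIcc_of_le h12]; exact hgc.mul hmc
  have i2 : IntervalIntegrable (fun z => d.m z ^ 2) volume t₁ t₂ := by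
    refine ContinuousOn.intervalIntegrable ?_
    rw [uIcc_of_le h12]; exact hmc.pow 2
  rw [intervalIntegral.integral_add i1 (i2.const_mul _), intervalIntegral.integral_const_mul] at hpre
  have hlb := rgA_msq_lb h hcβ hδ0 (by linarith) (by linarith) ht1W.1 ht2W.2 ht₁ ht₂
  have hgm : -(ε₂ * C * (t₂ - t₁)) ≤ ∫ z in t₁..t₂, d.g z * d.m z := by
    have e1 : ∫ _z in t₁..t₂, (-(ε₂ * C)) ≤ ∫ z in t₁..t₂, d.g z * d.m z := by
      refine intervalIntegral.integral_mono_on h12 (by simp) i1 fun z hz => ?_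
      have a1 := hg z hz
      have a2 := h.m_bd z (hsubI hz)
      have a3 : |d.g z * d.m z| ≤ ε₂ * C := by
        rw [abs_mul]
        exact mul_le_mul a1 a2 (abs_nonneg _) ((abs_nonneg _).trans a1)
      exact (abs_le.1 a3).1
    rw [intervalIntegral.integral_const, smul_eq_mul] at e1
    linarith
  have hl1 : cD / cβ ≤ d.D 0 / cβ := by
    have := (h.link hθ1).1
    gcongr
  have hmul : cD / cβ * (d.θ / (2 * (cβ + 1)) / 4) ≤ d.D 0 / cβ * ∫ z in t₁..t₂, d.m z ^ 2 := by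
    have e0 : 0 ≤ d.θ / (2 * (cβ + 1)) / 4 := by positivity
    have e1 : 0 ≤ d.D 0 / cβ := div_nonneg (h.D_nonneg 0 ⟨by linarith, by linarith⟩) hcβ.le
    exact mul_le_mul hl1 hlb e0 e1
  linarith

/-- `θ < 1`, fixed record: two nonfloor points around `[-η₀, η₀]` between which `g` is small -/
theorem rgA_lt_pts (h : d.Ok C cβ A cD δ W) (hC : 0 < C) (hcβ : 0 < cβ) (hA : 0 < A) (hδ0 : 0 < δ)
    (hδ : δ ≤ rgδ C cβ) {ε κ ε' Λ Q P z₁ z₂ : ℝ} (hδκ : δ ≤ κ) (hε0 : 0 < ε) (hε1 : ε ≤ 1) (hεκ : ε ≤ κ)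
    (hE1 : rgE1 C cβ A ε δ ≤ κ) (hW : rgaS C cβ + 2 * rgL C cβ + 8 ≤ W)
    (Ysm : ∀ z ∈ Icc (-(W - (rgL C cβ + C + 7))) (W - (rgL C cβ + C + 7)), |d.Y z| ≤ ε)
    (b1 : -(W - rgaS C cβ) ≤ z₁) (b2 : z₁ ≤ -(2 * rgL C cβ + 6)) (b3 : 2 * rgL C cβ + 6 ≤ z₂) (b4 : z₂ ≤ W - rgaS C cβ)
    (hE : (∫ z in z₁..z₂, d.g1 z ^ 2) / A + d.D 0 / cβ * ∫ z in z₁..z₂, d.m z ^ 2 ≤ κ)
    (hε'0 : 0 < ε') (hε'M : ε' ≤ 2 * rgM C A) (hlt : A * κ < ε' ^ 3 / (8 * rgM C A))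
    (hΛ : Λ = 4 * rgL C cβ + 4)
    (hQ : Q = Λ + 2 * (Λ + 1) + 1 + C / cβ * (Λ / A + 2 * (4 * C + 2 * (cβ + 1) * Λ))) (hP : P = C / cβ * (2 / A) + Λ) :
    ∃ t₁ t₂ : ℝ, t₁ ∈ Icc (-(d.θ / (2 * (cβ + 1))) - rgL C cβ * d.θ) (-(d.θ / (2 * (cβ + 1)))) ∧
      t₂ ∈ Icc (d.θ / (2 * (cβ + 1))) (d.θ / (2 * (cβ + 1)) + rgL C cβ * d.θ) ∧ t₁ ∉ d.F ∧ t₂ ∉ d.F ∧
      ∀ z ∈ Icc t₁ t₂, |d.g z| ≤ κ * Q + ε' * P := by
  obtain ⟨hL, hδ8, hδc⟩ := rgA_consts hC hcβ hδ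
  have hS : rgaS C cβ = 2 * rgL C cβ + 2 * C + 12 := rfl
  have hθ := h.θ_pos
  have hθ1 := h.θ_le
  have hΛ0 : 0 < Λ := by rw [hΛ]; positivity
  have hLθ : rgL C cβ * d.θ ≤ rgL C cβ := by nlinarith
  have hLθ0 : 0 < rgL C cβ * d.θ := by positivity
  have hη0 : 0 < d.θ / (2 * (cβ + 1)) := by positivity
  have hηθ : d.θ / (2 * (cβ + 1)) ≤ d.θ / 2 := by
    rw [div_le_div_iff₀ (by positivity) (by norm_num)]; nlinarith
  have hg := rgA_energy_g1 h hcβ hA (by linarith) (by linarith : z₁ ≤ z₂) hE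
  have hsmall : ∀ z ∈ Icc z₁ (z₂ - 1), |d.g1 z| ≤ ε' := fun z hz =>
    (rgA_g1_small h hC hA (by linarith) (by linarith) (by linarith) hε'0 hε'M hg hlt hz).le
  obtain ⟨za, hza, hzaF⟩ := rgA_nonfloor h hC hcβ hδ0 hδ (p := -(rgL C cβ + 2) - rgL C cβ * d.θ) (by linarith) (by linarith)
  obtain ⟨zb, hzb, hzbF⟩ := rgA_nonfloor h hC hcβ hδ0 hδ (p := rgL C cβ + 2) (by linarith) (by linarith)
  obtain ⟨t₁, ht₁, ht₁F⟩ := rgA_nonfloor h hC hcβ hδ0 hδ (p := -(d.θ / (2 * (cβ + 1))) - rgL C cβ * d.θ)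
    (by linarith) (by linarith)
  obtain ⟨t₂, ht₂, ht₂F⟩ := rgA_nonfloor h hC hcβ hδ0 hδ (p := d.θ / (2 * (cβ + 1))) (by linarith) (by linarith)
  refine ⟨t₁, t₂, ⟨ht₁.1, by linarith [ht₁.2]⟩, ht₂, ht₁F, ht₂F, ?_⟩
  intro z hz
  have e1 := rgA_g_bd h hC hcβ hA hδ0 hδ hε0 hε1 Ysm (za := za) (zb := zb) (ε' := ε') (Λ := Λ)
    (by linarith [hza.1]) (by linarith [hza.2, hzb.1]) (by rw [hΛ]; linarith [hza.1, hzb.2]) (by linarith [hzb.2])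
    hzaF hzbF (fun y hy => hsmall y ⟨by linarith [hza.1, hy.1], by linarith [hzb.2, hy.2]⟩)
    (z := z) ⟨by linarith [hza.2, ht₁.1, hz.1], by linarith [hzb.1, ht₂.2, hz.2]⟩
  have a1 : rgE1 C cβ A ε δ * Λ ≤ κ * Λ := by gcongr
  have a2 : δ * (Λ + 1) ≤ κ * (Λ + 1) := by gcongr
  have a3 : (2 * ε' + δ * Λ) / A + (ε + δ) * (4 * C + 2 * (cβ + 1) * Λ)
      ≤ (2 * ε' + κ * Λ) / A + (2 * κ) * (4 * C + 2 * (cβ + 1) * Λ) := by
    have : ε + δ ≤ 2 * κ := by linarith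
    gcongr
  have a4 : C / cβ * ((2 * ε' + δ * Λ) / A + (ε + δ) * (4 * C + 2 * (cβ + 1) * Λ))
      ≤ C / cβ * ((2 * ε' + κ * Λ) / A + (2 * κ) * (4 * C + 2 * (cβ + 1) * Λ)) := by gcongr
  have a5 : κ * Q + ε' * P = κ * Λ + 2 * (κ * (Λ + 1)) + κ
      + C / cβ * ((2 * ε' + κ * Λ) / A + (2 * κ) * (4 * C + 2 * (cβ + 1) * Λ)) + ε' * Λ := by
    rw [hQ, hP]; ring
  linarith

/-- the arithmetic of the last step -/
theorem rgA_lt_arith {C cβ cD L θ κ δ E₁ ε₂ t₁ t₂ : ℝ} (hC : 0 < C) (hcβ : 0 < cβ) (hL : 0 < L) (hθ : 0 < θ) (hδ0 : 0 < δ)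
    (hδκ : δ ≤ κ) (hE0 : 0 ≤ E₁) (hE1 : E₁ ≤ κ) (hε₂ : 0 < ε₂)
    (ht₁ : t₁ ∈ Icc (-(θ / (2 * (cβ + 1))) - L * θ) (-(θ / (2 * (cβ + 1)))))
    (ht₂ : t₂ ∈ Icc (θ / (2 * (cβ + 1))) (θ / (2 * (cβ + 1)) + L * θ))
    (hin : cD / cβ * (θ / (2 * (cβ + 1)) / 4) ≤ ε₂ * C * (t₂ - t₁) + (2 * δ * θ * C
      + C * (E₁ * (t₂ - t₁) + 2 * δ * (t₂ - t₁ + θ)))) :
    cD / cβ * (1 / (2 * (cβ + 1)) / 4) ≤ ε₂ * (C * (2 * L + 1)) + κ * (C * (6 * L + 7)) := by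
  have hκ0 : 0 < κ := lt_of_lt_of_le hδ0 hδκ
  have hη0 : 0 < θ / (2 * (cβ + 1)) := by positivity
  have hηθ : θ / (2 * (cβ + 1)) ≤ θ / 2 := by
    rw [div_le_div_iff₀ (by positivity) (by norm_num)]; nlinarith
  have hΔ : t₂ - t₁ ≤ (2 * L + 1) * θ := by linarith [ht₁.1, ht₂.2]
  have hΔ0 : 0 ≤ t₂ - t₁ := by linarith [ht₁.2, ht₂.1]
  have c1 : ε₂ * C * (t₂ - t₁) ≤ ε₂ * C * ((2 * L + 1) * θ) := by gcongr
  have c2 : 2 * δ * θ * C ≤ 2 * κ * θ * C := by gcongr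
  have c3 : E₁ * (t₂ - t₁) ≤ κ * ((2 * L + 1) * θ) := by gcongr
  have c4 : 2 * δ * (t₂ - t₁ + θ) ≤ 2 * κ * ((2 * L + 1) * θ + θ) := by gcongr
  have c5 : C * (E₁ * (t₂ - t₁) + 2 * δ * (t₂ - t₁ + θ))
      ≤ C * (κ * ((2 * L + 1) * θ) + 2 * κ * ((2 * L + 1) * θ + θ)) := by gcongr
  have c6 : θ * (cD / cβ * (1 / (2 * (cβ + 1)) / 4)) ≤ θ * (ε₂ * (C * (2 * L + 1)) + κ * (C * (6 * L + 7))) := by
    have e1 : θ * (cD / cβ * (1 / (2 * (cβ + 1)) / 4)) = cD / cβ * (θ / (2 * (cβ + 1)) / 4) := by ring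
    have e2 : θ * (ε₂ * (C * (2 * L + 1)) + κ * (C * (6 * L + 7)))
        = ε₂ * C * ((2 * L + 1) * θ) + (2 * κ * θ * C
          + C * (κ * ((2 * L + 1) * θ) + 2 * κ * ((2 * L + 1) * θ + θ))) := by ring
    rw [e1, e2]
    linarith
  exact le_of_mul_le_mul_left c6 hθ

/-- contradiction for `θ < 1`, fixed record -/
theorem rgA_lt_fix (h : d.Ok C cβ A cD δ W) (hθ1 : d.θ < 1) (hC : 0 < C) (hcβ : 0 < cβ) (hA : 0 < A) (hδ0 : 0 < δ)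
    (hδ : δ ≤ rgδ C cβ) {ε κ ε' Λ Q P z₁ z₂ : ℝ} (hδκ : δ ≤ κ) (hε0 : 0 < ε) (hε1 : ε ≤ 1) (hεκ : ε ≤ κ)
    (hE1 : rgE1 C cβ A ε δ ≤ κ) (hW : rgaS C cβ + 2 * rgL C cβ + 8 ≤ W)
    (Ysm : ∀ z ∈ Icc (-(W - (rgL C cβ + C + 7))) (W - (rgL C cβ + C + 7)), |d.Y z| ≤ ε)
    (b1 : -(W - rgaS C cβ) ≤ z₁) (b2 : z₁ ≤ -(2 * rgL C cβ + 6)) (b3 : 2 * rgL C cβ + 6 ≤ z₂) (b4 : z₂ ≤ W - rgaS C cβ)
    (hE : (∫ z in z₁..z₂, d.g1 z ^ 2) / A + d.D 0 / cβ * ∫ z in z₁..z₂, d.m z ^ 2 ≤ κ)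
    (hε'0 : 0 < ε') (hε'M : ε' ≤ 2 * rgM C A) (hlt : A * κ < ε' ^ 3 / (8 * rgM C A))
    (hΛ : Λ = 4 * rgL C cβ + 4)
    (hQ : Q = Λ + 2 * (Λ + 1) + 1 + C / cβ * (Λ / A + 2 * (4 * C + 2 * (cβ + 1) * Λ))) (hP : P = C / cβ * (2 / A) + Λ)
    (hk : (κ * Q + ε' * P) * (C * (2 * rgL C cβ + 1)) + κ * (C * (6 * rgL C cβ + 7))
      < cD / cβ * (1 / (2 * (cβ + 1)) / 4)) : False := by
  obtain ⟨hL, hδ8, hδc⟩ := rgA_consts hC hcβ hδ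
  have hS : rgaS C cβ = 2 * rgL C cβ + 2 * C + 12 := rfl
  have hθ := h.θ_pos
  have hκ0 : 0 < κ := lt_of_lt_of_le hδ0 hδκ
  have hΛ0 : 0 < Λ := by rw [hΛ]; positivity
  have hQ0 : 0 < Q := by rw [hQ]; positivity
  have hP0 : 0 < P := by rw [hP]; positivity
  have hLθ : rgL C cβ * d.θ ≤ rgL C cβ := by nlinarith
  have hηθ : d.θ / (2 * (cβ + 1)) ≤ d.θ / 2 := by
    rw [div_le_div_iff₀ (by positivity) (by norm_num)]; nlinarith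
  obtain ⟨t₁, t₂, ht₁, ht₂, ht₁F, ht₂F, hgbd⟩ := rgA_lt_pts h hC hcβ hA hδ0 hδ hδκ hε0 hε1 hεκ hE1 hW Ysm b1 b2 b3 b4 hE
    hε'0 hε'M hlt hΛ hQ hP
  have hin := rgA_lt_ineq h hθ1 hC hcβ hA hδ0 hδ hε0 hε1 Ysm (t₁ := t₁) (t₂ := t₂) (by linarith [ht₁.1]) (by linarith [ht₂.2])
    ht₁F ht₂F ht₁.2 ht₂.1 hgbd
  have := rgA_lt_arith hC hcβ hL hθ hδ0 hδκ (rgE1_nonneg (C := C) (cβ := cβ) (A := A) hC hcβ hA hε0 hδ0) hE1
    (by positivity : 0 < κ * Q + ε' * P) ht₁ ht₂ hin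
  linarith

/-- contradiction for `θ < 1` -/
theorem rgA_lt (C cβ A cD : ℝ) (hC : 0 < C) (hcβ : 0 < cβ) (hA : 0 < A) (hcD : 0 < cD) :
    ∃ κ₂ : ℝ, 0 < κ₂ ∧ ∀ (d : RigD) (δ W ε κ z₁ z₂ : ℝ), d.Ok C cβ A cD δ W → d.θ < 1 → κ ≤ κ₂ →
      0 < δ → δ ≤ rgδ C cβ → δ ≤ κ → 0 < ε → ε ≤ 1 → ε ≤ κ → rgE1 C cβ A ε δ ≤ κ → rgaS C cβ + 2 * rgL C cβ + 8 ≤ W →
      (∀ z ∈ Icc (-(W - (rgL C cβ + C + 7))) (W - (rgL C cβ + C + 7)), |d.Y z| ≤ ε) →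
      -(W - rgaS C cβ) ≤ z₁ → z₁ ≤ -(2 * rgL C cβ + 6) → 2 * rgL C cβ + 6 ≤ z₂ → z₂ ≤ W - rgaS C cβ → z₁ ∉ d.F → z₂ ∉ d.F →
      (∫ z in z₁..z₂, d.g1 z ^ 2) / A + d.D 0 / cβ * ∫ z in z₁..z₂, d.m z ^ 2 ≤ κ → False := by
  have hL := rgL_pos hC hcβ
  have hM := rgM_pos hC hA
  obtain ⟨Λ, hΛ⟩ : ∃ Λ : ℝ, Λ = 4 * rgL C cβ + 4 := ⟨_, rfl⟩
  obtain ⟨Q, hQ⟩ : ∃ Q : ℝ, Q = Λ + 2 * (Λ + 1) + 1 + C / cβ * (Λ / A + 2 * (4 * C + 2 * (cβ + 1) * Λ)) := ⟨_, rfl⟩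
  obtain ⟨P, hP⟩ : ∃ P : ℝ, P = C / cβ * (2 / A) + Λ := ⟨_, rfl⟩
  obtain ⟨c₀, hc₀⟩ : ∃ c₀ : ℝ, c₀ = cD / cβ * (1 / (2 * (cβ + 1)) / 4) := ⟨_, rfl⟩
  have hΛ0 : 0 < Λ := by rw [hΛ]; positivity
  have hQ0 : 0 < Q := by rw [hQ]; positivity
  have hP0 : 0 < P := by rw [hP]; positivity
  have hc₀0 : 0 < c₀ := by rw [hc₀]; positivity
  obtain ⟨ε', hε'⟩ : ∃ ε' : ℝ, ε' = min (2 * rgM C A) (c₀ / (4 * (P * (C * (2 * rgL C cβ + 1))))) := ⟨_, rfl⟩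
  have hε'0 : 0 < ε' := by rw [hε']; positivity
  have hε'M : ε' ≤ 2 * rgM C A := by rw [hε']; exact min_le_left _ _
  have hε'c : ε' ≤ c₀ / (4 * (P * (C * (2 * rgL C cβ + 1)))) := by rw [hε']; exact min_le_right _ _
  obtain ⟨k1, hk1⟩ : ∃ k1 : ℝ, k1 = c₀ / (4 * (Q * (C * (2 * rgL C cβ + 1)) + C * (6 * rgL C cβ + 7))) := ⟨_, rfl⟩
  obtain ⟨k2, hk2⟩ : ∃ k2 : ℝ, k2 = ε' ^ 3 / (16 * rgM C A * A) := ⟨_, rfl⟩
  have hk10 : 0 < k1 := by rw [hk1]; positivity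
  have hk20 : 0 < k2 := by rw [hk2]; positivity
  refine ⟨min k1 k2, lt_min hk10 hk20, ?_⟩
  intro d δ W ε κ z₁ z₂ h hθ hκ hδ0 hδ hδκ hε0 hε1 hεκ hE1 hW Ysm b1 b2 b3 b4 _ _ hE
  have hκ1 : κ ≤ k1 := hκ.trans (min_le_left _ _)
  have hκ2 : κ ≤ k2 := hκ.trans (min_le_right _ _)
  refine rgA_lt_fix h hθ hC hcβ hA hδ0 hδ hδκ hε0 hε1 hεκ hE1 hW Ysm b1 b2 b3 b4 hE hε'0 hε'M ?_ hΛ hQ hP ?_
  · have e1 : A * k2 = ε' ^ 3 / (16 * rgM C A) := by rw [hk2]; field_simp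
    have e2 : ε' ^ 3 / (16 * rgM C A) < ε' ^ 3 / (8 * rgM C A) := by
      apply div_lt_div_of_pos_left (by positivity) (by positivity); linarith
    have e3 : A * κ ≤ A * k2 := mul_le_mul_of_nonneg_left hκ2 hA.le
    linarith
  · rw [← hc₀]
    have e1 : κ * (Q * (C * (2 * rgL C cβ + 1)) + C * (6 * rgL C cβ + 7)) ≤ c₀ / 4 := by
      have : k1 * (Q * (C * (2 * rgL C cβ + 1)) + C * (6 * rgL C cβ + 7)) = c₀ / 4 := by rw [hk1]; field_simp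
      rw [← this]
      gcongr
    have e2 : ε' * (P * (C * (2 * rgL C cβ + 1))) ≤ c₀ / 4 := by
      have : c₀ / (4 * (P * (C * (2 * rgL C cβ + 1)))) * (P * (C * (2 * rgL C cβ + 1))) = c₀ / 4 := by field_simp
      rw [← this]
      gcongr
    have e3 : (κ * Q + ε' * P) * (C * (2 * rgL C cβ + 1)) + κ * (C * (6 * rgL C cβ + 7))
        = κ * (Q * (C * (2 * rgL C cβ + 1)) + C * (6 * rgL C cβ + 7)) + ε' * (P * (C * (2 * rgL C cβ + 1))) := by ring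
    rw [e3]
    linarith

/-- **regime A** -/
theorem bud_rigA : BudRigA := by
  intro C cβ A cD hC hcβ hA hcD
  obtain ⟨κ₁, hκ₁, h1⟩ := rgA_one C cβ A cD hC hcβ hA hcD
  obtain ⟨κ₂, hκ₂, h2⟩ := rgA_lt C cβ A cD hC hcβ hA hcD
  obtain ⟨δ, W, RA, ε, hδ0, hδ, hδκ, hε0, hε1, hεκ, hE1, hRA, hW, hm⟩ :=
    rgA_E C cβ A cD (min κ₁ κ₂) hC hcβ hA hcD (lt_min hκ₁ hκ₂)
  have hL : 0 < rgL C cβ := by unfold rgL; positivity
  have hS : 0 < rgaS C cβ := by unfold rgaS; positivity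
  refine ⟨δ, W, RA, hδ0, by linarith, hRA, fun d hd => ?_⟩
  by_contra hR
  obtain ⟨Ysm, z₁, z₂, a1, a2, a3, a4, a5, a6, a7⟩ := hm d hd (not_lt.1 hR)
  rcases lt_or_eq_of_le hd.θ_le with hθ | hθ
  · exact h2 d δ W ε _ z₁ z₂ hd hθ (min_le_right _ _) hδ0 hδ hδκ hε0 hε1 hεκ hE1 hW Ysm a1 a2 a3 a4 a5 a6 a7
  · exact h1 d δ W ε _ z₁ z₂ hd hθ (min_le_left _ _) hδ0 hδ hδκ hε0 hε1 hεκ hE1 hW Ysm a1 a2 a3 a4 a5 a6 a7

/-- **N18, the buffered rigidity lemma** (LL 07-budgets l.2070-2215), uniform form: no record is `Ok` for small `δ` and large `W`.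
Regime A (`R 0` large, all `θ`): `Bud/RigA*.lean`;  regime B (`θ = 1`, `R 0` bounded): `Bud/RigB*.lean`.      TEX[LL:bud:strengthening] (rigidity part) -/
theorem bud_rig : BudRig := bud_rig_of bud_rigA bud_rigB

end Claimed.Agent.R286
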