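import Claimed.Agent.R286.Bud.Star
import Claimed.Agent.R286.Bud.Mom
import Claimed.Agent.R286.L08.SPC
import Claimed.Agent.R286.L08.SPD

/-!
# Row 286, LL sec. 7, node N7, second half of LEMMA 7.6: `‖Q_* - S_*‖_p ≤ C_p x^c W` at a nonfloor cut of scale `W`      (owner helper190; prefix `bcs_`, types `Bcs*`)
TEX[LL:bud:common-star] l.511-541 (the same argument: LL 06-global l.520-545).      INSTANCE of the input `BcsLp` of `Bud/Star.lean`: `bcs_lp_inst`.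

THREE LEVELS (protocol of HUB_207 sec. 2).      v2 (04:45Z): weights on intervals, residual in the 3-label RESAMPLED form (as `exit_cmp_res`, `cvRes`), (C9) on a RADIUS window.
* §1 L-STEP, ABSTRACT SINGLE PATH `L8P` (75/22; SK instance `skSP`, `L08/SPI.lean`): leaves L1-L6.  Buffers = finite sets of cuts with probability weights.
     L1 common past (`l8s_buffer` at the fork AND at the central cut), L2 polarisation on the fork law, L3 (A1) line 3 with the weight `len/(h' dv) ≤ 1/(h' κ')`, L4 assembly,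
     L5 projected pair versus resampled residual (conditional Jensen + symmetry of the fork), L6 = L4 + L5.
* §2 L-PATH, WORLD LEVEL (arbitrary clocks, numbers of `BdWorld`): `BcsWLp` (shape (S): bracket + polarisation + residual in numbers), `BcsWA1` ((A1) line 3), `BcsWMono`, `BcsWJen`, `BcsWBd`
     (shape (U)).      PRODUCERS from `W.IsHub`: `bcs_wlp_inst`, `bcs_wa1_inst`, `bcs_wmono_inst`, `bcs_wjen_inst`, `bcs_wbd_inst` in `Bud/StarW.lean` (owner helper190; tools: §1, `l8i_*`, `exit_clk_lim_*`, `BmEv`).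
* §3 FRAME LEVEL: inputs `BcsC9` = (C9) and `BcsRes` = resampled residual with a SHORT first projection interval `θ ≤ W` (both: N5, owner helper109/helper7, TEX[LL:bud:outer-moments]);
     numerics `bcs_num_lp`, `bcs_lp_num`; radius-buffer weights `bcs_wt`; oscillation of `S` (`BudGeo.flat_S_near` of 109); glue G1-G5, `bcs_lp_inst`.
PARAMETERS: `h' = I.hb = x^(4ζ) W`; earlier buffer `[r_* - h', r_*]`, central cut at `r_* + h'/2`, later buffer `[r_* + h'/2, r_* + 3h'/2]`; `S̄ = S_*`, `η = 5 h'`.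
The two normalised errors of l.533-536: `[m C0 k(W) W⁴]^(-1/2) (W/h') ≲ x^(6ζ-4ζ)`, `[m C0 W⁴]^(-1/2) (W/h')^(1/2) ≲ x^(6ζ-2ζ)`.
WHY A RADIUS WINDOW: a cap has radius width `≤ 1/M_j` but may carry a mass `≍ W`; only `c v ≤ r(v) ≤ C v` locates the buffers: `r_* ∈ [c Ka W, 2 C Ka W]`.
-/

set_option autoImplicit false

namespace Claimed.Agent.R286

open MeasureTheory ProbabilityTheory Set Filter Topology

noncomputable section

/-! ## 1. L-STEP: the abstract single path -/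

namespace L8P

variable {Ω : Type} [mΩ : MeasurableSpace Ω] {m : ℕ} (P : L8P Ω m)

/-- two buffers around the fork `k0` and the central cut `kc`: earlier buffer `sm` (before the fork), later buffer `sp` (after the central cut); hypotheses of LL Lemma 6.3 in the order `2r` -/
structure BcsBuf (k0 kc : ℕ) (sm sp : Finset ℕ) (ρm ρp : ℕ → ℝ) (r : ℕ) (Sbar η ε : ℝ) : Prop where
  hk : k0 ≤ kc
  hsm : ∀ l ∈ sm, l ≤ k0
  hsp : ∀ l ∈ sp, kc ≤ l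
  hm0 : ∀ l, 0 ≤ ρm l
  hp0 : ∀ l, 0 ≤ ρp l
  hm1 : ∑ l ∈ sm, ρm l = 1
  hp1 : ∑ l ∈ sp, ρp l = 1
  hη : 0 ≤ η
  hε : 0 ≤ ε
  hSm : ∀ l ∈ sm, ρm l ≠ 0 → |P.S l - Sbar| ≤ η
  hSp : ∀ l ∈ sp, ρp l ≠ 0 → |P.S l - Sbar| ≤ η
  hAm : ∫ ω, ((∑ l ∈ sm, ρm l * P.L l ω) - ∫ ω', (∑ l ∈ sm, ρm l * P.L l ω') ∂P.μ) ^ (2 * r) ∂P.μ ≤ ε ^ (2 * r)
  hAp : ∫ ω, ((∑ l ∈ sp, ρp l * P.L l ω) - ∫ ω', (∑ l ∈ sp, ρp l * P.L l ω') ∂P.μ) ^ (2 * r) ∂P.μ ≤ ε ^ (2 * r)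

variable {P} {k0 kc : ℕ} {sm sp : Finset ℕ} {ρm ρp : ℕ → ℝ} {r : ℕ} {Sbar η ε : ℝ}

theorem bcs_two_pow_aux (a b : ℝ) (r : ℕ) : 2 * (a + b) ^ (2 * r) ≤ 2 ^ (2 * r) * (a ^ (2 * r) + b ^ (2 * r)) := by
  have hc := (even_two_mul r).convexOn_pow (𝕜 := ℝ)
  have h1 := hc.2 (Set.mem_univ a) (Set.mem_univ b) (by norm_num : (0:ℝ) ≤ 1/2) (by norm_num : (0:ℝ) ≤ 1/2) (by norm_num)
  simp only [smul_eq_mul] at h1
  have e : (a + b) ^ (2 * r) = 2 ^ (2 * r) * (1 / 2 * a + 1 / 2 * b) ^ (2 * r) := by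
    rw [← mul_pow]; congr 1; ring
  rw [e]
  have h2 : (0:ℝ) ≤ 2 ^ (2 * r) := by positivity
  have h3 := mul_le_mul_of_nonneg_left h1 h2
  linarith

theorem bcs_four_pow_aux (a b c d : ℝ) (r : ℕ) :
    4 * (a + b + c + d) ^ (2 * r) ≤ 4 ^ (2 * r) * (a ^ (2 * r) + b ^ (2 * r) + c ^ (2 * r) + d ^ (2 * r)) := by
  have h1 := bcs_two_pow_aux (a + b) (c + d) r
  have h2 := bcs_two_pow_aux a b r
  have h3 := bcs_two_pow_aux c d r
  have h4 : (0:ℝ) ≤ 2 ^ (2 * r) := by positivity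
  have e : (4:ℝ) ^ (2 * r) = 2 ^ (2 * r) * 2 ^ (2 * r) := by rw [← mul_pow]; norm_num
  have e2 : a + b + c + d = (a + b) + (c + d) := by ring
  rw [e, e2]
  have h5 := mul_le_mul_of_nonneg_left (add_le_add h2 h3) h4
  nlinarith

theorem bcs_even_pow_le_aux {x T : ℝ} (r : ℕ) (hxT : |x| ≤ T) : x ^ (2 * r) ≤ T ^ (2 * r) := by
  calc x ^ (2 * r) = |x| ^ (2 * r) := by rw [pow_mul, pow_mul, sq_abs]
    _ ≤ T ^ (2 * r) := pow_le_pow_left₀ (abs_nonneg _) hxT _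

theorem bcs_fork_fst_aux (h : P.Ok) (k : ℕ) {f : Ω → ℝ} (hf : L8Bd f) : ∫ p, f p.1 ∂(P.fork k) = ∫ ω, f ω ∂P.μ := by
  have e := integral_map (μ := P.fork k) (φ := Prod.fst) measurable_fst.aemeasurable (f := f) hf.1.aestronglyMeasurable
  rw [P.l8s_fork_fst h k] at e
  exact e.symm

theorem bcs_fork_snd_aux (h : P.Ok) (k : ℕ) {f : Ω → ℝ} (hf : L8Bd f) : ∫ p, f p.2 ∂(P.fork k) = ∫ ω, f ω ∂P.μ := by
  have e := integral_map (μ := P.fork k) (φ := Prod.snd) measurable_snd.aemeasurable (f := f) hf.1.aestronglyMeasurable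
  rw [P.l8s_fork_snd h k] at e
  exact e.symm

/-- LEAF L1 (common past, LL Lemma 6.3, second half).  `l8s_buffer` at `k = k0` and at `k = kc` (same buffers), then `|X_kc - X_k0|² ≤ 2|X_kc - X_l|² + 2|X_k0 - X_l|²`
averaged with `ρm`, and `(a+b)^(2r) ≤ 2^(2r-1)(a^(2r)+b^(2r))`.      TEX[LL:global:buffer-brackets] -/
theorem bcs_lp_incr (h : P.Ok) (hr : 1 ≤ r) (hb : P.BcsBuf k0 kc sm sp ρm ρp r Sbar η ε) :
    ∫ ω, (∑ i, P.XX k0 kc i ω ^ 2) ^ (2 * r) ∂P.μ ≤ (64 * (η + ε)) ^ (2 * r) := by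
  have := h.prob
  have h0 := (P.l8s_buffer h r hr k0 sm sp ρm ρp Sbar η ε hb.hsm (fun l hl => hb.hk.trans (hb.hsp l hl)) hb.hm0 hb.hp0 hb.hm1
    hb.hp1 hb.hη hb.hε hb.hSm hb.hSp hb.hAm hb.hAp).2
  have hc := (P.l8s_buffer h r hr kc sm sp ρm ρp Sbar η ε (fun l hl => (hb.hsm l hl).trans hb.hk) hb.hsp hb.hm0 hb.hp0 hb.hm1
    hb.hp1 hb.hη hb.hε hb.hSm hb.hSp hb.hAm hb.hAp).2
  set G : ℕ → Ω → ℝ := fun k ω => ∑ l ∈ sm, ρm l * ∑ i, P.XX l k i ω ^ 2 with hG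
  have hGb : ∀ k, L8Bd (G k) := fun k =>
    L8Bd.sum _ fun l _ => (L8Bd.sum _ fun i _ => (P.l8sb_XX_bd h l k i).pow 2).const_mul _
  have hDb : L8Bd (fun ω => ∑ i, P.XX k0 kc i ω ^ 2) := L8Bd.sum _ fun i _ => (P.l8sb_XX_bd h k0 kc i).pow 2
  have hpt : ∀ ω, ∑ i, P.XX k0 kc i ω ^ 2 ≤ 2 * G kc ω + 2 * G k0 ω := by
    intro ω
    have e : ∑ i, P.XX k0 kc i ω ^ 2 = ∑ l ∈ sm, ρm l * ∑ i, P.XX k0 kc i ω ^ 2 := by
      rw [← Finset.sum_mul, hb.hm1, one_mul]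
    rw [e]
    simp only [hG]
    rw [Finset.mul_sum, Finset.mul_sum, ← Finset.sum_add_distrib]
    refine Finset.sum_le_sum fun l _ => ?_
    have h1 : ∑ i, P.XX k0 kc i ω ^ 2 ≤ 2 * ∑ i, P.XX l kc i ω ^ 2 + 2 * ∑ i, P.XX l k0 i ω ^ 2 := by
      rw [Finset.mul_sum, Finset.mul_sum, ← Finset.sum_add_distrib]
      refine Finset.sum_le_sum fun i _ => ?_
      simp only [L8P.XX]
      nlinarith [sq_nonneg ((P.X kc i ω - P.X l i ω) + (P.X k0 i ω - P.X l i ω))]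
    have h2 := mul_le_mul_of_nonneg_left h1 (hb.hm0 l)
    linarith
  have hpt2 : ∀ ω, (∑ i, P.XX k0 kc i ω ^ 2) ^ (2 * r)
      ≤ 4 ^ (2 * r) / 2 * (G kc ω ^ (2 * r) + G k0 ω ^ (2 * r)) := by
    intro ω
    have h1 : (∑ i, P.XX k0 kc i ω ^ 2) ^ (2 * r) ≤ (2 * G kc ω + 2 * G k0 ω) ^ (2 * r) :=
      pow_le_pow_left₀ (Finset.sum_nonneg fun i _ => sq_nonneg _) (hpt ω) _
    have h2 := bcs_two_pow_aux (2 * G kc ω) (2 * G k0 ω) r
    rw [mul_pow 2 (G kc ω), mul_pow 2 (G k0 ω)] at h2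
    have e : (4:ℝ) ^ (2 * r) = 2 ^ (2 * r) * 2 ^ (2 * r) := by rw [← mul_pow]; norm_num
    rw [e]
    have e3 : 2 ^ (2 * r) * 2 ^ (2 * r) / 2 * (G kc ω ^ (2 * r) + G k0 ω ^ (2 * r))
        = (2 ^ (2 * r) * (2 ^ (2 * r) * G kc ω ^ (2 * r) + 2 ^ (2 * r) * G k0 ω ^ (2 * r))) / 2 := by ring
    rw [e3]
    linarith
  have i1 : Integrable (fun ω => G kc ω ^ (2 * r)) P.μ := ((hGb kc).pow _).integrable _
  have i2 : Integrable (fun ω => G k0 ω ^ (2 * r)) P.μ := ((hGb k0).pow _).integrable _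
  calc ∫ ω, (∑ i, P.XX k0 kc i ω ^ 2) ^ (2 * r) ∂P.μ
      ≤ ∫ ω, 4 ^ (2 * r) / 2 * (G kc ω ^ (2 * r) + G k0 ω ^ (2 * r)) ∂P.μ :=
        integral_mono ((hDb.pow _).integrable _) ((i1.add i2).const_mul _) hpt2
    _ = 4 ^ (2 * r) / 2 * (∫ ω, G kc ω ^ (2 * r) ∂P.μ + ∫ ω, G k0 ω ^ (2 * r) ∂P.μ) := by
        rw [integral_const_mul, integral_add i1 i2]
    _ ≤ 4 ^ (2 * r) / 2 * ((16 * (η + ε)) ^ (2 * r) + (16 * (η + ε)) ^ (2 * r)) := by gcongr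
    _ = (64 * (η + ε)) ^ (2 * r) := by
        rw [show (64:ℝ) * (η + ε) = 4 * (16 * (η + ε)) by ring, mul_pow 4]; ring

/-- LEAF L2 (polarisation, l.527-529 / 06-global l.530-534).  On the fork law at `k0`: `X_k0(ω) = X_k0(ω')` a.e. (`l8s_fork_prefix`), both marginals are `μ` (`l8s_fork_fst/snd`),
`|X¹·X² - S̄| ≤ ½||X¹|²-S̄| + ½||X²|²-S̄| + |X¹-X_k0|² + |X²-X_k0|²`.      TEX[LL:bud:common-star] -/
theorem bcs_lp_pol (h : P.Ok) (hr : 1 ≤ r) (hb : P.BcsBuf k0 kc sm sp ρm ρp r Sbar η ε) :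
    ∫ p, (P.QX kc kc p - Sbar) ^ (2 * r) ∂(P.fork k0) ≤ (256 * (η + ε)) ^ (2 * r) := by
  have := h.prob
  have := P.l8s_fork_prob h k0
  have hD := bcs_lp_incr h hr hb
  have hN := (P.l8s_buffer h r hr kc sm sp ρm ρp Sbar η ε (fun l hl => (hb.hsm l hl).trans hb.hk) hb.hsp hb.hm0 hb.hp0 hb.hm1
    hb.hp1 hb.hη hb.hε hb.hSm hb.hSp hb.hAm hb.hAp).1
  set D : Ω → ℝ := fun ω => ∑ i, P.XX k0 kc i ω ^ 2 with hDdef
  set N : Ω → ℝ := fun ω => P.nX kc ω - Sbar with hNdef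
  have hDb : L8Bd D := L8Bd.sum _ fun i _ => (P.l8sb_XX_bd h k0 kc i).pow 2
  have hNb : L8Bd N := (P.l8s_W_bd_nX h kc).sub (l8Bd_const Sbar)
  have hD0 : ∀ ω, 0 ≤ D ω := fun ω => Finset.sum_nonneg fun i _ => sq_nonneg _
  have hae : ∀ᵐ p ∂(P.fork k0), ∀ i, P.X k0 i p.1 = P.X k0 i p.2 := by
    rw [ae_all_iff]
    exact fun i => P.l8s_fork_prefix h k0 (P.l8s_X_sm h k0 i).measurable
  have hpt : ∀ᵐ p ∂(P.fork k0), (P.QX kc kc p - Sbar) ^ (2 * r)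
      ≤ 4 ^ (2 * r) / 4 * ((1 / 2) ^ (2 * r) * N p.1 ^ (2 * r) + (1 / 2) ^ (2 * r) * N p.2 ^ (2 * r)
          + D p.1 ^ (2 * r) + D p.2 ^ (2 * r)) := by
    filter_upwards [hae] with p hp
    have e1 : 2 * P.QX kc kc p = P.nX kc p.1 + P.nX kc p.2 - ∑ i, (P.X kc i p.1 - P.X kc i p.2) ^ 2 := by
      simp only [L8P.QX, L8P.nX]
      rw [Finset.mul_sum, ← Finset.sum_add_distrib, ← Finset.sum_sub_distrib]
      exact Finset.sum_congr rfl fun i _ => by ring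
    have e2 : ∑ i, (P.X kc i p.1 - P.X kc i p.2) ^ 2 ≤ 2 * D p.1 + 2 * D p.2 := by
      simp only [hDdef]
      rw [Finset.mul_sum, Finset.mul_sum, ← Finset.sum_add_distrib]
      refine Finset.sum_le_sum fun i _ => ?_
      simp only [L8P.XX]
      have := hp i
      rw [this]
      nlinarith [sq_nonneg ((P.X kc i p.1 - P.X k0 i p.2) + (P.X kc i p.2 - P.X k0 i p.2))]
    have e3 : 0 ≤ ∑ i, (P.X kc i p.1 - P.X kc i p.2) ^ 2 := Finset.sum_nonneg fun i _ => sq_nonneg _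
    have hab : |P.QX kc kc p - Sbar| ≤ 1 / 2 * |N p.1| + 1 / 2 * |N p.2| + D p.1 + D p.2 := by
      have a1 := le_abs_self (N p.1)
      have a2 := neg_abs_le (N p.1)
      have a3 := le_abs_self (N p.2)
      have a4 := neg_abs_le (N p.2)
      have a5 := hD0 p.1
      have a6 := hD0 p.2
      have n1 : N p.1 = P.nX kc p.1 - Sbar := rfl
      have n2 : N p.2 = P.nX kc p.2 - Sbar := rfl
      rw [abs_le]
      constructor <;> linarith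
    have h1 := bcs_even_pow_le_aux r hab
    have h2 := bcs_four_pow_aux (1 / 2 * |N p.1|) (1 / 2 * |N p.2|) (D p.1) (D p.2) r
    have f1 : ∀ x : ℝ, (1 / 2 * |x|) ^ (2 * r) = (1 / 2) ^ (2 * r) * x ^ (2 * r) := by
      intro x
      rw [mul_pow, pow_mul |x|, sq_abs, ← pow_mul]
    rw [f1, f1] at h2
    have e4 : 4 ^ (2 * r) / 4 * ((1 / 2) ^ (2 * r) * N p.1 ^ (2 * r) + (1 / 2) ^ (2 * r) * N p.2 ^ (2 * r)
          + D p.1 ^ (2 * r) + D p.2 ^ (2 * r))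
        = (4 ^ (2 * r) * ((1 / 2) ^ (2 * r) * N p.1 ^ (2 * r) + (1 / 2) ^ (2 * r) * N p.2 ^ (2 * r)
          + D p.1 ^ (2 * r) + D p.2 ^ (2 * r))) / 4 := by ring
    rw [e4]
    linarith
  have bN : L8Bd (fun ω => (1 / 2 : ℝ) ^ (2 * r) * N ω ^ (2 * r)) := (hNb.pow _).const_mul _
  have bD : L8Bd (fun ω => D ω ^ (2 * r)) := hDb.pow _
  have cf : ∀ {f : Ω → ℝ}, L8Bd f → L8Bd (fun p : Ω × Ω => f p.1) := fun {f} hf =>
    ⟨hf.1.comp measurable_fst, hf.2.imp fun C hC p => hC p.1⟩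
  have cs : ∀ {f : Ω → ℝ}, L8Bd f → L8Bd (fun p : Ω × Ω => f p.2) := fun {f} hf =>
    ⟨hf.1.comp measurable_snd, hf.2.imp fun C hC p => hC p.2⟩
  have j1 := (cf bN).integrable (P.fork k0)
  have j2 := (cs bN).integrable (P.fork k0)
  have j3 := (cf bD).integrable (P.fork k0)
  have j4 := (cs bD).integrable (P.fork k0)
  have j12 : Integrable (fun p : Ω × Ω => (1 / 2 : ℝ) ^ (2 * r) * N p.1 ^ (2 * r) + (1 / 2) ^ (2 * r) * N p.2 ^ (2 * r))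
      (P.fork k0) := j1.add j2
  have j123 : Integrable (fun p : Ω × Ω => (1 / 2 : ℝ) ^ (2 * r) * N p.1 ^ (2 * r) + (1 / 2) ^ (2 * r) * N p.2 ^ (2 * r)
      + D p.1 ^ (2 * r)) (P.fork k0) := j12.add j3
  have hQb : L8Bd (fun p : Ω × Ω => P.QX kc kc p) :=
    L8Bd.sum _ fun i _ => (cf (P.l8s_X_bd h kc i)).mul (cs (P.l8s_X_bd h kc i))
  have t0 : 0 ≤ η + ε := add_nonneg hb.hη hb.hε
  calc ∫ p, (P.QX kc kc p - Sbar) ^ (2 * r) ∂(P.fork k0)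
      ≤ ∫ p, 4 ^ (2 * r) / 4 * ((1 / 2) ^ (2 * r) * N p.1 ^ (2 * r) + (1 / 2) ^ (2 * r) * N p.2 ^ (2 * r)
          + D p.1 ^ (2 * r) + D p.2 ^ (2 * r)) ∂(P.fork k0) :=
        integral_mono_ae (((hQb.sub (l8Bd_const Sbar)).pow _).integrable _) ((j123.add j4).const_mul _) hpt
    _ = 4 ^ (2 * r) / 4 * ((1 / 2) ^ (2 * r) * ∫ ω, N ω ^ (2 * r) ∂P.μ + (1 / 2) ^ (2 * r) * ∫ ω, N ω ^ (2 * r) ∂P.μ
          + ∫ ω, D ω ^ (2 * r) ∂P.μ + ∫ ω, D ω ^ (2 * r) ∂P.μ) := by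
        rw [integral_const_mul, integral_add j123 j4, integral_add j12 j3, integral_add j1 j2,
          bcs_fork_fst_aux h k0 bN, bcs_fork_snd_aux h k0 bN, bcs_fork_fst_aux h k0 bD, bcs_fork_snd_aux h k0 bD,
          integral_const_mul]
    _ ≤ 4 ^ (2 * r) / 4 * ((1 / 2) ^ (2 * r) * (16 * (η + ε)) ^ (2 * r) + (1 / 2) ^ (2 * r) * (16 * (η + ε)) ^ (2 * r)
          + (64 * (η + ε)) ^ (2 * r) + (64 * (η + ε)) ^ (2 * r)) := by gcongr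
    _ ≤ 4 ^ (2 * r) / 4 * ((64 * (η + ε)) ^ (2 * r) + (64 * (η + ε)) ^ (2 * r)
          + (64 * (η + ε)) ^ (2 * r) + (64 * (η + ε)) ^ (2 * r)) := by
        have : (1 / 2 : ℝ) ^ (2 * r) * (16 * (η + ε)) ^ (2 * r) ≤ (64 * (η + ε)) ^ (2 * r) := by
          rw [← mul_pow]
          exact pow_le_pow_left₀ (by positivity) (by linarith) _
        gcongr
    _ = (256 * (η + ε)) ^ (2 * r) := by
        rw [show (256:ℝ) * (η + ε) = 4 * (64 * (η + ε)) by ring, mul_pow 4]; ring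

/-- LEAF L3 ((A1) line 3 on a radius buffer, 06-global l.512-517).  `len l` = radius length of the cut `l` inside the buffer, `∑ len = hb`, floor `κ' len l ≤ dv l`:
`Pin` with the polynomial `X` and the weight `w l = len l/(hb dv l)`; `dv w² = (len/hb)²/dv ≤ len/(hb² κ')`; `W ≥ 0` (`l8s_W_nonneg`).      TEX[LL:bud:common-star]
(helper2, 15 Oct: hypothesis `0 ≤ cpin` ADDED: for a deterministic `y` one has `W = 0`, `Pin r (-1)` holds and the old statement failed.) -/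
theorem bcs_lp_pin (h : P.Ok) (hr : 1 ≤ r) {cpin : ℝ} (hc : 0 ≤ cpin) (hpin : P.Pin r cpin) (s : Finset ℕ) (hs : ∀ l ∈ s, l ≤ P.n) (len : ℕ → ℝ)
    (hlen : ∀ l, 0 ≤ len l) {hb κ' Wb : ℝ} (hhb : 0 < hb) (hκ : 0 < κ') (hfl : ∀ l ∈ s, κ' * len l ≤ P.dv l)
    (hW : ∫ ω, (∑ l ∈ s, len l * P.W l ω) ^ r ∂P.μ ≤ Wb ^ r) :
    ∫ ω, ((∑ l ∈ s, len l / hb * P.L l ω) - ∫ ω', (∑ l ∈ s, len l / hb * P.L l ω') ∂P.μ) ^ (2 * r) ∂P.μ
      ≤ cpin * (Wb / (hb ^ 2 * κ')) ^ r := by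
  have := h.prob
  classical
  set w : ℕ → ℝ := fun l => if l ∈ s then len l / (hb * P.dv l) else 0 with hw
  have hsub : s ⊆ Finset.range (P.n + 1) := fun l hl => Finset.mem_range.mpr (Nat.lt_succ_of_le (hs l hl))
  have hdv0 : ∀ l ∈ s, 0 ≤ P.dv l := fun l hl => (mul_nonneg hκ.le (hlen l)).trans (hfl l hl)
  have hz : ∀ l ∈ s, P.dv l = 0 → len l = 0 := by
    intro l hl h0
    have h1 := hfl l hl
    rw [h0] at h1
    have h2 : len l ≤ 0 := by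
      by_contra hcon
      push Not at hcon
      have := mul_pos hκ hcon
      linarith
    exact le_antisymm h2 (hlen l)
  have key1 : ∀ l ∈ s, P.dv l * w l = len l / hb := by
    intro l hl
    simp only [hw, hl, if_true]
    by_cases h0 : P.dv l = 0
    · rw [hz l hl h0, h0]; simp
    · field_simp
  have key2 : ∀ l ∈ s, P.dv l * w l ^ 2 ≤ 1 / (hb ^ 2 * κ') * len l := by
    intro l hl
    simp only [hw, hl, if_true]
    by_cases h0 : P.dv l = 0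
    · rw [hz l hl h0, h0]; simp
    · have hp : 0 < P.dv l := lt_of_le_of_ne (hdv0 l hl) (Ne.symm h0)
      have e : P.dv l * (len l / (hb * P.dv l)) ^ 2 = len l * len l / (hb ^ 2 * P.dv l) := by
        field_simp
      rw [e, div_mul_eq_mul_div, one_mul, div_le_div_iff₀ (by positivity) (by positivity)]
      have h1 := mul_le_mul_of_nonneg_left (hfl l hl) (mul_nonneg (hlen l) (sq_nonneg hb))
      nlinarith
  have hP := hpin w (fun _ => Polynomial.X)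
  simp only [Polynomial.eval_X, Polynomial.derivative_X, Polynomial.eval_one, one_pow, mul_one] at hP
  have hLi : ∀ l, Integrable (fun ω => len l / hb * P.L l ω) P.μ := fun l => ((P.l8s_L_bd h l).const_mul _).integrable _
  have eL : ∀ ω, ∑ k ∈ Finset.range (P.n + 1), P.dv k * w k * (P.L k ω - ∫ ω', P.L k ω' ∂P.μ)
      = (∑ l ∈ s, len l / hb * P.L l ω) - ∫ ω', (∑ l ∈ s, len l / hb * P.L l ω') ∂P.μ := by
    intro ω
    rw [integral_finsetSum _ fun l _ => hLi l, ← Finset.sum_sub_distrib,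
      ← Finset.sum_subset hsub (fun k _ hk => by simp [hw, hk])]
    refine Finset.sum_congr rfl fun l hl => ?_
    rw [key1 l hl, integral_const_mul]; ring
  have eW : ∀ ω, ∑ k ∈ Finset.range (P.n + 1), P.dv k * w k ^ 2 * P.W k ω = ∑ l ∈ s, P.dv l * w l ^ 2 * P.W l ω := by
    intro ω
    rw [← Finset.sum_subset hsub (fun k _ hk => by simp [hw, hk])]
  simp only [eL, eW] at hP
  refine hP.trans (mul_le_mul_of_nonneg_left ?_ hc)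
  have hWb : L8Bd (fun ω => ∑ l ∈ s, len l * P.W l ω) := L8Bd.sum _ fun l _ => (P.l8s_W_bd h l).const_mul _
  have hVb : L8Bd (fun ω => ∑ l ∈ s, P.dv l * w l ^ 2 * P.W l ω) := L8Bd.sum _ fun l _ => (P.l8s_W_bd h l).const_mul _
  have hpt : ∀ ω, (∑ l ∈ s, P.dv l * w l ^ 2 * P.W l ω) ^ r
      ≤ (1 / (hb ^ 2 * κ')) ^ r * (∑ l ∈ s, len l * P.W l ω) ^ r := by
    intro ω
    rw [← mul_pow]
    refine pow_le_pow_left₀ (Finset.sum_nonneg fun l hl =>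
      mul_nonneg (mul_nonneg (hdv0 l hl) (sq_nonneg _)) (P.l8s_W_nonneg h l ω)) ?_ _
    rw [Finset.mul_sum]
    refine Finset.sum_le_sum fun l hl => ?_
    have := mul_le_mul_of_nonneg_right (key2 l hl) (P.l8s_W_nonneg h l ω)
    linarith
  calc ∫ ω, (∑ l ∈ s, P.dv l * w l ^ 2 * P.W l ω) ^ r ∂P.μ
      ≤ ∫ ω, (1 / (hb ^ 2 * κ')) ^ r * (∑ l ∈ s, len l * P.W l ω) ^ r ∂P.μ :=
        integral_mono ((hVb.pow _).integrable _) (((hWb.pow _).const_mul _).integrable _) hpt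
    _ = (1 / (hb ^ 2 * κ')) ^ r * ∫ ω, (∑ l ∈ s, len l * P.W l ω) ^ r ∂P.μ := integral_const_mul _ _
    _ ≤ (1 / (hb ^ 2 * κ')) ^ r * Wb ^ r := by gcongr
    _ = (Wb / (hb ^ 2 * κ')) ^ r := by rw [← mul_pow]; congr 1; ring

/-- LEAF L4 (assembly): `Q - S̄ = (Q - X¹_kc·X²_kc) + (X¹_kc·X²_kc - S̄)`.      TEX[LL:bud:common-star] -/
theorem bcs_lp_abs (h : P.Ok) (hr : 1 ≤ r) (hb : P.BcsBuf k0 kc sm sp ρm ρp r Sbar η ε) {Rb : ℝ} (hRb : 0 ≤ Rb)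
    (hres : ∫ p, (P.Q p - P.QX kc kc p) ^ (2 * r) ∂(P.fork k0) ≤ Rb ^ (2 * r)) :
    ∫ p, (P.Q p - Sbar) ^ (2 * r) ∂(P.fork k0) ≤ (2 * (256 * (η + ε) + Rb)) ^ (2 * r) := by
  have := h.prob
  have := P.l8s_fork_prob h k0
  have hpol := bcs_lp_pol h hr hb
  have cf : ∀ {f : Ω → ℝ}, L8Bd f → L8Bd (fun p : Ω × Ω => f p.1) := fun {f} hf =>
    ⟨hf.1.comp measurable_fst, hf.2.imp fun C hC p => hC p.1⟩
  have cs : ∀ {f : Ω → ℝ}, L8Bd f → L8Bd (fun p : Ω × Ω => f p.2) := fun {f} hf =>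
    ⟨hf.1.comp measurable_snd, hf.2.imp fun C hC p => hC p.2⟩
  have hQXb : L8Bd (fun p : Ω × Ω => P.QX kc kc p) :=
    L8Bd.sum _ fun i _ => (cf (P.l8s_X_bd h kc i)).mul (cs (P.l8s_X_bd h kc i))
  have hQb : L8Bd (fun p : Ω × Ω => P.Q p) := ⟨(P.l8s_fork_Q_bd_aux h).1, 1, (P.l8s_fork_Q_bd_aux h).2⟩
  have j1 := (((hQb.sub hQXb).pow (2 * r))).integrable (P.fork k0)
  have j2 := (((hQXb.sub (l8Bd_const Sbar)).pow (2 * r))).integrable (P.fork k0)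
  have t0 : 0 ≤ η + ε := add_nonneg hb.hη hb.hε
  have hpt : ∀ p, (P.Q p - Sbar) ^ (2 * r)
      ≤ 2 ^ (2 * r) / 2 * ((P.Q p - P.QX kc kc p) ^ (2 * r) + (P.QX kc kc p - Sbar) ^ (2 * r)) := by
    intro p
    have h2 := bcs_two_pow_aux (P.Q p - P.QX kc kc p) (P.QX kc kc p - Sbar) r
    rw [show P.Q p - P.QX kc kc p + (P.QX kc kc p - Sbar) = P.Q p - Sbar by ring] at h2
    have e : 2 ^ (2 * r) / 2 * ((P.Q p - P.QX kc kc p) ^ (2 * r) + (P.QX kc kc p - Sbar) ^ (2 * r))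
        = (2 ^ (2 * r) * ((P.Q p - P.QX kc kc p) ^ (2 * r) + (P.QX kc kc p - Sbar) ^ (2 * r))) / 2 := by ring
    rw [e]
    linarith
  calc ∫ p, (P.Q p - Sbar) ^ (2 * r) ∂(P.fork k0)
      ≤ ∫ p, 2 ^ (2 * r) / 2 * ((P.Q p - P.QX kc kc p) ^ (2 * r) + (P.QX kc kc p - Sbar) ^ (2 * r)) ∂(P.fork k0) :=
        integral_mono (((hQb.sub (l8Bd_const Sbar)).pow _).integrable _) ((j1.add j2).const_mul _) hpt
    _ = 2 ^ (2 * r) / 2 * (∫ p, (P.Q p - P.QX kc kc p) ^ (2 * r) ∂(P.fork k0)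
          + ∫ p, (P.QX kc kc p - Sbar) ^ (2 * r) ∂(P.fork k0)) := by
        rw [integral_const_mul, integral_add j1 j2]
    _ ≤ 2 ^ (2 * r) / 2 * (Rb ^ (2 * r) + (256 * (η + ε)) ^ (2 * r)) := by gcongr
    _ ≤ 2 ^ (2 * r) / 2 * ((256 * (η + ε) + Rb) ^ (2 * r) + (256 * (η + ε) + Rb) ^ (2 * r)) := by
        have a1 : Rb ^ (2 * r) ≤ (256 * (η + ε) + Rb) ^ (2 * r) := pow_le_pow_left₀ hRb (by linarith) _
        have a2 : (256 * (η + ε)) ^ (2 * r) ≤ (256 * (η + ε) + Rb) ^ (2 * r) :=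
          pow_le_pow_left₀ (by positivity) (by linarith) _
        gcongr
    _ = (2 * (256 * (η + ε) + Rb)) ^ (2 * r) := by rw [mul_pow 2]; ring

/-- the one-sided RESAMPLED residual of order `2r`: fork at `k0`, the first branch `p.1` is resampled from the cut `kc` (label `a`), the anchor is the second branch `p.2`
(SK instance: `cvRes n P k0 kc r`, tree `cvStar 3 k0 kc`: `bcs_l8i_rs3` in `Bud/StarW.lean`) -/
def bcsRs3 (P : L8P Ω m) (k0 kc r : ℕ) : ℝ :=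
  ∫ p, ∫ a, (∑ i, (P.y i p.1 - P.y i a) * P.y i p.2) ^ (2 * r) ∂(P.κ kc p.1) ∂(P.fork k0)

theorem bcs_inner3_bd_aux (h : P.Ok) (k : ℕ) {G : (Ω × Ω) × Ω → ℝ} (hG : L8Bd G) :
    L8Bd (fun p : Ω × Ω => ∫ a, G (p, a) ∂(P.κ k p.1)) := by
  have := h.markov k
  obtain ⟨hm, c, hc⟩ := hG
  refine ⟨?_, c, fun p => ?_⟩
  · have h1 := (StronglyMeasurable.integral_kernel_prod_right' (κ := (P.κ k).comap Prod.fst measurable_fst)
      hm.stronglyMeasurable).measurable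
    simpa only [Kernel.comap_apply] using h1
  · have h1 := norm_integral_le_of_norm_le_const (μ := P.κ k p.1) (f := fun a => G (p, a)) (C := c)
      (ae_of_all _ fun x => by simpa [Real.norm_eq_abs] using hc (p, x))
    simpa [Real.norm_eq_abs] using h1

theorem bcs_bd_prod_aux {α ι : Type} [MeasurableSpace α] (s : Finset ι) {f : ι → α → ℝ} (hf : ∀ i ∈ s, L8Bd (f i)) :
    L8Bd (fun x => ∏ i ∈ s, f i x) := by
  classical
  induction s using Finset.induction_on with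
  | empty => simpa using l8Bd_const (Ω := α) 1
  | insert a s ha ih =>
    simp only [Finset.prod_insert ha]
    exact (hf a (Finset.mem_insert_self a s)).mul (ih fun i hi => hf i (Finset.mem_insert_of_mem hi))

theorem bcs_fork_E_prod_aux (h : P.Ok) (hk : k0 ≤ kc) {f g : Ω → ℝ} (hf : L8Bd f) (hg : L8Bd g) :
    ∫ p, P.E kc f p.1 * g p.2 ∂(P.fork k0) = ∫ p, f p.1 * g p.2 ∂(P.fork k0) := by
  rw [P.l8s_fork_prod h k0 (P.l8s_E_bd h kc hf) hg, P.l8s_fork_prod h k0 hf hg]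
  simp only [P.l8s_E_tower h hk hf]

theorem bcs_fork_E_pow_aux (h : P.Ok) (hk : k0 ≤ kc) (n : ℕ) (c : Fin m → Ω → ℝ) (hc : ∀ i, L8Bd (c i)) :
    ∫ p, P.E kc (fun a => (∑ i, P.y i a * c i p.2) ^ n) p.1 ∂(P.fork k0)
      = ∫ p, (∑ i, P.y i p.1 * c i p.2) ^ n ∂(P.fork k0) := by
  have := P.l8s_fork_prob h k0
  have hy := P.l8s_y_bd h
  have hY : ∀ φ : Fin n → Fin m, L8Bd (fun a => ∏ j, P.y (φ j) a) := fun φ => bcs_bd_prod_aux _ fun j _ => hy (φ j)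
  have hC : ∀ φ : Fin n → Fin m, L8Bd (fun a => ∏ j, c (φ j) a) := fun φ => bcs_bd_prod_aux _ fun j _ => hc (φ j)
  have e : ∀ a b : Ω, (∑ i, P.y i a * c i b) ^ n = ∑ φ : Fin n → Fin m, (∏ j, P.y (φ j) a) * ∏ j, c (φ j) b := by
    intro a b
    rw [Fintype.sum_pow]
    exact Finset.sum_congr rfl fun φ _ => Finset.prod_mul_distrib
  have e2 : ∀ p : Ω × Ω, P.E kc (fun a => (∑ i, P.y i a * c i p.2) ^ n) p.1
      = ∑ φ : Fin n → Fin m, P.E kc (fun a => ∏ j, P.y (φ j) a) p.1 * ∏ j, c (φ j) p.2 := by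
    intro p
    simp only [e]
    rw [P.l8s_E_sum h kc _ fun φ _ => (hY φ).mul_const _]
    exact Finset.sum_congr rfl fun φ _ => P.l8s_E_mul_const kc _ _ _
  simp only [e2]
  simp only [e]
  rw [integral_finsetSum _ fun φ _ => P.l8s_fork_int2_aux h k0 (P.l8s_E_bd h kc (hY φ)) (hC φ),
    integral_finsetSum _ fun φ _ => P.l8s_fork_int2_aux h k0 (hY φ) (hC φ)]
  exact Finset.sum_congr rfl fun φ _ => bcs_fork_E_prod_aux h hk (hY φ) (hC φ)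

/-- LEAF L5a: `(y - X_kc)(ω)·y(ω') = E_a[(y(ω) - y(a))·y(ω')]`, `a ∼ κ kc ω`; conditional Jensen (`l8s_E_pow_le`). -/
theorem bcs_lp_resA (h : P.Ok) (k0 kc r : ℕ) :
    ∫ p, (∑ i, P.R kc i p.1 * P.y i p.2) ^ (2 * r) ∂(P.fork k0) ≤ P.bcsRs3 k0 kc r := by
  have := h.prob
  have := P.l8s_fork_prob h k0
  unfold L8P.bcsRs3
  have hy := P.l8s_y_bd h
  have hG : L8Bd (fun q : (Ω × Ω) × Ω => (∑ i, (P.y i q.1.1 - P.y i q.2) * P.y i q.1.2) ^ (2 * r)) :=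
    (L8Bd.sum _ fun i _ => ((l8k_bd_comp (measurable_fst.comp measurable_fst) (hy i)).sub
      (l8k_bd_comp measurable_snd (hy i))).mul (l8k_bd_comp (measurable_snd.comp measurable_fst) (hy i))).pow _
  have hL : L8Bd (fun p : Ω × Ω => (∑ i, P.R kc i p.1 * P.y i p.2) ^ (2 * r)) :=
    (L8Bd.sum _ fun i _ => (l8k_bd_comp measurable_fst (P.l8sb_R_bd h kc i)).mul (l8k_bd_comp measurable_snd (hy i))).pow _
  refine integral_mono (hL.integrable _) ((bcs_inner3_bd_aux h kc hG).integrable _) fun p => ?_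
  have hf : L8Bd (fun a => ∑ i, (P.y i p.1 - P.y i a) * P.y i p.2) :=
    L8Bd.sum _ fun i _ => ((l8Bd_const _).sub (hy i)).mul_const _
  have e : P.E kc (fun a => ∑ i, (P.y i p.1 - P.y i a) * P.y i p.2) p.1 = ∑ i, P.R kc i p.1 * P.y i p.2 := by
    rw [P.l8s_E_sum h kc _ fun i _ => ((l8Bd_const _).sub (hy i)).mul_const _]
    refine Finset.sum_congr rfl fun i _ => ?_
    rw [P.l8s_E_mul_const, P.l8s_E_sub h kc (l8Bd_const _) (hy i), P.l8s_E_const h]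
    rfl
  have j := P.l8s_E_pow_le h kc hf (2 * r) p.1
  rw [e] at j
  have a1 : ∀ x : ℝ, |x| ^ (2 * r) = x ^ (2 * r) := fun x => by rw [pow_mul, pow_mul, sq_abs]
  simp only [a1] at j
  exact j

/-- LEAF L5b: `X_kc(ω)·(y - X_kc)(ω') = E_{a,b}[y(a)·(y(ω') - y(b))]`, `a ∼ κ kc ω`, `b ∼ κ kc ω'`; Jensen; the law of `(a, ω')` is again the fork law at `k0`
(`κ k0 ω = κ k0 a` for `κ kc ω`-a.e. `a` since `k0 ≤ kc`: `proper`, `adapted`; `tower`); then `l8s_fork_swap`. -/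
theorem bcs_lp_resB (h : P.Ok) (hk : k0 ≤ kc) (r : ℕ) :
    ∫ p, (∑ i, P.X kc i p.1 * P.R kc i p.2) ^ (2 * r) ∂(P.fork k0) ≤ P.bcsRs3 k0 kc r := by
  have := h.prob
  have := P.l8s_fork_prob h k0
  have hy := P.l8s_y_bd h
  have hR := P.l8sb_R_bd h kc
  have a1 : ∀ x : ℝ, |x| ^ (2 * r) = x ^ (2 * r) := fun x => by rw [pow_mul, pow_mul, sq_abs]
  have hL : L8Bd (fun p : Ω × Ω => (∑ i, P.X kc i p.1 * P.R kc i p.2) ^ (2 * r)) :=
    (L8Bd.sum _ fun i _ => (l8k_bd_comp measurable_fst (P.l8s_X_bd h kc i)).mul (l8k_bd_comp measurable_snd (hR i))).pow _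
  have hG : L8Bd (fun q : (Ω × Ω) × Ω => (∑ i, P.y i q.2 * P.R kc i q.1.2) ^ (2 * r)) :=
    (L8Bd.sum _ fun i _ => (l8k_bd_comp measurable_snd (hy i)).mul
      (l8k_bd_comp (measurable_snd.comp measurable_fst) (hR i))).pow _
  have s1 : ∫ p, (∑ i, P.X kc i p.1 * P.R kc i p.2) ^ (2 * r) ∂(P.fork k0)
      ≤ ∫ p, P.E kc (fun a => (∑ i, P.y i a * P.R kc i p.2) ^ (2 * r)) p.1 ∂(P.fork k0) := by
    refine integral_mono (hL.integrable _) ((bcs_inner3_bd_aux h kc hG).integrable _) fun p => ?_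
    have hf : L8Bd (fun a => ∑ i, P.y i a * P.R kc i p.2) := L8Bd.sum _ fun i _ => (hy i).mul_const _
    have e : P.E kc (fun a => ∑ i, P.y i a * P.R kc i p.2) p.1 = ∑ i, P.X kc i p.1 * P.R kc i p.2 := by
      rw [P.l8s_E_sum h kc _ fun i _ => (hy i).mul_const _]
      refine Finset.sum_congr rfl fun i _ => ?_
      rw [P.l8s_E_mul_const]
      rfl
    have j := P.l8s_E_pow_le h kc hf (2 * r) p.1
    rw [e] at j
    simp only [a1] at j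
    exact j
  refine s1.trans ?_
  rw [bcs_fork_E_pow_aux h hk (2 * r) (P.R kc) hR]
  refine le_trans (le_of_eq ?_) (bcs_lp_resA h k0 kc r)
  have hM : L8Bd (fun p : Ω × Ω => (∑ i, P.y i p.1 * P.R kc i p.2) ^ (2 * r)) :=
    (L8Bd.sum _ fun i _ => (l8k_bd_comp measurable_fst (hy i)).mul (l8k_bd_comp measurable_snd (hR i))).pow _
  have e := integral_map (μ := P.fork k0) (φ := Prod.swap) measurable_swap.aemeasurable
    (f := fun p : Ω × Ω => (∑ i, P.y i p.1 * P.R kc i p.2) ^ (2 * r)) hM.1.aestronglyMeasurable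
  rw [P.l8s_fork_swap h k0] at e
  rw [e]
  refine integral_congr_ae (ae_of_all _ fun p => ?_)
  simp only [Prod.fst_swap, Prod.snd_swap]
  congr 1
  exact Finset.sum_congr rfl fun i _ => mul_comm _ _

/-- LEAF L5: `Q - X¹_kc·X²_kc = (y - X_kc)(ω)·y(ω') + X_kc(ω)·(y - X_kc)(ω')`, `(a+b)^(2r) ≤ 2^(2r-1)(a^(2r) + b^(2r))`. -/
theorem bcs_lp_res (h : P.Ok) (hk : k0 ≤ kc) (r : ℕ) :
    ∫ p, (P.Q p - P.QX kc kc p) ^ (2 * r) ∂(P.fork k0) ≤ 2 ^ (2 * r) * P.bcsRs3 k0 kc r := by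
  have := h.prob
  have := P.l8s_fork_prob h k0
  have hy := P.l8s_y_bd h
  have hR := P.l8sb_R_bd h kc
  have hA := bcs_lp_resA h k0 kc r
  have hB := bcs_lp_resB h hk r
  have bA : L8Bd (fun p : Ω × Ω => (∑ i, P.R kc i p.1 * P.y i p.2) ^ (2 * r)) :=
    (L8Bd.sum _ fun i _ => (l8k_bd_comp measurable_fst (hR i)).mul (l8k_bd_comp measurable_snd (hy i))).pow _
  have bB : L8Bd (fun p : Ω × Ω => (∑ i, P.X kc i p.1 * P.R kc i p.2) ^ (2 * r)) :=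
    (L8Bd.sum _ fun i _ => (l8k_bd_comp measurable_fst (P.l8s_X_bd h kc i)).mul (l8k_bd_comp measurable_snd (hR i))).pow _
  have jA := bA.integrable (P.fork k0)
  have jB := bB.integrable (P.fork k0)
  have e : ∀ p, P.Q p - P.QX kc kc p = ∑ i, P.R kc i p.1 * P.y i p.2 + ∑ i, P.X kc i p.1 * P.R kc i p.2 := by
    intro p
    simp only [L8P.Q, L8P.QX, L8P.R]
    rw [← Finset.sum_sub_distrib, ← Finset.sum_add_distrib]
    exact Finset.sum_congr rfl fun i _ => by ring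
  have hpt : ∀ p, (P.Q p - P.QX kc kc p) ^ (2 * r)
      ≤ 2 ^ (2 * r) / 2 * ((∑ i, P.R kc i p.1 * P.y i p.2) ^ (2 * r) + (∑ i, P.X kc i p.1 * P.R kc i p.2) ^ (2 * r)) := by
    intro p
    rw [e p]
    have h2 := bcs_two_pow_aux (∑ i, P.R kc i p.1 * P.y i p.2) (∑ i, P.X kc i p.1 * P.R kc i p.2) r
    have e3 : 2 ^ (2 * r) / 2 * ((∑ i, P.R kc i p.1 * P.y i p.2) ^ (2 * r) + (∑ i, P.X kc i p.1 * P.R kc i p.2) ^ (2 * r))
        = (2 ^ (2 * r) * ((∑ i, P.R kc i p.1 * P.y i p.2) ^ (2 * r) + (∑ i, P.X kc i p.1 * P.R kc i p.2) ^ (2 * r))) / 2 := by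
      ring
    rw [e3]
    linarith
  have hQXb : L8Bd (fun p : Ω × Ω => P.QX kc kc p) :=
    L8Bd.sum _ fun i _ => (l8k_bd_comp measurable_fst (P.l8s_X_bd h kc i)).mul (l8k_bd_comp measurable_snd (P.l8s_X_bd h kc i))
  have hQb : L8Bd (fun p : Ω × Ω => P.Q p) := ⟨(P.l8s_fork_Q_bd_aux h).1, 1, (P.l8s_fork_Q_bd_aux h).2⟩
  calc ∫ p, (P.Q p - P.QX kc kc p) ^ (2 * r) ∂(P.fork k0)
      ≤ ∫ p, 2 ^ (2 * r) / 2 * ((∑ i, P.R kc i p.1 * P.y i p.2) ^ (2 * r)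
          + (∑ i, P.X kc i p.1 * P.R kc i p.2) ^ (2 * r)) ∂(P.fork k0) :=
        integral_mono (((hQb.sub hQXb).pow _).integrable _) ((jA.add jB).const_mul _) hpt
    _ = 2 ^ (2 * r) / 2 * (∫ p, (∑ i, P.R kc i p.1 * P.y i p.2) ^ (2 * r) ∂(P.fork k0)
          + ∫ p, (∑ i, P.X kc i p.1 * P.R kc i p.2) ^ (2 * r) ∂(P.fork k0)) := by
        rw [integral_const_mul, integral_add jA jB]
    _ ≤ 2 ^ (2 * r) / 2 * (P.bcsRs3 k0 kc r + P.bcsRs3 k0 kc r) := by gcongr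
    _ = 2 ^ (2 * r) * P.bcsRs3 k0 kc r := by ring

/-- L6 = L4 + L5 (proved) -/
theorem bcs_lp_abs3 (h : P.Ok) (hr : 1 ≤ r) (hb : P.BcsBuf k0 kc sm sp ρm ρp r Sbar η ε) {Rb : ℝ} (hRb : 0 ≤ Rb)
    (hres : P.bcsRs3 k0 kc r ≤ Rb ^ (2 * r)) :
    ∫ p, (P.Q p - Sbar) ^ (2 * r) ∂(P.fork k0) ≤ (2 * (256 * (η + ε) + 2 * Rb)) ^ (2 * r) := by
  refine bcs_lp_abs h hr hb (by positivity) ((bcs_lp_res h hb.hk r).trans ?_)
  rw [mul_pow]
  exact mul_le_mul_of_nonneg_left hres (by positivity)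

end L8P

/-! ## 2. L-PATH, world level: arbitrary clocks, numbers of `BdWorld` -/

/-- a deterministic probability weight on the masses `(a,b)` -/
structure BcsWt (κ : ℝ → ℝ) (a b : ℝ) : Prop where
  meas : Measurable κ
  nonneg : ∀ v, 0 ≤ κ v
  bdd : ∃ C, ∀ v, κ v ≤ C
  supp : ∀ v, v ∉ Ioo a b → κ v = 0
  mass : ∫ v in a..b, κ v = 1

/-- the one-sided RESAMPLED residual `E ((y_0 - y_1)·y_2)^(2l)` for arbitrary clocks: the labels `0, 1` share the path up to the mass `c`, the label `2` leaves them at the mass `v ≤ c` -/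
def bcsRs (W : BdWorld) (m : ℕ) (b h : ℝ → ℝ) (l : ℕ) (v c : ℝ) : ℝ :=
  W.nu m b h 3 (fun a e => if a = 2 ∨ e = 2 then v else c) fun O => (O 0 2 - O 1 2) ^ (2 * l)

/-- **bracket + polarisation + residual, in numbers** (shape (S)): fork at the mass `v0`, central cut `vc`, earlier weight on `(am,v0)`, later weight on `(vc,ap)`;
`S` is monotone, so its oscillation on the buffers is controlled at the two outer endpoints -/
def BcsWLp (W : BdWorld) : Prop :=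
  ∀ (m : ℕ) (b h : ℝ → ℝ), 0 < m → IsClock 1 b → IsClock 1 h → ∀ r : ℕ, 1 ≤ r →
    ∀ am v0 vc ap : ℝ, 0 < am → am < v0 → v0 < vc → vc < ap → ap < 1 →
    ∀ κm κp : ℝ → ℝ, BcsWt κm am v0 → BcsWt κp vc ap → ∀ s η ε Rb : ℝ, 0 ≤ η → 0 ≤ ε → 0 ≤ Rb →
      s - η ≤ (W.ps m).S b h am → (W.ps m).S b h ap ≤ s + η →
      W.nLc m b h (2 * r) κm ≤ ε → W.nLc m b h (2 * r) κp ≤ ε → bcsRs W m b h r v0 vc ≤ Rb ^ (2 * r) →
      W.nu m b h 2 (fun _ _ => v0) (fun O => |O 0 1 - s| ^ (2 * (r : ℝ))) ≤ (2 * (256 * (η + ε) + 2 * Rb)) ^ (2 * r)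

/-- **(A1), line 3**, in numbers (shape (U)).      TEX[LL:found:estimates] -/
def BcsWA1 (W : BdWorld) : Prop :=
  ∀ r : ℕ, 1 ≤ r → ∃ cr : ℝ, 0 < cr ∧ ∀ (m : ℕ) (b h : ℝ → ℝ), 0 < m → IsClock 1 b → IsClock 1 h →
    ∀ κ : ℝ → ℝ, Measurable κ → (∃ C, ∀ v, |κ v| ≤ C) → W.nLc m b h (2 * r) κ ^ 2 ≤ cr * W.nWw m b h r fun v => κ v ^ 2

/-- `‖∫ κ W dv‖_p` is monotone and homogeneous in the weight (`W_v ≥ 0`) -/
def BcsWMono (W : BdWorld) : Prop :=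
  ∀ (m : ℕ) (b h : ℝ → ℝ), 0 < m → IsClock 1 b → IsClock 1 h → ∀ p : ℝ, 1 ≤ p → ∀ (κ1 κ2 : ℝ → ℝ) (c : ℝ), 0 ≤ c →
    Measurable κ1 → Measurable κ2 → (∃ C, ∀ v, |κ2 v| ≤ C) → (∀ v, 0 ≤ κ1 v ∧ κ1 v ≤ c * κ2 v) →
    W.nWw m b h p κ1 ≤ c * W.nWw m b h p κ2

/-- the norms `‖Q_v - s‖_p` increase with `p` (in the form used: from an even order down to a real order) -/
def BcsWJen (W : BdWorld) : Prop :=
  ∀ (m : ℕ) (b h : ℝ → ℝ), 0 < m → IsClock 1 b → IsClock 1 h → ∀ v ∈ Ioo (0 : ℝ) 1, ∀ (s p : ℝ) (r : ℕ), 1 ≤ p → p ≤ 2 * (r : ℝ) → ∀ A : ℝ, 0 ≤ A →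
    (W.nu m b h 2 (fun _ _ => v) fun O => |O 0 1 - s| ^ (2 * (r : ℝ))) ≤ A ^ (2 * r) →
    (W.nu m b h 2 (fun _ _ => v) fun O => |O 0 1 - s| ^ p) ^ (1 / p) ≤ A

/-- the trivial bound `‖Q_v - s‖_p ≤ 2` -/
def BcsWBd (W : BdWorld) : Prop :=
  ∀ (m : ℕ) (b h : ℝ → ℝ), 0 < m → IsClock 1 b → IsClock 1 h → ∀ v ∈ Ioo (0 : ℝ) 1, ∀ s p : ℝ, |s| ≤ 1 → 1 ≤ p →
    (W.nu m b h 2 (fun _ _ => v) fun O => |O 0 1 - s| ^ p) ^ (1 / p) ≤ 2

/-- all the world-level facts.      PRODUCER: `bcs_world_inst : W.IsHub → BcsWorld W` (`Bud/StarW.lean`, owner helper190) -/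
structure BcsWorld (W : BdWorld) : Prop where
  lp : BcsWLp W
  a1 : BcsWA1 W
  mono : BcsWMono W
  jen : BcsWJen W
  bd : BcsWBd W

/-! ## 3. Frame level -/

section frame
variable {X : BdFix} (W : BdWorld) (P : BcsIn X → Prop)

/-- **(C9)** (with `Q_raw = O(1)`, i.e. after (C8)) on the regular RADIUS window `[c Ka W/2, 3 C Ka W]`.      INSTANCE: N5 (helper109/helper7), TEX[LL:bud:outer-moments] -/
def BcsC9 (K : BcsK) : Prop :=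
  ∃ Kr : ℝ, 1 ≤ Kr ∧ ∀ Ka : ℝ, Kr ≤ Ka → ∀ l : ℕ, 1 ≤ l → ∀ ε : ℝ, 0 < ε → ∃ (Cc : ℝ) (N0 : ℕ), 0 < Cc ∧ ∀ I, P I → N0 ≤ I.F.N →
    I.Q.nWr W I.g l (K.c * Ka * I.Ws / 2) (3 * K.C * Ka * I.Ws) ≤ Cc * I.F.x ^ (-ε) * (I.F.x ^ 6 / I.F.C0)

/-- **the resampled residual with a SHORT first projection interval** (l.530-532; Lemma 7.4 l.243-245, PE (16)): the label `2` leaves at the mass `v ≍ W`, the label `0` is resampled from the cut `vc`,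
`θ = r(vc) - r(v) ∈ [x W, W]`: (A3) on `[v, vc]` (mass `≍ W`, field length `C0 θ`, anchor `‖X‖ ≲ √W` by (C8)), then the synchronized layers at doubling distances / scales.
INSTANCE: N5 (helper109/helper7), TEX[LL:bud:outer-moments] -/
def BcsRes : Prop :=
  ∃ Kr : ℝ, 1 ≤ Kr ∧ ∀ Ka : ℝ, Kr ≤ Ka → ∀ l : ℕ, 1 ≤ l → ∀ ε : ℝ, 0 < ε → ∃ (Cc : ℝ) (N0 : ℕ), 0 < Cc ∧ ∀ I, P I → N0 ≤ I.F.N →
    ∀ v vc : ℝ, Ka * I.Ws ≤ v → v ≤ 2 * Ka * I.Ws → v < vc → vc < 1 → I.F.x * I.Ws ≤ I.Q.r vc - I.Q.r v → I.Q.r vc - I.Q.r v ≤ I.Ws →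
      bcsRs W I.F.m (I.Q.bq I.g) (I.Q.hq I.g) l v vc
        ≤ (Cc * I.F.x ^ (-ε) * (I.F.x ^ 3 / Real.sqrt (I.Ws * I.F.C0 * (I.Q.r vc - I.Q.r v)))) ^ (2 * l)

end frame

/-- the buffer length `h' = x^(4ζ) W` -/
def BcsIn.hb {X : BdFix} (I : BcsIn X) : ℝ := I.F.x ^ (4 * X.zeta) * I.Ws

/-- `w ↦ w⁴ A/(Cb w + b)²` is nondecreasing -/
theorem bcs_hn_mono {A b Cb w Wv : ℝ} (hA : 0 ≤ A) (hb : 0 < b) (hCb : 0 ≤ Cb) (hw : 0 < w) (hwW : w ≤ Wv) :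
    w ^ 4 * (A / (Cb * w + b) ^ 2) ≤ Wv ^ 4 * (A / (Cb * Wv + b) ^ 2) := by
  have hW : 0 < Wv := hw.trans_le hwW
  have d1 : 0 < Cb * w + b := by positivity
  have d2 : 0 < Cb * Wv + b := by positivity
  have key : w ^ 2 * (Cb * Wv + b) ≤ Wv ^ 2 * (Cb * w + b) := by
    have h1 : 0 ≤ Cb * (Wv * w) * (Wv - w) := mul_nonneg (mul_nonneg hCb (by positivity)) (sub_nonneg.2 hwW)
    have h2 : 0 ≤ b * ((Wv - w) * (Wv + w)) := mul_nonneg hb.le (mul_nonneg (sub_nonneg.2 hwW) (by positivity))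
    nlinarith
  have key2 : (w ^ 2 * (Cb * Wv + b)) ^ 2 ≤ (Wv ^ 2 * (Cb * w + b)) ^ 2 := pow_le_pow_left₀ (by positivity) key 2
  rw [mul_div_assoc', mul_div_assoc', div_le_div_iff₀ (by positivity) (by positivity)]
  nlinarith [mul_le_mul_of_nonneg_left key2 hA]

/-- LEAF A8 (l.533-541): `m C0 k(O(W)) W⁴ ≫ 1`, `m C0 W⁴ ≫ 1` (as LEAF A3, with `W ≥ w ≥ w_c`).      TEX[LL:bud:common-star] -/
theorem bcs_num_lp (X : BdFix) (hX : X.Ok) (cs Cb : ℝ) (hcs : 0 < cs) (hCb : 1 ≤ Cb) :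
    ∃ N0 : ℕ, ∀ F : BdFr, F.Ok X → N0 ≤ F.N → ∀ w : ℝ, F.wc X ≤ w → F.Strong X w cs →
      0 < F.k X (Cb * F.Wsc X w) ∧ F.x ^ 6 / (F.C0 * F.Wsc X w ^ 4) / F.k X (Cb * F.Wsc X w) ≤ F.x ^ (12 * X.zeta) ∧
        F.x ^ 6 / (F.C0 * F.Wsc X w ^ 4) ≤ F.x ^ (12 * X.zeta) := by
  obtain ⟨N1, h1⟩ := bcs_num_sw X hX cs Cb hcs hCb
  obtain ⟨N2, h2⟩ := bcs_num_scale X hX cs 1 1 hcs one_pos le_rfl
  refine ⟨max N1 N2, fun F hF hN w hw hs => ?_⟩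
  obtain ⟨k0, a1, a2⟩ := h1 F hF ((le_max_left _ _).trans hN) w hw hs
  have sc := h2 F hF ((le_max_right _ _).trans hN) w hw hs
  obtain ⟨Wv, hWv⟩ : ∃ Wv, Wv = F.Wsc X w := ⟨_, rfl⟩
  rw [← hWv]
  have hwW : w ≤ Wv := hWv ▸ sc.wW
  have hw0 := sc.w0
  have hW0 : 0 < Wv := hw0.trans_le hwW
  have hN0 : 0 < (F.call X).N := bud_gb_N_pos hF
  have hu := bud_gb_us_pos hX hF
  have kW : 0 < F.k X (Cb * Wv) := bud_gb_k_pos (F.call X) hN0 hu (by positivity)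
  have hx6 : 0 < F.x ^ 6 := pow_pos sc.x0 6
  have hmono : w ^ 4 * F.k X (Cb * w) ≤ Wv ^ 4 * F.k X (Cb * Wv) := by
    unfold BdFr.k CmCall.k
    exact bcs_hn_mono (by positivity) (by positivity) (by linarith) hw0 hwW
  refine ⟨kW, le_trans ?_ a1, le_trans ?_ a2⟩
  · rw [div_div, div_div]
    apply div_le_div_of_nonneg_left hx6.le (by have := sc.C00; positivity)
    have := mul_le_mul_of_nonneg_left hmono sc.C00.le
    nlinarith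
  · apply div_le_div_of_nonneg_left hx6.le (by have := sc.C00; positivity)
    exact mul_le_mul_of_nonneg_left (pow_le_pow_left₀ hw0.le hwW 4) sc.C00.le

/-- the weight of the normalised radius average over `[r1, r2]`, in mass coordinates: `dr/(r2-r1) = r'(v) dv/(r2-r1)` -/
def bcsWt {F : BdFr} {X : BdFix} (Q : BdQ F X) (r1 r2 : ℝ) (v : ℝ) : ℝ :=
  if v ∈ Ioo (Q.al r1) (Q.al r2) then deriv Q.r v / (r2 - r1) else 0

section glue
variable {X : BdFix} {W : BdWorld} {Fam : BdFr → Prop} {K : BcsK}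

/-- local slopes of the inverse distribution and of the quantile on a radius window with floor `κ'` -/
theorem bcs_hw_slope (hX : X.Ok) {F : BdFr} (hF : F.Ok X) (Q : BdQ F X) {r1 r2 κ' : ℝ} (h0 : 0 ≤ r1) (h2 : r2 ≤ 1)
    (hfl : ∀ r ∈ Icc r1 r2, κ' ≤ F.kbar X r) {s t : ℝ} (hs : r1 ≤ s) (hst : s ≤ t) (ht : t ≤ r2) :
    κ' * (t - s) ≤ Q.al t - Q.al s := by
  have hbox := bud_gb_box hX hF
  have h1 := Q.lo s t (h0.trans hs) hst (ht.trans h2)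
  rw [← bud_gb_int_Kb F X (h0.trans hs) hst (ht.trans h2)] at h1
  have h3 : ∫ _r in s..t, κ' ≤ ∫ r in s..t, budKb F X r := by
    refine intervalIntegral.integral_mono_on hst intervalIntegrable_const (hbox.kb_intervalIntegrable s t) fun r hr => ?_
    rw [bud_gb_Kb_eq F X ⟨(h0.trans hs).trans hr.1, (hr.2.trans ht).trans h2⟩]
    exact hfl r ⟨hs.trans hr.1, hr.2.trans ht⟩
  rw [intervalIntegral.integral_const, smul_eq_mul] at h3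
  linarith

/-- LEAF C7: the radius-buffer weight is a probability weight, bounded by `1/((r2-r1) κ')` when `k̄ ≥ κ'` on `[r1,r2]`
(`r` is Lipschitz and `r' ≤ 1/κ'` on the band by `BdQ.lo`; FTC for Lipschitz functions) -/
theorem bcs_wt {I : BcsIn X} (hX : X.Ok) (hI : I.Cls W Fam K) {r1 r2 κ' : ℝ} (h0 : 0 < r1) (h12 : r1 < r2) (h2 : r2 < 1) (hκ : 0 < κ')
    (hfl : ∀ r ∈ Icc r1 r2, κ' ≤ I.F.kbar X r) :
    BcsWt (bcsWt I.Q r1 r2) (I.Q.al r1) (I.Q.al r2) ∧ ∀ v, bcsWt I.Q r1 r2 v ≤ 1 / ((r2 - r1) * κ') := by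
  obtain ⟨hrm, hrc⟩ := bcs_hc_r hX hI.ok I.Q
  have hsl := fun {s t : ℝ} => bcs_hw_slope hX hI.ok I.Q h0.le h2.le hfl (s := s) (t := t)
  have hr1 : r1 ∈ Icc (0 : ℝ) 1 := ⟨h0.le, (h12.trans h2).le⟩
  have hr2 : r2 ∈ Icc (0 : ℝ) 1 := ⟨(h0.trans h12).le, h2.le⟩
  have hd : 0 < r2 - r1 := sub_pos.2 h12
  -- `al` maps into `[0,1]`
  obtain ⟨hdn, hal, hq⟩ := bud_dens_of_bdq X hX I.F hI.ok I.Q
  have hbox := bud_gb_box hX hI.ok
  have ha1 : I.Q.al r1 ∈ Icc (0 : ℝ) 1 := by rw [← hal r1 hr1]; exact budAl_mem_Icc hbox hdn hr1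
  have ha2 : I.Q.al r2 ∈ Icc (0 : ℝ) 1 := by rw [← hal r2 hr2]; exact budAl_mem_Icc hbox hdn hr2
  have ha12 : I.Q.al r1 < I.Q.al r2 := by
    have := hsl le_rfl h12.le le_rfl
    nlinarith
  have hsub : Icc (I.Q.al r1) (I.Q.al r2) ⊆ Icc (0 : ℝ) 1 := Icc_subset_Icc ha1.1 ha2.2
  -- the quantile of the window lies in the window
  have hwin : ∀ v ∈ Icc (I.Q.al r1) (I.Q.al r2), I.Q.r v ∈ Icc r1 r2 := by
    intro v hv
    constructor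
    · have := hrm ha1 (hsub hv) hv.1
      rwa [I.Q.r_al r1 hr1] at this
    · have := hrm (hsub hv) ha2 hv.2
      rwa [I.Q.r_al r2 hr2] at this
  -- Lipschitz with the constant `1/κ'`
  have hlip : LipschitzOnWith (Real.toNNReal (1 / κ')) I.Q.r (Icc (I.Q.al r1) (I.Q.al r2)) := by
    have key : ∀ v ∈ Icc (I.Q.al r1) (I.Q.al r2), ∀ w ∈ Icc (I.Q.al r1) (I.Q.al r2), v ≤ w →
        |I.Q.r v - I.Q.r w| ≤ 1 / κ' * |v - w| := by
      intro v hv w hw hvw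
      have hm := hrm (hsub hv) (hsub hw) hvw
      have h3 := hsl (hwin v hv).1 hm (hwin w hw).2
      rw [I.Q.al_r v (hsub hv), I.Q.al_r w (hsub hw)] at h3
      rw [abs_sub_comm, abs_sub_comm v w, abs_of_nonneg (sub_nonneg.2 hm), abs_of_nonneg (sub_nonneg.2 hvw),
        one_div, inv_mul_eq_div, le_div_iff₀ hκ]
      linarith
    refine LipschitzOnWith.of_dist_le_mul fun v hv w hw => ?_
    rw [Real.dist_eq, Real.dist_eq, Real.coe_toNNReal _ (by positivity)]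
    rcases le_total v w with h | h
    · exact key v hv w hw h
    · rw [abs_sub_comm, abs_sub_comm v w]; exact key w hw v hv h
  -- bounds of the derivative inside
  have hder : ∀ v ∈ Ioo (I.Q.al r1) (I.Q.al r2), 0 ≤ deriv I.Q.r v ∧ deriv I.Q.r v ≤ 1 / κ' := by
    intro v hv
    constructor
    · have hmo : MonotoneOn I.Q.r (Ioo (I.Q.al r1) (I.Q.al r2)) := hrm.mono (Ioo_subset_Icc_self.trans hsub)
      have := hmo.derivWithin_nonneg (x := v)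
      rwa [derivWithin_of_isOpen isOpen_Ioo hv] at this
    · have := norm_deriv_le_of_lipschitzOn (Icc_mem_nhds hv.1 hv.2) hlip
      rw [Real.coe_toNNReal _ (by positivity)] at this
      exact (le_abs_self _).trans this
  have hle : ∀ v, bcsWt I.Q r1 r2 v ≤ 1 / ((r2 - r1) * κ') := by
    intro v
    unfold bcsWt
    split_ifs with hv
    · rw [div_le_div_iff₀ hd (by positivity)]
      have := (hder v hv).2
      rw [le_div_iff₀ hκ] at this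
      nlinarith
    · positivity
  refine ⟨⟨?_, ?_, ⟨_, hle⟩, ?_, ?_⟩, hle⟩
  · exact Measurable.ite measurableSet_Ioo ((measurable_deriv _).div_const _) measurable_const
  · intro v
    unfold bcsWt
    split_ifs with hv
    · exact div_nonneg (hder v hv).1 hd.le
    · exact le_rfl
  · intro v hv
    unfold bcsWt
    rw [if_neg hv]
  · have hac : AbsolutelyContinuousOnInterval I.Q.r (I.Q.al r1) (I.Q.al r2) := by
      apply LipschitzOnWith.absolutelyContinuousOnInterval (K := Real.toNNReal (1 / κ'))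
      rwa [uIcc_of_le ha12.le]
    have hint := hac.integral_deriv_eq_sub
    rw [I.Q.r_al r1 hr1, I.Q.r_al r2 hr2] at hint
    have e : ∫ v in (I.Q.al r1)..(I.Q.al r2), bcsWt I.Q r1 r2 v
        = ∫ v in (I.Q.al r1)..(I.Q.al r2), deriv I.Q.r v / (r2 - r1) := by
      rw [intervalIntegral.integral_of_le ha12.le, intervalIntegral.integral_of_le ha12.le,
        integral_Ioc_eq_integral_Ioo, integral_Ioc_eq_integral_Ioo]
      refine setIntegral_congr_fun measurableSet_Ioo fun v hv => ?_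
      simp only [bcsWt, if_pos hv]
    rw [e, intervalIntegral.integral_div, hint, div_self hd.ne']

/-- LEAF C8: oscillation of `S` near a nonfloor cut in the constant region, in mass coordinates (`BudGeo.flat_S_near`, `flat_nonfloor`, `bud_n4_S`, `bud_n4_flat`) -/
theorem bcs_S_near {I : BcsIn X} (hX : X.Ok) (hI : I.Cls W Fam K) {v L : ℝ} (hv : v ∈ Ioo (0 : ℝ) 1) (hL : 0 ≤ L)
    (hroom : I.Q.r v + 2 * L + 5 / I.F.Mj ≤ min (X.cd ^ 3 * I.F.u) 1) (hH : I.H W (I.Q.r v) ≤ 0) {v' : ℝ} (hv' : v' ∈ Ioo (0 : ℝ) 1)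
    (hr : |I.Q.r v' - I.Q.r v| ≤ L) : |I.S W v' - I.S W v| ≤ 3 * L + 5 / I.F.Mj := by
  have hrv := bcs_hc_r_pos I.Q hv
  have hrv' := bcs_hc_r_pos I.Q hv'
  have hM : 0 < I.F.Mj := lt_trans one_pos hI.geo.M1
  have hfl := bud_n4_flat X hX I.F hI.ok I.Q W I.g I.c0
  have h1 := BudGeo.flat_S_near hI.geo hfl hrv.1.le hL hroom hH hrv'.1.le hr
  have e5 : 5 / I.F.Mj = 5 * (1 / I.F.Mj) := by ring
  have hM' : 0 < 1 / I.F.Mj := by positivity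
  have h2 := bcs_nonfloor hX hI hv (by rw [e5] at hroom; linarith) hH
  have e : (I.geo W).S (I.Q.r v') = I.S W v' := by
    have := bud_n4_S X hX I.F hI.ok I.Q W I.g I.c0 hI.base hrv'
    rw [I.Q.al_r v' (Ioo_subset_Icc_self hv')] at this
    exact this
  rw [e] at h1
  have h1' : |I.S W v' - I.Q.r v| ≤ 3 * L + 3 / I.F.Mj := h1
  have e3 : 3 / I.F.Mj = 3 * (1 / I.F.Mj) := by ring
  have e2 : 2 / I.F.Mj = 2 * (1 / I.F.Mj) := by ring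
  rw [e3] at h1'
  rw [e2] at h2
  rw [e5]
  rw [abs_le] at h1' h2 ⊢
  constructor <;> linarith [h1'.1, h1'.2, h2.1, h2.2]

theorem bcs_hl_rpow {x : ℝ} (hx : 0 < x) (z : ℝ) (n : ℕ) : x ^ ((n : ℝ) * z) = (x ^ z) ^ n := by
  rw [mul_comm, Real.rpow_mul hx.le, Real.rpow_natCast]

/-- LEAF A9: the two normalised errors (l.533-536), from LEAF A8 and `h' = x^(4ζ) W` (pure `rpow` algebra).      TEX[LL:bud:common-star] -/
theorem bcs_lp_num (hX : X.Ok) (cs Cb : ℝ) (hcs : 0 < cs) (hCb : 1 ≤ Cb) :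
    ∃ N0 : ℕ, ∀ F : BdFr, F.Ok X → N0 ≤ F.N → ∀ w : ℝ, F.wc X ≤ w → F.Strong X w cs →
      F.x ^ (-X.zeta) * (F.x ^ 6 / F.C0) / ((F.x ^ (4 * X.zeta) * F.Wsc X w) ^ 2 * F.k X (Cb * F.Wsc X w)) ≤ F.x ^ (3 * X.zeta) * F.Wsc X w ^ 2 ∧
      (F.x ^ (-X.zeta) * (F.x ^ 3 / Real.sqrt (F.Wsc X w * F.C0 * (F.x ^ (4 * X.zeta) * F.Wsc X w / 2)))) ^ 2 ≤ 2 * F.x ^ (6 * X.zeta) * F.Wsc X w ^ 2 := by
  obtain ⟨N0, h0⟩ := bcs_num_lp X hX cs Cb hcs hCb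
  refine ⟨N0, fun F hF hN w hw hs => ?_⟩
  obtain ⟨hk, h1, h2⟩ := h0 F hF hN w hw hs
  obtain ⟨hx0, hl0, hu0, hm0, hL0, hC0, hvs, hwc, hMj, hBf⟩ := bcs_ha_pos hX hF
  have hW0 : 0 < F.Wsc X w := (hwc.trans_le hw).trans_le (le_max_left _ _)
  obtain ⟨a, ha⟩ : ∃ a, a = F.x ^ X.zeta := ⟨_, rfl⟩
  have ha0 : 0 < a := ha ▸ Real.rpow_pos_of_pos hx0 _
  have e1 : F.x ^ (-X.zeta) = a⁻¹ := by rw [Real.rpow_neg hx0.le, ha]
  have e3 : F.x ^ (3 * X.zeta) = a ^ 3 := by rw [ha]; exact_mod_cast bcs_hl_rpow hx0 X.zeta 3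
  have e4 : F.x ^ (4 * X.zeta) = a ^ 4 := by rw [ha]; exact_mod_cast bcs_hl_rpow hx0 X.zeta 4
  have e6 : F.x ^ (6 * X.zeta) = a ^ 6 := by rw [ha]; exact_mod_cast bcs_hl_rpow hx0 X.zeta 6
  have e12 : F.x ^ (12 * X.zeta) = a ^ 12 := by rw [ha]; exact_mod_cast bcs_hl_rpow hx0 X.zeta 12
  rw [e12] at h1 h2
  rw [e1, e3, e4, e6]
  generalize F.Wsc X w = Wd at *
  generalize F.k X (Cb * Wd) = k at *
  generalize F.C0 = C0 at *
  generalize F.x = x at *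
  constructor
  · have e : a⁻¹ * (x ^ 6 / C0) / ((a ^ 4 * Wd) ^ 2 * k) = x ^ 6 / (C0 * Wd ^ 4) / k * (Wd ^ 2 / a ^ 9) := by
      field_simp
    rw [e]
    calc x ^ 6 / (C0 * Wd ^ 4) / k * (Wd ^ 2 / a ^ 9) ≤ a ^ 12 * (Wd ^ 2 / a ^ 9) :=
          mul_le_mul_of_nonneg_right h1 (by positivity)
      _ = a ^ 3 * Wd ^ 2 := by field_simp
  · have hs0 : 0 < Wd * C0 * (a ^ 4 * Wd / 2) := by positivity
    have e : (a⁻¹ * (x ^ 3 / Real.sqrt (Wd * C0 * (a ^ 4 * Wd / 2)))) ^ 2 = x ^ 6 / (C0 * Wd ^ 4) * (2 * Wd ^ 2 / a ^ 6) := by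
      rw [mul_pow, div_pow, Real.sq_sqrt hs0.le]
      field_simp
    rw [e]
    calc x ^ 6 / (C0 * Wd ^ 4) * (2 * Wd ^ 2 / a ^ 6) ≤ a ^ 12 * (2 * Wd ^ 2 / a ^ 6) :=
          mul_le_mul_of_nonneg_right h2 (by positivity)
      _ = 2 * a ^ 6 * Wd ^ 2 := by field_simp

/-- LEAF A10: `x ≤ w_c` at EVERY size (`w_c ≥ x^(-10ζ) X Λ^(-1/6) u = x^(1-10ζ) Λ^(-1/6)`, `x, Λ ≤ 1`) -/
theorem bcs_num_wlo (hX : X.Ok) (F : BdFr) (hF : F.Ok X) : 0 < F.x ∧ F.x < 1 ∧ F.x ≤ F.wc X := by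
  obtain ⟨hx0, hx1, hlx, _⟩ := bcs_ha_x hF.N2
  obtain ⟨b1, b2, b3, b4, b5, b6, b7⟩ := bcs_ha_base hX hF
  obtain ⟨_, _, _, _, _, _, _, hwc, _, _⟩ := bcs_ha_pos hX hF
  obtain ⟨l1, l2, l3, l4, l5, l6, l7⟩ := bcs_ha_logs hX hF
  refine ⟨hx0, hx1, bcs_ha_le hx0 hwc ?_⟩
  have h1 : Real.log F.lam ≤ 0 := b3.trans (by nlinarith [hX.pS_pos])
  nlinarith [mul_pos hX.zeta_pos (neg_pos.2 hlx)]

theorem bcs_hl_kbar_nonneg (hX : X.Ok) {F : BdFr} (hF : F.Ok X) {t : ℝ} (ht : 0 ≤ t) : F.k X t ≤ F.kbar X t ∧ 0 < F.k X t := by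
  refine ⟨?_, bud_gb_k_pos (F.call X) (bud_gb_N_pos hF) (bud_gb_us_pos hX hF) ht⟩
  unfold BdFr.kbar
  split_ifs
  · linarith [hF.kap0]
  · linarith

/-- LEAF C9: the inverse quantile is strictly increasing on `[0,1]` (`BdQ.lo`, `k > 0`) -/
theorem bcs_al_strict {I : BcsIn X} (hX : X.Ok) (hI : I.Cls W Fam K) : StrictMonoOn I.Q.al (Icc 0 1) := by
  intro r1 h1 r2 h2 h12
  have hk : ∀ t ∈ Icc r1 r2, 0 ≤ I.F.kbar X t := fun t ht => by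
    obtain ⟨a1, a2⟩ := bcs_hl_kbar_nonneg hX hI.ok (h1.1.trans ht.1)
    linarith
  have hle : I.Q.al r1 ≤ I.Q.al r2 := by
    have := I.Q.lo r1 r2 h1.1 h12.le h2.2
    have h0 : 0 ≤ ∫ t in r1..r2, I.F.kbar X t := intervalIntegral.integral_nonneg h12.le hk
    linarith
  refine lt_of_le_of_ne hle fun he => ?_
  have := I.Q.r_al r1 h1
  rw [he, I.Q.r_al r2 h2] at this
  linarith

theorem bcs_hl_zeta (hX : X.Ok) : 0 < X.zeta ∧ X.zeta ≤ 1 / 1000 := by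
  refine ⟨hX.zeta_pos, ?_⟩
  have h1 : X.tau0 ≤ 1 := by linarith [hX.tau0_le, hX.eta_le, hX.tau_le]
  have h2 : X.bl ≤ 1 := by linarith [hX.bl_le, hX.bs_le, hX.eta_le, hX.tau_le]
  have h4 : X.pS ≤ 1 := by linarith [hX.pS_le, hX.he_le]
  have h3 : X.pS * X.tau0 * X.bl ≤ 1 := by
    have : X.pS * X.tau0 ≤ 1 := by nlinarith [hX.pS_pos, hX.tau0_pos]
    nlinarith [hX.pS_pos, hX.tau0_pos, hX.bl_pos, mul_pos hX.pS_pos hX.tau0_pos]
  linarith [hX.zeta_le]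

/-- the image of an interior radius is an interior mass -/
theorem bcs_hl_al_mem {I : BcsIn X} (hX : X.Ok) (hI : I.Cls W Fam K) {t : ℝ} (ht : t ∈ Ioo (0 : ℝ) 1) : I.Q.al t ∈ Ioo (0 : ℝ) 1 := by
  have hst := bcs_al_strict hX hI
  have h1 := hst (left_mem_Icc.2 zero_le_one) (Ioo_subset_Icc_self ht) ht.1
  have h2 := hst (Ioo_subset_Icc_self ht) (right_mem_Icc.2 zero_le_one) ht.2
  rw [I.Q.al_zero] at h1
  rw [I.Q.al_one] at h2
  exact ⟨h1, h2⟩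

/-- caps are negligible against the buffer length -/
theorem bcs_hl_cap {x z Ws Mj a : ℝ} {st : ℕ} (hx0 : 0 < x) (ha : a = x ^ (4 * z)) (hMj : Mj = 2 ^ st * x ^ (-(100 : ℝ)))
    (hxW : x ≤ Ws) (s4 : x ^ (99 - 4 * z) ≤ 1 / 10) : 5 / Mj ≤ a * Ws / 2 := by
  have ha0 : 0 < a := ha ▸ Real.rpow_pos_of_pos hx0 _
  have hp := Real.rpow_pos_of_pos hx0 (-(100 : ℝ))
  have hq := Real.rpow_pos_of_pos hx0 (100 : ℝ)
  have h2 : (1 : ℝ) ≤ 2 ^ st := one_le_pow₀ (by norm_num)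
  have hM : x ^ (-(100 : ℝ)) ≤ Mj := by rw [hMj]; exact le_mul_of_one_le_left hp.le h2
  have hMj0 : 0 < Mj := hp.trans_le hM
  have e : x ^ (100 : ℝ) * x ^ (-(100 : ℝ)) = 1 := by
    rw [← Real.rpow_add hx0]; norm_num
  have e1 : 5 / Mj ≤ 5 * x ^ (100 : ℝ) := by
    rw [div_le_iff₀ hMj0]
    have := mul_le_mul_of_nonneg_left hM hq.le
    linarith
  have e2 : x ^ (100 : ℝ) = a * x * x ^ (99 - 4 * z) := by
    rw [ha]
    nth_rewrite 3 [← Real.rpow_one x]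
    rw [← Real.rpow_add hx0, ← Real.rpow_add hx0]
    congr 1
    ring
  have e3 : a * x * x ^ (99 - 4 * z) ≤ a * Ws * (1 / 10) :=
    mul_le_mul (mul_le_mul_of_nonneg_left hxW ha0.le) s4 (Real.rpow_nonneg hx0.le _)
      (mul_nonneg ha0.le (hx0.le.trans hxW))
  linarith

/-- GLUE G1 (geometry of the buffers).  `r_* = r(v) ∈ [c Ka W, 2 C Ka W]` (outer regularity, `Ka ≥ 2`), `h' ≤ c W/2` for large sizes (`bcs_num_small`), room by `bcs_num_scale` with `Kb = 4 C Ka + 10`,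
oscillation of `S` by LEAF C8 with `L = 3h'/2` and `5/M_j ≤ h'/2`. -/
theorem bcs_lp_geo (hX : X.Ok) (hK : K.Ok) (Ka : ℝ) (hKa : 2 ≤ Ka) :
    ∃ N0 : ℕ, ∀ I : BcsIn X, I.Cls W Fam K → N0 ≤ I.F.N → ∀ v : ℝ, Ka * I.Ws ≤ v → v ≤ 2 * Ka * I.Ws → I.H W (I.Q.r v) ≤ 0 →
      v ∈ Ioo (0 : ℝ) 1 ∧ 0 < I.hb ∧ I.F.x * I.Ws ≤ I.hb / 2 ∧ I.hb / 2 ≤ I.Ws ∧ 0 < K.c * Ka * I.Ws / 2 ∧
      K.c * Ka * I.Ws / 2 ≤ I.Q.r v - I.hb ∧ I.Q.r v + 3 / 2 * I.hb ≤ 3 * K.C * Ka * I.Ws ∧ 3 * K.C * Ka * I.Ws < 1 ∧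
      I.S W v - 5 * I.hb ≤ I.S W (I.Q.al (I.Q.r v - I.hb)) ∧ I.S W (I.Q.al (I.Q.r v + 3 / 2 * I.hb)) ≤ I.S W v + 5 * I.hb ∧
      ∀ t ∈ Icc (0 : ℝ) (3 * K.C * Ka * I.Ws), I.F.k X (3 * K.C * Ka * I.Ws) ≤ I.F.kbar X t := by
  obtain ⟨hz0, hz1⟩ := bcs_hl_zeta hX
  have hc0 := hK.c0
  have hC1 := hK.C1
  have hKa0 : 0 < Ka := by linarith
  have hCK : 2 ≤ K.C * Ka := by
    have := mul_le_mul_of_nonneg_right hC1 hKa0.le
    linarith
  obtain ⟨N1, h1⟩ := bcs_num_scale X hX K.cs K.i0 (4 * K.C * Ka + 10) hK.cs0 hK.i00 (by linarith)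
  obtain ⟨N2, h2⟩ := bcs_num_small (1 - 4 * X.zeta) (1 / 2) (by linarith) (by norm_num)
  obtain ⟨N3, h3⟩ := bcs_num_small (4 * X.zeta) K.c (by linarith) hc0
  obtain ⟨N4, h4⟩ := bcs_num_small (99 - 4 * X.zeta) (1 / 10) (by linarith) (by norm_num)
  refine ⟨max (max N1 N2) (max N3 N4), fun I hI hN v hv1 hv2 hH => ?_⟩
  have hsc := h1 I.F hI.ok (((le_max_left _ _).trans (le_max_left _ _)).trans hN) I.w hI.w_lo hI.strong
  have s2 := h2 I.F (((le_max_right _ _).trans (le_max_left _ _)).trans hN)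
  have s3 := h3 I.F (((le_max_left _ _).trans (le_max_right _ _)).trans hN)
  have s4 := h4 I.F (((le_max_right _ _).trans (le_max_right _ _)).trans hN)
  clear h1 h2 h3 h4
  have hx0 := hsc.x0
  have hx1 := hsc.x1
  have hWs : I.Ws = I.F.Wsc X I.w := rfl
  have hwW : I.w ≤ I.Ws := hsc.wW
  have hW0 : 0 < I.Ws := hsc.w0.trans_le hsc.wW
  obtain ⟨a, ha⟩ : ∃ a, a = I.F.x ^ (4 * X.zeta) := ⟨_, rfl⟩
  have ha0 : 0 < a := ha ▸ Real.rpow_pos_of_pos hx0 _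
  have ha1 : a ≤ 1 := ha ▸ Real.rpow_le_one hx0.le hx1.le (by linarith)
  have hhb : I.hb = a * I.Ws := by rw [ha]; rfl
  have hb0 : 0 < I.hb := by rw [hhb]; positivity
  have hbW : I.hb ≤ I.Ws := by rw [hhb]; exact mul_le_of_le_one_left hW0.le ha1
  have hW14 : (4 * K.C * Ka + 10) * I.Ws ≤ 1 / 4 := hsc.W1
  have hKW0 : 0 < Ka * I.Ws := by positivity
  have hcW0 : 0 < K.c * I.Ws := by positivity
  have hKW : Ka * I.Ws ≤ K.C * Ka * I.Ws := by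
    have := mul_le_mul_of_nonneg_right hC1 hKW0.le
    linarith
  have h2W : 2 * I.Ws ≤ Ka * I.Ws := mul_le_mul_of_nonneg_right hKa hW0.le
  have hv0 : 0 < v := hKW0.trans_le hv1
  have hv14 : v < 1 := by linarith
  have hv : v ∈ Ioo (0 : ℝ) 1 := ⟨hv0, hv14⟩
  -- `x W ≤ h'/2`
  have hxa : I.F.x ≤ a / 2 := by
    have e : I.F.x = a * I.F.x ^ (1 - 4 * X.zeta) := by
      rw [ha, ← Real.rpow_add hx0]
      norm_num
    calc I.F.x = a * I.F.x ^ (1 - 4 * X.zeta) := e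
      _ ≤ a * (1 / 2) := mul_le_mul_of_nonneg_left s2 ha0.le
      _ = a / 2 := by ring
  have hxW2 : I.F.x * I.Ws ≤ I.hb / 2 := by
    have := mul_le_mul_of_nonneg_right hxa hW0.le
    rw [hhb]; linarith
  -- outer regularity
  have hreg := hI.reg v (by linarith) hv14.le
  have hac : a ≤ K.c := ha ▸ s3
  have hr1 : K.c * Ka * I.Ws ≤ I.Q.r v := by
    have := mul_le_mul_of_nonneg_left hv1 hc0.le
    linarith [hreg.1]
  have hr2 : I.Q.r v ≤ 2 * (K.C * Ka * I.Ws) := by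
    have := mul_le_mul_of_nonneg_left hv2 (by linarith : 0 ≤ K.C)
    linarith [hreg.2]
  have hbc : I.hb ≤ K.c * Ka * I.Ws / 2 := by
    rw [hhb]
    have e1 : a * I.Ws ≤ K.c * I.Ws := mul_le_mul_of_nonneg_right hac hW0.le
    have e2 := mul_le_mul_of_nonneg_left hKa hcW0.le
    linarith
  have hcKW : 0 < K.c * Ka * I.Ws := by positivity
  -- caps
  have hMj0 := hsc.Mj0
  have hcap : 5 / I.F.Mj ≤ I.hb / 2 := by
    rw [hhb]
    exact bcs_hl_cap hx0 ha rfl ((bcs_num_wlo hX I.F hI.ok).2.2.trans (hI.w_lo.trans hsc.wW)) s4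
  have hroom : I.Q.r v + 2 * (3 / 2 * I.hb) + 5 / I.F.Mj ≤ min (X.cd ^ 3 * I.F.u) 1 := by
    refine le_trans ?_ hsc.room
    have e5 : 5 / I.F.Mj ≤ (4 * K.C * Ka + 10) / I.F.Mj := by
      apply div_le_div_of_nonneg_right _ hMj0.le
      linarith
    rw [← hWs]
    linarith
  have t1 : I.Q.r v - I.hb ∈ Ioo (0 : ℝ) 1 := ⟨by linarith, by linarith⟩
  have t2 : I.Q.r v + 3 / 2 * I.hb ∈ Ioo (0 : ℝ) 1 := ⟨by linarith, by linarith⟩
  have n1 := bcs_S_near hX hI hv (L := 3 / 2 * I.hb) (by positivity) hroom hH (bcs_hl_al_mem hX hI t1)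
    (by rw [I.Q.r_al _ (Ioo_subset_Icc_self t1), abs_le]; constructor <;> linarith)
  have n2 := bcs_S_near hX hI hv (L := 3 / 2 * I.hb) (by positivity) hroom hH (bcs_hl_al_mem hX hI t2)
    (by rw [I.Q.r_al _ (Ioo_subset_Icc_self t2), abs_le]; constructor <;> linarith)
  rw [abs_le] at n1 n2
  refine ⟨hv, hb0, hxW2, by linarith, by linarith, by linarith, by linarith, by linarith, by linarith [n1.1], by linarith [n2.2],
    fun t ht => ?_⟩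
  refine le_trans ?_ (bcs_hl_kbar_nonneg hX hI.ok ht.1).1
  exact bud_gb_k_anti (I.F.call X) (bud_gb_N_pos hI.ok) (bud_gb_us_pos hX hI.ok) ht.1 (ht.1.trans ht.2 : (0:ℝ) ≤ _) ht.2

/-- GLUE G2 (centred radius averages).  `BcsWA1`, then `κ² ≤ κ2/((r2-r1)² κ')` with `κ2` = the weight of `nWr` (LEAF C7: `0 ≤ r' ≤ 1/κ'` on the band), `BcsWMono`.      TEX[LL:bud:common-star] (l.523-524) -/
theorem bcs_lp_eps (hX : X.Ok) (hW : BcsWorld W) (r : ℕ) (hr : 1 ≤ r) :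
    ∃ cr : ℝ, 0 < cr ∧ ∀ I : BcsIn X, I.Cls W Fam K → ∀ r1 r2 ρ1 ρ2 κ' : ℝ, 0 < ρ1 → ρ1 ≤ r1 → r1 < r2 → r2 ≤ ρ2 → ρ2 < 1 → 0 < κ' →
      (∀ t ∈ Icc r1 r2, κ' ≤ I.F.kbar X t) →
      I.Q.nLc W I.g (2 * r) (bcsWt I.Q r1 r2) ^ 2 ≤ cr / ((r2 - r1) ^ 2 * κ') * I.Q.nWr W I.g r ρ1 ρ2 := by
  obtain ⟨cr, hcr, ha1⟩ := hW.a1 r hr
  refine ⟨cr, hcr, fun I hI r1 r2 ρ1 ρ2 κ' hρ1 h1 h12 h2 hρ2 hκ hfl => ?_⟩
  have hm : 0 < I.F.m := by
    have := bud_gb_m_ge hI.ok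
    exact_mod_cast (lt_of_lt_of_le one_pos this)
  obtain ⟨hwt, hle⟩ := bcs_wt hX hI (hρ1.trans_le h1) h12 (h2.trans_lt hρ2) hκ hfl
  have hd : 0 < r2 - r1 := sub_pos.2 h12
  have hst := bcs_al_strict hX hI
  obtain ⟨hrm, hrc⟩ := bcs_hc_r hX hI.ok I.Q
  have m0 : (0 : ℝ) ∈ Icc (0 : ℝ) 1 := ⟨le_rfl, zero_le_one⟩
  have m1 : (1 : ℝ) ∈ Icc (0 : ℝ) 1 := ⟨zero_le_one, le_rfl⟩
  have mρ1 : ρ1 ∈ Icc (0 : ℝ) 1 := ⟨hρ1.le, by linarith⟩
  have mρ2 : ρ2 ∈ Icc (0 : ℝ) 1 := ⟨by linarith, hρ2.le⟩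
  have mr1 : r1 ∈ Icc (0 : ℝ) 1 := ⟨by linarith, by linarith⟩
  have mr2 : r2 ∈ Icc (0 : ℝ) 1 := ⟨by linarith, by linarith⟩
  have a0 : 0 < I.Q.al ρ1 := by have := hst m0 mρ1 hρ1; rwa [I.Q.al_zero] at this
  have a1 : I.Q.al ρ2 < 1 := by have := hst mρ2 m1 hρ2; rwa [I.Q.al_one] at this
  have a2 : I.Q.al ρ1 ≤ I.Q.al r1 := hst.monotoneOn mρ1 mr1 h1
  have a3 : I.Q.al r2 ≤ I.Q.al ρ2 := hst.monotoneOn mr2 mρ2 h2
  -- the derivative of the quantile inside `(0,1)`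
  have hlip : LipschitzOnWith (Real.toNNReal (1 / I.F.k X 1)) I.Q.r (Icc 0 1) := by
    obtain ⟨h1', _, h3'⟩ := bud_dens_of_bdq X hX I.F hI.ok I.Q
    have hbox := bud_gb_box hX hI.ok
    refine LipschitzOnWith.of_dist_le_mul fun v hv w hw => ?_
    rw [Real.dist_eq, Real.dist_eq, ← h3' v hv, ← h3' w hw, Real.coe_toNNReal _ (by have := hbox.kmin0; positivity)]
    have := budQ_lip hbox h1' hv hw
    rw [div_eq_mul_one_div, mul_comm] at this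
    exact this
  have hk1 : 0 < I.F.k X 1 := (bud_gb_box hX hI.ok).kmin0
  have hder : ∀ v ∈ Ioo (0 : ℝ) 1, 0 ≤ deriv I.Q.r v ∧ deriv I.Q.r v ≤ 1 / I.F.k X 1 := by
    intro v hv
    constructor
    · have hmo : MonotoneOn I.Q.r (Ioo 0 1) := hrm.mono Ioo_subset_Icc_self
      have := hmo.derivWithin_nonneg (x := v)
      rwa [derivWithin_of_isOpen isOpen_Ioo hv] at this
    · have := norm_deriv_le_of_lipschitzOn (Icc_mem_nhds hv.1 hv.2) hlip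
      rw [Real.coe_toNNReal _ (by positivity)] at this
      exact (le_abs_self _).trans this
  obtain ⟨κ2, hκ2⟩ : ∃ κ2 : ℝ → ℝ, κ2 = fun v => if v ∈ Icc (I.Q.al ρ1) (I.Q.al ρ2) then deriv I.Q.r v else 0 := ⟨_, rfl⟩
  have hκ2m : Measurable κ2 := by
    rw [hκ2]; exact Measurable.ite measurableSet_Icc (measurable_deriv _) measurable_const
  have hκ20 : ∀ v, 0 ≤ κ2 v ∧ κ2 v ≤ 1 / I.F.k X 1 := by
    intro v
    rw [hκ2]
    simp only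
    split_ifs with hv
    · exact hder v ⟨a0.trans_le hv.1, hv.2.trans_lt a1⟩
    · exact ⟨le_rfl, by positivity⟩
  have s1 := ha1 I.F.m (I.Q.bq I.g) (I.Q.hq I.g) hm hI.clkb hI.clkh (bcsWt I.Q r1 r2) hwt.meas
    ⟨1 / ((r2 - r1) * κ'), fun v => by rw [abs_of_nonneg (hwt.nonneg v)]; exact hle v⟩
  have s2 := hW.mono I.F.m (I.Q.bq I.g) (I.Q.hq I.g) hm hI.clkb hI.clkh (r : ℝ) (by exact_mod_cast hr)
    (fun v => bcsWt I.Q r1 r2 v ^ 2) κ2 (1 / ((r2 - r1) ^ 2 * κ')) (by positivity) (hwt.meas.pow_const 2) hκ2m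
    ⟨1 / I.F.k X 1, fun v => by rw [abs_of_nonneg (hκ20 v).1]; exact (hκ20 v).2⟩ (fun v => by
      refine ⟨sq_nonneg _, ?_⟩
      by_cases hv : v ∈ Ioo (I.Q.al r1) (I.Q.al r2)
      · have e1 : bcsWt I.Q r1 r2 v = deriv I.Q.r v / (r2 - r1) := by simp only [bcsWt, if_pos hv]
        have e2 : κ2 v = deriv I.Q.r v := by
          rw [hκ2]; simp only
          rw [if_pos ⟨a2.trans hv.1.le, hv.2.le.trans a3⟩]
        have b0 := hwt.nonneg v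
        have b1 := hle v
        rw [e1] at b0 b1
        rw [e1, e2]
        obtain ⟨d, hdd⟩ : ∃ d, d = deriv I.Q.r v := ⟨_, rfl⟩
        rw [← hdd] at b0 b1 ⊢
        have d0 : 0 ≤ d := by
          have := mul_nonneg b0 hd.le
          rwa [div_mul_cancel₀ _ hd.ne'] at this
        have d1 : d * κ' ≤ 1 := by
          rw [div_le_div_iff₀ hd (by positivity)] at b1
          have : (d * κ') * (r2 - r1) ≤ 1 * (r2 - r1) := by nlinarith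
          exact le_of_mul_le_mul_right this hd
        rw [div_pow, one_div_mul_eq_div, div_le_div_iff₀ (by positivity) (by positivity)]
        have : d * (d * κ') ≤ d * 1 := mul_le_mul_of_nonneg_left d1 d0
        nlinarith [mul_le_mul_of_nonneg_right this (sq_nonneg (r2 - r1))]
      · have e1 : bcsWt I.Q r1 r2 v = 0 := hwt.supp v hv
        rw [e1]
        have := (hκ20 v).1
        have h0 : (0 : ℝ) ^ 2 = 0 := by norm_num
        rw [h0]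
        positivity)
  have s3 : I.Q.nWr W I.g r ρ1 ρ2 = W.nWw I.F.m (I.Q.bq I.g) (I.Q.hq I.g) r κ2 := by rw [hκ2]; rfl
  rw [s3]
  calc I.Q.nLc W I.g (2 * r) (bcsWt I.Q r1 r2) ^ 2
      ≤ cr * W.nWw I.F.m (I.Q.bq I.g) (I.Q.hq I.g) r (fun v => bcsWt I.Q r1 r2 v ^ 2) := s1
    _ ≤ cr * (1 / ((r2 - r1) ^ 2 * κ') * W.nWw I.F.m (I.Q.bq I.g) (I.Q.hq I.g) r κ2) := mul_le_mul_of_nonneg_left s2 hcr.le
    _ = _ := by ring

/-- GLUE G3 (one even order).  `BcsWLp` with `am = α(r_*-h')`, `v0 = v`, `vc = α(r_*+h'/2)`, `ap = α(r_*+3h'/2)`, `κm = bcsWt Q (r_*-h') r_*`, `κp = bcsWt Q (r_*+h'/2) (r_*+3h'/2)`, `s = S_*`, `η = 5h'` (G1),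
`ε² = c_r (h'² κ')⁻¹ Cc x^(-ζ) x⁶/C0 ≤ c_r Cc x^(3ζ) W²` (G2, `BcsC9` with `ε = ζ`, `κ' = k(3 C Ka W)`, A9), `Rb² ≤ 2 Cc² x^(6ζ) W²` (`BcsRes` with `θ = h'/2`, `ε = ζ`, A9).      TEX[LL:bud:common-star] -/
theorem bcs_lp_even (hX : X.Ok) (hK : K.Ok) (hW : BcsWorld W) (h9 : BcsC9 W (BcsIn.Cls (X := X) · W Fam K) K)
    (hres : BcsRes W (BcsIn.Cls (X := X) · W Fam K)) :
    ∃ Kr : ℝ, 2 ≤ Kr ∧ ∀ Ka : ℝ, Kr ≤ Ka → ∀ r : ℕ, 1 ≤ r → ∃ (C : ℝ) (N0 : ℕ), 0 ≤ C ∧ ∀ I : BcsIn X, I.Cls W Fam K → N0 ≤ I.F.N →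
      ∀ v : ℝ, Ka * I.Ws ≤ v → v ≤ 2 * Ka * I.Ws → I.H W (I.Q.r v) ≤ 0 →
        I.Q.mQ W I.g (2 * (r : ℝ)) v (I.S W v) ≤ (C * I.F.x ^ X.zeta * I.Ws) ^ (2 * r) := by
  obtain ⟨K9, hK9, h9⟩ := h9
  obtain ⟨KR, hKR, hres⟩ := hres
  refine ⟨max 2 (max K9 KR), le_max_left _ _, fun Ka hKa r hr => ?_⟩
  have hKa2 : 2 ≤ Ka := (le_max_left _ _).trans hKa
  have hKa9 : K9 ≤ Ka := ((le_max_left _ _).trans (le_max_right _ _)).trans hKa
  have hKaR : KR ≤ Ka := ((le_max_right _ _).trans (le_max_right _ _)).trans hKa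
  obtain ⟨C9, N9, hC9, h9⟩ := h9 Ka hKa9 r hr X.zeta hX.zeta_pos
  obtain ⟨CR, NR, hCR, hres⟩ := hres Ka hKaR r hr X.zeta hX.zeta_pos
  obtain ⟨N1, hgeo⟩ := bcs_lp_geo (W := W) (Fam := Fam) hX hK Ka hKa2
  obtain ⟨cr, hcr, heps⟩ := bcs_lp_eps (W := W) (Fam := Fam) (K := K) hX hW r hr
  have hCb : 1 ≤ 3 * K.C * Ka := by nlinarith [hK.C1]
  obtain ⟨NA, hnum⟩ := bcs_lp_num hX K.cs (3 * K.C * Ka) hK.cs0 hCb
  refine ⟨2 * (256 * (5 + Real.sqrt (cr * C9)) + 2 * (2 * CR)), max (max N9 NR) (max N1 NA), by positivity,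
    fun I hI hN v hv1 hv2 hH => ?_⟩
  have hN9 : N9 ≤ I.F.N := ((le_max_left _ _).trans (le_max_left _ _)).trans hN
  have hNR : NR ≤ I.F.N := ((le_max_right _ _).trans (le_max_left _ _)).trans hN
  have hN1 : N1 ≤ I.F.N := ((le_max_left _ _).trans (le_max_right _ _)).trans hN
  have hNA : NA ≤ I.F.N := ((le_max_right _ _).trans (le_max_right _ _)).trans hN
  obtain ⟨hvm, hb0, g3, g4, g5, g6, g7, g8, g9, g10, g11⟩ := hgeo I hI hN1 v hv1 hv2 hH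
  obtain ⟨n1, n2⟩ := hnum I.F hI.ok hNA I.w hI.w_lo hI.strong
  obtain ⟨hx0, hx1, hxw⟩ := bcs_num_wlo hX I.F hI.ok
  have hWs : I.F.x ≤ I.Ws := hxw.trans (hI.w_lo.trans (le_max_left _ _))
  have hWs0 : 0 < I.Ws := hx0.trans_le hWs
  have hm : 0 < I.F.m := by
    have := bud_gb_m_ge hI.ok
    exact_mod_cast (lt_of_lt_of_le one_pos this)
  -- notation
  obtain ⟨y, hy⟩ : ∃ y, y = I.F.x ^ X.zeta := ⟨_, rfl⟩
  have hy0 : 0 < y := hy ▸ Real.rpow_pos_of_pos hx0 _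
  have hy1 : y ≤ 1 := hy ▸ Real.rpow_le_one hx0.le hx1.le hX.zeta_pos.le
  have hpw : ∀ n : ℕ, I.F.x ^ ((n : ℝ) * X.zeta) = y ^ n := by
    intro n; rw [hy, mul_comm, Real.rpow_mul hx0.le, Real.rpow_natCast]
  have hp3 : I.F.x ^ (3 * X.zeta) = y ^ 3 := by have := hpw 3; norm_num at this; exact this
  have hp4 : I.F.x ^ (4 * X.zeta) = y ^ 4 := by have := hpw 4; norm_num at this; exact this
  have hp6 : I.F.x ^ (6 * X.zeta) = y ^ 6 := by have := hpw 6; norm_num at this; exact this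
  obtain ⟨Wv, hWv⟩ : ∃ Wv, Wv = I.Ws := ⟨_, rfl⟩
  have hWv' : I.F.Wsc X I.w = Wv := hWv.symm
  obtain ⟨hb, hhb⟩ : ∃ hb, hb = I.hb := ⟨_, rfl⟩
  have hhb' : hb = y ^ 4 * Wv := by rw [hhb, hWv, ← hp4]; rfl
  obtain ⟨rs, hrs⟩ : ∃ rs, rs = I.Q.r v := ⟨_, rfl⟩
  simp only [← hhb, ← hrs, ← hWv] at g3 g4 g5 g6 g7 g8 g9 g10 g11
  rw [← hhb] at hb0
  rw [← hWv] at hWs0 hv1 hv2
  rw [hWv', hp3, hp4, ← hhb'] at n1
  rw [hWv', hp4, hp6, ← hhb'] at n2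
  obtain ⟨κ', hκ'⟩ : ∃ κ', κ' = I.F.k X (3 * K.C * Ka * Wv) := ⟨_, rfl⟩
  rw [← hκ'] at n1 g11
  have hκ0 : 0 < κ' := by
    rw [hκ']
    exact bud_gb_k_pos (I.F.call X) (bud_gb_N_pos hI.ok) (bud_gb_us_pos hX hI.ok) (by have := hK.C1; positivity)
  -- the four radii
  have hvI := Ioo_subset_Icc_self hvm
  have hst := bcs_al_strict hX hI
  have m0 : (0 : ℝ) ∈ Icc (0 : ℝ) 1 := ⟨le_rfl, zero_le_one⟩
  have m1 : (1 : ℝ) ∈ Icc (0 : ℝ) 1 := ⟨zero_le_one, le_rfl⟩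
  have ma : rs - hb ∈ Icc (0 : ℝ) 1 := ⟨by linarith, by linarith⟩
  have ms : rs ∈ Icc (0 : ℝ) 1 := ⟨by linarith, by linarith⟩
  have mc : rs + hb / 2 ∈ Icc (0 : ℝ) 1 := ⟨by linarith, by linarith⟩
  have mp : rs + 3 / 2 * hb ∈ Icc (0 : ℝ) 1 := ⟨by linarith, by linarith⟩
  have eav : I.Q.al rs = v := by rw [hrs]; exact I.Q.al_r v hvI
  have q1 : 0 < I.Q.al (rs - hb) := by have := hst m0 ma (by linarith); rwa [I.Q.al_zero] at this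
  have q2 : I.Q.al (rs - hb) < v := by have := hst ma ms (by linarith); rwa [eav] at this
  have q3 : v < I.Q.al (rs + hb / 2) := by have := hst ms mc (by linarith); rwa [eav] at this
  have q4 : I.Q.al (rs + hb / 2) < I.Q.al (rs + 3 / 2 * hb) := hst mc mp (by linarith)
  have q5 : I.Q.al (rs + 3 / 2 * hb) < 1 := by have := hst mp m1 (by linarith); rwa [I.Q.al_one] at this
  -- the floor on the two windows
  have fl1 : ∀ t ∈ Icc (rs - hb) rs, κ' ≤ I.F.kbar X t := fun t ht => g11 t ⟨by linarith [ht.1], by linarith [ht.2]⟩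
  have fl2 : ∀ t ∈ Icc (rs + hb / 2) (rs + 3 / 2 * hb), κ' ≤ I.F.kbar X t :=
    fun t ht => g11 t ⟨by linarith [ht.1], by linarith [ht.2]⟩
  have w1 := (bcs_wt hX hI (r1 := rs - hb) (r2 := rs) (by linarith) (by linarith) (by linarith) hκ0 fl1).1
  have w2 := (bcs_wt hX hI (r1 := rs + hb / 2) (r2 := rs + 3 / 2 * hb) (by linarith) (by linarith) (by linarith) hκ0 fl2).1
  rw [eav] at w1
  -- the centred averages
  have h9I := h9 I hI hN9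
  rw [← hWv] at h9I
  obtain ⟨ε, hε⟩ : ∃ ε, ε = Real.sqrt (cr * C9) * y * Wv := ⟨_, rfl⟩
  have hε0 : 0 ≤ ε := by rw [hε]; positivity
  have hεsq : cr / (hb ^ 2 * κ') * (C9 * I.F.x ^ (-X.zeta) * (I.F.x ^ 6 / I.F.C0)) ≤ ε ^ 2 := by
    have e1 : cr / (hb ^ 2 * κ') * (C9 * I.F.x ^ (-X.zeta) * (I.F.x ^ 6 / I.F.C0))
        = cr * C9 * (I.F.x ^ (-X.zeta) * (I.F.x ^ 6 / I.F.C0) / (hb ^ 2 * κ')) := by ring
    have e2 : ε ^ 2 = cr * C9 * (y ^ 2 * Wv ^ 2) := by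
      rw [hε, mul_pow, mul_pow, Real.sq_sqrt (by positivity)]; ring
    rw [e1, e2]
    refine mul_le_mul_of_nonneg_left (n1.trans ?_) (by positivity)
    refine mul_le_mul_of_nonneg_right ?_ (by positivity)
    calc y ^ 3 = y ^ 2 * y := by ring
      _ ≤ y ^ 2 * 1 := mul_le_mul_of_nonneg_left hy1 (by positivity)
      _ = y ^ 2 := by ring
  have hcoef : 0 ≤ cr / (hb ^ 2 * κ') := by positivity
  have l1 : W.nLc I.F.m (I.Q.bq I.g) (I.Q.hq I.g) (2 * r) (bcsWt I.Q (rs - hb) rs) ≤ ε := by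
    have := heps I hI (rs - hb) rs _ _ κ' g5 g6 (by linarith) (by linarith) g8 hκ0 fl1
    rw [show rs - (rs - hb) = hb by ring] at this
    have h2 := (this.trans (mul_le_mul_of_nonneg_left h9I hcoef)).trans hεsq
    exact (abs_le_of_sq_le_sq' h2 hε0).2
  have l2 : W.nLc I.F.m (I.Q.bq I.g) (I.Q.hq I.g) (2 * r) (bcsWt I.Q (rs + hb / 2) (rs + 3 / 2 * hb)) ≤ ε := by
    have := heps I hI (rs + hb / 2) (rs + 3 / 2 * hb) _ _ κ' g5 (by linarith) (by linarith) g7 g8 hκ0 fl2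
    rw [show rs + 3 / 2 * hb - (rs + hb / 2) = hb by ring] at this
    have h2 := (this.trans (mul_le_mul_of_nonneg_left h9I hcoef)).trans hεsq
    exact (abs_le_of_sq_le_sq' h2 hε0).2
  -- the residual
  have eth : I.Q.r (I.Q.al (rs + hb / 2)) - I.Q.r v = hb / 2 := by rw [I.Q.r_al _ mc, ← hrs]; ring
  have hR := hres I hI hNR v (I.Q.al (rs + hb / 2)) (by rw [← hWv]; exact hv1) (by rw [← hWv]; exact hv2) q3 (q4.trans q5)
    (by rw [eth, ← hWv]; exact g3) (by rw [eth, ← hWv]; exact g4)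
  rw [eth, ← hWv] at hR
  obtain ⟨R0, hR0⟩ : ∃ R0, R0 = I.F.x ^ (-X.zeta) * (I.F.x ^ 3 / Real.sqrt (Wv * I.F.C0 * (hb / 2))) := ⟨_, rfl⟩
  have hR00 : 0 ≤ R0 := by
    rw [hR0]
    exact mul_nonneg (Real.rpow_pos_of_pos hx0 _).le (div_nonneg (pow_pos hx0 3).le (Real.sqrt_nonneg _))
  rw [← hR0] at n2
  have hR1 : R0 ≤ 2 * y * Wv := by
    have : R0 ^ 2 ≤ (2 * y * Wv) ^ 2 := by
      refine n2.trans ?_
      have : y ^ 6 ≤ y ^ 2 := pow_le_pow_of_le_one hy0.le hy1 (by norm_num)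
      have h8 : y ^ 6 * Wv ^ 2 ≤ y ^ 2 * Wv ^ 2 := mul_le_mul_of_nonneg_right this (sq_nonneg Wv)
      have h9' : 0 ≤ y ^ 2 * Wv ^ 2 := mul_nonneg (sq_nonneg y) (sq_nonneg Wv)
      calc 2 * y ^ 6 * Wv ^ 2 = 2 * (y ^ 6 * Wv ^ 2) := by ring
        _ ≤ 4 * (y ^ 2 * Wv ^ 2) := by linarith
        _ = (2 * y * Wv) ^ 2 := by ring
    exact (abs_le_of_sq_le_sq' this (by positivity)).2
  have l3 : bcsRs W I.F.m (I.Q.bq I.g) (I.Q.hq I.g) r v (I.Q.al (rs + hb / 2)) ≤ (2 * CR * y * Wv) ^ (2 * r) := by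
    refine hR.trans (pow_le_pow_left₀ ?_ ?_ _)
    · rw [mul_assoc, ← hR0]; positivity
    · rw [mul_assoc, ← hR0]
      calc CR * R0 ≤ CR * (2 * y * Wv) := mul_le_mul_of_nonneg_left hR1 hCR.le
        _ = 2 * CR * y * Wv := by ring
  have main := hW.lp I.F.m (I.Q.bq I.g) (I.Q.hq I.g) hm hI.clkb hI.clkh r hr _ v _ _ q1 q2 q3 q4 q5 _ _ w1 w2
    (I.S W v) (5 * hb) ε (2 * CR * y * Wv) (by positivity) hε0 (by positivity) g9 g10 l1 l2 l3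
  refine main.trans (pow_le_pow_left₀ (by positivity) ?_ _)
  rw [← hy, ← hWv, hε, hhb']
  have h4 : y ^ 4 ≤ y := by
    calc y ^ 4 ≤ y ^ 1 := pow_le_pow_of_le_one hy0.le hy1 (by norm_num)
      _ = y := pow_one y
  have h5 : y ^ 4 * Wv ≤ y * Wv := mul_le_mul_of_nonneg_right h4 hWs0.le
  calc 2 * (256 * (5 * (y ^ 4 * Wv) + Real.sqrt (cr * C9) * y * Wv) + 2 * (2 * CR * y * Wv))
      ≤ 2 * (256 * (5 * (y * Wv) + Real.sqrt (cr * C9) * y * Wv) + 2 * (2 * CR * y * Wv)) := by linarith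
    _ = 2 * (256 * (5 + Real.sqrt (cr * C9)) + 2 * (2 * CR)) * y * Wv := by ring

/-- GLUE G4 (all real orders, thresholds depending on `p`): `r = ⌈p/2⌉₊`, `BcsWJen`, root of G3. -/
theorem bcs_lp_real (hX : X.Ok) (hK : K.Ok) (hW : BcsWorld W) (h9 : BcsC9 W (BcsIn.Cls (X := X) · W Fam K) K)
    (hres : BcsRes W (BcsIn.Cls (X := X) · W Fam K)) :
    ∃ Kr : ℝ, 2 ≤ Kr ∧ ∀ Ka : ℝ, Kr ≤ Ka → ∀ p : ℝ, 2 ≤ p → ∃ (C : ℝ) (N0 : ℕ), 0 ≤ C ∧ ∀ I : BcsIn X, I.Cls W Fam K → N0 ≤ I.F.N →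
      ∀ v : ℝ, Ka * I.Ws ≤ v → v ≤ 2 * Ka * I.Ws → I.H W (I.Q.r v) ≤ 0 →
        I.Q.nQ W I.g p v (I.S W v) ≤ C * I.F.x ^ X.zeta * I.Ws := by
  obtain ⟨Kr, hKr2, hev⟩ := bcs_lp_even hX hK hW h9 hres
  refine ⟨Kr, hKr2, fun Ka hKa p hp => ?_⟩
  obtain ⟨r, hr⟩ : ∃ r : ℕ, r = ⌈p / 2⌉₊ := ⟨_, rfl⟩
  have hpr : p ≤ 2 * (r : ℝ) := by
    have := Nat.le_ceil (p / 2)
    rw [← hr] at this
    linarith
  have hr1 : 1 ≤ r := by
    have : (1 : ℝ) ≤ r := by linarith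
    exact_mod_cast this
  obtain ⟨C, N2, hC, h2⟩ := hev Ka hKa r hr1
  obtain ⟨N1, hgeo⟩ := bcs_lp_geo (W := W) (Fam := Fam) hX hK Ka (hKr2.trans hKa)
  refine ⟨C, max N1 N2, hC, fun I hI hN v hv1 hv2 hH => ?_⟩
  obtain ⟨hx0, hx1, hxw⟩ := bcs_num_wlo hX I.F hI.ok
  have hWs : I.F.x ≤ I.Ws := hxw.trans (hI.w_lo.trans (le_max_left _ _))
  have hWs0 : 0 < I.Ws := hx0.trans_le hWs
  have hxz : 0 < I.F.x ^ X.zeta := Real.rpow_pos_of_pos hx0 _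
  have hvm : v ∈ Ioo (0 : ℝ) 1 := (hgeo I hI ((le_max_left _ _).trans hN) v hv1 hv2 hH).1
  have hm : 0 < I.F.m := by
    have := bud_gb_m_ge hI.ok
    exact_mod_cast (lt_of_lt_of_le one_pos this)
  exact hW.jen I.F.m (I.Q.bq I.g) (I.Q.hq I.g) hm hI.clkb hI.clkh v hvm (I.S W v) p r (by linarith) hpr _
    (by positivity) (h2 I hI ((le_max_right _ _).trans hN) v hv1 hv2 hH)

/-- **PRODUCER of `BcsLp`** (GLUE G5: ONE threshold for all `p`).  `cq = ζ`.  `N0` = the threshold of G1 (so `v ∈ (0,1)`); for `N0 ≤ N < N0(p)` use `‖Q - S‖_p ≤ 2` (`BcsWBd`, `0 ≤ S ≤ 1` by LEAF C1) and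
`x^ζ W ≥ x^(ζ+1) ≥ N0(p)^(-(ζ+1)/6)` (A10, `W ≥ w ≥ w_c`): `C_p = max (C p) (2 N0(p)^((ζ+1)/6))`.      TEX[LL:bud:common-star] -/
theorem bcs_lp_inst (hX : X.Ok) (hK : K.Ok) (hW : BcsWorld W) (h9 : BcsC9 W (BcsIn.Cls (X := X) · W Fam K) K)
    (hres : BcsRes W (BcsIn.Cls (X := X) · W Fam K)) :
    BcsLp W (BcsIn.Cls (X := X) · W Fam K) := by
  obtain ⟨Kr, hKr2, hreal⟩ := bcs_lp_real hX hK hW h9 hres
  refine ⟨X.zeta, hX.zeta_pos, Kr, by linarith, fun Ka hKa => ?_⟩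
  choose! Cf Nf hf using hreal Ka hKa
  obtain ⟨N1, hgeo⟩ := bcs_lp_geo (W := W) (Fam := Fam) hX hK Ka (hKr2.trans hKa)
  refine ⟨fun p => max (Cf p) (2 * (Nf p : ℝ) ^ ((X.zeta + 1) / 6)), N1, fun I hI hN v hv1 hv2 hH p hp => ?_⟩
  obtain ⟨hx0, hx1, hxw⟩ := bcs_num_wlo hX I.F hI.ok
  have hWs : I.F.x ≤ I.Ws := hxw.trans (hI.w_lo.trans (le_max_left _ _))
  have hWs0 : 0 < I.Ws := hx0.trans_le hWs
  have hxz : 0 < I.F.x ^ X.zeta := Real.rpow_pos_of_pos hx0 _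
  have hvm : v ∈ Ioo (0 : ℝ) 1 := (hgeo I hI hN v hv1 hv2 hH).1
  rcases le_or_gt (Nf p) I.F.N with hc | hc
  · have h1 := (hf p hp).2 I hI hc v hv1 hv2 hH
    refine h1.trans ?_
    have : Cf p ≤ max (Cf p) (2 * (Nf p : ℝ) ^ ((X.zeta + 1) / 6)) := le_max_left _ _
    have h2 := mul_le_mul_of_nonneg_right this (mul_pos hxz hWs0).le
    simpa only [mul_assoc] using h2
  · -- small sizes: the trivial bound
    have hm : 0 < I.F.m := by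
      have := bud_gb_m_ge hI.ok
      exact_mod_cast (lt_of_lt_of_le one_pos this)
    obtain ⟨hS0, hD0, _, hB1, _, _⟩ := (bcs_stat hI).2.2 v hvm
    have hS1 : |I.S W v| ≤ 1 := by
      have e : I.D2 W v = I.B W v - I.S W v ^ 2 := rfl
      rw [abs_of_nonneg hS0]
      nlinarith
    have h2 : I.Q.nQ W I.g p v (I.S W v) ≤ 2 :=
      hW.bd I.F.m (I.Q.bq I.g) (I.Q.hq I.g) hm hI.clkb hI.clkh v hvm (I.S W v) p hS1 (by linarith)
    refine h2.trans ?_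
    have hNpos : (0 : ℝ) < I.F.N := by
      have := hI.ok.N2
      exact_mod_cast (by omega : 0 < I.F.N)
    have hNle : (I.F.N : ℝ) ≤ Nf p := by exact_mod_cast hc.le
    have he : 0 ≤ (X.zeta + 1) / 6 := by have := hX.zeta_pos; positivity
    have hxpow : I.F.x ^ (X.zeta + 1) = ((I.F.N : ℝ) ^ ((X.zeta + 1) / 6))⁻¹ := by
      unfold BdFr.x
      rw [← Real.rpow_mul hNpos.le, ← Real.rpow_neg hNpos.le]
      congr 1
      ring
    have h3 : I.F.x ^ (X.zeta + 1) ≤ I.F.x ^ X.zeta * I.Ws := by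
      rw [Real.rpow_add hx0, Real.rpow_one]
      exact mul_le_mul_of_nonneg_left hWs hxz.le
    have hNp : 0 < (I.F.N : ℝ) ^ ((X.zeta + 1) / 6) := Real.rpow_pos_of_pos hNpos _
    have h4 : (I.F.N : ℝ) ^ ((X.zeta + 1) / 6) ≤ (Nf p : ℝ) ^ ((X.zeta + 1) / 6) := Real.rpow_le_rpow hNpos.le hNle he
    have h5 : 1 ≤ (Nf p : ℝ) ^ ((X.zeta + 1) / 6) * (I.F.x ^ X.zeta * I.Ws) := by
      calc (1 : ℝ) = (I.F.N : ℝ) ^ ((X.zeta + 1) / 6) * ((I.F.N : ℝ) ^ ((X.zeta + 1) / 6))⁻¹ := (mul_inv_cancel₀ hNp.ne').symm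
        _ ≤ (Nf p : ℝ) ^ ((X.zeta + 1) / 6) * (I.F.x ^ X.zeta * I.Ws) := by
            rw [← hxpow]
            exact mul_le_mul h4 h3 (Real.rpow_pos_of_pos hx0 _).le (hNp.le.trans h4)
    have h6 : 2 * (Nf p : ℝ) ^ ((X.zeta + 1) / 6) ≤ max (Cf p) (2 * (Nf p : ℝ) ^ ((X.zeta + 1) / 6)) := le_max_right _ _
    have h7 := mul_le_mul_of_nonneg_right h6 (mul_pos hxz hWs0).le
    calc (2 : ℝ) ≤ 2 * (Nf p : ℝ) ^ ((X.zeta + 1) / 6) * (I.F.x ^ X.zeta * I.Ws) := by nlinarith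
      _ ≤ _ := h7
      _ = _ := by ring

end glue

theorem bcs_lp_eqns_cite : True := by
  have := @bcsRs.eq_1; have := @BcsWLp.eq_1; have := @BcsWA1.eq_1; have := @BcsWMono.eq_1; have := @BcsWJen.eq_1; have := @BcsWBd.eq_1
  have := @BcsC9.eq_1; have := @BcsRes.eq_1; have := @bcsWt.eq_1; have := @BcsIn.hb.eq_1; have := @L8P.bcsRs3.eq_1
  trivial

end

end Claimed.Agent.R286
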