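import Claimed.Agent.R286.Bud.TopLoc

/-!
# Row 286 (S0533), LL sec. 7, `Bud/Top`, file EXIT = nodes N2 (end), N19: covering by dyads, `E_γ`, exponent checks, **`bt_targets` = (C1) + (C2)**      (owner helper66; prefix `bt_`)

TEX[LL:bud:targets]#112-128, #2217-2253.
* `btBm`          THE MAJORANT of (C1): `2 Cen Σ_{local dyads} u ∫_u^{2u} A_v dv + 2 Cen λ^{-b_ℓ} ∫ v² A_v dv`   (if `U < 1`; the constant `32` if `U = 1`: bounded overlaps)
* `bt_cover_pt`   pointwise inequality of the weights;   `bt_cover`: `u ∫_{u/Cen}^{Cen u} A_v dv ≤ btBm γ`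
* `bt_E_one`, `bt_E_two`      integration of one / two coordinates of `γ`
* `bt_pow_glob`, `bt_pow_loc`, `bt_pow_fin`, `bt_card_loc`      the exponent checks of l.66-78, l.2222-2245, LL 10 items 2, 4
* `bt_c1`, `bt_c2`, `bt_targets`
-/

set_option autoImplicit false

namespace Claimed.Agent.R286

open MeasureTheory Set Filter Topology
open scoped ENNReal

variable {𝔹 : LlBase} {F : LlFix} {X : BdFix} {W : BdWorld}

/-! ## 1. The majorant and the covering -/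

open Classical in
/-- the local dyads of a point, as a finite set -/
noncomputable def LlPt.locs (p : LlPt) (F : LlFix) (X : BdFix) : Finset ℕ := (Finset.range p.N).filter fun hd => p.IsLoc F X hd

/-- the weight of the majorant -/
noncomputable def LlPt.wBm (p : LlPt) (F : LlFix) (X : BdFix) (Cen : ℝ) (v : ℝ) : ℝ :=
  2 * Cen * (∑ hd ∈ p.locs F X, btU hd * indicator (Icc (btU hd) (2 * btU hd)) 1 v) + 2 * Cen * p.lam ^ (-X.bl) * v ^ 2

/-- **the majorant** of (C1) when `U < 1` -/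
noncomputable def btBm (𝔹 : LlBase) (F : LlFix) (X : BdFix) (Cen : ℝ) (m : ℕ) (p : LlPt) : ℝ :=
  2 * Cen * (∑ hd ∈ p.locs F X, btU hd * p.wA F 𝔹 m (indicator (Icc (btU hd) (2 * btU hd)) 1))
    + 2 * Cen * p.lam ^ (-X.bl) * p.wA F 𝔹 m (fun v => v ^ 2)

theorem bt_lg_x {p : LlPt} (hp : p.Ok F) : p.x = Real.exp (-(-Real.log p.x)) := by
  rw [neg_neg, Real.exp_log (bt_x_pos hp)]

theorem bt_lg_lam {p : LlPt} (hp : p.Ok F) : p.lam = Real.exp (-(-Real.log p.lam)) := by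
  rw [neg_neg, Real.exp_log (bt_lam_pos hp)]

theorem bt_lg_A_nonneg {p : LlPt} (hp : p.Ok F) : 0 ≤ -Real.log p.x := by
  have := Real.log_nonpos (bt_x_pos hp).le (bt_x_le_one hp)
  linarith

theorem bt_lg_lo {p : LlPt} (hp : p.Ok F) : F.pS * (-Real.log p.x) ≤ -Real.log p.lam := by
  have h := Real.log_le_log (bt_lam_pos hp) hp.lam_hi
  rw [Real.log_rpow (bt_x_pos hp)] at h
  linarith

theorem bt_lg_hi {p : LlPt} (hp : p.Ok F) : -Real.log p.lam ≤ 12 * (-Real.log p.x) := by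
  have h := Real.log_le_log (Real.rpow_pos_of_pos (bt_x_pos hp) _) hp.lam_lo
  rw [Real.log_rpow (bt_x_pos hp)] at h
  linarith

/-- `A = log(1/x) = (log N)/6 → ∞` -/
theorem bt_lg_large (M : ℝ) : ∃ N0 : ℕ, ∀ p : LlPt, N0 ≤ p.N → M ≤ -Real.log p.x := by
  obtain ⟨N0, hN0⟩ := exists_nat_ge (Real.exp (6 * M))
  refine ⟨N0 + 1, fun p hpN => ?_⟩
  have h1 : (0 : ℝ) < p.N := by exact_mod_cast (by omega : 0 < p.N)
  have h2 : Real.exp (6 * M) ≤ p.N := hN0.trans (by exact_mod_cast (by omega : N0 ≤ p.N))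
  have h3 : 6 * M ≤ Real.log p.N := by
    rw [← Real.log_exp (6 * M)]
    exact Real.log_le_log (Real.exp_pos _) h2
  unfold LlPt.x
  rw [Real.log_rpow h1]
  linarith

/-- absorption of a constant by a positive power of `x` -/
theorem bt_lg_absorb {e : ℝ} (he : 0 < e) (K : ℝ) : ∃ M : ℝ, ∀ A : ℝ, M ≤ A → K * Real.exp (-(e * A)) ≤ 1 := by
  refine ⟨Real.log (|K| + 1) / e, fun A hA => ?_⟩
  have h1 : Real.log (|K| + 1) ≤ e * A := by
    rw [div_le_iff₀ he] at hA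
    linarith
  have h2 : |K| + 1 ≤ Real.exp (e * A) := by
    rw [← Real.exp_log (by positivity : 0 < |K| + 1)]
    exact Real.exp_le_exp.2 h1
  rw [Real.exp_neg]
  have h3 : 0 < Real.exp (e * A) := Real.exp_pos _
  rw [← div_eq_mul_inv, div_le_one h3]
  linarith [le_abs_self K]

theorem bt_lg_px {p : LlPt} (hp : p.Ok F) (r : ℝ) : p.x ^ r = Real.exp (-(r * (-Real.log p.x))) := by
  rw [Real.rpow_def_of_pos (bt_x_pos hp)]
  congr 1
  ring

theorem bt_lg_pl {p : LlPt} (hp : p.Ok F) (r : ℝ) : p.lam ^ r = Real.exp (-(r * (-Real.log p.lam))) := by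
  rw [Real.rpow_def_of_pos (bt_lam_pos hp)]
  congr 1
  ring

theorem bt_lg_V {p : LlPt} (hp : p.Ok F) : p.x * p.lam ^ (-(F.sS / 2)) = Real.exp (-(-Real.log p.x) + F.sS / 2 * (-Real.log p.lam)) := by
  rw [bt_lg_pl hp, Real.exp_add, ← bt_lg_x hp]
  congr 2
  ring

theorem bt_lg_U_le {p : LlPt} (hp : p.Ok F) : p.U F ≤ Real.exp (-(-Real.log p.x) + F.sS / 2 * (-Real.log p.lam)) := by
  rw [← bt_lg_V hp]
  exact min_le_right _ _

theorem bt_lg_U_eq {p : LlPt} (hp : p.Ok F) (hU : p.U F < 1) : p.U F = Real.exp (-(-Real.log p.x) + F.sS / 2 * (-Real.log p.lam)) := by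
  rw [← bt_lg_V hp]
  unfold LlPt.U at hU ⊢
  rcases le_total 1 (p.x * p.lam ^ (-(F.sS / 2))) with h | h
  · rw [min_eq_left h] at hU
    exact absurd hU (lt_irrefl _)
  · exact min_eq_right h

theorem bt_mem_locs {p : LlPt} {hd : ℕ} : hd ∈ p.locs F X ↔ hd < p.N ∧ p.IsLoc F X hd := by
  classical
  unfold LlPt.locs
  rw [Finset.mem_filter, Finset.mem_range]

/-- a dyad in use has `hd ≤ log N` -/
theorem bt_dy_le_log {p : LlPt} (hp : p.Ok F) {hd : ℕ} (h16 : 16 * p.x ≤ (2 : ℝ)⁻¹ ^ hd) : (hd : ℝ) ≤ Real.log p.N := by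
  have hN : (2 : ℝ) ≤ p.N := by exact_mod_cast hp.N2
  have hN0 : (0 : ℝ) < p.N := by linarith
  have hlog : 0 ≤ Real.log p.N := Real.log_nonneg (by linarith)
  have hx := bt_x_pos hp
  have h1 : p.x ≤ (2 : ℝ)⁻¹ ^ hd := by linarith
  have h2 := Real.log_le_log hx h1
  rw [Real.log_pow, Real.log_inv] at h2
  have h3 : Real.log p.x = -(1 / 6) * Real.log p.N := by
    unfold LlPt.x
    rw [Real.log_rpow hN0]
  have hl2 : (0.6931471803 : ℝ) < Real.log 2 := Real.log_two_gt_d9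
  have h4 : (hd : ℝ) * Real.log 2 ≤ 1 / 6 * Real.log p.N := by linarith
  have h5 : (hd : ℝ) * (1 / 6) ≤ (hd : ℝ) * Real.log 2 :=
    mul_le_mul_of_nonneg_left (by linarith) (Nat.cast_nonneg _)
  linarith

/-- **covering**: pointwise inequality of the weights -/
theorem bt_cover_pt (hF : F.Ok) {p : LlPt} (hp : p.Ok F) {c0 Cen : ℝ} (hc0 : 0 < c0) (hCen : 1 ≤ Cen) (hCU : 2 * Cen / c0 ≤ X.CU) (hbl : 0 < X.bl)
    (hU : p.U F < 1) (h16 : 32 * Cen * p.x ≤ c0 * p.U F) (hvb : p.lam ^ X.bl ≤ F.vb / 16)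
    {u v : ℝ} (hu : c0 * p.U F ≤ u) (hv : 0 < v) :
    u * indicator (Icc (u / Cen) (Cen * u)) 1 v ≤ p.wBm F X Cen v := by
  have hCen0 : 0 < Cen := by linarith
  have hlam := bt_lam_pos hp
  have hbU : ∀ hd, 0 < btU hd := fun hd => by unfold btU; positivity
  have hsum : ∀ hd ∈ p.locs F X, 0 ≤ btU hd * indicator (Icc (btU hd) (2 * btU hd)) (1 : ℝ → ℝ) v := fun hd _ =>
    mul_nonneg (hbU hd).le (indicator_nonneg (fun _ _ => zero_le_one) _)
  have hS0 := Finset.sum_nonneg hsum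
  have hT0 : 0 ≤ 2 * Cen * p.lam ^ (-X.bl) * v ^ 2 := by positivity
  unfold LlPt.wBm
  by_cases hmem : v ∈ Icc (u / Cen) (Cen * u)
  · rw [indicator_of_mem hmem, Pi.one_apply, mul_one]
    have huv : u ≤ Cen * v := by
      have := hmem.1
      rwa [div_le_iff₀' hCen0] at this
    have hlb : 0 < p.lam ^ X.bl := Real.rpow_pos_of_pos hlam _
    by_cases hbig : p.lam ^ X.bl ≤ 2 * v
    · have e1 : p.lam ^ (-X.bl) = (p.lam ^ X.bl)⁻¹ := Real.rpow_neg hlam.le _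
      have e2 : 1 ≤ (p.lam ^ X.bl)⁻¹ * (2 * v) := by
        rw [← div_eq_inv_mul, one_le_div hlb]
        exact hbig
      have e3 : Cen * v ≤ 2 * Cen * p.lam ^ (-X.bl) * v ^ 2 := by
        rw [e1]
        calc Cen * v = Cen * v * 1 := by ring
          _ ≤ Cen * v * ((p.lam ^ X.bl)⁻¹ * (2 * v)) := mul_le_mul_of_nonneg_left e2 (by positivity)
          _ = 2 * Cen * (p.lam ^ X.bl)⁻¹ * v ^ 2 := by ring
      have : 0 ≤ 2 * Cen * ∑ hd ∈ p.locs F X, btU hd * indicator (Icc (btU hd) (2 * btU hd)) (1 : ℝ → ℝ) v := by positivity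
      linarith
    · push Not at hbig
      have hl1 : p.lam ^ X.bl ≤ 1 := Real.rpow_le_one hlam.le (bt_lam_le_one hF hp) hbl.le
      obtain ⟨n, hn1, hn2⟩ := exists_nat_pow_near_of_lt_one hv (by linarith : v ≤ 1) (by norm_num : (0 : ℝ) < 2⁻¹) (by norm_num : (2 : ℝ)⁻¹ < 1)
      have hn3 : (2 : ℝ)⁻¹ ^ n = 2 * (2 : ℝ)⁻¹ ^ (n + 1) := by rw [pow_succ]; ring
      have hUeq : p.U F = p.x * p.lam ^ (-(F.sS / 2)) := by
        unfold LlPt.U at hU ⊢
        rcases le_total 1 (p.x * p.lam ^ (-(F.sS / 2))) with h | h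
        · rw [min_eq_left h] at hU; exact absurd hU (lt_irrefl _)
        · exact min_eq_right h
      have hb1 : u ≤ Cen * (2 * (2 : ℝ)⁻¹ ^ (n + 1)) := by
        rw [← hn3]
        exact huv.trans (mul_le_mul_of_nonneg_left hn2 hCen0.le)
      have hdy16 : 16 * p.x ≤ (2 : ℝ)⁻¹ ^ (n + 1) := by
        have : 32 * Cen * p.x ≤ Cen * (2 * (2 : ℝ)⁻¹ ^ (n + 1)) := h16.trans (hu.trans hb1)
        have h' : Cen * (32 * p.x) ≤ Cen * (2 * (2 : ℝ)⁻¹ ^ (n + 1)) := by linarith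
        have := le_of_mul_le_mul_left h' hCen0
        linarith
      have hloc : p.IsLoc F X (n + 1) := by
        refine ⟨⟨hdy16, by linarith⟩, ?_, ?_⟩
        · rw [← hUeq]
          have h1 : c0 * p.U F ≤ Cen * (2 * (2 : ℝ)⁻¹ ^ (n + 1)) := hu.trans hb1
          have h2 : p.U F ≤ 2 * Cen / c0 * btU (n + 1) := by
            rw [div_mul_eq_mul_div, le_div_iff₀ hc0]
            unfold btU
            linarith
          exact h2.trans (mul_le_mul_of_nonneg_right hCU (hbU _).le)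
        · unfold btU
          linarith
      have hmemL : n + 1 ∈ p.locs F X := by
        rw [bt_mem_locs]
        refine ⟨?_, hloc⟩
        have h1 := bt_dy_le_log hp hdy16
        have hN0 : (0 : ℝ) < p.N := by
          have : (2 : ℝ) ≤ p.N := by exact_mod_cast hp.N2
          linarith
        have h2 := Real.log_le_sub_one_of_pos hN0
        have h3 : ((n + 1 : ℕ) : ℝ) < p.N := by linarith
        exact_mod_cast h3
      have h1 := Finset.single_le_sum hsum hmemL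
      have hvI : v ∈ Icc (btU (n + 1)) (2 * btU (n + 1)) := by
        unfold btU
        exact ⟨hn1.le, by rw [← hn3]; exact hn2⟩
      rw [indicator_of_mem hvI, Pi.one_apply, mul_one] at h1
      have h2 : 2 * Cen * btU (n + 1) ≤ 2 * Cen * ∑ hd ∈ p.locs F X, btU hd * indicator (Icc (btU hd) (2 * btU hd)) (1 : ℝ → ℝ) v :=
        mul_le_mul_of_nonneg_left h1 (by positivity)
      have h3 : u ≤ 2 * Cen * btU (n + 1) := by
        unfold btU
        linarith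
      linarith
  · rw [indicator_of_notMem hmem, mul_zero]
    have : 0 ≤ 2 * Cen * ∑ hd ∈ p.locs F X, btU hd * indicator (Icc (btU hd) (2 * btU hd)) (1 : ℝ → ℝ) v := by positivity
    linarith

theorem bt_ex_int_ind {a : ℝ} (s : Set ℝ) (hs : MeasurableSet s) : IntegrableOn (indicator s (1 : ℝ → ℝ)) (Ioo 0 a) := by
  refine bt_int_bdd (C := 1) ((measurable_one.indicator hs).aestronglyMeasurable) fun v _ => ?_
  by_cases h : v ∈ s
  · rw [indicator_of_mem h]; simp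
  · rw [indicator_of_notMem h]; simp

theorem bt_ex_int_sq {a : ℝ} : IntegrableOn (fun v : ℝ => v ^ 2) (Ioo 0 a) :=
  ((continuous_pow 2).integrableOn_Icc (a := 0) (b := a)).mono_set Ioo_subset_Icc_self

/-- `wA` of the weight of the majorant -/
theorem bt_wA_wBm (hS : BtSys 𝔹) {p : LlPt} (hp : p.Ok F) (hc : BtClkAt 𝔹 F p) {m : ℕ} (hm : 1 ≤ m) (Cen : ℝ) :
    p.wA F 𝔹 m (p.wBm F X Cen) = btBm 𝔹 F X Cen m p ∧ IntegrableOn (p.wBm F X Cen) (Ioo 0 p.a) := by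
  have hI : ∀ hd : ℕ, IntegrableOn (indicator (Icc (btU hd) (2 * btU hd)) (1 : ℝ → ℝ)) (Ioo 0 p.a) := fun hd =>
    bt_ex_int_ind _ measurableSet_Icc
  have hIA : ∀ hd : ℕ, IntegrableOn (fun v => indicator (Icc (btU hd) (2 * btU hd)) (1 : ℝ → ℝ) v * p.Aerr F 𝔹 m v) (Ioo 0 p.a) := fun hd =>
    bt_int_A hS hp hc hm (hI hd)
  have hqA : IntegrableOn (fun v => v ^ 2 * p.Aerr F 𝔹 m v) (Ioo 0 p.a) := bt_int_A hS hp hc hm bt_ex_int_sq
  constructor
  · unfold LlPt.wA btBm LlPt.wA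
    have e : ∀ v, p.wBm F X Cen v * p.Aerr F 𝔹 m v
        = 2 * Cen * (∑ hd ∈ p.locs F X, btU hd * (indicator (Icc (btU hd) (2 * btU hd)) (1 : ℝ → ℝ) v * p.Aerr F 𝔹 m v))
          + 2 * Cen * p.lam ^ (-X.bl) * (v ^ 2 * p.Aerr F 𝔹 m v) := by
      intro v
      unfold LlPt.wBm
      rw [add_mul, mul_assoc (2 * Cen), Finset.sum_mul]
      congr 1
      · congr 1
        exact Finset.sum_congr rfl fun hd _ => by ring
      · ring
    simp only [e]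
    rw [integral_add, integral_const_mul, integral_const_mul, integral_finsetSum]
    · congr 2
      exact Finset.sum_congr rfl fun hd _ => integral_const_mul _ _
    · exact fun hd _ => (hIA hd).const_mul _
    · exact (integrable_finsetSum _ fun hd _ => (hIA hd).const_mul _).const_mul _
    · exact hqA.const_mul _
  · unfold LlPt.wBm
    exact ((integrable_finsetSum _ fun hd _ => (hI hd).const_mul _).const_mul _).add (bt_ex_int_sq.const_mul _)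

/-- **covering** -/
theorem bt_cover (hF : F.Ok) (hS : BtSys 𝔹) {p : LlPt} (hp : p.Ok F) (hc : BtClkAt 𝔹 F p) {m : ℕ} (hm : 1 ≤ m) {c0 Cen : ℝ} (hc0 : 0 < c0) (hCen : 1 ≤ Cen)
    (hCU : 2 * Cen / c0 ≤ X.CU) (hbl : 0 < X.bl) (hU : p.U F < 1) (h16 : 32 * Cen * p.x ≤ c0 * p.U F) (hvb : p.lam ^ X.bl ≤ F.vb / 16)
    {u : ℝ} (hu : c0 * p.U F ≤ u) :
    u * p.wA F 𝔹 m (indicator (Icc (u / Cen) (Cen * u)) 1) ≤ btBm 𝔹 F X Cen m p := by
  obtain ⟨h1, h2⟩ := bt_wA_wBm (X := X) hS hp hc hm Cen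
  rw [← h1]
  have e : u * p.wA F 𝔹 m (indicator (Icc (u / Cen) (Cen * u)) 1)
      = p.wA F 𝔹 m (fun v => u * indicator (Icc (u / Cen) (Cen * u)) 1 v) := by
    unfold LlPt.wA
    rw [← integral_const_mul]
    exact integral_congr_ae (Eventually.of_forall fun v => by ring)
  rw [e]
  exact bt_wA_mono hS hp hc hm ((bt_ex_int_ind _ measurableSet_Icc).const_mul _) h2 fun v hv =>
    bt_cover_pt hF hp hc0 hCen hCU hbl hU h16 hvb hu hv.1

/-- bounded overlaps -/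
theorem bt_trivial (hS : BtSys 𝔹) {p : LlPt} (hp : p.Ok F) (hc : BtClkAt 𝔹 F p) {m : ℕ} (hm : 1 ≤ m) {u : ℝ} (hu0 : 0 ≤ u) (hu : u ≤ p.a) (s : Set ℝ)
    (hs : MeasurableSet s) : u * p.wA F 𝔹 m (indicator s 1) ≤ 32 := by
  have ha := bt_a_le hp
  have ha1 := bt_a_ge_one hp
  have h0 : 0 ≤ p.wA F 𝔹 m (indicator s 1) := bt_wA_nonneg hS hp hc hm fun v _ => indicator_nonneg (fun _ _ => zero_le_one) _
  have h8 : p.wA F 𝔹 m (indicator s 1) ≤ 8 := by
    unfold LlPt.wA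
    have h1 : ∫ v in Ioo (0 : ℝ) p.a, indicator s (1 : ℝ → ℝ) v * p.Aerr F 𝔹 m v ≤ ∫ v in Ioo (0 : ℝ) p.a, (2 : ℝ) := by
      refine setIntegral_mono_on (bt_int_A hS hp hc hm (bt_ex_int_ind s hs)) (bt_int_bdd (C := 2) aestronglyMeasurable_const fun _ _ => by norm_num)
        measurableSet_Ioo fun v hv => ?_
      obtain ⟨hA0, hA2⟩ := bt_A_mem hS hp hc hm hv
      by_cases h : v ∈ s
      · rw [indicator_of_mem h, Pi.one_apply, one_mul]; exact hA2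
      · rw [indicator_of_notMem h, zero_mul]; norm_num
    refine h1.trans ?_
    rw [setIntegral_const]
    simp only [Measure.real, Real.volume_Ioo, sub_zero, smul_eq_mul]
    rw [ENNReal.toReal_ofReal (by linarith)]
    linarith
  calc u * p.wA F 𝔹 m (indicator s 1) ≤ 4 * 8 := mul_le_mul (hu.trans ha) h8 h0 (by norm_num)
    _ = 32 := by norm_num

/-! ## 2. Integration in `γ` -/

section Egamma

variable {N : ℕ} {ell lam chiL chiE : ℝ} {sm : Bool} {m : ℕ} {φ : ℝ → ℝ} {c : ℝ}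

/-- abstract form of `bt_E_one` -/
theorem bt_E_one_abs {n : ℕ} (G : (Fin n → ℝ) → ℝ) (hG : Continuous G) (h0 : ∀ γ, 0 ≤ G γ) (i : Fin n) (c : ℝ)
    (h : ∀ γ, ∫ s in (1 / 3 : ℝ)..(2 / 3), G (Function.update γ i s) ≤ c) :
    ∫⁻ γ, ENNReal.ofReal (G γ) ∂(Measure.pi fun _ : Fin n => btNu) ≤ ENNReal.ofReal (3 * c) := by
  refine bt_pi_one btNu i (fun γ => ENNReal.ofReal (G γ)) (ENNReal.measurable_ofReal.comp hG.measurable) _ fun γ => ?_
  have hc1 : Continuous fun s : ℝ => G (Function.update γ i s) :=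
    hG.comp (continuous_const.update i continuous_id)
  rw [bt_nu_lint hc1.continuousOn fun s _ => h0 _]
  exact ENNReal.ofReal_le_ofReal (mul_le_mul_of_nonneg_left (h γ) (by norm_num))

/-- abstract form of `bt_E_two` -/
theorem bt_E_two_abs {n : ℕ} (G : (Fin n → ℝ) → ℝ) (hG : Continuous G) (h0 : ∀ γ, 0 ≤ G γ) (i j : Fin n) (hij : i ≠ j) (c : ℝ)
    (h : ∀ γ, ∫ s in (1 / 3 : ℝ)..(2 / 3), ∫ t in (1 / 3 : ℝ)..(2 / 3), G (Function.update (Function.update γ i s) j t) ≤ c) :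
    ∫⁻ γ, ENNReal.ofReal (G γ) ∂(Measure.pi fun _ : Fin n => btNu) ≤ ENNReal.ofReal (9 * c) := by
  refine bt_pi_two btNu i j hij (fun γ => ENNReal.ofReal (G γ)) (ENNReal.measurable_ofReal.comp hG.measurable) _ fun γ => ?_
  have hc2 : Continuous fun z : ℝ × ℝ => G (Function.update (Function.update γ i z.1) j z.2) :=
    hG.comp (Continuous.update (Continuous.update (continuous_const (y := γ)) i continuous_fst) j continuous_snd)
  have hin : ∀ s : ℝ, ∫⁻ t, ENNReal.ofReal (G (Function.update (Function.update γ i s) j t)) ∂btNu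
      = ENNReal.ofReal (3 * ∫ t in (1 / 3 : ℝ)..(2 / 3), G (Function.update (Function.update γ i s) j t)) := by
    intro s
    have : Continuous fun t : ℝ => G (Function.update (Function.update γ i s) j t) :=
      hc2.comp (continuous_const.prodMk continuous_id)
    exact bt_nu_lint this.continuousOn fun t _ => h0 _
  simp only [hin]
  have hc3 : Continuous fun s : ℝ => 3 * ∫ t in (1 / 3 : ℝ)..(2 / 3), G (Function.update (Function.update γ i s) j t) :=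
    continuous_const.mul (intervalIntegral.continuous_parametric_intervalIntegral_of_continuous' (by exact hc2) _ _)
  rw [bt_nu_lint hc3.continuousOn fun s _ => mul_nonneg (by norm_num)
    (intervalIntegral.integral_nonneg (by norm_num) fun t _ => h0 _)]
  refine ENNReal.ofReal_le_ofReal ?_
  rw [intervalIntegral.integral_const_mul, ← mul_assoc]
  have := h γ
  nlinarith

/-- integration of the coordinate `γ_0` -/
theorem bt_E_one (hcont : Continuous fun γ : Fin (N + 1) → ℝ => (ll04Pt N ell lam chiL chiE sm γ).wA F 𝔹 m φ)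
    (h0 : ∀ γ, 0 ≤ (ll04Pt N ell lam chiL chiE sm γ).wA F 𝔹 m φ)
    (h : ∀ γ, ∫ r in (1 / 3 : ℝ)..(2 / 3), ((ll04Pt N ell lam chiL chiE sm γ).wG0 r).wA F 𝔹 m φ ≤ c) :
    ∫⁻ γ, ENNReal.ofReal ((ll04Pt N ell lam chiL chiE sm γ).wA F 𝔹 m φ) ∂ll04Mu N ≤ ENNReal.ofReal (3 * c) := by
  rw [bt_mu_eq]
  refine bt_E_one_abs _ hcont h0 0 c fun γ => ?_
  refine le_trans (le_of_eq ?_) (h γ)
  refine intervalIntegral.integral_congr fun s hs => ?_
  rw [uIcc_of_le (by norm_num)] at hs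
  rw [bt_pt_update0, bt_cl_of_mem hs]

/-- integration of the coordinates `γ_0`, `γ_u` -/
theorem bt_E_two {hd : ℕ} (hh : hd < N) (hcont : Continuous fun γ : Fin (N + 1) → ℝ => (ll04Pt N ell lam chiL chiE sm γ).wA F 𝔹 m φ)
    (h0 : ∀ γ, 0 ≤ (ll04Pt N ell lam chiL chiE sm γ).wA F 𝔹 m φ)
    (h : ∀ γ, ∫ g in (1 / 3 : ℝ)..(2 / 3), ∫ t in (1 / 3 : ℝ)..(2 / 3), ((ll04Pt N ell lam chiL chiE sm γ).loc hd g t).wA F 𝔹 m φ ≤ c) :
    ∫⁻ γ, ENNReal.ofReal ((ll04Pt N ell lam chiL chiE sm γ).wA F 𝔹 m φ) ∂ll04Mu N ≤ ENNReal.ofReal (9 * c) := by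
  rw [bt_mu_eq]
  have hij : (0 : Fin (N + 1)) ≠ ⟨hd + 1, Nat.succ_lt_succ hh⟩ := by
    intro e
    have := congrArg Fin.val e
    simp at this
  refine bt_E_two_abs _ hcont h0 0 ⟨hd + 1, Nat.succ_lt_succ hh⟩ hij c fun γ => ?_
  refine le_trans (le_of_eq ?_) (h γ)
  refine intervalIntegral.integral_congr fun s hs => ?_
  rw [uIcc_of_le (by norm_num)] at hs
  refine intervalIntegral.integral_congr fun t ht => ?_
  rw [uIcc_of_le (by norm_num)] at ht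
  rw [bt_pt_updateU _ _ _ _ _ _ _ hh, bt_pt_update0, bt_cl_of_mem hs, bt_cl_of_mem ht]
  rfl

end Egamma

/-! ## 3. Exponent checks -/

/-- what is asked of the exponents besides `BdFix.Ok` -/
structure BtExp (F : LlFix) (X : BdFix) (cG : ℝ) : Prop where
  fix : BtFix F X
  ok : X.Ok
  cG : 48 * (X.tau + X.tau0) ≤ cG

set_option maxHeartbeats 1000000 in
/-- **l.62-78 and the high dyads** (`u ≥ λ^{b_ℓ}`): `K λ^{-b_ℓ-1} (𝓑 + [smoothed] x^{5+1/8}) ≤ U⁴`, for a suitable subpower loss `ε` -/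
theorem bt_pow_glob {cG : ℝ} (hE : BtExp F X cG) : ∃ ε : ℝ, 0 < ε ∧ ∀ K : ℝ, LlUnif F fun p => p.U F < 1 → (p.chiL ≠ 0 → p.lam = p.x ^ F.pS) →
    K * p.lam ^ (-X.bl) / p.lam * (p.Bcal F cG ε + if p.sm then p.x ^ (5 + 1 / 8 : ℝ) else 0) ≤ p.U F ^ 4 := by
  have hok := hE.ok
  have h1 := hok.tau0_pos
  have h2 := hok.tau0_le
  have h3 := hok.eta_le
  have h4 := hok.tau_le
  have h5 := hok.pS_pos
  have h5a := hok.pS_le
  have h5b := hok.he_le
  have h6 := hok.bl_pos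
  have h7 := hok.bl_le
  have h8 := hok.bs_le
  have hcG := hE.cG
  have heta0 : 0 < X.eta := by linarith
  obtain ⟨ε, hε⟩ : ∃ ε, ε = X.pS * X.eta / 2 := ⟨_, rfl⟩
  have hε0 : 0 < ε := by rw [hε]; positivity
  have hεt : ε ≤ X.tau / 100 := by
    have : X.pS * X.eta ≤ 1 * X.eta := mul_le_mul_of_nonneg_right (by linarith) heta0.le
    rw [hε]
    linarith
  refine ⟨ε, hε0, fun K => ?_⟩
  obtain ⟨M, hM⟩ := bt_lg_absorb hε0 (5 * |K|)
  obtain ⟨N0, hN0⟩ := bt_lg_large M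
  refine ⟨N0, fun p hpk hN hU hchi => ?_⟩
  obtain ⟨a, ha⟩ : ∃ a, a = -Real.log p.x := ⟨_, rfl⟩
  obtain ⟨b, hb⟩ : ∃ b, b = -Real.log p.lam := ⟨_, rfl⟩
  have ha0 : 0 ≤ a := ha ▸ bt_lg_A_nonneg hpk
  have hMa : M ≤ a := ha ▸ hN0 p hN
  have hx : ∀ r : ℝ, p.x ^ r = Real.exp (-(r * a)) := fun r => ha ▸ bt_lg_px hpk r
  have hl : ∀ r : ℝ, p.lam ^ r = Real.exp (-(r * b)) := fun r => hb ▸ bt_lg_pl hpk r
  have hx1 : p.x = Real.exp (-a) := ha ▸ bt_lg_x hpk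
  have hl1 : p.lam = Real.exp (-b) := hb ▸ bt_lg_lam hpk
  have hlo : X.pS * a ≤ b := by
    have := bt_lg_lo hpk
    rwa [← ha, ← hb, ← hE.fix.pS] at this
  have hhi : b ≤ 12 * a := by
    have := bt_lg_hi hpk
    rwa [← ha, ← hb] at this
  have hsS : F.sS = 1 / 2 - X.tau := by rw [← hE.fix.sS]; rfl
  have hb0 : 0 ≤ b := le_trans (by positivity) hlo
  have hU4 : p.U F ^ 4 = Real.exp (-(4 * a) + (1 - 2 * X.tau) * b) := by
    rw [bt_lg_U_eq hpk hU, ← Real.exp_nat_mul, ← ha, ← hb, hsS]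
    congr 1
    push_cast
    ring
  have hlpos : 0 < p.lam := bt_lam_pos hpk
  have hxpos : 0 < p.x := bt_x_pos hpk
  have hUpos : 0 < p.U F := bt_U_pos hpk
  have hx6 : p.x ^ 6 = Real.exp (-(6 * a)) := by
    rw [← hx 6]
    norm_cast
  -- the common bound
  obtain ⟨E, hEd⟩ : ∃ E, E = Real.exp (-(ε * a)) * p.U F ^ 4 := ⟨_, rfl⟩
  have hEe : E = Real.exp (-(ε * a) + (-(4 * a) + (1 - 2 * X.tau) * b)) := by rw [hEd, hU4, ← Real.exp_add]
  obtain ⟨L, hL⟩ : ∃ L, L = p.lam ^ (-X.bl) / p.lam := ⟨_, rfl⟩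
  have hLe : L = Real.exp ((1 + X.bl) * b) := by
    rw [hL, hl]
    conv_lhs => rw [hl1]
    rw [← Real.exp_sub]
    congr 1
    ring
  have hL0 : 0 ≤ L := by rw [hLe]; exact (Real.exp_pos _).le
  have htb : X.tau * b ≤ X.tau * (12 * a) := mul_le_mul_of_nonneg_left hhi (by linarith)
  have hblb : X.bl * b ≤ X.bl * (12 * a) := mul_le_mul_of_nonneg_left hhi h6.le
  have hta : 0 ≤ X.tau * a := mul_nonneg (by linarith) ha0
  have hbla : X.bl * a ≤ X.tau / 1000000 * a := mul_le_mul_of_nonneg_right (by linarith) ha0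
  have hεa : ε * a ≤ X.tau / 100 * a := mul_le_mul_of_nonneg_right hεt ha0
  have hta1 : X.tau * a ≤ 1 / 100000 * a := mul_le_mul_of_nonneg_right h4 ha0
  have hcGa : 48 * (X.tau + X.tau0) * a ≤ cG * a := mul_le_mul_of_nonneg_right hcG ha0
  have ht0a : 0 ≤ X.tau0 * a := by positivity
  have Sa : L * p.x ^ (4 + cG) ≤ E := by
    rw [hLe, hx, hEe, ← Real.exp_add]
    apply Real.exp_le_exp.2
    nlinarith
  -- `x^{-ε} λ^{2η - b_ℓ} ≤ x^{ε}`
  have hkey : L * (p.x ^ (-ε) * p.lam ^ (1 + 2 * F.eta)) ≤ Real.exp (-(ε * a)) := by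
    rw [hLe, hx, hl, ← Real.exp_add, ← Real.exp_add, ← hE.fix.eta]
    apply Real.exp_le_exp.2
    have e1 : X.eta * (X.pS * a) ≤ X.eta * b := mul_le_mul_of_nonneg_left hlo heta0.le
    have e2 : X.bl * b ≤ X.eta * b := mul_le_mul_of_nonneg_right (by linarith) hb0
    have e3 : ε * a = X.eta * (X.pS * a) / 2 := by rw [hε]; ring
    nlinarith
  have hU5 : p.U F ^ 5 ≤ p.U F ^ 4 := pow_le_pow_of_le_one hUpos.le hU.le (by norm_num)
  have hU40 : 0 ≤ p.U F ^ 4 := by positivity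
  have Sb : L * (p.x ^ (-ε) * (p.lam ^ (1 + 2 * F.eta) * p.U F ^ 5)) ≤ E := by
    calc L * (p.x ^ (-ε) * (p.lam ^ (1 + 2 * F.eta) * p.U F ^ 5))
        = L * (p.x ^ (-ε) * p.lam ^ (1 + 2 * F.eta)) * p.U F ^ 5 := by ring
      _ ≤ L * (p.x ^ (-ε) * p.lam ^ (1 + 2 * F.eta)) * p.U F ^ 4 := by
          refine mul_le_mul_of_nonneg_left hU5 ?_
          have g1 : 0 ≤ p.x ^ (-ε) := Real.rpow_nonneg hxpos.le _
          have g2 : 0 ≤ p.lam ^ (1 + 2 * F.eta) := Real.rpow_nonneg hlpos.le _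
          positivity
      _ ≤ E := by
          rw [hEd]
          exact mul_le_mul_of_nonneg_right hkey hU40
  have hchiE : p.chiE ^ 2 ≤ 1 := pow_le_one₀ hpk.chiE.1 hpk.chiE.2
  have Sc : L * (p.x ^ (-ε) * (p.chiE ^ 2 * p.lam ^ (1 + 2 * F.eta) * p.U F ^ 4)) ≤ E := by
    calc L * (p.x ^ (-ε) * (p.chiE ^ 2 * p.lam ^ (1 + 2 * F.eta) * p.U F ^ 4))
        = p.chiE ^ 2 * (L * (p.x ^ (-ε) * p.lam ^ (1 + 2 * F.eta)) * p.U F ^ 4) := by ring
      _ ≤ 1 * (L * (p.x ^ (-ε) * p.lam ^ (1 + 2 * F.eta)) * p.U F ^ 4) := by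
          refine mul_le_mul_of_nonneg_right hchiE ?_
          have g1 : 0 ≤ p.x ^ (-ε) := Real.rpow_nonneg hxpos.le _
          have g2 : 0 ≤ p.lam ^ (1 + 2 * F.eta) := Real.rpow_nonneg hlpos.le _
          positivity
      _ ≤ E := by
          rw [hEd, one_mul]
          exact mul_le_mul_of_nonneg_right hkey hU40
  have hE0 : 0 ≤ E := by rw [hEe]; exact (Real.exp_pos _).le
  have hchiL : p.chiL ^ 2 ≤ 1 := pow_le_one₀ hpk.chiL.1 hpk.chiL.2
  have Sd : L * (p.x ^ (-ε) * (p.chiL ^ 2 * p.x ^ 6 / p.lam)) ≤ E := by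
    by_cases h0 : p.chiL = 0
    · rw [h0]
      simpa using hE0
    · have hbeq : b = X.pS * a := by
        rw [hb, hchi h0, Real.log_rpow hxpos, ha, hE.fix.pS]
        ring
      calc L * (p.x ^ (-ε) * (p.chiL ^ 2 * p.x ^ 6 / p.lam))
          = p.chiL ^ 2 * (L * (p.x ^ (-ε) * (p.x ^ 6 / p.lam))) := by ring
        _ ≤ 1 * (L * (p.x ^ (-ε) * (p.x ^ 6 / p.lam))) := by
            refine mul_le_mul_of_nonneg_right hchiL ?_
            have g1 : 0 ≤ p.x ^ (-ε) := Real.rpow_nonneg hxpos.le _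
            positivity
        _ = Real.exp ((1 + X.bl) * b + (-(-ε * a) + (-(6 * a) - -b))) := by
            rw [one_mul, hLe, hx, hx6]
            conv_lhs => rw [hl1]
            rw [← Real.exp_sub, ← Real.exp_add, ← Real.exp_add]
        _ ≤ E := by
            rw [hEe]
            apply Real.exp_le_exp.2
            have e1 : X.pS * a ≤ 1 / 1000000 * a := mul_le_mul_of_nonneg_right (by linarith) ha0
            nlinarith
  have Se : L * (if p.sm then p.x ^ (5 + 1 / 8 : ℝ) else 0) ≤ E := by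
    split_ifs
    · rw [hLe, hx, hEe, ← Real.exp_add]
      apply Real.exp_le_exp.2
      nlinarith
    · rw [mul_zero]
      exact hE0
  have hsum : L * (p.Bcal F cG ε + if p.sm then p.x ^ (5 + 1 / 8 : ℝ) else 0) ≤ 5 * E := by
    unfold LlPt.Bcal
    have e : L * (p.x ^ (4 + cG) + p.x ^ (-ε) * (p.lam ^ (1 + 2 * F.eta) * p.U F ^ 5 + p.chiE ^ 2 * p.lam ^ (1 + 2 * F.eta) * p.U F ^ 4
        + p.chiL ^ 2 * p.x ^ 6 / p.lam) + if p.sm then p.x ^ (5 + 1 / 8 : ℝ) else 0)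
        = L * p.x ^ (4 + cG) + L * (p.x ^ (-ε) * (p.lam ^ (1 + 2 * F.eta) * p.U F ^ 5))
          + L * (p.x ^ (-ε) * (p.chiE ^ 2 * p.lam ^ (1 + 2 * F.eta) * p.U F ^ 4))
          + L * (p.x ^ (-ε) * (p.chiL ^ 2 * p.x ^ 6 / p.lam)) + L * (if p.sm then p.x ^ (5 + 1 / 8 : ℝ) else 0) := by ring
    rw [e]
    linarith
  have hnn : 0 ≤ L * (p.Bcal F cG ε + if p.sm then p.x ^ (5 + 1 / 8 : ℝ) else 0) := by
    refine mul_nonneg hL0 ?_
    unfold LlPt.Bcal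
    have g3 : 0 ≤ p.x ^ (4 + cG) := Real.rpow_nonneg hxpos.le _
    have g4 : 0 ≤ p.x ^ (-ε) := Real.rpow_nonneg hxpos.le _
    have g5 : 0 ≤ p.lam ^ (1 + 2 * F.eta) := Real.rpow_nonneg hlpos.le _
    have g6 : 0 ≤ (if p.sm then p.x ^ (5 + 1 / 8 : ℝ) else 0) := by
      split_ifs
      · exact Real.rpow_nonneg hxpos.le _
      · exact le_rfl
    positivity
  calc K * p.lam ^ (-X.bl) / p.lam * (p.Bcal F cG ε + if p.sm then p.x ^ (5 + 1 / 8 : ℝ) else 0)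
      = K * (L * (p.Bcal F cG ε + if p.sm then p.x ^ (5 + 1 / 8 : ℝ) else 0)) := by
        rw [hL]
        ring
    _ ≤ |K| * (L * (p.Bcal F cG ε + if p.sm then p.x ^ (5 + 1 / 8 : ℝ) else 0)) := mul_le_mul_of_nonneg_right (le_abs_self K) hnn
    _ ≤ |K| * (5 * E) := mul_le_mul_of_nonneg_left hsum (abs_nonneg K)
    _ = 5 * |K| * Real.exp (-(ε * a)) * p.U F ^ 4 := by
        rw [hEd]
        ring
    _ ≤ 1 * p.U F ^ 4 := mul_le_mul_of_nonneg_right (hM a hMa) hU40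
    _ = p.U F ^ 4 := one_mul _

/-- **l.2222-2245**: one local dyad -/
theorem bt_pow_loc {cG : ℝ} (hE : BtExp F X cG) : ∀ K : ℝ, LlUnif F fun p => p.U F < 1 → ∀ hd : ℕ, p.IsLoc F X hd →
    btU hd * (K / (p.lam * btU hd ^ 2) * (btU hd * (p.x ^ (4 - 2 * X.zeta) * p.lam ^ (1 / 100 : ℝ) + p.x ^ 4 * p.lam ^ (1 - 2 * X.s0))
      + if p.sm then p.x ^ (5 + 1 / 8 : ℝ) else 0)) ≤ (3 * |K| + 1) * p.U F ^ 4 := by
  intro K
  refine ⟨0, fun p hpk _ hU hd hloc => ?_⟩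
  obtain ⟨a, ha⟩ : ∃ a, a = -Real.log p.x := ⟨_, rfl⟩
  obtain ⟨b, hb⟩ : ∃ b, b = -Real.log p.lam := ⟨_, rfl⟩
  have ha0 : 0 ≤ a := ha ▸ bt_lg_A_nonneg hpk
  have hx : ∀ r : ℝ, p.x ^ r = Real.exp (-(r * a)) := fun r => ha ▸ bt_lg_px hpk r
  have hl : ∀ r : ℝ, p.lam ^ r = Real.exp (-(r * b)) := fun r => hb ▸ bt_lg_pl hpk r
  have hx1 : p.x = Real.exp (-a) := ha ▸ bt_lg_x hpk
  have hl1 : p.lam = Real.exp (-b) := hb ▸ bt_lg_lam hpk
  have hlo : X.pS * a ≤ b := by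
    have := bt_lg_lo hpk
    rwa [← ha, ← hb, ← hE.fix.pS] at this
  have hhi : b ≤ 12 * a := by
    have := bt_lg_hi hpk
    rwa [← ha, ← hb] at this
  have hsS : F.sS = 1 / 2 - X.tau := by rw [← hE.fix.sS]; rfl
  have hs0 : X.s0 = 1 / 2 - X.tau - X.tau0 := rfl
  have hok := hE.ok
  have h1 := hok.tau0_pos
  have h2 := hok.tau0_le
  have h3 := hok.eta_le
  have h4 := hok.tau_le
  have h5 := hok.pS_pos
  have h6 := hok.bl_pos
  have h7 := hok.bl_le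
  have h8 := hok.bs_le
  have h9 := hok.zeta_pos
  have h10 := hok.zeta_le
  have hb0 : 0 ≤ b := le_trans (by positivity) hlo
  have hU4 : p.U F ^ 4 = Real.exp (-(4 * a) + (1 - 2 * X.tau) * b) := by
    rw [bt_lg_U_eq hpk hU, ← Real.exp_nat_mul, ← ha, ← hb, hsS]
    congr 1
    push_cast
    ring
  have hlpos : 0 < p.lam := bt_lam_pos hpk
  have hu : 0 < btU hd := by unfold btU; positivity
  have hx4 : p.x ^ 4 = Real.exp (-(4 * a)) := by
    rw [← hx 4]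
    norm_cast
  -- `ζ ≤ p_* / 10^5`
  have hz : X.zeta ≤ X.pS / 100000 := by
    have e1 : X.tau0 * X.bl ≤ 1 * 1 := mul_le_mul (by linarith) (by linarith) h6.le (by norm_num)
    have e2 : X.pS * (X.tau0 * X.bl) ≤ X.pS * (1 * 1) := mul_le_mul_of_nonneg_left e1 h5.le
    nlinarith
  have hza : X.zeta * a ≤ b / 100000 := by
    have := mul_le_mul_of_nonneg_right hz ha0
    nlinarith
  have htb : X.tau * b ≤ 1 / 100000 * b := mul_le_mul_of_nonneg_right h4 hb0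
  have ht0b : 0 ≤ X.tau0 * b := by positivity
  have T1 : p.x ^ (4 - 2 * X.zeta) * p.lam ^ (1 / 100 : ℝ) / p.lam ≤ p.U F ^ 4 := by
    rw [hx, hl, hl1, hU4, ← Real.exp_add, ← Real.exp_sub]
    apply Real.exp_le_exp.2
    nlinarith
  have T2 : p.x ^ 4 * p.lam ^ (1 - 2 * X.s0) / p.lam ≤ p.U F ^ 4 := by
    rw [hx4, hl, hl1, hU4, ← Real.exp_add, ← Real.exp_sub, hs0]
    apply Real.exp_le_exp.2
    nlinarith
  have T3 : (if p.sm then p.x ^ (5 + 1 / 8 : ℝ) else 0) / (p.lam * btU hd) ≤ p.U F ^ 4 := by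
    split_ifs
    · have hxu : p.x ≤ btU hd := by
        have := hloc.1.1
        have hxp := bt_x_pos hpk
        unfold btU
        linarith
      calc p.x ^ (5 + 1 / 8 : ℝ) / (p.lam * btU hd) ≤ p.x ^ (5 + 1 / 8 : ℝ) / (p.lam * p.x) := by
            refine div_le_div_of_nonneg_left (Real.rpow_nonneg (bt_x_pos hpk).le _) (mul_pos hlpos (bt_x_pos hpk)) ?_
            exact mul_le_mul_of_nonneg_left hxu hlpos.le
        _ = Real.exp (-((5 + 1 / 8) * a) - (-b + -a)) := by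
            rw [hx]
            conv_lhs => rw [hl1, hx1]
            rw [← Real.exp_add, ← Real.exp_sub]
        _ ≤ p.U F ^ 4 := by
            rw [hU4]
            apply Real.exp_le_exp.2
            nlinarith
    · rw [zero_div]
      positivity
  have hU0 : 0 ≤ p.U F ^ 4 := by positivity
  have e : btU hd * (K / (p.lam * btU hd ^ 2) * (btU hd * (p.x ^ (4 - 2 * X.zeta) * p.lam ^ (1 / 100 : ℝ) + p.x ^ 4 * p.lam ^ (1 - 2 * X.s0))
      + if p.sm then p.x ^ (5 + 1 / 8 : ℝ) else 0))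
      = K * (p.x ^ (4 - 2 * X.zeta) * p.lam ^ (1 / 100 : ℝ) / p.lam + p.x ^ 4 * p.lam ^ (1 - 2 * X.s0) / p.lam
        + (if p.sm then p.x ^ (5 + 1 / 8 : ℝ) else 0) / (p.lam * btU hd)) := by
    field_simp
  rw [e]
  have hnn : 0 ≤ p.x ^ (4 - 2 * X.zeta) * p.lam ^ (1 / 100 : ℝ) / p.lam + p.x ^ 4 * p.lam ^ (1 - 2 * X.s0) / p.lam
        + (if p.sm then p.x ^ (5 + 1 / 8 : ℝ) else 0) / (p.lam * btU hd) := by
    have g1 := bt_x_pos hpk
    have g2 : 0 ≤ p.x ^ (4 - 2 * X.zeta) := Real.rpow_nonneg g1.le _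
    have g3 : 0 ≤ p.lam ^ (1 / 100 : ℝ) := Real.rpow_nonneg hlpos.le _
    have g4 : 0 ≤ p.lam ^ (1 - 2 * X.s0) := Real.rpow_nonneg hlpos.le _
    have g5 : 0 ≤ (if p.sm then p.x ^ (5 + 1 / 8 : ℝ) else 0) := by
      split_ifs
      · exact Real.rpow_nonneg g1.le _
      · exact le_rfl
    positivity
  calc K * (p.x ^ (4 - 2 * X.zeta) * p.lam ^ (1 / 100 : ℝ) / p.lam + p.x ^ 4 * p.lam ^ (1 - 2 * X.s0) / p.lam
        + (if p.sm then p.x ^ (5 + 1 / 8 : ℝ) else 0) / (p.lam * btU hd))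
      ≤ |K| * (p.x ^ (4 - 2 * X.zeta) * p.lam ^ (1 / 100 : ℝ) / p.lam + p.x ^ 4 * p.lam ^ (1 - 2 * X.s0) / p.lam
        + (if p.sm then p.x ^ (5 + 1 / 8 : ℝ) else 0) / (p.lam * btU hd)) := mul_le_mul_of_nonneg_right (le_abs_self K) hnn
    _ ≤ |K| * (p.U F ^ 4 + p.U F ^ 4 + p.U F ^ 4) := mul_le_mul_of_nonneg_left (by linarith) (abs_nonneg K)
    _ ≤ (3 * |K| + 1) * p.U F ^ 4 := by nlinarith

/-- "summing over dyads costs at most a logarithm" -/
theorem bt_card_loc {p : LlPt} (hp : p.Ok F) : ((p.locs F X).card : ℝ) ≤ Real.log p.N + 1 := by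
  have hN : (2 : ℝ) ≤ p.N := by exact_mod_cast hp.N2
  have hN0 : (0 : ℝ) < p.N := by linarith
  have hlog : 0 ≤ Real.log p.N := Real.log_nonneg (by linarith)
  have hsub : p.locs F X ⊆ Finset.range (⌊Real.log p.N⌋₊ + 1) := by
    intro hd hhd
    have hloc : p.IsLoc F X hd := (bt_mem_locs.1 hhd).2
    have h16 : 16 * p.x ≤ (2 : ℝ)⁻¹ ^ hd := hloc.1.1
    have hx := bt_x_pos hp
    have h1 : p.x ≤ (2 : ℝ)⁻¹ ^ hd := by linarith
    have h2 := Real.log_le_log hx h1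
    rw [Real.log_pow, Real.log_inv] at h2
    have h3 : Real.log p.x = -(1 / 6) * Real.log p.N := by
      unfold LlPt.x
      rw [Real.log_rpow hN0]
    have hl2 : (0.6931471803 : ℝ) < Real.log 2 := Real.log_two_gt_d9
    rw [Finset.mem_range, Nat.lt_succ_iff]
    apply Nat.le_floor
    have h4 : (hd : ℝ) * Real.log 2 ≤ 1 / 6 * Real.log p.N := by linarith
    have h5 : (hd : ℝ) * (1 / 6) ≤ (hd : ℝ) * Real.log 2 :=
      mul_le_mul_of_nonneg_left (by linarith) (Nat.cast_nonneg _)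
    linarith
  have h := Finset.card_le_card hsub
  rw [Finset.card_range] at h
  have h' : ((p.locs F X).card : ℝ) ≤ (⌊Real.log p.N⌋₊ : ℝ) + 1 := by exact_mod_cast h
  linarith [Nat.floor_le hlog]

/-- the side conditions of the covering hold for large sizes -/
theorem bt_cover_side (hF : F.Ok) (hbl : 0 < X.bl) {c0 Cen : ℝ} (hc0 : 0 < c0) : LlUnif F fun p =>
    32 * Cen * p.x ≤ c0 * p.U F ∧ p.lam ^ X.bl ≤ F.vb / 16 := by
  obtain ⟨M1, hM1⟩ := bt_lg_absorb (e := 1) one_pos (32 * Cen / c0)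
  obtain ⟨M2, hM2⟩ := bt_lg_absorb (e := F.pS * (F.sS / 2)) (mul_pos hF.pS0 (half_pos hF.sS0)) (32 * Cen / c0)
  obtain ⟨M3, hM3⟩ := bt_lg_absorb (e := F.pS * X.bl) (mul_pos hF.pS0 hbl) (16 / F.vb)
  obtain ⟨N0, hN0⟩ := bt_lg_large (max M1 (max M2 M3))
  refine ⟨N0, fun p hp hpN => ?_⟩
  have hA := hN0 p hpN
  set A := -Real.log p.x with hAdef
  set B := -Real.log p.lam with hBdef
  have hx : p.x = Real.exp (-A) := bt_lg_x hp
  have hl : p.lam = Real.exp (-B) := bt_lg_lam hp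
  have hlo : F.pS * A ≤ B := bt_lg_lo hp
  have h1 := hM1 A ((le_max_left _ _).trans hA)
  have h2 := hM2 A (((le_max_left _ _).trans (le_max_right _ _)).trans hA)
  have h3 := hM3 A (((le_max_right _ _).trans (le_max_right _ _)).trans hA)
  constructor
  · unfold LlPt.U
    rw [mul_min_of_nonneg _ _ hc0.le, le_min_iff]
    constructor
    · rw [hx, mul_one]
      rw [one_mul, div_mul_eq_mul_div, div_le_one hc0] at h1
      exact h1
    · rw [hl, ← Real.exp_mul, hx]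
      rw [div_mul_eq_mul_div, div_le_one hc0] at h2
      have e1 : Real.exp (-(F.pS * (F.sS / 2) * A)) * Real.exp (-B * -(F.sS / 2)) ≥ 1 := by
        rw [← Real.exp_add]
        apply Real.one_le_exp
        have : 0 ≤ (B - F.pS * A) * (F.sS / 2) := mul_nonneg (by linarith) (half_pos hF.sS0).le
        nlinarith
      have e2 : 0 < Real.exp (-A) := Real.exp_pos _
      have e3 : 0 < Real.exp (-B * -(F.sS / 2)) := Real.exp_pos _
      have e4 : 32 * Cen ≤ c0 * Real.exp (-B * -(F.sS / 2)) := by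
        by_cases hC : 0 ≤ Cen
        · calc 32 * Cen = 32 * Cen * 1 := by ring
            _ ≤ 32 * Cen * (Real.exp (-(F.pS * (F.sS / 2) * A)) * Real.exp (-B * -(F.sS / 2))) :=
              mul_le_mul_of_nonneg_left e1 (by positivity)
            _ = (32 * Cen * Real.exp (-(F.pS * (F.sS / 2) * A))) * Real.exp (-B * -(F.sS / 2)) := by ring
            _ ≤ c0 * Real.exp (-B * -(F.sS / 2)) := mul_le_mul_of_nonneg_right h2 e3.le
        · have : 0 < c0 * Real.exp (-B * -(F.sS / 2)) := mul_pos hc0 e3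
          linarith
      calc 32 * Cen * Real.exp (-A) ≤ c0 * Real.exp (-B * -(F.sS / 2)) * Real.exp (-A) :=
            mul_le_mul_of_nonneg_right e4 e2.le
        _ = c0 * (Real.exp (-A) * Real.exp (-B * -(F.sS / 2))) := by ring
  · rw [hl, ← Real.exp_mul]
    have hvb := hF.vb0
    rw [div_mul_eq_mul_div, div_le_one hvb] at h3
    have e1 : Real.exp (-B * X.bl) ≤ Real.exp (-(F.pS * X.bl * A)) := by
      apply Real.exp_le_exp.2
      have : 0 ≤ (B - F.pS * A) * X.bl := mul_nonneg (by linarith) hbl.le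
      nlinarith
    linarith

/-- **LL 10 item 2**: final strength, edge off -/
theorem bt_pow_fin (hF : F.Ok) {cG : ℝ} (hcG : 0 < cG) (hp : F.pS ≤ min cG (1 / 8) / 8) : ∀ K : ℝ, LlUnif F fun p => p.lam = p.x ^ F.pS → p.chiE = 0 →
    K / p.lam * (p.Bcal F cG (1 / 100) + p.x ^ (5 + 1 / 8 : ℝ)) ≤ p.x ^ (4 + min cG (1 / 8) / 2) := by
  intro K
  obtain ⟨c', hc'⟩ : ∃ c', c' = min cG (1 / 8) := ⟨_, rfl⟩
  rw [← hc'] at hp ⊢
  have hc0 : 0 < c' := hc' ▸ lt_min hcG (by norm_num)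
  have hc1 : c' ≤ cG := hc' ▸ min_le_left _ _
  have hc2 : c' ≤ 1 / 8 := hc' ▸ min_le_right _ _
  obtain ⟨M, hM⟩ := bt_lg_absorb (e := c' / 4) (by positivity) (4 * |K|)
  obtain ⟨N0, hN0⟩ := bt_lg_large M
  refine ⟨N0, fun p hpk hN hlam hchi => ?_⟩
  obtain ⟨a, ha⟩ : ∃ a, a = -Real.log p.x := ⟨_, rfl⟩
  have ha0 : 0 ≤ a := ha ▸ bt_lg_A_nonneg hpk
  have hMa : M ≤ a := ha ▸ hN0 p hN
  have hx : ∀ r : ℝ, p.x ^ r = Real.exp (-(r * a)) := fun r => ha ▸ bt_lg_px hpk r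
  have hb : -Real.log p.lam = F.pS * a := by
    rw [hlam, Real.log_rpow (bt_x_pos hpk), ha]
    ring
  have hl : ∀ r : ℝ, p.lam ^ r = Real.exp (-(r * (F.pS * a))) := fun r => hb ▸ bt_lg_pl hpk r
  have hl1 : p.lam = Real.exp (-(F.pS * a)) := by rw [hlam, hx]
  have hlpos : 0 < p.lam := bt_lam_pos hpk
  have hUle : p.U F ≤ Real.exp (-a + F.sS / 2 * (F.pS * a)) := by
    have := bt_lg_U_le hpk
    rwa [hb, ← ha] at this
  have hpS0 := hF.pS0
  have hsS0 := hF.sS0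
  have hsS1 := hF.sS1
  have heta := hF.eta0
  have hpa : 0 ≤ F.pS * a := by positivity
  have hpa2 : F.pS * a ≤ c' / 8 * a := mul_le_mul_of_nonneg_right hp ha0
  have hca : c' * a ≤ 1 / 8 * a := mul_le_mul_of_nonneg_right hc2 ha0
  have hca1 : c' * a ≤ cG * a := mul_le_mul_of_nonneg_right hc1 ha0
  have hca0 : 0 ≤ c' * a := by positivity
  obtain ⟨E, hE⟩ : ∃ E, E = Real.exp (-(F.pS * a) + -((4 + 3 * c' / 4) * a)) := ⟨_, rfl⟩
  -- the four terms
  have S1 : p.x ^ (4 + cG) ≤ E := by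
    rw [hx, hE]
    apply Real.exp_le_exp.2
    nlinarith
  have hU5 : p.U F ^ 5 ≤ Real.exp (5 * (-a + F.sS / 2 * (F.pS * a))) := by
    refine (pow_le_pow_left₀ (bt_U_pos hpk).le hUle 5).trans (le_of_eq ?_)
    rw [← Real.exp_nat_mul]
    norm_num
  have hsp : F.sS / 2 * (F.pS * a) ≤ 1 / 4 * (F.pS * a) := mul_le_mul_of_nonneg_right (by linarith) hpa
  have hep : 0 ≤ F.eta * (F.pS * a) := by positivity
  have S2 : p.x ^ (-(1 / 100) : ℝ) * (p.lam ^ (1 + 2 * F.eta) * p.U F ^ 5) ≤ E := by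
    calc p.x ^ (-(1 / 100) : ℝ) * (p.lam ^ (1 + 2 * F.eta) * p.U F ^ 5)
        ≤ p.x ^ (-(1 / 100) : ℝ) * (p.lam ^ (1 + 2 * F.eta) * Real.exp (5 * (-a + F.sS / 2 * (F.pS * a)))) := by
          refine mul_le_mul_of_nonneg_left (mul_le_mul_of_nonneg_left hU5 ?_) ?_
          · exact Real.rpow_nonneg hlpos.le _
          · exact Real.rpow_nonneg (bt_x_pos hpk).le _
      _ = Real.exp (-(-(1 / 100) * a) + (-((1 + 2 * F.eta) * (F.pS * a)) + 5 * (-a + F.sS / 2 * (F.pS * a)))) := by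
          rw [hx, hl, ← Real.exp_add, ← Real.exp_add]
      _ ≤ E := by
          rw [hE]
          apply Real.exp_le_exp.2
          nlinarith
  have hx6 : p.x ^ 6 = Real.exp (-(6 * a)) := by
    rw [← hx 6]
    norm_cast
  have hchiL : p.chiL ^ 2 ≤ 1 := by
    have := hpk.chiL
    exact pow_le_one₀ this.1 this.2
  have S3 : p.x ^ (-(1 / 100) : ℝ) * (p.chiL ^ 2 * p.x ^ 6 / p.lam) ≤ E := by
    calc p.x ^ (-(1 / 100) : ℝ) * (p.chiL ^ 2 * p.x ^ 6 / p.lam)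
        ≤ p.x ^ (-(1 / 100) : ℝ) * (1 * p.x ^ 6 / p.lam) := by
          refine mul_le_mul_of_nonneg_left ?_ (Real.rpow_nonneg (bt_x_pos hpk).le _)
          refine div_le_div_of_nonneg_right ?_ hlpos.le
          exact mul_le_mul_of_nonneg_right hchiL (pow_nonneg (bt_x_pos hpk).le _)
      _ = Real.exp (-(-(1 / 100) * a) + (-(6 * a) - -(F.pS * a))) := by
          rw [hx, hx6, one_mul, hl1, ← Real.exp_sub, ← Real.exp_add]
      _ ≤ E := by
          rw [hE]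
          apply Real.exp_le_exp.2
          nlinarith
  have S4 : p.x ^ (5 + 1 / 8 : ℝ) ≤ E := by
    rw [hx, hE]
    apply Real.exp_le_exp.2
    nlinarith
  have hsum : p.Bcal F cG (1 / 100) + p.x ^ (5 + 1 / 8 : ℝ) ≤ 4 * E := by
    unfold LlPt.Bcal
    rw [hchi]
    have e : p.x ^ (-(1 / 100) : ℝ) * (p.lam ^ (1 + 2 * F.eta) * p.U F ^ 5 + 0 ^ 2 * p.lam ^ (1 + 2 * F.eta) * p.U F ^ 4 + p.chiL ^ 2 * p.x ^ 6 / p.lam)
        = p.x ^ (-(1 / 100) : ℝ) * (p.lam ^ (1 + 2 * F.eta) * p.U F ^ 5) + p.x ^ (-(1 / 100) : ℝ) * (p.chiL ^ 2 * p.x ^ 6 / p.lam) := by ring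
    rw [e]
    linarith
  have hnn : 0 ≤ p.Bcal F cG (1 / 100) + p.x ^ (5 + 1 / 8 : ℝ) := by
    unfold LlPt.Bcal
    have h1 := bt_x_pos hpk
    have h2 := bt_U_pos hpk
    have h3 : 0 ≤ p.x ^ (4 + cG) := Real.rpow_nonneg h1.le _
    have h4 : 0 ≤ p.x ^ (-(1 / 100) : ℝ) := Real.rpow_nonneg h1.le _
    have h5 : 0 ≤ p.lam ^ (1 + 2 * F.eta) := Real.rpow_nonneg hlpos.le _
    have h6 : 0 ≤ p.x ^ (5 + 1 / 8 : ℝ) := Real.rpow_nonneg h1.le _
    positivity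
  have hEl : E = p.lam * Real.exp (-((4 + 3 * c' / 4) * a)) := by rw [hE, Real.exp_add, ← hl1]
  calc K / p.lam * (p.Bcal F cG (1 / 100) + p.x ^ (5 + 1 / 8 : ℝ))
      ≤ |K| / p.lam * (p.Bcal F cG (1 / 100) + p.x ^ (5 + 1 / 8 : ℝ)) :=
        mul_le_mul_of_nonneg_right (div_le_div_of_nonneg_right (le_abs_self K) hlpos.le) hnn
    _ ≤ |K| / p.lam * (4 * E) := mul_le_mul_of_nonneg_left hsum (by positivity)
    _ = 4 * |K| * Real.exp (-((4 + 3 * c' / 4) * a)) := by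
        rw [hEl]
        field_simp
    _ = 4 * |K| * Real.exp (-(c' / 4 * a)) * Real.exp (-((4 + c' / 2) * a)) := by
        rw [mul_assoc (4 * |K|), ← Real.exp_add]
        congr 2
        ring
    _ ≤ 1 * Real.exp (-((4 + c' / 2) * a)) := mul_le_mul_of_nonneg_right (hM a hMa) (Real.exp_pos _).le
    _ = p.x ^ (4 + c' / 2) := by rw [one_mul, hx]

/-! ## 4. The exits -/

/-- the multipliers on the four kinds of segments -/
theorem bt_seg_facts {N : ℕ} {ell lam chiL chiE : ℝ} {sm : Bool} (h : BtSeg F N ell lam chiL chiE sm) (γ : Fin (N + 1) → ℝ) :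
    ((ll04Pt N ell lam chiL chiE sm γ).sm = false → (ll04Pt N ell lam chiL chiE sm γ).ChiOk F) ∧
    ((ll04Pt N ell lam chiL chiE sm γ).sm = true → (ll04Pt N ell lam chiL chiE sm γ).chiL = 1) ∧
    ((ll04Pt N ell lam chiL chiE sm γ).chiL ≠ 0 → (ll04Pt N ell lam chiL chiE sm γ).lam = (ll04Pt N ell lam chiL chiE sm γ).x ^ F.pS) := by
  have hx : (ll04Pt N ell lam chiL chiE sm γ).x = skX N := bt_skX ..
  obtain ⟨_, hc⟩ := h
  rcases hc with ⟨h1, h2, h3, h4, h5⟩ | ⟨h1, h2, h3, h4⟩ | ⟨h1, h2, h3, h4⟩ | ⟨h1, h2, h3, h4⟩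
  · exact ⟨fun _ => Or.inl ⟨h2, h3⟩, fun h => by rw [show (ll04Pt N ell lam chiL chiE sm γ).sm = sm from rfl, h1] at h; simp at h, fun h => absurd h2 h⟩
  · exact ⟨fun _ => Or.inr ⟨by rw [hx]; exact h2, Or.inr h4⟩, fun h => by rw [show (ll04Pt N ell lam chiL chiE sm γ).sm = sm from rfl, h1] at h; simp at h,
      fun _ => by rw [hx]; exact h2⟩
  · exact ⟨fun _ => Or.inr ⟨by rw [hx]; exact h2, Or.inl h3⟩, fun _ => h3, fun _ => by rw [hx]; exact h2⟩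
  · exact ⟨fun h => by rw [show (ll04Pt N ell lam chiL chiE sm γ).sm = sm from rfl, h1] at h; simp at h, fun _ => h3, fun _ => by rw [hx]; exact h2⟩

/-- integration of a finite nonnegative combination -/
theorem bt_lint_sum {α ι : Type*} [MeasurableSpace α] (μ : Measure α) (s : Finset ι) (a c : ι → ℝ) (w : ι → α → ℝ) {M : ℝ}
    (ha : ∀ i ∈ s, 0 ≤ a i) (hw : ∀ i ∈ s, Measurable (w i)) (hw0 : ∀ i ∈ s, ∀ x, 0 ≤ w i x) (hM : 0 ≤ M)
    (h : ∀ i ∈ s, ∫⁻ x, ENNReal.ofReal (w i x) ∂μ ≤ ENNReal.ofReal (c i)) (hac : ∀ i ∈ s, a i * c i ≤ M) :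
    ∫⁻ x, ENNReal.ofReal (∑ i ∈ s, a i * w i x) ∂μ ≤ ENNReal.ofReal (s.card * M) := by
  have e1 : ∀ x, ENNReal.ofReal (∑ i ∈ s, a i * w i x) = ∑ i ∈ s, ENNReal.ofReal (a i) * ENNReal.ofReal (w i x) := fun x => by
    rw [ENNReal.ofReal_sum_of_nonneg (fun i hi => mul_nonneg (ha i hi) (hw0 i hi x))]
    exact Finset.sum_congr rfl fun i hi => ENNReal.ofReal_mul (ha i hi)
  simp only [e1]
  rw [lintegral_finsetSum _ (fun i hi => ((hw i hi).ennreal_ofReal.const_mul _))]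
  calc ∑ i ∈ s, ∫⁻ x, ENNReal.ofReal (a i) * ENNReal.ofReal (w i x) ∂μ ≤ ∑ i ∈ s, ENNReal.ofReal M := by
        refine Finset.sum_le_sum fun i hi => ?_
        rw [lintegral_const_mul _ (hw i hi).ennreal_ofReal]
        calc ENNReal.ofReal (a i) * ∫⁻ x, ENNReal.ofReal (w i x) ∂μ ≤ ENNReal.ofReal (a i) * ENNReal.ofReal (c i) := by gcongr; exact h i hi
          _ = ENNReal.ofReal (a i * c i) := (ENNReal.ofReal_mul (ha i hi)).symm
          _ ≤ ENNReal.ofReal M := ENNReal.ofReal_le_ofReal (hac i hi)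
    _ = ENNReal.ofReal (s.card * M) := by
        rw [Finset.sum_const, nsmul_eq_mul, ENNReal.ofReal_mul (Nat.cast_nonneg _), ENNReal.ofReal_natCast]

theorem bt_lint_two {α : Type*} [MeasurableSpace α] (μ : Measure α) {k b : ℝ} {f g : α → ℝ} (hk : 0 ≤ k) (hb : 0 ≤ b) (hf : Measurable f) (hg : Measurable g)
    (hf0 : ∀ x, 0 ≤ f x) (hg0 : ∀ x, 0 ≤ g x) {A B c : ℝ} (hA : 0 ≤ A) (hB0 : 0 ≤ B)
    (h1 : ∫⁻ x, ENNReal.ofReal (f x) ∂μ ≤ ENNReal.ofReal A) (h2 : ∫⁻ x, ENNReal.ofReal (g x) ∂μ ≤ ENNReal.ofReal c) (hB : b * c ≤ B) :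
    ∫⁻ x, ENNReal.ofReal (k * f x + b * g x) ∂μ ≤ ENNReal.ofReal (k * A + B) := by
  have e1 : ∀ x, ENNReal.ofReal (k * f x + b * g x) = ENNReal.ofReal k * ENNReal.ofReal (f x) + ENNReal.ofReal b * ENNReal.ofReal (g x) := fun x => by
    rw [ENNReal.ofReal_add (mul_nonneg hk (hf0 x)) (mul_nonneg hb (hg0 x)), ENNReal.ofReal_mul hk, ENNReal.ofReal_mul hb]
  simp only [e1]
  rw [lintegral_add_left (hf.ennreal_ofReal.const_mul _), lintegral_const_mul _ hf.ennreal_ofReal, lintegral_const_mul _ hg.ennreal_ofReal,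
    ENNReal.ofReal_add (mul_nonneg hk hA) hB0, ENNReal.ofReal_mul hk]
  refine add_le_add (by gcongr) ?_
  calc ENNReal.ofReal b * ∫⁻ x, ENNReal.ofReal (g x) ∂μ ≤ ENNReal.ofReal b * ENNReal.ofReal c := by gcongr
    _ = ENNReal.ofReal (b * c) := (ENNReal.ofReal_mul hb).symm
    _ ≤ ENNReal.ofReal B := ENNReal.ofReal_le_ofReal hB

/-- a logarithm is a subpower -/
theorem bt_log_pow (K : ℝ) {ε : ℝ} (hε : 0 < ε) : ∃ N0 : ℕ, ∀ N : ℕ, N0 ≤ N → (Real.log N + 1) * K + 1 ≤ (N : ℝ) ^ ε ∧ 32 ≤ (N : ℝ) ^ ε := by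
  have h1 : Tendsto (fun x : ℝ => ((Real.log x + 1) * K + 1) / x ^ ε) atTop (𝓝 0) := by
    have a1 : Tendsto (fun x : ℝ => Real.log x / x ^ ε) atTop (𝓝 0) := (isLittleO_log_rpow_atTop hε).tendsto_div_nhds_zero
    have a2 : Tendsto (fun x : ℝ => (x ^ ε)⁻¹) atTop (𝓝 0) := (tendsto_rpow_atTop hε).inv_tendsto_atTop
    have a3 := (a1.mul_const K).add (a2.const_mul (K + 1))
    simp only [zero_mul, mul_zero, add_zero] at a3
    refine a3.congr fun x => ?_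
    ring
  have h2 : Tendsto (fun x : ℝ => x ^ ε) atTop atTop := tendsto_rpow_atTop hε
  have h3 := ((h1.eventually (ge_mem_nhds (zero_lt_one' ℝ))).and ((h2.eventually_ge_atTop 32).and (eventually_gt_atTop 0)))
  obtain ⟨N0, hN0⟩ := eventually_atTop.1 (tendsto_natCast_atTop_atTop.eventually h3)
  refine ⟨N0, fun N hN => ?_⟩
  obtain ⟨b1, b2, b3⟩ := hN0 N hN
  refine ⟨?_, b2⟩
  have hp : 0 < (N : ℝ) ^ ε := Real.rpow_pos_of_pos b3 _
  rwa [div_le_one hp] at b1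

/-- dropping `U²` from the weight -/
theorem bt_avg_sq (h3 : LlSec3 𝔹 F) (hEn : BtEnd 𝔹 F) (hS : BtSys 𝔹) : LlUnif F fun p => ∀ m : ℕ, 1 ≤ m →
    ∫ r in (1 / 3 : ℝ)..(2 / 3), (p.wG0 r).wA F 𝔹 m (fun v => v ^ 2) ≤ ∫ r in (1 / 3 : ℝ)..(2 / 3), (p.wG0 r).wA F 𝔹 m (fun v => v ^ 2 + p.U F ^ 2) := by
  refine bt_unif_mono (bt_unif_and (bt_wA_cont1 h3 hEn hS) (bt_unif_wG0 (bt_clk h3 hEn))) ?_
  rintro p hp ⟨hcont, hclk⟩ m hm
  have i1 := bt_int_sq p.a (p.U F)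
  have i0 : IntegrableOn (fun v : ℝ => v ^ 2) (Ioo 0 p.a) := by simpa using bt_int_sq p.a 0
  refine intervalIntegral.integral_mono_on (by norm_num) ?_ ?_ fun r hr => ?_
  · exact ((hcont m hm _ i0).mono bt_sub13).intervalIntegrable_of_Icc (by norm_num)
  · exact ((hcont m hm _ i1).mono bt_sub13).intervalIntegrable_of_Icc (by norm_num)
  · exact bt_wA_mono hS (bt_ok_wG0 hp (bt_sub13 hr)) (hclk r (bt_sub13 hr)) hm i0 i1 fun v _ => by nlinarith [sq_nonneg (p.U F)]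

/-- **(C1)** -/
theorem bt_c1 (h3 : LlSec3 𝔹 F) (hEn : BtEnd 𝔹 F) (hS : BtSys 𝔹) (hSite : BtSite 𝔹) (hW : BtWorld 𝔹 W) (hSc : BtScale 𝔹) {cG : ℝ} (hG1 : BtG1 𝔹 F cG) (hE : BtExp F X cG)
    (hloc : BtLoc X W (BtFam 𝔹 F)) {c0 Cen : ℝ} (hc0 : 0 < c0) (hCen : 1 ≤ Cen) (hCU : 2 * Cen / c0 ≤ X.CU) : BtC1at 𝔹 F c0 Cen := by
  intro ε hε
  have hF := h3.ok
  have hX := hE.ok
  have hFX := hE.fix
  have hpS : F.pS ≤ 12 := by rw [← hFX.pS]; linarith [hX.pS_le, hX.he_le]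
  have hs : 1 / 4 ≤ F.sS := by rw [← hFX.sS]; unfold BdFix.sS; linarith [hX.tau_le]
  have he : F.eta ≤ 1 / 8 := by rw [← hFX.eta]; linarith [hX.eta_le, hX.tau_le]
  have hCen0 : 0 ≤ Cen := by linarith
  obtain ⟨ε', hε', hpg⟩ := bt_pow_glob hE
  obtain ⟨Cg, hCg⟩ := bt_avg h3 hEn hS hSite hs he hG1 ε' hε'
  obtain ⟨Cl, hCl⟩ := bt_loc_avg h3 hEn hS hX hFX hW hSc hloc
  obtain ⟨Nc, hcont⟩ := bt_wA_cont h3 hEn hS hpS
  set K1 : ℝ := 2 * Cen * (9 * (3 * |Cl| + 1)) with hK1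
  have hK10 : 0 ≤ K1 := by rw [hK1]; positivity
  obtain ⟨Nl, hlog⟩ := bt_log_pow K1 hε
  obtain ⟨Nu, hU⟩ := bt_unif_and (bt_clk h3 hEn) (bt_unif_and hCg (bt_unif_and hCl (bt_unif_and (hpg (6 * Cen * Cg)) (bt_unif_and (bt_pow_loc hE Cl)
    (bt_unif_and (bt_cover_side (X := X) hF hX.bl_pos hc0 (Cen := Cen)) (bt_avg_sq h3 hEn hS))))))
  refine ⟨max (max Nc Nl) (max Nu 2), fun N hN ell lam chiL chiE sm hseg m hm1 hm2 => ?_⟩
  have hNc : Nc ≤ N := le_trans (le_trans (le_max_left _ _) (le_max_left _ _)) hN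
  have hNl : Nl ≤ N := le_trans (le_trans (le_max_right _ _) (le_max_left _ _)) hN
  have hNu : Nu ≤ N := le_trans (le_trans (le_max_left _ _) (le_max_right _ _)) hN
  have hN2 : 2 ≤ N := le_trans (le_trans (le_max_right _ _) (le_max_right _ _)) hN
  have hok : ∀ γ, (ll04Pt N ell lam chiL chiE sm γ).Ok F := fun γ => bt_ok_seg hF hpS hN2 hseg γ
  have hall := fun γ => hU (ll04Pt N ell lam chiL chiE sm γ) (hok γ) hNu
  have hm : 1 ≤ m := bt_m_pos (hok 0) hm1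
  have : IsProbabilityMeasure (ll04Mu N) := by rw [bt_mu_eq]; infer_instance
  obtain ⟨hl1, hl32⟩ := hlog N hNl
  set p0 : LlPt := ll04Pt N ell lam chiL chiE sm 0 with hp0
  have hU0 := bt_U_pos (hok 0)
  by_cases hU1 : p0.U F < 1
  · -- the majorant
    set S : Finset ℕ := p0.locs F X with hS'
    have cw : ∀ φ : ℝ → ℝ, IntegrableOn φ (Ioo 0 p0.a) → Continuous fun γ : Fin (N + 1) → ℝ => (ll04Pt N ell lam chiL chiE sm γ).wA F 𝔹 m φ :=
      fun φ hφ => hcont N hNc ell lam chiL chiE sm hseg m hm φ hφ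
    have iφ : ∀ hd : ℕ, IntegrableOn (indicator (Icc (btU hd) (2 * btU hd)) (1 : ℝ → ℝ)) (Ioo 0 p0.a) := fun hd => bt_ex_int_ind _ measurableSet_Icc
    have nn : ∀ (φ : ℝ → ℝ), (∀ v, 0 ≤ φ v) → ∀ γ, 0 ≤ (ll04Pt N ell lam chiL chiE sm γ).wA F 𝔹 m φ :=
      fun φ hφ γ => bt_wA_nonneg hS (hok γ) (hall γ).1 hm fun v _ => hφ v
    have ind0 : ∀ (hd : ℕ) (v : ℝ), 0 ≤ indicator (Icc (btU hd) (2 * btU hd)) (1 : ℝ → ℝ) v := fun hd v =>
      indicator_nonneg (fun _ _ => zero_le_one) v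
    have hlam := bt_lam_pos (hok 0)
    have hb0 : 0 ≤ 2 * Cen * lam ^ (-X.bl) := by
      have : 0 < lam := hlam
      positivity
    set f : (Fin (N + 1) → ℝ) → ℝ := fun γ => ∑ hd ∈ S, btU hd * (ll04Pt N ell lam chiL chiE sm γ).wA F 𝔹 m (indicator (Icc (btU hd) (2 * btU hd)) 1) with hf
    set g : (Fin (N + 1) → ℝ) → ℝ := fun γ => (ll04Pt N ell lam chiL chiE sm γ).wA F 𝔹 m (fun v => v ^ 2) with hg
    have hBm : ∀ γ, btBm 𝔹 F X Cen m (ll04Pt N ell lam chiL chiE sm γ) = 2 * Cen * f γ + 2 * Cen * lam ^ (-X.bl) * g γ := fun γ => rfl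
    have fm : Measurable f := (continuous_finsetSum _ fun hd _ => continuous_const.mul (cw _ (iφ hd))).measurable
    have gm : Measurable g := (cw _ bt_ex_int_sq).measurable
    have f0 : ∀ γ, 0 ≤ f γ := fun γ => Finset.sum_nonneg fun hd _ => mul_nonneg (bt_U_hd_pos hd).le (nn _ (ind0 hd) γ)
    have g0 : ∀ γ, 0 ≤ g γ := nn _ fun v => sq_nonneg v
    refine ⟨fun γ => btBm 𝔹 F X Cen m (ll04Pt N ell lam chiL chiE sm γ), ?_, ?_, ?_, ?_⟩
    · simp only [hBm]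
      exact (fm.const_mul _).add (gm.const_mul _)
    · intro γ
      show 0 ≤ btBm 𝔹 F X Cen m (ll04Pt N ell lam chiL chiE sm γ)
      rw [hBm]
      exact add_nonneg (mul_nonneg (by positivity) (f0 γ)) (mul_nonneg hb0 (g0 γ))
    · simp only [hBm]
      set M : ℝ := 9 * ((3 * |Cl| + 1) * p0.U F ^ 4) with hM
      have hM0 : 0 ≤ M := by rw [hM]; positivity
      -- the local dyads
      have h1 : ∫⁻ γ, ENNReal.ofReal (f γ) ∂ll04Mu N ≤ ENNReal.ofReal (S.card * M) := by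
        refine bt_lint_sum (ll04Mu N) S (fun hd => btU hd)
          (fun hd => 9 * (Cl / (p0.lam * btU hd ^ 2) * (btU hd * (p0.x ^ (4 - 2 * X.zeta) * p0.lam ^ (1 / 100 : ℝ) + p0.x ^ 4 * p0.lam ^ (1 - 2 * X.s0))
            + if p0.sm then p0.x ^ (5 + 1 / 8 : ℝ) else 0)))
          (fun hd γ => (ll04Pt N ell lam chiL chiE sm γ).wA F 𝔹 m (indicator (Icc (btU hd) (2 * btU hd)) 1))
          (fun hd _ => (bt_U_hd_pos hd).le) (fun hd _ => (cw _ (iφ hd)).measurable) (fun hd _ γ => nn _ (ind0 hd) γ) hM0 ?_ ?_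
        · intro hd hhd
          obtain ⟨hlt, hloc'⟩ := bt_mem_locs.1 hhd
          refine bt_E_two hlt (cw _ (iφ hd)) (nn _ (ind0 hd)) fun γ => ?_
          obtain ⟨s1, s2, _⟩ := bt_seg_facts hseg γ
          exact (hall γ).2.2.1 s1 s2 hd hloc' m hm1 hm2
        · intro hd hhd
          obtain ⟨hlt, hloc'⟩ := bt_mem_locs.1 hhd
          have := (hall 0).2.2.2.2.1 hU1 hd hloc'
          rw [hM]
          linarith
      -- the high masses
      have h2 : ∫⁻ γ, ENNReal.ofReal (g γ) ∂ll04Mu N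
          ≤ ENNReal.ofReal (3 * (Cg / p0.lam * (p0.Bcal F cG ε' + if p0.sm then p0.x ^ (5 + 1 / 8 : ℝ) else 0))) := by
        refine bt_E_one (cw _ bt_ex_int_sq) g0 fun γ => ?_
        obtain ⟨_, s2, _⟩ := bt_seg_facts hseg γ
        exact ((hall γ).2.2.2.2.2.2 m hm).trans ((hall γ).2.1 s2 m hm1 hm2)
      have h3' : 2 * Cen * lam ^ (-X.bl) * (3 * (Cg / p0.lam * (p0.Bcal F cG ε' + if p0.sm then p0.x ^ (5 + 1 / 8 : ℝ) else 0))) ≤ p0.U F ^ 4 := by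
        have := (hall 0).2.2.2.1 hU1 (bt_seg_facts hseg 0).2.2
        have e : 2 * Cen * lam ^ (-X.bl) * (3 * (Cg / p0.lam * (p0.Bcal F cG ε' + if p0.sm then p0.x ^ (5 + 1 / 8 : ℝ) else 0)))
            = 6 * Cen * Cg * p0.lam ^ (-X.bl) / p0.lam * (p0.Bcal F cG ε' + if p0.sm then p0.x ^ (5 + 1 / 8 : ℝ) else 0) := by
          show 2 * Cen * p0.lam ^ (-X.bl) * _ = _
          ring
        rw [e]; exact this
      refine (bt_lint_two (ll04Mu N) (by positivity) hb0 fm gm f0 g0 (by positivity) (by positivity) h1 h2 h3').trans (ENNReal.ofReal_le_ofReal ?_)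
      have hcard : (S.card : ℝ) ≤ Real.log N + 1 := bt_card_loc (hok 0)
      have hU4 : 0 ≤ p0.U F ^ 4 := by positivity
      calc 2 * Cen * (S.card * M) + p0.U F ^ 4 = (S.card * K1 + 1) * p0.U F ^ 4 := by rw [hM, hK1]; ring
        _ ≤ ((Real.log N + 1) * K1 + 1) * p0.U F ^ 4 := by gcongr
        _ ≤ (N : ℝ) ^ ε * p0.U F ^ 4 := by gcongr
    · intro γ u hu1 _
      obtain ⟨c1, c2⟩ := (hall γ).2.2.2.2.2.1
      exact bt_cover hF hS (hok γ) (hall γ).1 hm hc0 hCen hCU hX.bl_pos hU1 c1 c2 hu1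
  · have hU1' : p0.U F = 1 := le_antisymm (bt_U_le_one p0) (not_lt.1 hU1)
    refine ⟨fun _ => 32, measurable_const, fun _ => by norm_num, ?_, ?_⟩
    · rw [lintegral_const, measure_univ, mul_one, hU1']
      exact ENNReal.ofReal_le_ofReal (by linarith)
    · intro γ u hu1 hu2
      have hu0 : 0 ≤ u := le_trans (mul_nonneg hc0.le (bt_U_pos (hok γ)).le) hu1
      exact bt_trivial hS (hok γ) (hall γ).1 hm hu0 hu2 _ measurableSet_Icc

/-- **(C2)**; the saving `min(c_G, 1/8)/2` does not depend on `p_*` -/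
theorem bt_c2 (h3 : LlSec3 𝔹 F) (hEn : BtEnd 𝔹 F) (hS : BtSys 𝔹) (hSite : BtSite 𝔹) (hs : 1 / 4 ≤ F.sS) (he : F.eta ≤ 1 / 8) {cG : ℝ} (hcG : 0 < cG) (hG1 : BtG1 𝔹 F cG)
    (hp : F.pS ≤ min cG (1 / 8) / 8) : BtC2 𝔹 F (min cG (1 / 8) / 2) := by
  have hF := h3.ok
  have hpS : F.pS ≤ 12 := by
    have : min cG (1 / 8 : ℝ) ≤ 1 / 8 := min_le_right _ _
    linarith
  have hseg : ∀ (N : ℕ) (ell : ℝ), ell ∈ Icc (1 : ℝ) ((2 : ℝ) ^ (1 / 6 : ℝ)) → BtSeg F N ell (skX N ^ F.pS) 1 0 true :=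
    fun N ell hell => ⟨hell, Or.inr (Or.inr (Or.inr ⟨rfl, rfl, rfl, rfl⟩))⟩
  constructor
  · -- the average
    obtain ⟨C, N1, h1⟩ := bt_avg h3 hEn hS hSite hs he hG1 (1 / 100) (by norm_num)
    obtain ⟨N2, h2⟩ := bt_pow_fin hF hcG hp (3 * C)
    obtain ⟨N3, h3'⟩ := bt_wA_cont h3 hEn hS hpS
    obtain ⟨N4, h4⟩ := bt_clk h3 hEn
    refine ⟨max (max N1 N2) (max (max N3 N4) 2), fun N hN ell hell m hm1 hm2 => ?_⟩
    have hN1 : N1 ≤ N := le_trans ((le_max_left _ _).trans (le_max_left _ _)) hN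
    have hN2 : N2 ≤ N := le_trans ((le_max_right _ _).trans (le_max_left _ _)) hN
    have hN3 : N3 ≤ N := le_trans (((le_max_left _ _).trans (le_max_left _ _)).trans (le_max_right _ _)) hN
    have hN4 : N4 ≤ N := le_trans (((le_max_right _ _).trans (le_max_left _ _)).trans (le_max_right _ _)) hN
    have hN5 : 2 ≤ N := le_trans ((le_max_right _ _).trans (le_max_right _ _)) hN
    have hok : ∀ γ, (ll04Pt N ell (skX N ^ F.pS) 1 0 true γ).Ok F := bt_ok_seg hF hpS hN5 (hseg N ell hell)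
    have hm : 1 ≤ m := by omega
    obtain ⟨φ, hφ⟩ : ∃ φ : ℝ → ℝ, φ = fun v => v ^ 2 + (ll04Pt N ell (skX N ^ F.pS) 1 0 true 0).U F ^ 2 := ⟨_, rfl⟩
    have hφi : IntegrableOn φ (Ioo 0 (ll04Pt N ell (skX N ^ F.pS) 1 0 true 0).a) := hφ ▸ bt_int_sq _ _
    have hcont : Continuous fun γ : Fin (N + 1) → ℝ => (ll04Pt N ell (skX N ^ F.pS) 1 0 true γ).wA F 𝔹 m φ :=
      h3' N hN3 ell _ 1 0 true (hseg N ell hell) m hm φ hφi
    have hnn : ∀ γ, 0 ≤ (ll04Pt N ell (skX N ^ F.pS) 1 0 true γ).wA F 𝔹 m φ := fun γ =>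
      bt_wA_nonneg hS (hok γ) (h4 _ (hok γ) hN4) hm fun v _ => by rw [hφ]; positivity
    have hfun : (fun γ : Fin (N + 1) → ℝ => (ll04Pt N ell (skX N ^ F.pS) 1 0 true γ).wA F 𝔹 m
        fun v => v ^ 2 + (ll04Pt N ell (skX N ^ F.pS) 1 0 true γ).U F ^ 2)
        = fun γ => (ll04Pt N ell (skX N ^ F.pS) 1 0 true γ).wA F 𝔹 m φ := by
      rw [hφ]; rfl
    rw [hfun]
    refine ⟨hcont, ?_⟩
    obtain ⟨c, hc⟩ : ∃ c : ℝ, c = C / (skX N ^ F.pS) * ((ll04Pt N ell (skX N ^ F.pS) 1 0 true 0).Bcal F cG (1 / 100) + skX N ^ (5 + 1 / 8 : ℝ)) := ⟨_, rfl⟩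
    have hb : ∀ γ, ∫ r in (1 / 3 : ℝ)..(2 / 3), ((ll04Pt N ell (skX N ^ F.pS) 1 0 true γ).wG0 r).wA F 𝔹 m φ ≤ c := fun γ => by
      have := h1 _ (hok γ) hN1 (fun _ => rfl) m hm1 hm2
      rw [hc, hφ]
      exact this
    have hE := bt_E_one hcont hnn hb
    have h3c : 3 * c ≤ skX N ^ (4 + min cG (1 / 8) / 2) := by
      have := h2 _ (hok 0) hN2 rfl rfl
      rw [hc]
      calc 3 * (C / (skX N ^ F.pS) * ((ll04Pt N ell (skX N ^ F.pS) 1 0 true 0).Bcal F cG (1 / 100) + skX N ^ (5 + 1 / 8 : ℝ)))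
          = 3 * C / (skX N ^ F.pS) * ((ll04Pt N ell (skX N ^ F.pS) 1 0 true 0).Bcal F cG (1 / 100) + skX N ^ (5 + 1 / 8 : ℝ)) := by ring
        _ ≤ _ := this
    rw [integral_eq_lintegral_of_nonneg_ae (Eventually.of_forall hnn) hcont.aestronglyMeasurable]
    have hx0 : 0 ≤ skX N ^ (4 + min cG (1 / 8) / 2) := Real.rpow_nonneg (Real.rpow_nonneg (Nat.cast_nonneg _) _) _
    refine ENNReal.toReal_le_of_le_ofReal hx0 (hE.trans (ENNReal.ofReal_le_ofReal h3c))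
  · -- the trial gap
    obtain ⟨C, N1, h1⟩ := bt_gap_sm h3 hEn hS hSite hG1 (1 / 100) (by norm_num)
    obtain ⟨N2, h2⟩ := bt_pow_fin hF hcG hp |C|
    refine ⟨max (max N1 N2) 2, fun N hN ell hell m hm1 hm2 γ => ?_⟩
    have hN1 : N1 ≤ N := le_trans ((le_max_left _ _).trans (le_max_left _ _)) hN
    have hN2 : N2 ≤ N := le_trans ((le_max_right _ _).trans (le_max_left _ _)) hN
    have hN5 : 2 ≤ N := le_trans (le_max_right _ _) hN
    have hok := bt_ok_seg hF hpS hN5 (hseg N ell hell) γ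
    have hg : (-3 : ℝ) ≤ (ll04Pt N ell (skX N ^ F.pS) 1 0 true γ).gam0 := by
      have := (bt_cl_mem (γ 0)).1
      show (-3 : ℝ) ≤ ll04Cl (γ 0)
      linarith
    obtain ⟨g0, g1⟩ := h1 _ hok hN1 rfl rfl hg m hm1 hm2
    refine ⟨g0, g1.trans ?_⟩
    have h5 := h2 _ hok hN2 rfl rfl
    refine le_trans ?_ h5
    have hl := bt_lam_pos hok
    have hl1 := bt_lam_le_one hF hok
    have hx := bt_x_pos hok
    have hY : 0 ≤ (ll04Pt N ell (skX N ^ F.pS) 1 0 true γ).Bcal F cG (1 / 100) + (ll04Pt N ell (skX N ^ F.pS) 1 0 true γ).x ^ (5 + 1 / 8 : ℝ) := by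
      have h6 : 0 ≤ (ll04Pt N ell (skX N ^ F.pS) 1 0 true γ).Bcal F cG (1 / 100) := by
        unfold LlPt.Bcal
        have := bt_U_pos hok
        positivity
      have h7 : 0 ≤ (ll04Pt N ell (skX N ^ F.pS) 1 0 true γ).x ^ (5 + 1 / 8 : ℝ) := (Real.rpow_pos_of_pos hx _).le
      linarith
    refine mul_le_mul_of_nonneg_right ?_ hY
    calc C ≤ |C| := le_abs_self _
      _ ≤ |C| / (ll04Pt N ell (skX N ^ F.pS) 1 0 true γ).lam := by
          rw [le_div_iff₀ hl]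
          exact mul_le_of_le_one_right (abs_nonneg _) hl1

/-- **Proposition bud:targets**.     TEX[LL:bud:targets] -/
theorem bt_targets (h3 : LlSec3 𝔹 F) (hEn : BtEnd 𝔹 F) (hS : BtSys 𝔹) (hSite : BtSite 𝔹) (hW : BtWorld 𝔹 W) (hSc : BtScale 𝔹) (hs : 1 / 4 ≤ F.sS) (he : F.eta ≤ 1 / 8)
    {cG : ℝ} (hcG : 0 < cG) (hG1 : BtG1 𝔹 F cG) (hp : F.pS ≤ min cG (1 / 8) / 8)
    (hloc : ∀ CU : ℝ, ∃ X : BdFix, CU ≤ X.CU ∧ BtExp F X cG ∧ BtLoc X W (BtFam 𝔹 F)) :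
    BtC1 𝔹 F ∧ BtC2 𝔹 F (min cG (1 / 8) / 2) := by
  refine ⟨fun c0 Cen hc0 hCen => ?_, bt_c2 h3 hEn hS hSite hs he hcG hG1 hp⟩
  obtain ⟨X, hCU, hE, hl⟩ := hloc (2 * Cen / c0)
  exact bt_c1 h3 hEn hS hSite hW hSc hG1 hE hl hc0 hCen hCU

theorem bt_exit_eqns_cite : True := by
  have := @LlPt.locs.eq_1; have := @LlPt.wBm.eq_1; have := @btBm.eq_1
  trivial

end Claimed.Agent.R286
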