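import Claimed.Agent.R286.Bud.TopKit
import Claimed.Agent.R286.Bud.PSysA

/-!
# Row 286 (S0533), LL sec. 7, `Bud/Top`, file GLOB = node N1: the global comparison (07-budgets.tex l.48-78)      (owner helper66; prefix `bt_`)

TEX[LL:bud:targets]#48-78.      With `Φ = f_m^0 - ¼∫ b q² + ½∫ d q` (all masses), `δ = 1`:
    f_spin(K) - x^{4+c_G} - ¼∫ d²/c_g  ≤  Φ  ≤  f_spin(K) + ¼∫ d²/b          (`bt_R`)
* lower bound: from the unmasked unseeded path at `γ_0 - 1` remove `c_g`, add `c_g q + d = c_g (q + d/c_g)`: square interpolation (`bud_sqInterp`) + (G1)      (`bt_low`, `bt_Phi_lo`)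
* upper bound: remove the whole matrix, add `K - h = b (q - d/b)`; `f_m(0,K) = f_spin(K)`      (`bt_gap_nonneg`, `bt_gap_eq`)
* `fRest(γ_0 = g2) - fRest(g1) = Φ(g2) - Φ(g1) + ½ (g2 - g1) ∫_{v<x} c_g q²`      (`bt_fRest_diff`; "omitting the mask costs `O(λ U² x³)`")
* (P8), (P10), (P11)  ⟹  `bt_glob_dir`, `bt_glob_sm` (restored pressures), `bt_gap_dir`, `bt_gap_sm` (trial gaps), `bt_avg` (`∫ dγ_0 ∫ (v²+U²) A_v dv ≲ 𝓑/λ`).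
-/

set_option autoImplicit false

namespace Claimed.Agent.R286

open MeasureTheory Set Filter Topology

variable {𝔹 : LlBase} {F : LlFix}

/-! ## 0. What is used of LL 03 -/

/-- a monotone bounded function on `(0,a)` which is left continuous at `a` has no jump there -/
theorem bt_E_of_tendsto {a : ℝ} (ha : 0 < a) {c : ℝ → ℝ} (hm : MonotoneOn c (Icc 0 a)) (h : Tendsto c (𝓝[<] a) (𝓝 (c a))) : BtE a c := by
  have h1 : Tendsto c (𝓝[<] a) (𝓝 (sSup (c '' Ioo 0 a))) :=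
    MonotoneOn.tendsto_nhdsWithin_Ioo_left (nonempty_Ioo.2 ha) (hm.mono Ioo_subset_Icc_self) ⟨c a, by
      rintro _ ⟨v, hv, rfl⟩
      exact hm (Ioo_subset_Icc_self hv) ⟨ha.le, le_rfl⟩ hv.2.le⟩
  exact tendsto_nhds_unique h h1

/-- **(END)** from `LlSec3.admEnd` -/
theorem bt_end (h3 : LlSec3 𝔹 F) : BtEnd 𝔹 F := by
  obtain ⟨c, C, hc, hadm⟩ := h3.adm
  refine bt_unif_mono (bt_unif_and hadm h3.admEnd) ?_
  rintro p hp ⟨⟨mb, mh, mhS, mK, _⟩, tb, th, thS, tK, _⟩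
  have ha := bt_a_pos hp
  exact ⟨bt_E_of_tendsto ha mb tb, bt_E_of_tendsto ha mh th, bt_E_of_tendsto ha mhS thS, bt_E_of_tendsto ha mK tK⟩

/-- the physical clocks are clocks of `Bud/PSys`: monotone, nonnegative (`LlAdm`), bounded (`Ref.K_top`, explicit seeds) -/
theorem bt_clk (h3 : LlSec3 𝔹 F) (hEn : BtEnd 𝔹 F) : BtClk 𝔹 F := by
  obtain ⟨c, C, hc, hadm⟩ := h3.adm
  obtain ⟨c', C', v0, hc', hv0, href⟩ := h3.ref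
  refine bt_unif_mono (bt_unif_and hadm (bt_unif_and href hEn)) ?_
  rintro p hp ⟨⟨mb, mh, mhS, mK, mq, bd, _, _⟩, hr, e1, e2, e3, e4⟩
  have ha := bt_a_pos hp
  have sub : Ioo 0 p.a ⊆ Icc 0 p.a := Ioo_subset_Icc_self
  have haa : p.a ∈ Icc 0 p.a := ⟨ha.le, le_rfl⟩
  have mk : ∀ c : ℝ → ℝ, MonotoneOn c (Icc 0 p.a) → (∀ v ∈ Icc 0 p.a, 0 ≤ c v) → IsClock p.a c := fun c hm h0 =>
    ⟨hm.mono sub, fun v hv => h0 v (sub hv), ⟨c p.a, fun v hv => hm (sub hv) haa hv.2.le⟩⟩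
  exact
    { b := mk _ mb (fun v hv => hc.le.trans (bd v hv).1)
      h := mk _ mh (fun v hv => (bd v hv).2.2.1)
      hS := mk _ mhS (fun v hv => (bd v hv).2.2.2.1)
      K := mk _ mK (fun v hv => (bd v hv).2.2.2.2)
      bE := e1, hE := e2, hSE := e3, KE := e4
      q_mono := mq.mono sub
      q_mem := fun v hv => ⟨(mul_nonneg hc'.le hv.1.le).trans (hr.q_lo v hv), hr.gam_le _ ((bd v (sub hv)).2.2.2.2)⟩ }

/-- bounds at one point -/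
structure BtBd (𝔹 : LlBase) (F : LlFix) (c C : ℝ) (p : LlPt) : Prop where
  b_lo : ∀ v ∈ Ioo 0 p.a, c ≤ p.b F 𝔹 v
  b_hi : ∀ v ∈ Ioo 0 p.a, p.b F 𝔹 v ≤ C
  q_hi : ∀ v ∈ Ioo 0 p.a, p.q F 𝔹 v ≤ C * v

theorem bt_bd (h3 : LlSec3 𝔹 F) : ∃ c C : ℝ, 0 < c ∧ LlUnif F fun p => BtBd 𝔹 F c C p := by
  obtain ⟨c, C, hc, hadm⟩ := h3.adm
  obtain ⟨c', C', v0, hc', hv0, href⟩ := h3.ref
  refine ⟨c, max C C', hc, bt_unif_mono (bt_unif_and hadm href) ?_⟩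
  rintro p hp ⟨⟨mb, mh, mhS, mK, mq, bd, _, _⟩, hr⟩
  have sub : Ioo 0 p.a ⊆ Icc 0 p.a := Ioo_subset_Icc_self
  exact ⟨fun v hv => (bd v (sub hv)).1, fun v hv => (bd v (sub hv)).2.1.trans (le_max_left _ _),
    fun v hv => (hr.q_hi v hv).trans (mul_le_mul_of_nonneg_right (le_max_right _ _) hv.1.le)⟩

/-! ## 1. Integrability at one point -/

section point

variable {p : LlPt} {c C : ℝ}

/-- `q²` is monotone and bounded -/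
theorem bt_int_bq_q2 (hc : BtClkAt 𝔹 F p) :
    MonotoneOn (fun v => p.q F 𝔹 v ^ 2) (Ioo 0 p.a) ∧ ∀ v ∈ Ioo 0 p.a, |p.q F 𝔹 v ^ 2| ≤ 1 := by
  refine ⟨fun x hx y hy hxy => ?_, fun v hv => ?_⟩
  · exact pow_le_pow_left₀ (hc.q_mem x hx).1 (hc.q_mono hx hy hxy) 2
  · rw [abs_of_nonneg (sq_nonneg _)]
    exact pow_le_one₀ (hc.q_mem v hv).1 (hc.q_mem v hv).2

theorem bt_int_bq_q1 (hc : BtClkAt 𝔹 F p) : ∀ v ∈ Ioo 0 p.a, |p.q F 𝔹 v| ≤ 1 := fun v hv => by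
  rw [abs_of_nonneg (hc.q_mem v hv).1]; exact (hc.q_mem v hv).2

theorem bt_int_bq (hc : BtClkAt 𝔹 F p) : IntegrableOn (fun v => p.b F 𝔹 v * p.q F 𝔹 v ^ 2) (Ioo 0 p.a) := by
  have h := bud_integrableOn_mul (C := 1) (bt_int_bq_q2 hc).1 (bt_int_bq_q2 hc).2 hc.b.integrableOn
  simpa only [mul_comm] using h

/-- `c_g` is integrable -/
theorem bt_int_cgq_cg (hF : F.Ok) (hp : p.Ok F) : IntegrableOn (p.cg F) (Ioo 0 p.a) := by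
  refine bt_int_bdd (C := btKhi F * p.lam * (p.a ^ 2 + p.U F ^ 2)) (bt_cg_meas hF p).aestronglyMeasurable fun v hv => ?_
  rw [abs_of_pos (bt_cg_pos hF hp hv)]
  refine (bt_cg_hi hF hp hv).trans ?_
  have hK : 0 ≤ btKhi F * p.lam := by
    have h1 := bt_cg_pos hF hp hv
    have h2 := bt_cg_hi hF hp hv
    have h3 : 0 < v ^ 2 + p.U F ^ 2 := by have := hv.1; positivity
    by_contra hneg
    rw [not_le] at hneg
    nlinarith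
  have : v ^ 2 ≤ p.a ^ 2 := pow_le_pow_left₀ hv.1.le hv.2.le 2
  exact mul_le_mul_of_nonneg_left (by linarith) hK

theorem bt_int_cgq (hF : F.Ok) (hp : p.Ok F) (hc : BtClkAt 𝔹 F p) : IntegrableOn (fun v => p.cg F v * p.q F 𝔹 v ^ 2) (Ioo 0 p.a) := by
  have h := bud_integrableOn_mul (C := 1) (bt_int_bq_q2 hc).1 (bt_int_bq_q2 hc).2 (bt_int_cgq_cg hF hp)
  simpa only [mul_comm] using h

/-- the defect is integrable -/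
theorem bt_int_dq_d (hc : BtClkAt 𝔹 F p) : IntegrableOn (p.d F 𝔹) (Ioo 0 p.a) :=
  hc.h.sub_integrableOn hc.hS

theorem bt_int_dq (hc : BtClkAt 𝔹 F p) : IntegrableOn (fun v => p.d F 𝔹 v * p.q F 𝔹 v) (Ioo 0 p.a) := by
  have h := bud_integrableOn_mul (C := 1) hc.q_mono (bt_int_bq_q1 hc) (bt_int_dq_d hc)
  simpa only [mul_comm] using h

/-- the defect is bounded -/
theorem bt_int_dcg_bd (hc : BtClkAt 𝔹 F p) : ∃ D : ℝ, 0 ≤ D ∧ ∀ v ∈ Ioo 0 p.a, |p.d F 𝔹 v| ≤ D := by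
  obtain ⟨C1, h1⟩ := hc.h.abs_bdd
  obtain ⟨C2, h2⟩ := hc.hS.abs_bdd
  refine ⟨|C1| + |C2|, by positivity, fun v hv => ?_⟩
  calc |p.d F 𝔹 v| = |p.h F 𝔹 v - p.hS F 𝔹 v| := rfl
    _ ≤ |p.h F 𝔹 v| + |p.hS F 𝔹 v| := abs_sub _ _
    _ ≤ |C1| + |C2| := add_le_add ((h1 v hv).trans (le_abs_self _)) ((h2 v hv).trans (le_abs_self _))

/-- `d²/w` is integrable as soon as `w ≥ k > 0` is a.e. measurable -/
theorem bt_int_dcg_gen (hc : BtClkAt 𝔹 F p) {w : ℝ → ℝ} {k : ℝ} (hk : 0 < k)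
    (hw : AEStronglyMeasurable w (volume.restrict (Ioo 0 p.a))) (hlo : ∀ v ∈ Ioo 0 p.a, k ≤ w v) :
    IntegrableOn (fun v => p.d F 𝔹 v ^ 2 / w v) (Ioo 0 p.a) := by
  obtain ⟨D, hD0, hD⟩ := bt_int_dcg_bd hc
  refine bt_int_bdd (C := D ^ 2 / k) ?_ fun v hv => ?_
  · exact (((bt_int_dq_d hc).aestronglyMeasurable.aemeasurable.pow_const 2).div hw.aemeasurable).aestronglyMeasurable
  · have hwv : 0 < w v := hk.trans_le (hlo v hv)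
    rw [abs_of_nonneg (by positivity)]
    have h1 : p.d F 𝔹 v ^ 2 ≤ D ^ 2 := by
      rw [← sq_abs]; exact pow_le_pow_left₀ (abs_nonneg _) (hD v hv) 2
    exact div_le_div₀ (by positivity) h1 hk (hlo v hv)

theorem bt_int_dcg (hF : F.Ok) (hp : p.Ok F) (hc : BtClkAt 𝔹 F p) : IntegrableOn (fun v => p.d F 𝔹 v ^ 2 / p.cg F v) (Ioo 0 p.a) := by
  have hk : 0 < btKlo F * p.lam * p.U F ^ 2 :=
    mul_pos (mul_pos (bt_Klo_pos hF) (bt_lam_pos hp)) (pow_pos (bt_U_pos hp) 2)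
  refine bt_int_dcg_gen hc hk (bt_cg_meas hF p).aestronglyMeasurable fun v hv => ?_
  refine le_trans ?_ (bt_cg_lo hF hp hv)
  exact mul_le_mul_of_nonneg_left (by nlinarith [sq_nonneg v]) (mul_pos (bt_Klo_pos hF) (bt_lam_pos hp)).le

theorem bt_int_dbb (hc0 : 0 < c) (hc : BtClkAt 𝔹 F p) (hb : BtBd 𝔹 F c C p) : IntegrableOn (fun v => p.d F 𝔹 v ^ 2 / p.b F 𝔹 v) (Ioo 0 p.a) :=
  bt_int_dcg_gen hc hc0 (bud_aesm_of_monoOn hc.b.mono) hb.b_lo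

/-- the pressure system at the point -/
theorem bt_A_mem_sys (hS : BtSys 𝔹) (hp : p.Ok F) (hc : BtClkAt 𝔹 F p) {m : ℕ} (hm : 1 ≤ m) :
    ∃ P : PSys, P.a = p.a ∧ P.f (p.b F 𝔹) (p.h F 𝔹) = p.f0 F 𝔹 m ∧
      ∀ v ∈ Ioo 0 p.a, P.S (p.b F 𝔹) (p.h F 𝔹) v = p.S F 𝔹 m v ∧ P.B (p.b F 𝔹) (p.h F 𝔹) v = p.B F 𝔹 m v := by
  obtain ⟨P, hPa, hP⟩ := hS m p.a hm (lt_of_lt_of_le one_pos (bt_a_ge_one hp))
  obtain ⟨h1, h2⟩ := hP _ _ hc.b hc.h hc.bE hc.hE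
  exact ⟨P, hPa, h1, h2⟩

/-- `A_v ≥ 0`, `A_v ≤ 2` -/
theorem bt_A_mem (hS : BtSys 𝔹) (hp : p.Ok F) (hc : BtClkAt 𝔹 F p) {m : ℕ} (hm : 1 ≤ m) {v : ℝ} (hv : v ∈ Ioo 0 p.a) :
    0 ≤ p.Aerr F 𝔹 m v ∧ p.Aerr F 𝔹 m v ≤ 2 := by
  obtain ⟨P, hPa, -, hP⟩ := bt_A_mem_sys hS hp hc hm
  obtain ⟨e1, e2⟩ := hP v hv
  have hb : IsClock P.a (p.b F 𝔹) := hPa ▸ hc.b
  have hh : IsClock P.a (p.h F 𝔹) := hPa ▸ hc.h
  have hv' : v ∈ Ioo 0 P.a := hPa ▸ hv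
  have s0 := P.S_nonneg _ _ hb hh v hv'
  have s1 := P.S_sq_le _ _ hb hh v hv'
  have s2 := P.B_le _ _ hb hh v hv'
  rw [e1] at s0 s1
  rw [e2] at s1 s2
  obtain ⟨q0, q1⟩ := hc.q_mem v hv
  unfold LlPt.Aerr
  constructor
  · nlinarith [sq_nonneg (p.S F 𝔹 m v - p.q F 𝔹 v)]
  · nlinarith [mul_nonneg q0 s0]

/-- `A` is a.e. measurable -/
theorem bt_int_A_meas (hS : BtSys 𝔹) (hp : p.Ok F) (hc : BtClkAt 𝔹 F p) {m : ℕ} (hm : 1 ≤ m) :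
    AEStronglyMeasurable (p.Aerr F 𝔹 m) (volume.restrict (Ioo 0 p.a)) := by
  obtain ⟨P, hPa, -, hP⟩ := bt_A_mem_sys hS hp hc hm
  have hb : IsClock P.a (p.b F 𝔹) := hPa ▸ hc.b
  have hh : IsClock P.a (p.h F 𝔹) := hPa ▸ hc.h
  have mS : AEStronglyMeasurable (P.S (p.b F 𝔹) (p.h F 𝔹)) (volume.restrict (Ioo 0 p.a)) :=
    bud_aesm_of_monoOn (hPa ▸ P.S_mono _ _ hb hh)
  have mB : AEStronglyMeasurable (P.B (p.b F 𝔹) (p.h F 𝔹)) (volume.restrict (Ioo 0 p.a)) :=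
    bud_aesm_of_monoOn (hPa ▸ P.B_mono _ _ hb hh)
  have mq : AEStronglyMeasurable (p.q F 𝔹) (volume.restrict (Ioo 0 p.a)) := bud_aesm_of_monoOn hc.q_mono
  have h1 : AEStronglyMeasurable (fun v => P.B (p.b F 𝔹) (p.h F 𝔹) v - 2 * p.q F 𝔹 v * P.S (p.b F 𝔹) (p.h F 𝔹) v + p.q F 𝔹 v ^ 2)
      (volume.restrict (Ioo 0 p.a)) :=
    (mB.sub ((mq.const_mul 2).mul mS)).add (mq.pow 2)
  refine h1.congr ?_
  refine (ae_restrict_iff' measurableSet_Ioo).2 (Eventually.of_forall fun v hv => ?_)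
  obtain ⟨e1, e2⟩ := hP v hv
  simp only [e1, e2]
  rfl

/-- `φ A` is integrable for integrable `φ` -/
theorem bt_int_A (hS : BtSys 𝔹) (hp : p.Ok F) (hc : BtClkAt 𝔹 F p) {m : ℕ} (hm : 1 ≤ m) {φ : ℝ → ℝ} (hφ : IntegrableOn φ (Ioo 0 p.a)) :
    IntegrableOn (fun v => φ v * p.Aerr F 𝔹 m v) (Ioo 0 p.a) := by
  have h : IntegrableOn (fun v => p.Aerr F 𝔹 m v * φ v) (Ioo 0 p.a) := by
    refine Integrable.bdd_mul (c := 2) hφ (bt_int_A_meas hS hp hc hm) ?_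
    refine (ae_restrict_iff' measurableSet_Ioo).2 (Eventually.of_forall fun v hv => ?_)
    obtain ⟨a0, a1⟩ := bt_A_mem hS hp hc hm hv
    rw [Real.norm_eq_abs, abs_of_nonneg a0]; exact a1
  simpa only [mul_comm] using h

/-- monotonicity of `wA` in the weight -/
theorem bt_wA_mono (hS : BtSys 𝔹) (hp : p.Ok F) (hc : BtClkAt 𝔹 F p) {m : ℕ} (hm : 1 ≤ m) {φ ψ : ℝ → ℝ} (hφ : IntegrableOn φ (Ioo 0 p.a))
    (hψ : IntegrableOn ψ (Ioo 0 p.a)) (h : ∀ v ∈ Ioo 0 p.a, φ v ≤ ψ v) : p.wA F 𝔹 m φ ≤ p.wA F 𝔹 m ψ := by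
  unfold LlPt.wA
  refine setIntegral_mono_on (bt_int_A hS hp hc hm hφ) (bt_int_A hS hp hc hm hψ) measurableSet_Ioo fun v hv => ?_
  exact mul_le_mul_of_nonneg_right (h v hv) (bt_A_mem hS hp hc hm hv).1

theorem bt_wA_nonneg (hS : BtSys 𝔹) (hp : p.Ok F) (hc : BtClkAt 𝔹 F p) {m : ℕ} (hm : 1 ≤ m) {φ : ℝ → ℝ} (h : ∀ v ∈ Ioo 0 p.a, 0 ≤ φ v) :
    0 ≤ p.wA F 𝔹 m φ := by
  unfold LlPt.wA
  exact setIntegral_nonneg measurableSet_Ioo fun v hv => mul_nonneg (h v hv) (bt_A_mem hS hp hc hm hv).1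

/-! ## 2. The two square interpolations at one point -/

/-- **lower comparison** (l.48-53, `δ = 1`): `SqInterp` from `(b + c_g, K - (b + c_g) q)` with `e = c_g`, `ρ = q + d/c_g` -/
theorem bt_low (hF : F.Ok) (hS : BtSys 𝔹) (hp : p.Ok F) (hc : BtClkAt 𝔹 F p) (hc' : BtClkAt 𝔹 F (p.wG0 (p.gam0 - 1))) {m : ℕ} (hm : 1 ≤ m) :
    𝔹.f m p.a ((p.wG0 (p.gam0 - 1)).b F 𝔹) ((p.wG0 (p.gam0 - 1)).hS F 𝔹)
      ≤ p.f0 F 𝔹 m + (∫ v in Ioo (0 : ℝ) p.a, p.cg F v * p.q F 𝔹 v ^ 2) / 4 + (∫ v in Ioo (0 : ℝ) p.a, p.d F 𝔹 v * p.q F 𝔹 v) / 2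
        + p.dcg F 𝔹 / 4 := by
  obtain ⟨P, hPa, hP⟩ := hS m p.a hm (bt_a_pos hp)
  set b' := (p.wG0 (p.gam0 - 1)).b F 𝔹 with hb'
  set h' := (p.wG0 (p.gam0 - 1)).hS F 𝔹 with hh'
  have cb' : IsClock p.a b' := hc'.b
  have ch' : IsClock p.a h' := hc'.hS
  have e1 : ∀ v ∈ Ioo 0 p.a, p.b F 𝔹 v = b' v - p.cg F v := fun v _ => by
    rw [hb', bt_b_wG0]; ring
  have e2 : ∀ v ∈ Ioo 0 p.a, p.h F 𝔹 v = h' v + p.cg F v * (p.q F 𝔹 v + p.d F 𝔹 v / p.cg F v) := fun v hv => by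
    have h0 := (bt_cg_pos hF hp hv).ne'
    rw [hh', bt_hS_wG0]
    unfold LlPt.d
    field_simp
    ring
  have e3 : ∀ v ∈ Ioo 0 p.a, p.cg F v * p.q F 𝔹 v ^ 2 + 2 * (p.d F 𝔹 v * p.q F 𝔹 v) + p.d F 𝔹 v ^ 2 / p.cg F v
      = p.cg F v * (p.q F 𝔹 v + p.d F 𝔹 v / p.cg F v) ^ 2 := fun v hv => by
    have h0 := (bt_cg_pos hF hp hv).ne'
    field_simp
    ring
  have i1 := bt_int_cgq hF hp hc
  have i2 := bt_int_dq hc
  have i3 := bt_int_dcg hF hp hc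
  have i4 : IntegrableOn (fun v => p.cg F v * (p.q F 𝔹 v + p.d F 𝔹 v / p.cg F v) ^ 2) (Ioo 0 p.a) :=
    ((i1.add (i2.const_mul 2)).add i3).congr_fun e3 measurableSet_Ioo
  have key := bud_sqInterp P b' h' (p.cg F) (fun v => p.q F 𝔹 v + p.d F 𝔹 v / p.cg F v) (hPa ▸ cb') (hPa ▸ ch')
    (hPa ▸ hc.b.congr e1) (hPa ▸ hc.h.congr e2) (hPa ▸ fun v hv => (bt_cg_pos hF hp hv).le) (hPa ▸ i4)
  rw [hPa] at key
  have f1 : P.f b' h' = 𝔹.f m p.a b' h' := (hP b' h' cb' ch' hc'.bE hc'.hSE).1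
  have f2 : P.f (fun v => b' v - p.cg F v) (fun v => h' v + p.cg F v * (p.q F 𝔹 v + p.d F 𝔹 v / p.cg F v)) = p.f0 F 𝔹 m := by
    rw [← P.f_congr (p.b F 𝔹) (p.h F 𝔹) _ _ (hPa ▸ e1) (hPa ▸ e2)]
    exact (hP _ _ hc.b hc.h hc.bE hc.hE).1
  have f3 : ∫ v in Ioo 0 p.a, p.cg F v * (p.q F 𝔹 v + p.d F 𝔹 v / p.cg F v) ^ 2
      = (∫ v in Ioo (0 : ℝ) p.a, p.cg F v * p.q F 𝔹 v ^ 2) + 2 * (∫ v in Ioo (0 : ℝ) p.a, p.d F 𝔹 v * p.q F 𝔹 v) + p.dcg F 𝔹 := by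
    have i12 : IntegrableOn (fun v => p.cg F v * p.q F 𝔹 v ^ 2 + 2 * (p.d F 𝔹 v * p.q F 𝔹 v)) (Ioo 0 p.a) := i1.add (i2.const_mul 2)
    rw [← setIntegral_congr_fun measurableSet_Ioo e3, integral_add i12 i3, integral_add i1 (i2.const_mul 2), integral_const_mul]
    rfl
  rw [f1, f2, f3] at key
  linarith

/-- **upper comparison** (l.54): `SqInterp` with `e = b`, `ρ = (K - h)/b`, and `f_m(0,K) = f_spin(K)` -/
theorem bt_gap_nonneg (hS : BtSys 𝔹) (hSite : BtSite 𝔹) (hc0 : 0 < c) (hp : p.Ok F) (hc : BtClkAt 𝔹 F p) (hb : BtBd 𝔹 F c C p) {m : ℕ} (hm : 1 ≤ m) :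
    0 ≤ p.trialGap F 𝔹 m := by
  have ha := bt_a_pos hp
  obtain ⟨P, hPa, hP⟩ := hS m p.a hm ha
  have b0 : ∀ v ∈ Ioo 0 p.a, p.b F 𝔹 v ≠ 0 := fun v hv => (lt_of_lt_of_le hc0 (hb.b_lo v hv)).ne'
  have e1 : ∀ v ∈ Ioo 0 p.a, (0 : ℝ → ℝ) v = p.b F 𝔹 v - p.b F 𝔹 v := fun v _ => by simp
  have e2 : ∀ v ∈ Ioo 0 p.a, p.K F 𝔹 v = p.h F 𝔹 v + p.b F 𝔹 v * ((p.K F 𝔹 v - p.h F 𝔹 v) / p.b F 𝔹 v) := fun v hv => by
    have := b0 v hv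
    field_simp
    ring
  have e3 : ∀ v ∈ Ioo 0 p.a, p.b F 𝔹 v * p.q F 𝔹 v ^ 2 - 2 * (p.d F 𝔹 v * p.q F 𝔹 v) + p.d F 𝔹 v ^ 2 / p.b F 𝔹 v
      = p.b F 𝔹 v * ((p.K F 𝔹 v - p.h F 𝔹 v) / p.b F 𝔹 v) ^ 2 := fun v hv => by
    have := b0 v hv
    unfold LlPt.d LlPt.hS
    field_simp
    ring
  have i4 : IntegrableOn (fun v => p.b F 𝔹 v * ((p.K F 𝔹 v - p.h F 𝔹 v) / p.b F 𝔹 v) ^ 2) (Ioo 0 p.a) :=
    (((bt_int_bq hc).sub ((bt_int_dq hc).const_mul 2)).add (bt_int_dbb hc0 hc hb)).congr_fun e3 measurableSet_Ioo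
  have key := bud_sqInterp P (p.b F 𝔹) (p.h F 𝔹) (p.b F 𝔹) (fun v => (p.K F 𝔹 v - p.h F 𝔹 v) / p.b F 𝔹 v) (hPa ▸ hc.b) (hPa ▸ hc.h)
    (hPa ▸ (bt_zero_clock (a := p.a)).congr e1) (hPa ▸ hc.K.congr e2) (hPa ▸ fun v hv => hc.b.nonneg v hv) (hPa ▸ i4)
  rw [hPa] at key
  have f1 : P.f (p.b F 𝔹) (p.h F 𝔹) = p.f0 F 𝔹 m := (hP _ _ hc.b hc.h hc.bE hc.hE).1
  have f2 : P.f (fun v => p.b F 𝔹 v - p.b F 𝔹 v) (fun v => p.h F 𝔹 v + p.b F 𝔹 v * ((p.K F 𝔹 v - p.h F 𝔹 v) / p.b F 𝔹 v))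
      = 𝔹.fspin p.a (p.K F 𝔹) := by
    rw [← P.f_congr 0 (p.K F 𝔹) _ _ (hPa ▸ e1) (hPa ▸ e2), (hP _ _ bt_zero_clock hc.K (bt_zero_end ha) hc.KE).1]
    exact hSite m p.a _ hm ha hc.K hc.KE
  have f3 : (1 / 4) * ∫ v in Ioo 0 p.a, p.b F 𝔹 v * ((p.K F 𝔹 v - p.h F 𝔹 v) / p.b F 𝔹 v) ^ 2
      = ∫ v in (0 : ℝ)..p.a, (p.K F 𝔹 v - p.h F 𝔹 v) ^ 2 / (4 * p.b F 𝔹 v) := by
    rw [bt_ii ha.le, ← integral_const_mul]
    refine setIntegral_congr_fun measurableSet_Ioo fun v hv => ?_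
    have := b0 v hv
    show 1 / 4 * (p.b F 𝔹 v * ((p.K F 𝔹 v - p.h F 𝔹 v) / p.b F 𝔹 v) ^ 2) = (p.K F 𝔹 v - p.h F 𝔹 v) ^ 2 / (4 * p.b F 𝔹 v)
    field_simp
  rw [f1, f2, f3] at key
  unfold LlPt.trialGap
  linarith

/-- `(K - h)²/(4b) = ¼ b q² - ½ d q + ¼ d²/b` -/
theorem bt_gap_eq (hc0 : 0 < c) (hp : p.Ok F) (hc : BtClkAt 𝔹 F p) (hb : BtBd 𝔹 F c C p) (m : ℕ) :
    p.trialGap F 𝔹 m = 𝔹.fspin p.a (p.K F 𝔹) - p.Phi F 𝔹 m + p.dbb F 𝔹 / 4 := by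
  have ha : 0 ≤ p.a := le_trans zero_le_one (bt_a_ge_one hp)
  have e : ∫ v in (0 : ℝ)..p.a, (p.K F 𝔹 v - p.h F 𝔹 v) ^ 2 / (4 * p.b F 𝔹 v)
      = (∫ v in Ioo (0 : ℝ) p.a, p.b F 𝔹 v * p.q F 𝔹 v ^ 2) / 4 - (∫ v in Ioo (0 : ℝ) p.a, p.d F 𝔹 v * p.q F 𝔹 v) / 2
        + (∫ v in Ioo (0 : ℝ) p.a, p.d F 𝔹 v ^ 2 / p.b F 𝔹 v) / 4 := by
    rw [bt_ii ha]
    have e1 : ∫ v in Ioo (0 : ℝ) p.a, (p.K F 𝔹 v - p.h F 𝔹 v) ^ 2 / (4 * p.b F 𝔹 v)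
        = ∫ v in Ioo (0 : ℝ) p.a, ((1 / 4) * (p.b F 𝔹 v * p.q F 𝔹 v ^ 2) - (1 / 2) * (p.d F 𝔹 v * p.q F 𝔹 v)
          + (1 / 4) * (p.d F 𝔹 v ^ 2 / p.b F 𝔹 v)) := by
      refine setIntegral_congr_fun measurableSet_Ioo fun v hv => ?_
      have hbv : p.b F 𝔹 v ≠ 0 := (hc0.trans_le (hb.b_lo v hv)).ne'
      have hK : p.K F 𝔹 v - p.h F 𝔹 v = p.b F 𝔹 v * p.q F 𝔹 v - p.d F 𝔹 v := by
        unfold LlPt.d LlPt.hS; ring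
      simp only [hK]
      field_simp
      ring
    rw [e1, bud_int3 _ _ _ (bt_int_bq hc) (bt_int_dq hc) (bt_int_dbb hc0 hc hb)]
    ring
  unfold LlPt.trialGap LlPt.Phi LlPt.dbb
  rw [e]
  ring

/-- the lower bound of `Φ` from (G1) at `γ_0 - 1` (`G` = the value of the left side of (G1) there) -/
theorem bt_Phi_lo (hF : F.Ok) (hS : BtSys 𝔹) (hp : p.Ok F) (hc : BtClkAt 𝔹 F p) (hc' : BtClkAt 𝔹 F (p.wG0 (p.gam0 - 1))) {m : ℕ} (hm : 1 ≤ m) {E : ℝ}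
    (hG : 𝔹.fspin p.a (p.K F 𝔹) + (∫ v in Ioo (0 : ℝ) p.a, (p.wG0 (p.gam0 - 1)).b F 𝔹 v * p.q F 𝔹 v ^ 2) / 4
      - 𝔹.f m p.a ((p.wG0 (p.gam0 - 1)).b F 𝔹) ((p.wG0 (p.gam0 - 1)).hS F 𝔹) ≤ E) :
    𝔹.fspin p.a (p.K F 𝔹) - E - p.dcg F 𝔹 / 4 ≤ p.Phi F 𝔹 m := by
  have h1 := bt_low hF hS hp hc hc' hm
  have i1 := bt_int_cgq hF hp hc
  have i0 := bt_int_bq hc
  have h2 : ∫ v in Ioo (0 : ℝ) p.a, (p.wG0 (p.gam0 - 1)).b F 𝔹 v * p.q F 𝔹 v ^ 2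
      = (∫ v in Ioo (0 : ℝ) p.a, p.b F 𝔹 v * p.q F 𝔹 v ^ 2) + ∫ v in Ioo (0 : ℝ) p.a, p.cg F v * p.q F 𝔹 v ^ 2 := by
    rw [← integral_add i0 i1]
    refine setIntegral_congr_fun measurableSet_Ioo fun v _ => ?_
    show (p.wG0 (p.gam0 - 1)).b F 𝔹 v * p.q F 𝔹 v ^ 2 = p.b F 𝔹 v * p.q F 𝔹 v ^ 2 + p.cg F v * p.q F 𝔹 v ^ 2
    rw [bt_b_wG0]; ring
  rw [h2] at hG
  unfold LlPt.Phi
  linarith

theorem bt_Phi_hi (hS : BtSys 𝔹) (hSite : BtSite 𝔹) (hc0 : 0 < c) (hp : p.Ok F) (hc : BtClkAt 𝔹 F p) (hb : BtBd 𝔹 F c C p) {m : ℕ} (hm : 1 ≤ m) :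
    p.Phi F 𝔹 m ≤ 𝔹.fspin p.a (p.K F 𝔹) + p.dbb F 𝔹 / 4 := by
  have h1 := bt_gap_nonneg hS hSite hc0 hp hc hb hm
  rw [bt_gap_eq hc0 hp hc hb m] at h1
  linarith

/-- the restored pressure and `Φ`, only `0 ≤ a` -/
theorem bt_fRest_eq_a (ha : 0 ≤ p.a) (m : ℕ) :
    p.fRest F 𝔹 m = p.Phi F 𝔹 m - (∫ v in Ioo (0 : ℝ) p.a, p.d F 𝔹 v * p.q F 𝔹 v) / 2 := by
  unfold LlPt.fRest LlPt.Phi
  rw [bt_ii ha, integral_div]
  ring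

/-- the restored pressure and `Φ` -/
theorem bt_fRest_eq (hp : p.Ok F) (m : ℕ) :
    p.fRest F 𝔹 m = p.Phi F 𝔹 m - (∫ v in Ioo (0 : ℝ) p.a, p.d F 𝔹 v * p.q F 𝔹 v) / 2 :=
  bt_fRest_eq_a (le_trans zero_le_one (bt_a_ge_one hp)) m

/-- **omitting the mask** -/
theorem bt_fRest_diff (hF : F.Ok) (hp : p.Ok F) {g1 g2 : ℝ} (hc1 : BtClkAt 𝔹 F (p.wG0 g1)) (hc2 : BtClkAt 𝔹 F (p.wG0 g2)) (m : ℕ) :
    (p.wG0 g2).fRest F 𝔹 m - (p.wG0 g1).fRest F 𝔹 m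
      = (p.wG0 g2).Phi F 𝔹 m - (p.wG0 g1).Phi F 𝔹 m + (g2 - g1) / 2 * ∫ v in Ioo (0 : ℝ) p.x, p.cg F v * p.q F 𝔹 v ^ 2 := by
  have ha1 : 1 ≤ p.a := bt_a_ge_one hp
  have ha : 0 ≤ p.a := le_trans zero_le_one ha1
  rw [bt_fRest_eq_a (p := p.wG0 g2) ha m, bt_fRest_eq_a (p := p.wG0 g1) ha m]
  have i1 := bt_int_dq hc1
  have i2 := bt_int_dq hc2
  have hsub : Ioo (0 : ℝ) p.x ⊆ Ioo 0 p.a := Ioo_subset_Ioo_right ((bt_x_le_one hp).trans ha1)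
  have key : (∫ v in Ioo (0 : ℝ) p.a, (p.wG0 g1).d F 𝔹 v * (p.wG0 g1).q F 𝔹 v) - (∫ v in Ioo (0 : ℝ) p.a, (p.wG0 g2).d F 𝔹 v * (p.wG0 g2).q F 𝔹 v)
      = (g2 - g1) * ∫ v in Ioo (0 : ℝ) p.x, p.cg F v * p.q F 𝔹 v ^ 2 := by
    have i1' : IntegrableOn (fun v => (p.wG0 g1).d F 𝔹 v * (p.wG0 g1).q F 𝔹 v) (Ioo 0 p.a) := i1
    have i2' : IntegrableOn (fun v => (p.wG0 g2).d F 𝔹 v * (p.wG0 g2).q F 𝔹 v) (Ioo 0 p.a) := i2
    have e2 : ∫ v in Ioo (0 : ℝ) p.x, (g2 - g1) * (p.cg F v * p.q F 𝔹 v ^ 2)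
        = ∫ v in Ioo (0 : ℝ) p.a, (Ioo (0 : ℝ) p.x).indicator (fun v => (g2 - g1) * (p.cg F v * p.q F 𝔹 v ^ 2)) v := by
      rw [setIntegral_indicator measurableSet_Ioo, inter_eq_self_of_subset_right hsub]
    rw [← integral_sub i1' i2', ← integral_const_mul, e2]
    refine setIntegral_congr_fun measurableSet_Ioo fun v hv => ?_
    have hq1 : (p.wG0 g1).q F 𝔹 v = p.q F 𝔹 v := rfl
    have hq2 : (p.wG0 g2).q F 𝔹 v = p.q F 𝔹 v := rfl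
    simp only [hq1, hq2, bt_d_wG0]
    by_cases hx : v < p.x
    · rw [indicator_of_mem (show v ∈ Ioo (0 : ℝ) p.x from ⟨hv.1, hx⟩), if_pos hx, if_pos hx]
      ring
    · rw [indicator_of_notMem (fun h : v ∈ Ioo (0 : ℝ) p.x => hx h.2), if_neg hx, if_neg hx]
      ring
  have key' : (∫ v in Ioo (0 : ℝ) (p.wG0 g1).a, (p.wG0 g1).d F 𝔹 v * (p.wG0 g1).q F 𝔹 v) - (∫ v in Ioo (0 : ℝ) (p.wG0 g2).a, (p.wG0 g2).d F 𝔹 v * (p.wG0 g2).q F 𝔹 v)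
      = (g2 - g1) * ∫ v in Ioo (0 : ℝ) p.x, p.cg F v * p.q F 𝔹 v ^ 2 := key
  linarith

/-- the mask term is `O(λ U² x³)` -/
theorem bt_mask (hF : F.Ok) (hp : p.Ok F) (hx : p.x ≤ F.vb) (hC : 0 ≤ C) (hc : BtClkAt 𝔹 F p) (hb : BtBd 𝔹 F c C p) :
    ∫ v in Ioo (0 : ℝ) p.x, p.cg F v * p.q F 𝔹 v ^ 2 ≤ F.cb * F.c1 * C ^ 2 * (p.lam * p.U F ^ 2 * p.x ^ 3) := by
  have ha1 : 1 ≤ p.a := bt_a_ge_one hp
  have hx0 : 0 < p.x := bt_x_pos hp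
  have hsub : Ioo (0 : ℝ) p.x ⊆ Ioo 0 p.a := Ioo_subset_Ioo_right ((bt_x_le_one hp).trans ha1)
  have hk : 0 ≤ F.cb * p.lam * F.c1 * p.U F ^ 2 :=
    mul_nonneg (mul_nonneg (mul_nonneg hF.cb0.le (bt_lam_pos hp).le) hF.c10.le) (sq_nonneg _)
  have h1 : ∫ v in Ioo (0 : ℝ) p.x, p.cg F v * p.q F 𝔹 v ^ 2
      ≤ ∫ _v in Ioo (0 : ℝ) p.x, F.cb * p.lam * F.c1 * p.U F ^ 2 * (C * p.x) ^ 2 := by
    refine setIntegral_mono_on ((bt_int_cgq hF hp hc).mono_set hsub) (integrableOn_const measure_Ioo_lt_top.ne) measurableSet_Ioo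
      fun v hv => ?_
    rw [bt_cg_mask hF hp hx hv.2.le]
    refine mul_le_mul_of_nonneg_left ?_ hk
    refine pow_le_pow_left₀ (hc.q_mem v (hsub hv)).1 ?_ 2
    exact (hb.q_hi v (hsub hv)).trans (mul_le_mul_of_nonneg_left hv.2.le hC)
  refine h1.trans (le_of_eq ?_)
  rw [setIntegral_const, measureReal_def, Real.volume_Ioo, ENNReal.toReal_ofReal (by linarith), smul_eq_mul]
  ring

/-- `∫ d²/b ≤ ∫ d²/c_g` as soon as `c_g ≤ b` -/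
theorem bt_dbb_le (hF : F.Ok) (hc0 : 0 < c) (hp : p.Ok F) (hc : BtClkAt 𝔹 F p) (hb : BtBd 𝔹 F c C p) (hl : btKhi F * p.lam * 17 ≤ c) :
    p.dbb F 𝔹 ≤ p.dcg F 𝔹 := by
  unfold LlPt.dbb LlPt.dcg
  refine setIntegral_mono_on (bt_int_dbb hc0 hc hb) (bt_int_dcg hF hp hc) measurableSet_Ioo fun v hv => ?_
  have hK : 0 ≤ btKhi F * p.lam := by
    refine mul_nonneg ?_ (bt_lam_pos hp).le
    unfold btKhi
    exact mul_nonneg (mul_nonneg hF.cb0.le hF.c10.le) (le_trans (by norm_num) (le_max_left _ _))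
  have h1 : p.cg F v ≤ p.b F 𝔹 v := by
    refine (bt_cg_hi hF hp hv).trans (le_trans ?_ (hl.trans (hb.b_lo v hv)))
    refine mul_le_mul_of_nonneg_left ?_ hK
    have hv4 : v ≤ 4 := hv.2.le.trans (bt_a_le hp)
    have hU1 : p.U F ≤ 1 := bt_U_le_one p
    have hU0 : 0 < p.U F := bt_U_pos hp
    nlinarith [hv.1]
  exact div_le_div_of_nonneg_left (sq_nonneg _) (bt_cg_pos hF hp hv) h1

end point

/-! ## 3. Uniform statements -/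

/-- the direct companion of a point -/
theorem bt_unif_dir {Φ : LlPt → Prop} (h : LlUnif F Φ) : LlUnif F fun p => Φ { p with sm := false } := by
  obtain ⟨N0, h0⟩ := h
  exact ⟨N0, fun p hp hN => h0 _ ⟨hp.N2, hp.ell1, hp.ell2, hp.lam_lo, hp.lam_hi, hp.g0, hp.gu, hp.chiL, hp.chiE, fun h => by simp at h⟩ hN⟩

theorem bt_m_pos {p : LlPt} (hp : p.Ok F) {m : ℕ} (hm : p.N ≤ 2 * m) : 1 ≤ m := by
  have := hp.N2
  omega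

/-- the three terms of (P8) -/
noncomputable def LlPt.R8 (p : LlPt) (F : LlFix) : ℝ :=
  p.lam ^ (1 + 2 * F.eta) * p.U F ^ 5 + p.chiE ^ 2 * p.lam ^ (1 + 2 * F.eta) * p.U F ^ 4 + p.chiL ^ 2 * p.x ^ 6 / p.lam

theorem bt_R8_nonneg {p : LlPt} (hp : p.Ok F) : 0 ≤ p.R8 F := by
  unfold LlPt.R8
  have := bt_lam_pos hp; have := bt_U_pos hp; have := bt_x_pos hp
  positivity

theorem bt_Bcal_eq (p : LlPt) (cG ε : ℝ) : p.Bcal F cG ε = p.x ^ (4 + cG) + p.x ^ (-ε) * p.R8 F := rfl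

theorem bt_xneg_ge {p : LlPt} (hp : p.Ok F) {ε : ℝ} (hε : 0 < ε) : 1 ≤ p.x ^ (-ε) :=
  Real.one_le_rpow_of_pos_of_le_one_of_nonpos (bt_x_pos hp) (bt_x_le_one hp) (by linarith)

/-- (P8) in the form used here -/
theorem bt_p8 (h3 : LlSec3 𝔹 F) : ∀ ε > (0 : ℝ), ∃ C : ℝ, 0 ≤ C ∧ LlUnif F fun p => p.dcg F 𝔹 ≤ C * (p.x ^ (-ε) * p.R8 F) := by
  intro ε hε
  obtain ⟨C, hC⟩ := h3.p8 ε hε
  refine ⟨|C|, abs_nonneg _, bt_unif_mono hC fun p hp h => ?_⟩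
  have h1 : (∫ v in (0 : ℝ)..p.a, p.d F 𝔹 v ^ 2 / p.cg F v) ≤ C * p.x ^ (-ε) * p.R8 F := h trivial
  rw [bt_ii (bt_a_pos hp).le] at h1
  have h2 : 0 ≤ p.x ^ (-ε) * p.R8 F := mul_nonneg (zero_le_one.trans (bt_xneg_ge hp hε)) (bt_R8_nonneg hp)
  calc p.dcg F 𝔹 ≤ C * p.x ^ (-ε) * p.R8 F := h1
    _ = C * (p.x ^ (-ε) * p.R8 F) := by ring
    _ ≤ |C| * (p.x ^ (-ε) * p.R8 F) := mul_le_mul_of_nonneg_right (le_abs_self _) h2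

/-- **l.50-55**: the two-sided bound of the restored pressure -/
theorem bt_R (h3 : LlSec3 𝔹 F) (hEn : BtEnd 𝔹 F) (hS : BtSys 𝔹) (hSite : BtSite 𝔹) {cG : ℝ} (hG1 : BtG1 𝔹 F cG) :
    LlUnif F fun p => p.sm = false → -3 ≤ p.gam0 → ∀ m : ℕ, p.N ≤ 2 * m → m ≤ 3 * p.N →
      𝔹.fspin p.a (p.K F 𝔹) - p.x ^ (4 + cG) - p.dcg F 𝔹 / 4 ≤ p.Phi F 𝔹 m ∧ p.Phi F 𝔹 m ≤ 𝔹.fspin p.a (p.K F 𝔹) + p.dcg F 𝔹 / 4 := by
  have hF := h3.ok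
  obtain ⟨c, C, hc0, hbd⟩ := bt_bd h3
  have hKhi : 0 < btKhi F := by
    unfold btKhi
    have := hF.cb0; have := hF.c10
    have : (0 : ℝ) < max 65 (F.G1 2 + 1) := lt_of_lt_of_le (by norm_num) (le_max_left _ _)
    positivity
  have hlam := bt_unif_lam (F := F) hF (δ := c / (btKhi F * 17)) (by positivity)
  have hclk := bt_clk h3 hEn
  refine bt_unif_mono (bt_unif_and (bt_unif_and hclk (bt_unif_wG0 hclk)) (bt_unif_and (bt_unif_wG0 hG1) (bt_unif_and hbd hlam))) ?_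
  rintro p hp ⟨⟨hc, hcg⟩, hG, hb, hl⟩ hsm hg m hm1 hm2
  have hm := bt_m_pos hp hm1
  have hg' : p.gam0 - 1 ∈ Icc (-4 : ℝ) 4 := ⟨by linarith, by linarith [hp.g0.2]⟩
  constructor
  · exact bt_Phi_lo hF hS hp hc (hcg _ hg') hm (hG _ hg' hsm m hm1 hm2)
  · have h1 := bt_Phi_hi hS hSite hc0 hp hc hb hm
    have h2 : btKhi F * p.lam * 17 ≤ c := by
      rw [le_div_iff₀ (by positivity)] at hl
      linarith
    have h3' := bt_dbb_le hF hc0 hp hc hb h2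
    linarith

/-- `λ U² x³ ≤ λ^{1+2η} U⁵` (03 l.447-452) -/
theorem bt_pow_mask (hF : F.Ok) (hs : 1 / 4 ≤ F.sS) (he : F.eta ≤ 1 / 8) {p : LlPt} (hp : p.Ok F) :
    p.lam * p.U F ^ 2 * p.x ^ 3 ≤ p.lam ^ (1 + 2 * F.eta) * p.U F ^ 5 := by
  have hx0 : 0 < p.x := bt_x_pos hp
  have hx1 : p.x ≤ 1 := bt_x_le_one hp
  have hl0 : 0 < p.lam := bt_lam_pos hp
  have hl1 : p.lam ≤ 1 := bt_lam_le_one hF hp
  have hU0 : 0 < p.U F := bt_U_pos hp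
  have he0 := hF.eta0
  -- `x ≤ λ^{2η/3} U`
  have key : p.x ≤ p.lam ^ (2 * F.eta / 3) * p.U F := by
    unfold LlPt.U
    rcases le_total 1 (p.x * p.lam ^ (-(F.sS / 2))) with h | h
    · rw [min_eq_left h, mul_one]
      calc p.x = p.x ^ (1 : ℝ) := (Real.rpow_one _).symm
        _ ≤ p.x ^ (12 * (2 * F.eta / 3)) := Real.rpow_le_rpow_of_exponent_ge hx0 hx1 (by linarith)
        _ = (p.x ^ (12 : ℝ)) ^ (2 * F.eta / 3) := Real.rpow_mul hx0.le _ _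
        _ ≤ p.lam ^ (2 * F.eta / 3) := Real.rpow_le_rpow (by positivity) hp.lam_lo (by positivity)
    · rw [min_eq_right h]
      have h1 : 1 ≤ p.lam ^ (2 * F.eta / 3 + -(F.sS / 2)) := Real.one_le_rpow_of_pos_of_le_one_of_nonpos hl0 hl1 (by linarith)
      rw [Real.rpow_add hl0] at h1
      calc p.x = p.x * 1 := (mul_one _).symm
        _ ≤ p.x * (p.lam ^ (2 * F.eta / 3) * p.lam ^ (-(F.sS / 2))) := mul_le_mul_of_nonneg_left h1 hx0.le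
        _ = p.lam ^ (2 * F.eta / 3) * (p.x * p.lam ^ (-(F.sS / 2))) := by ring
  have h3 : p.x ^ 3 ≤ p.lam ^ (2 * F.eta) * p.U F ^ 3 := by
    have := pow_le_pow_left₀ hx0.le key 3
    rw [mul_pow, ← Real.rpow_natCast (p.lam ^ (2 * F.eta / 3)) 3, ← Real.rpow_mul hl0.le] at this
    have e : 2 * F.eta / 3 * ((3 : ℕ) : ℝ) = 2 * F.eta := by push_cast; ring
    rwa [e] at this
  calc p.lam * p.U F ^ 2 * p.x ^ 3 ≤ p.lam * p.U F ^ 2 * (p.lam ^ (2 * F.eta) * p.U F ^ 3) :=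
        mul_le_mul_of_nonneg_left h3 (by positivity)
    _ = p.lam ^ (1 + 2 * F.eta) * p.U F ^ 5 := by
        rw [Real.rpow_add hl0, Real.rpow_one]; ring

/-- **the direct pressure comparison** (l.56-66): the restored pressure varies by `≲_∘ 𝓑` in the global parameter -/
theorem bt_glob_dir (h3 : LlSec3 𝔹 F) (hEn : BtEnd 𝔹 F) (hS : BtSys 𝔹) (hSite : BtSite 𝔹) (hs : 1 / 4 ≤ F.sS) (he : F.eta ≤ 1 / 8) {cG : ℝ} (hG1 : BtG1 𝔹 F cG) :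
    ∀ ε > (0 : ℝ), ∃ C : ℝ, LlUnif F fun p => p.sm = false → ∀ m : ℕ, p.N ≤ 2 * m → m ≤ 3 * p.N → ∀ g1 g2 : ℝ, -3 ≤ g1 → g1 ≤ g2 → g2 ≤ 4 →
      (p.wG0 g2).fRest F 𝔹 m - (p.wG0 g1).fRest F 𝔹 m ≤ C * p.Bcal F cG ε := by
  intro ε hε
  have hF := h3.ok
  obtain ⟨c, C, hc0, hbd⟩ := bt_bd h3
  obtain ⟨C8, hC8, h8⟩ := bt_p8 h3 ε hε
  have hclk := bt_clk h3 hEn
  have hR := bt_R h3 hEn hS hSite hG1
  have hx := bt_unif_x (F := F) hF.vb0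
  refine ⟨1 + C8 + 4 * (F.cb * F.c1 * (|C|) ^ 2), ?_⟩
  refine bt_unif_mono (bt_unif_and (bt_unif_and (bt_unif_wG0 hclk) hclk) (bt_unif_and (bt_unif_wG0 hR) (bt_unif_and (bt_unif_wG0 h8) (bt_unif_and hbd hx)))) ?_
  rintro p hp ⟨⟨hcg, hc⟩, hRg, h8g, hb, hxv⟩ hsm m hm1 hm2 g1 g2 hg1 hg12 hg2
  have m1 : g1 ∈ Icc (-4 : ℝ) 4 := ⟨by linarith, by linarith⟩
  have m2 : g2 ∈ Icc (-4 : ℝ) 4 := ⟨by linarith, by linarith⟩
  have hb' : BtBd 𝔹 F c |C| p := ⟨hb.b_lo, fun v hv => (hb.b_hi v hv).trans (le_abs_self _),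
    fun v hv => (hb.q_hi v hv).trans (mul_le_mul_of_nonneg_right (le_abs_self _) hv.1.le)⟩
  have d := bt_fRest_diff hF hp (hcg g1 m1) (hcg g2 m2) m
  have u2 := (hRg g2 m2 hsm (by show -3 ≤ g2; linarith) m hm1 hm2).2
  have l1 := (hRg g1 m1 hsm hg1 m hm1 hm2).1
  have k1 : (p.wG0 g1).dcg F 𝔹 ≤ C8 * (p.x ^ (-ε) * p.R8 F) := h8g g1 m1
  have k2 : (p.wG0 g2).dcg F 𝔹 ≤ C8 * (p.x ^ (-ε) * p.R8 F) := h8g g2 m2
  have mk := bt_mask hF hp hxv (abs_nonneg C) hc hb'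
  have pw := bt_pow_mask hF hs he hp
  have hxe := bt_xneg_ge hp hε
  have hR8 := bt_R8_nonneg hp
  have t1 : p.lam ^ (1 + 2 * F.eta) * p.U F ^ 5 ≤ p.R8 F := by
    unfold LlPt.R8
    have := bt_lam_pos hp; have := bt_U_pos hp; have := bt_x_pos hp
    have a1 : 0 ≤ p.chiE ^ 2 * p.lam ^ (1 + 2 * F.eta) * p.U F ^ 4 := by positivity
    have a2 : 0 ≤ p.chiL ^ 2 * p.x ^ 6 / p.lam := by positivity
    linarith
  have t2 : p.R8 F ≤ p.x ^ (-ε) * p.R8 F := by nlinarith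
  have hK0 : 0 ≤ F.cb * F.c1 * |C| ^ 2 := by have := hF.cb0; have := hF.c10; positivity
  have mk2 : ∫ v in Ioo (0 : ℝ) p.x, p.cg F v * p.q F 𝔹 v ^ 2 ≤ F.cb * F.c1 * |C| ^ 2 * (p.x ^ (-ε) * p.R8 F) :=
    mk.trans (mul_le_mul_of_nonneg_left (pw.trans (t1.trans t2)) hK0)
  have mk0 : 0 ≤ ∫ v in Ioo (0 : ℝ) p.x, p.cg F v * p.q F 𝔹 v ^ 2 := by
    refine setIntegral_nonneg measurableSet_Ioo fun v hv => ?_
    have hva : v ∈ Ioo 0 p.a := ⟨hv.1, lt_of_lt_of_le hv.2 ((bt_x_le_one hp).trans (bt_a_ge_one hp))⟩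
    exact mul_nonneg (bt_cg_pos hF hp hva).le (sq_nonneg _)
  have g7 : (g2 - g1) / 2 ≤ 4 := by linarith
  have g0 : 0 ≤ (g2 - g1) / 2 := by linarith
  have mk3 : (g2 - g1) / 2 * ∫ v in Ioo (0 : ℝ) p.x, p.cg F v * p.q F 𝔹 v ^ 2 ≤ 4 * (F.cb * F.c1 * |C| ^ 2 * (p.x ^ (-ε) * p.R8 F)) :=
    mul_le_mul g7 mk2 mk0 (by norm_num)
  have hx4 : 0 ≤ p.x ^ (4 + cG) := (Real.rpow_pos_of_pos (bt_x_pos hp) _).le
  have hY : 0 ≤ p.x ^ (-ε) * p.R8 F := le_trans hR8 t2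
  have same1 : 𝔹.fspin (p.wG0 g1).a ((p.wG0 g1).K F 𝔹) = 𝔹.fspin p.a (p.K F 𝔹) := rfl
  have same2 : 𝔹.fspin (p.wG0 g2).a ((p.wG0 g2).K F 𝔹) = 𝔹.fspin p.a (p.K F 𝔹) := rfl
  have samex : (p.wG0 g1).x = p.x := rfl
  rw [same1, samex] at l1
  rw [same2] at u2
  rw [d, bt_Bcal_eq]
  nlinarith

/-- the same on the smoothed paths, by (P11) -/
theorem bt_glob_sm (h3 : LlSec3 𝔹 F) (hEn : BtEnd 𝔹 F) (hS : BtSys 𝔹) (hSite : BtSite 𝔹) (hs : 1 / 4 ≤ F.sS) (he : F.eta ≤ 1 / 8) {cG : ℝ} (hG1 : BtG1 𝔹 F cG) :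
    ∀ ε > (0 : ℝ), ∃ C : ℝ, LlUnif F fun p => p.sm = true → p.chiL = 1 → ∀ m : ℕ, p.N ≤ 2 * m → m ≤ 3 * p.N → ∀ g1 g2 : ℝ, -3 ≤ g1 → g1 ≤ g2 → g2 ≤ 4 →
      (p.wG0 g2).fRest F 𝔹 m - (p.wG0 g1).fRest F 𝔹 m ≤ C * (p.Bcal F cG ε + p.x ^ (5 + 1 / 8 : ℝ)) := by
  intro ε hε
  obtain ⟨C, hC⟩ := bt_glob_dir h3 hEn hS hSite hs he hG1 ε hε
  obtain ⟨C11, h11⟩ := h3.p11
  refine ⟨|C| + 2 * |C11|, bt_unif_mono (bt_unif_and (bt_unif_dir hC) h11) ?_⟩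
  rintro p hp ⟨hd, h11p⟩ hsm hchi m hm1 hm2 g1 g2 hg1 hg12 hg2
  obtain ⟨κ, hκ⟩ := h11p hsm hchi
  have m1 : g1 ∈ Icc (-4 : ℝ) 4 := ⟨by linarith, by linarith⟩
  have m2 : g2 ∈ Icc (-4 : ℝ) 4 := ⟨by linarith, by linarith⟩
  have hx := bt_x_pos hp
  have hs' : p.x / 2 ∈ Ioo 0 p.x := ⟨by linarith, by linarith⟩
  have a1 := (abs_le.1 (hκ g1 m1 p.gu hp.gu m hm1 hm2 _ hs').2.1).1
  have a2 := (abs_le.1 (hκ g2 m2 p.gu hp.gu m hm1 hm2 _ hs').2.1).2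
  have dd := hd rfl m hm1 hm2 g1 g2 hg1 hg12 hg2
  have hB : 0 ≤ p.Bcal F cG ε := by
    rw [bt_Bcal_eq]
    have := bt_R8_nonneg hp
    have := bt_xneg_ge hp hε
    have : 0 ≤ p.x ^ (4 + cG) := (Real.rpow_pos_of_pos hx _).le
    positivity
  have hx5 : 0 ≤ p.x ^ (5 + 1 / 8 : ℝ) := (Real.rpow_pos_of_pos hx _).le
  have e1 : C * p.Bcal F cG ε ≤ |C| * p.Bcal F cG ε := mul_le_mul_of_nonneg_right (le_abs_self _) hB
  have e2 : C11 * p.x ^ (5 + 1 / 8 : ℝ) ≤ |C11| * p.x ^ (5 + 1 / 8 : ℝ) := mul_le_mul_of_nonneg_right (le_abs_self _) hx5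
  have e3 : 0 ≤ |C| * p.x ^ (5 + 1 / 8 : ℝ) := by positivity
  have e4 : 0 ≤ |C11| * p.Bcal F cG ε := by positivity
  have dd' : (({ p with sm := false } : LlPt).wG0 g2).fRest F 𝔹 m - (({ p with sm := false } : LlPt).wG0 g1).fRest F 𝔹 m ≤ C * p.Bcal F cG ε := dd
  have a1' : -(C11 * p.x ^ (5 + 1 / 8 : ℝ)) ≤ (p.wG0 g1).fRest F 𝔹 m - (({ p with sm := false } : LlPt).wG0 g1).fRest F 𝔹 m - κ := a1
  have a2' : (p.wG0 g2).fRest F 𝔹 m - (({ p with sm := false } : LlPt).wG0 g2).fRest F 𝔹 m - κ ≤ C11 * p.x ^ (5 + 1 / 8 : ℝ) := a2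
  nlinarith

/-- the trial gap on the direct paths -/
theorem bt_gap_dir (h3 : LlSec3 𝔹 F) (hEn : BtEnd 𝔹 F) (hS : BtSys 𝔹) (hSite : BtSite 𝔹) {cG : ℝ} (hG1 : BtG1 𝔹 F cG) :
    ∀ ε > (0 : ℝ), ∃ C : ℝ, LlUnif F fun p => p.sm = false → -3 ≤ p.gam0 → ∀ m : ℕ, p.N ≤ 2 * m → m ≤ 3 * p.N →
      0 ≤ p.trialGap F 𝔹 m ∧ p.trialGap F 𝔹 m ≤ C * p.Bcal F cG ε := by
  intro ε hε
  have hF := h3.ok
  obtain ⟨c, C, hc0, hbd⟩ := bt_bd h3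
  obtain ⟨C8, hC8, h8⟩ := bt_p8 h3 ε hε
  have hKhi : 0 < btKhi F := by
    unfold btKhi
    have := hF.cb0; have := hF.c10
    have : (0 : ℝ) < max 65 (F.G1 2 + 1) := lt_of_lt_of_le (by norm_num) (le_max_left _ _)
    positivity
  have hlam := bt_unif_lam (F := F) hF (δ := c / (btKhi F * 17)) (by positivity)
  refine ⟨1 + C8, bt_unif_mono (bt_unif_and (bt_clk h3 hEn) (bt_unif_and (bt_R h3 hEn hS hSite hG1) (bt_unif_and h8 (bt_unif_and hbd hlam)))) ?_⟩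
  rintro p hp ⟨hc, hR, h8p, hb, hl⟩ hsm hg m hm1 hm2
  have hm := bt_m_pos hp hm1
  refine ⟨bt_gap_nonneg hS hSite hc0 hp hc hb hm, ?_⟩
  have h2 : btKhi F * p.lam * 17 ≤ c := by
    rw [le_div_iff₀ (by positivity)] at hl
    linarith
  have h3' := bt_dbb_le hF hc0 hp hc hb h2
  have l1 := (hR hsm hg m hm1 hm2).1
  rw [bt_gap_eq hc0 hp hc hb m, bt_Bcal_eq]
  have hx4 : 0 ≤ p.x ^ (4 + cG) := (Real.rpow_pos_of_pos (bt_x_pos hp) _).le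
  have hY : 0 ≤ p.x ^ (-ε) * p.R8 F := mul_nonneg (zero_le_one.trans (bt_xneg_ge hp hε)) (bt_R8_nonneg hp)
  nlinarith

/-- the trial gap on the smoothed paths -/
theorem bt_gap_sm (h3 : LlSec3 𝔹 F) (hEn : BtEnd 𝔹 F) (hS : BtSys 𝔹) (hSite : BtSite 𝔹) {cG : ℝ} (hG1 : BtG1 𝔹 F cG) :
    ∀ ε > (0 : ℝ), ∃ C : ℝ, LlUnif F fun p => p.sm = true → p.chiL = 1 → -3 ≤ p.gam0 → ∀ m : ℕ, p.N ≤ 2 * m → m ≤ 3 * p.N →
      0 ≤ p.trialGap F 𝔹 m ∧ p.trialGap F 𝔹 m ≤ C * (p.Bcal F cG ε + p.x ^ (5 + 1 / 8 : ℝ)) := by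
  intro ε hε
  obtain ⟨c, C0, hc0, hbd⟩ := bt_bd h3
  obtain ⟨C, hC⟩ := bt_gap_dir h3 hEn hS hSite hG1 ε hε
  obtain ⟨C11, h11⟩ := h3.p11
  refine ⟨|C| + |C11|, bt_unif_mono (bt_unif_and (bt_unif_dir hC) (bt_unif_and h11 (bt_unif_and (bt_clk h3 hEn) hbd))) ?_⟩
  rintro p hp ⟨hd, h11p, hc, hb⟩ hsm hchi hg m hm1 hm2
  have hm := bt_m_pos hp hm1
  refine ⟨bt_gap_nonneg hS hSite hc0 hp hc hb hm, ?_⟩
  obtain ⟨κ, hκ⟩ := h11p hsm hchi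
  have hx := bt_x_pos hp
  have hs' : p.x / 2 ∈ Ioo 0 p.x := ⟨by linarith, by linarith⟩
  have a2 := (abs_le.1 (hκ p.gam0 hp.g0 p.gu hp.gu m hm1 hm2 _ hs').2.2).2
  have dd := (hd rfl hg m hm1 hm2).2
  have hB : 0 ≤ p.Bcal F cG ε := by
    rw [bt_Bcal_eq]
    have := bt_R8_nonneg hp
    have := bt_xneg_ge hp hε
    have : 0 ≤ p.x ^ (4 + cG) := (Real.rpow_pos_of_pos hx _).le
    positivity
  have hx5 : 0 ≤ p.x ^ (5 + 1 / 8 : ℝ) := (Real.rpow_pos_of_pos hx _).le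
  have e1 : C * p.Bcal F cG ε ≤ |C| * p.Bcal F cG ε := mul_le_mul_of_nonneg_right (le_abs_self _) hB
  have e2 : C11 * p.x ^ (5 + 1 / 8 : ℝ) ≤ |C11| * p.x ^ (5 + 1 / 8 : ℝ) := mul_le_mul_of_nonneg_right (le_abs_self _) hx5
  have e3 : 0 ≤ |C| * p.x ^ (5 + 1 / 8 : ℝ) := by positivity
  have e4 : 0 ≤ |C11| * p.Bcal F cG ε := by positivity
  have dd' : ({ p with sm := false } : LlPt).trialGap F 𝔹 m ≤ C * p.Bcal F cG ε := dd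
  have a2' : p.trialGap F 𝔹 m - ({ p with sm := false } : LlPt).trialGap F 𝔹 m ≤ C11 * p.x ^ (5 + 1 / 8 : ℝ) := a2
  nlinarith

/-! ## 4. Continuity in the parameters -/

open Classical in
/-- only finitely many dyads matter -/
theorem bt_wA_tendsto_dy {p : LlPt} (hp : p.Ok F) : ∃ n : ℕ, ∀ (g : ℝ) (G : ℕ → ℝ) (v : ℝ),
    ({ p with gam0 := g, gu := G } : LlPt).dySum F v
      = ∑ h ∈ Finset.range n, if p.IsDy F h then G h * ((2 : ℝ)⁻¹ ^ h) ^ 2 * F.phi (v / (2 : ℝ)⁻¹ ^ h) else 0 := by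
  have hx0 : 0 < p.x := bt_x_pos hp
  obtain ⟨n, hn⟩ := exists_pow_lt_of_lt_one (show (0 : ℝ) < 16 * p.x by positivity) (show (2 : ℝ)⁻¹ < 1 by norm_num)
  refine ⟨n, fun g G v => ?_⟩
  unfold LlPt.dySum
  refine finsum_eq_sum_of_support_subset _ fun h hh => ?_
  rw [Finset.coe_range, mem_Iio]
  by_contra hcon
  rw [not_lt] at hcon
  apply hh
  have hnd : ¬ p.IsDy F h := by
    intro hd
    have h1 : (2 : ℝ)⁻¹ ^ h ≤ (2 : ℝ)⁻¹ ^ n := pow_le_pow_of_le_one (by norm_num) (by norm_num) hcon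
    linarith [hd.1]
  exact if_neg hnd

/-- the matrix clock is Lipschitz in the parameters, uniformly in the mass -/
theorem bt_wA_tendsto_b (hF : F.Ok) {p : LlPt} (hp : p.Ok F) : ∃ (M : ℝ) (n : ℕ), 0 ≤ M ∧ ∀ (g : ℝ) (G : ℕ → ℝ), ∀ v ∈ Ioo 0 p.a,
    |({ p with gam0 := g, gu := G } : LlPt).b F 𝔹 v - p.b F 𝔹 v| ≤ M * (|g - p.gam0| + ∑ h ∈ Finset.range n, |G h - p.gu h|) := by
  classical
  obtain ⟨n, hn⟩ := bt_wA_tendsto_dy hp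
  obtain ⟨-, Cφ, -, -, hφ⟩ := bt_phi_bds hF
  have hC0 : 0 ≤ Cφ := (hF.phi_nn 0).trans (hφ 0)
  have hl0 : 0 < p.lam := bt_lam_pos hp
  have hK : 0 ≤ btKhi F * p.lam := by
    refine mul_nonneg ?_ hl0.le
    unfold btKhi
    exact mul_nonneg (mul_nonneg hF.cb0.le hF.c10.le) (le_trans (by norm_num) (le_max_left _ _))
  have hk2 : 0 ≤ F.cb * p.lam * F.c1 := mul_nonneg (mul_nonneg hF.cb0.le hl0.le) hF.c10.le
  refine ⟨btKhi F * p.lam * 17 + F.cb * p.lam * F.c1 * Cφ, n, by positivity, fun g G v hv => ?_⟩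
  have e1 : ({ p with gam0 := g, gu := G } : LlPt).b F 𝔹 v - p.b F 𝔹 v
      = -((g - p.gam0) * p.cg F v) - F.cb * p.lam * F.c1 * (({ p with gam0 := g, gu := G } : LlPt).dySum F v - p.dySum F v) := by
    have hb' : ({ p with gam0 := g, gu := G } : LlPt).b F 𝔹 v = p.b0 F 𝔹 + F.cb * p.lam * (p.G F v - p.U F ^ 2 - F.c1 * g * (p.G F v + p.U F ^ 2)
        - F.c1 * ({ p with gam0 := g, gu := G } : LlPt).dySum F v) := rfl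
    rw [hb']
    unfold LlPt.b LlPt.cg
    ring
  have e2 : ({ p with gam0 := g, gu := G } : LlPt).dySum F v - p.dySum F v
      = ∑ h ∈ Finset.range n, if p.IsDy F h then (G h - p.gu h) * ((2 : ℝ)⁻¹ ^ h) ^ 2 * F.phi (v / (2 : ℝ)⁻¹ ^ h) else 0 := by
    have h0 : p.dySum F v = _ := hn p.gam0 p.gu v
    rw [hn g G v, h0, ← Finset.sum_sub_distrib]
    refine Finset.sum_congr rfl fun h _ => ?_
    split_ifs
    · ring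
    · ring
  have b2 : |({ p with gam0 := g, gu := G } : LlPt).dySum F v - p.dySum F v| ≤ Cφ * ∑ h ∈ Finset.range n, |G h - p.gu h| := by
    rw [e2, Finset.mul_sum]
    refine (Finset.abs_sum_le_sum_abs _ _).trans (Finset.sum_le_sum fun h _ => ?_)
    split_ifs
    · rw [abs_mul, abs_mul, abs_of_nonneg (hF.phi_nn _), abs_of_nonneg (sq_nonneg ((2 : ℝ)⁻¹ ^ h))]
      have hu : ((2 : ℝ)⁻¹ ^ h) ^ 2 ≤ 1 := pow_le_one₀ (by positivity) (pow_le_one₀ (by norm_num) (by norm_num))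
      calc |G h - p.gu h| * ((2 : ℝ)⁻¹ ^ h) ^ 2 * F.phi (v / (2 : ℝ)⁻¹ ^ h) ≤ |G h - p.gu h| * 1 * Cφ :=
            mul_le_mul (mul_le_mul_of_nonneg_left hu (abs_nonneg _)) (hφ _) (hF.phi_nn _) (by positivity)
        _ = Cφ * |G h - p.gu h| := by ring
    · rw [abs_zero]; exact mul_nonneg hC0 (abs_nonneg _)
  have b1 : |p.cg F v| ≤ btKhi F * p.lam * 17 := by
    rw [abs_of_pos (bt_cg_pos hF hp hv)]
    refine (bt_cg_hi hF hp hv).trans (mul_le_mul_of_nonneg_left ?_ hK)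
    have hv4 : v ≤ 4 := hv.2.le.trans (bt_a_le hp)
    have hU1 : p.U F ≤ 1 := bt_U_le_one p
    have hU0 : 0 < p.U F := bt_U_pos hp
    nlinarith [hv.1]
  have hS0 : 0 ≤ ∑ h ∈ Finset.range n, |G h - p.gu h| := Finset.sum_nonneg fun _ _ => abs_nonneg _
  rw [e1]
  calc |-((g - p.gam0) * p.cg F v) - F.cb * p.lam * F.c1 * (({ p with gam0 := g, gu := G } : LlPt).dySum F v - p.dySum F v)|
      ≤ |-((g - p.gam0) * p.cg F v)| + |F.cb * p.lam * F.c1 * (({ p with gam0 := g, gu := G } : LlPt).dySum F v - p.dySum F v)| := abs_sub _ _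
    _ = |g - p.gam0| * |p.cg F v| + F.cb * p.lam * F.c1 * |({ p with gam0 := g, gu := G } : LlPt).dySum F v - p.dySum F v| := by
        rw [abs_neg, abs_mul, abs_mul, abs_of_nonneg hk2]
    _ ≤ |g - p.gam0| * (btKhi F * p.lam * 17) + F.cb * p.lam * F.c1 * (Cφ * ∑ h ∈ Finset.range n, |G h - p.gu h|) :=
        add_le_add (mul_le_mul_of_nonneg_left b1 (abs_nonneg _)) (mul_le_mul_of_nonneg_left b2 hk2)
    _ ≤ (btKhi F * p.lam * 17 + F.cb * p.lam * F.c1 * Cφ) * (|g - p.gam0| + ∑ h ∈ Finset.range n, |G h - p.gu h|) := by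
        have t1 : 0 ≤ F.cb * p.lam * F.c1 * Cφ * |g - p.gam0| := mul_nonneg (mul_nonneg hk2 hC0) (abs_nonneg _)
        have t2 : 0 ≤ btKhi F * p.lam * 17 * ∑ h ∈ Finset.range n, |G h - p.gu h| := mul_nonneg (by positivity) hS0
        nlinarith

/-- the field clock follows -/
theorem bt_wA_tendsto_h (p : LlPt) (g : ℝ) (G : ℕ → ℝ) (v : ℝ) :
    ({ p with gam0 := g, gu := G } : LlPt).h F 𝔹 v - p.h F 𝔹 v
      = if v < p.x then 0 else -((({ p with gam0 := g, gu := G } : LlPt).b F 𝔹 v - p.b F 𝔹 v) * p.q F 𝔹 v) := by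
  have hh' : ({ p with gam0 := g, gu := G } : LlPt).h F 𝔹 v
      = if v < p.x then 0 else (p.K F 𝔹 v - ({ p with gam0 := g, gu := G } : LlPt).b F 𝔹 v * p.q F 𝔹 v) + p.Hlo F v + p.chiL * p.Hlin F v + p.chiE * p.He F 𝔹 v := rfl
  rw [hh']
  unfold LlPt.h LlPt.hS
  split_ifs
  · ring
  · ring

theorem bt_wA_tendsto_hb {p : LlPt} (hc : BtClkAt 𝔹 F p) (g : ℝ) (G : ℕ → ℝ) {v : ℝ} (hv : v ∈ Ioo 0 p.a) :
    |({ p with gam0 := g, gu := G } : LlPt).h F 𝔹 v - p.h F 𝔹 v| ≤ |({ p with gam0 := g, gu := G } : LlPt).b F 𝔹 v - p.b F 𝔹 v| := by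
  rw [bt_wA_tendsto_h]
  split_ifs
  · rw [abs_zero]; exact abs_nonneg _
  · rw [abs_neg, abs_mul]
    exact mul_le_of_le_one_right (abs_nonneg _) (bt_int_bq_q1 hc v hv)

/-- the modulus tends to `0` -/
theorem bt_wA_tendsto_eps {g0 : ℝ} {G0 : ℕ → ℝ} {g : ℕ → ℝ} {G : ℕ → ℕ → ℝ}
    (hg : Tendsto g atTop (𝓝 g0)) (hG : ∀ h, Tendsto (fun k => G k h) atTop (𝓝 (G0 h))) (M : ℝ) (n : ℕ) :
    Tendsto (fun k => M * (|g k - g0| + ∑ h ∈ Finset.range n, |G k h - G0 h|)) atTop (𝓝 0) := by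
  have h1 : Tendsto (fun k => |g k - g0|) atTop (𝓝 0) := by
    have := (hg.sub_const g0).abs
    simpa using this
  have h2 : Tendsto (fun k => ∑ h ∈ Finset.range n, |G k h - G0 h|) atTop (𝓝 (∑ _h ∈ Finset.range n, (0 : ℝ))) := by
    refine tendsto_finsetSum _ fun h _ => ?_
    have := ((hG h).sub_const (G0 h)).abs
    simpa using this
  have := (h1.add h2).const_mul M
  simpa using this

/-- uniform convergence from a modulus -/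
theorem bt_wA_tendsto_unif {s : Set ℝ} {fk : ℕ → ℝ → ℝ} {f : ℝ → ℝ} {e : ℕ → ℝ} (he : Tendsto e atTop (𝓝 0))
    (h : ∀ k, ∀ v ∈ s, |fk k v - f v| ≤ e k) : TendstoUniformlyOn fk f atTop s := by
  rw [Metric.tendstoUniformlyOn_iff]
  intro ε hε
  filter_upwards [he.eventually (gt_mem_nhds hε)] with k hk v hv
  rw [Real.dist_eq, abs_sub_comm]
  exact (h k v hv).trans_lt hk

/-- weighted second moments about `q` are continuous for the uniform convergence of the clocks -/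
theorem bt_wA_tendsto_P (P : PSys) {bk hk : ℕ → ℝ → ℝ} {b h q φ : ℝ → ℝ} (h1 : ∀ k, IsClock P.a (bk k)) (h2 : ∀ k, IsClock P.a (hk k))
    (h3 : IsClock P.a b) (h4 : IsClock P.a h) (ub : TendstoUniformlyOn bk b atTop (Ioo 0 P.a)) (uh : TendstoUniformlyOn hk h atTop (Ioo 0 P.a))
    (qm : MonotoneOn q (Ioo 0 P.a)) (qb : ∀ v ∈ Ioo 0 P.a, q v ∈ Icc (0 : ℝ) 1) (hφ : IntegrableOn φ (Ioo 0 P.a)) :
    Tendsto (fun k => ∫ v in Ioo 0 P.a, φ v * P.Aq q (bk k) (hk k) v) atTop (𝓝 (∫ v in Ioo 0 P.a, φ v * P.Aq q b h v)) := by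
  have qb1 : ∀ v ∈ Ioo 0 P.a, |q v| ≤ 1 := fun v hv => by rw [abs_of_nonneg (qb v hv).1]; exact (qb v hv).2
  have iq : IntegrableOn (fun v => q v * φ v) (Ioo 0 P.a) := bud_integrableOn_mul (C := 1) qm qb1 hφ
  have iq2 : IntegrableOn (fun v => q v * (q v * φ v)) (Ioo 0 P.a) := bud_integrableOn_mul (C := 1) qm qb1 iq
  have e : ∀ b' h' : ℝ → ℝ, IsClock P.a b' → IsClock P.a h' → ∫ v in Ioo 0 P.a, φ v * P.Aq q b' h' v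
      = 1 * (∫ v in Ioo 0 P.a, P.B b' h' v * φ v) - 2 * (∫ v in Ioo 0 P.a, P.S b' h' v * (q v * φ v)) + 1 * ∫ v in Ioo 0 P.a, q v * (q v * φ v) := by
    intro b' h' hb' hh'
    rw [← bud_int3 _ _ _ (P.integrableOn_B_mul hb' hh' hφ) (P.integrableOn_S_mul hb' hh' iq) iq2]
    refine integral_congr_ae (Eventually.of_forall fun v => ?_)
    simp only [PSys.Aq]
    ring
  simp only [e _ _ (h1 _) (h2 _)]
  rw [e _ _ h3 h4]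
  exact (((P.cont_B bk hk b h h1 h2 h3 h4 ub uh φ hφ).const_mul 1).sub ((P.cont_S bk hk b h h1 h2 h3 h4 ub uh _ iq).const_mul 2)).add_const _

/-- **sequential continuity in `γ`** of the weighted second moments (`PSys.cont_S`, `cont_B`; the clocks are affine in `γ`, only finitely many `γ_u` matter) -/
theorem bt_wA_tendsto (hF : F.Ok) (hS : BtSys 𝔹) {p : LlPt} (hp : p.Ok F) {g : ℕ → ℝ} {G : ℕ → ℕ → ℝ}
    (hg : Tendsto g atTop (𝓝 p.gam0)) (hG : ∀ h, Tendsto (fun k => G k h) atTop (𝓝 (p.gu h)))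
    (hc : BtClkAt 𝔹 F p) (hck : ∀ k, BtClkAt 𝔹 F { p with gam0 := g k, gu := G k }) {m : ℕ} (hm : 1 ≤ m)
    {φ : ℝ → ℝ} (hφ : IntegrableOn φ (Ioo 0 p.a)) :
    Tendsto (fun k => ({ p with gam0 := g k, gu := G k } : LlPt).wA F 𝔹 m φ) atTop (𝓝 (p.wA F 𝔹 m φ)) := by
  obtain ⟨P, hPa, hP⟩ := hS m p.a hm (lt_of_lt_of_le one_pos (bt_a_ge_one hp))
  obtain ⟨M, n, -, hM⟩ := bt_wA_tendsto_b (𝔹 := 𝔹) hF hp
  have he := bt_wA_tendsto_eps hg hG M n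
  have e : ∀ p' : LlPt, p'.a = p.a → p'.q F 𝔹 = p.q F 𝔹 → BtClkAt 𝔹 F p' →
      p'.wA F 𝔹 m φ = ∫ v in Ioo 0 P.a, φ v * P.Aq (p.q F 𝔹) (p'.b F 𝔹) (p'.h F 𝔹) v := by
    intro p' ha hq hc'
    unfold LlPt.wA
    rw [hPa, ha]
    refine setIntegral_congr_fun measurableSet_Ioo fun v hv => ?_
    obtain ⟨-, h2⟩ := hP _ _ (ha ▸ hc'.b) (ha ▸ hc'.h) (ha ▸ hc'.bE) (ha ▸ hc'.hE)
    obtain ⟨e1, e2⟩ := h2 v hv
    simp only [PSys.Aq, e1, e2, LlPt.Aerr, LlPt.B, LlPt.S, ha, hq]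
  have ek : ∀ k, ({ p with gam0 := g k, gu := G k } : LlPt).wA F 𝔹 m φ
      = ∫ v in Ioo 0 P.a, φ v * P.Aq (p.q F 𝔹) (({ p with gam0 := g k, gu := G k } : LlPt).b F 𝔹) (({ p with gam0 := g k, gu := G k } : LlPt).h F 𝔹) v :=
    fun k => e _ rfl rfl (hck k)
  simp only [ek]
  rw [e p rfl rfl hc]
  refine bt_wA_tendsto_P P (fun k => hPa ▸ (hck k).b) (fun k => hPa ▸ (hck k).h) (hPa ▸ hc.b) (hPa ▸ hc.h) ?_ ?_
    (hPa ▸ hc.q_mono) (hPa ▸ hc.q_mem) (hPa ▸ hφ)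
  · rw [hPa]
    exact bt_wA_tendsto_unif he fun k v hv => hM (g k) (G k) v hv
  · rw [hPa]
    exact bt_wA_tendsto_unif he fun k v hv => (bt_wA_tendsto_hb hc (g k) (G k) hv).trans (hM (g k) (G k) v hv)

/-- continuity in `γ` on the segments -/
theorem bt_wA_cont (h3 : LlSec3 𝔹 F) (hEn : BtEnd 𝔹 F) (hS : BtSys 𝔹) (hpS : F.pS ≤ 12) : ∃ N0 : ℕ, ∀ N : ℕ, N0 ≤ N → ∀ (ell lam chiL chiE : ℝ) (sm : Bool),
    BtSeg F N ell lam chiL chiE sm → ∀ m : ℕ, 1 ≤ m → ∀ φ : ℝ → ℝ, IntegrableOn φ (Ioo 0 (ll04Pt N ell lam chiL chiE sm 0).a) →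
      Continuous fun γ : Fin (N + 1) → ℝ => (ll04Pt N ell lam chiL chiE sm γ).wA F 𝔹 m φ := by
  obtain ⟨N0, hN0⟩ := bt_clk h3 hEn
  refine ⟨max N0 2, fun N hN ell lam chiL chiE sm hseg m hm φ hφ => ?_⟩
  have hok : ∀ γ, (ll04Pt N ell lam chiL chiE sm γ).Ok F := bt_ok_seg h3.ok hpS ((le_max_right _ _).trans hN) hseg
  have hcl : ∀ γ, BtClkAt 𝔹 F (ll04Pt N ell lam chiL chiE sm γ) := fun γ => hN0 _ (hok γ) ((le_max_left _ _).trans hN)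
  rw [continuous_iff_seqContinuous]
  intro x γ hx
  have hxi : ∀ i, Tendsto (fun k => ll04Cl (x k i)) atTop (𝓝 (ll04Cl (γ i))) := fun i =>
    (bt_cl_cont.tendsto _).comp (tendsto_pi_nhds.1 hx i)
  refine bt_wA_tendsto h3.ok hS (p := ll04Pt N ell lam chiL chiE sm γ) (hok γ) (g := fun k => ll04Cl (x k 0))
    (G := fun k h => if hh : h < N then ll04Cl (x k ⟨h + 1, Nat.succ_lt_succ hh⟩) else 1 / 2) (hxi 0) (fun h => ?_) (hcl γ) (fun k => hcl (x k)) hm hφ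
  show Tendsto _ _ (𝓝 (if hh : h < N then ll04Cl (γ ⟨h + 1, Nat.succ_lt_succ hh⟩) else 1 / 2))
  by_cases hh : h < N
  · simp only [dif_pos hh]
    exact hxi _
  · simp only [dif_neg hh]
    exact tendsto_const_nhds

/-- sequences in the square -/
theorem bt_wA_cont2_seq {Φ : LlPt → ℝ} {p : LlPt} (hd : ℕ)
    (h : ∀ (y : ℝ × ℝ), y ∈ Icc (-4 : ℝ) 4 ×ˢ Icc (-4 : ℝ) 4 → ∀ (g : ℕ → ℝ) (G : ℕ → ℕ → ℝ), Tendsto g atTop (𝓝 (p.loc hd y.1 y.2).gam0) →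
      (∀ h, Tendsto (fun k => G k h) atTop (𝓝 ((p.loc hd y.1 y.2).gu h))) →
      (∀ k, ∃ z ∈ Icc (-4 : ℝ) 4 ×ˢ Icc (-4 : ℝ) 4, ({ p.loc hd y.1 y.2 with gam0 := g k, gu := G k } : LlPt) = p.loc hd z.1 z.2) →
      Tendsto (fun k => Φ { p.loc hd y.1 y.2 with gam0 := g k, gu := G k }) atTop (𝓝 (Φ (p.loc hd y.1 y.2)))) :
    ContinuousOn (fun y : ℝ × ℝ => Φ (p.loc hd y.1 y.2)) (Icc (-4 : ℝ) 4 ×ˢ Icc (-4 : ℝ) 4) := by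
  rw [continuousOn_iff_continuous_domRestrict, continuous_iff_seqContinuous]
  intro x y hx
  have hx' : Tendsto (fun k => (x k : ℝ × ℝ)) atTop (𝓝 (y : ℝ × ℝ)) := (continuous_subtype_val.tendsto y).comp hx
  have h1 : Tendsto (fun k => (x k : ℝ × ℝ).1) atTop (𝓝 (y : ℝ × ℝ).1) := (continuous_fst.tendsto _).comp hx'
  have h2 : Tendsto (fun k => (x k : ℝ × ℝ).2) atTop (𝓝 (y : ℝ × ℝ).2) := (continuous_snd.tendsto _).comp hx'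
  refine h y y.2 (fun k => (x k : ℝ × ℝ).1) (fun k => Function.update p.gu hd (x k : ℝ × ℝ).2) h1 (fun h => ?_) (fun k => ⟨x k, (x k).2, rfl⟩)
  show Tendsto _ _ (𝓝 (Function.update p.gu hd (y : ℝ × ℝ).2 h))
  by_cases hh : h = hd
  · subst hh
    simpa only [Function.update_self] using h2
  · simp only [Function.update_of_ne hh]
    exact tendsto_const_nhds

/-- continuity in `(γ_0, γ_u)` -/
theorem bt_wA_cont2 (h3 : LlSec3 𝔹 F) (hEn : BtEnd 𝔹 F) (hS : BtSys 𝔹) : LlUnif F fun p => ∀ (hd m : ℕ), 1 ≤ m → ∀ φ : ℝ → ℝ, IntegrableOn φ (Ioo 0 p.a) →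
    ContinuousOn (fun y : ℝ × ℝ => (p.loc hd y.1 y.2).wA F 𝔹 m φ) (Icc (-4 : ℝ) 4 ×ˢ Icc (-4 : ℝ) 4) := by
  obtain ⟨N0, hN0⟩ := bt_clk h3 hEn
  refine ⟨N0, fun p hp hN hd m hm φ hφ => ?_⟩
  have hok : ∀ y ∈ Icc (-4 : ℝ) 4 ×ˢ Icc (-4 : ℝ) 4, (p.loc hd y.1 y.2).Ok F := fun y hy => bt_ok_loc hp hd hy.1 hy.2
  have hcl : ∀ y ∈ Icc (-4 : ℝ) 4 ×ˢ Icc (-4 : ℝ) 4, BtClkAt 𝔹 F (p.loc hd y.1 y.2) := fun y hy => hN0 _ (hok y hy) hN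
  refine bt_wA_cont2_seq (Φ := fun p' => p'.wA F 𝔹 m φ) hd fun y hy g G hg hG hz => ?_
  refine bt_wA_tendsto h3.ok hS (hok y hy) hg hG (hcl y hy) (fun k => ?_) hm hφ
  obtain ⟨z, hz1, hz2⟩ := hz k
  rw [hz2]
  exact hcl z hz1

/-- sequential continuity of the restored pressure -/
theorem bt_fRest_cont2_seq (hF : F.Ok) (hS : BtSys 𝔹) {p : LlPt} (hp : p.Ok F) {g : ℕ → ℝ} {G : ℕ → ℕ → ℝ}
    (hg : Tendsto g atTop (𝓝 p.gam0)) (hG : ∀ h, Tendsto (fun k => G k h) atTop (𝓝 (p.gu h)))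
    (hc : BtClkAt 𝔹 F p) (hck : ∀ k, BtClkAt 𝔹 F { p with gam0 := g k, gu := G k }) {m : ℕ} (hm : 1 ≤ m) :
    Tendsto (fun k => ({ p with gam0 := g k, gu := G k } : LlPt).fRest F 𝔹 m) atTop (𝓝 (p.fRest F 𝔹 m)) := by
  have ha0 : 0 ≤ p.a := le_trans zero_le_one (bt_a_ge_one hp)
  obtain ⟨P, hPa, hP⟩ := hS m p.a hm (lt_of_lt_of_le one_pos (bt_a_ge_one hp))
  obtain ⟨M, n, -, hM⟩ := bt_wA_tendsto_b (𝔹 := 𝔹) hF hp
  have he := bt_wA_tendsto_eps hg hG M n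
  set e : ℕ → ℝ := fun k => M * (|g k - p.gam0| + ∑ h ∈ Finset.range n, |G k h - p.gu h|) with he_def
  -- integrals of functions bounded by `e k`
  have hint : ∀ (k : ℕ) (f : ℝ → ℝ), IntegrableOn f (Ioo 0 p.a) → (∀ v ∈ Ioo 0 p.a, |f v| ≤ e k) → ∫ v in Ioo 0 p.a, |f v| ≤ p.a * e k := by
    intro k f hf hb
    have h1 : ∫ v in Ioo 0 p.a, |f v| ≤ ∫ _v in Ioo 0 p.a, e k :=
      setIntegral_mono_on hf.abs (integrableOn_const measure_Ioo_lt_top.ne) measurableSet_Ioo hb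
    refine h1.trans (le_of_eq ?_)
    rw [setIntegral_const, measureReal_def, Real.volume_Ioo, ENNReal.toReal_ofReal (by linarith), smul_eq_mul, sub_zero]
  have hbound : ∀ k, |({ p with gam0 := g k, gu := G k } : LlPt).fRest F 𝔹 m - p.fRest F 𝔹 m| ≤ p.a * e k := by
    intro k
    set p' : LlPt := { p with gam0 := g k, gu := G k } with hp'
    have cb' : IsClock p.a (p'.b F 𝔹) := (hck k).b
    have ch' : IsClock p.a (p'.h F 𝔹) := (hck k).h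
    have f1 : P.f (p'.b F 𝔹) (p'.h F 𝔹) = p'.f0 F 𝔹 m := (hP _ _ cb' ch' (hck k).bE (hck k).hE).1
    have f0 : P.f (p.b F 𝔹) (p.h F 𝔹) = p.f0 F 𝔹 m := (hP _ _ hc.b hc.h hc.bE hc.hE).1
    have hl := bud_lipL1 P (p.b F 𝔹) (p.h F 𝔹) (p'.b F 𝔹) (p'.h F 𝔹) (hPa ▸ hc.b) (hPa ▸ hc.h) (hPa ▸ cb') (hPa ▸ ch')
    rw [f1, f0, hPa] at hl
    have i1 := hint k (fun v => p'.b F 𝔹 v - p.b F 𝔹 v) (cb'.sub_integrableOn hc.b) (fun v hv => hM (g k) (G k) v hv)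
    have i2 := hint k (fun v => p'.h F 𝔹 v - p.h F 𝔹 v) (ch'.sub_integrableOn hc.h)
      (fun v hv => (bt_wA_tendsto_hb hc (g k) (G k) hv).trans (hM (g k) (G k) v hv))
    have ib' : IntegrableOn (fun v => p'.b F 𝔹 v * p.q F 𝔹 v ^ 2) (Ioo 0 p.a) := bt_int_bq (hck k)
    have ib : IntegrableOn (fun v => p.b F 𝔹 v * p.q F 𝔹 v ^ 2) (Ioo 0 p.a) := bt_int_bq hc
    have i3 : |(∫ v in Ioo 0 p.a, p'.b F 𝔹 v * p.q F 𝔹 v ^ 2) - ∫ v in Ioo 0 p.a, p.b F 𝔹 v * p.q F 𝔹 v ^ 2| ≤ p.a * e k := by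
      rw [← integral_sub ib' ib]
      refine (abs_integral_le_integral_abs).trans ?_
      refine hint k _ (ib'.sub ib) fun v hv => ?_
      rw [← sub_mul, abs_mul]
      exact (mul_le_of_le_one_right (abs_nonneg _) ((bt_int_bq_q2 hc).2 v hv)).trans (hM (g k) (G k) v hv)
    have r1 : p'.fRest F 𝔹 m = p'.f0 F 𝔹 m - (∫ v in Ioo 0 p.a, p'.b F 𝔹 v * p.q F 𝔹 v ^ 2) / 4 := by
      have : p'.fRest F 𝔹 m = p'.f0 F 𝔹 m - ∫ v in (0 : ℝ)..p.a, p'.b F 𝔹 v * p.q F 𝔹 v ^ 2 / 4 := rfl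
      rw [this, bt_ii ha0, integral_div]
    have r0 : p.fRest F 𝔹 m = p.f0 F 𝔹 m - (∫ v in Ioo 0 p.a, p.b F 𝔹 v * p.q F 𝔹 v ^ 2) / 4 := by
      unfold LlPt.fRest
      rw [bt_ii ha0, integral_div]
    rw [r1, r0]
    rw [abs_le] at hl i3 ⊢
    constructor <;> linarith [hl.1, hl.2, i3.1, i3.2]
  have hlim : Tendsto (fun k => p.a * e k) atTop (𝓝 0) := by simpa using he.const_mul p.a
  rw [tendsto_iff_dist_tendsto_zero]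
  refine squeeze_zero (fun _ => dist_nonneg) (fun k => ?_) hlim
  rw [Real.dist_eq]
  exact hbound k

/-- the restored pressure is continuous in `(γ_0, γ_u)` (`bud_lipL1`) -/
theorem bt_fRest_cont2 (h3 : LlSec3 𝔹 F) (hEn : BtEnd 𝔹 F) (hS : BtSys 𝔹) : LlUnif F fun p => ∀ (hd m : ℕ), 1 ≤ m →
    ContinuousOn (fun y : ℝ × ℝ => (p.loc hd y.1 y.2).fRest F 𝔹 m) (Icc (-4 : ℝ) 4 ×ˢ Icc (-4 : ℝ) 4) := by
  obtain ⟨N0, hN0⟩ := bt_clk h3 hEn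
  refine ⟨N0, fun p hp hN hd m hm => ?_⟩
  have hok : ∀ y ∈ Icc (-4 : ℝ) 4 ×ˢ Icc (-4 : ℝ) 4, (p.loc hd y.1 y.2).Ok F := fun y hy => bt_ok_loc hp hd hy.1 hy.2
  have hcl : ∀ y ∈ Icc (-4 : ℝ) 4 ×ˢ Icc (-4 : ℝ) 4, BtClkAt 𝔹 F (p.loc hd y.1 y.2) := fun y hy => hN0 _ (hok y hy) hN
  refine bt_wA_cont2_seq (Φ := fun p' => p'.fRest F 𝔹 m) hd fun y hy g G hg hG hz => ?_
  refine bt_fRest_cont2_seq h3.ok hS (hok y hy) hg hG (hcl y hy) (fun k => ?_) hm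
  obtain ⟨z, hz1, hz2⟩ := hz k
  rw [hz2]
  exact hcl z hz1

/-! ## 5. The global budget -/

theorem bt_loc_self (p : LlPt) (hd : ℕ) (g : ℝ) : p.loc hd g (p.gu hd) = p.wG0 g := by
  unfold LlPt.loc LlPt.wGu LlPt.wG0
  simp

/-- continuity in `γ_0` -/
theorem bt_wA_cont1 (h3 : LlSec3 𝔹 F) (hEn : BtEnd 𝔹 F) (hS : BtSys 𝔹) : LlUnif F fun p => ∀ m : ℕ, 1 ≤ m → ∀ φ : ℝ → ℝ, IntegrableOn φ (Ioo 0 p.a) →
    ContinuousOn (fun g : ℝ => (p.wG0 g).wA F 𝔹 m φ) (Icc (-4 : ℝ) 4) := by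
  refine bt_unif_mono (bt_wA_cont2 h3 hEn hS) fun p hp h m hm φ hφ => ?_
  have h1 := h 0 m hm φ hφ
  have h2 : ContinuousOn (fun g : ℝ => (g, p.gu 0)) (Icc (-4 : ℝ) 4) := (continuous_id.prodMk continuous_const).continuousOn
  have h3 := h1.comp h2 (fun g hg => ⟨hg, hp.gu 0⟩)
  refine h3.congr fun g _ => ?_
  show (p.wG0 g).wA F 𝔹 m φ = (p.loc 0 g (p.gu 0)).wA F 𝔹 m φ
  rw [bt_loc_self]

theorem bt_wA_smul (p : LlPt) (m : ℕ) (k : ℝ) (φ : ℝ → ℝ) : p.wA F 𝔹 m (fun v => k * φ v) = k * p.wA F 𝔹 m φ := by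
  unfold LlPt.wA
  rw [← integral_const_mul]
  refine integral_congr_ae (Eventually.of_forall fun v => ?_)
  show k * φ v * p.Aerr F 𝔹 m v = k * (φ v * p.Aerr F 𝔹 m v)
  ring

theorem bt_int_sq (a U : ℝ) : IntegrableOn (fun v : ℝ => v ^ 2 + U ^ 2) (Ioo 0 a) :=
  ((by fun_prop : Continuous fun v : ℝ => v ^ 2 + U ^ 2).integrableOn_Icc).mono_set Ioo_subset_Icc_self

theorem bt_int_cg (hF : F.Ok) {p : LlPt} (hp : p.Ok F) : IntegrableOn (p.cg F) (Ioo 0 p.a) := by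
  refine bt_int_bdd (C := btKhi F * p.lam * (16 + 1)) (bt_cg_meas hF p).aestronglyMeasurable fun v hv => ?_
  rw [abs_of_pos (bt_cg_pos hF hp hv)]
  refine (bt_cg_hi hF hp hv).trans ?_
  have hKhi : 0 < btKhi F := by
    unfold btKhi
    have := hF.cb0; have := hF.c10
    have : (0 : ℝ) < max 65 (F.G1 2 + 1) := lt_of_lt_of_le (by norm_num) (le_max_left _ _)
    positivity
  have h1 : v ^ 2 ≤ 16 := by nlinarith [hv.1, hv.2, bt_a_le hp]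
  have h2 : p.U F ^ 2 ≤ 1 := by nlinarith [bt_U_pos hp, bt_U_le_one (F := F) p]
  have := bt_lam_pos hp
  exact mul_le_mul_of_nonneg_left (by linarith) (by positivity)

/-- **l.62-66**: `∫ dγ_0 ∫ (v² + U²) A_v dv ≤ (4/(κ λ)) (fRest(2/3) - fRest(1/3))`, from (P10) and `c_g ≳ λ (v² + U²)` -/
theorem bt_avg_le (h3 : LlSec3 𝔹 F) (hEn : BtEnd 𝔹 F) (hS : BtSys 𝔹) : LlUnif F fun p => ∀ m : ℕ, p.N ≤ 2 * m → m ≤ 3 * p.N →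
    ∫ r in (1 / 3 : ℝ)..(2 / 3), (p.wG0 r).wA F 𝔹 m (fun v => v ^ 2 + p.U F ^ 2)
      ≤ 4 / (btKlo F * p.lam) * ((p.wG0 (2 / 3)).fRest F 𝔹 m - (p.wG0 (1 / 3)).fRest F 𝔹 m) := by
  have hF := h3.ok
  refine bt_unif_mono (bt_unif_and h3.p10 (bt_unif_and (bt_wA_cont1 h3 hEn hS) (bt_unif_wG0 (bt_clk h3 hEn)))) ?_
  rintro p hp ⟨h10, hcont, hclk⟩ m hm1 hm2
  have hm := bt_m_pos hp hm1
  have ha := bt_a_pos hp
  have hk : 0 < btKlo F * p.lam := mul_pos (bt_Klo_pos hF) (bt_lam_pos hp)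
  have h10' := (h10 m hm1 hm2 (1 / 3) (2 / 3) (by norm_num) (by norm_num) (by norm_num)).1
  have sub : Icc (1 / 3 : ℝ) (2 / 3) ⊆ Icc (-4 : ℝ) 4 := Icc_subset_Icc (by norm_num) (by norm_num)
  have i1 := bt_int_sq p.a (p.U F)
  have i2 : IntegrableOn (fun v => p.cg F v / 4) (Ioo 0 p.a) := (bt_int_cg hF hp).div_const 4
  have c1 := (hcont m hm _ i1).mono sub
  have c2 := (hcont m hm _ i2).mono sub
  have e2 : ∀ r, (∫ v in (0 : ℝ)..p.a, (p.wG0 r).cg F v / 4 * (p.wG0 r).Aerr F 𝔹 m v) = (p.wG0 r).wA F 𝔹 m (fun v => p.cg F v / 4) := fun r => by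
    rw [bt_ii ha.le]; rfl
  simp only [e2] at h10'
  have key : ∫ r in (1 / 3 : ℝ)..(2 / 3), btKlo F * p.lam / 4 * (p.wG0 r).wA F 𝔹 m (fun v => v ^ 2 + p.U F ^ 2)
      ≤ ∫ r in (1 / 3 : ℝ)..(2 / 3), (p.wG0 r).wA F 𝔹 m (fun v => p.cg F v / 4) := by
    refine intervalIntegral.integral_mono_on (by norm_num) ?_ ?_ fun r hr => ?_
    · exact (continuousOn_const.mul c1).intervalIntegrable_of_Icc (by norm_num)
    · exact c2.intervalIntegrable_of_Icc (by norm_num)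
    · rw [← bt_wA_smul]
      refine bt_wA_mono hS (bt_ok_wG0 hp (sub hr)) (hclk r (sub hr)) hm (i1.const_mul _) i2 fun v hv => ?_
      have := bt_cg_lo hF hp hv
      linarith
  rw [intervalIntegral.integral_const_mul] at key
  rw [div_mul_eq_mul_div, le_div_iff₀ hk]
  linarith

/-- **the global budget**, raw form -/
theorem bt_avg (h3 : LlSec3 𝔹 F) (hEn : BtEnd 𝔹 F) (hS : BtSys 𝔹) (hSite : BtSite 𝔹) (hs : 1 / 4 ≤ F.sS) (he : F.eta ≤ 1 / 8) {cG : ℝ} (hG1 : BtG1 𝔹 F cG) :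
    ∀ ε > (0 : ℝ), ∃ C : ℝ, LlUnif F fun p => (p.sm = true → p.chiL = 1) → ∀ m : ℕ, p.N ≤ 2 * m → m ≤ 3 * p.N →
      ∫ r in (1 / 3 : ℝ)..(2 / 3), (p.wG0 r).wA F 𝔹 m (fun v => v ^ 2 + p.U F ^ 2)
        ≤ C / p.lam * (p.Bcal F cG ε + if p.sm then p.x ^ (5 + 1 / 8 : ℝ) else 0) := by
  intro ε hε
  have hF := h3.ok
  obtain ⟨Cd, hd⟩ := bt_glob_dir h3 hEn hS hSite hs he hG1 ε hε
  obtain ⟨Cs, hsm⟩ := bt_glob_sm h3 hEn hS hSite hs he hG1 ε hε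
  refine ⟨4 / btKlo F * max Cd Cs, bt_unif_mono (bt_unif_and (bt_avg_le h3 hEn hS) (bt_unif_and hd hsm)) ?_⟩
  rintro p hp ⟨hle, hd, hsm⟩ hchi m hm1 hm2
  have hl := bt_lam_pos hp
  have hK := bt_Klo_pos hF
  have hx := bt_x_pos hp
  have hk : 0 < 4 / (btKlo F * p.lam) := by positivity
  have hB : 0 ≤ p.Bcal F cG ε := by
    unfold LlPt.Bcal
    have := bt_U_pos hp
    positivity
  have hx5 : 0 ≤ p.x ^ (5 + 1 / 8 : ℝ) := (Real.rpow_pos_of_pos hx _).le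
  refine (hle m hm1 hm2).trans ?_
  have e : 4 / btKlo F * max Cd Cs / p.lam = 4 / (btKlo F * p.lam) * max Cd Cs := by field_simp
  rw [e, mul_assoc]
  refine mul_le_mul_of_nonneg_left ?_ hk.le
  cases hsm' : p.sm with
  | false =>
    simp only [Bool.false_eq_true, if_false, add_zero]
    exact (hd hsm' m hm1 hm2 _ _ (by norm_num) (by norm_num) (by norm_num)).trans (mul_le_mul_of_nonneg_right (le_max_left _ _) hB)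
  | true =>
    simp only [if_true]
    exact (hsm hsm' (hchi hsm') m hm1 hm2 _ _ (by norm_num) (by norm_num) (by norm_num)).trans
      (mul_le_mul_of_nonneg_right (le_max_right _ _) (by positivity))

end Claimed.Agent.R286
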