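import Claimed.Agent.R286.Bud.TopDefs

/-!
# Row 286 (S0533), LL sec. 7, `Bud/Top`, file KIT: elementary facts on the physical points      (owner helper66; prefix `bt_`)

No model: only `LlFix.Ok`, `LlPt.Ok`, the definitions (P1), (P3), (P6) and measure theory.     TEX[LL:bud:targets] (tools)
* ranges: `bt_x_pos … bt_a_le`;   `c_g ≍ λ (v² + U²)`: `bt_cg_lo`, `bt_cg_hi`, `bt_cg_mask`;   `c_u`: `bt_cu_*`
* the clocks are AFFINE in `γ_0`, `γ_u`: `bt_b_wG0`, `bt_b_wGu`, `bt_h_wG0`, `bt_h_wGu`, `bt_d_wG0`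
* integrability kit on `(0,a)`: `bt_int_bdd`
* product measures: `bt_pi_le`, `bt_pi_one`, `bt_pi_two`
-/

set_option autoImplicit false

namespace Claimed.Agent.R286

open MeasureTheory Set Filter Topology
open scoped ENNReal

variable {𝔹 : LlBase} {F : LlFix}

/-! ## 1. Ranges -/

theorem bt_x_pos {p : LlPt} (hp : p.Ok F) : 0 < p.x := by
  have hN : (0 : ℝ) < p.N := by have := hp.N2; positivity
  exact Real.rpow_pos_of_pos hN _

theorem bt_x_le_one {p : LlPt} (hp : p.Ok F) : p.x ≤ 1 := by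
  have hN : (1 : ℝ) ≤ p.N := by have := hp.N2; exact_mod_cast (by omega : 1 ≤ p.N)
  exact Real.rpow_le_one_of_one_le_of_nonpos hN (by norm_num)

theorem bt_lam_pos {p : LlPt} (hp : p.Ok F) : 0 < p.lam :=
  lt_of_lt_of_le (Real.rpow_pos_of_pos (bt_x_pos hp) _) hp.lam_lo

theorem bt_lam_le_one (hF : F.Ok) {p : LlPt} (hp : p.Ok F) : p.lam ≤ 1 :=
  hp.lam_hi.trans (Real.rpow_le_one (bt_x_pos hp).le (bt_x_le_one hp) hF.pS0.le)

theorem bt_U_pos {p : LlPt} (hp : p.Ok F) : 0 < p.U F :=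
  lt_min one_pos (mul_pos (bt_x_pos hp) (Real.rpow_pos_of_pos (bt_lam_pos hp) _))

theorem bt_U_le_one (p : LlPt) : p.U F ≤ 1 :=
  min_le_left _ _

/-- `x ≤ U` -/
theorem bt_x_le_U (hF : F.Ok) {p : LlPt} (hp : p.Ok F) : p.x ≤ p.U F := by
  refine le_min (bt_x_le_one hp) ?_
  have h1 : (1 : ℝ) ≤ p.lam ^ (-(F.sS / 2)) :=
    Real.one_le_rpow_of_pos_of_le_one_of_nonpos (bt_lam_pos hp) (bt_lam_le_one hF hp) (by have := hF.sS0; linarith)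
  nlinarith [bt_x_pos hp]

theorem bt_a_ge_one {p : LlPt} (hp : p.Ok F) : 1 ≤ p.a := by
  unfold LlPt.a
  split_ifs
  · norm_num
  · exact hp.ell1

theorem bt_a_le {p : LlPt} (hp : p.Ok F) : p.a ≤ 4 := by
  unfold LlPt.a
  split_ifs
  · exact le_rfl
  · have h2 : (2 : ℝ) ^ (1 / 6 : ℝ) ≤ (2 : ℝ) ^ (1 : ℝ) := Real.rpow_le_rpow_of_exponent_le (by norm_num) (by norm_num)
    rw [Real.rpow_one] at h2
    linarith [hp.ell2]

theorem bt_ok_wG0 {p : LlPt} (hp : p.Ok F) {g : ℝ} (hg : g ∈ Icc (-4 : ℝ) 4) : (p.wG0 g).Ok F :=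
  ⟨hp.N2, hp.ell1, hp.ell2, hp.lam_lo, hp.lam_hi, hg, hp.gu, hp.chiL, hp.chiE, hp.sm_fin⟩

theorem bt_ok_wGu {p : LlPt} (hp : p.Ok F) (hd : ℕ) {t : ℝ} (ht : t ∈ Icc (-4 : ℝ) 4) : (p.wGu hd t).Ok F := by
  refine ⟨hp.N2, hp.ell1, hp.ell2, hp.lam_lo, hp.lam_hi, hp.g0, fun h => ?_, hp.chiL, hp.chiE, hp.sm_fin⟩
  show Function.update p.gu hd t h ∈ Icc (-4 : ℝ) 4
  by_cases hh : h = hd
  · subst hh; rw [Function.update_self]; exact ht
  · rw [Function.update_of_ne hh]; exact hp.gu h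

theorem bt_ok_loc {p : LlPt} (hp : p.Ok F) (hd : ℕ) {g t : ℝ} (hg : g ∈ Icc (-4 : ℝ) 4) (ht : t ∈ Icc (-4 : ℝ) 4) :
    (p.loc hd g t).Ok F :=
  bt_ok_wGu (bt_ok_wG0 hp hg) hd ht

/-- a point of a segment, with clamped parameters, is `Ok` -/
theorem bt_ok_seg (hF : F.Ok) (hpS : F.pS ≤ 12) {N : ℕ} (hN : 2 ≤ N) {ell lam chiL chiE : ℝ} {sm : Bool} (h : BtSeg F N ell lam chiL chiE sm)
    (γ : Fin (N + 1) → ℝ) : (ll04Pt N ell lam chiL chiE sm γ).Ok F := by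
  have hNr : (1 : ℝ) ≤ N := by exact_mod_cast (by omega : 1 ≤ N)
  have hx0 : 0 < skX N := Real.rpow_pos_of_pos (by linarith) _
  have hx1 : skX N ≤ 1 := Real.rpow_le_one_of_one_le_of_nonpos hNr (by norm_num)
  have hxx : (ll04Pt N ell lam chiL chiE sm γ).x = skX N := rfl
  have hcl : ∀ y : ℝ, ll04Cl y ∈ Icc (-4 : ℝ) 4 := by
    intro y
    unfold ll04Cl
    constructor
    · exact le_trans (by norm_num) (le_max_left _ _)
    · exact max_le (by norm_num) ((min_le_left _ _).trans (by norm_num))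
  have hpw : skX N ^ (12 : ℝ) ≤ skX N ^ F.pS := Real.rpow_le_rpow_of_exponent_ge hx0 hx1 hpS
  obtain ⟨hell, hc⟩ := h
  have hgu : ∀ h : ℕ, (ll04Pt N ell lam chiL chiE sm γ).gu h ∈ Icc (-4 : ℝ) 4 := by
    intro h
    show (if hh : h < N then ll04Cl (γ ⟨h + 1, Nat.succ_lt_succ hh⟩) else 1 / 2) ∈ Icc (-4 : ℝ) 4
    split_ifs
    · exact hcl _
    · constructor <;> norm_num
  rcases hc with ⟨h1, h2, h3, h4, h5⟩ | ⟨h1, h2, h3, h4⟩ | ⟨h1, h2, h3, h4⟩ | ⟨h1, h2, h3, h4⟩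
  · subst h1 h2 h3
    exact ⟨hN, hell.1, hell.2, by rw [hxx]; exact h4, by rw [hxx]; exact h5, hcl _, hgu, ⟨le_rfl, zero_le_one⟩, ⟨zero_le_one, le_rfl⟩,
      fun h => absurd h (by simp [ll04Pt])⟩
  · subst h1 h2 h4
    exact ⟨hN, hell.1, hell.2, by rw [hxx]; exact hpw, by rw [hxx]; exact le_rfl, hcl _, hgu, h3, ⟨zero_le_one, le_rfl⟩,
      fun h => absurd h (by simp [ll04Pt])⟩
  · subst h1 h2 h3
    exact ⟨hN, hell.1, hell.2, by rw [hxx]; exact hpw, by rw [hxx]; exact le_rfl, hcl _, hgu, ⟨zero_le_one, le_rfl⟩, h4,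
      fun h => absurd h (by simp [ll04Pt])⟩
  · subst h1 h2 h3 h4
    exact ⟨hN, hell.1, hell.2, by rw [hxx]; exact hpw, by rw [hxx]; exact le_rfl, hcl _, hgu, ⟨zero_le_one, le_rfl⟩, ⟨le_rfl, zero_le_one⟩,
      fun _ => ⟨by rw [hxx]; rfl, rfl⟩⟩

/-! ## 2. `c_g`, `c_u` -/

/-- the constant of `c_g ≳ λ (v² + U²)` -/
noncomputable def btKlo (F : LlFix) : ℝ := F.cb * F.c1 * min (1 / 65) (F.vb ^ 2 / 16)

/-- the constant of `c_g ≲ λ (v² + U²)` -/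
noncomputable def btKhi (F : LlFix) : ℝ := F.cb * F.c1 * max 65 (F.G1 2 + 1)

theorem bt_Klo_pos (hF : F.Ok) : 0 < btKlo F := by
  have := hF.vb0
  exact mul_pos (mul_pos hF.cb0 hF.c10) (lt_min (by norm_num) (by positivity))

/-- `G_0 ≥ 0` -/
theorem bt_G0_nonneg (hF : F.Ok) (w : ℝ) : 0 ≤ F.G0 w := by
  have h := hF.G0_mono (min_le_left w 1)
  rwa [hF.G0_zero _ (min_le_right w 1)] at h

/-- `G_1 ≥ 1` on `[1,∞)` -/
theorem bt_G1_ge (hF : F.Ok) {w : ℝ} (hw : 1 ≤ w) : 1 ≤ F.G1 w := by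
  have h := hF.G1_mono (mem_Ici.2 zero_le_one) (mem_Ici.2 (zero_le_one.trans hw)) hw
  rwa [hF.G1_sq 1 ⟨zero_le_one, le_rfl⟩, one_pow] at h

/-- `G_1 ≤ G_1(2)` on `[0,∞)` -/
theorem bt_G1_le (hF : F.Ok) {w : ℝ} (hw : 0 ≤ w) : F.G1 w ≤ F.G1 2 := by
  rcases le_total w 2 with h | h
  · exact hF.G1_mono (mem_Ici.2 hw) (mem_Ici.2 (by norm_num)) h
  · exact (hF.G1_const w h).le

theorem bt_G_nonneg (hF : F.Ok) {p : LlPt} (hp : p.Ok F) {v : ℝ} (hv : 0 ≤ v) : 0 ≤ p.G F v := by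
  unfold LlPt.G
  split_ifs with h
  · exact mul_nonneg (sq_nonneg _) (bt_G0_nonneg hF _)
  · have h1 : 1 ≤ v / F.vb := by rw [le_div_iff₀ hF.vb0]; linarith
    exact mul_nonneg (sq_nonneg _) (zero_le_one.trans (bt_G1_ge hF h1))

/-- `min(1/65, v_b²/16) (v² + U²) ≤ G + U²` -/
theorem bt_G_lo (hF : F.Ok) {p : LlPt} (hp : p.Ok F) {v : ℝ} (hv : v ∈ Ioo 0 p.a) :
    min (1 / 65) (F.vb ^ 2 / 16) * (v ^ 2 + p.U F ^ 2) ≤ p.G F v + p.U F ^ 2 := by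
  have hx := bt_x_pos hp
  have hxU := bt_x_le_U hF hp
  have ha := bt_a_le hp
  have hk1 : min (1 / 65) (F.vb ^ 2 / 16) ≤ 1 / 65 := min_le_left _ _
  have hk2 : min (1 / 65) (F.vb ^ 2 / 16) ≤ F.vb ^ 2 / 16 := min_le_right _ _
  have hk0 : 0 ≤ min (1 / 65) (F.vb ^ 2 / 16) := le_min (by norm_num) (by positivity)
  have hv2 : 0 ≤ v ^ 2 := sq_nonneg v
  have hU2 : 0 ≤ p.U F ^ 2 := sq_nonneg _
  unfold LlPt.G
  split_ifs with h
  · rcases le_total (8 * p.x) v with h8 | h8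
    · have : 8 ≤ v / p.x := by rw [le_div_iff₀ hx]; exact h8
      rw [hF.G0_sq _ this, div_pow, mul_div_cancel₀ _ (pow_ne_zero 2 hx.ne')]
      nlinarith
    · have hG : 0 ≤ p.x ^ 2 * F.G0 (v / p.x) := mul_nonneg (sq_nonneg _) (bt_G0_nonneg hF _)
      have hvU : v ^ 2 ≤ 64 * p.U F ^ 2 := by nlinarith [hv.1]
      nlinarith
  · have h1 : 1 ≤ v / F.vb := by rw [le_div_iff₀ hF.vb0]; linarith
    have hG : F.vb ^ 2 ≤ F.vb ^ 2 * F.G1 (v / F.vb) := le_mul_of_one_le_right (sq_nonneg _) (bt_G1_ge hF h1)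
    have hv16 : v ^ 2 ≤ 16 := by nlinarith [hv.1, hv.2]
    have e1 : min (1 / 65) (F.vb ^ 2 / 16) * v ^ 2 ≤ F.vb ^ 2 / 16 * 16 := mul_le_mul hk2 hv16 hv2 (by positivity)
    have e2 : min (1 / 65) (F.vb ^ 2 / 16) * p.U F ^ 2 ≤ 1 / 65 * p.U F ^ 2 := mul_le_mul_of_nonneg_right hk1 hU2
    nlinarith

/-- `G + U² ≤ max(65, G_1(2) + 1) (v² + U²)` -/
theorem bt_G_hi (hF : F.Ok) {p : LlPt} (hp : p.Ok F) {v : ℝ} (hv : v ∈ Ioo 0 p.a) :
    p.G F v + p.U F ^ 2 ≤ max 65 (F.G1 2 + 1) * (v ^ 2 + p.U F ^ 2) := by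
  have hx := bt_x_pos hp
  have hxU := bt_x_le_U hF hp
  have hk1 : (65 : ℝ) ≤ max 65 (F.G1 2 + 1) := le_max_left _ _
  have hk2 : F.G1 2 + 1 ≤ max 65 (F.G1 2 + 1) := le_max_right _ _
  have hv2 : 0 ≤ v ^ 2 := sq_nonneg v
  have hU2 : 0 ≤ p.U F ^ 2 := sq_nonneg _
  unfold LlPt.G
  split_ifs with h
  · rcases le_total (8 * p.x) v with h8 | h8
    · have : 8 ≤ v / p.x := by rw [le_div_iff₀ hx]; exact h8
      rw [hF.G0_sq _ this, div_pow, mul_div_cancel₀ _ (pow_ne_zero 2 hx.ne')]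
      nlinarith
    · have h8' : v / p.x ≤ 8 := by rw [div_le_iff₀ hx]; exact h8
      have hG0 : F.G0 (v / p.x) ≤ 64 := by
        have := hF.G0_mono h8'
        rw [hF.G0_sq 8 le_rfl] at this
        linarith
      have hG : p.x ^ 2 * F.G0 (v / p.x) ≤ p.U F ^ 2 * 64 :=
        mul_le_mul (pow_le_pow_left₀ hx.le hxU 2) hG0 (bt_G0_nonneg hF _) hU2
      nlinarith
  · have hvb : F.vb ≤ v := by linarith
    have h0 : 0 ≤ v / F.vb := div_nonneg hv.1.le hF.vb0.le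
    have hG2 : 1 ≤ F.G1 2 := bt_G1_ge hF (by norm_num)
    have hG : F.vb ^ 2 * F.G1 (v / F.vb) ≤ v ^ 2 * F.G1 2 :=
      mul_le_mul (pow_le_pow_left₀ hF.vb0.le hvb 2) (bt_G1_le hF h0) (by
        have h1 : 1 ≤ v / F.vb := by rw [le_div_iff₀ hF.vb0]; linarith
        exact zero_le_one.trans (bt_G1_ge hF h1)) hv2
    nlinarith

theorem bt_cg_lo (hF : F.Ok) {p : LlPt} (hp : p.Ok F) {v : ℝ} (hv : v ∈ Ioo 0 p.a) :
    btKlo F * p.lam * (v ^ 2 + p.U F ^ 2) ≤ p.cg F v := by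
  have h := bt_G_lo hF hp hv
  have hc : 0 ≤ F.cb * p.lam * F.c1 := mul_nonneg (mul_nonneg hF.cb0.le (bt_lam_pos hp).le) hF.c10.le
  have := mul_le_mul_of_nonneg_left h hc
  unfold btKlo LlPt.cg
  calc F.cb * F.c1 * min (1 / 65) (F.vb ^ 2 / 16) * p.lam * (v ^ 2 + p.U F ^ 2)
      = F.cb * p.lam * F.c1 * (min (1 / 65) (F.vb ^ 2 / 16) * (v ^ 2 + p.U F ^ 2)) := by ring
    _ ≤ _ := this

theorem bt_cg_hi (hF : F.Ok) {p : LlPt} (hp : p.Ok F) {v : ℝ} (hv : v ∈ Ioo 0 p.a) :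
    p.cg F v ≤ btKhi F * p.lam * (v ^ 2 + p.U F ^ 2) := by
  have h := bt_G_hi hF hp hv
  have hc : 0 ≤ F.cb * p.lam * F.c1 := mul_nonneg (mul_nonneg hF.cb0.le (bt_lam_pos hp).le) hF.c10.le
  have := mul_le_mul_of_nonneg_left h hc
  unfold btKhi LlPt.cg
  calc F.cb * p.lam * F.c1 * (p.G F v + p.U F ^ 2)
      ≤ F.cb * p.lam * F.c1 * (max 65 (F.G1 2 + 1) * (v ^ 2 + p.U F ^ 2)) := this
    _ = _ := by ring

theorem bt_cg_pos (hF : F.Ok) {p : LlPt} (hp : p.Ok F) {v : ℝ} (hv : v ∈ Ioo 0 p.a) : 0 < p.cg F v := by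
  have hU := bt_U_pos hp
  have hG := bt_G_nonneg hF hp hv.1.le
  exact mul_pos (mul_pos (mul_pos hF.cb0 (bt_lam_pos hp)) hF.c10) (by positivity)

/-- on the mask `G = 0` -/
theorem bt_cg_mask (hF : F.Ok) {p : LlPt} (hp : p.Ok F) (hx : p.x ≤ F.vb) {v : ℝ} (hv : v ≤ p.x) :
    p.cg F v = F.cb * p.lam * F.c1 * p.U F ^ 2 := by
  have hx0 := bt_x_pos hp
  have h1 : v / p.x ≤ 1 := by rw [div_le_iff₀ hx0]; linarith
  unfold LlPt.cg LlPt.G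
  rw [if_pos (hv.trans hx), hF.G0_zero _ h1]
  ring

theorem bt_cg_meas (hF : F.Ok) (p : LlPt) : Measurable (p.cg F) := by
  have hG : Measurable (p.G F) := by
    unfold LlPt.G
    refine Measurable.ite measurableSet_Iic ?_ ?_
    · exact (continuous_const.mul (hF.G0_sm.continuous.comp (continuous_id.div_const _))).measurable
    · exact (continuous_const.mul (hF.G1_sm.continuous.comp (continuous_id.div_const _))).measurable
  unfold LlPt.cg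
  exact (hG.add_const _).const_mul _

theorem bt_cu_nonneg (hF : F.Ok) {p : LlPt} (hp : p.Ok F) (hd : ℕ) (v : ℝ) : 0 ≤ btCu F p hd v :=
  mul_nonneg (mul_nonneg (mul_nonneg (mul_nonneg hF.cb0.le (bt_lam_pos hp).le) hF.c10.le) (sq_nonneg _)) (hF.phi_nn _)

theorem bt_cu_cont (hF : F.Ok) (p : LlPt) (hd : ℕ) : Continuous (btCu F p hd) := by
  unfold btCu
  exact continuous_const.mul (hF.phi_sm.continuous.comp (continuous_id.div_const _))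

/-- the support of `c_u` is `[u/2, 4u]` -/
theorem bt_cu_supp (hF : F.Ok) (p : LlPt) (hd : ℕ) {v : ℝ} (hv : v ∉ Icc (btU hd / 2) (4 * btU hd)) : btCu F p hd v = 0 := by
  have hu : 0 < btU hd := by unfold btU; positivity
  have : v / btU hd ∉ Icc (1 / 2 : ℝ) 4 := by
    intro h
    apply hv
    constructor
    · have := (le_div_iff₀ hu).1 h.1; linarith
    · exact (div_le_iff₀ hu).1 h.2
  unfold btCu
  rw [hF.phi_supp _ this, mul_zero]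

/-- `φ` is bounded, and bounded below on `[1,2]` -/
theorem bt_phi_bds (hF : F.Ok) : ∃ c C : ℝ, 0 < c ∧ (∀ w ∈ Icc (1 : ℝ) 2, c ≤ F.phi w) ∧ ∀ w, F.phi w ≤ C := by
  have hc := hF.phi_sm.continuous
  obtain ⟨w0, hw0, hmin⟩ := (isCompact_Icc (a := (1 : ℝ)) (b := 2)).exists_isMinOn (nonempty_Icc.2 (by norm_num)) hc.continuousOn
  obtain ⟨w1, hw1, hmax⟩ := (isCompact_Icc (a := (1 / 2 : ℝ)) (b := 4)).exists_isMaxOn (nonempty_Icc.2 (by norm_num)) hc.continuousOn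
  refine ⟨F.phi w0, F.phi w1, hF.phi_pos w0 hw0, fun w hw => hmin hw, fun w => ?_⟩
  by_cases hw : w ∈ Icc (1 / 2 : ℝ) 4
  · exact hmax hw
  · rw [hF.phi_supp w hw]; exact hF.phi_nn _

/-! ## 3. The clocks are affine in the parameters -/

theorem bt_b_wG0 (p : LlPt) (g v : ℝ) : (p.wG0 g).b F 𝔹 v = p.b F 𝔹 v - (g - p.gam0) * p.cg F v := by
  have e1 : (p.wG0 g).b0 F 𝔹 = p.b0 F 𝔹 := rfl
  have e2 : (p.wG0 g).G F v = p.G F v := rfl
  have e4 : (p.wG0 g).U F = p.U F := rfl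
  have e6 : (p.wG0 g).dySum F v = p.dySum F v := rfl
  have e7 : (p.wG0 g).lam = p.lam := rfl
  have e9 : (p.wG0 g).gam0 = g := rfl
  simp only [LlPt.b, LlPt.cg, e1, e2, e4, e6, e7, e9]
  ring

theorem bt_hS_wG0 (p : LlPt) (g v : ℝ) : (p.wG0 g).hS F 𝔹 v = p.hS F 𝔹 v + (g - p.gam0) * (p.cg F v * p.q F 𝔹 v) := by
  have hb := bt_b_wG0 (𝔹 := 𝔹) (F := F) p g v
  have e3 : (p.wG0 g).K F 𝔹 v = p.K F 𝔹 v := rfl
  have e4 : (p.wG0 g).q F 𝔹 v = p.q F 𝔹 v := rfl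
  simp only [LlPt.hS, e3, e4, hb]
  ring

/-- above the mask the field follows `h_*`, on the mask it stays `0` -/
theorem bt_h_wG0 (p : LlPt) (g v : ℝ) :
    (p.wG0 g).h F 𝔹 v = p.h F 𝔹 v + if v < p.x then 0 else (g - p.gam0) * (p.cg F v * p.q F 𝔹 v) := by
  have hb := bt_hS_wG0 (𝔹 := 𝔹) (F := F) p g v
  have e1 : (p.wG0 g).x = p.x := rfl
  have e6 : (p.wG0 g).Hlo F v = p.Hlo F v := rfl
  have e7 : (p.wG0 g).Hlin F v = p.Hlin F v := rfl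
  have e8 : (p.wG0 g).He F 𝔹 v = p.He F 𝔹 v := rfl
  have e9 : (p.wG0 g).chiL = p.chiL := rfl
  have e10 : (p.wG0 g).chiE = p.chiE := rfl
  simp only [LlPt.h, e1, e6, e7, e8, e9, e10, hb]
  split_ifs
  · ring
  · ring

/-- the defect depends on `γ_0` only on the mask -/
theorem bt_d_wG0 (p : LlPt) (g v : ℝ) :
    (p.wG0 g).d F 𝔹 v = p.d F 𝔹 v - if v < p.x then (g - p.gam0) * (p.cg F v * p.q F 𝔹 v) else 0 := by
  have h1 := bt_hS_wG0 (𝔹 := 𝔹) (F := F) p g v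
  have h2 := bt_h_wG0 (𝔹 := 𝔹) (F := F) p g v
  simp only [LlPt.d, h1, h2]
  split_ifs
  · ring
  · ring

theorem bt_aux_x_pos {p : LlPt} (hp : p.Ok F) : 0 < p.x := by
  unfold LlPt.x
  have : (0 : ℝ) < p.N := by
    have := hp.N2
    positivity
  positivity

theorem bt_aux_dy_fin {p : LlPt} (hx : 0 < p.x) : {k : ℕ | p.IsDy F k}.Finite := by
  obtain ⟨K, hK⟩ := exists_pow_lt_of_lt_one (show (0 : ℝ) < 16 * p.x by positivity) (show (2 : ℝ)⁻¹ < 1 by norm_num)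
  refine (Set.finite_Iio K).subset fun k hk => ?_
  by_contra hn
  have h1 : K ≤ k := not_lt.1 hn
  have h2 : (2 : ℝ)⁻¹ ^ k ≤ (2 : ℝ)⁻¹ ^ K := pow_le_pow_of_le_one (by norm_num) (by norm_num) h1
  have h3 : 16 * p.x ≤ (2 : ℝ)⁻¹ ^ k := hk.1
  linarith

/-- `dySum` is affine in each coordinate -/
theorem bt_aux_dy_upd {p : LlPt} (hx : 0 < p.x) (h : ℕ) (hh : p.IsDy F h) (r v : ℝ) :
    (p.wGu h r).dySum F v = p.dySum F v + (r - p.gu h) * (((2 : ℝ)⁻¹ ^ h) ^ 2 * F.phi (v / (2 : ℝ)⁻¹ ^ h)) := by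
  classical
  have hfin := bt_aux_dy_fin (F := F) hx
  have e : (p.wGu h r).dySum F v
      = ∑ᶠ k : ℕ, if p.IsDy F k then Function.update p.gu h r k * ((2 : ℝ)⁻¹ ^ k) ^ 2 * F.phi (v / (2 : ℝ)⁻¹ ^ k) else 0 := by
    unfold LlPt.dySum
    refine finsum_congr fun k => ?_
    have e1 : (p.wGu h r).IsDy F k = p.IsDy F k := rfl
    have e2 : (p.wGu h r).gu k = Function.update p.gu h r k := rfl
    by_cases hk : p.IsDy F k
    · rw [if_pos hk, if_pos (e1 ▸ hk), e2]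
    · rw [if_neg hk, if_neg (e1 ▸ hk)]
  have e0 : p.dySum F v
      = ∑ᶠ k : ℕ, if p.IsDy F k then p.gu k * ((2 : ℝ)⁻¹ ^ k) ^ 2 * F.phi (v / (2 : ℝ)⁻¹ ^ k) else 0 := by
    unfold LlPt.dySum
    refine finsum_congr fun k => ?_
    by_cases hk : p.IsDy F k
    · simp only [if_pos hk]
    · simp only [if_neg hk]
  rw [e, e0]
  have hs : Function.HasFiniteSupport
      (fun k : ℕ => if p.IsDy F k then p.gu k * ((2 : ℝ)⁻¹ ^ k) ^ 2 * F.phi (v / (2 : ℝ)⁻¹ ^ k) else 0) := by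
    refine hfin.subset fun k hk => ?_
    by_contra hn
    exact hk (if_neg hn)
  have hs2 : Function.HasFiniteSupport
      (fun k : ℕ => if k = h then (r - p.gu h) * (((2 : ℝ)⁻¹ ^ h) ^ 2 * F.phi (v / (2 : ℝ)⁻¹ ^ h)) else 0) := by
    refine (Set.finite_singleton h).subset fun k hk => ?_
    by_contra hn
    exact hk (if_neg hn)
  have e3 : (∑ᶠ k : ℕ, if k = h then (r - p.gu h) * (((2 : ℝ)⁻¹ ^ h) ^ 2 * F.phi (v / (2 : ℝ)⁻¹ ^ h)) else 0)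
      = (r - p.gu h) * (((2 : ℝ)⁻¹ ^ h) ^ 2 * F.phi (v / (2 : ℝ)⁻¹ ^ h)) := by
    rw [finsum_eq_single _ h (fun k hk => if_neg hk), if_pos rfl]
  rw [← e3, ← finsum_add_distrib hs hs2]
  refine finsum_congr fun k => ?_
  by_cases hk : k = h
  · subst hk
    rw [if_pos hh, if_pos hh, if_pos rfl, Function.update_self]
    ring
  · rw [if_neg hk, Function.update_of_ne hk, add_zero]

theorem bt_b_wGu {p : LlPt} (hp : p.Ok F) {hd : ℕ} (hdy : p.IsDy F hd) (t v : ℝ) :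
    (p.wGu hd t).b F 𝔹 v = p.b F 𝔹 v - (t - p.gu hd) * btCu F p hd v := by
  have hd' := bt_aux_dy_upd (bt_aux_x_pos hp) hd hdy t v
  have e1 : (p.wGu hd t).b0 F 𝔹 = p.b0 F 𝔹 := rfl
  have e2 : (p.wGu hd t).G F v = p.G F v := rfl
  have e4 : (p.wGu hd t).U F = p.U F := rfl
  have e7 : (p.wGu hd t).lam = p.lam := rfl
  have e9 : (p.wGu hd t).gam0 = p.gam0 := rfl
  simp only [LlPt.b, btCu, btU, e1, e2, e4, e7, e9, hd']
  ring

/-- the support of `c_u` lies above the mask -/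
theorem bt_h_wGu (hF : F.Ok) {p : LlPt} (hp : p.Ok F) {hd : ℕ} (hdy : p.IsDy F hd) (t v : ℝ) :
    (p.wGu hd t).h F 𝔹 v = p.h F 𝔹 v + (t - p.gu hd) * (btCu F p hd v * p.q F 𝔹 v) := by
  have hb := bt_b_wGu (𝔹 := 𝔹) hp hdy t v
  have hx := bt_aux_x_pos hp
  have e1 : (p.wGu hd t).x = p.x := rfl
  have e3 : (p.wGu hd t).K F 𝔹 v = p.K F 𝔹 v := rfl
  have e4 : (p.wGu hd t).q F 𝔹 v = p.q F 𝔹 v := rfl
  have e6 : (p.wGu hd t).Hlo F v = p.Hlo F v := rfl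
  have e7 : (p.wGu hd t).Hlin F v = p.Hlin F v := rfl
  have e8 : (p.wGu hd t).He F 𝔹 v = p.He F 𝔹 v := rfl
  have e9 : (p.wGu hd t).chiL = p.chiL := rfl
  have e10 : (p.wGu hd t).chiE = p.chiE := rfl
  simp only [LlPt.h, LlPt.hS, e1, e3, e4, e6, e7, e8, e9, e10, hb]
  split_ifs with hv
  · have hu : 16 * p.x ≤ (2 : ℝ)⁻¹ ^ hd := hdy.1
    have hu0 : 0 < (2 : ℝ)⁻¹ ^ hd := by positivity
    have h0 : btCu F p hd v = 0 := by
      unfold btCu btU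
      rw [hF.phi_supp, mul_zero]
      intro hmem
      have h1 : 1 / 2 ≤ v / (2 : ℝ)⁻¹ ^ hd := hmem.1
      rw [le_div_iff₀ hu0] at h1
      linarith
    rw [h0]
    ring
  · ring

/-! ## 4. Integrability kit -/

/-- a bounded a.e.-measurable function is integrable on `(0,a)` -/
theorem bt_int_bdd {a C : ℝ} {f : ℝ → ℝ} (hm : AEStronglyMeasurable f (volume.restrict (Ioo 0 a))) (hb : ∀ v ∈ Ioo 0 a, |f v| ≤ C) :
    IntegrableOn f (Ioo 0 a) := by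
  refine ⟨hm, HasFiniteIntegral.restrict_of_bounded (C := C) (by simp) ?_⟩
  exact (ae_restrict_iff' measurableSet_Ioo).2 (ae_of_all _ hb)

/-- interval integrals and integrals over `(0,a)` -/
theorem bt_ii {a : ℝ} (ha : 0 ≤ a) (f : ℝ → ℝ) : ∫ v in (0 : ℝ)..a, f v = ∫ v in Ioo (0 : ℝ) a, f v := by
  rw [intervalIntegral.integral_of_le ha, integral_Ioc_eq_integral_Ioo]

/-- the zero clock -/
theorem bt_zero_clock {a : ℝ} : IsClock a 0 := by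
  exact ⟨fun _ _ _ _ _ => le_rfl, fun _ _ => le_rfl, ⟨0, fun _ _ => le_rfl⟩⟩

theorem bt_zero_end {a : ℝ} (ha : 0 < a) : BtE a 0 := by
  unfold BtE
  have h : (0 : ℝ → ℝ) '' Ioo 0 a = {0} := by
    ext y
    constructor
    · rintro ⟨v, _, rfl⟩; rfl
    · intro hy
      exact ⟨a / 2, ⟨by linarith, by linarith⟩, by rw [mem_singleton_iff.1 hy]; rfl⟩
  rw [h, csSup_singleton]
  rfl

/-! ## 4bis. More tools: uniformity (`bt_unif_*`), dyads -/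

theorem bt_N_pos {p : LlPt} (hp : p.Ok F) : (0 : ℝ) < p.N := by
  have := hp.N2
  exact_mod_cast (by omega : 0 < p.N)

theorem bt_ell_le {p : LlPt} (hp : p.Ok F) : p.ell ≤ 2 := by
  refine hp.ell2.trans ?_
  calc (2 : ℝ) ^ (1 / 6 : ℝ) ≤ (2 : ℝ) ^ (1 : ℝ) := Real.rpow_le_rpow_of_exponent_le (by norm_num) (by norm_num)
    _ = 2 := Real.rpow_one 2

theorem bt_a_pos {p : LlPt} (hp : p.Ok F) : 0 < p.a := lt_of_lt_of_le one_pos (bt_a_ge_one hp)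

theorem bt_skX (N : ℕ) (ell lam chiL chiE : ℝ) (sm : Bool) (γ : Fin (N + 1) → ℝ) : (ll04Pt N ell lam chiL chiE sm γ).x = skX N := by
  unfold LlPt.x skX ll04Pt
  norm_num

theorem bt_unif_mono {Φ Ψ : LlPt → Prop} (h1 : LlUnif F Φ) (h : ∀ p : LlPt, p.Ok F → Φ p → Ψ p) : LlUnif F Ψ := by
  obtain ⟨N0, h0⟩ := h1
  exact ⟨N0, fun p hp hN => h p hp (h0 p hp hN)⟩

theorem bt_unif_and {Φ Ψ : LlPt → Prop} (h1 : LlUnif F Φ) (h2 : LlUnif F Ψ) : LlUnif F fun p => Φ p ∧ Ψ p := by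
  obtain ⟨N1, h1⟩ := h1
  obtain ⟨N2, h2⟩ := h2
  exact ⟨max N1 N2, fun p hp hN => ⟨h1 p hp (le_trans (le_max_left _ _) hN), h2 p hp (le_trans (le_max_right _ _) hN)⟩⟩

theorem bt_unif_all {Φ : LlPt → Prop} (h : ∀ p : LlPt, p.Ok F → Φ p) : LlUnif F Φ := ⟨0, fun p hp _ => h p hp⟩

/-- a uniform statement holds at all points with the same `N`, `ℓ`, `λ`, `χ`, kind, and other parameters `γ` -/
theorem bt_unif_gam {Φ : LlPt → Prop} (h : LlUnif F Φ) : LlUnif F fun p => ∀ g0 ∈ Icc (-4 : ℝ) 4, ∀ gu : ℕ → ℝ, (∀ h, gu h ∈ Icc (-4 : ℝ) 4) →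
    Φ { p with gam0 := g0, gu := gu } := by
  obtain ⟨N0, h0⟩ := h
  exact ⟨N0, fun p hp hN g0 hg0 gu hgu => h0 _ ⟨hp.N2, hp.ell1, hp.ell2, hp.lam_lo, hp.lam_hi, hg0, hgu, hp.chiL, hp.chiE, hp.sm_fin⟩ hN⟩

theorem bt_unif_wG0 {Φ : LlPt → Prop} (h : LlUnif F Φ) : LlUnif F fun p => ∀ g ∈ Icc (-4 : ℝ) 4, Φ (p.wG0 g) := by
  obtain ⟨N0, h0⟩ := h
  exact ⟨N0, fun p hp hN g hg => h0 _ (bt_ok_wG0 hp hg) hN⟩

theorem bt_unif_loc {Φ : LlPt → Prop} (h : LlUnif F Φ) : LlUnif F fun p => ∀ hd : ℕ, ∀ g ∈ Icc (-4 : ℝ) 4, ∀ t ∈ Icc (-4 : ℝ) 4, Φ (p.loc hd g t) := by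
  obtain ⟨N0, h0⟩ := h
  exact ⟨N0, fun p hp hN hd g hg t ht => h0 _ (bt_ok_loc hp hd hg ht) hN⟩

/-- `x → 0` -/
theorem bt_unif_x {δ : ℝ} (hδ : 0 < δ) : LlUnif F fun p => p.x ≤ δ := by
  have h1 : Tendsto (fun n : ℕ => (n : ℝ) ^ (-(1 / 6) : ℝ)) atTop (𝓝 0) :=
    (tendsto_rpow_neg_atTop (by norm_num : (0 : ℝ) < 1 / 6)).comp tendsto_natCast_atTop_atTop
  obtain ⟨N0, h0⟩ := eventually_atTop.1 (h1.eventually (ge_mem_nhds hδ))
  exact ⟨N0, fun p _ hN => h0 p.N hN⟩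

/-- every positive power of `x` tends to `0` -/
theorem bt_unif_xpow {δ κ : ℝ} (hδ : 0 < δ) (hκ : 0 < κ) : LlUnif F fun p => p.x ^ κ ≤ δ := by
  refine bt_unif_mono (bt_unif_x (F := F) (δ := δ ^ (1 / κ)) (Real.rpow_pos_of_pos hδ _)) fun p hp h => ?_
  calc p.x ^ κ ≤ (δ ^ (1 / κ)) ^ κ := Real.rpow_le_rpow (bt_x_pos hp).le h hκ.le
    _ = δ := by rw [← Real.rpow_mul hδ.le]; field_simp; exact Real.rpow_one δ

/-- `λ → 0` -/
theorem bt_unif_lam (hF : F.Ok) {δ : ℝ} (hδ : 0 < δ) : LlUnif F fun p => p.lam ≤ δ :=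
  bt_unif_mono (bt_unif_xpow hδ hF.pS0) fun _ hp h => hp.lam_hi.trans h

/-- a dyad in use has index `< N` -/
theorem bt_dy_lt {p : LlPt} (hp : p.Ok F) {hd : ℕ} (hdy : p.IsDy F hd) : hd < p.N := by
  have hN := bt_N_pos hp
  have hN1 : (1 : ℝ) ≤ p.N := by have := hp.N2; exact_mod_cast (by omega : 1 ≤ p.N)
  have h1 : 16 * p.x ≤ (2 : ℝ)⁻¹ ^ hd := hdy.1
  have h2 : (2 : ℝ)⁻¹ ^ hd = ((2 : ℝ) ^ hd)⁻¹ := by rw [inv_pow]
  have hx : p.x = ((p.N : ℝ) ^ (1 / 6 : ℝ))⁻¹ := by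
    unfold LlPt.x
    rw [Real.rpow_neg hN.le]
  have h3 : (p.N : ℝ) ^ (1 / 6 : ℝ) ≤ p.N := by
    calc (p.N : ℝ) ^ (1 / 6 : ℝ) ≤ (p.N : ℝ) ^ (1 : ℝ) := Real.rpow_le_rpow_of_exponent_le hN1 (by norm_num)
      _ = p.N := Real.rpow_one _
  have h4 : 0 < (p.N : ℝ) ^ (1 / 6 : ℝ) := Real.rpow_pos_of_pos hN _
  have h5 : (0 : ℝ) < 2 ^ hd := by positivity
  have h6 : (2 : ℝ) ^ hd ≤ (p.N : ℝ) ^ (1 / 6 : ℝ) := by
    rw [h2, hx] at h1
    have : ((p.N : ℝ) ^ (1 / 6 : ℝ))⁻¹ ≤ ((2 : ℝ) ^ hd)⁻¹ := by nlinarith [inv_pos.2 h4]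
    exact (inv_le_inv₀ h4 h5).1 this
  have h7 : (hd : ℝ) < 2 ^ hd := by exact_mod_cast Nat.lt_two_pow_self
  exact_mod_cast (lt_of_lt_of_le h7 (h6.trans h3))

theorem bt_hS_wGu {p : LlPt} (hp : p.Ok F) {hd : ℕ} (hdy : p.IsDy F hd) (t v : ℝ) :
    (p.wGu hd t).hS F 𝔹 v = p.hS F 𝔹 v + (t - p.gu hd) * (btCu F p hd v * p.q F 𝔹 v) := by
  have h : (p.wGu hd t).hS F 𝔹 v = p.K F 𝔹 v - (p.wGu hd t).b F 𝔹 v * p.q F 𝔹 v := rfl
  rw [h, bt_b_wGu hp hdy]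
  unfold LlPt.hS
  ring

/-- the defect does not depend on `γ_u` -/
theorem bt_d_wGu (hF : F.Ok) {p : LlPt} (hp : p.Ok F) {hd : ℕ} (hdy : p.IsDy F hd) (t v : ℝ) : (p.wGu hd t).d F 𝔹 v = p.d F 𝔹 v := by
  unfold LlPt.d
  rw [bt_h_wGu hF hp hdy, bt_hS_wGu hp hdy]
  ring

theorem bt_U_hd_pos (hd : ℕ) : 0 < btU hd := by unfold btU; positivity

/-! ## 5. Product measures -/

/-- if the marginal over the coordinates `s` is `≤ c` everywhere, so is the integral -/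
theorem bt_pi_le {n : ℕ} (ν : Measure ℝ) [IsProbabilityMeasure ν] (s : Finset (Fin n)) (Φ : (Fin n → ℝ) → ℝ≥0∞) (hΦ : Measurable Φ)
    (c : ℝ≥0∞) (h : ∀ γ, (∫⋯∫⁻_s, Φ ∂(fun _ => ν)) γ ≤ c) : ∫⁻ γ, Φ γ ∂(Measure.pi fun _ : Fin n => ν) ≤ c := by
  have h1 : ∫⁻ γ, Φ γ ∂(Measure.pi fun _ : Fin n => ν) ≤ ∫⁻ _γ, c ∂(Measure.pi fun _ : Fin n => ν) := by
    refine lintegral_le_of_lmarginal_le s hΦ measurable_const fun γ => ?_
    refine (h γ).trans (le_of_eq ?_)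
    simp [lmarginal]
  refine h1.trans (le_of_eq ?_)
  simp

theorem bt_pi_one {n : ℕ} (ν : Measure ℝ) [IsProbabilityMeasure ν] (i : Fin n) (Φ : (Fin n → ℝ) → ℝ≥0∞) (hΦ : Measurable Φ)
    (c : ℝ≥0∞) (h : ∀ γ, ∫⁻ s, Φ (Function.update γ i s) ∂ν ≤ c) : ∫⁻ γ, Φ γ ∂(Measure.pi fun _ : Fin n => ν) ≤ c := by
  refine bt_pi_le ν {i} Φ hΦ c fun γ => ?_
  rw [lmarginal_singleton]
  exact h γ

theorem bt_pi_two {n : ℕ} (ν : Measure ℝ) [IsProbabilityMeasure ν] (i j : Fin n) (hij : i ≠ j) (Φ : (Fin n → ℝ) → ℝ≥0∞) (hΦ : Measurable Φ)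
    (c : ℝ≥0∞) (h : ∀ γ, ∫⁻ s, ∫⁻ t, Φ (Function.update (Function.update γ i s) j t) ∂ν ∂ν ≤ c) :
    ∫⁻ γ, Φ γ ∂(Measure.pi fun _ : Fin n => ν) ≤ c := by
  refine bt_pi_le ν (insert i {j}) Φ hΦ c fun γ => ?_
  rw [lmarginal_insert _ hΦ (by simpa using hij)]
  simp only [lmarginal_singleton]
  exact h γ

/-- the law of one coordinate of `γ` -/
noncomputable def btNu : Measure ℝ := (3 : ℝ≥0∞) • (volume : Measure ℝ).restrict (Icc (1 / 3 : ℝ) (2 / 3))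

instance bt_nu_prob : IsProbabilityMeasure btNu := by
  constructor
  unfold btNu
  rw [Measure.smul_apply, Measure.restrict_apply MeasurableSet.univ, univ_inter, Real.volume_Icc, smul_eq_mul,
    show (3 : ℝ≥0∞) = ENNReal.ofReal 3 by simp, ← ENNReal.ofReal_mul (by norm_num)]
  norm_num

theorem bt_mu_eq (N : ℕ) : ll04Mu N = Measure.pi fun _ : Fin (N + 1) => btNu := rfl

/-- integration of a continuous nonnegative function against `btNu` -/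
theorem bt_nu_lint {f : ℝ → ℝ} (hf : ContinuousOn f (Icc (1 / 3 : ℝ) (2 / 3))) (h0 : ∀ s ∈ Icc (1 / 3 : ℝ) (2 / 3), 0 ≤ f s) :
    ∫⁻ s, ENNReal.ofReal (f s) ∂btNu = ENNReal.ofReal (3 * ∫ s in (1 / 3 : ℝ)..(2 / 3), f s) := by
  unfold btNu
  have hi : IntegrableOn f (Icc (1 / 3 : ℝ) (2 / 3)) := hf.integrableOn_Icc
  rw [lintegral_smul_measure, ← ofReal_integral_eq_lintegral_ofReal hi ((ae_restrict_iff' measurableSet_Icc).2 (ae_of_all _ h0)),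
    intervalIntegral.integral_of_le (by norm_num), ← integral_Icc_eq_integral_Ioc, smul_eq_mul, ENNReal.ofReal_mul (by norm_num)]
  simp

theorem bt_cl_of_mem {s : ℝ} (hs : s ∈ Icc (1 / 3 : ℝ) (2 / 3)) : ll04Cl s = s := by
  unfold ll04Cl
  rw [min_eq_right hs.2, max_eq_right hs.1]

theorem bt_cl_mem (s : ℝ) : ll04Cl s ∈ Icc (1 / 3 : ℝ) (2 / 3) := by
  unfold ll04Cl
  refine ⟨le_max_left _ _, max_le (by norm_num) (min_le_left _ _)⟩

theorem bt_cl_cont : Continuous ll04Cl := by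
  unfold ll04Cl
  fun_prop

/-- changing the coordinate `0` of `γ` -/
theorem bt_pt_update0 (N : ℕ) (ell lam chiL chiE : ℝ) (sm : Bool) (γ : Fin (N + 1) → ℝ) (s : ℝ) :
    ll04Pt N ell lam chiL chiE sm (Function.update γ 0 s) = (ll04Pt N ell lam chiL chiE sm γ).wG0 (ll04Cl s) := by
  unfold ll04Pt LlPt.wG0
  simp only [Function.update_self, LlPt.mk.injEq, true_and, and_true]
  funext h
  split_ifs with hh
  · rw [Function.update_of_ne]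
    intro he
    have := congrArg Fin.val he
    simp at this
  · rfl

/-- changing the coordinate `hd + 1` of `γ` -/
theorem bt_pt_updateU (N : ℕ) (ell lam chiL chiE : ℝ) (sm : Bool) (γ : Fin (N + 1) → ℝ) {hd : ℕ} (hh : hd < N) (t : ℝ) :
    ll04Pt N ell lam chiL chiE sm (Function.update γ ⟨hd + 1, Nat.succ_lt_succ hh⟩ t) = (ll04Pt N ell lam chiL chiE sm γ).wGu hd (ll04Cl t) := by
  unfold ll04Pt LlPt.wGu
  simp only [LlPt.mk.injEq, true_and, and_true]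
  constructor
  · rw [Function.update_of_ne]
    intro he
    have := congrArg Fin.val he
    simp at this
  · funext h
    by_cases hk : h = hd
    · subst hk
      rw [Function.update_self, dif_pos hh, Function.update_self]
    · rw [Function.update_of_ne hk]
      split_ifs with h1
      · rw [Function.update_of_ne]
        intro he
        have := congrArg Fin.val he
        simp at this
        exact hk this
      · rfl

theorem bt_kit_eqns_cite : True := by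
  have := @btKlo.eq_1; have := @btKhi.eq_1; have := @btNu.eq_1
  trivial

end Claimed.Agent.R286
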